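import Crest.Agent.R012.PoissonG_381
import Crest.Agent.R012.Weight_695

/-!
# Row 17, sign lemma (1): the theta series of `ℤ[ω]` (helper404)

`th s = ∑_{c ≠ 0} exp (-s nm c)`, `bs s = kap / s - th s`, `kap = 2π/√3`:

* `th_fe`  : `1 + th s = kap / s * (1 + th (kap² / s))`
* `bs_ge`  : `(1/25) min 1 (kap / s) ≤ bs s`,  `bs_le : bs s ≤ 1`
* `bs_bad` : `bs s ≤ 3 * bs (3 s)`
-/

set_option autoImplicit false

noncomputable section

open MeasureTheory Complex Set Filter Topology

namespace Crest.Agent.R017.SgM404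

open Crest.Agent.R012 Crest.Agent.R012.Eis

/-- `2π/√3` -/
def kap : ℝ := 2 * Real.pi / Real.sqrt 3

lemma kap_pos : 0 < kap := by unfold kap; positivity

lemma kap_sq : kap ^ 2 = 4 * Real.pi ^ 2 / 3 := by
  unfold kap
  rw [div_pow, Real.sq_sqrt (by norm_num)]
  ring

lemma kap_ge : 36 / 10 ≤ kap := by
  have h1 : (36 / 10 : ℝ) ^ 2 ≤ kap ^ 2 := by
    rw [kap_sq]
    have := Real.pi_gt_d4
    nlinarith
  exact (pow_le_pow_iff_left₀ (by norm_num) kap_pos.le (by norm_num)).mp h1

open Classical in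
/-- `∑_{c ≠ 0} exp (-s nm c)` -/
def th (s : ℝ) : ℝ := ∑' c : Eis, if c = 0 then 0 else Real.exp (-(s * (nm c : ℝ)))

lemma summable_full {s : ℝ} (hs : 0 < s) :
    Summable (fun c : Eis => Real.exp (-(s * (nm c : ℝ)))) := by
  have := K695.summable_gauss_Eis hs
  refine this.congr fun c => ?_
  rw [neg_mul]

lemma summable_th {s : ℝ} (hs : 0 < s) : open Classical in
    Summable (fun c : Eis => if c = 0 then 0 else Real.exp (-(s * (nm c : ℝ)))) := by
  classical
  refine Summable.of_nonneg_of_le (fun c => ?_) (fun c => ?_) (summable_full hs)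
  · split_ifs
    · exact le_rfl
    · exact (Real.exp_pos _).le
  · split_ifs
    · exact (Real.exp_pos _).le
    · exact le_rfl

lemma full_eq {s : ℝ} (hs : 0 < s) : ∑' c : Eis, Real.exp (-(s * (nm c : ℝ))) = 1 + th s := by
  classical
  rw [(summable_full hs).tsum_eq_add_tsum_ite 0]
  unfold th
  congr 1
  simp [nm_zero]

lemma th_nonneg (s : ℝ) : 0 ≤ th s := by
  unfold th
  refine tsum_nonneg fun c => ?_
  split_ifs
  · exact le_rfl
  · exact (Real.exp_pos _).le

theorem th_fe {s : ℝ} (hs : 0 < s) : 1 + th s = kap / s * (1 + th (kap ^ 2 / s)) := by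
  have hπ := Real.pi_pos
  have hk := kap_pos
  have ht : 0 < s / Real.pi := by positivity
  have h := Poisson381.poisson_gau ht 0
  have h2 := h.tsum_eq
  have hs2 : 0 < kap ^ 2 / s := by positivity
  rw [← full_eq hs, ← full_eq hs2]
  have e1 : ∀ m : Eis, Poisson381.gau (s / Real.pi) (0 + toC m) =
      ((Real.exp (-(s * (nm m : ℝ))) : ℝ) : ℂ) := by
    intro m
    unfold Poisson381.gau
    rw [zero_add, norm_toC_sq]
    congr 3
    field_simp
  have e2 : ∀ m : Eis, ((2 / Real.sqrt 3 * (s / Real.pi)⁻¹ : ℝ) : ℂ) *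
        (Poisson381.gau (4 / (3 * (s / Real.pi))) (toC m) * eC (0 * toC m / Poisson381.s3)) =
      ((kap / s * Real.exp (-(kap ^ 2 / s * (nm m : ℝ))) : ℝ) : ℂ) := by
    intro m
    unfold Poisson381.gau
    rw [zero_mul, zero_div, Poisson381.eC_zero, mul_one, norm_toC_sq, ← Complex.ofReal_mul]
    congr 2
    · unfold kap
      field_simp
    · congr 1
      rw [kap_sq]
      field_simp
  simp_rw [e1, e2] at h2
  rw [← Complex.ofReal_tsum, ← Complex.ofReal_tsum] at h2
  have h3 := Complex.ofReal_injective h2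
  rw [← h3, tsum_mul_left]

/-- termwise comparison -/
lemma th_mul_anti {s t : ℝ} (hs : 1 ≤ s) (hst : s ≤ t) : t * th t ≤ s * th s := by
  classical
  have hs0 : 0 < s := by linarith
  have ht0 : 0 < t := by linarith
  unfold th
  rw [← tsum_mul_left, ← tsum_mul_left]
  refine ((summable_th ht0).mul_left t).tsum_le_tsum (fun c => ?_) ((summable_th hs0).mul_left s)
  split_ifs with hc
  · simp
  · have hn : (1 : ℝ) ≤ nm c := by exact_mod_cast nm_pos.mpr hc
    -- t e^{-tN} ≤ s e^{-sN}:  t/s ≤ e^{(t-s)N}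
    have h1 : (t - s) * (nm c : ℝ) + 1 ≤ Real.exp ((t - s) * (nm c : ℝ)) :=
      Real.add_one_le_exp _
    have h2 : t ≤ s * Real.exp ((t - s) * (nm c : ℝ)) := by
      have h3 : s * ((t - s) * (nm c : ℝ) + 1) ≤ s * Real.exp ((t - s) * (nm c : ℝ)) :=
        mul_le_mul_of_nonneg_left h1 hs0.le
      have h4 : (t - s) * 1 ≤ s * ((t - s) * (nm c : ℝ)) := by
        have h5 : (t - s) * 1 ≤ (t - s) * (nm c : ℝ) :=
          mul_le_mul_of_nonneg_left hn (by linarith)
        have h6 : 0 ≤ (t - s) * (nm c : ℝ) := by nlinarith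
        nlinarith
      nlinarith
    have e : Real.exp (-(s * (nm c : ℝ))) =
        Real.exp (-(t * (nm c : ℝ))) * Real.exp ((t - s) * (nm c : ℝ)) := by
      rw [← Real.exp_add]; congr 1; ring
    rw [e]
    have := mul_le_mul_of_nonneg_right h2 (Real.exp_pos (-(t * (nm c : ℝ)))).le
    linarith

/-- one dimensional theta series -/
lemma int_sum_le {q : ℝ} (hq0 : 0 < q) (hq1 : q < 1) {e : ℝ} (he : 0 < e) (hq : Real.exp (-e) ≤ q) :
    ∑' n : ℤ, Real.exp (-e * (n : ℝ) ^ 2) ≤ 1 + 2 * (q / (1 - q)) := by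
  have hsum := K695.summable_gauss_int he
  have hge : ∀ n : ℕ, Real.exp (-e * (((n + 1 : ℕ) : ℤ) : ℝ) ^ 2) ≤ q * q ^ n := by
    intro n
    have h1 : Real.exp (-e * (((n + 1 : ℕ) : ℤ) : ℝ) ^ 2) ≤ Real.exp (-e) ^ (n + 1) := by
      rw [← Real.exp_nat_mul]
      apply Real.exp_le_exp.mpr
      push_cast
      have : (0 : ℝ) ≤ n := Nat.cast_nonneg n
      nlinarith [mul_nonneg he.le this, mul_nonneg (mul_nonneg he.le this) this]
    refine h1.trans ?_
    rw [← pow_succ']
    exact pow_le_pow_left₀ (Real.exp_pos _).le hq _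
  have hg : HasSum (fun n : ℕ => q * q ^ n) (q * (1 - q)⁻¹) :=
    (hasSum_geometric_of_lt_one hq0.le hq1).mul_left q
  have h1 : Summable (fun n : ℕ => Real.exp (-e * (((n + 1 : ℕ) : ℤ) : ℝ) ^ 2)) :=
    Summable.of_nonneg_of_le (fun _ => (Real.exp_pos _).le) hge hg.summable
  have hle : ∑' n : ℕ, Real.exp (-e * (((n + 1 : ℕ) : ℤ) : ℝ) ^ 2) ≤ q / (1 - q) := by
    refine (h1.tsum_le_tsum hge hg.summable).trans (le_of_eq ?_)
    rw [hg.tsum_eq, div_eq_mul_inv]
  set f : ℤ → ℝ := fun n : ℤ => Real.exp (-e * (n : ℝ) ^ 2) with hf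
  have hf1 : Summable (fun n : ℕ => f (n + 1)) := by
    refine h1.congr fun n => ?_
    simp only [hf]; push_cast; ring_nf
  have hf2 : Summable (fun n : ℕ => f (-(n + 1))) := by
    refine h1.congr fun n => ?_
    simp only [hf]; push_cast; ring_nf
  have key := tsum_of_add_one_of_neg_add_one hf1 hf2
  rw [key]
  have e0 : f 0 = 1 := by simp [hf]
  have e1 : ∑' n : ℕ, f (n + 1) = ∑' n : ℕ, Real.exp (-e * (((n + 1 : ℕ) : ℤ) : ℝ) ^ 2) := by
    refine tsum_congr fun n => ?_
    simp only [hf]; push_cast; ring_nf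
  have e2 : ∑' n : ℕ, f (-(n + 1)) = ∑' n : ℕ, Real.exp (-e * (((n + 1 : ℕ) : ℤ) : ℝ) ^ 2) := by
    refine tsum_congr fun n => ?_
    simp only [hf]; push_cast; ring_nf
  rw [e0, e1, e2]
  linarith

lemma th_le_of {q s : ℝ} (hq0 : 0 < q) (hq1 : q < 1) (hs : 0 < s) (hq : Real.exp (-(s / 2)) ≤ q) :
    1 + th s ≤ (1 + 2 * (q / (1 - q))) ^ 2 := by
  have h0 := int_sum_le hq0 hq1 (half_pos hs) hq
  have hsi := K695.summable_gauss_int (half_pos hs)
  have h1 : Summable (fun p : ℤ × ℤ => Real.exp (-(s / 2) * (p.1 : ℝ) ^ 2) *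
      Real.exp (-(s / 2) * (p.2 : ℝ) ^ 2)) :=
    hsi.mul_of_nonneg hsi (fun _ => (Real.exp_pos _).le) (fun _ => (Real.exp_pos _).le)
  have hinj : Function.Injective (fun z : Eis => (z.re, z.im)) := by
    intro x y h
    simp only [Prod.mk.injEq] at h
    exact ext' h.1 h.2
  rw [← full_eq hs]
  have h2 : ∑' c : Eis, Real.exp (-(s * (nm c : ℝ))) ≤ ∑' p : ℤ × ℤ,
      Real.exp (-(s / 2) * (p.1 : ℝ) ^ 2) * Real.exp (-(s / 2) * (p.2 : ℝ) ^ 2) := by
    refine Summable.tsum_le_tsum_of_inj (fun z : Eis => (z.re, z.im)) hinj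
      (fun p _ => by positivity) (fun c => ?_) (summable_full hs) h1
    rw [← Real.exp_add]
    apply Real.exp_le_exp.mpr
    have := K695.nm_ge c
    nlinarith
  refine h2.trans ?_
  rw [← hsi.tsum_mul_tsum hsi h1, sq]
  have hp : 0 ≤ ∑' n : ℤ, Real.exp (-(s / 2) * (n : ℝ) ^ 2) :=
    tsum_nonneg fun _ => (Real.exp_pos _).le
  exact mul_le_mul h0 h0 hp (hp.trans h0)

lemma exp_nine_fifth : 6 ≤ Real.exp (9 / 5) := by
  have h1 : (6 : ℝ) ^ 5 ≤ Real.exp (9 / 5) ^ 5 := by
    rw [← Real.exp_nat_mul]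
    have h2 : ((5 : ℕ) : ℝ) * (9 / 5) = ((9 : ℕ) : ℝ) * 1 := by norm_num
    rw [h2, Real.exp_nat_mul]
    have h3 := Real.exp_one_gt_d9
    have h4 : (2.7182818283 : ℝ) ^ 9 ≤ Real.exp 1 ^ 9 :=
      pow_le_pow_left₀ (by norm_num) h3.le 9
    refine le_trans ?_ h4
    norm_num
  exact (pow_le_pow_iff_left₀ (by norm_num) (Real.exp_pos _).le (by norm_num)).mp h1

lemma th_kap : th kap ≤ 24 / 25 := by
  have h := th_le_of (q := 1 / 6) (by norm_num) (by norm_num) kap_pos (by
    rw [Real.exp_neg, one_div]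
    apply inv_anti₀ (by norm_num)
    refine exp_nine_fifth.trans (Real.exp_le_exp.mpr ?_)
    have := kap_ge
    linarith)
  norm_num at h
  linarith

lemma th_big : th (36 / 5) ≤ 1 / 8 := by
  have h := th_le_of (q := 1 / 36) (s := 36 / 5) (by norm_num) (by norm_num) (by norm_num) (by
    rw [Real.exp_neg, one_div]
    apply inv_anti₀ (by norm_num)
    have e : (36 / 5 / 2 : ℝ) = 9 / 5 + 9 / 5 := by norm_num
    rw [e, Real.exp_add]
    have := exp_nine_fifth
    nlinarith)
  norm_num at h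
  linarith

/-- `kap / s - ∑_{c ≠ 0} exp (-s nm c)` -/
def bs (s : ℝ) : ℝ := kap / s - th s

lemma bs_fe {s : ℝ} (hs : 0 < s) : bs s = 1 - kap / s * th (kap ^ 2 / s) := by
  have := th_fe hs
  unfold bs
  linarith

lemma bs_le {s : ℝ} (hs : 0 < s) : bs s ≤ 1 := by
  rw [bs_fe hs]
  have := mul_nonneg (div_nonneg kap_pos.le hs.le) (th_nonneg (kap ^ 2 / s))
  linarith

lemma one_le_kap : 1 ≤ kap := by have := kap_ge; linarith

theorem bs_ge {s : ℝ} (hs : 0 < s) : 1 / 25 * min 1 (kap / s) ≤ bs s := by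
  have hk := kap_pos
  have hk1 := one_le_kap
  rcases le_total kap s with h | h
  · rw [min_eq_right ((div_le_one hs).mpr h)]
    have h1 := th_mul_anti hk1 h
    have h2 := mul_le_mul_of_nonneg_left th_kap hk.le
    have h3 : th s ≤ kap / s * (24 / 25) := by
      rw [div_mul_eq_mul_div, le_div_iff₀ hs]
      linarith
    unfold bs
    have : 0 < kap / s := by positivity
    linarith
  · rw [min_eq_left ((one_le_div hs).mpr h), bs_fe hs]
    have h0 : kap ≤ kap ^ 2 / s := by
      rw [le_div_iff₀ hs]; nlinarith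
    have h1 := th_mul_anti hk1 h0
    have h2 := mul_le_mul_of_nonneg_left th_kap hk.le
    have h3 : kap * (kap / s * th (kap ^ 2 / s)) ≤ kap * (24 / 25) := by
      have : kap * (kap / s * th (kap ^ 2 / s)) = kap ^ 2 / s * th (kap ^ 2 / s) := by ring
      rw [this]; linarith
    have h4 := le_of_mul_le_mul_left h3 hk
    linarith

lemma bs_nonneg {s : ℝ} (hs : 0 < s) : 0 ≤ bs s := by
  refine le_trans ?_ (bs_ge hs)
  have : 0 < kap / s := div_pos kap_pos hs
  positivity

/-- the class `λ ∤ c` -/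
theorem bs_bad {s : ℝ} (hs : 0 < s) : bs s ≤ 3 * bs (3 * s) := by
  classical
  have hk := kap_pos
  have hk1 := one_le_kap
  have h3s : 0 < 3 * s := by positivity
  rcases le_total (3 / 5) s with h | h
  · -- termwise
    have h1 : 3 * th (3 * s) ≤ th s := by
      unfold th
      rw [← tsum_mul_left]
      refine ((summable_th h3s).mul_left 3).tsum_le_tsum (fun c => ?_) (summable_th hs)
      split_ifs with hc
      · simp
      · have hn : (1 : ℝ) ≤ nm c := by exact_mod_cast nm_pos.mpr hc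
        have h5 : (3 : ℝ) ≤ Real.exp (2 * s * (nm c : ℝ)) := by
          have h6 : (6 / 5 : ℝ) ≤ 2 * s * (nm c : ℝ) := by nlinarith
          refine le_trans ?_ (Real.exp_le_exp.mpr h6)
          have h7 : (3 : ℝ) ^ 5 ≤ Real.exp (6 / 5) ^ 5 := by
            rw [← Real.exp_nat_mul]
            have h2 : ((5 : ℕ) : ℝ) * (6 / 5) = ((6 : ℕ) : ℝ) * 1 := by norm_num
            rw [h2, Real.exp_nat_mul]
            have h3 := Real.exp_one_gt_d9
            have h4 : (2.7182818283 : ℝ) ^ 6 ≤ Real.exp 1 ^ 6 :=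
              pow_le_pow_left₀ (by norm_num) h3.le 6
            refine le_trans ?_ h4
            norm_num
          exact (pow_le_pow_iff_left₀ (by norm_num) (Real.exp_pos _).le (by norm_num)).mp h7
        have e : Real.exp (-(s * (nm c : ℝ))) =
            Real.exp (-(3 * s * (nm c : ℝ))) * Real.exp (2 * s * (nm c : ℝ)) := by
          rw [← Real.exp_add]; congr 1; ring
        rw [e]
        have := mul_le_mul_of_nonneg_right h5 (Real.exp_pos (-(3 * s * (nm c : ℝ)))).le
        linarith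
    unfold bs
    have e : 3 * (kap / (3 * s) - th (3 * s)) = kap / s - 3 * th (3 * s) := by
      field_simp
    rw [e]
    linarith
  · rw [bs_fe hs, bs_fe h3s]
    have e : 3 * (1 - kap / (3 * s) * th (kap ^ 2 / (3 * s))) =
        3 - kap / s * th (kap ^ 2 / (3 * s)) := by
      field_simp
    rw [e]
    have h0 := mul_nonneg (div_nonneg hk.le hs.le) (th_nonneg (kap ^ 2 / s))
    set t := kap ^ 2 / (3 * s) with ht
    have ht0 : 36 / 5 ≤ t := by
      rw [ht, le_div_iff₀ h3s]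
      have := kap_ge
      nlinarith
    have h1 := th_mul_anti (s := 36 / 5) (by norm_num) ht0
    have h2 := th_big
    have h3 : kap / s * th t = 3 / kap * (t * th t) := by
      rw [ht]
      field_simp
    have h4 : kap / s * th t ≤ 2 := by
      rw [h3, div_mul_eq_mul_div, div_le_iff₀ hk]
      have := kap_ge
      linarith
    linarith

end Crest.Agent.R017.SgM404
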