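import Crest.Agent.R017.SgA_404
import Crest.Agent.R012.LatW_413

/-!
# Row 17, sign lemma (2): the density `rho` and the averaged bracket (helper404)

* `rho y = 3 (e^{-y⁻³} - e^{-8 y⁻³}) / y`
* `EE_eq` : `∫_0^∞ 3 (e^{-q} - e^{-2q}) e^{-α³ q⁻³} / q dq = ∫_0^∞ rho y e^{-α y} dy`
* `DD s = ∫ rho y * bs (s y) dy`; `DD_ge`, `DD_le`, `DD_bad`
* `hasSum_EE` : `∑_{c ≠ 0} EE (s nm c) = kap M / s - DD s`
-/

set_option autoImplicit false

noncomputable section

open MeasureTheory Complex Set Filter Topology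

namespace Crest.Agent.R017.SgM404

open Crest.Agent.R012 Crest.Agent.R012.Eis

/-- `3 (e^{-y⁻³} - e^{-8 y⁻³}) / y` -/
def rho (y : ℝ) : ℝ := 3 * (Real.exp (-(y⁻¹ ^ 3)) - Real.exp (-(8 * y⁻¹ ^ 3))) / y

lemma measurable_rho : Measurable rho := by
  unfold rho
  fun_prop

lemma rho_nonneg {y : ℝ} (hy : 0 < y) : 0 ≤ rho y := by
  unfold rho
  have h0 : 0 < y⁻¹ ^ 3 := by positivity
  have h1 : Real.exp (-(8 * y⁻¹ ^ 3)) ≤ Real.exp (-(y⁻¹ ^ 3)) :=
    Real.exp_le_exp.mpr (by linarith)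
  have h2 : 0 ≤ Real.exp (-(y⁻¹ ^ 3)) - Real.exp (-(8 * y⁻¹ ^ 3)) := by linarith
  positivity

lemma rho_pos {y : ℝ} (hy : 0 < y) : 0 < rho y := by
  unfold rho
  have h0 : 0 < y⁻¹ ^ 3 := by positivity
  have h1 : Real.exp (-(8 * y⁻¹ ^ 3)) < Real.exp (-(y⁻¹ ^ 3)) :=
    Real.exp_lt_exp.mpr (by linarith)
  have h2 : 0 < Real.exp (-(y⁻¹ ^ 3)) - Real.exp (-(8 * y⁻¹ ^ 3)) := by linarith
  positivity

lemma exp_neg_le_inv {t : ℝ} (ht : 0 < t) : Real.exp (-t) ≤ t⁻¹ := by
  rw [Real.exp_neg]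
  exact inv_anti₀ ht (by linarith [Real.add_one_le_exp t])

lemma rho_le_sq {y : ℝ} (hy : 0 < y) : rho y ≤ 3 * y ^ 2 := by
  unfold rho
  rw [div_le_iff₀ hy]
  have h0 : 0 < y⁻¹ ^ 3 := by positivity
  have h1 := exp_neg_le_inv h0
  have h2 : (y⁻¹ ^ 3)⁻¹ = y ^ 3 := by rw [inv_pow, inv_inv]
  rw [h2] at h1
  have h3 := Real.exp_pos (-(8 * y⁻¹ ^ 3))
  nlinarith

lemma rho_le_inv {y : ℝ} (hy : 0 < y) : rho y ≤ 21 * y⁻¹ ^ 4 := by
  unfold rho
  rw [div_le_iff₀ hy]
  have h0 : 0 < y⁻¹ ^ 3 := by positivity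
  have h1 : Real.exp (-(y⁻¹ ^ 3)) - Real.exp (-(8 * y⁻¹ ^ 3)) ≤ 7 * y⁻¹ ^ 3 := by
    have e : Real.exp (-(8 * y⁻¹ ^ 3)) =
        Real.exp (-(y⁻¹ ^ 3)) * Real.exp (-(7 * y⁻¹ ^ 3)) := by
      rw [← Real.exp_add]; congr 1; ring
    have h2 := Real.add_one_le_exp (-(7 * y⁻¹ ^ 3))
    have h3 : Real.exp (-(y⁻¹ ^ 3)) ≤ 1 := Real.exp_le_one_iff.mpr (by linarith)
    have h4 := Real.exp_pos (-(y⁻¹ ^ 3))
    rw [e]
    nlinarith
  have e2 : 21 * y⁻¹ ^ 4 * y = 3 * (7 * y⁻¹ ^ 3) := by field_simp; norm_num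
  rw [e2]
  linarith

lemma rho_le {y : ℝ} (hy : 0 < y) : rho y ≤ 42 * (1 + y ^ 2)⁻¹ := by
  rw [← div_eq_mul_inv, le_div_iff₀ (by positivity)]
  rcases le_total y 1 with h | h
  · have h1 := rho_le_sq hy
    have h2 : y ^ 2 ≤ 1 := by nlinarith
    have h3 := rho_nonneg hy
    nlinarith
  · have h1 := rho_le_inv hy
    have h2 : y⁻¹ ≤ 1 := inv_le_one_of_one_le₀ h
    have h3 : 0 < y⁻¹ := by positivity
    have h4 : y⁻¹ ^ 2 ≤ 1 := by nlinarith
    have h5 := rho_nonneg hy
    have h6 : rho y * (1 + y ^ 2) ≤ 21 * y⁻¹ ^ 4 * (1 + y ^ 2) :=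
      mul_le_mul_of_nonneg_right h1 (by positivity)
    have h7 : 21 * y⁻¹ ^ 4 * (1 + y ^ 2) = 21 * (y⁻¹ ^ 2 * y⁻¹ ^ 2 + y⁻¹ ^ 2) := by
      field_simp
    rw [h7] at h6
    nlinarith

lemma rho_div_le {y : ℝ} (hy : 0 < y) : rho y / y ≤ 42 * (1 + y ^ 2)⁻¹ := by
  rw [← div_eq_mul_inv, le_div_iff₀ (by positivity)]
  rcases le_total y 1 with h | h
  · have h1 := rho_le_sq hy
    have h2 : rho y / y ≤ 3 * y := by
      rw [div_le_iff₀ hy]; linarith
    have h3 : 0 ≤ rho y / y := div_nonneg (rho_nonneg hy) hy.le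
    nlinarith
  · have h1 := rho_le hy
    rw [← div_eq_mul_inv, le_div_iff₀ (by positivity)] at h1
    have h2 : rho y / y ≤ rho y := div_le_self (rho_nonneg hy) h
    have : rho y / y * (1 + y ^ 2) ≤ rho y * (1 + y ^ 2) :=
      mul_le_mul_of_nonneg_right h2 (by positivity)
    linarith

lemma integrableOn_bd : IntegrableOn (fun y : ℝ => 42 * (1 + y ^ 2)⁻¹) (Ioi 0) :=
  (integrable_inv_one_add_sq.const_mul 42).integrableOn

lemma rho_int : IntegrableOn rho (Ioi 0) := by
  refine Integrable.mono' integrableOn_bd measurable_rho.aestronglyMeasurable ?_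
  refine (ae_restrict_mem measurableSet_Ioi).mono fun y hy => ?_
  rw [Real.norm_of_nonneg (rho_nonneg hy)]
  exact rho_le hy

lemma rho_div_int : IntegrableOn (fun y => rho y / y) (Ioi 0) := by
  refine Integrable.mono' integrableOn_bd
    (measurable_rho.div measurable_id).aestronglyMeasurable ?_
  refine (ae_restrict_mem measurableSet_Ioi).mono fun y hy => ?_
  rw [Real.norm_of_nonneg (div_nonneg (rho_nonneg hy) (le_of_lt hy))]
  exact rho_div_le hy

/-- `∫ rho y / y dy` -/
def MM : ℝ := ∫ y in Ioi (0 : ℝ), rho y / y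

/-- `∫ rho y e^{-α y} dy` -/
def EE (α : ℝ) : ℝ := ∫ y in Ioi (0 : ℝ), rho y * Real.exp (-(α * y))

lemma EE_int {α : ℝ} (hα : 0 ≤ α) : IntegrableOn (fun y => rho y * Real.exp (-(α * y))) (Ioi 0) := by
  refine Integrable.mono' rho_int ?_ ?_
  · exact (measurable_rho.mul (by fun_prop)).aestronglyMeasurable
  · refine (ae_restrict_mem measurableSet_Ioi).mono fun y hy => ?_
    have hy' : 0 < y := hy
    rw [Real.norm_of_nonneg (mul_nonneg (rho_nonneg hy) (Real.exp_pos _).le)]
    have h1 : Real.exp (-(α * y)) ≤ 1 := Real.exp_le_one_iff.mpr (by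
      have := mul_nonneg hα hy'.le; linarith)
    exact mul_le_of_le_one_right (rho_nonneg hy) h1

lemma EE_nonneg (α : ℝ) : 0 ≤ EE α :=
  setIntegral_nonneg measurableSet_Ioi fun _ hy =>
    mul_nonneg (rho_nonneg hy) (Real.exp_pos _).le

lemma measurable_EE : Measurable EE := by
  have h : StronglyMeasurable (Function.uncurry fun (α y : ℝ) => rho y * Real.exp (-(α * y))) := by
    apply Measurable.stronglyMeasurable
    have : Measurable (fun p : ℝ × ℝ => rho p.2 * Real.exp (-(p.1 * p.2))) :=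
      (measurable_rho.comp measurable_snd).mul (by fun_prop)
    exact this
  exact (h.integral_prod_right (ν := volume.restrict (Ioi 0))).measurable

lemma EE_le {α : ℝ} (hα : 0 < α) : EE α ≤ 3 * Real.Gamma 3 * (1 / α) ^ 3 := by
  have h := Real.integral_rpow_mul_exp_neg_mul_Ioi (a := 3) (r := α) (by norm_num) hα
  have hi : IntegrableOn (fun y : ℝ => y ^ ((3 : ℝ) - 1) * Real.exp (-(α * y))) (Ioi 0) := by
    have h1 := integrableOn_rpow_mul_exp_neg_mul_rpow (s := 3 - 1) (p := 1) (b := α)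
      (by norm_num) one_pos hα
    refine h1.congr_fun (fun y _ => ?_) measurableSet_Ioi
    simp only [Real.rpow_one, neg_mul]
  have h2 : EE α ≤ ∫ y in Ioi (0 : ℝ), 3 * (y ^ ((3 : ℝ) - 1) * Real.exp (-(α * y))) := by
    refine setIntegral_mono_on (EE_int hα.le) (hi.const_mul 3) measurableSet_Ioi fun y hy => ?_
    have h3 := rho_le_sq hy
    have e : y ^ ((3 : ℝ) - 1) = y ^ 2 := by
      rw [show (3 : ℝ) - 1 = ((2 : ℕ) : ℝ) by norm_num, Real.rpow_natCast]
    rw [e, ← mul_assoc]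
    exact mul_le_mul_of_nonneg_right h3 (Real.exp_pos _).le
  rw [integral_const_mul, h] at h2
  refine h2.trans (le_of_eq ?_)
  rw [show (3 : ℝ) = ((3 : ℕ) : ℝ) by norm_num, Real.rpow_natCast]
  ring

/-! ### change of variables -/

/-- `e^{-k q} e^{-α³ q⁻³} / q` -/
def gq (k α q : ℝ) : ℝ := Real.exp (-(k * q)) * Real.exp (-(α ^ 3 * q⁻¹ ^ 3)) / q

lemma gq_int {k α : ℝ} (hk : 0 < k) (hα : 0 < α) : IntegrableOn (gq k α) (Ioi 0) := by
  have h1 := integrableOn_rpow_mul_exp_neg_mul_rpow (s := 2) (p := 1) (b := k)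
      (by norm_num) one_pos hk
  have h2 := h1.const_mul (α ^ 3)⁻¹
  refine Integrable.mono' h2 ?_ ?_
  · unfold gq
    exact Measurable.aestronglyMeasurable (by fun_prop)
  · refine (ae_restrict_mem measurableSet_Ioi).mono fun q hq => ?_
    have hq' : 0 < q := hq
    have h3 : 0 < α ^ 3 * q⁻¹ ^ 3 := by positivity
    unfold gq
    rw [Real.norm_of_nonneg (by positivity)]
    have h4 := exp_neg_le_inv h3
    rw [Real.rpow_one, Real.rpow_two, neg_mul]
    rw [div_le_iff₀ hq']
    have h5 : (α ^ 3 * q⁻¹ ^ 3)⁻¹ = (α ^ 3)⁻¹ * q ^ 3 := by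
      rw [mul_inv, inv_pow q, inv_inv]
    rw [h5] at h4
    have h6 := mul_le_mul_of_nonneg_left h4 (Real.exp_pos (-(k * q))).le
    calc _ ≤ _ := h6
      _ = _ := by ring

lemma gq_cv {k α : ℝ} (hk : 0 < k) (hα : 0 < α) :
    ∫ q in Ioi (0 : ℝ), gq k α q =
      ∫ y in Ioi (0 : ℝ), Real.exp (-(α * y)) * Real.exp (-(k ^ 3 * y⁻¹ ^ 3)) / y := by
  have hb : 0 < α / k := by positivity
  have h := integral_comp_mul_left_Ioi (gq k α) 0 hb
  rw [mul_zero, smul_eq_mul] at h
  have h2 : ∫ q in Ioi (0 : ℝ), gq k α q =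
      α / k * ∫ x in Ioi (0 : ℝ), gq k α (α / k * x) := by
    rw [h]; field_simp
  rw [h2, ← integral_const_mul]
  refine setIntegral_congr_fun measurableSet_Ioi fun y hy => ?_
  have hy' : 0 < y := hy
  simp only [gq]
  have e1 : k * (α / k * y) = α * y := by field_simp
  have e2 : α ^ 3 * (α / k * y)⁻¹ ^ 3 = k ^ 3 * y⁻¹ ^ 3 := by field_simp
  rw [e1, e2]
  field_simp

lemma EE_eq {α : ℝ} (hα : 0 < α) :
    ∫ q in Ioi (0 : ℝ), 3 * (Real.exp (-q) - Real.exp (-(2 * q))) *
      Real.exp (-(α ^ 3 * q⁻¹ ^ 3)) / q = EE α := by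
  have e1 : ∫ q in Ioi (0 : ℝ), 3 * (Real.exp (-q) - Real.exp (-(2 * q))) *
      Real.exp (-(α ^ 3 * q⁻¹ ^ 3)) / q =
      ∫ q in Ioi (0 : ℝ), (3 * gq 1 α q - 3 * gq 2 α q) := by
    refine setIntegral_congr_fun measurableSet_Ioi fun q _ => ?_
    simp only [gq, one_mul]
    ring
  rw [e1, integral_sub ((gq_int one_pos hα).const_mul 3) ((gq_int two_pos hα).const_mul 3),
    integral_const_mul, integral_const_mul, gq_cv one_pos hα, gq_cv two_pos hα,
    ← integral_const_mul, ← integral_const_mul, ← integral_sub]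
  · unfold EE
    refine setIntegral_congr_fun measurableSet_Ioi fun y _ => ?_
    simp only [rho]
    norm_num
    ring
  · have h := gq_int (k := α) (α := 1) hα one_pos
    refine IntegrableOn.congr_fun (h.const_mul 3) (fun y _ => ?_) measurableSet_Ioi
    simp only [gq]
  · have h := gq_int (k := α) (α := 2) hα two_pos
    refine IntegrableOn.congr_fun (h.const_mul 3) (fun y _ => ?_) measurableSet_Ioi
    simp only [gq]

/-! ### the averaged bracket -/

lemma th_antitone {s t : ℝ} (hs : 0 < s) (hst : s ≤ t) : th t ≤ th s := by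
  classical
  unfold th
  refine (summable_th (hs.trans_le hst)).tsum_le_tsum (fun c => ?_) (summable_th hs)
  split_ifs
  · exact le_rfl
  · apply Real.exp_le_exp.mpr
    have h : (0 : ℝ) ≤ nm c := Nat.cast_nonneg _
    have := mul_le_mul_of_nonneg_right hst h
    linarith

lemma th_le {s : ℝ} (hs : 0 < s) : th s ≤ kap / s := by
  have := bs_nonneg hs
  unfold bs at this
  linarith

lemma rho_th_int {s : ℝ} (hs : 0 < s) : IntegrableOn (fun y => rho y * th (s * y)) (Ioi 0) := by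
  refine Integrable.mono' (rho_div_int.const_mul (kap / s)) ?_ ?_
  · have h1 : AntitoneOn (fun y => th (s * y)) (Ioi 0) := by
      intro a ha b hb hab
      have ha' : 0 < a := ha
      exact th_antitone (by positivity) (mul_le_mul_of_nonneg_left hab hs.le)
    exact measurable_rho.aestronglyMeasurable.mul
      (aemeasurable_restrict_of_antitoneOn measurableSet_Ioi h1).aestronglyMeasurable
  · refine (ae_restrict_mem measurableSet_Ioi).mono fun y hy => ?_
    have hy' : 0 < y := hy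
    rw [Real.norm_of_nonneg (mul_nonneg (rho_nonneg hy) (th_nonneg _))]
    have h1 := th_le (s := s * y) (by positivity)
    have h2 := mul_le_mul_of_nonneg_left h1 (rho_nonneg hy)
    refine h2.trans (le_of_eq ?_)
    field_simp

/-- `∫ rho y * bs (s y) dy` -/
def DD (s : ℝ) : ℝ := ∫ y in Ioi (0 : ℝ), rho y * bs (s * y)

lemma rho_bs_int {s : ℝ} (hs : 0 < s) : IntegrableOn (fun y => rho y * bs (s * y)) (Ioi 0) := by
  have h := (rho_div_int.const_mul (kap / s)).sub (rho_th_int hs)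
  refine IntegrableOn.congr_fun h (fun y hy => ?_) measurableSet_Ioi
  have hy' : (y : ℝ) ≠ 0 := (ne_of_gt hy)
  simp only [Pi.sub_apply, bs]
  field_simp

lemma DD_eq {s : ℝ} (hs : 0 < s) :
    DD s = kap / s * MM - ∫ y in Ioi (0 : ℝ), rho y * th (s * y) := by
  unfold DD MM
  rw [← integral_const_mul, ← integral_sub (rho_div_int.const_mul (kap / s)) (rho_th_int hs)]
  refine setIntegral_congr_fun measurableSet_Ioi fun y hy => ?_
  have hy' : (y : ℝ) ≠ 0 := (ne_of_gt hy)
  simp only [bs]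
  field_simp

lemma DD_le {s : ℝ} (hs : 0 < s) : DD s ≤ ∫ y in Ioi (0 : ℝ), rho y := by
  refine setIntegral_mono_on (rho_bs_int hs) rho_int measurableSet_Ioi fun y hy => ?_
  have hy' : 0 < y := hy
  exact mul_le_of_le_one_right (rho_nonneg hy) (bs_le (by positivity))

lemma DD_nonneg {s : ℝ} (hs : 0 < s) : 0 ≤ DD s :=
  setIntegral_nonneg measurableSet_Ioi fun _ hy =>
    mul_nonneg (rho_nonneg hy) (bs_nonneg (mul_pos hs hy))

lemma DD_bad {s : ℝ} (hs : 0 < s) : DD s ≤ 3 * DD (3 * s) := by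
  unfold DD
  rw [← integral_const_mul]
  refine setIntegral_mono_on (rho_bs_int hs) ((rho_bs_int (by positivity)).const_mul 3)
    measurableSet_Ioi fun y hy => ?_
  have hy' : 0 < y := hy
  have h := bs_bad (s := s * y) (by positivity)
  have h2 := mul_le_mul_of_nonneg_left h (rho_nonneg hy)
  rw [mul_assoc 3 s y]
  linarith

/-- lower bound constant -/
def cD : ℝ := 1 / 25 * ∫ y in Ioi (0 : ℝ), rho y * min 1 y⁻¹

lemma rho_min_int : IntegrableOn (fun y => rho y * min 1 y⁻¹) (Ioi 0) := by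
  refine Integrable.mono' rho_int ?_ ?_
  · exact (measurable_rho.mul (by fun_prop)).aestronglyMeasurable
  · refine (ae_restrict_mem measurableSet_Ioi).mono fun y hy => ?_
    have hy' : 0 < y := hy
    have h0 : 0 ≤ min 1 y⁻¹ := by positivity
    rw [Real.norm_of_nonneg (mul_nonneg (rho_nonneg hy) h0)]
    exact mul_le_of_le_one_right (rho_nonneg hy) (min_le_left _ _)

lemma cD_pos : 0 < cD := by
  unfold cD
  have h : 0 < ∫ y in Ioi (0 : ℝ), rho y * min 1 y⁻¹ := by
    rw [setIntegral_pos_iff_support_of_nonneg_ae]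
    · have : Ioi (0 : ℝ) ⊆ Function.support (fun y => rho y * min 1 y⁻¹) := by
        intro y hy
        have hy' : 0 < y := hy
        have h1 := rho_pos hy
        have : 0 < min 1 y⁻¹ := by positivity
        exact (mul_pos h1 this).ne'
      rw [inter_eq_right.mpr this]
      simp
    · refine (ae_restrict_mem measurableSet_Ioi).mono fun y hy => ?_
      have hy' : 0 < y := hy
      have h0 : 0 ≤ min 1 y⁻¹ := by positivity
      exact mul_nonneg (rho_nonneg hy) h0
    · exact rho_min_int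
  linarith

lemma DD_ge {s : ℝ} (hs : 0 < s) : cD * min 1 s⁻¹ ≤ DD s := by
  have h1 : cD * min 1 s⁻¹ = ∫ y in Ioi (0 : ℝ), 1 / 25 * min 1 s⁻¹ * (rho y * min 1 y⁻¹) := by
    rw [integral_const_mul]; unfold cD; ring
  rw [h1]
  unfold DD
  refine setIntegral_mono_on (rho_min_int.const_mul _) (rho_bs_int hs) measurableSet_Ioi
    fun y hy => ?_
  have hy' : 0 < y := hy
  have h2 := bs_ge (s := s * y) (by positivity)
  have h3 : min 1 s⁻¹ * min 1 y⁻¹ ≤ min 1 (kap / (s * y)) := by
    have a1 : 0 ≤ min 1 s⁻¹ := by positivity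
    have a2 : 0 ≤ min 1 y⁻¹ := by positivity
    apply le_min
    · exact mul_le_one₀ (min_le_left _ _) a2 (min_le_left _ _)
    · have h4 : min 1 s⁻¹ * min 1 y⁻¹ ≤ s⁻¹ * y⁻¹ :=
        mul_le_mul (min_le_right _ _) (min_le_right _ _) a2 (by positivity)
      refine h4.trans ?_
      rw [← mul_inv, div_eq_mul_inv]
      have : 0 < (s * y)⁻¹ := by positivity
      have := one_le_kap
      nlinarith
  have h5 := mul_le_mul_of_nonneg_left h2 (rho_nonneg hy)
  have h6 := mul_le_mul_of_nonneg_left h3 (rho_nonneg hy)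
  nlinarith

open Classical in
/-- the cube sum of `EE` -/
theorem hasSum_EE {s : ℝ} (hs : 0 < s) :
    HasSum (fun c : Eis => if c = 0 then 0 else EE (s * nm c)) (kap * MM / s - DD s) := by
  have h := hasSum_integral_of_summable_integral_norm (μ := volume.restrict (Ioi (0 : ℝ)))
    (F := fun (c : Eis) (y : ℝ) => if c = 0 then 0 else rho y * Real.exp (-(s * y * (nm c : ℝ))))
    (fun c => by
      by_cases hc : c = 0
      · simp [hc]
      · simp only [hc, if_false]
        have := EE_int (α := s * nm c) (by positivity)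
        refine this.congr_fun (fun y _ => ?_) measurableSet_Ioi
        simp only
        congr 2
        ring)
    (by
      have hsum : Summable (fun c : Eis => if c = 0 then 0 else EE (s * nm c)) := by
        refine Summable.of_nonneg_of_le (fun c => ?_) (fun c => ?_)
          ((LatSum413.summable_nm_rpow (s := 3) (by norm_num)).mul_left
            (3 * Real.Gamma 3 * (1 / s) ^ 3))
        · split_ifs
          · exact le_rfl
          · exact EE_nonneg _
        · split_ifs with hc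
          · have h1 : 0 < Real.Gamma 3 := Real.Gamma_pos_of_pos (by norm_num)
            have h2 : 0 ≤ (nm c : ℝ) ^ (-3 : ℝ) := Real.rpow_nonneg (Nat.cast_nonneg _) _
            positivity
          · have hn : (0 : ℝ) < nm c := by exact_mod_cast nm_pos.mpr hc
            refine (EE_le (by positivity)).trans (le_of_eq ?_)
            rw [Real.rpow_neg hn.le, show (3 : ℝ) = ((3 : ℕ) : ℝ) by norm_num, Real.rpow_natCast]
            field_simp
      refine hsum.congr fun c => ?_
      by_cases hc : c = 0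
      · simp [hc]
      · simp only [hc, if_false]
        unfold EE
        refine setIntegral_congr_fun measurableSet_Ioi fun y hy => ?_
        rw [Real.norm_of_nonneg (mul_nonneg (rho_nonneg hy) (Real.exp_pos _).le)]
        congr 2
        ring)
  have e1 : ∀ c : Eis, (∫ y in Ioi (0 : ℝ), if c = 0 then 0 else
      rho y * Real.exp (-(s * y * (nm c : ℝ)))) = if c = 0 then 0 else EE (s * nm c) := by
    intro c
    by_cases hc : c = 0
    · simp [hc]
    · simp only [hc, if_false]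
      unfold EE
      refine setIntegral_congr_fun measurableSet_Ioi fun y hy => ?_
      congr 2
      ring
  simp_rw [e1] at h
  suffices e : kap * MM / s - DD s = ∫ y in Ioi (0 : ℝ), ∑' c : Eis,
      (if c = 0 then 0 else rho y * Real.exp (-(s * y * (nm c : ℝ)))) by
    rw [e]; exact h
  rw [DD_eq hs]
  have e2 : ∫ y in Ioi (0 : ℝ), rho y * th (s * y) = ∫ y in Ioi (0 : ℝ), ∑' c : Eis,
      (if c = 0 then 0 else rho y * Real.exp (-(s * y * (nm c : ℝ)))) := by
    refine setIntegral_congr_fun measurableSet_Ioi fun y hy => ?_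
    simp only [th]
    rw [← tsum_mul_left]
    refine tsum_congr fun c => ?_
    split_ifs
    · simp
    · rfl
  rw [← e2]
  ring

end Crest.Agent.R017.SgM404
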