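import Crest.Agent.R017.SgB_404
import Crest.Agent.R017.E1c_146
import Crest.Agent.R012.TateC_413

/-!
# Row 17, sign lemma (3): the outer weight `WW` and Parseval (helper404)

* `WW v = ∫_0^∞ 3 q² (e^{-q} - e^{-2q}) e^{-v q³} dq`
* `pars` : `∫ Wt φ (|y| R) WW(|y|²) dy = π ∫ φ(|z|²) EE (α z) dz`, `α³ = 4π² |z|² R²`
* `pars_exp` : the same over `σ ∈ ℝ`, `om σ = WW (e^σ) e^σ`
-/

set_option autoImplicit false

noncomputable section

open MeasureTheory Complex Set Filter Topology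

namespace Crest.Agent.R017.SgM404

open Crest.Agent.R012 Crest.Agent.R012.Eis Crest.Agent.R012.MC

/-- `3 q² (e^{-q} - e^{-2q})` -/
def wq (q : ℝ) : ℝ := 3 * q ^ 2 * (Real.exp (-q) - Real.exp (-(2 * q)))

lemma measurable_wq : Measurable wq := by unfold wq; fun_prop

lemma wq_nonneg {q : ℝ} (hq : 0 ≤ q) : 0 ≤ wq q := by
  unfold wq
  have h1 : Real.exp (-(2 * q)) ≤ Real.exp (-q) := Real.exp_le_exp.mpr (by linarith)
  have h2 : 0 ≤ Real.exp (-q) - Real.exp (-(2 * q)) := by linarith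
  positivity

lemma diff_le {q : ℝ} (_hq : 0 ≤ q) : Real.exp (-q) - Real.exp (-(2 * q)) ≤ q * Real.exp (-q) := by
  have e : Real.exp (-(2 * q)) = Real.exp (-q) * Real.exp (-q) := by
    rw [← Real.exp_add]; congr 1; ring
  have h1 := Real.add_one_le_exp (-q)
  have h2 := Real.exp_pos (-q)
  rw [e]
  nlinarith

lemma wq_le {q : ℝ} (hq : 0 ≤ q) : wq q ≤ 3 * q ^ 3 * Real.exp (-q) := by
  unfold wq
  have h := mul_le_mul_of_nonneg_left (diff_le hq) (by positivity : 0 ≤ 3 * q ^ 2)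
  calc _ ≤ _ := h
    _ = _ := by ring

lemma cube_exp_int : IntegrableOn (fun q : ℝ => 3 * q ^ 3 * Real.exp (-q)) (Ioi 0) := by
  have h1 := integrableOn_rpow_mul_exp_neg_mul_rpow (s := 3) (p := 1) (b := 1)
      (by norm_num) one_pos one_pos
  refine IntegrableOn.congr_fun (h1.const_mul 3) (fun q _ => ?_) measurableSet_Ioi
  simp only [Real.rpow_one]
  rw [show (3 : ℝ) = ((3 : ℕ) : ℝ) by norm_num, Real.rpow_natCast]
  push_cast
  ring_nf

lemma wq_int : IntegrableOn wq (Ioi 0) := by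
  refine Integrable.mono' cube_exp_int measurable_wq.aestronglyMeasurable ?_
  refine (ae_restrict_mem measurableSet_Ioi).mono fun q hq => ?_
  rw [Real.norm_of_nonneg (wq_nonneg (le_of_lt hq))]
  exact wq_le (le_of_lt hq)

/-- the outer weight -/
def WW (v : ℝ) : ℝ := ∫ q in Ioi (0 : ℝ), wq q * Real.exp (-(v * q ^ 3))

lemma measurable_WW : Measurable WW := by
  have h : StronglyMeasurable (Function.uncurry fun (v q : ℝ) => wq q * Real.exp (-(v * q ^ 3))) := by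
    apply Measurable.stronglyMeasurable
    have : Measurable (fun p : ℝ × ℝ => wq p.2 * Real.exp (-(p.1 * p.2 ^ 3))) :=
      (measurable_wq.comp measurable_snd).mul (by fun_prop)
    exact this
  exact (h.integral_prod_right (ν := volume.restrict (Ioi 0))).measurable

lemma WW_nonneg (v : ℝ) : 0 ≤ WW v :=
  setIntegral_nonneg measurableSet_Ioi fun _ hq =>
    mul_nonneg (wq_nonneg (le_of_lt hq)) (Real.exp_pos _).le

lemma WW_int {v : ℝ} (hv : 0 ≤ v) :
    IntegrableOn (fun q => wq q * Real.exp (-(v * q ^ 3))) (Ioi 0) := by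
  refine Integrable.mono' wq_int ?_ ?_
  · exact (measurable_wq.mul (by fun_prop)).aestronglyMeasurable
  · refine (ae_restrict_mem measurableSet_Ioi).mono fun q hq => ?_
    have hq' : 0 < q := hq
    rw [Real.norm_of_nonneg (mul_nonneg (wq_nonneg hq'.le) (Real.exp_pos _).le)]
    exact mul_le_of_le_one_right (wq_nonneg hq'.le) (Real.exp_le_one_iff.mpr (by
      have : 0 ≤ v * q ^ 3 := by positivity
      linarith))

/-- `∫ wq` -/
def CW : ℝ := ∫ q in Ioi (0 : ℝ), wq q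

lemma CW_nonneg : 0 ≤ CW :=
  setIntegral_nonneg measurableSet_Ioi fun _ hq => wq_nonneg (le_of_lt hq)

lemma WW_le {v : ℝ} (hv : 0 ≤ v) : WW v ≤ CW := by
  refine setIntegral_mono_on (WW_int hv) wq_int measurableSet_Ioi fun q hq => ?_
  have hq' : 0 < q := hq
  exact mul_le_of_le_one_right (wq_nonneg hq'.le) (Real.exp_le_one_iff.mpr (by
      have : 0 ≤ v * q ^ 3 := by positivity
      linarith))

/-- `∫ 3 q³ e^{-q³}` -/
def CW2 : ℝ := ∫ q in Ioi (0 : ℝ), 3 * q ^ 3 * Real.exp (-(q ^ 3))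

lemma CW2_nonneg : 0 ≤ CW2 :=
  setIntegral_nonneg measurableSet_Ioi fun q hq => by
    have hq' : 0 < q := hq
    positivity

lemma cube_exp3_int {v : ℝ} (hv : 0 < v) :
    IntegrableOn (fun q : ℝ => 3 * q ^ 3 * Real.exp (-(v * q ^ 3))) (Ioi 0) := by
  have h1 := integrableOn_rpow_mul_exp_neg_mul_rpow (s := 3) (p := 3) (b := v)
      (by norm_num) (by norm_num) hv
  refine IntegrableOn.congr_fun (h1.const_mul 3) (fun q _ => ?_) measurableSet_Ioi
  rw [show (3 : ℝ) = ((3 : ℕ) : ℝ) by norm_num, Real.rpow_natCast]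
  push_cast
  ring_nf

lemma WW_exp_le (σ : ℝ) : WW (Real.exp σ) ≤ CW2 * Real.exp (-(4 / 3 * σ)) := by
  have hb : 0 < Real.exp (σ / 3) := Real.exp_pos _
  have e3 : Real.exp σ = Real.exp (σ / 3) ^ 3 := by
    rw [← Real.exp_nat_mul]; congr 1; push_cast; ring
  have h1 : WW (Real.exp σ) ≤ ∫ q in Ioi (0 : ℝ), 3 * q ^ 3 * Real.exp (-(Real.exp σ * q ^ 3)) := by
    refine setIntegral_mono_on (WW_int (Real.exp_pos _).le) (cube_exp3_int (Real.exp_pos _))
      measurableSet_Ioi fun q hq => ?_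
    have hq' : 0 < q := hq
    refine mul_le_mul_of_nonneg_right ?_ (Real.exp_pos _).le
    refine (wq_le hq'.le).trans ?_
    exact mul_le_of_le_one_right (by positivity) (Real.exp_le_one_iff.mpr (by linarith))
  refine h1.trans (le_of_eq ?_)
  have h2 := integral_comp_mul_left_Ioi (fun q : ℝ => 3 * q ^ 3 * Real.exp (-(q ^ 3))) 0 hb
  rw [mul_zero, smul_eq_mul] at h2
  have h3 : ∫ q in Ioi (0 : ℝ), 3 * q ^ 3 * Real.exp (-(Real.exp σ * q ^ 3)) =
      (Real.exp (σ / 3) ^ 3)⁻¹ * ∫ x in Ioi (0 : ℝ), 3 * (Real.exp (σ / 3) * x) ^ 3 *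
        Real.exp (-((Real.exp (σ / 3) * x) ^ 3)) := by
    rw [← integral_const_mul]
    refine setIntegral_congr_fun measurableSet_Ioi fun q _ => ?_
    rw [e3, mul_pow]
    field_simp
  rw [h3, h2, ← mul_assoc]
  unfold CW2
  rw [mul_comm]
  congr 1
  rw [← mul_inv, ← pow_succ, ← Real.exp_nat_mul, ← Real.exp_neg]
  congr 1
  push_cast
  ring

/-! ### the density on the line -/

/-- `WW (e^σ) e^σ` -/
def om (σ : ℝ) : ℝ := WW (Real.exp σ) * Real.exp σ

lemma measurable_om : Measurable om :=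
  (measurable_WW.comp Real.measurable_exp).mul Real.measurable_exp

lemma om_nonneg (σ : ℝ) : 0 ≤ om σ := mul_nonneg (WW_nonneg _) (Real.exp_pos _).le

lemma om_le1 (σ : ℝ) : om σ ≤ CW * Real.exp σ :=
  mul_le_mul_of_nonneg_right (WW_le (Real.exp_pos _).le) (Real.exp_pos _).le

lemma om_le2 (σ : ℝ) : om σ ≤ CW2 * Real.exp (-(σ / 3)) := by
  have h := mul_le_mul_of_nonneg_right (WW_exp_le σ) (Real.exp_pos σ).le
  unfold om
  refine h.trans (le_of_eq ?_)
  rw [mul_assoc, ← Real.exp_add]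
  congr 2
  ring

/-- `om σ e^{-aσ}` is integrable for `0 ≤ a < 1` -/
lemma om_exp_int {a : ℝ} (ha0 : 0 ≤ a) (ha1 : a < 1) :
    Integrable (fun σ => om σ * Real.exp (-(a * σ))) := by
  have hm : AEStronglyMeasurable (fun σ => om σ * Real.exp (-(a * σ))) :=
    (measurable_om.mul (by fun_prop)).aestronglyMeasurable
  have hnn : ∀ σ, 0 ≤ om σ * Real.exp (-(a * σ)) := fun σ =>
    mul_nonneg (om_nonneg σ) (Real.exp_pos _).le
  rw [← integrableOn_univ, ← Iic_union_Ioi (a := (0 : ℝ))]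
  refine IntegrableOn.union ?_ ?_
  · have h := (integrableOn_exp_mul_Iic (a := 1 - a) (by linarith) 0).const_mul CW
    refine Integrable.mono' h hm.restrict (Eventually.of_forall fun σ => ?_)
    rw [Real.norm_of_nonneg (hnn σ)]
    have h1 := mul_le_mul_of_nonneg_right (om_le1 σ) (Real.exp_pos (-(a * σ))).le
    refine h1.trans (le_of_eq ?_)
    rw [mul_assoc, ← Real.exp_add]
    congr 2
    ring
  · have h := (integrableOn_exp_mul_Ioi (a := -(1 / 3 + a)) (by linarith) 0).const_mul CW2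
    refine Integrable.mono' h hm.restrict (Eventually.of_forall fun σ => ?_)
    rw [Real.norm_of_nonneg (hnn σ)]
    have h1 := mul_le_mul_of_nonneg_right (om_le2 σ) (Real.exp_pos (-(a * σ))).le
    refine h1.trans (le_of_eq ?_)
    rw [mul_assoc, ← Real.exp_add]
    congr 2
    ring

/-! ### Parseval -/

lemma gauss_mass {s : ℝ} (hs : 0 < s) : ∫ y : ℂ, Real.exp (-(s * ‖y‖ ^ 2)) = Real.pi / s := by
  have h := TateC413.gauss_ft hs 0
  have e : ∀ u : ℂ, (Real.exp (-(s * ‖u‖ ^ 2)) : ℂ) * eC (0 * u) =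
      ((Real.exp (-(s * ‖u‖ ^ 2)) : ℝ) : ℂ) := by
    intro u
    simp [eC]
  simp_rw [e] at h
  rw [integral_complex_ofReal] at h
  have h2 := Complex.ofReal_injective h
  rw [h2]
  simp

lemma P_int : Integrable (fun p : ℂ × ℝ => wq p.2 * Real.exp (-(p.2 ^ 3 * ‖p.1‖ ^ 2)))
    (volume.prod (volume.restrict (Ioi 0))) := by
  have hm : AEStronglyMeasurable (fun p : ℂ × ℝ => wq p.2 * Real.exp (-(p.2 ^ 3 * ‖p.1‖ ^ 2)))
      (volume.prod (volume.restrict (Ioi 0))) := by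
    apply Measurable.aestronglyMeasurable
    exact (measurable_wq.comp measurable_snd).mul (by fun_prop)
  rw [integrable_prod_iff' hm]
  constructor
  · refine (ae_restrict_mem measurableSet_Ioi).mono fun q hq => ?_
    have hq' : 0 < q := hq
    exact (TateC413.integrable_gauss (s := q ^ 3) (by positivity)).const_mul (wq q)
  · have h := ((integrableOn_exp_mul_Ioi (a := -1) (by norm_num) 0).const_mul (3 * Real.pi))
    refine Integrable.mono' h ?_ ?_
    · exact (hm.norm.prod_swap.integral_prod_right')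
    · refine (ae_restrict_mem measurableSet_Ioi).mono fun q hq => ?_
      have hq' : 0 < q := hq
      have e : ∫ y : ℂ, ‖wq q * Real.exp (-(q ^ 3 * ‖y‖ ^ 2))‖ = wq q * (Real.pi / q ^ 3) := by
        rw [← gauss_mass (s := q ^ 3) (by positivity), ← integral_const_mul]
        congr 1
        funext y
        rw [Real.norm_of_nonneg (mul_nonneg (wq_nonneg hq'.le) (Real.exp_pos _).le)]
      rw [e, Real.norm_of_nonneg (mul_nonneg (wq_nonneg hq'.le) (by positivity))]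
      unfold wq
      have h1 := diff_le hq'.le
      have h2 : 3 * q ^ 2 * (Real.exp (-q) - Real.exp (-(2 * q))) * (Real.pi / q ^ 3) =
          3 * Real.pi * ((Real.exp (-q) - Real.exp (-(2 * q))) / q) := by
        field_simp
      rw [h2]
      refine mul_le_mul_of_nonneg_left ?_ (by positivity)
      rw [div_le_iff₀ hq', neg_mul, one_mul]
      linarith

lemma Wt_cont {φ : ℝ → ℝ} (hφ : Wgt φ) : ContinuousOn (Wt φ) (Ici 0) := by
  obtain ⟨L, hL, h⟩ := Wt_lip hφ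
  have : LipschitzOnWith ⟨L, hL⟩ (Wt φ) (Ici 0) := by
    refine LipschitzOnWith.of_dist_le_mul fun x hx y hy => ?_
    rw [Real.dist_eq, Real.dist_eq]
    exact h x y hx hy
  exact this.continuousOn

lemma Wt_norm_cont {φ : ℝ → ℝ} (hφ : Wgt φ) {R : ℝ} (hR : 0 ≤ R) :
    Continuous (fun y : ℂ => Wt φ (‖y‖ * R)) :=
  (Wt_cont hφ).comp_continuous (by fun_prop) (fun y => mul_nonneg (norm_nonneg y) hR)

lemma Wt_bdd {φ : ℝ → ℝ} (hφ : Wgt φ) : ∃ C : ℝ, 0 ≤ C ∧ ∀ t, 0 ≤ t → |Wt φ t| ≤ C := by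
  obtain ⟨C, hC, h⟩ := Wt_decay hφ 0
  exact ⟨C, hC, fun t ht => by simpa using h t ht⟩

lemma fw_int {φ : ℝ → ℝ} (hφ : Wgt φ) : Integrable (fw φ) := (fS hφ).integrable

lemma phi_int {φ : ℝ → ℝ} (hφ : Wgt φ) : Integrable (fun z : ℂ => φ (‖z‖ ^ 2)) := by
  have h := (fw_int hφ).re
  refine h.congr (Eventually.of_forall fun z => ?_)
  simp [fw]

/-- Gaussian against the transformed weight -/
lemma gauss_Wt {φ : ℝ → ℝ} (hφ : Wgt φ) {R s : ℝ} (hR : 0 < R) (hs : 0 < s) :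
    ∫ y : ℂ, Real.exp (-(s * ‖y‖ ^ 2)) * Wt φ (‖y‖ * R) =
      Real.pi / s * ∫ z : ℂ, Real.exp (-(4 * Real.pi ^ 2 * ‖z‖ ^ 2 * R ^ 2 / s)) * φ (‖z‖ ^ 2) := by
  have hs' : 0 < s / R ^ 2 := by positivity
  have h := TateC413.mult_gauss (fw_int hφ) hs'
  have e1 : ∀ u : ℂ, (Real.exp (-(s / R ^ 2 * ‖u‖ ^ 2)) : ℂ) * (∫ z, fw φ z * eC (z * u)) =
      ((Real.exp (-(s / R ^ 2 * ‖u‖ ^ 2)) * Wt φ ‖u‖ : ℝ) : ℂ) := by
    intro u
    have h1 := fC_fw φ (-u)
    rw [norm_neg] at h1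
    have h2 : (∫ z, fw φ z * eC (z * u)) = Po581.fC (fw φ) (-u) := by
      unfold Po581.fC
      congr 1
      funext z
      congr 2
      ring
    rw [h2, h1]
    push_cast
    ring
  have e2 : ∀ z : ℂ, ((Real.pi / (s / R ^ 2) *
      Real.exp (-(4 * Real.pi ^ 2 * ‖z‖ ^ 2 / (s / R ^ 2))) : ℝ) : ℂ) * fw φ z =
      ((R ^ 2 * (Real.pi / s * (Real.exp (-(4 * Real.pi ^ 2 * ‖z‖ ^ 2 * R ^ 2 / s)) *
        φ (‖z‖ ^ 2))) : ℝ) : ℂ) := by
    intro z
    unfold fw
    rw [← Complex.ofReal_mul]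
    congr 1
    have e3 : 4 * Real.pi ^ 2 * ‖z‖ ^ 2 / (s / R ^ 2) = 4 * Real.pi ^ 2 * ‖z‖ ^ 2 * R ^ 2 / s := by
      field_simp
    rw [e3]
    field_simp
  simp_rw [e1, e2] at h
  rw [integral_complex_ofReal, integral_complex_ofReal] at h
  have h3 := Complex.ofReal_injective h
  rw [integral_const_mul, integral_const_mul] at h3
  have h4 := Measure.integral_comp_smul (volume : Measure ℂ)
    (fun u : ℂ => Real.exp (-(s / R ^ 2 * ‖u‖ ^ 2)) * Wt φ ‖u‖) R
  rw [Complex.finrank_real_complex, abs_of_pos (by positivity), smul_eq_mul, h3] at h4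
  have e5 : (∫ y : ℂ, Real.exp (-(s * ‖y‖ ^ 2)) * Wt φ (‖y‖ * R)) =
      ∫ x : ℂ, (fun u : ℂ => Real.exp (-(s / R ^ 2 * ‖u‖ ^ 2)) * Wt φ ‖u‖) (R • x) := by
    congr 1
    funext y
    simp only
    rw [norm_smul, Real.norm_of_nonneg hR.le]
    congr 2
    · field_simp
    · ring
  rw [e5, h4]
  field_simp

/-- **Parseval** -/
theorem pars {φ : ℝ → ℝ} (hφ : Wgt φ) {R : ℝ} (hR : 0 < R) {α : ℂ → ℝ} (hαm : Measurable α)
    (hα : ∀ z, z ≠ 0 → 0 < α z) (hα3 : ∀ z, α z ^ 3 = 4 * Real.pi ^ 2 * ‖z‖ ^ 2 * R ^ 2) :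
    ∫ y : ℂ, Wt φ (‖y‖ * R) * WW (‖y‖ ^ 2) = Real.pi * ∫ z : ℂ, φ (‖z‖ ^ 2) * EE (α z) := by
  -- left side
  have hF : Integrable (Function.uncurry fun (y : ℂ) (q : ℝ) =>
      Wt φ (‖y‖ * R) * (wq q * Real.exp (-(q ^ 3 * ‖y‖ ^ 2))))
      (volume.prod (volume.restrict (Ioi 0))) := by
    obtain ⟨C, hC, hb⟩ := Wt_bdd hφ
    refine P_int.bdd_mul (c := C) ?_ ?_
    · exact ((Wt_norm_cont hφ hR.le).comp continuous_fst).aestronglyMeasurable
    · exact Eventually.of_forall fun p => hb _ (mul_nonneg (norm_nonneg _) hR.le)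
  have hL : ∫ y : ℂ, Wt φ (‖y‖ * R) * WW (‖y‖ ^ 2) =
      ∫ q in Ioi (0 : ℝ), ∫ y : ℂ, Wt φ (‖y‖ * R) * (wq q * Real.exp (-(q ^ 3 * ‖y‖ ^ 2))) := by
    rw [← integral_integral_swap hF]
    congr 1
    funext y
    unfold WW
    rw [← integral_const_mul]
    congr 1
    funext q
    rw [mul_comm (‖y‖ ^ 2)]
  have hL2 : ∀ q ∈ Ioi (0 : ℝ), (∫ y : ℂ, Wt φ (‖y‖ * R) *
      (wq q * Real.exp (-(q ^ 3 * ‖y‖ ^ 2)))) = wq q * (Real.pi / q ^ 3 *
        ∫ z : ℂ, Real.exp (-(4 * Real.pi ^ 2 * ‖z‖ ^ 2 * R ^ 2 / q ^ 3)) * φ (‖z‖ ^ 2)) := by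
    intro q hq
    have hq' : 0 < q := hq
    rw [← gauss_Wt hφ hR (by positivity), ← integral_const_mul]
    congr 1
    funext y
    ring
  rw [hL, setIntegral_congr_fun measurableSet_Ioi hL2]
  -- right side
  have hG : Integrable (Function.uncurry fun (z : ℂ) (q : ℝ) =>
      φ (‖z‖ ^ 2) * (3 * (Real.exp (-q) - Real.exp (-(2 * q))) *
        Real.exp (-(α z ^ 3 * q⁻¹ ^ 3)) / q)) (volume.prod (volume.restrict (Ioi 0))) := by
    have h1 : Integrable (fun q : ℝ => 3 * Real.exp (-q)) (volume.restrict (Ioi 0)) := by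
      have := (integrableOn_exp_mul_Ioi (a := -1) (by norm_num) 0).const_mul 3
      simpa using this
    have h2 := (phi_int hφ).norm.mul_prod h1
    refine Integrable.mono' h2 ?_ ?_
    · apply Measurable.aestronglyMeasurable
      have m1 : Measurable (fun p : ℂ × ℝ => φ (‖p.1‖ ^ 2)) :=
        hφ.smooth.continuous.measurable.comp (by fun_prop)
      have m2 : Measurable (fun p : ℂ × ℝ => α p.1) := hαm.comp measurable_fst
      have m3 : Measurable (fun p : ℂ × ℝ => 3 * (Real.exp (-p.2) - Real.exp (-(2 * p.2)))) := by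
        fun_prop
      have m4 : Measurable (fun p : ℂ × ℝ => Real.exp (-(α p.1 ^ 3 * p.2⁻¹ ^ 3))) :=
        Real.measurable_exp.comp ((m2.pow_const 3).mul (measurable_snd.inv.pow_const 3)).neg
      exact m1.mul ((m3.mul m4).div measurable_snd)
    · have hae : ∀ᵐ p : ℂ × ℝ ∂(volume.prod (volume.restrict (Ioi (0 : ℝ)))), p.2 ∈ Ioi (0 : ℝ) := by
        have h3 : ∀ᵐ q : ℝ ∂(volume.restrict (Ioi (0 : ℝ))), q ∈ Ioi (0 : ℝ) :=
          ae_restrict_mem measurableSet_Ioi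
        exact Measure.quasiMeasurePreserving_snd.ae h3
      filter_upwards [hae] with p hp
      have hq' : 0 < p.2 := hp
      simp only [Function.uncurry]
      rw [norm_mul]
      refine mul_le_mul_of_nonneg_left ?_ (norm_nonneg _)
      have h4 : 0 ≤ Real.exp (-p.2) - Real.exp (-(2 * p.2)) := by
        have : Real.exp (-(2 * p.2)) ≤ Real.exp (-p.2) := Real.exp_le_exp.mpr (by linarith)
        linarith
      rw [Real.norm_of_nonneg (by positivity), div_le_iff₀ hq']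
      have h5 := diff_le hq'.le
      have h6 : Real.exp (-(α p.1 ^ 3 * p.2⁻¹ ^ 3)) ≤ 1 := by
        apply Real.exp_le_one_iff.mpr
        have : 0 ≤ α p.1 ^ 3 := by rw [hα3]; positivity
        have : 0 ≤ α p.1 ^ 3 * p.2⁻¹ ^ 3 := by positivity
        linarith
      have h7 : 3 * (Real.exp (-p.2) - Real.exp (-(2 * p.2))) * Real.exp (-(α p.1 ^ 3 * p.2⁻¹ ^ 3)) ≤
          3 * (Real.exp (-p.2) - Real.exp (-(2 * p.2))) :=
        mul_le_of_le_one_right (by positivity) h6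
      linarith
  have hR1 : ∫ z : ℂ, φ (‖z‖ ^ 2) * EE (α z) = ∫ z : ℂ, ∫ q in Ioi (0 : ℝ), φ (‖z‖ ^ 2) *
      (3 * (Real.exp (-q) - Real.exp (-(2 * q))) * Real.exp (-(α z ^ 3 * q⁻¹ ^ 3)) / q) := by
    congr 1
    funext z
    rw [integral_const_mul]
    by_cases hz : z = 0
    · have : φ (‖z‖ ^ 2) = 0 := by
        rw [hz]
        by_contra h0
        have h1 := hφ.pos (subset_tsupport _ h0)
        simp at h1
      rw [this, zero_mul, zero_mul]
    · rw [EE_eq (hα z hz)]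
  rw [hR1, integral_integral_swap hG, ← integral_const_mul]
  refine setIntegral_congr_fun measurableSet_Ioi fun q hq => ?_
  have hq' : 0 < q := hq
  rw [← integral_const_mul, ← integral_const_mul, ← integral_const_mul]
  congr 1
  funext z
  rw [hα3]
  have e : 4 * Real.pi ^ 2 * ‖z‖ ^ 2 * R ^ 2 * q⁻¹ ^ 3 =
      4 * Real.pi ^ 2 * ‖z‖ ^ 2 * R ^ 2 / q ^ 3 := by
    field_simp
  rw [e]
  unfold wq
  field_simp

/-- logarithmic polar coordinates -/
lemma polar_exp (f : ℝ → ℝ) :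
    ∫ z : ℂ, f ‖z‖ = Real.pi * ∫ σ : ℝ, f (Real.exp (σ / 2)) * Real.exp σ := by
  rw [TateC413.integral_radial]
  have h := integral_image_eq_integral_abs_deriv_smul (s := univ)
    (f := fun σ : ℝ => Real.exp (σ / 2)) (f' := fun σ : ℝ => Real.exp (σ / 2) * (1 / 2))
    MeasurableSet.univ
    (fun x _ => by
      have h1 : HasDerivAt (fun σ : ℝ => σ / 2) (1 / 2) x := by
        simpa using (hasDerivAt_id x).div_const 2
      exact h1.exp.hasDerivWithinAt)
    (fun x _ y _ hxy => by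
      have := Real.exp_injective hxy
      linarith)
    (fun y : ℝ => y • f y)
  have hi : (fun σ : ℝ => Real.exp (σ / 2)) '' univ = Ioi 0 := by
    ext y
    constructor
    · rintro ⟨σ, -, rfl⟩
      exact Real.exp_pos _
    · intro hy
      refine ⟨2 * Real.log y, trivial, ?_⟩
      simp only
      rw [mul_div_cancel_left₀ _ (two_ne_zero), Real.exp_log hy]
  rw [hi] at h
  rw [h, smul_eq_mul, Measure.restrict_univ, mul_assoc, mul_comm 2, mul_assoc, ← integral_mul_const]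
  congr 2
  funext σ
  have e : Real.exp σ = Real.exp (σ / 2) * Real.exp (σ / 2) := by
    rw [← Real.exp_add]; congr 1; ring
  rw [e, abs_of_pos (by positivity), smul_eq_mul, smul_eq_mul]
  ring

theorem pars_exp {φ : ℝ → ℝ} (hφ : Wgt φ) {R : ℝ} (hR : 0 < R) {α : ℂ → ℝ} (hαm : Measurable α)
    (hα : ∀ z, z ≠ 0 → 0 < α z) (hα3 : ∀ z, α z ^ 3 = 4 * Real.pi ^ 2 * ‖z‖ ^ 2 * R ^ 2) :
    ∫ σ : ℝ, Wt φ (Real.exp (σ / 2) * R) * om σ = ∫ z : ℂ, φ (‖z‖ ^ 2) * EE (α z) := by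
  have h := pars hφ hR hαm hα hα3
  have h2 := polar_exp (fun r => Wt φ (r * R) * WW (r ^ 2))
  rw [h2] at h
  have h3 := mul_left_cancel₀ Real.pi_ne_zero h
  rw [← h3]
  congr 1
  funext σ
  unfold om
  rw [← Real.exp_nat_mul]
  have : ((2 : ℕ) : ℝ) * (σ / 2) = σ := by push_cast; ring
  rw [this]
  ring

end Crest.Agent.R017.SgM404
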