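import Crest.Agent.R017.E1defs_551

/-!
# Row 17, (Sgn'): the cube sum `Tc` is a continuous functional of the weight

`Tc_bound` : `|Tc w x| ≤ C p(f) min(1, e^{-x/3})` if `f z = w(|z|²)` is Schwartz, `p` a fixed
continuous seminorm.
-/

set_option autoImplicit false

noncomputable section

open MeasureTheory Complex Set Filter Topology
open scoped ContDiff SchwartzMap FourierTransform

namespace Crest.Agent.R017.SgnU92

open Crest.Agent.R012 Crest.Agent.R012.Eis Crest.Agent.R012.MC Crest.Agent.R012.LatSum413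
open Crest.Agent.R012.Cube777
open Crest.Agent.R017.E1551 (Sc mc Tc)

/-- `f` represents the radial function `w(|z|²)`. -/
def RS (f : 𝓢(ℂ, ℂ)) (w : ℝ → ℝ) : Prop := ∀ z : ℂ, f z = ((w (‖z‖ ^ 2) : ℝ) : ℂ)

/-- `f ↦ (z ↦ f^ (2 conj z³))`, continuous linear. -/
def FF : 𝓢(ℂ, ℂ) →L[ℂ] 𝓢(ℂ, ℂ) :=
  (SchwartzMap.compCLM ℂ g3_temperate g3_upper).comp (SchwartzMap.fourierTransformCLM ℂ)

lemma FF_coe (f : 𝓢(ℂ, ℂ)) (z : ℂ) : FF f z = (𝓕 f) (g3 z) := rfl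

lemma FF_apply {f : 𝓢(ℂ, ℂ)} {w : ℝ → ℝ} (h : RS f w) (z : ℂ) :
    FF f z = ((Wt w (‖z‖ ^ 3) : ℝ) : ℂ) := by
  have h0 : (f : ℂ → ℂ) = fw w := funext h
  rw [FF_coe, SchwartzMap.fourier_coe, h0]
  unfold g3
  rw [← Po581.fC_eq_fourier, fC_fw, norm_pow]

/-- the functional -/
def TT (f : 𝓢(ℂ, ℂ)) (y : ℂ) : ℂ := lsum (FF f) y - (2 / Real.sqrt 3 / ‖y‖ ^ 2) • ∫ z, FF f z

lemma TT_eq {f : 𝓢(ℂ, ℂ)} {w : ℝ → ℝ} (h : RS f w) (x : ℝ) :
    TT f ((Real.exp (x / 6) : ℝ) : ℂ) = ((Tc w x : ℝ) : ℂ) := by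
  have hn : ‖((Real.exp (x / 6) : ℝ) : ℂ)‖ = Real.exp (x / 6) := by
    rw [Complex.norm_real, Real.norm_of_nonneg (Real.exp_pos _).le]
  have e1 : lsum (FF f) ((Real.exp (x / 6) : ℝ) : ℂ) = ((Sc w x : ℝ) : ℂ) := by
    unfold lsum Sc
    rw [Complex.ofReal_tsum]
    refine tsum_congr fun c => ?_
    by_cases hc : c = 0
    · simp [hc]
    · rw [if_neg hc, if_neg hc, FF_apply h, norm_mul, hn, mul_pow, ← Real.exp_nat_mul]
      congr 3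
      push_cast; ring_nf
  have e2 : ∫ z, FF f z = ((2 * Real.pi / 3 * Iw w : ℝ) : ℂ) := by
    rw [← integral_f3, ← integral_complex_ofReal]
    refine integral_congr_ae (Eventually.of_forall fun z => ?_)
    simp only [FF_apply h]
    rfl
  unfold TT
  rw [e1, e2, hn, Tc, mc]
  have h3 : Real.sqrt 3 ≠ 0 := by positivity
  have e3 : Real.exp (-x / 3) = (Real.exp (x / 6) ^ 2)⁻¹ := by
    rw [← Real.exp_nat_mul, ← Real.exp_neg]
    congr 1; push_cast; ring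
  rw [e3]
  have he : Real.exp (x / 6) ≠ 0 := (Real.exp_pos _).ne'
  rw [Complex.real_smul]
  rw [← Complex.ofReal_mul, ← Complex.ofReal_sub]
  congr 2
  field_simp
  ring

/-! ### explicit constants -/

/-- the seminorm controlling `lsum_decay` -/
def P32 (f : 𝓢(ℂ, ℂ)) : ℝ :=
  2 ^ 3 * ((Finset.Iic (3, 2)).sup fun m => SchwartzMap.seminorm ℂ m.1 m.2) f

lemma P32_nonneg (f : 𝓢(ℂ, ℂ)) : 0 ≤ P32 f := by
  unfold P32
  have : 0 ≤ ((Finset.Iic ((3, 2) : ℕ × ℕ)).sup fun m => SchwartzMap.seminorm ℂ m.1 m.2) f :=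
    apply_nonneg _ _
  positivity

lemma decay_le (f : 𝓢(ℂ, ℂ)) {n : ℕ} (hn : n ≤ 2) (x : ℂ) :
    ‖iteratedFDeriv ℝ n f x‖ ≤ P32 f * wt3 x := by
  have hsemi := SchwartzMap.one_add_le_sup_seminorm_apply (𝕜 := ℂ) (m := (3, 2)) (k := 3) (n := n)
    le_rfl hn f x
  unfold wt3
  rw [Real.rpow_neg (by positivity), ← div_eq_mul_inv, le_div_iff₀ (by positivity)]
  rw [show (3 : ℝ) = ((3 : ℕ) : ℝ) by norm_num, Real.rpow_natCast]
  rw [mul_comm]; exact hsemi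

lemma decay0 (f : 𝓢(ℂ, ℂ)) (z : ℂ) : ‖f z‖ ≤ P32 f * wt3 z := by
  have := decay_le f (n := 0) (by norm_num) z
  rwa [norm_iteratedFDeriv_zero] at this

lemma second_le (f : 𝓢(ℂ, ℂ)) (z h : ℂ) (hh : ‖h‖ ≤ 1) :
    ‖f (z + h) + f (z - h) - (2 : ℝ) • f z‖ ≤ (8 * P32 f) * wt3 z * ‖h‖ ^ 2 := by
  refine second_diff_local (f := f) (f.smooth 2) (K := 8 * P32 f * wt3 z) (z := z) ?_ hh
  intro x hx
  rw [norm_fderiv_fderiv]
  have h2 : wt3 x ≤ 8 * wt3 z := by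
    apply wt3_le
    rw [Metric.mem_closedBall, dist_eq_norm] at hx
    rw [norm_sub_rev]; exact hx
  have h3 := decay_le f (n := 2) le_rfl x
  have h0 := P32_nonneg f
  nlinarith

/-- the universal constant -/
def KK : ℝ := 64 / Real.sqrt 3 * J3 + 1 + Zs (3 / 2) + 2 / Real.sqrt 3 * J3

lemma KK_nonneg : 0 ≤ KK := by
  unfold KK
  have := J3_nonneg
  have := Zs_nonneg (3 / 2)
  positivity

lemma Kdec_le (f : 𝓢(ℂ, ℂ)) : Kdec f (8 * P32 f) (P32 f) ≤ KK * P32 f := by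
  have h0 := P32_nonneg f
  have hJ := J3_nonneg
  have h1 : ‖f 0‖ ≤ P32 f := by
    have := decay0 f 0
    unfold wt3 at this
    simpa using this
  have h2 : ‖∫ z, f z‖ ≤ P32 f * J3 := by
    refine (norm_integral_le_integral_norm _).trans ?_
    unfold J3
    rw [← integral_const_mul]
    exact integral_mono f.integrable.norm (integrable_wt3.const_mul _) (decay0 f)
  have h3 : 2 / Real.sqrt 3 * ‖∫ z, f z‖ ≤ 2 / Real.sqrt 3 * (P32 f * J3) := by gcongr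
  unfold Kdec KK
  have e : (64 / Real.sqrt 3 * J3 + 1 + Zs (3 / 2) + 2 / Real.sqrt 3 * J3) * P32 f =
    8 / Real.sqrt 3 * (8 * P32 f) * J3 + P32 f + P32 f * Zs (3 / 2) +
      2 / Real.sqrt 3 * (P32 f * J3) := by ring
  rw [e]
  linarith

lemma lsum_bound (f : 𝓢(ℂ, ℂ)) {β : ℝ} (hβ0 : 0 ≤ β) (hβ2 : β ≤ 2) {t : ℂ} (ht : t ≠ 0) :
    ‖lsum f t - (2 / Real.sqrt 3 / ‖t‖ ^ 2) • ∫ z, f z‖ ≤ KK * P32 f * ‖t‖ ^ (-β) := by
  refine (lsum_decay f.continuous f.integrable (M := 8 * P32 f) (K₀ := P32 f)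
    (by have := P32_nonneg f; positivity) (P32_nonneg f) (second_le f) (decay0 f)
    hβ0 hβ2 ht).trans ?_
  exact mul_le_mul_of_nonneg_right (Kdec_le f) (by positivity)

/-- `P32 ∘ FF` is bounded by a finite sup of seminorms. -/
lemma exists_P32_FF : ∃ (s : Finset (ℕ × ℕ)) (C : ℝ), 0 ≤ C ∧ ∀ f : 𝓢(ℂ, ℂ),
    P32 (FF f) ≤ C * (s.sup (schwartzSeminormFamily ℂ ℂ ℂ)) f := by
  set q : Seminorm ℂ 𝓢(ℂ, ℂ) :=
    ((Finset.Iic ((3, 2) : ℕ × ℕ)).sup fun m => SchwartzMap.seminorm ℂ m.1 m.2) with hq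
  have hqc : Continuous q :=
    Seminorm.continuous_finsetSup (fun i _ => (schwartz_withSeminorms ℂ ℂ ℂ).continuous_seminorm i)
  have hq2 : Continuous (q.comp (FF : 𝓢(ℂ, ℂ) →L[ℂ] 𝓢(ℂ, ℂ)).toLinearMap) :=
    hqc.comp FF.continuous
  obtain ⟨s, C, hC, hb⟩ := Seminorm.bound_of_continuous (schwartz_withSeminorms ℂ ℂ ℂ) _ hq2
  refine ⟨s, 2 ^ 3 * C, by positivity, fun f => ?_⟩
  have h1 := hb f
  have h2 : P32 (FF f) = 2 ^ 3 * q (FF f) := rfl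
  rw [h2]
  have h3 : q (FF f) ≤ C * (s.sup (schwartzSeminormFamily ℂ ℂ ℂ)) f := h1
  nlinarith

/-- **`Tc` is a bounded functional.** -/
theorem Tc_bound : ∃ (s : Finset (ℕ × ℕ)) (C : ℝ), 0 ≤ C ∧ ∀ (f : 𝓢(ℂ, ℂ)) (w : ℝ → ℝ),
    RS f w → ∀ x : ℝ, |Tc w x| ≤
      C * (s.sup (schwartzSeminormFamily ℂ ℂ ℂ)) f * min 1 (Real.exp (-x / 3)) := by
  obtain ⟨s, C, hC, hb⟩ := exists_P32_FF
  refine ⟨s, KK * C, mul_nonneg KK_nonneg hC, fun f w h x => ?_⟩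
  have hy : ((Real.exp (x / 6) : ℝ) : ℂ) ≠ 0 := by
    exact_mod_cast (Real.exp_pos _).ne'
  have hn : ‖((Real.exp (x / 6) : ℝ) : ℂ)‖ = Real.exp (x / 6) := by
    rw [Complex.norm_real, Real.norm_of_nonneg (Real.exp_pos _).le]
  have e0 : |Tc w x| = ‖TT f ((Real.exp (x / 6) : ℝ) : ℂ)‖ := by
    rw [TT_eq h, Complex.norm_real, Real.norm_eq_abs]
  have hS : 0 ≤ (s.sup (schwartzSeminormFamily ℂ ℂ ℂ)) f := apply_nonneg _ _
  have hK : KK * P32 (FF f) ≤ KK * C * (s.sup (schwartzSeminormFamily ℂ ℂ ℂ)) f := by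
    rw [mul_assoc]
    exact mul_le_mul_of_nonneg_left (hb f) KK_nonneg
  rw [e0]
  have h1 := lsum_bound (FF f) (β := 0) le_rfl (by norm_num) hy
  have h2 := lsum_bound (FF f) (β := 2) (by norm_num) le_rfl hy
  rw [hn, neg_zero, Real.rpow_zero, mul_one] at h1
  have e3 : Real.exp (x / 6) ^ (-(2 : ℝ)) = Real.exp (-x / 3) := by
    rw [← Real.exp_mul]; congr 1; ring
  rw [hn, e3] at h2
  have eT : TT f ((Real.exp (x / 6) : ℝ) : ℂ) = lsum (FF f) ((Real.exp (x / 6) : ℝ) : ℂ) -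
      (2 / Real.sqrt 3 / Real.exp (x / 6) ^ 2) • ∫ z, FF f z := by
    unfold TT; rw [hn]
  rw [← eT] at h1 h2
  rw [mul_min_of_nonneg _ _ (by positivity [KK_nonneg]), mul_one]
  refine le_min (h1.trans hK) (h2.trans ?_)
  exact mul_le_mul_of_nonneg_right hK (by positivity)

end Crest.Agent.R017.SgnU92
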