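import Crest.Agent.R017.SgnU1_92

/-!
# Row 17, (Sgn'): the Gaussian as a Schwartz function, seminorms of the cut-off Gaussian
-/

set_option autoImplicit false

noncomputable section

open MeasureTheory Complex Set Filter Topology
open scoped ContDiff SchwartzMap FourierTransform

namespace Crest.Agent.R017.SgnU92

open Crest.Agent.R012 Crest.Agent.R012.Eis Crest.Agent.R012.MC

/-- the Gaussian `e^{-4π² x}` -/
def gg (x : ℝ) : ℝ := Real.exp (-(4 * Real.pi ^ 2 * x))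

lemma norm_iteratedFDeriv_rexp (i : ℕ) (t : ℝ) :
    ‖iteratedFDeriv ℝ i (fun u : ℝ => ((Real.exp u : ℝ) : ℂ)) t‖ = Real.exp t := by
  have h1 : (fun u : ℝ => ((Real.exp u : ℝ) : ℂ)) = Complex.ofRealLI ∘ Real.exp := rfl
  rw [h1, LinearIsometry.norm_iteratedFDeriv_comp_left (n := ∞) Complex.ofRealLI
    Real.contDiff_exp.contDiffAt (by exact_mod_cast le_top), norm_iteratedFDeriv_eq_norm_iteratedDeriv,
    iteratedDeriv_eq_iterate, Real.iter_deriv_exp, Real.norm_of_nonneg (Real.exp_pos _).le]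

lemma exp_pow_bound (N : ℕ) : ∃ C : ℝ, 0 ≤ C ∧ ∀ r : ℝ, 0 ≤ r →
    (1 + r) ^ N * Real.exp (-(4 * Real.pi ^ 2 * r ^ 2)) ≤ C := by
  refine ⟨(N.factorial : ℝ) * Real.exp 2, by positivity, fun r hr => ?_⟩
  have h1 := Real.pow_div_factorial_le_exp (1 + r) (by positivity) N
  rw [div_le_iff₀ (by positivity)] at h1
  have h2 : Real.exp (1 + r) * Real.exp (-(4 * Real.pi ^ 2 * r ^ 2)) ≤ Real.exp 2 := by
    rw [← Real.exp_add]
    apply Real.exp_le_exp.mpr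
    have h3 : 1 ≤ 4 * Real.pi ^ 2 := by nlinarith [Real.pi_gt_three]
    nlinarith [sq_nonneg (r - 1 / 2), sq_nonneg r, mul_nonneg (sub_nonneg.mpr h3) (sq_nonneg r)]
  calc (1 + r) ^ N * Real.exp (-(4 * Real.pi ^ 2 * r ^ 2))
      ≤ (Real.exp (1 + r) * N.factorial) * Real.exp (-(4 * Real.pi ^ 2 * r ^ 2)) := by gcongr
    _ = (N.factorial : ℝ) * (Real.exp (1 + r) * Real.exp (-(4 * Real.pi ^ 2 * r ^ 2))) := by ring
    _ ≤ (N.factorial : ℝ) * Real.exp 2 := by gcongr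

lemma gauss_tg : Function.HasTemperateGrowth (fun z : ℂ => -(4 * Real.pi ^ 2 * ‖z‖ ^ 2)) := by
  have h0 : Function.HasTemperateGrowth (fun z : ℂ => ‖z‖ ^ 2) :=
    Function.hasTemperateGrowth_norm_sq (H := ℂ)
  have h1 : Function.HasTemperateGrowth (fun z : ℂ => (-(4 * Real.pi ^ 2)) * ‖z‖ ^ 2) := by
    fun_prop
  have e : (fun z : ℂ => -(4 * Real.pi ^ 2 * ‖z‖ ^ 2)) =
      fun z : ℂ => (-(4 * Real.pi ^ 2)) * ‖z‖ ^ 2 := by
    funext z; ring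
  rw [e]; exact h1

lemma gauss_decay (k n : ℕ) : ∃ C : ℝ, ∀ x : ℂ, ‖x‖ ^ k *
    ‖iteratedFDeriv ℝ n (fun z : ℂ => ((gg (‖z‖ ^ 2) : ℝ) : ℂ)) x‖ ≤ C := by
  obtain ⟨l, C, hC, hb⟩ := gauss_tg.norm_iteratedFDeriv_le_uniform n
  obtain ⟨C2, hC2, hb2⟩ := exp_pow_bound (k + l * n)
  refine ⟨n.factorial * (1 + C) ^ n * C2, fun x => ?_⟩
  have e : (fun z : ℂ => ((gg (‖z‖ ^ 2) : ℝ) : ℂ)) =
      (fun u : ℝ => ((Real.exp u : ℝ) : ℂ)) ∘ (fun z : ℂ => -(4 * Real.pi ^ 2 * ‖z‖ ^ 2)) := rfl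
  have hx : (1 : ℝ) ≤ 1 + ‖x‖ := by linarith [norm_nonneg x]
  have h1 := norm_iteratedFDeriv_comp_le (𝕜 := ℝ) (g := fun u : ℝ => ((Real.exp u : ℝ) : ℂ))
    (f := fun z : ℂ => -(4 * Real.pi ^ 2 * ‖z‖ ^ 2)) (n := n) (N := ∞)
    (Complex.ofRealCLM.contDiff.comp Real.contDiff_exp) gauss_tg.1 (by exact_mod_cast le_top) x
    (C := Real.exp (-(4 * Real.pi ^ 2 * ‖x‖ ^ 2))) (D := (1 + C) * (1 + ‖x‖) ^ l)
    (fun i _ => (norm_iteratedFDeriv_rexp i _).le) (fun i hi1 hi => by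
      refine (hb i hi x).trans ?_
      have h2 : (1 : ℝ) ≤ (1 + C) * (1 + ‖x‖) ^ l :=
        one_le_mul_of_one_le_of_one_le (by linarith) (one_le_pow₀ hx)
      have h3 : (1 + C) * (1 + ‖x‖) ^ l ≤ ((1 + C) * (1 + ‖x‖) ^ l) ^ i :=
        le_self_pow₀ h2 (by omega)
      refine le_trans ?_ h3
      have : (0 : ℝ) ≤ (1 + ‖x‖) ^ l := by positivity
      nlinarith)
  rw [← e] at h1
  have h4 := hb2 ‖x‖ (norm_nonneg _)
  have h5 : ‖x‖ ^ k ≤ (1 + ‖x‖) ^ k := pow_le_pow_left₀ (norm_nonneg _) (by linarith) k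
  calc ‖x‖ ^ k * ‖iteratedFDeriv ℝ n (fun z : ℂ => ((gg (‖z‖ ^ 2) : ℝ) : ℂ)) x‖
      ≤ (1 + ‖x‖) ^ k * (n.factorial * Real.exp (-(4 * Real.pi ^ 2 * ‖x‖ ^ 2)) *
        ((1 + C) * (1 + ‖x‖) ^ l) ^ n) := mul_le_mul h5 h1 (norm_nonneg _) (by positivity)
    _ = n.factorial * (1 + C) ^ n * ((1 + ‖x‖) ^ (k + l * n) *
        Real.exp (-(4 * Real.pi ^ 2 * ‖x‖ ^ 2))) := by
        rw [mul_pow, ← pow_mul, pow_add]; ring
    _ ≤ n.factorial * (1 + C) ^ n * C2 := by gcongr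

/-- the Gaussian as a Schwartz function on `ℂ` -/
def GS : 𝓢(ℂ, ℂ) where
  toFun := fun z : ℂ => ((gg (‖z‖ ^ 2) : ℝ) : ℂ)
  smooth' := (Complex.ofRealCLM.contDiff.comp Real.contDiff_exp).comp gauss_tg.1
  decay' := gauss_decay

lemma GS_apply (z : ℂ) : GS z = ((gg (‖z‖ ^ 2) : ℝ) : ℂ) := rfl

lemma RS_GS : RS GS gg := fun _ => rfl

/-! ### dilations and products -/

lemma norm_iter_dil (F : 𝓢(ℂ, ℂ)) {s : ℝ} (hs : |s| ≤ 1) (i : ℕ) (z : ℂ) :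
    ‖iteratedFDeriv ℝ i (fun z : ℂ => F ((s : ℂ) * z)) z‖ ≤ SchwartzMap.seminorm ℂ 0 i F := by
  set L : ℂ →L[ℝ] ℂ := s • ContinuousLinearMap.id ℝ ℂ with hL
  have hLn : ‖L‖ ≤ 1 := by
    rw [hL, norm_smul]
    have := ContinuousLinearMap.norm_id_le (𝕜 := ℝ) (E := ℂ)
    rw [Real.norm_eq_abs]
    calc |s| * ‖ContinuousLinearMap.id ℝ ℂ‖ ≤ 1 * 1 :=
          mul_le_mul hs this (norm_nonneg _) zero_le_one
      _ = 1 := one_mul 1
  have e : (fun z : ℂ => F ((s : ℂ) * z)) = (F : ℂ → ℂ) ∘ L := by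
    funext z
    simp [hL]
  rw [e, ContinuousLinearMap.iteratedFDeriv_comp_right L (F.smooth ⊤) z
    (i := i) (by exact_mod_cast le_top)]
  refine (ContinuousMultilinearMap.norm_compContinuousLinearMap_le _ _).trans ?_
  have h1 : ∏ _j : Fin i, ‖L‖ ≤ 1 := Finset.prod_le_one (fun _ _ => norm_nonneg _) (fun _ _ => hLn)
  have h2 := SchwartzMap.norm_iteratedFDeriv_le_seminorm ℂ F i (L z)
  calc ‖iteratedFDeriv ℝ i F (L z)‖ * ∏ _j : Fin i, ‖L‖ ≤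
      ‖iteratedFDeriv ℝ i F (L z)‖ * 1 := by gcongr
    _ ≤ _ := by rw [mul_one]; exact h2

lemma contDiff_dil (F : 𝓢(ℂ, ℂ)) (s : ℝ) : ContDiff ℝ ∞ (fun z : ℂ => F ((s : ℂ) * z)) :=
  (F.smooth ⊤).comp (contDiff_const.mul contDiff_id)

/-- product with a dilation (near `0`) -/
lemma seminorm_near (F Y : 𝓢(ℂ, ℂ)) {s : ℝ} (hs : |s| ≤ 1) (f : 𝓢(ℂ, ℂ))
    (hf : ∀ z, f z = F ((s : ℂ) * z) * Y z) (k n : ℕ) :
    SchwartzMap.seminorm ℂ k n f ≤ ∑ i ∈ Finset.range (n + 1), (n.choose i : ℝ) *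
      SchwartzMap.seminorm ℂ 0 i F * SchwartzMap.seminorm ℂ k (n - i) Y := by
  refine SchwartzMap.seminorm_le_bound ℂ k n f (Finset.sum_nonneg fun i _ => by positivity) ?_
  intro x
  have e : (f : ℂ → ℂ) = fun z => F ((s : ℂ) * z) * Y z := funext hf
  have h1 := norm_iteratedFDeriv_mul_le (𝕜 := ℝ) (contDiff_dil F s) (Y.smooth ⊤) x
    (n := n) (by exact_mod_cast le_top)
  rw [e]
  refine (mul_le_mul_of_nonneg_left h1 (by positivity)).trans ?_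
  rw [Finset.mul_sum]
  refine Finset.sum_le_sum fun i _ => ?_
  have h2 := norm_iter_dil F hs i x
  have h3 := SchwartzMap.le_seminorm ℂ k (n - i) Y x
  calc ‖x‖ ^ k * ((n.choose i : ℝ) * ‖iteratedFDeriv ℝ i (fun z : ℂ => F ((s : ℂ) * z)) x‖ *
        ‖iteratedFDeriv ℝ (n - i) Y x‖)
      = (n.choose i : ℝ) * ‖iteratedFDeriv ℝ i (fun z : ℂ => F ((s : ℂ) * z)) x‖ *
        (‖x‖ ^ k * ‖iteratedFDeriv ℝ (n - i) Y x‖) := by ring
    _ ≤ _ := by gcongr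

/-- product with `1 - Y(r z)` (near `∞`) -/
lemma seminorm_far (F Y : 𝓢(ℂ, ℂ)) (hY : ∀ z : ℂ, ‖z‖ ≤ 1 → Y z = 1) {r : ℝ} (hr0 : 0 < r)
    (hr : r ≤ 1) (f : 𝓢(ℂ, ℂ)) (hf : ∀ z, f z = F z * (1 - Y ((r : ℂ) * z))) (k n : ℕ) :
    SchwartzMap.seminorm ℂ k n f ≤ r * ∑ i ∈ Finset.range (n + 1), (n.choose i : ℝ) *
      SchwartzMap.seminorm ℂ (k + 1) i F * (1 + SchwartzMap.seminorm ℂ 0 (n - i) Y) := by
  refine SchwartzMap.seminorm_le_bound ℂ k n f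
    (mul_nonneg hr0.le (Finset.sum_nonneg fun i _ => by positivity)) ?_
  intro x
  by_cases hx : ‖(r : ℂ) * x‖ < 1
  · have hloc : (f : ℂ → ℂ) =ᶠ[𝓝 x] fun _ => (0 : ℂ) := by
      have hc : Continuous (fun z : ℂ => ‖(r : ℂ) * z‖) := by fun_prop
      filter_upwards [hc.continuousAt.eventually (gt_mem_nhds hx)] with z hz
      rw [hf, hY _ (le_of_lt hz)]; ring
    have h0 : iteratedFDeriv ℝ n f x = 0 := by
      rw [(hloc.iteratedFDeriv ℝ n).eq_of_nhds]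
      simp
    rw [h0, norm_zero, mul_zero]
    exact mul_nonneg hr0.le (Finset.sum_nonneg fun i _ => by positivity)
  · have hrx : 1 ≤ r * ‖x‖ := by
      rw [norm_mul, Complex.norm_real, Real.norm_of_nonneg hr0.le] at hx
      exact not_lt.mp hx
    have hra : |r| ≤ 1 := by rw [abs_of_pos hr0]; exact hr
    have hD : ∀ j, ‖iteratedFDeriv ℝ j (fun z : ℂ => 1 - Y ((r : ℂ) * z)) x‖ ≤
        1 + SchwartzMap.seminorm ℂ 0 j Y := by
      intro j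
      have e1 : iteratedFDeriv ℝ j (fun z : ℂ => 1 - Y ((r : ℂ) * z)) x =
          iteratedFDeriv ℝ j (fun _ : ℂ => (1 : ℂ)) x -
          iteratedFDeriv ℝ j (fun z : ℂ => Y ((r : ℂ) * z)) x :=
        iteratedFDeriv_sub_apply (f := fun _ : ℂ => (1 : ℂ)) (g := fun z : ℂ => Y ((r : ℂ) * z))
          contDiff_const.contDiffAt
          ((contDiff_dil Y r).of_le (by exact_mod_cast le_top)).contDiffAt
      rw [e1]
      refine (norm_sub_le _ _).trans (add_le_add ?_ (norm_iter_dil Y hra j x))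
      rcases Nat.eq_zero_or_pos j with rfl | hj
      · rw [norm_iteratedFDeriv_zero, norm_one]
      · rw [iteratedFDeriv_const_of_ne (by omega)]; simp
    have e : (f : ℂ → ℂ) = fun z => F z * (1 - Y ((r : ℂ) * z)) := funext hf
    have h1 := norm_iteratedFDeriv_mul_le (𝕜 := ℝ) (g := fun z : ℂ => 1 - Y ((r : ℂ) * z))
      (F.smooth ⊤) (contDiff_const.sub (contDiff_dil Y r)) x (n := n) (by exact_mod_cast le_top)
    rw [e]
    refine (mul_le_mul_of_nonneg_left h1 (by positivity)).trans ?_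
    rw [Finset.mul_sum, Finset.mul_sum]
    refine Finset.sum_le_sum fun i _ => ?_
    have h3 := SchwartzMap.le_seminorm ℂ (k + 1) i F x
    have h4 : ‖x‖ ^ k ≤ r * ‖x‖ ^ (k + 1) := by
      have : ‖x‖ ^ k * 1 ≤ ‖x‖ ^ k * (r * ‖x‖) := mul_le_mul_of_nonneg_left hrx (by positivity)
      calc ‖x‖ ^ k = ‖x‖ ^ k * 1 := by ring
        _ ≤ _ := this
        _ = _ := by ring
    calc ‖x‖ ^ k * ((n.choose i : ℝ) * ‖iteratedFDeriv ℝ i F x‖ *
          ‖iteratedFDeriv ℝ (n - i) (fun z : ℂ => 1 - Y ((r : ℂ) * z)) x‖)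
        ≤ (r * ‖x‖ ^ (k + 1)) * ((n.choose i : ℝ) * ‖iteratedFDeriv ℝ i F x‖ *
          (1 + SchwartzMap.seminorm ℂ 0 (n - i) Y)) := by
          gcongr
          exact hD _
      _ = r * ((n.choose i : ℝ) * (‖x‖ ^ (k + 1) * ‖iteratedFDeriv ℝ i F x‖) *
          (1 + SchwartzMap.seminorm ℂ 0 (n - i) Y)) := by ring
      _ ≤ _ := by gcongr

end Crest.Agent.R017.SgnU92
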