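import Crest.Agent.R017.SgnU2_92

/-!
# Row 17, (Sgn'): scaling of `Tc`, additivity, the cut-off Gaussians
-/

set_option autoImplicit false

noncomputable section

open MeasureTheory Complex Set Filter Topology
open scoped ContDiff SchwartzMap FourierTransform

namespace Crest.Agent.R017.SgnU92

open Crest.Agent.R012 Crest.Agent.R012.Eis Crest.Agent.R012.MC Crest.Agent.R012.LatSum413
open Crest.Agent.R012.Cube777
open Crest.Agent.R017.E1551 (Sc mc Tc)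

/-! ### scaling -/

lemma Wt_dil (w : ℝ → ℝ) {l : ℝ} (hl : 0 < l) (t : ℝ) :
    Wt (fun x => w (l * x)) t = l⁻¹ * Wt w (t / Real.sqrt l) := by
  have hs : 0 < Real.sqrt l := Real.sqrt_pos.mpr hl
  have hsC : ((Real.sqrt l : ℝ) : ℂ) ≠ 0 := by exact_mod_cast hs.ne'
  unfold Wt
  have h1 := MeasureTheory.Measure.integral_comp_smul (volume : Measure ℂ)
    (fun z : ℂ => (w (‖z‖ ^ 2) : ℂ) * eC (z * ((t / Real.sqrt l : ℝ) : ℂ))) (Real.sqrt l)
  have e : (fun z : ℂ => (fun z : ℂ => (w (‖z‖ ^ 2) : ℂ) *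
      eC (z * ((t / Real.sqrt l : ℝ) : ℂ))) (Real.sqrt l • z)) =
      fun z : ℂ => ((w (l * ‖z‖ ^ 2) : ℝ) : ℂ) * eC (z * (t : ℂ)) := by
    funext z
    simp only [norm_smul, Real.norm_of_nonneg hs.le, mul_pow, Real.sq_sqrt hl.le]
    congr 2
    rw [Complex.real_smul]
    push_cast
    field_simp
  rw [e, Complex.finrank_real_complex, Real.sq_sqrt hl.le, abs_of_pos (inv_pos.mpr hl)] at h1
  rw [h1, Complex.real_smul, Complex.re_ofReal_mul]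

lemma Sc_dil (w : ℝ → ℝ) {l : ℝ} (hl : 0 < l) (x : ℝ) :
    Sc (fun x => w (l * x)) x = l⁻¹ * Sc w (x - Real.log l) := by
  unfold Sc
  rw [← tsum_mul_left]
  refine tsum_congr fun c => ?_
  by_cases hc : c = 0
  · simp [hc]
  · rw [if_neg hc, if_neg hc, Wt_dil w hl]
    congr 2
    have e : Real.exp ((x - Real.log l) / 2) = Real.exp (x / 2) / Real.sqrt l := by
      rw [sub_div, Real.exp_sub]
      congr 1
      rw [Real.sqrt_eq_rpow, Real.rpow_def_of_pos hl]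
      congr 1; ring
    rw [e]; ring

lemma Iw_dil (w : ℝ → ℝ) {l : ℝ} (hl : 0 < l) :
    Iw (fun x => w (l * x)) = l⁻¹ * l ^ (1 / 3 : ℝ) * Iw w := by
  have hs : 0 < Real.sqrt l := Real.sqrt_pos.mpr hl
  unfold Iw
  have h1 := integral_comp_mul_left_Ioi (fun v : ℝ => Wt w v * v ^ (-(1 / 3) : ℝ)) 0
    (inv_pos.mpr hs)
  rw [mul_zero, inv_inv, smul_eq_mul] at h1
  have e : ∫ u in Ioi (0 : ℝ), Wt (fun x => w (l * x)) u * u ^ (-(1 / 3) : ℝ) =
      ∫ u in Ioi (0 : ℝ), (l⁻¹ * ((Real.sqrt l)⁻¹ ^ (1 / 3 : ℝ))) *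
        (Wt w ((Real.sqrt l)⁻¹ * u) * ((Real.sqrt l)⁻¹ * u) ^ (-(1 / 3) : ℝ)) := by
    refine setIntegral_congr_fun measurableSet_Ioi fun u hu => ?_
    simp only [mem_Ioi] at hu
    rw [Wt_dil w hl, Real.mul_rpow (inv_pos.mpr hs).le hu.le]
    have e2 : (Real.sqrt l)⁻¹ ^ (1 / 3 : ℝ) * (Real.sqrt l)⁻¹ ^ (-(1 / 3) : ℝ) = 1 := by
      rw [← Real.rpow_add (inv_pos.mpr hs)]; simp
    rw [show u / Real.sqrt l = (Real.sqrt l)⁻¹ * u by ring]
    linear_combination (-(l⁻¹ * Wt w ((Real.sqrt l)⁻¹ * u) * u ^ (-(1 / 3) : ℝ))) * e2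
  rw [e, integral_const_mul, h1]
  have e3 : (Real.sqrt l)⁻¹ ^ (1 / 3 : ℝ) * Real.sqrt l = l ^ (1 / 3 : ℝ) := by
    rw [Real.inv_rpow hs.le, Real.sqrt_eq_rpow, ← Real.rpow_mul hl.le, ← Real.rpow_neg hl.le,
      ← Real.rpow_add hl]
    norm_num
  linear_combination (l⁻¹ * ∫ v in Ioi (0 : ℝ), Wt w v * v ^ (-(1 / 3) : ℝ)) * e3

theorem Tc_dil (w : ℝ → ℝ) {l : ℝ} (hl : 0 < l) (x : ℝ) :
    Tc (fun x => w (l * x)) x = l⁻¹ * Tc w (x - Real.log l) := by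
  unfold Tc mc
  rw [Sc_dil w hl, Iw_dil w hl]
  have e : Real.exp (-(x - Real.log l) / 3) = l ^ (1 / 3 : ℝ) * Real.exp (-x / 3) := by
    rw [Real.rpow_def_of_pos hl, ← Real.exp_add]
    congr 1; ring
  rw [e]; ring

/-! ### additivity -/

lemma decay_inv (f : 𝓢(ℂ, ℂ)) (z : ℂ) (hz : z ≠ 0) : ‖f z‖ ≤ P32 f / ‖z‖ ^ 3 := by
  refine (decay0 f z).trans ?_
  have := wt3_le_inv hz
  have h0 := P32_nonneg f
  calc P32 f * wt3 z ≤ P32 f * (1 / ‖z‖ ^ 3) := by gcongr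
    _ = P32 f / ‖z‖ ^ 3 := by ring

lemma lsum_add (f g : 𝓢(ℂ, ℂ)) {t : ℂ} (ht : t ≠ 0) :
    lsum (f + g : 𝓢(ℂ, ℂ)) t = lsum f t + lsum g t := by
  unfold lsum
  rw [← ((summable_lsum (P32_nonneg f) (decay_inv f) ht).1.tsum_add
    (summable_lsum (P32_nonneg g) (decay_inv g) ht).1)]
  refine tsum_congr fun k => ?_
  by_cases hk : k = 0
  · simp [hk]
  · rw [if_neg hk, if_neg hk, if_neg hk]; rfl

lemma TT_add (f g : 𝓢(ℂ, ℂ)) {t : ℂ} (ht : t ≠ 0) : TT (f + g) t = TT f t + TT g t := by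
  unfold TT
  rw [map_add, lsum_add _ _ ht]
  have e : ∫ z, (FF f + FF g : 𝓢(ℂ, ℂ)) z = (∫ z, FF f z) + ∫ z, FF g z := by
    rw [← integral_add (FF f).integrable (FF g).integrable]
    rfl
  rw [e, smul_add]; ring

theorem Tc_add {f g h : 𝓢(ℂ, ℂ)} {u v w : ℝ → ℝ} (hf : RS f u) (hg : RS g v) (hh : RS h w)
    (e : h = f + g) (x : ℝ) : Tc w x = Tc u x + Tc v x := by
  have hy : ((Real.exp (x / 6) : ℝ) : ℂ) ≠ 0 := by
    exact_mod_cast (Real.exp_pos _).ne'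
  have h1 := TT_add f g hy
  rw [← e, TT_eq hf, TT_eq hg, TT_eq hh] at h1
  exact_mod_cast h1

/-! ### the cut-off -/

/-- smooth, `1` for `x ≤ 1`, `0` for `x ≥ 2` -/
def chi (x : ℝ) : ℝ := Real.smoothTransition (2 - x)

lemma chi_one {x : ℝ} (h : x ≤ 1) : chi x = 1 := Real.smoothTransition.one_of_one_le (by linarith)
lemma chi_zero {x : ℝ} (h : 2 ≤ x) : chi x = 0 := Real.smoothTransition.zero_of_nonpos (by linarith)
lemma chi_nonneg (x : ℝ) : 0 ≤ chi x := Real.smoothTransition.nonneg _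
lemma chi_le_one (x : ℝ) : chi x ≤ 1 := Real.smoothTransition.le_one _
lemma chi_smooth : ContDiff ℝ ∞ chi :=
  Real.smoothTransition.contDiff.comp (contDiff_const.sub contDiff_id)

lemma gg_smooth : ContDiff ℝ ∞ gg := by
  unfold gg
  exact Real.contDiff_exp.comp ((contDiff_const.mul contDiff_id).neg)

lemma gg_pos (x : ℝ) : 0 < gg x := Real.exp_pos _

lemma compact_chi : HasCompactSupport (fun z : ℂ => ((chi (‖z‖ ^ 2) : ℝ) : ℂ)) := by
  refine HasCompactSupport.of_support_subset_isCompact (isCompact_closedBall (0 : ℂ) 2) ?_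
  intro z hz
  rw [mem_closedBall_zero_iff]
  by_contra hc
  push Not at hc
  apply hz
  have : chi (‖z‖ ^ 2) = 0 := chi_zero (by nlinarith)
  simp [this]

/-- the cut-off as a Schwartz function on `ℂ` -/
def XS : 𝓢(ℂ, ℂ) := compact_chi.toSchwartzMap
  (Complex.ofRealCLM.contDiff.comp (chi_smooth.comp (contDiff_norm_sq ℝ)))

lemma XS_apply (z : ℂ) : XS z = ((chi (‖z‖ ^ 2) : ℝ) : ℂ) := rfl

lemma XS_one (z : ℂ) (hz : ‖z‖ ≤ 1) : XS z = 1 := by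
  rw [XS_apply, chi_one (by nlinarith [norm_nonneg z])]; simp

/-- product with a dilation -/
def PD (F Y : 𝓢(ℂ, ℂ)) (s : ℝ) : 𝓢(ℂ, ℂ) :=
  SchwartzMap.smulLeftCLM ℂ (fun z : ℂ => F ((s : ℂ) * z)) Y

lemma PD_apply (F Y : 𝓢(ℂ, ℂ)) (s : ℝ) (z : ℂ) : PD F Y s z = F ((s : ℂ) * z) * Y z := by
  have h1 : Function.HasTemperateGrowth (fun z : ℂ => (s : ℂ) * z) := by
    have := (s • (ContinuousLinearMap.id ℝ ℂ)).hasTemperateGrowth
    convert this using 2 with z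
    simp
  have h : Function.HasTemperateGrowth (fun z : ℂ => F ((s : ℂ) * z)) :=
    F.hasTemperateGrowth.comp h1
  unfold PD
  rw [SchwartzMap.smulLeftCLM_apply_apply h]; rfl

/-- the approximations `w_N(x) = g(x) (1 - χ(N² x)) χ(x / N²)` -/
def wN (N : ℝ) (x : ℝ) : ℝ := gg x * (1 - chi (N ^ 2 * x)) * chi ((N⁻¹) ^ 2 * x)

lemma wN_nonneg (N x : ℝ) : 0 ≤ wN N x :=
  mul_nonneg (mul_nonneg (gg_pos x).le (sub_nonneg.mpr (chi_le_one _))) (chi_nonneg _)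

lemma wN_le (N x : ℝ) : wN N x ≤ gg x := by
  unfold wN
  have h1 : gg x * (1 - chi (N ^ 2 * x)) ≤ gg x * 1 :=
    mul_le_mul_of_nonneg_left (by linarith [chi_nonneg (N ^ 2 * x)]) (gg_pos x).le
  calc _ ≤ (gg x * 1) * 1 := mul_le_mul h1 (chi_le_one _) (chi_nonneg _) (by
        have := gg_pos x; linarith)
    _ = gg x := by ring

lemma Wgt_wN {N : ℝ} (hN : 1 ≤ N) : Wgt (wN N) := by
  have hN0 : 0 < N := by linarith
  have hsupp : Function.support (wN N) ⊆ Icc ((N ^ 2)⁻¹) (2 * N ^ 2) := by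
    intro x hx
    by_contra hc
    apply hx
    rw [mem_Icc, not_and_or, not_le, not_le] at hc
    unfold wN
    rcases hc with hc | hc
    · have : N ^ 2 * x ≤ 1 := by
        have h := mul_le_mul_of_nonneg_left hc.le (show (0 : ℝ) ≤ N ^ 2 by positivity)
        rwa [mul_inv_cancel₀ (by positivity)] at h
      rw [chi_one this]; ring
    · have : 2 ≤ (N⁻¹) ^ 2 * x := by
        have h := mul_le_mul_of_nonneg_left hc.le (show (0 : ℝ) ≤ (N⁻¹) ^ 2 by positivity)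
        have e : (N⁻¹) ^ 2 * (2 * N ^ 2) = 2 := by field_simp
        rwa [e] at h
      rw [chi_zero this]; ring
  refine ⟨?_, HasCompactSupport.of_support_subset_isCompact isCompact_Icc hsupp, ?_⟩
  · unfold wN
    exact (gg_smooth.mul (contDiff_const.sub (chi_smooth.comp (contDiff_const.mul contDiff_id)))).mul
      (chi_smooth.comp (contDiff_const.mul contDiff_id))
  · refine (closure_minimal hsupp isClosed_Icc).trans ?_
    intro x hx
    exact lt_of_lt_of_le (by positivity) hx.1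

/-- `e0` -/
def e0 (N x : ℝ) : ℝ := gg x * chi (N ^ 2 * x)
/-- `u` with `e0 x = u (N² x)` -/
def uN (N x : ℝ) : ℝ := gg ((N⁻¹) ^ 2 * x) * chi x
/-- `e∞` -/
def e1 (N x : ℝ) : ℝ := gg x * (1 - chi ((N⁻¹) ^ 2 * x))

lemma norm_mul_sq (s : ℝ) (z : ℂ) : ‖(s : ℂ) * z‖ ^ 2 = s ^ 2 * ‖z‖ ^ 2 := by
  rw [norm_mul, mul_pow, Complex.norm_real, Real.norm_eq_abs, sq_abs]

lemma RS_e0 (N : ℝ) : RS (PD XS GS N) (e0 N) := by
  intro z
  rw [PD_apply, XS_apply, GS_apply, norm_mul_sq, e0]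
  push_cast; ring

lemma RS_uN (N : ℝ) : RS (PD GS XS N⁻¹) (uN N) := by
  intro z
  rw [PD_apply, XS_apply, GS_apply, norm_mul_sq, uN]
  push_cast; ring

lemma RS_e1 (N : ℝ) : RS (GS - PD XS GS N⁻¹) (e1 N) := by
  intro z
  have h : (GS - PD XS GS N⁻¹ : 𝓢(ℂ, ℂ)) z = GS z - PD XS GS N⁻¹ z := rfl
  rw [h, PD_apply, XS_apply, GS_apply, norm_mul_sq, e1]
  push_cast; ring

lemma RS_wN {N : ℝ} (hN : 1 ≤ N) : RS (fS (Wgt_wN hN)) (wN N) := fun _ => rfl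

lemma chi_mul {N : ℝ} (hN : 2 ≤ N) (x : ℝ) : chi (N ^ 2 * x) * (1 - chi ((N⁻¹) ^ 2 * x)) = 0 := by
  by_cases h : 2 ≤ N ^ 2 * x
  · rw [chi_zero h, zero_mul]
  · have h' : N ^ 2 * x < 2 := not_le.mp h
    have hN0 : 0 < N := by linarith
    have : (N⁻¹) ^ 2 * x ≤ 1 := by
      have e : (N⁻¹) ^ 2 * x = (N⁻¹) ^ 4 * (N ^ 2 * x) := by field_simp
      have h1 : (N⁻¹) ^ 4 ≤ 1 / 2 := by
        have h2 : N⁻¹ ≤ 1 / 2 := by
          rw [inv_eq_one_div]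
          exact one_div_le_one_div_of_le (by norm_num) hN
        calc (N⁻¹) ^ 4 ≤ (1 / 2) ^ 4 := pow_le_pow_left₀ (by positivity) h2 4
          _ ≤ 1 / 2 := by norm_num
      rw [e]
      rcases le_total 0 (N ^ 2 * x) with h3 | h3
      · nlinarith
      · have : (0 : ℝ) ≤ (N⁻¹) ^ 4 := by positivity
        nlinarith
    rw [chi_one this]; ring

lemma decomp {N : ℝ} (hN : 2 ≤ N) (x : ℝ) :
    Tc gg x - Tc (wN N) x = Tc (e0 N) x + Tc (e1 N) x := by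
  have hN1 : 1 ≤ N := by linarith
  have hRS : RS (PD XS GS N + (GS - PD XS GS N⁻¹)) (fun x => e0 N x + e1 N x) := by
    intro z
    have h : (PD XS GS N + (GS - PD XS GS N⁻¹) : 𝓢(ℂ, ℂ)) z =
      PD XS GS N z + (GS - PD XS GS N⁻¹ : 𝓢(ℂ, ℂ)) z := rfl
    rw [h, RS_e0, RS_e1]; push_cast; ring
  have h1 := Tc_add (RS_e0 N) (RS_e1 N) hRS rfl x
  have h2 := Tc_add (f := fS (Wgt_wN hN1)) (g := PD XS GS N + (GS - PD XS GS N⁻¹)) (h := GS)
    (RS_wN hN1) hRS RS_GS (by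
      ext z
      have h : (fS (Wgt_wN hN1) + (PD XS GS N + (GS - PD XS GS N⁻¹)) : 𝓢(ℂ, ℂ)) z =
        fS (Wgt_wN hN1) z + (PD XS GS N + (GS - PD XS GS N⁻¹) : 𝓢(ℂ, ℂ)) z := rfl
      rw [h, RS_wN hN1 z, hRS z, GS_apply]
      have hc := chi_mul hN (‖z‖ ^ 2)
      rw [← Complex.ofReal_add]
      congr 1
      unfold wN e0 e1
      linear_combination (-gg (‖z‖ ^ 2)) * hc) x
  rw [h2, h1]; ring

end Crest.Agent.R017.SgnU92
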