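import Crest.Agent.R017.SgnU3_92
import Crest.Agent.R012.T8G_810

/-!
# Row 17, (Sgn'): approximation of the Gaussian by weights, value of `Tc` on the Gaussian

`approx` : for every `ε > 0` there is `w ∈ Wgt`, `0 ≤ w ≤ e^{-4π² x}`, with
`|Tc w x - Tc gg x| ≤ ε min(1, e^{-x/3})` for all `x`.
`Tc_gg` : `Tc gg x = (1/4π) (Σ_{c ≠ 0} exp(-e^x N(c)³) - (2π Γ(4/3)/√3) e^{-x/3})`.
-/

set_option autoImplicit false

noncomputable section

open MeasureTheory Complex Set Filter Topology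
open scoped ContDiff SchwartzMap FourierTransform

namespace Crest.Agent.R017.SgnU92

open Crest.Agent.R012 Crest.Agent.R012.Eis Crest.Agent.R012.MC Crest.Agent.R012.LatSum413
open Crest.Agent.R012.Cube777
open Crest.Agent.R017.E1551 (Sc mc Tc)

/-- near part: uniform seminorm bound -/
lemma near_bound (s : Finset (ℕ × ℕ)) : ∃ A : ℝ, 0 ≤ A ∧ ∀ N : ℝ, 1 ≤ N →
    (s.sup (schwartzSeminormFamily ℂ ℂ ℂ)) (PD GS XS N⁻¹) ≤ A := by
  refine ⟨∑ p ∈ s, ∑ i ∈ Finset.range (p.2 + 1), (p.2.choose i : ℝ) *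
      SchwartzMap.seminorm ℂ 0 i GS * SchwartzMap.seminorm ℂ p.1 (p.2 - i) XS,
    Finset.sum_nonneg fun _ _ => Finset.sum_nonneg fun _ _ => by positivity, fun N hN => ?_⟩
  refine Seminorm.finset_sup_apply_le (Finset.sum_nonneg fun _ _ =>
    Finset.sum_nonneg fun _ _ => by positivity) fun p hp => ?_
  have hN' : |N⁻¹| ≤ 1 := by
    rw [abs_of_nonneg (by positivity)]
    exact inv_le_one_of_one_le₀ hN
  refine (seminorm_near GS XS hN' _ (PD_apply GS XS N⁻¹) p.1 p.2).trans ?_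
  exact Finset.single_le_sum (f := fun p : ℕ × ℕ => ∑ i ∈ Finset.range (p.2 + 1),
    (p.2.choose i : ℝ) * SchwartzMap.seminorm ℂ 0 i GS * SchwartzMap.seminorm ℂ p.1 (p.2 - i) XS)
    (fun _ _ => Finset.sum_nonneg fun _ _ => by positivity) hp

/-- far part: seminorms `O(1/N)` -/
lemma far_bound (s : Finset (ℕ × ℕ)) : ∃ A : ℝ, 0 ≤ A ∧ ∀ N : ℝ, 1 ≤ N →
    (s.sup (schwartzSeminormFamily ℂ ℂ ℂ)) (GS - PD XS GS N⁻¹) ≤ N⁻¹ * A := by
  refine ⟨∑ p ∈ s, ∑ i ∈ Finset.range (p.2 + 1), (p.2.choose i : ℝ) *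
      SchwartzMap.seminorm ℂ (p.1 + 1) i GS * (1 + SchwartzMap.seminorm ℂ 0 (p.2 - i) XS),
    Finset.sum_nonneg fun _ _ => Finset.sum_nonneg fun _ _ => by positivity, fun N hN => ?_⟩
  have hN0 : 0 < N⁻¹ := by positivity
  refine Seminorm.finset_sup_apply_le (mul_nonneg hN0.le (Finset.sum_nonneg fun _ _ =>
    Finset.sum_nonneg fun _ _ => by positivity)) fun p hp => ?_
  refine (seminorm_far GS XS XS_one hN0 (inv_le_one_of_one_le₀ hN) _ (fun z => ?_) p.1 p.2).trans ?_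
  · have h : (GS - PD XS GS N⁻¹ : 𝓢(ℂ, ℂ)) z = GS z - PD XS GS N⁻¹ z := rfl
    rw [h, PD_apply]; ring
  refine mul_le_mul_of_nonneg_left ?_ hN0.le
  exact Finset.single_le_sum (f := fun p : ℕ × ℕ => ∑ i ∈ Finset.range (p.2 + 1),
    (p.2.choose i : ℝ) * SchwartzMap.seminorm ℂ (p.1 + 1) i GS *
      (1 + SchwartzMap.seminorm ℂ 0 (p.2 - i) XS))
    (fun _ _ => Finset.sum_nonneg fun _ _ => by positivity) hp

lemma e0_eq {N : ℝ} (hN : 1 ≤ N) : e0 N = fun x => uN N (N ^ 2 * x) := by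
  funext x
  unfold e0 uN
  congr 2
  have : N ≠ 0 := by positivity
  field_simp

/-- `min 1 (e^{-(x - 2 log N)/3}) ≤ N min 1 (e^{-x/3})` -/
lemma min_shift {N : ℝ} (hN : 1 ≤ N) (x : ℝ) :
    min 1 (Real.exp (-(x - Real.log (N ^ 2)) / 3)) ≤ N * min 1 (Real.exp (-x / 3)) := by
  have hN0 : 0 < N := by linarith
  have hl : 0 ≤ Real.log N := Real.log_nonneg hN
  rw [mul_min_of_nonneg _ _ hN0.le]
  refine le_min ((min_le_left _ _).trans (by linarith)) ((min_le_right _ _).trans ?_)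
  have e : -(x - Real.log (N ^ 2)) / 3 = 2 / 3 * Real.log N + -x / 3 := by
    rw [Real.log_pow]; push_cast; ring
  rw [e, Real.exp_add]
  refine mul_le_mul_of_nonneg_right ?_ (by positivity)
  calc Real.exp (2 / 3 * Real.log N) ≤ Real.exp (Real.log N) :=
        Real.exp_le_exp.mpr (by linarith)
    _ = N := Real.exp_log hN0

theorem approx_wN : ∃ A : ℝ, 0 ≤ A ∧ ∀ N : ℝ, 2 ≤ N → ∀ x : ℝ,
    |Tc (wN N) x - Tc gg x| ≤ A / N * min 1 (Real.exp (-x / 3)) := by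
  obtain ⟨s, C, hC, hb⟩ := Tc_bound
  obtain ⟨A1, hA1, h1⟩ := near_bound s
  obtain ⟨A2, hA2, h2⟩ := far_bound s
  refine ⟨C * A1 + C * A2, by positivity, fun N hN x => ?_⟩
  have hN1 : 1 ≤ N := by linarith
  have hN0 : 0 < N := by linarith
  have hm : 0 ≤ min 1 (Real.exp (-x / 3)) := le_min zero_le_one (Real.exp_pos _).le
  have hd := decomp hN x
  have b1 : |Tc (e0 N) x| ≤ C * A1 / N * min 1 (Real.exp (-x / 3)) := by
    rw [e0_eq hN1, Tc_dil (uN N) (show (0 : ℝ) < N ^ 2 by positivity), abs_mul,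
      abs_of_pos (by positivity : (0 : ℝ) < (N ^ 2)⁻¹)]
    have h3 := hb _ _ (RS_uN N) (x - Real.log (N ^ 2))
    have h4 := min_shift hN1 x
    have h5 := h1 N hN1
    have hS : 0 ≤ (s.sup (schwartzSeminormFamily ℂ ℂ ℂ)) (PD GS XS N⁻¹) := apply_nonneg _ _
    calc (N ^ 2)⁻¹ * |Tc (uN N) (x - Real.log (N ^ 2))|
        ≤ (N ^ 2)⁻¹ * (C * (s.sup (schwartzSeminormFamily ℂ ℂ ℂ)) (PD GS XS N⁻¹) *
          min 1 (Real.exp (-(x - Real.log (N ^ 2)) / 3))) := by gcongr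
      _ ≤ (N ^ 2)⁻¹ * (C * A1 * (N * min 1 (Real.exp (-x / 3)))) := by
          refine mul_le_mul_of_nonneg_left ?_ (by positivity)
          exact mul_le_mul (mul_le_mul_of_nonneg_left h5 hC) h4
            (le_min zero_le_one (Real.exp_pos _).le) (by positivity)
      _ = C * A1 / N * min 1 (Real.exp (-x / 3)) := by field_simp
  have b2 : |Tc (e1 N) x| ≤ C * A2 / N * min 1 (Real.exp (-x / 3)) := by
    refine (hb _ _ (RS_e1 N) x).trans ?_
    have h5 := h2 N hN1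
    refine mul_le_mul_of_nonneg_right ?_ hm
    calc C * (s.sup (schwartzSeminormFamily ℂ ℂ ℂ)) (GS - PD XS GS N⁻¹) ≤ C * (N⁻¹ * A2) :=
          mul_le_mul_of_nonneg_left h5 hC
      _ = C * A2 / N := by ring
  have e : Tc (wN N) x - Tc gg x = -(Tc (e0 N) x + Tc (e1 N) x) := by rw [← hd]; ring
  rw [e, abs_neg]
  refine (abs_add_le _ _).trans ((add_le_add b1 b2).trans (le_of_eq ?_))
  ring

/-- **Approximation of the Gaussian.** -/
theorem approx {ε : ℝ} (hε : 0 < ε) : ∃ w : ℝ → ℝ, Wgt w ∧ (∀ x, 0 ≤ w x) ∧ (∀ x, w x ≤ gg x) ∧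
    ∀ x : ℝ, |Tc w x - Tc gg x| ≤ ε * min 1 (Real.exp (-x / 3)) := by
  obtain ⟨A, hA, h⟩ := approx_wN
  set N : ℝ := max 2 (A / ε) with hN
  have hN2 : 2 ≤ N := le_max_left _ _
  have hN0 : 0 < N := by linarith
  refine ⟨wN N, Wgt_wN (by linarith), wN_nonneg N, wN_le N, fun x => (h N hN2 x).trans ?_⟩
  refine mul_le_mul_of_nonneg_right ?_ (le_min zero_le_one (Real.exp_pos _).le)
  rw [div_le_iff₀ hN0]
  have : A / ε ≤ N := le_max_right _ _
  rw [div_le_iff₀ hε] at this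
  linarith

/-! ### the Gaussian -/

lemma Wt_gg {t : ℝ} (ht : 0 ≤ t) : Wt gg t = 1 / (4 * Real.pi) * Real.exp (-t ^ 2) := by
  have h1 := fC_fw gg (t : ℂ)
  have h2 : fw gg = T8.cg ((4 * Real.pi ^ 2 : ℝ) : ℂ) := by
    funext z
    unfold fw gg T8.cg
    rw [Complex.ofReal_exp]
    congr 1
    push_cast; ring
  have h3 := T8.fC_cg (s := ((4 * Real.pi ^ 2 : ℝ) : ℂ)) (by
    rw [Complex.ofReal_re]; positivity) (t : ℂ)
  rw [h2, h3, Complex.norm_real, Real.norm_of_nonneg ht] at h1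
  have hpi : (Real.pi : ℂ) ≠ 0 := by exact_mod_cast Real.pi_pos.ne'
  have e : (Real.pi : ℂ) / ((4 * Real.pi ^ 2 : ℝ) : ℂ) *
      cexp (-(4 * (Real.pi : ℂ) ^ 2 * (t : ℂ) ^ 2 / ((4 * Real.pi ^ 2 : ℝ) : ℂ))) =
      ((1 / (4 * Real.pi) * Real.exp (-t ^ 2) : ℝ) : ℂ) := by
    push_cast
    congr 1
    · field_simp
    · congr 1; field_simp
  rw [e] at h1
  exact_mod_cast h1.symm

lemma norm_toC_pow (c : Eis) : (‖toC c‖ ^ 3) ^ 2 = (nm c : ℝ) ^ 3 := by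
  rw [← norm_toC_sq]; ring

open Classical in
lemma Sc_gg (x : ℝ) : Sc gg x = 1 / (4 * Real.pi) *
    ∑' c : Eis, if c = 0 then 0 else Real.exp (-(Real.exp x * (nm c : ℝ) ^ 3)) := by
  unfold Sc
  rw [← tsum_mul_left]
  refine tsum_congr fun c => ?_
  by_cases hc : c = 0
  · simp [hc]
  · rw [if_neg hc, if_neg hc, Wt_gg (by positivity), mul_pow, norm_toC_pow, ← Real.exp_nat_mul]
    have e2 : ((2 : ℕ) : ℝ) * (x / 2) = x := by push_cast; ring
    rw [e2]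

lemma Iw_gg : Iw gg = 1 / (8 * Real.pi) * Real.Gamma (1 / 3) := by
  unfold Iw
  have h1 := _root_.integral_rpow_mul_exp_neg_rpow (p := 2) (q := -(1 / 3)) (by norm_num) (by norm_num)
  have e : ∫ u in Ioi (0 : ℝ), Wt gg u * u ^ (-(1 / 3) : ℝ) =
      ∫ u in Ioi (0 : ℝ), 1 / (4 * Real.pi) * (u ^ (-(1 / 3) : ℝ) * Real.exp (-u ^ (2 : ℝ))) := by
    refine setIntegral_congr_fun measurableSet_Ioi fun u hu => ?_
    simp only [mem_Ioi] at hu
    have e2 : u ^ (2 : ℝ) = u ^ 2 := by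
      rw [show (2 : ℝ) = ((2 : ℕ) : ℝ) by norm_num, Real.rpow_natCast]
    rw [Wt_gg hu.le, e2]; ring
  rw [e, integral_const_mul, h1]
  have : ((-(1 / 3) : ℝ) + 1) / 2 = 1 / 3 := by norm_num
  rw [this]
  have hpi : Real.pi ≠ 0 := Real.pi_pos.ne'
  field_simp; norm_num

open Classical in
/-- **`Tc` of the Gaussian.** -/
theorem Tc_gg (x : ℝ) : Tc gg x = 1 / (4 * Real.pi) *
    ((∑' c : Eis, if c = 0 then 0 else Real.exp (-(Real.exp x * (nm c : ℝ) ^ 3))) -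
      2 * Real.pi * Real.Gamma (4 / 3) / Real.sqrt 3 * Real.exp (-x / 3)) := by
  have hG : Real.Gamma (4 / 3) = 1 / 3 * Real.Gamma (1 / 3) := by
    have := Real.Gamma_add_one (s := 1 / 3) (by norm_num)
    rw [← this]; congr 1; norm_num
  unfold Tc mc
  rw [Sc_gg, Iw_gg, hG]
  have hpi : Real.pi ≠ 0 := Real.pi_pos.ne'
  have h3 : Real.sqrt 3 ≠ 0 := by positivity
  field_simp
  ring

end Crest.Agent.R017.SgnU92
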