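import Crest.Agent.R017.SideD_777

/-!
# Row 17, section D: three big lumps with the level rule (theorem T7, helper777)

Side `{A, B, C | m + b, a + b'} · V`, `C` the smallest, `X = V · (b, b')` of length `≤ ξ`.
Columns `{A', B', C' | m', a'}` at families `i ≤ κ - 3 ξ`: two-factor theorem with all pairs, the
third lump by its level, and Halász–Montgomery (LV') on ONE monomial `ABC`, `BCC` or `CCC`.
`θ = 7/8 + d`, loss `d (A + B + 2 (m + a))`. No LB, no REM.
-/

set_option autoImplicit false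

noncomputable section

namespace Crest.Agent.R017.SC777

open Crest.Agent.R017.ER911

variable {θ d : ℝ} {r s : EF}

theorem triple_val (A B C : ℝ) :
    ((Finset.univ : Finset (Fin 3)).val.map ![A, B, C] : Multiset ℝ) = {A, B, C} := by
  rfl

/-- the level rule for three lumps: (LV') on a monomial of the lumps, or a second moment of a
pair (with all granular mass) and the level of the third lump -/
theorem lev3 (Lv : ExpLv θ r) {κ A B C m a E : ℝ} (hκ : 0 ≤ κ) (hA : 0 ≤ A) (hAκ : A ≤ κ)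
    (hB : 0 ≤ B) (hBκ : B ≤ κ) (hC : 0 ≤ C) (hCκ : C ≤ κ) (hm : 0 ≤ m) (ha : 0 ≤ a)
    (H : ∀ p q u xp xq xu m' a' ω : ℝ, 0 ≤ p → p ≤ A → 0 ≤ q → q ≤ B → 0 ≤ u → u ≤ C →
      0 ≤ m' → m' ≤ m → 0 ≤ a' → a' ≤ a → xp ≤ θ * p → xq ≤ θ * q → xu ≤ θ * u →
      ω ≤ θ * (m' + a') →
      (∃ n₀ n₁ n₂ : ℕ, (2 - θ) * (n₀ * p + n₁ * q + n₂ * u) + (2 * θ - 1) * κ ≤
          2 * (n₀ * xp + n₁ * xq + n₂ * xu) ∧
        2 * ((n₀ * p + n₁ * q + n₂ * u) - (n₀ * xp + n₁ * xq + n₂ * xu)) +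
          2 * (xp + xq + xu + ω) ≤ E) ∨
      r κ {q, u} m' a' + 2 * xp ≤ E ∨ r κ {p, u} m' a' + 2 * xq ≤ E ∨
      r κ {p, q} m' a' + 2 * xu ≤ E) :
    r κ {A, B, C} m a ≤ E := by
  rw [← triple_val]
  refine Lv.lev 3 ![A, B, C] κ m a E hκ ?_ hm ha ?_
  · intro j
    fin_cases j
    · exact ⟨hA, hAκ⟩
    · exact ⟨hB, hBκ⟩
    · exact ⟨hC, hCκ⟩
  · intro y x m' a' ω α hy hm0 hm1 ha0 ha1 hx hω hα
    have gran : ∀ m' ω : ℝ, ω ≤ θ * m' → ω - m' * (ω / m') ≤ 0 := by
      intro m' ω h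
      rcases eq_or_ne m' 0 with h0 | h0
      · rw [h0] at h ⊢
        rw [mul_zero] at h
        simpa using h
      · rw [mul_div_cancel₀ _ h0, sub_self]
    have g1 := gran m' ω hω
    have g2 := gran a' α hα
    have y0 := hy 0
    have y1 := hy 1
    have y2 := hy 2
    have x0 := hx 0
    have x1 := hx 1
    have x2 := hx 2
    rcases H (y 0) (y 1) (y 2) (x 0) (x 1) (x 2) m' a' (ω + α) y0.1 y0.2 y1.1 y1.2 y2.1 y2.2
      hm0 hm1 ha0 ha1 x0 x1 x2 (by linarith) with h | h | h | h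
    · obtain ⟨n₀, n₁, n₂, h1, h2⟩ := h
      refine Or.inl ⟨![n₀, n₁, n₂], 0, 0, le_rfl, fun _ => rfl, le_rfl, fun _ => rfl, ?_, ?_⟩
      · refine Or.inr ?_
        simp only [Fin.sum_univ_three, Matrix.cons_val_zero, Matrix.cons_val_one,
          Matrix.cons_val, zero_mul, add_zero]
        linarith
      · simp only [Fin.sum_univ_three, Matrix.cons_val_zero, Matrix.cons_val_one,
          Matrix.cons_val, zero_mul, add_zero]
        linarith
    · refine Or.inr (Or.inl ⟨![0, 1, 1], m', a', hm0, fun h => h, ha0, fun h => h, ?_⟩)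
      have e : (∑ j : Fin 3, Multiset.replicate ((![0, 1, 1] : Fin 3 → ℕ) j) (y j) :
          Multiset ℝ) = {y 1, y 2} := by
        simp [Fin.sum_univ_three, Multiset.singleton_add]
      rw [e]
      simp only [Fin.sum_univ_three, Matrix.cons_val_zero, Matrix.cons_val_one,
        Matrix.cons_val, Nat.cast_zero, Nat.cast_one, zero_mul, one_mul, zero_add]
      linarith
    · refine Or.inr (Or.inl ⟨![1, 0, 1], m', a', hm0, fun h => h, ha0, fun h => h, ?_⟩)
      have e : (∑ j : Fin 3, Multiset.replicate ((![1, 0, 1] : Fin 3 → ℕ) j) (y j) :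
          Multiset ℝ) = {y 0, y 2} := by
        simp [Fin.sum_univ_three, Multiset.singleton_add]
      rw [e]
      simp only [Fin.sum_univ_three, Matrix.cons_val_zero, Matrix.cons_val_one,
        Matrix.cons_val, Nat.cast_zero, Nat.cast_one, zero_mul, one_mul, add_zero]
      linarith
    · refine Or.inr (Or.inl ⟨![1, 1, 0], m', a', hm0, fun h => h, ha0, fun h => h, ?_⟩)
      have e : (∑ j : Fin 3, Multiset.replicate ((![1, 1, 0] : Fin 3 → ℕ) j) (y j) :
          Multiset ℝ) = {y 0, y 1} := by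
        simp [Fin.sum_univ_three, Multiset.singleton_add]
      rw [e]
      simp only [Fin.sum_univ_three, Matrix.cons_val_zero, Matrix.cons_val_one,
        Matrix.cons_val, Nat.cast_zero, Nat.cast_one, zero_mul, one_mul, add_zero]
      linarith


/-- the three variants of the level rule (`w = m + a`) -/
def VC (d κ A B C w E : ℝ) : Prop :=
  (3 * κ + 2 * (A + B + C) + (9 / 8 - d) * (A + B + C) + (3 / 4 + 2 * d) * κ +
      3 * (1 + 2 * d) * w ≤ 3 * E ∧ 2 * (A + B + C) + (7 / 4 + 2 * d) * w ≤ E) ∨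
  (3 * κ + 3 * A + C + 2 * B + (9 / 8 - d) * (B + 2 * C) + (3 / 4 + 2 * d) * κ +
      3 * (1 + 2 * d) * w ≤ 3 * E ∧
    κ + (11 / 4 + 2 * d) * A + 3 * B + 4 * C + (11 / 4 + 4 * d) * w ≤ 2 * E) ∨
  (3 * κ + 3 * (A + B) + 3 * (9 / 8 - d) * C + (3 / 4 + 2 * d) * κ +
      3 * (1 + 2 * d) * w ≤ 3 * E ∧
    2 * κ + 6 * C + (15 / 4 + 2 * d) * (A + B) + (15 / 4 + 6 * d) * w ≤ 3 * E)

/-- a column with three lumps -/
theorem col_V (R : ExpRules (7 / 8 + d) r s) (Lv : ExpLv (7 / 8 + d) r) (hd : 0 ≤ d)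
    (hd8 : d ≤ 1 / 8) {κ A B C S m a E : ℝ} (hA : 0 ≤ A) (hB : 0 ≤ B) (hC : 0 ≤ C) (hm : 0 ≤ m)
    (ha : 0 ≤ a) (hAB : A + B ≤ S) (hAC : A + C ≤ S) (hBC : B + C ≤ S) (hS : S ≤ κ)
    (hw : m + a ≤ 7 / 9 * (κ - S)) (hamp : 12 * a + 9 * m + 4 * S ≤ 8 * κ)
    (hV : VC d κ A B C (m + a) E) : r κ {A, B, C} m a ≤ E := by
  have hκ : 0 ≤ κ := by linarith
  refine lev3 Lv hκ hA (by linarith) hB (by linarith) hC (by linarith) hm ha ?_
  intro p q u xp xq xu m' a' ω hp hp' hq hq' hu hu' hm0 hm1 ha0 ha1 hxp hxq hxu hω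
  have hdp : d * p ≤ d * A := mul_le_mul_of_nonneg_left hp' hd
  have hdq : d * q ≤ d * B := mul_le_mul_of_nonneg_left hq' hd
  have hdu : d * u ≤ d * C := mul_le_mul_of_nonneg_left hu' hd
  have hdm : d * m' ≤ d * m := mul_le_mul_of_nonneg_left hm1 hd
  have hda : d * a' ≤ d * a := mul_le_mul_of_nonneg_left ha1 hd
  have hep : (1 / 8 - d) * p ≤ (1 / 8 - d) * A := mul_le_mul_of_nonneg_left hp' (by linarith)
  have heq : (1 / 8 - d) * q ≤ (1 / 8 - d) * B := mul_le_mul_of_nonneg_left hq' (by linarith)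
  have heu : (1 / 8 - d) * u ≤ (1 / 8 - d) * C := mul_le_mul_of_nonneg_left hu' (by linarith)
  -- the pairs are ideal
  have pair : ∀ y z : ℝ, 0 ≤ y → 0 ≤ z → y + z ≤ S → y ≤ κ → z ≤ κ →
      r κ {y, z} m' a' ≤ κ + (y + z) + (m' + a') + 2 * d * (m' + a') := by
    intro y z hy hz hyz hyκ hzκ
    have := side79a R hd (e := 0) (κ := κ) hy hz hm0 ha0 (by linarith) le_rfl (by linarith)
      (by linarith) hκ le_rfl hyκ hzκ
    linarith
  have t0 := pair q u hq hu (by linarith) (by linarith) (by linarith)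
  have t1 := pair p u hp hu (by linarith) (by linarith) (by linarith)
  have t2 := pair p q hp hq (by linarith) (by linarith) (by linarith)
  by_contra hcon
  push Not at hcon
  obtain ⟨hLV, h0, h1, h2⟩ := hcon
  rcases hV with ⟨c1, c2⟩ | ⟨c1, c2⟩ | ⟨c1, c2⟩
  · have := hLV 1 1 1
    simp only [Nat.cast_one, one_mul] at this
    rcases le_or_gt ((2 - (7 / 8 + d)) * (p + q + u) + (2 * (7 / 8 + d) - 1) * κ)
      (2 * (xp + xq + xu)) with hv | hv
    · have h3 := this hv
      linarith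
    · linarith
  · have := hLV 0 1 2
    simp only [Nat.cast_one, one_mul, Nat.cast_zero, zero_mul, zero_add, Nat.cast_ofNat] at this
    rcases le_or_gt ((2 - (7 / 8 + d)) * (q + 2 * u) + (2 * (7 / 8 + d) - 1) * κ)
      (2 * (xq + 2 * xu)) with hv | hv
    · have h3 := this hv
      linarith
    · linarith
  · have := hLV 0 0 3
    simp only [Nat.cast_zero, zero_mul, zero_add, Nat.cast_ofNat] at this
    rcases le_or_gt ((2 - (7 / 8 + d)) * (3 * u) + (2 * (7 / 8 + d) - 1) * κ)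
      (2 * (3 * xu)) with hv | hv
    · have h3 := this hv
      linarith
    · linarith

/-- **T7** : three big lumps, side `V + {A, B, C} | m + b, a + b'` -/
theorem T7 (R : ExpRules (7 / 8 + d) r s) (Lv : ExpLv (7 / 8 + d) r) (hd : 0 ≤ d)
    (hd8 : d ≤ 1 / 8) {κ A B C m b a b' ξ : ℝ} {V : Multiset ℝ} (hκ : 0 ≤ κ) (hC : 0 ≤ C)
    (hCA : C ≤ A) (hCB : C ≤ B) (hV : ∀ y ∈ V, 0 ≤ y)
    (hm : 0 ≤ m) (hb : 0 ≤ b) (ha : 0 ≤ a) (hb' : 0 ≤ b')
    (hx : V.sum + b + b' ≤ ξ) (hξ : 2 * ξ + (A + B + C + m + a) ≤ κ)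
    (h7 : (6 * κ + (A + B + C) ≤ 42 * ξ ∧
        8 * (A + B + C) + 6 * (m + a) + 12 * ξ + 3 * C ≤ 8 * κ) ∨
      (6 * κ + (B + 2 * C) ≤ 42 * ξ ∧
        (B + 2 * C) + 3 * (A + B + C + m + a + C) + 4 * ξ ≤ 4 * κ) ∨
      (2 * κ + C ≤ 14 * ξ ∧ 12 * C + 3 * (A + B + m + a) ≤ 4 * κ))
    (h79 : m + a ≤ 7 / 9 * (κ - 3 / 2 * ξ - 9 / 8 * C - (A + B)))
    (hamp : 12 * a + 9 * m + 4 * (A + B) ≤ 8 * (κ - 3 / 2 * ξ - 9 / 8 * C))
    (hF : 2 * κ - 6 * ξ ≤ 3 * (A + B)) :
    ∀ κ' : ℝ, 0 ≤ κ' → κ' ≤ κ →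
      r κ' (V + {A, B, C}) (m + b) (a + b') + (κ - κ') / 3 ≤
        κ + (V.sum + (A + B + C) + (m + b) + (a + b')) + d * (A + B + 2 * (m + a)) := by
  have hA : 0 ≤ A := hC.trans hCA
  have hB : 0 ≤ B := hC.trans hCB
  have hsum : ({A, B, C} : Multiset ℝ).sum = A + B + C := by
    simp [add_assoc]
  have hF0 : 0 ≤ d * (A + B + 2 * (m + a)) := by positivity
  have hZy : ∀ y ∈ ({A, B, C} : Multiset ℝ), 0 ≤ y := by
    intro y hy
    simp only [Multiset.insert_eq_cons, Multiset.mem_cons, Multiset.mem_singleton] at hy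
    rcases hy with rfl | rfl | rfl
    · exact hA
    · exact hB
    · exact hC
  have hcol : ColX (7 / 8 + d) r κ ξ (d * (A + B + 2 * (m + a))) {A, B, C} m a := by
    refine ⟨?_, ?_⟩
    · intro Y' m' a' i hY' hm0 hm1 ha0 ha1 hi hyi hii
      obtain ⟨A', Z₁, rfl, hA0, hA1, hZ₁⟩ := Sh.of_cons (Y := {B, C}) (y := A) hY'
      obtain ⟨B', C', rfl, hB0, hB1, hC0, hC1⟩ := hZ₁.pair
      have hs3 : (A' ::ₘ ({B', C'} : Multiset ℝ)).sum = A' + B' + C' := by
        simp [add_assoc]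
      rw [hs3]
      have hiA : A' ≤ i := hyi A' (by simp)
      have hiB : B' ≤ i := hyi B' (by simp)
      have hiC : C' ≤ i := hyi C' (by simp)
      have hdm : d * m' ≤ d * m := mul_le_mul_of_nonneg_left hm1 hd
      have hda : d * a' ≤ d * a := mul_le_mul_of_nonneg_left ha1 hd
      have hdC : d * (2 * C') ≤ d * (A + B) := mul_le_mul_of_nonneg_left (by linarith) hd
      rcases le_total i (κ - 3 / 2 * ξ - 9 / 8 * C) with hi1 | hi1
      · -- the third lump pointwise
        have e0 := supV R (κ := i) hi {A', B'} {C'}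
          (ok_pair (m := 0) (a := 0) hA0 hB0 le_rfl le_rfl).1
          (fun y hy => by rw [Multiset.mem_singleton.1 hy]; exact hC0) hm0 ha0
        have e00 : ({C'} + {A', B'} : Multiset ℝ) = A' ::ₘ {B', C'} := by
          rw [Multiset.singleton_add]
          show C' ::ₘ A' ::ₘ {B'} = A' ::ₘ B' ::ₘ {C'}
          rw [Multiset.cons_swap]
          congr 1
          exact Multiset.pair_comm C' B'
        rw [e00, Multiset.sum_singleton] at e0
        rcases le_or_gt i (A' + B') with hks | hks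
        · have e1 := sup_all R hi hA0 hB0 hm0 ha0 hiA hiB
          linarith
        · obtain ⟨e, he⟩ : ∃ e, e = max 0 (max (m' + a' - 7 / 9 * (i - (A' + B')))
            ((12 * a' + 9 * m' + 4 * (A' + B') - 8 * i) / 12)) := ⟨_, rfl⟩
          have he0 : 0 ≤ e := by rw [he]; exact le_max_left _ _
          have he1 : m' + a' - 7 / 9 * (i - (A' + B')) ≤ e := by
            rw [he]; exact (le_max_left _ _).trans (le_max_right _ _)
          have he2 : (12 * a' + 9 * m' + 4 * (A' + B') - 8 * i) / 12 ≤ e := by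
            rw [he]; exact (le_max_right _ _).trans (le_max_right _ _)
          have e1 := side79a R hd hA0 hB0 hm0 ha0 hks.le he0 he1 (by linarith) hi le_rfl hiA hiB
          have e4 : e ≤ 4 / 3 * ((2 * κ + i) / 3 - ξ - i - 3 / 4 * C') := by
            rw [he]
            refine max_le ?_ (max_le ?_ ?_)
            · linarith
            · linarith
            · linarith
          linarith
      · -- the level rule
        have hdi : d * (2 * i) ≤ d * (3 * (A + B)) :=
          mul_le_mul_of_nonneg_left (by linarith) hd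
        have hdA : d * A' ≤ d * A := mul_le_mul_of_nonneg_left hA1 hd
        have hdB : d * B' ≤ d * B := mul_le_mul_of_nonneg_left hB1 hd
        have hdA0 : 0 ≤ d * A := mul_nonneg hd hA
        have hdB0 : 0 ≤ d * B := mul_nonneg hd hB
        have hdC0 : 0 ≤ d * C := mul_nonneg hd hC
        have hdA0' : 0 ≤ d * A' := mul_nonneg hd hA0
        have hdB0' : 0 ≤ d * B' := mul_nonneg hd hB0
        have hdC0' : 0 ≤ d * C' := mul_nonneg hd hC0
        have heA : (1 / 8 - d) * A' ≤ (1 / 8 - d) * A :=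
          mul_le_mul_of_nonneg_left hA1 (by linarith)
        have heB : (1 / 8 - d) * B' ≤ (1 / 8 - d) * B :=
          mul_le_mul_of_nonneg_left hB1 (by linarith)
        have heC : (1 / 8 - d) * C' ≤ (1 / 8 - d) * C :=
          mul_le_mul_of_nonneg_left hC1 (by linarith)
        refine (col_V R Lv hd hd8 (S := A + B) hA0 hB0 hC0 hm0 ha0 (by linarith) (by linarith)
          (by linarith) (by linarith) (by linarith) (by linarith)
          (E := A' + B' + C' + m' + a' + (2 * κ + i) / 3 - ξ + d * (A + B + 2 * (m + a))) ?_).trans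
          (by linarith)
        unfold VC
        have hdi' : 0 ≤ d * i := mul_nonneg hd hi
        rcases h7 with ⟨c1, c2⟩ | ⟨c1, c2⟩ | ⟨c1, c2⟩
        · refine Or.inl ⟨?_, ?_⟩
          · linarith
          · linarith
        · refine Or.inr (Or.inl ⟨?_, ?_⟩)
          · linarith
          · linarith
        · refine Or.inr (Or.inr ⟨?_, ?_⟩)
          · linarith
          · linarith
    · intro Y' m' a' hY' hm0 hm1 ha0 ha1 h3
      have hYs := hY'.sum_nonneg
      have hdm : d * m' ≤ d * m := mul_le_mul_of_nonneg_left hm1 hd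
      have hda0 : 0 ≤ d * a := mul_nonneg hd ha
      have hdA0 : 0 ≤ d * A := mul_nonneg hd hA
      have hdB0 : 0 ≤ d * B := mul_nonneg hd hB
      linarith
  have := side_xi R (κ := κ) (ξ := ξ) (m := m) (b := b) (a := a) (b' := b')
    (F := d * (A + B + 2 * (m + a))) (V := V) (Z := {A, B, C}) hκ hV hZy hm hb ha hb' hF0
    (by linarith) (by rw [hsum]; linarith) hcol
  rw [hsum] at this
  exact this

end Crest.Agent.R017.SC777
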