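import Mathlib

/-!
# Row 17, section D: sides `{y₁,y₂ | w}` from LB (helper83)

`r κ y₁ y₂ w`, `s κ y₁ y₂ w`: exponents of the second moments (character side, Gauss sum side) of a
side with two smooth pieces `y₁, y₂` and granular mass `w`, over families of conductor exponent `κ`.
`θ = 7/8 + d`.

`HH r e`  : all sides of relative length `≤ 5/6` are ideal up to `e κ` (complete sums: cubes).
`Rules.lb`: the B-line, given `HH e` (Halasz-Montgomery for pairs, helper404).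
`side_lb` : for every `z ∈ [0,1/12]`, `HH r (max 0 (4/3 d - z (1/4 - 2 d)))`.
In particular at `θ = 7/8 + d` with `4/3 d ≤ z (1/4 - 2d)` all these sides are exactly ideal.
-/

set_option autoImplicit false

namespace Crest.Agent.R017.SideLB83

/-- complete sums over families `κ` of sides of relative length `≤ 5/6`, loss `e κ` -/
def HH (r : ℝ → ℝ → ℝ → ℝ → ℝ) (e : ℝ) : Prop :=
  ∀ κ y₁ y₂ w : ℝ, 0 ≤ κ → 0 ≤ y₁ → 0 ≤ y₂ → 0 ≤ w → 6 * (y₁ + y₂ + w) ≤ 5 * κ →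
    ∀ κ' : ℝ, y₁ ≤ κ' → y₂ ≤ κ' → 0 ≤ κ' → κ' ≤ κ →
      r κ' y₁ y₂ w + (κ - κ') / 3 ≤ κ + (y₁ + y₂ + w) + e * κ

structure Rules (d : ℝ) (r s : ℝ → ℝ → ℝ → ℝ → ℝ) : Prop where
  /-- Poisson, character side to Gauss side, all shortenings, cubes -/
  poisC : ∀ κ y₁ y₂ w E : ℝ, 0 ≤ κ → 0 ≤ y₁ → 0 ≤ y₂ → 0 ≤ w → κ + (y₁ + y₂ + w) ≤ E →
    (∀ a₁ a₂ w' i : ℝ, 0 ≤ a₁ → a₁ ≤ y₁ → 0 ≤ a₂ → a₂ ≤ y₂ → 0 ≤ w' → w' ≤ w →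
      0 ≤ i → i ≤ 2 * (a₁ + a₂ + w') - κ →
      κ + (y₁ + y₂ + w) - 2 * (a₁ + a₂ + w') + s i a₁ a₂ w' +
        (2 * (a₁ + a₂ + w') - κ - i) / 3 ≤ E) →
    ∀ κ' : ℝ, 0 ≤ κ' → κ' ≤ κ → r κ' y₁ y₂ w + (κ - κ') / 3 ≤ E
  /-- Poisson, Gauss side to character side; families shorter than a smooth piece are empty -/
  poisG : ∀ κ y₁ y₂ w E : ℝ, 0 ≤ κ → 0 ≤ y₁ → 0 ≤ y₂ → 0 ≤ w → κ + (y₁ + y₂ + w) ≤ E →
    (∀ a₁ a₂ w' i : ℝ, 0 ≤ a₁ → a₁ ≤ y₁ → 0 ≤ a₂ → a₂ ≤ y₂ → 0 ≤ w' → w' ≤ w →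
      0 ≤ i → a₁ ≤ i → a₂ ≤ i → i ≤ 2 * (a₁ + a₂ + w') - κ →
      κ + (y₁ + y₂ + w) - 2 * (a₁ + a₂ + w') + r i a₁ a₂ w' +
        (2 * (a₁ + a₂ + w') - κ - i) / 3 ≤ E) →
    ∀ κ' : ℝ, 0 ≤ κ' → κ' ≤ κ → s κ' y₁ y₂ w + (κ - κ') / 3 ≤ E
  /-- Cauchy on the Gauss side -/
  cau : ∀ κ y₁ y₂ w b : ℝ, 0 ≤ κ → 0 ≤ y₁ → 0 ≤ y₂ → 0 ≤ b → b ≤ w →
    s κ y₁ y₂ w ≤ b + s (κ + b) y₁ y₂ (w - b)
  /-- two-factor theorem -/
  tf : ∀ κ y₁ y₂ : ℝ, 0 ≤ y₁ → 0 ≤ y₂ → y₁ ≤ κ → y₂ ≤ κ → r κ y₁ y₂ 0 ≤ κ + y₁ + y₂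
  /-- starting point of the fixpoint argument -/
  start : ∃ e : ℝ, 0 ≤ e ∧ HH r e
  /-- (LB) the B-line -/
  lb : ∀ e : ℝ, 0 ≤ e → HH r e → ∀ κ y₁ y₂ w : ℝ, 0 ≤ y₁ → 0 ≤ y₂ → 0 ≤ w → y₁ ≤ κ → y₂ ≤ κ →
    5 * κ ≤ 6 * (y₁ + y₂ + w) →
    r κ y₁ y₂ w ≤ max (5 / 3 * (y₁ + y₂ + w) + (4 / 9 + e) * κ)
      ((7 / 4 + 2 * d) * (y₁ + y₂ + w) + (1 / 3 - 8 / 3 * d) * κ)

variable {d : ℝ} {r s : ℝ → ℝ → ℝ → ℝ → ℝ}

theorem tfg_long (R : Rules d r s) {κ y₁ y₂ : ℝ} (h1 : 0 ≤ y₁) (h2 : 0 ≤ y₂)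
    (h : y₁ + y₂ ≤ κ) : ∀ κ' : ℝ, 0 ≤ κ' → κ' ≤ κ →
      s κ' y₁ y₂ 0 + (κ - κ') / 3 ≤ κ + y₁ + y₂ := by
  have hκ : 0 ≤ κ := by linarith
  refine R.poisG κ y₁ y₂ 0 (κ + y₁ + y₂) hκ h1 h2 le_rfl (by linarith) ?_
  intro a₁ a₂ w' i ha1 ha1' ha2 ha2' hw hw' hi hi1 hi2 hi3
  have hw0 : w' = 0 := le_antisymm hw' hw
  subst hw0
  have := R.tf i a₁ a₂ ha1 ha2 hi1 hi2
  linarith

theorem tfg (R : Rules d r s) {k y₁ y₂ E : ℝ} (h1 : 0 ≤ y₁) (h2 : 0 ≤ y₂) (hk : 0 ≤ k)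
    (hE1 : k + y₁ + y₂ ≤ E) (hE2 : (5 * (y₁ + y₂) + k) / 3 ≤ E) : s k y₁ y₂ 0 ≤ E := by
  rcases le_total (y₁ + y₂) k with h | h
  · have := tfg_long R h1 h2 h k hk le_rfl
    linarith
  · have := tfg_long R h1 h2 le_rfl k hk h
    linarith

/-- columns after Cauchy: the common arithmetic of the level step.
`F` is the allowed loss; `x = (n₁+κ-2j)/3 - zκ`, `k = j + x`, `l₂ ≤ l' = n₁ - x`.
`v` : lower bound of the columns in the E-line. -/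
theorem column {κ j n₁ z x k l₂ k₂ v e F a : ℝ} (hd : 0 ≤ d) (he : 0 ≤ e)
    (hκ0 : 0 ≤ κ) (hn56 : 6 * n₁ ≤ 5 * κ) (hj' : j ≤ 2 * n₁ - κ)
    (hz' : z ≤ 1 / 12) (hx : x = (n₁ + κ - 2 * j) / 3 - z * κ) (hk : k = j + x)
    (hF1 : (1 / 2 + 3 * z) * e * κ ≤ F) (hF0 : 0 ≤ F)
    (hl2 : l₂ ≤ n₁ - x) (hk2 : 0 ≤ k₂) (hk2' : k₂ ≤ 2 * l₂ - k) (hvk : v ≤ k₂)
    (hva : a - (n₁ - x - l₂) ≤ v)
    (hF2 : (4 / 3 * d - z * (1 / 4 - 2 * d)) * κ - (1 / 2 + 4 * d) * (5 / 6 * κ - n₁) -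
      8 / 3 * d * a ≤ F) (R : ℝ)
    (hR : (5 * k₂ ≤ 6 * l₂ ∧ R ≤ max (5 / 3 * l₂ + (4 / 9 + e) * k₂)
      ((7 / 4 + 2 * d) * l₂ + (1 / 3 - 8 / 3 * d) * k₂)) ∨ R ≤ k₂ + l₂ + e * k₂)
    (hd8 : 32 * d ≤ 5) :
    R ≤ (4 * l₂ + k + k₂) / 3 + z * κ + F := by
  have h3x : 3 * x = n₁ + κ - 2 * j - 3 * (z * κ) := by rw [hx]; ring
  have hzκ' : z * κ ≤ 1 / 12 * κ := mul_le_mul_of_nonneg_right hz' hκ0
  have hkl : n₁ - x ≤ k := by linarith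
  have hk2m : k₂ ≤ 2 * n₁ - 3 * x - j := by linarith
  have hcol : e * k₂ ≤ F := by
    have e1 : e * k₂ ≤ e * (2 * n₁ - 3 * x - j) := mul_le_mul_of_nonneg_left hk2m he
    have e2 : (2 * n₁ - 3 * x - j) - (1 / 2 + 3 * z) * κ ≤ 0 := by linarith
    have e3 : e * ((2 * n₁ - 3 * x - j) - (1 / 2 + 3 * z) * κ) ≤ 0 :=
      mul_nonpos_of_nonneg_of_nonpos he e2
    nlinarith [e1, e3]
  rcases hR with ⟨_, hR⟩ | hR
  · refine hR.trans (max_le ?_ ?_)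
    · have : 5 * l₂ ≤ 4 * k + 9 * (z * κ) := by linarith
      linarith
    · have e3 : 0 ≤ (5 / 12 - 8 / 3 * d + 2 * d) * (n₁ - x - l₂) :=
        mul_nonneg (by linarith) (by linarith)
      have e4 : d * v ≤ d * k₂ := mul_le_mul_of_nonneg_left hvk hd
      have e5 : d * (a - (n₁ - x - l₂)) ≤ d * v := mul_le_mul_of_nonneg_left hva hd
      have e6 : 3 * (d * x) = d * n₁ + d * κ - 2 * (d * j) - 3 * (d * (z * κ)) := by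
        have : d * (3 * x) = d * (n₁ + κ - 2 * j - 3 * (z * κ)) := by rw [h3x]
        linarith
      have e7 : d * j ≤ d * (2 * n₁ - κ) := mul_le_mul_of_nonneg_left hj' hd
      nlinarith [e3, e4, e5, e6, e7, hF2]
  · linarith

/-- level step on the Gauss side -/
theorem level (R : Rules d r s) (hd : 0 ≤ d) (hd8 : 32 * d ≤ 5) {z : ℝ} (hz : 0 ≤ z)
    (hz' : z ≤ 1 / 12) {e : ℝ} (he : 0 ≤ e) (H : HH r e) {κ a₁ a₂ w₁ j F : ℝ} (hκ0 : 0 ≤ κ)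
    (ha1 : 0 ≤ a₁) (ha2 : 0 ≤ a₂) (hw1 : 0 ≤ w₁) (hj : 0 ≤ j)
    (hj' : j ≤ 2 * (a₁ + a₂ + w₁) - κ) (hn56 : 6 * (a₁ + a₂ + w₁) ≤ 5 * κ)
    (hF0 : 0 ≤ F) (hF1 : (1 / 2 + 3 * z) * e * κ ≤ F)
    (hF2 : (4 / 3 * d - z * (1 / 4 - 2 * d)) * κ -
      (1 / 2 + 4 * d) * (5 / 6 * κ - (a₁ + a₂ + w₁)) - 4 / 3 * d * (a₁ + a₂) ≤ F) :
    s j a₁ a₂ w₁ ≤ (4 * (a₁ + a₂ + w₁) + κ + j) / 3 + F := by
  set n₁ := a₁ + a₂ + w₁ with hn1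
  have hzκ : 0 ≤ z * κ := by positivity
  have hzκ' : z * κ ≤ 1 / 12 * κ := mul_le_mul_of_nonneg_right hz' hκ0
  rcases le_or_gt w₁ ((n₁ + κ - 2 * j) / 3 - z * κ) with hc | hc
  · have c1 := R.cau j a₁ a₂ w₁ w₁ hj ha1 ha2 hw1 le_rfl
    rw [sub_self] at c1
    have c2 : s (j + w₁) a₁ a₂ 0 ≤ (4 * n₁ + κ + j) / 3 - w₁ := by
      refine tfg R ha1 ha2 (by linarith) ?_ ?_
      · linarith
      · linarith
    linarith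
  · set x := (n₁ + κ - 2 * j) / 3 - z * κ with hx
    have h3x : 3 * x = n₁ + κ - 2 * j - 3 * (z * κ) := by rw [hx]; ring
    have hx0 : 0 ≤ x := by linarith
    have c1 := R.cau j a₁ a₂ w₁ x hj ha1 ha2 hx0 hc.le
    set k := j + x with hk
    have hk0 : 0 ≤ k := by linarith
    have c2 : s k a₁ a₂ (w₁ - x) + (k - k) / 3 ≤ k + (n₁ - x) + z * κ + F := by
      refine R.poisG k a₁ a₂ (w₁ - x) (k + (n₁ - x) + z * κ + F) hk0 ha1 ha2 (by linarith)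
        (by linarith) ?_ k hk0 le_rfl
      intro c₁ c₂ w₂ k₂ hcc1 hc1' hc2 hc2' hw2 hw2' hk2 hk21 hk22 hk2'
      have hl2 : c₁ + c₂ + w₂ ≤ n₁ - x := by linarith
      have tgt : r k₂ c₁ c₂ w₂ ≤ (4 * (c₁ + c₂ + w₂) + k + k₂) / 3 + z * κ + F := by
        refine column (d := d) (j := j) (n₁ := n₁) (x := x) (v := (c₁ + c₂) / 2) (e := e)
          (a := (a₁ + a₂) / 2) hd he hκ0 hn56 hj' hz' hx hk hF1 hF0 hl2 hk2 hk2'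
          (by linarith) (by linarith) (by linarith) _ ?_ hd8
        rcases le_or_gt (5 * k₂) (6 * (c₁ + c₂ + w₂)) with h56 | h56
        · exact Or.inl ⟨h56, R.lb e he H k₂ c₁ c₂ w₂ hcc1 hc2 hw2 hk21 hk22 h56⟩
        · right
          have hH := H k₂ c₁ c₂ w₂ hk2 hcc1 hc2 hw2 h56.le k₂ hk21 hk22 hk2 le_rfl
          linarith
      linarith
    linarith

/-- one round of the fixpoint argument -/
theorem round (R : Rules d r s) (hd : 0 ≤ d) (hd8 : 32 * d ≤ 5) {z : ℝ} (hz : 0 ≤ z)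
    (hz' : z ≤ 1 / 12) {e : ℝ} (he : 0 ≤ e) (H : HH r e) :
    HH r (max ((1 / 2 + 3 * z) * e) (4 / 3 * d - z * (1 / 4 - 2 * d))) := by
  intro κ y₁ y₂ w hκ0 h1 h2 hw hn κ' _ _ hκ' hκ
  set e' := max ((1 / 2 + 3 * z) * e) (4 / 3 * d - z * (1 / 4 - 2 * d)) with he'
  have he1 : (1 / 2 + 3 * z) * e ≤ e' := le_max_left _ _
  have he2 : 4 / 3 * d - z * (1 / 4 - 2 * d) ≤ e' := le_max_right _ _
  have he0 : 0 ≤ e' := le_trans (by positivity) he1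
  have heκ : 0 ≤ e' * κ := by positivity
  refine R.poisC κ y₁ y₂ w (κ + (y₁ + y₂ + w) + e' * κ) hκ0 h1 h2 hw (by linarith) ?_ κ' hκ' hκ
  intro a₁ a₂ w₁ j ha1 ha1' ha2 ha2' hw1 hw1' hj hj'
  have hlev := level R hd hd8 hz hz' he H (κ := κ) (F := e' * κ) hκ0 ha1 ha2 hw1 hj hj'
    (by linarith) heκ (mul_le_mul_of_nonneg_right he1 hκ0) (by
      have e1 := mul_le_mul_of_nonneg_right he2 hκ0
      have e2 : 0 ≤ (1 / 2 + 4 * d) * (5 / 6 * κ - (a₁ + a₂ + w₁)) :=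
        mul_nonneg (by linarith) (by linarith)
      have e3 : 0 ≤ 4 / 3 * d * (a₁ + a₂) := by positivity
      linarith)
  linarith

/-- **the limit of the rounds**: all sides of relative length `≤ 5/6`. -/
theorem side_lb (R : Rules d r s) (hd : 0 ≤ d) (hd8 : 32 * d ≤ 5) {z : ℝ} (hz : 0 ≤ z)
    (hz' : z ≤ 1 / 12) : HH r (max 0 (4 / 3 * d - z * (1 / 4 - 2 * d))) := by
  obtain ⟨e₀, he₀, H₀⟩ := R.start
  set L := 4 / 3 * d - z * (1 / 4 - 2 * d) with hL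
  have hq0 : 0 ≤ 1 / 2 + 3 * z := by positivity
  have hq1 : 1 / 2 + 3 * z ≤ 3 / 4 := by linarith
  have mono : ∀ {e e' : ℝ}, e ≤ e' → HH r e → HH r e' := by
    intro e e' hee h κ y₁ y₂ w hκ0 h1 h2 hw hn κ' hy1 hy2 hκ' hκ
    have := h κ y₁ y₂ w hκ0 h1 h2 hw hn κ' hy1 hy2 hκ' hκ
    have := mul_le_mul_of_nonneg_right hee hκ0
    linarith
  have iter : ∀ n : ℕ, HH r (max 0 L + (3 / 4) ^ n * e₀) := by
    intro n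
    induction n with
    | zero =>
      refine mono ?_ H₀
      have := le_max_left 0 L
      simpa using by linarith
    | succ n ih =>
      have hm := le_max_left 0 L
      have hp : 0 ≤ (3 / 4 : ℝ) ^ n * e₀ := by positivity
      refine mono ?_ (round R hd hd8 hz hz' (by linarith) ih)
      refine max_le ?_ ?_
      · calc (1 / 2 + 3 * z) * (max 0 L + (3 / 4) ^ n * e₀)
            ≤ 3 / 4 * (max 0 L + (3 / 4) ^ n * e₀) :=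
              mul_le_mul_of_nonneg_right hq1 (by linarith)
          _ ≤ max 0 L + (3 / 4) ^ (n + 1) * e₀ := by rw [pow_succ]; linarith
      · have := le_max_right 0 L
        have hp' : 0 ≤ (3 / 4 : ℝ) ^ (n + 1) * e₀ := by positivity
        linarith
  intro κ y₁ y₂ w hκ0 h1 h2 hw hn κ' hy1 hy2 hκ' hκ
  refine le_of_forall_pos_le_add ?_
  intro ε hε
  have hpos : 0 < ε / (e₀ * κ + 1) := by positivity
  obtain ⟨n, hn'⟩ := exists_pow_lt_of_lt_one hpos (by norm_num : (3 / 4 : ℝ) < 1)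
  have h3 := iter n κ y₁ y₂ w hκ0 h1 h2 hw hn κ' hy1 hy2 hκ' hκ
  have h4 : (3 / 4 : ℝ) ^ n * e₀ * κ ≤ ε := by
    have h5 : (3 / 4 : ℝ) ^ n * (e₀ * κ) ≤ ε / (e₀ * κ + 1) * (e₀ * κ) :=
      mul_le_mul_of_nonneg_right hn'.le (by positivity)
    have h6 : ε / (e₀ * κ + 1) * (e₀ * κ) ≤ ε / (e₀ * κ + 1) * (e₀ * κ + 1) :=
      mul_le_mul_of_nonneg_left (by linarith) hpos.le
    have h7 : ε / (e₀ * κ + 1) * (e₀ * κ + 1) = ε := by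
      have : e₀ * κ + 1 ≠ 0 := by positivity
      field_simp
    linarith [mul_assoc ((3 / 4 : ℝ) ^ n) e₀ κ]
  have h8 : (max 0 L + (3 / 4) ^ n * e₀) * κ = max 0 L * κ + (3 / 4) ^ n * e₀ * κ := by ring
  linarith

end Crest.Agent.R017.SideLB83
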