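import Crest.Agent.R017.SideN_918

/-!
# Row 17, section D, leaf D.cert3: three big lumps above `5/6` (helper918)

`sideN'` : pure lumps `{y₁, y₂, y₃}`, `5/6 ≤ n ≤ 93/100`.
-/

set_option autoImplicit false

noncomputable section

namespace Crest.Agent.R017.R8C918

open Crest.Agent.R017.ER911 Crest.Agent.R017.SC777

variable {d : ℝ} {r s s₀ : EF}

/-- hypotheses of `sideN'` for the original side, `n₀ = y₁ + y₂ + y₃` -/
structure NB (y₁ y₂ y₃ l : ℝ) : Prop where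
  y31 : y₃ ≤ y₁
  y32 : y₃ ≤ y₂
  l0 : 0 ≤ l
  n56 : 5 ≤ 6 * (y₁ + y₂ + y₃)
  n93 : 100 * (y₁ + y₂ + y₃) ≤ 93
  l1 : 6 / 5 * (y₁ + y₂ + y₃) - 1 ≤ l
  l2 : (y₁ + y₂ + 2 * y₃ - 1) + 2 / 5 * (y₁ + y₂ + y₃ - 5 / 6) ≤ 3 * l

theorem lumpB (R : ExpRules (7 / 8 + d) r s) (Rm : ExpRem (7 / 8 + d) r s s₀) (hd : 0 ≤ d)
    (hd8 : d ≤ 1 / 8) {y₁ y₂ y₃ l z₁ z₂ z₃ n v : ℝ} (H : NB y₁ y₂ y₃ l)
    (hz1 : 0 ≤ z₁) (hz1' : z₁ ≤ y₁) (hz2 : 0 ≤ z₂) (hz2' : z₂ ≤ y₂) (hz3 : 0 ≤ z₃)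
    (hz3' : z₃ ≤ y₃) (hn : n = z₁ + z₂ + z₃) (hv : 0 ≤ v) (hv' : v ≤ 2 * n - 1) :
    s₀ v {z₁, z₂, z₃} 0 0 ≤ (4 * n + 1 + v) / 3 + l + 2 * d * y₃ := by
  obtain ⟨hy31, hy32, hl0, hn56, hn93, hl1, hl2⟩ := H
  have hdz : d * z₃ ≤ d * y₃ := mul_le_mul_of_nonneg_left hz3' hd
  have hdz0 : 0 ≤ d * z₃ := mul_nonneg hd hz3
  by_cases h1 : 2 * v ≤ n + 1 - 3 * z₃ + 3 * l
  · rw [perm3]
    refine s0A R Rm.toExpS0 hd hd8 (n := n) hz1 hz2 hz3 le_rfl le_rfl hv (by linarith) ?_ ?_ ?_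
    · linarith
    · linarith
    · linarith
  push Not at h1
  by_cases h2 : 5 * z₁ ≤ n
  · refine s0A R Rm.toExpS0 hd hd8 (n := n) hz2 hz3 hz1 le_rfl le_rfl hv (by linarith) ?_ ?_ ?_
    · linarith
    · linarith
    · linarith
  push Not at h2
  by_cases h3 : 5 * z₂ ≤ n
  · rw [perm12]
    refine s0A R Rm.toExpS0 hd hd8 (n := n) hz1 hz3 hz2 le_rfl le_rfl hv (by linarith) ?_ ?_ ?_
    · linarith
    · linarith
    · linarith
  push Not at h3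
  have h4 : n ≤ 5 * z₃ := by
    by_contra hcon
    push Not at hcon
    linarith
  rcases le_total n (5 / 6) with h5 | h5
  · obtain ⟨g, hg⟩ : ∃ g, g = max 0 ((40 * n + 9 * z₃ - 36) / 12) := ⟨_, rfl⟩
    have hg0 : 0 ≤ g := by rw [hg]; exact le_max_left _ _
    have hg1 : (40 * n + 9 * z₃ - 36) / 12 ≤ g := by rw [hg]; exact le_max_right _ _
    have hg2 : g ≤ 3 / 2 * l - (n + z₃ - 1) / 2 := by
      rw [hg]
      refine max_le ?_ ?_
      · linarith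
      · linarith
    have key := remE R Rm hd hd8 (K := 2 * n - v) (v := v) (z₁ := z₁) (z₂ := z₂) (z₃ := z₃)
      (m := 0) (a := 0) (n := n) (E := 2 * n + g + 2 * d * z₃) le_rfl le_rfl (by linarith)
      (by linarith) h2.le h3.le h4 (by linarith) (by linarith) (by linarith)
      (by linarith) (by linarith) (by linarith) (by linarith) (by linarith) (by linarith)
      (by linarith) v hv le_rfl
    have e : (v + (2 * n - v) - 2 * n) / 3 = 0 := by ring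
    rw [e, max_self] at key
    linarith
  · obtain ⟨g, hg⟩ : ∃ g, g = max 0 (4 / 3 + 3 / 4 * z₃ - 28 / 15 * n) := ⟨_, rfl⟩
    have hg0 : 0 ≤ g := by rw [hg]; exact le_max_left _ _
    have hg1 : 4 / 3 + 3 / 4 * z₃ - 28 / 15 * n ≤ g := by rw [hg]; exact le_max_right _ _
    have hg2 : 6 / 5 * n - 1 + g ≤ l := by
      rw [hg]
      rcases le_total (4 / 3 + 3 / 4 * z₃ - 28 / 15 * n) 0 with h | h
      · rw [max_eq_left h]; linarith
      · rw [max_eq_right h]; linarith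
    have hg3 : 7 / 10 * n - 2 / 3 + z₃ / 2 + g ≤ 3 / 2 * l := by
      rw [hg]
      rcases le_total (4 / 3 + 3 / 4 * z₃ - 28 / 15 * n) 0 with h | h
      · rw [max_eq_left h]; linarith
      · rw [max_eq_right h]; linarith
    have key := remE R Rm hd hd8 (K := 3 * n - 3 / 2) (v := 2 * n - 1) (z₁ := z₁) (z₂ := z₂)
      (z₃ := z₃) (m := 0) (a := 0) (n := n) (E := 11 / 5 * n - 1 / 6 + g + 2 * d * z₃)
      le_rfl le_rfl (by linarith)
      (by linarith) h2.le h3.le h4 (by linarith) (by linarith) (by linarith)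
      (by linarith) (by linarith) (by linarith) (by linarith) (by linarith) (by linarith)
      (by linarith) v hv hv'
    refine key.trans ?_
    rcases le_total ((v + (3 * n - 3 / 2) - 2 * n) / 3) 0 with h | h
    · rw [max_eq_left h]; linarith
    · rw [max_eq_right h]; linarith

/-- **three pure lumps above `5/6`** -/
theorem sideN' (R : ExpRules (7 / 8 + d) r s) (Rm : ExpRem (7 / 8 + d) r s s₀) (hd : 0 ≤ d)
    (hd8 : d ≤ 1 / 8) {y₁ y₂ y₃ l : ℝ} (h3 : 0 ≤ y₃) (H : NB y₁ y₂ y₃ l) :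
    ∀ κ' : ℝ, 0 ≤ κ' → κ' ≤ 1 → r κ' {y₁, y₂, y₃} 0 0 + (1 - κ') / 3 ≤
      1 + (y₁ + y₂ + y₃) + (l + 2 * d * y₃) := by
  have h1 : 0 ≤ y₁ := h3.trans H.y31
  have h2 : 0 ≤ y₂ := h3.trans H.y32
  have hl := H.l0
  have hl1 := H.l1
  have hn93 := H.n93
  have hF : 0 ≤ 2 * d * y₃ := by positivity
  have hsum : ∀ p q t : ℝ, ({p, q, t} : Multiset ℝ).sum = p + q + t := by
    intro p q t; simp [add_assoc]
  have hok : ∀ {p q t : ℝ}, 0 ≤ p → 0 ≤ q → 0 ≤ t → Ok ({p, q, t} : Multiset ℝ) 0 0 := by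
    intro p q t hp hq ht
    refine ⟨fun y hy => ?_, le_rfl, le_rfl⟩
    simp only [Multiset.insert_eq_cons, Multiset.mem_cons, Multiset.mem_singleton] at hy
    rcases hy with rfl | rfl | rfl
    · exact hp
    · exact hq
    · exact ht
  refine R.poisC 1 {y₁, y₂, y₃} 0 0 _ zero_le_one (hok h1 h2 h3) (by rw [hsum]; linarith)
    (by rw [hsum]; linarith) ?_
  intro Y' m' a' i hY hm0 hm1 ha0 ha1 hi hii
  have em : m' = 0 := le_antisymm hm1 hm0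
  have ea : a' = 0 := le_antisymm ha1 ha0
  subst em; subst ea
  obtain ⟨z₁, Z, rfl, hz1, hz1', hZ⟩ := Sh.of_cons (Y := {y₂, y₃}) (y := y₁) hY
  obtain ⟨z₂, z₃, rfl, hz2, hz2', hz3, hz3'⟩ := hZ.pair
  have es : (z₁ ::ₘ ({z₂, z₃} : Multiset ℝ)).sum = z₁ + z₂ + z₃ := hsum z₁ z₂ z₃
  rw [es] at hii ⊢
  rw [hsum]
  have key : s i (z₁ ::ₘ {z₂, z₃}) 0 0 ≤ (4 * (z₁ + z₂ + z₃) + 1 + i) / 3 + l + 2 * d * y₃ := by
    refine Rm.cube i _ 0 0 _ hi (hok hz1 hz2 hz3) fun u hu hui => ?_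
    have := lumpB R Rm hd hd8 (v := i - 3 * u) (n := z₁ + z₂ + z₃) H hz1 hz1'
      hz2 hz2' hz3 hz3' rfl (by linarith) (by linarith)
    have e : s₀ (i - 3 * u) (z₁ ::ₘ {z₂, z₃}) 0 0 = s₀ (i - 3 * u) {z₁, z₂, z₃} 0 0 := rfl
    rw [e]
    linarith
  linarith

end Crest.Agent.R017.R8C918
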