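import Crest.Agent.R017.SideD_777

/-!
# Row 17, section D, leaf D.cert3: three big lumps, near-equal (helper918)

Side `{y₁, y₂, y₃ | m, a}` at family `1`, `y₃` the smallest, `w = m + a`, `n` the total length.
* `sideN` : `n ≤ 5/6`, `49 n ≤ 36 + 9 (y₁ + y₂)`, `9 w ≤ 1` :
  loss `l + 2 d (y₃ + w)` with `3 l ≥ (y₁ + y₂ + 2 y₃ - 1)⁺` (`l = 0` : the ideal side T3a)
* `sideN'` : no granular mass, `5/6 ≤ n ≤ 93/100` : loss `l + 2 d y₃`,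
  `l ≥ 6/5 n - 1`, `3 l ≥ (y₁ + y₂ + 2 y₃ - 1) + 2/5 (n - 5/6)`.

Proof: (C) removes `t/3` of granular mass (`t` = distance to the top level `2 n - 1`); the flat
bound (REM) serves `t ≤ 3 l`, (C) with the third lump and the two-factor theorem the rest.
-/

set_option autoImplicit false

noncomputable section

namespace Crest.Agent.R017.R8C918

open Crest.Agent.R017.ER911 Crest.Agent.R017.SC777

variable {d : ℝ} {r s s₀ : EF}

/-- Gauss side, two lumps with granular mass -/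
theorem sG2 (R : ExpRules (7 / 8 + d) r s) (hd : 0 ≤ d) (hd8 : d ≤ 1 / 8) {p q m a κ : ℝ}
    (hp : 0 ≤ p) (hq : 0 ≤ q) (hm : 0 ≤ m) (ha : 0 ≤ a)
    (h1 : p + q + (m + a) + (3 / 4 + 2 * d) * (m + a) ≤ κ) (h2 : m + a ≤ 8 * (p + q)) :
    ∀ κ' : ℝ, 0 ≤ κ' → κ' ≤ κ →
      s κ' {p, q} m a + (κ - κ') / 3 ≤ κ + (p + q + (m + a)) := by
  have hdw : 0 ≤ (3 / 4 + 2 * d) * (m + a) := by positivity
  have hκ : 0 ≤ κ := by linarith
  refine R.poisG κ {p, q} m a (κ + (p + q + (m + a))) hκ (ok_pair hp hq hm ha)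
    (by rw [sum_pair]; linarith) ?_ ?_
  · intro Y' m' a' i hY hm0 hm1 ha0 ha1 hi hyi hii
    obtain ⟨p', q', rfl, hp0, hp1, hq0, hq1⟩ := hY.pair
    rw [sum_pair] at hii ⊢
    rw [sum_pair]
    have e := sup_all R hi hp0 hq0 hm0 ha0 (hyi p' (by simp)) (hyi q' (by simp))
    have e2 : (3 / 4 + 2 * d) * (m' + a') ≤ (3 / 4 + 2 * d) * (m + a) :=
      mul_le_mul_of_nonneg_left (by linarith) (by linarith)
    have e3 : (7 / 4 + 2 * d) * (m' + a') = (3 / 4 + 2 * d) * (m' + a') + (m' + a') := by ring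
    linarith
  · intro Y' m' a' hY hm0 hm1 ha0 ha1 hk
    obtain ⟨p', q', rfl, hp0, hp1, hq0, hq1⟩ := hY.pair
    rw [sum_pair] at hk ⊢
    rw [sum_pair]
    have e1 : d * m' ≤ 1 / 8 * m' := mul_le_mul_of_nonneg_right hd8 hm0
    have e2 : 0 ≤ d * (m + a) := by positivity
    linarith

/-- cube-free Gauss side, three lumps: (C) with the lump `t` -/
theorem s0A (R : ExpRules (7 / 8 + d) r s) (S : ExpS0 s s₀) (hd : 0 ≤ d) (hd8 : d ≤ 1 / 8)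
    {p q t m a v n E : ℝ} (hp : 0 ≤ p) (hq : 0 ≤ q) (ht : 0 ≤ t) (hm : 0 ≤ m) (ha : 0 ≤ a)
    (hv : 0 ≤ v) (hn : n = p + q + t + (m + a)) (h2 : m + a ≤ 8 * (p + q))
    (hE1 : v + n + t ≤ E) (hE2 : (5 * n + v - t) / 3 + (1 / 2 + 4 / 3 * d) * (m + a) ≤ E) :
    s₀ v (t ::ₘ {p, q}) m a ≤ E := by
  have e1 := S.cauS v t {p, q} m a hv ht (ok_pair hp hq hm ha)
  have e2 := S.le (v + t) {p, q} m a (by linarith) (ok_pair hp hq hm ha)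
  rcases le_total (p + q + (m + a) + (3 / 4 + 2 * d) * (m + a)) (v + t) with h | h
  · have e3 := sG2 R hd hd8 hp hq hm ha h h2 (v + t) (by linarith) le_rfl
    linarith
  · have e3 := sG2 R hd hd8 hp hq hm ha le_rfl h2 (v + t) (by linarith) h
    have e4 : (3 / 4 + 2 * d) * (m + a) * (2 / 3) = (1 / 2 + 4 / 3 * d) * (m + a) := by ring
    linarith

lemma perm12 (p q t : ℝ) : ({p, t, q} : Multiset ℝ) = t ::ₘ {p, q} := by
  show p ::ₘ t ::ₘ {q} = t ::ₘ p ::ₘ {q}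
  rw [Multiset.cons_swap]

lemma perm3 (p q t : ℝ) : ({p, q, t} : Multiset ℝ) = t ::ₘ {p, q} := by
  have h : ({q, t} : Multiset ℝ) = {t, q} := Multiset.pair_comm q t
  show p ::ₘ {q, t} = t ::ₘ p ::ₘ {q}
  rw [h]
  exact Multiset.cons_swap p t {q}

/-- pointwise bound of the third lump and of the granular mass -/
theorem r3 (R : ExpRules (7 / 8 + d) r s) {i z₁ z₂ z₃ m a : ℝ} (hi : 0 ≤ i)
    (h1 : 0 ≤ z₁) (h2 : 0 ≤ z₂) (h3 : 0 ≤ z₃) (hm : 0 ≤ m) (ha : 0 ≤ a) (hi1 : z₁ ≤ i)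
    (hi2 : z₂ ≤ i) :
    r i {z₁, z₂, z₃} m a ≤ i + (z₁ + z₂) + (7 / 4 + 2 * d) * (z₃ + (m + a)) := by
  rw [perm3]
  have e1 := R.supS i z₃ {z₁, z₂} m a hi h3 (ok_pair h1 h2 hm ha)
  have e2 := sup_all R hi h1 h2 hm ha hi1 hi2
  have e3 : 2 * (7 / 8 + d) * z₃ = (7 / 4 + 2 * d) * z₃ := by ring
  linarith

/-- REM in the form used here: `K`, level `v`, bound `E` -/
theorem remE (R : ExpRules (7 / 8 + d) r s) (Rm : ExpRem (7 / 8 + d) r s s₀) (hd : 0 ≤ d)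
    (hd8 : d ≤ 1 / 8) {K v z₁ z₂ z₃ m a n E : ℝ} (hm : 0 ≤ m) (ha : 0 ≤ a) (hn0 : 0 ≤ n)
    (hn : n = z₁ + z₂ + z₃ + m + a) (h1 : n ≤ 5 * z₁) (h2 : n ≤ 5 * z₂) (h3 : n ≤ 5 * z₃)
    (hK : n ≤ K) (hK2 : K ≤ 2 * n) (hKv : 2 * n ≤ K + v) (hKn : K ≤ v + n) (hv : 3 * v ≤ 2 * K)
    (hE : 2 * n ≤ E) (hT : v + n + n / 5 ≤ E + (v + K - 2 * n) / 3)
    (hT2 : 2 * v + 2 * n + n / 5 + (m + a) ≤ 2 * (E + (v + K - 2 * n) / 3))
    (hc1 : v + n - K + (z₁ + z₂) + (7 / 4 + 2 * d) * (z₃ + (m + a)) ≤ E)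
    (hc2 : v + n - K + (z₁ + z₂) + (7 / 4 + 2 * d) * (z₃ + (m + a)) +
      (v + 2 * n - 2 * K) / 3 ≤ E) :
    ∀ v' : ℝ, 0 ≤ v' → v' ≤ v →
      s₀ v' {z₁, z₂, z₃} m a ≤ E + max 0 ((v' + K - 2 * n) / 3) := by
  refine Rm.rem K v z₁ z₂ z₃ m a n E _ hm ha hn0 hn h1 h2 h3 hK hK2 hKv hKn hv hE rfl hT hT2
    ?_ ?_
  · intro t₁ t₂ t₃ m' a' i ht1 ht2 ht3 h12 h33 hm0 hm1 ha0 ha1 hi1 hi2 hi3 hi
    have e := r3 R (ht1.trans hi1) ht1 ht2 ht3 hm0 ha0 hi1 hi2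
    have e2 : (7 / 4 + 2 * d) * (t₃ + (m' + a')) ≤ (7 / 4 + 2 * d) * (z₃ + (m + a)) :=
      mul_le_mul_of_nonneg_left (by linarith) (by linarith)
    rcases le_total ((v + 2 * n - 2 * K) / 3) 0 with h | h
    · rw [max_eq_left h]; linarith
    · rw [max_eq_right h]; linarith
  · have e1 : d * m ≤ 1 / 8 * m := mul_le_mul_of_nonneg_right hd8 hm
    rcases le_total ((v + 2 * n - 2 * K) / 3) 0 with h | h
    · rw [max_eq_left h]; linarith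
    · rw [max_eq_right h]; linarith


/-! ### at most `5/6` -/

/-- hypotheses of `sideN` for the original side -/
structure NA (y₁ y₂ y₃ w l : ℝ) : Prop where
  y31 : y₃ ≤ y₁
  y32 : y₃ ≤ y₂
  w9 : 9 * w ≤ 1
  l0 : 0 ≤ l
  sig : y₁ + y₂ + 2 * y₃ ≤ 1 + 3 * l
  n56 : 6 * (y₁ + y₂ + y₃ + w) ≤ 5
  flat : 40 * (y₁ + y₂ + y₃ + w) + 9 * (y₃ + w) ≤ 36

/-- top level -/
theorem topA (R : ExpRules (7 / 8 + d) r s) (Rm : ExpRem (7 / 8 + d) r s s₀) (hd : 0 ≤ d)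
    (hd8 : d ≤ 1 / 8) {y₁ y₂ y₃ w l z₁ z₂ z₃ m a n : ℝ} (H : NA y₁ y₂ y₃ w l)
    (hz1 : 0 ≤ z₁) (hz1' : z₁ ≤ y₁) (hz2 : 0 ≤ z₂) (hz2' : z₂ ≤ y₂) (hz3 : 0 ≤ z₃)
    (hz3' : z₃ ≤ y₃) (hm : 0 ≤ m) (ha : 0 ≤ a) (hw : m + a ≤ w)
    (hn : n = z₁ + z₂ + z₃ + (m + a)) (hv : 0 ≤ 2 * n - 1) :
    s₀ (2 * n - 1) {z₁, z₂, z₃} m a ≤ 2 * n + l + 2 * d * (y₃ + w) := by
  obtain ⟨hy31, hy32, hw9, hl0, hsig, hn56, hflat⟩ := H
  have hdw : d * (m + a) ≤ d * w := mul_le_mul_of_nonneg_left hw hd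
  have hdz : d * z₃ ≤ d * y₃ := mul_le_mul_of_nonneg_left hz3' hd
  have hdz0 : 0 ≤ d * z₃ := mul_nonneg hd hz3
  have hdw0 : 0 ≤ d * (m + a) := mul_nonneg hd (by linarith)
  by_cases h1 : n + z₃ ≤ 1
  · rw [perm3]
    refine s0A R Rm.toExpS0 hd hd8 (n := n) hz1 hz2 hz3 hm ha hv (by linarith) ?_ ?_ ?_
    · linarith
    · linarith
    · linarith
  push Not at h1
  by_cases h2 : 5 * z₁ ≤ n
  · refine s0A R Rm.toExpS0 hd hd8 (n := n) hz2 hz3 hz1 hm ha hv (by linarith) ?_ ?_ ?_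
    · linarith
    · linarith
    · linarith
  push Not at h2
  by_cases h3 : 5 * z₂ ≤ n
  · rw [perm12]
    refine s0A R Rm.toExpS0 hd hd8 (n := n) hz1 hz3 hz2 hm ha hv (by linarith) ?_ ?_ ?_
    · linarith
    · linarith
    · linarith
  push Not at h3
  have key := remE R Rm hd hd8 (K := 1) (v := 2 * n - 1) (z₁ := z₁) (z₂ := z₂) (z₃ := z₃)
    (m := m) (a := a) (n := n) (E := 2 * n + 2 * d * (z₃ + (m + a))) hm ha (by linarith)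
    (by linarith) h2.le h3.le (by linarith) (by linarith) (by linarith) (by linarith)
    (by linarith) (by linarith) (by linarith) (by linarith) (by linarith) (by linarith)
    (by linarith) (2 * n - 1) hv le_rfl
  have e : (2 * n - 1 + 1 - 2 * n) / 3 = 0 := by ring
  rw [e, max_self] at key
  linarith

/-- no granular mass -/
theorem lumpA (R : ExpRules (7 / 8 + d) r s) (Rm : ExpRem (7 / 8 + d) r s s₀) (hd : 0 ≤ d)
    (hd8 : d ≤ 1 / 8) {y₁ y₂ y₃ w l z₁ z₂ z₃ n v : ℝ} (H : NA y₁ y₂ y₃ w l) (hw : 0 ≤ w)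
    (hz1 : 0 ≤ z₁) (hz1' : z₁ ≤ y₁) (hz2 : 0 ≤ z₂) (hz2' : z₂ ≤ y₂) (hz3 : 0 ≤ z₃)
    (hz3' : z₃ ≤ y₃) (hn : n = z₁ + z₂ + z₃) (hv : 0 ≤ v) (hv' : v ≤ 2 * n - 1) :
    s₀ v {z₁, z₂, z₃} 0 0 ≤ (4 * n + 1 + v) / 3 + l + 2 * d * (y₃ + w) := by
  obtain ⟨hy31, hy32, hw9, hl0, hsig, hn56, hflat⟩ := H
  have hdw : 0 ≤ d * w := mul_nonneg hd hw
  have hdz : d * z₃ ≤ d * y₃ := mul_le_mul_of_nonneg_left hz3' hd
  have hdz0 : 0 ≤ d * z₃ := mul_nonneg hd hz3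
  by_cases h1 : 2 * v ≤ n + 1 - 3 * z₃ + 3 * l
  · rw [perm3]
    refine s0A R Rm.toExpS0 hd hd8 (n := n) hz1 hz2 hz3 le_rfl le_rfl hv (by linarith) ?_ ?_ ?_
    · linarith
    · linarith
    · linarith
  push Not at h1
  by_cases h2 : 5 * z₁ ≤ n
  · refine s0A R Rm.toExpS0 hd hd8 (n := n) hz2 hz3 hz1 le_rfl le_rfl hv (by linarith) ?_ ?_ ?_
    · linarith
    · linarith
    · linarith
  push Not at h2
  by_cases h3 : 5 * z₂ ≤ n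
  · rw [perm12]
    refine s0A R Rm.toExpS0 hd hd8 (n := n) hz1 hz3 hz2 le_rfl le_rfl hv (by linarith) ?_ ?_ ?_
    · linarith
    · linarith
    · linarith
  push Not at h3
  have key := remE R Rm hd hd8 (K := 2 * n - v) (v := v) (z₁ := z₁) (z₂ := z₂) (z₃ := z₃)
    (m := 0) (a := 0) (n := n) (E := 2 * n + 2 * d * z₃) le_rfl le_rfl (by linarith)
    (by linarith) h2.le h3.le (by linarith) (by linarith) (by linarith) (by linarith)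
    (by linarith) (by linarith) (by linarith) (by linarith) (by linarith) (by linarith)
    (by linarith) v hv le_rfl
  have e : (v + (2 * n - v) - 2 * n) / 3 = 0 := by ring
  rw [e, max_self] at key
  linarith

/-- splitting a removed granular mass -/
lemma split_gran {m a b : ℝ} (hm : 0 ≤ m) (ha : 0 ≤ a) (hb : 0 ≤ b) (hba : b ≤ m + a) :
    ∃ b₁ b₂ : ℝ, 0 ≤ b₁ ∧ b₁ ≤ m ∧ 0 ≤ b₂ ∧ b₂ ≤ a ∧ b₁ + b₂ = b := by
  rcases le_total b m with h | h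
  · exact ⟨b, 0, hb, h, le_rfl, ha, by ring⟩
  · exact ⟨m, b - m, hm, le_rfl, by linarith, by linarith, by ring⟩

/-- all levels -/
theorem levA (R : ExpRules (7 / 8 + d) r s) (Rm : ExpRem (7 / 8 + d) r s s₀) (hd : 0 ≤ d)
    (hd8 : d ≤ 1 / 8) {y₁ y₂ y₃ w l z₁ z₂ z₃ m a n v : ℝ} (H : NA y₁ y₂ y₃ w l)
    (hz1 : 0 ≤ z₁) (hz1' : z₁ ≤ y₁) (hz2 : 0 ≤ z₂) (hz2' : z₂ ≤ y₂) (hz3 : 0 ≤ z₃)
    (hz3' : z₃ ≤ y₃) (hm : 0 ≤ m) (ha : 0 ≤ a) (hw : m + a ≤ w)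
    (hn : n = z₁ + z₂ + z₃ + (m + a)) (hv : 0 ≤ v) (hv' : v ≤ 2 * n - 1) :
    s₀ v {z₁, z₂, z₃} m a ≤ (4 * n + 1 + v) / 3 + l + 2 * d * (y₃ + w) := by
  have hok : Ok ({z₁, z₂, z₃} : Multiset ℝ) m a := by
    refine ⟨fun y hy => ?_, hm, ha⟩
    simp only [Multiset.insert_eq_cons, Multiset.mem_cons, Multiset.mem_singleton] at hy
    rcases hy with rfl | rfl | rfl
    · exact hz1
    · exact hz2
    · exact hz3
  rcases le_total ((2 * n - 1 - v) / 3) (m + a) with h | h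
  · obtain ⟨b₁, b₂, hb1, hb1', hb2, hb2', hb⟩ := split_gran hm ha (by linarith) h
    have e1 := Rm.cau v {z₁, z₂, z₃} m a b₁ b₂ hv hok hb1 hb1' hb2 hb2'
    have e2 := topA R Rm hd hd8 (m := m - b₁) (a := a - b₂) (n := n - (2 * n - 1 - v) / 3) H
      hz1 hz1' hz2 hz2' hz3 hz3' (by linarith) (by linarith) (by linarith) (by linarith)
      (by linarith)
    have e3 : v + (b₁ + b₂) = 2 * (n - (2 * n - 1 - v) / 3) - 1 := by rw [hb]; ring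
    rw [e3] at e1
    linarith
  · have e1 := Rm.cau v {z₁, z₂, z₃} m a m a hv hok hm le_rfl ha le_rfl
    rw [sub_self, sub_self] at e1
    have e2 := lumpA R Rm hd hd8 (n := n - (m + a)) (v := v + (m + a)) H (by linarith)
      hz1 hz1' hz2 hz2' hz3 hz3' (by linarith) (by linarith) (by linarith)
    linarith

/-- **near-equal three-lump side, total length at most `5/6`** -/
theorem sideN (R : ExpRules (7 / 8 + d) r s) (Rm : ExpRem (7 / 8 + d) r s s₀) (hd : 0 ≤ d)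
    (hd8 : d ≤ 1 / 8) {y₁ y₂ y₃ m a l : ℝ} (h3 : 0 ≤ y₃) (hm : 0 ≤ m) (ha : 0 ≤ a)
    (H : NA y₁ y₂ y₃ (m + a) l) :
    ∀ κ' : ℝ, 0 ≤ κ' → κ' ≤ 1 → r κ' {y₁, y₂, y₃} m a + (1 - κ') / 3 ≤
      1 + (y₁ + y₂ + y₃ + (m + a)) + (l + 2 * d * (y₃ + (m + a))) := by
  have h1 : 0 ≤ y₁ := h3.trans H.y31
  have h2 : 0 ≤ y₂ := h3.trans H.y32
  have hl := H.l0
  have hn56 := H.n56
  have hF : 0 ≤ 2 * d * (y₃ + (m + a)) := by positivity
  have hsum : ∀ p q t : ℝ, ({p, q, t} : Multiset ℝ).sum = p + q + t := by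
    intro p q t; simp [add_assoc]
  have hok : Ok ({y₁, y₂, y₃} : Multiset ℝ) m a := by
    refine ⟨fun y hy => ?_, hm, ha⟩
    simp only [Multiset.insert_eq_cons, Multiset.mem_cons, Multiset.mem_singleton] at hy
    rcases hy with rfl | rfl | rfl
    · exact h1
    · exact h2
    · exact h3
  refine R.poisC 1 {y₁, y₂, y₃} m a _ zero_le_one hok (by rw [hsum]; linarith)
    (by rw [hsum]; linarith) ?_
  intro Y' m' a' i hY hm0 hm1 ha0 ha1 hi hii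
  obtain ⟨z₁, Z, rfl, hz1, hz1', hZ⟩ := Sh.of_cons (Y := {y₂, y₃}) (y := y₁) hY
  obtain ⟨z₂, z₃, rfl, hz2, hz2', hz3, hz3'⟩ := hZ.pair
  have es : (z₁ ::ₘ ({z₂, z₃} : Multiset ℝ)).sum = z₁ + z₂ + z₃ := hsum z₁ z₂ z₃
  rw [es] at hii ⊢
  rw [hsum]
  have hokz : Ok (z₁ ::ₘ ({z₂, z₃} : Multiset ℝ)) m' a' := by
    refine ⟨fun y hy => ?_, hm0, ha0⟩
    simp only [Multiset.insert_eq_cons, Multiset.mem_cons, Multiset.mem_singleton] at hy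
    rcases hy with rfl | rfl | rfl
    · exact hz1
    · exact hz2
    · exact hz3
  have key : s i (z₁ ::ₘ {z₂, z₃}) m' a' ≤ (4 * (z₁ + z₂ + z₃ + (m' + a')) + 1 + i) / 3 + l +
      2 * d * (y₃ + (m + a)) := by
    refine Rm.cube i _ m' a' _ hi hokz fun u hu hui => ?_
    have := levA R Rm hd hd8 (v := i - 3 * u) (n := z₁ + z₂ + z₃ + (m' + a')) H hz1 hz1'
      hz2 hz2' hz3 hz3' hm0 ha0 (by linarith) rfl (by linarith) (by linarith)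
    have e : s₀ (i - 3 * u) (z₁ ::ₘ {z₂, z₃}) m' a' = s₀ (i - 3 * u) {z₁, z₂, z₃} m' a' := rfl
    rw [e]
    linarith
  linarith

end Crest.Agent.R017.R8C918
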