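import Crest.Agent.R017.SideD_777

/-!
# Row 17, section D: three lumps by levels (helper126)

`θ = 7/8 + d`. No REM.
* `pairG`  : two lumps with granular mass, excess `e₀` valid for all shortenings
* `lump3`  : column lemma: `r i {z₁,z₂,z₃ | m,a} ≤ E` by the level rule: the three second moments of
  the pairs (TF / side79), and (LV') for the product of the three lumps
* `T3N`    : side `V + {y₁,y₂,y₃} | m, a` with `X = V + granular`, `|X| ≤ ξ`, granular rest `≤ W`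
-/

set_option autoImplicit false

noncomputable section

namespace Crest.Agent.R017.T3L126

open Crest.Agent.R017.ER911 Crest.Agent.R017.SC777

variable {d : ℝ} {r s : EF}

/-- two lumps with granular mass: `e₀` is an excess valid for every shortening -/
theorem pairG (R : ExpRules (7 / 8 + d) r s) (hd : 0 ≤ d) {i p q m a S e₀ : ℝ} (hi : 0 ≤ i)
    (hp : 0 ≤ p) (hq : 0 ≤ q) (hm : 0 ≤ m) (ha : 0 ≤ a) (hpi : p ≤ i) (hqi : q ≤ i)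
    (hS : p + q ≤ S) (he0 : 0 ≤ e₀) (he1 : 3 / 4 * (m + a) + 7 / 12 * (S - i) ≤ e₀)
    (he2 : 12 * a + 9 * m + 4 * S - 8 * i ≤ 16 * e₀) :
    r i {p, q} m a ≤ i + (p + q) + (m + a) + 2 * d * (m + a) + e₀ := by
  rcases le_or_gt (p + q) i with h | h
  · have := side79a R hd (e := 4 / 3 * e₀) hp hq hm ha h (by linarith) (by linarith)
      (by linarith) hi le_rfl hpi hqi
    linarith
  · have := sup_all R hi hp hq hm ha hpi hqi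
    linarith

theorem univ3 {α : Type*} (f : Fin 3 → α) :
    (Finset.univ : Finset (Fin 3)).val.map f = {f 0, f 1, f 2} := by
  simp only [Fin.univ_val_map, List.ofFn_succ, List.ofFn_zero]
  rfl

theorem rep3 (n : Fin 3 → ℕ) (y : Fin 3 → ℝ) : ∑ j, Multiset.replicate (n j) (y j) =
    Multiset.replicate (n 0) (y 0) + Multiset.replicate (n 1) (y 1) +
      Multiset.replicate (n 2) (y 2) := by
  rw [Fin.sum_univ_three]

/-- a granular level is at most the level of the full mass -/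
theorem lev_le {m ω θ : ℝ} (hm : 0 ≤ m) (h : ω ≤ θ * m) : ω ≤ m * (ω / m) := by
  rcases hm.eq_or_lt with h0 | h0
  · subst h0
    simpa using h
  · rw [mul_div_cancel₀ _ h0.ne']

/-- **column lemma**: three lumps and granular mass, by levels -/
theorem lump3 (R : ExpRules (7 / 8 + d) r s) (Lv : ExpLv (7 / 8 + d) r) (hd : 0 ≤ d)
    (hd8 : d ≤ 1 / 8) {i z₁ z₂ z₃ m a S e₀ E : ℝ} (hi : 0 ≤ i)
    (h1 : 0 ≤ z₁) (h2 : 0 ≤ z₂) (h3 : 0 ≤ z₃) (hz1 : z₁ ≤ i) (hz2 : z₂ ≤ i) (hz3 : z₃ ≤ i)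
    (hm : 0 ≤ m) (ha : 0 ≤ a) (hS12 : z₁ + z₂ ≤ S) (hS13 : z₁ + z₃ ≤ S) (hS23 : z₂ + z₃ ≤ S)
    (he0 : 0 ≤ e₀) (he1 : 3 / 4 * (m + a) + 7 / 12 * (S - i) ≤ e₀)
    (he2 : 12 * a + 9 * m + 4 * S - 8 * i ≤ 16 * e₀)
    (hA : (25 / 8 - d) * (z₁ + z₂ + z₃) + (15 / 4 + 2 * d) * i + 3 * (m + a) +
      6 * d * (m + a) + 3 * e₀ ≤ 3 * E)
    (hB : 2 * (z₁ + z₂ + z₃) + (7 / 4 + 2 * d) * (m + a) ≤ E ∨
      i + (z₁ + z₂ + z₃) + (m + a) + 2 * d * (m + a) + e₀ + (3 / 4 + 2 * d) * z₃ ≤ E) :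
    r i {z₁, z₂, z₃} m a ≤ E := by
  have key := Lv.lev 3 ![z₁, z₂, z₃] i m a E hi
    (by intro j; fin_cases j <;> simp <;> constructor <;> assumption) hm ha ?_
  · rwa [univ3] at key
  intro y x m' a' ω α hy hm0 hm1 ha0 ha1 hx hω hα
  have y0 := hy 0
  have y1 := hy 1
  have y2 := hy 2
  have x0 := hx 0
  have x1 := hx 1
  have x2 := hx 2
  simp only [Matrix.cons_val_zero, Matrix.cons_val_one, Matrix.cons_val_two, Matrix.head_cons,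
    Matrix.tail_cons] at y0 y1 y2
  obtain ⟨p, hp⟩ : ∃ p, p = y 0 := ⟨_, rfl⟩
  obtain ⟨q, hq⟩ : ∃ q, q = y 1 := ⟨_, rfl⟩
  obtain ⟨t, ht⟩ : ∃ t, t = y 2 := ⟨_, rfl⟩
  obtain ⟨u, hu⟩ : ∃ u, u = x 0 := ⟨_, rfl⟩
  obtain ⟨v, hv⟩ : ∃ v, v = x 1 := ⟨_, rfl⟩
  obtain ⟨w, hw⟩ : ∃ w, w = x 2 := ⟨_, rfl⟩
  rw [← hp] at y0 x0
  rw [← hq] at y1 x1
  rw [← ht] at y2 x2
  rw [← hu] at x0
  rw [← hv] at x1
  rw [← hw] at x2
  have hsx : ∑ j, x j = u + v + w := by rw [Fin.sum_univ_three, hu, hv, hw]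
  have hωm := lev_le hm0 hω
  have hαa := lev_le ha0 hα
  have hd2 : 2 * d * (m' + a') ≤ 2 * d * (m + a) :=
    mul_le_mul_of_nonneg_left (by linarith) (by linarith)
  have hωM : ω ≤ (7 / 8 + d) * m := hω.trans (mul_le_mul_of_nonneg_left hm1 (by linarith))
  have hαA : α ≤ (7 / 8 + d) * a := hα.trans (mul_le_mul_of_nonneg_left ha1 (by linarith))
  rcases le_or_gt (i + (p + q) + (m + a) + 2 * d * (m + a) + e₀ + 2 * w) E with c3 | c3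
  · right; left
    refine ⟨![1, 1, 0], m', a', hm0, fun h => h, ha0, fun h => h, ?_⟩
    have e := pairG R hd hi y0.1 y1.1 hm0 ha0 (y0.2.trans hz1) (y1.2.trans hz2)
      (show p + q ≤ S by linarith) he0 (by linarith) (by linarith)
    have hr : ∑ j, Multiset.replicate ((![1, 1, 0] : Fin 3 → ℕ) j) (y j) = {p, q} := by
      rw [rep3, hp, hq]; rfl
    have hl : ∑ j, (((![1, 1, 0] : Fin 3 → ℕ) j : ℕ) : ℝ) * x j = u + v := by
      rw [Fin.sum_univ_three, hu, hv]; simp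
    rw [hr, hl, hsx]
    linarith
  rcases le_or_gt (i + (p + t) + (m + a) + 2 * d * (m + a) + e₀ + 2 * v) E with c2 | c2
  · right; left
    refine ⟨![1, 0, 1], m', a', hm0, fun h => h, ha0, fun h => h, ?_⟩
    have e := pairG R hd hi y0.1 y2.1 hm0 ha0 (y0.2.trans hz1) (y2.2.trans hz3)
      (show p + t ≤ S by linarith) he0 (by linarith) (by linarith)
    have hr : ∑ j, Multiset.replicate ((![1, 0, 1] : Fin 3 → ℕ) j) (y j) = {p, t} := by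
      rw [rep3, hp, ht]; rfl
    have hl : ∑ j, (((![1, 0, 1] : Fin 3 → ℕ) j : ℕ) : ℝ) * x j = u + w := by
      rw [Fin.sum_univ_three, hu, hw]; simp
    rw [hr, hl, hsx]
    linarith
  rcases le_or_gt (i + (q + t) + (m + a) + 2 * d * (m + a) + e₀ + 2 * u) E with c1 | c1
  · right; left
    refine ⟨![0, 1, 1], m', a', hm0, fun h => h, ha0, fun h => h, ?_⟩
    have e := pairG R hd hi y1.1 y2.1 hm0 ha0 (y1.2.trans hz2) (y2.2.trans hz3)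
      (show q + t ≤ S by linarith) he0 (by linarith) (by linarith)
    have hr : ∑ j, Multiset.replicate ((![0, 1, 1] : Fin 3 → ℕ) j) (y j) = {q, t} := by
      rw [rep3, hq, ht]; rfl
    have hl : ∑ j, (((![0, 1, 1] : Fin 3 → ℕ) j : ℕ) : ℝ) * x j = v + w := by
      rw [Fin.sum_univ_three, hv, hw]; simp
    rw [hr, hl, hsx]
    linarith
  -- all three moments fail: (LV')
  left
  refine ⟨![1, 1, 1], 0, 0, le_rfl, fun _ => rfl, le_rfl, fun _ => rfl, ?_, ?_⟩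
  · have hl : ∑ j, (((![1, 1, 1] : Fin 3 → ℕ) j : ℕ) : ℝ) * x j = u + v + w := by
      rw [Fin.sum_univ_three, hu, hv, hw]; simp
    have hl' : ∑ j, (((![1, 1, 1] : Fin 3 → ℕ) j : ℕ) : ℝ) * y j = p + q + t := by
      rw [Fin.sum_univ_three, hp, hq, ht]; simp
    right
    rw [hl, hl']
    have hdl : (25 / 8 - d) * (p + q + t) ≤ (25 / 8 - d) * (z₁ + z₂ + z₃) :=
      mul_le_mul_of_nonneg_left (by linarith) (by linarith)
    linarith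
  · have hl : ∑ j, (((![1, 1, 1] : Fin 3 → ℕ) j : ℕ) : ℝ) * x j = u + v + w := by
      rw [Fin.sum_univ_three, hu, hv, hw]; simp
    have hl' : ∑ j, (((![1, 1, 1] : Fin 3 → ℕ) j : ℕ) : ℝ) * y j = p + q + t := by
      rw [Fin.sum_univ_three, hp, hq, ht]; simp
    rw [hl, hl', hsx]
    rcases hB with hB | hB
    · linarith
    · exfalso
      have h34 : (3 / 4 + 2 * d) * t ≤ (3 / 4 + 2 * d) * z₃ :=
        mul_le_mul_of_nonneg_left (by linarith) (by linarith)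
      linarith

theorem sum_triple (y₁ y₂ y₃ : ℝ) : ({y₁, y₂, y₃} : Multiset ℝ).sum = y₁ + y₂ + y₃ := by
  simp [add_assoc]

theorem Sh.triple {Y' : Multiset ℝ} {y₁ y₂ y₃ : ℝ} (h : Sh Y' {y₁, y₂, y₃}) :
    ∃ a₁ a₂ a₃ : ℝ, Y' = {a₁, a₂, a₃} ∧ 0 ≤ a₁ ∧ a₁ ≤ y₁ ∧ 0 ≤ a₂ ∧ a₂ ≤ y₂ ∧ 0 ≤ a₃ ∧
      a₃ ≤ y₃ := by
  obtain ⟨a₁, Z, rfl, h1, h2, h3⟩ := Sh.of_cons (Y := {y₂, y₃}) (y := y₁) h
  obtain ⟨a₂, a₃, rfl, h4, h5, h6, h7⟩ := h3.pair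
  exact ⟨a₁, a₂, a₃, rfl, h1, h2, h4, h5, h6, h7⟩

/-- columns of `{y₁,y₂,y₃ | m,a}`, `W = m + a`, parameter `ξ` -/
theorem col3 (R : ExpRules (7 / 8 + d) r s) (Lv : ExpLv (7 / 8 + d) r) (hd : 0 ≤ d)
    (hd8 : d ≤ 1 / 8) {κ ξ y₁ y₂ y₃ m a W : ℝ} (h3 : 0 ≤ y₃) (h21 : y₂ ≤ y₁) (h32 : y₃ ≤ y₂)
    (hm : 0 ≤ m) (ha : 0 ≤ a) (hW : m + a ≤ W)
    (c0 : 2 * ξ + (y₁ + y₂ + y₃) + W ≤ κ)
    (c1 : y₁ + y₂ + y₃ + 6 * κ ≤ 42 * ξ)
    (c1' : (y₁ + y₂ + y₃) + 18 * W + 14 * (y₁ + y₂) ≤ 8 * κ)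
    (c2 : 2 * (y₁ + y₂ + y₃) + 3 / 2 * W + 3 * ξ + 3 / 4 * y₃ ≤ 2 * κ)
    (c5 : κ ≤ 4 * (y₁ + y₂) + 3 * ξ) (hW4 : 4 * W ≤ κ) (hy4 : 4 * y₃ ≤ κ) :
    ColX (7 / 8 + d) r κ ξ (d * κ) {y₁, y₂, y₃} m a := by
  have hW0 : 0 ≤ W := by linarith
  have hκ : 0 ≤ κ := by linarith
  have hdW : d * (4 * W) ≤ d * κ := mul_le_mul_of_nonneg_left hW4 hd
  have hdy : d * (4 * y₃) ≤ d * κ := mul_le_mul_of_nonneg_left hy4 hd
  have hdκ : 0 ≤ d * κ := mul_nonneg hd hκ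
  have hξ7 : κ ≤ 7 * ξ := by linarith
  have hdξ : d * κ ≤ d * (7 * ξ) := mul_le_mul_of_nonneg_left hξ7 hd
  refine ⟨?_, ?_⟩
  · intro Z' m' a' i hZ' hm0 hm1 ha0 ha1 hi hyi hii
    obtain ⟨z₁, z₂, z₃, rfl, hz1, hz1', hz2, hz2', hz3, hz3'⟩ := Sh.triple hZ'
    rw [sum_triple]
    have hi1 : z₁ ≤ i := hyi z₁ (by simp)
    have hi2 : z₂ ≤ i := hyi z₂ (by simp)
    have hi3 : z₃ ≤ i := hyi z₃ (by simp)
    obtain ⟨e₀, he⟩ : ∃ e, e = max 0 (max (3 / 4 * (m' + a') + 7 / 12 * (y₁ + y₂ - i))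
        ((12 * a' + 9 * m' + 4 * (y₁ + y₂) - 8 * i) / 16)) := ⟨_, rfl⟩
    have he0 : 0 ≤ e₀ := by rw [he]; exact le_max_left _ _
    have he1 : 3 / 4 * (m' + a') + 7 / 12 * (y₁ + y₂ - i) ≤ e₀ := by
      rw [he]; exact (le_max_left _ _).trans (le_max_right _ _)
    have he2 : (12 * a' + 9 * m' + 4 * (y₁ + y₂) - 8 * i) / 16 ≤ e₀ := by
      rw [he]; exact (le_max_right _ _).trans (le_max_right _ _)
    have hdL : 0 ≤ d * (z₁ + z₂ + z₃) := mul_nonneg hd (by linarith)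
    have hdi : d * i ≤ d * (κ - 3 * ξ) := mul_le_mul_of_nonneg_left hii hd
    have hdw : d * (m' + a') ≤ d * W := mul_le_mul_of_nonneg_left (by linarith) hd
    have hdz : d * z₃ ≤ d * y₃ := mul_le_mul_of_nonneg_left hz3' hd
    refine lump3 R Lv hd hd8 (S := y₁ + y₂) (e₀ := e₀) hi hz1 hz2 hz3 hi1 hi2 hi3 hm0 ha0
      (by linarith) (by linarith) (by linarith) he0 (by linarith) (by linarith) ?_ ?_
    · have e3 : 3 * e₀ ≤ 2 * κ - 3 * ξ + 3 * (d * κ) - (1 / 8 - d) * (z₁ + z₂ + z₃) -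
          (11 / 4 + 2 * d) * i - 6 * d * (m' + a') := by
        have : e₀ ≤ 1 / 3 * (2 * κ - 3 * ξ + 3 * (d * κ) - (1 / 8 - d) * (z₁ + z₂ + z₃) -
            (11 / 4 + 2 * d) * i - 6 * d * (m' + a')) := by
          rw [he]
          refine max_le ?_ (max_le ?_ ?_)
          · linarith
          · linarith
          · linarith
        linarith
      linarith
    · by_cases hB : 2 * (z₁ + z₂ + z₃) + (7 / 4 + 2 * d) * (m' + a') ≤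
          z₁ + z₂ + z₃ + m' + a' + (2 * κ + i) / 3 - ξ + d * κ
      · left; exact hB
      · right
        push Not at hB
        have : e₀ ≤ (2 * κ + i) / 3 - ξ + d * κ - i - 2 * d * (m' + a') -
            (3 / 4 + 2 * d) * z₃ := by
          rw [he]
          refine max_le ?_ (max_le ?_ ?_)
          · linarith
          · linarith
          · linarith
        linarith
  · intro Z' m' a' hZ' hm0 hm1 ha0 ha1 _
    have hZs := hZ'.sum_nonneg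
    have hdm : 0 ≤ (1 / 8 - d) * m' := mul_nonneg (by linarith) hm0
    linarith

/-- **three lumps by levels**: side `V + {y₁,y₂,y₃} | m, a`, `V` and granular mass up to `ξ` go to
the family, the granular rest is at most `W`. Ideal up to `d κ`. -/
theorem T3N (R : ExpRules (7 / 8 + d) r s) (Lv : ExpLv (7 / 8 + d) r) (hd : 0 ≤ d)
    (hd8 : d ≤ 1 / 8) {κ ξ y₁ y₂ y₃ m a W : ℝ} {V : Multiset ℝ} (h3 : 0 ≤ y₃) (h21 : y₂ ≤ y₁)
    (h32 : y₃ ≤ y₂) (hV : ∀ y ∈ V, 0 ≤ y) (hm : 0 ≤ m) (ha : 0 ≤ a) (hW0 : 0 ≤ W)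
    (hVξ : V.sum ≤ ξ) (hξW : V.sum + m + a ≤ ξ + W)
    (c0 : 2 * ξ + (y₁ + y₂ + y₃) + W ≤ κ)
    (c1 : y₁ + y₂ + y₃ + 6 * κ ≤ 42 * ξ)
    (c1' : (y₁ + y₂ + y₃) + 18 * W + 14 * (y₁ + y₂) ≤ 8 * κ)
    (c2 : 2 * (y₁ + y₂ + y₃) + 3 / 2 * W + 3 * ξ + 3 / 4 * y₃ ≤ 2 * κ)
    (c5 : κ ≤ 4 * (y₁ + y₂) + 3 * ξ) (hW4 : 4 * W ≤ κ) (hy4 : 4 * y₃ ≤ κ) :
    ∀ κ' : ℝ, 0 ≤ κ' → κ' ≤ κ →
      r κ' (V + {y₁, y₂, y₃}) m a + (κ - κ') / 3 ≤
        κ + (V.sum + (y₁ + y₂ + y₃) + m + a) + d * κ := by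
  have hκ : 0 ≤ κ := by linarith
  have hV0 : 0 ≤ V.sum := Multiset.sum_nonneg hV
  obtain ⟨t, ht⟩ : ∃ t, t = min (m + a) (ξ - V.sum) := ⟨_, rfl⟩
  have ht0 : 0 ≤ t := by rw [ht]; exact le_min (by linarith) (by linarith)
  have ht1 : t ≤ m + a := by rw [ht]; exact min_le_left _ _
  have ht2 : t ≤ ξ - V.sum := by rw [ht]; exact min_le_right _ _
  have ht3 : m + a - t ≤ W := by
    rcases le_total (m + a) (ξ - V.sum) with h | h
    · rw [ht, min_eq_left h]; linarith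
    · rw [ht, min_eq_right h]; linarith
  obtain ⟨b, hb⟩ : ∃ b, b = min m t := ⟨_, rfl⟩
  have hb0 : 0 ≤ b := by rw [hb]; exact le_min hm ht0
  have hb1 : b ≤ m := by rw [hb]; exact min_le_left _ _
  have hb2 : b ≤ t := by rw [hb]; exact min_le_right _ _
  have hb3 : t - b ≤ a := by
    rcases le_total m t with h | h
    · rw [hb, min_eq_left h]; linarith
    · rw [hb, min_eq_right h]; linarith
  have hC := col3 R Lv hd hd8 (κ := κ) (ξ := ξ) (m := m - b) (a := a - (t - b)) (W := W) h3 h21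
    h32 (by linarith) (by linarith) (by linarith) c0 c1 c1' c2 c5 hW4 hy4
  have hZ : ∀ y ∈ ({y₁, y₂, y₃} : Multiset ℝ), 0 ≤ y := by
    intro y hy
    simp only [Multiset.insert_eq_cons, Multiset.mem_cons, Multiset.mem_singleton] at hy
    rcases hy with rfl | rfl | rfl <;> linarith
  have := side_xi R (κ := κ) (ξ := ξ) (m := m - b) (b := b) (a := a - (t - b)) (b' := t - b)
    (F := d * κ) (V := V) (Z := {y₁, y₂, y₃}) hκ hV hZ (by linarith) hb0 (by linarith)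
    (by linarith) (mul_nonneg hd hκ) (by linarith)
    (by rw [sum_triple]; have := mul_nonneg hd hκ; linarith) hC
  intro κ' h0 h1
  have := this κ' h0 h1
  rw [sum_triple, sub_add_cancel, sub_add_cancel] at this
  linarith

/-- closed form: total `n`, `42 n ≤ 36 κ - L`, `42 n ≤ 50 κ - 15 L - 21 y₃` -/
theorem T3N' (R : ExpRules (7 / 8 + d) r s) (Lv : ExpLv (7 / 8 + d) r) (hd : 0 ≤ d)
    (hd8 : d ≤ 1 / 8) {κ y₁ y₂ y₃ m a : ℝ} {V : Multiset ℝ} (h3 : 0 ≤ y₃) (h21 : y₂ ≤ y₁)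
    (h32 : y₃ ≤ y₂) (hV : ∀ y ∈ V, 0 ≤ y) (hm : 0 ≤ m) (ha : 0 ≤ a)
    (hVκ : 42 * V.sum ≤ 6 * κ + (y₁ + y₂ + y₃))
    (n1 : 42 * (V.sum + (y₁ + y₂ + y₃) + m + a) ≤ 36 * κ - (y₁ + y₂ + y₃))
    (n2 : 42 * (V.sum + (y₁ + y₂ + y₃) + m + a) ≤ 50 * κ - 15 * (y₁ + y₂ + y₃) - 21 * y₃)
    (n3 : 29 * (y₁ + y₂ + y₃) + 21 / 2 * y₃ ≤ 22 * κ)
    (n4 : 22 * (y₁ + y₂ + y₃) ≤ 15 * κ)
    (n5 : 34 * κ ≤ 27 * (y₁ + y₂) + 125 * y₃) (hy4 : 4 * y₃ ≤ κ) :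
    ∀ κ' : ℝ, 0 ≤ κ' → κ' ≤ κ →
      r κ' (V + {y₁, y₂, y₃}) m a + (κ - κ') / 3 ≤
        κ + (V.sum + (y₁ + y₂ + y₃) + m + a) + d * κ := by
  have hκ : 0 ≤ κ := by linarith
  rcases le_total (y₁ + y₂ + y₃ + 3 / 2 * y₃) κ with h | h
  · refine T3N R Lv hd hd8 (ξ := (6 * κ + (y₁ + y₂ + y₃)) / 42)
      (W := (15 * κ - 22 * (y₁ + y₂ + y₃)) / 21) h3 h21 h32 hV hm ha ?_ ?_ ?_ ?_ ?_ ?_ ?_ ?_ ?_
      hy4 <;> linarith
  · refine T3N R Lv hd hd8 (ξ := (6 * κ + (y₁ + y₂ + y₃)) / 42)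
      (W := (22 * κ - 29 * (y₁ + y₂ + y₃) - 21 / 2 * y₃) / 21) h3 h21 h32 hV hm ha ?_ ?_ ?_ ?_ ?_
      ?_ ?_ ?_ ?_ hy4 <;> linarith

end Crest.Agent.R017.T3L126
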