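import Crest.Agent.R017.SideV5_358

/-!
# Row 17, section D: three big lumps, level rule with real granular powers (theorem V8)

Side `{A, B, C | m, a}`, `C ≤ B ≤ A`, at most `W` granular mass in the columns. Columns at
families `i ≤ 1 - 3 ξ`: two-factor theorem for the pair `{A, B}` with the granular mass to a real
power `t`, `t W = 7/9 (i - A - B)`, and Halász–Montgomery (LV') on `CCCC` and `ABCC`.
`θ = 7/8 + d`, loss `d`. No LB, no REM.
-/

set_option autoImplicit false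

noncomputable section

namespace Crest.Agent.R017.V8358

open Crest.Agent.R017.ER911 Crest.Agent.R017.SC777 Crest.Agent.R017.V4358

variable {θ d : ℝ} {r s : EF}

/-- the level rule for three lumps: Halász–Montgomery on a monomial of the lumps, or the second
moment of the pair `{A, B}` with a real power of the granular mass -/
theorem lev8 (Lv : ExpLv θ r) {κ A B C m a E : ℝ} (hκ : 0 ≤ κ) (hA : 0 ≤ A) (hAκ : A ≤ κ)
    (hB : 0 ≤ B) (hBκ : B ≤ κ) (hC : 0 ≤ C) (hCκ : C ≤ κ) (hm : 0 ≤ m) (ha : 0 ≤ a)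
    (H : ∀ p q u xp xq xu m' a' ω : ℝ, 0 ≤ p → p ≤ A → 0 ≤ q → q ≤ B → 0 ≤ u → u ≤ C →
      0 ≤ m' → m' ≤ m → 0 ≤ a' → a' ≤ a → xp ≤ θ * p → xq ≤ θ * q → xu ≤ θ * u →
      ω ≤ θ * (m' + a') →
      (∃ n₀ n₁ n₂ : ℕ, LVok θ κ (n₀ * p + n₁ * q + n₂ * u) (n₀ * xp + n₁ * xq + n₂ * xu) ∧
        2 * ((n₀ * p + n₁ * q + n₂ * u) - (n₀ * xp + n₁ * xq + n₂ * xu)) +
          2 * (xp + xq + xu + ω) ≤ E) ∨
      ∃ t : ℝ, 0 ≤ t ∧ r κ {p, q} (t * m') (t * a') + 2 * xu + 2 * (1 - t) * ω ≤ E) :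
    r κ {A, B, C} m a ≤ E := by
  rw [← trip_val]
  refine Lv.lev 3 ![A, B, C] κ m a E hκ ?_ hm ha ?_
  · intro j
    fin_cases j
    · exact ⟨hA, hAκ⟩
    · exact ⟨hB, hBκ⟩
    · exact ⟨hC, hCκ⟩
  · intro y x m' a' ω α hy hm0 hm1 ha0 ha1 hx hω hα
    have gran : ∀ m' ω : ℝ, 0 ≤ m' → ω ≤ θ * m' →
        ω ≤ m' * (ω / m') ∧ m' * (ω / m') ≤ θ * m' := by
      intro m' ω hm' h
      rcases eq_or_ne m' 0 with h0 | h0
      · rw [h0] at h ⊢
        rw [mul_zero] at h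
        simpa using h
      · rw [mul_div_cancel₀ _ h0]
        exact ⟨le_rfl, h⟩
    have g1 := gran m' ω hm0 hω
    have g2 := gran a' α ha0 hα
    have y0 : 0 ≤ y 0 ∧ y 0 ≤ A := hy 0
    have y1 : 0 ≤ y 1 ∧ y 1 ≤ B := hy 1
    have y2 : 0 ≤ y 2 ∧ y 2 ≤ C := hy 2
    have x0 := hx 0
    have x1 := hx 1
    have x2 := hx 2
    have hg : m' * (ω / m') + a' * (α / a') ≤ θ * (m' + a') := by linarith
    rcases H (y 0) (y 1) (y 2) (x 0) (x 1) (x 2) m' a' (m' * (ω / m') + a' * (α / a'))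
      y0.1 y0.2 y1.1 y1.2 y2.1 y2.2 hm0 hm1 ha0 ha1 x0 x1 x2 hg with h | h
    · obtain ⟨n₀, n₁, n₂, h1, h2⟩ := h
      refine Or.inl ⟨![n₀, n₁, n₂], 0, 0, le_rfl, fun _ => rfl, le_rfl, fun _ => rfl, ?_, ?_⟩
      · simpa only [Fin.sum_univ_three, Matrix.cons_val_zero, Matrix.cons_val_one,
          Matrix.cons_val, zero_mul, add_zero] using h1
      · simp only [Fin.sum_univ_three, Matrix.cons_val_zero, Matrix.cons_val_one,
          Matrix.cons_val, zero_mul, add_zero]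
        linarith [g1.1, g2.1]
    · obtain ⟨t, ht, h⟩ := h
      refine Or.inr (Or.inl ⟨![1, 1, 0], t * m', t * a', mul_nonneg ht hm0,
        fun h => by rw [h, mul_zero], mul_nonneg ht ha0, fun h => by rw [h, mul_zero], ?_⟩)
      have e : (∑ j : Fin 3, Multiset.replicate ((![1, 1, 0] : Fin 3 → ℕ) j) (y j) :
          Multiset ℝ) = {y 0, y 1} := by
        simp [Fin.sum_univ_three, Multiset.singleton_add]
      rw [e]
      simp only [Fin.sum_univ_three, Matrix.cons_val_zero, Matrix.cons_val_one,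
        Matrix.cons_val, Nat.cast_zero, Nat.cast_one, zero_mul, one_mul, add_zero]
      have e1 : t * m' * (ω / m') + t * a' * (α / a') =
          t * (m' * (ω / m') + a' * (α / a')) := by ring
      have e2 : 2 * (1 - t) * (m' * (ω / m') + a' * (α / a')) =
          2 * (m' * (ω / m') + a' * (α / a')) -
            2 * (t * (m' * (ω / m') + a' * (α / a'))) := by ring
      linarith [g1.1, g2.1, e1, e2]

/-- a column with three lumps in the level range -/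
theorem col_V8 (R : ExpRules (7 / 8 + d) r s) (Lv : ExpLv (7 / 8 + d) r) (hd : 0 ≤ d)
    {ξ A B C W t₀ i A' B' C' m a : ℝ} (hB : 0 ≤ B) (hBA : B ≤ A) (hCB : C ≤ B) (hC : 0 ≤ C)
    (hW : 0 < W)
    (c1 : 3 + 2 * C ≤ 25 * ξ) (c3 : 12 * W + 7 * (A + B) ≤ 7 * i)
    (c4 : 0 ≤ 1 - ξ - (A + B) - 2 * C)
    (c5 : 0 ≤ 3 * (1 - ξ - (A + B) - 2 * C) + (3 / 4 * (A + B) + 4 * C - 1 - ξ))
    (c6 : t₀ * W ≤ 7 / 9 * (1 - 3 * ξ - (A + B)))
    (c7 : 4 * (1 - ξ - (A + B) - 2 * C) + 2 * (3 / 4 * (A + B) + 4 * C - 1 - ξ) ≤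
      t₀ * (3 * (1 - ξ - (A + B) - 2 * C) + (3 / 4 * (A + B) + 4 * C - 1 - ξ)))
    (c8 : 7 / 9 * (3 * (1 - ξ - (A + B) - 2 * C) + (3 / 4 * (A + B) + 4 * C - 1 - ξ)) +
      2 / 3 * (7 / 9 * (1 - 3 * ξ - (A + B))) ≤ 2 * W)
    (c9 : 1 - 3 * ξ ≤ 4 * (A + B)) (c10 : A + B + 34 * C ≤ 2 + 42 * ξ)
    (hi : 0 ≤ i) (hii : i ≤ 1 - 3 * ξ)
    (hA0 : 0 ≤ A') (hA1 : A' ≤ A) (hB0 : 0 ≤ B') (hB1 : B' ≤ B) (hC0 : 0 ≤ C') (hC1 : C' ≤ C)
    (hAi : A' ≤ i) (hBi : B' ≤ i) (hCi : C' ≤ i)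
    (hm : 0 ≤ m) (ha : 0 ≤ a) (hw : m + a ≤ W) :
    r i {A', B', C'} m a ≤ (A' + B' + C' + m + a) + (2 + i) / 3 - ξ + d := by
  -- the power of the granular mass
  obtain ⟨t, htW⟩ : ∃ t, t * W = 7 / 9 * (i - (A + B)) :=
    ⟨7 / 9 * (i - (A + B)) / W, div_mul_cancel₀ _ hW.ne'⟩
  have ht43 : 4 / 3 ≤ t := by
    by_contra hh
    push Not at hh
    have := mul_lt_mul_of_pos_right hh hW
    linarith
  have ht0 : 0 ≤ t := by linarith
  -- the quadratic inequality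
  have hf : 0 ≤ t * (3 * (1 - ξ - (A + B) - 2 * C) + (3 / 4 * (A + B) + 4 * C - 1 - ξ) -
      2 / 3 * (1 - 3 * ξ - i)) - (4 * (1 - ξ - (A + B) - 2 * C) +
        2 * (3 / 4 * (A + B) + 4 * C - 1 - ξ) - 2 * (1 - 3 * ξ - i)) := by
    set G := 3 * (1 - ξ - (A + B) - 2 * C) + (3 / 4 * (A + B) + 4 * C - 1 - ξ) with hG
    set H := 4 * (1 - ξ - (A + B) - 2 * C) + 2 * (3 / 4 * (A + B) + 4 * C - 1 - ξ) with hH
    set δ := 1 - 3 * ξ - i with hδ
    have hδ0 : 0 ≤ δ := by linarith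
    have h1 : W * H ≤ 7 / 9 * (1 - 3 * ξ - (A + B)) * G := by
      calc W * H ≤ W * (t₀ * G) := mul_le_mul_of_nonneg_left c7 hW.le
        _ = (t₀ * W) * G := by ring
        _ ≤ _ := mul_le_mul_of_nonneg_right c6 c5
    have h2 : 0 ≤ δ * (2 * W - (7 / 9 * G + 2 / 3 * (7 / 9 * (1 - 3 * ξ - (A + B))))) :=
      mul_nonneg hδ0 (by linarith)
    have h3 : 0 ≤ δ * δ := mul_nonneg hδ0 hδ0
    have h4 : 0 ≤ W * (t * (G - 2 / 3 * δ) - (H - 2 * δ)) := by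
      have e : W * (t * (G - 2 / 3 * δ) - (H - 2 * δ)) =
          (t * W) * (G - 2 / 3 * δ) - W * (H - 2 * δ) := by ring
      rw [e, htW]
      have e2 : i - (A + B) = (1 - 3 * ξ - (A + B)) - δ := by rw [hδ]; ring
      rw [e2]
      nlinarith
    exact nonneg_of_mul_nonneg_right h4 hW
  refine lev8 Lv hi hA0 hAi hB0 hBi hC0 hCi hm ha ?_
  intro p q u xp xq xu m' a' ω hp hp' hq hq' hu hu' hm0 hm1 ha0 ha1 hxp hxq hxu hω
  -- products with `d`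
  have hi1 : i ≤ 2 / 3 := by linarith
  have hdp : 0 ≤ d * p := mul_nonneg hd hp
  have hdq : 0 ≤ d * q := mul_nonneg hd hq
  have hdu : 0 ≤ d * u := mul_nonneg hd hu
  have hdi : d * i ≤ d * (2 / 3) := mul_le_mul_of_nonneg_left hi1 hd
  have hdi0 : 0 ≤ d * i := mul_nonneg hd hi
  have hw0 : 0 ≤ m' + a' := by linarith
  have hwW : m' + a' ≤ W := by linarith
  have htw : t * (m' + a') ≤ 7 / 9 * (i - (A + B)) := by
    rw [← htW]; exact mul_le_mul_of_nonneg_left hwW ht0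
  have htw0 : 0 ≤ t * (m' + a') := mul_nonneg ht0 hw0
  have hiAB : i ≤ 4 * (A + B) := by linarith
  have htw1 : t * (m' + a') ≤ 7 / 12 * i := by linarith
  have hw1 : 4 / 3 * (m' + a') ≤ t * (m' + a') := mul_le_mul_of_nonneg_right ht43 hw0
  have hdtw : d * (t * (m' + a')) ≤ d * (7 / 9 * (i - (A + B))) :=
    mul_le_mul_of_nonneg_left htw hd
  have hdtw1 : d * (t * (m' + a')) ≤ d * (7 / 12 * i) := mul_le_mul_of_nonneg_left htw1 hd
  have hdtw0 : 0 ≤ d * (t * (m' + a')) := mul_nonneg hd htw0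
  have hdw : d * (4 / 3 * (m' + a')) ≤ d * (t * (m' + a')) := mul_le_mul_of_nonneg_left hw1 hd
  have hdw0 : 0 ≤ d * (m' + a') := mul_nonneg hd hw0
  have hds : d * (p + q) ≤ d * (A + B) := mul_le_mul_of_nonneg_left (by linarith) hd
  have hdAB : 0 ≤ d * (A + B) := mul_nonneg hd (by linarith)
  -- the pair is ideal
  have hta : 12 * (t * a') + 9 * (t * m') ≤ 12 * (t * (m' + a')) := by nlinarith
  have pair1 := side79a R hd (e := 0) (κ := i) (m := m') (a := a') hp hq hm0 ha0 (by linarith)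
    le_rfl (by linarith) (by linarith) hi le_rfl (by linarith) (by linarith)
  have pairt := side79a R hd (e := 0) (κ := i) (m := t * m') (a := t * a') hp hq
    (mul_nonneg ht0 hm0) (mul_nonneg ht0 ha0) (by linarith)
    le_rfl (by rw [← mul_add]; linarith) (by linarith) hi le_rfl (by linarith) (by linarith)
  rw [← mul_add] at pairt
  by_contra hcon
  push Not at hcon
  obtain ⟨hLV, hM⟩ := hcon
  have n1 := hM 1 zero_le_one
  rw [one_mul, one_mul, sub_self, mul_zero, zero_mul, add_zero] at n1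
  have nt := hM t ht0
  -- `CCCC`
  have l4 := hLV 0 0 4
  simp only [Nat.cast_zero, Nat.cast_ofNat, zero_mul, zero_add] at l4
  have k4 := l4 (Or.inr (by linarith))
  -- `φ > 0` bookkeeping
  set φ := 2 * ω - (m' + a') with hφ
  have ntφ : (2 + i) / 3 - ξ - i + d + (t - 1) * φ - 2 * (d * (t * (m' + a'))) <
      2 * xu - u := by
    have e : (t - 1) * φ = 2 * (t * ω) - 2 * ω - t * (m' + a') + (m' + a') := by rw [hφ]; ring
    have e' : 2 * (1 - t) * ω = 2 * ω - 2 * (t * ω) := by ring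
    have e'' : 2 * d * (t * (m' + a')) = 2 * (d * (t * (m' + a'))) := by ring
    rw [e]
    rw [e'] at nt
    rw [e''] at pairt
    linarith
  have n1φ : (2 + i) / 3 - ξ - i + d - 2 * (d * (m' + a')) < 2 * xu - u := by
    linarith
  -- `ABCC`
  have l112 := hLV 1 1 2
  simp only [Nat.cast_one, Nat.cast_ofNat, one_mul] at l112
  have happ : (2 - (7 / 8 + d)) * (p + q + 2 * u) + (2 * (7 / 8 + d) - 1) * i ≤
      2 * (xp + xq + 2 * xu) := by
    rcases le_or_gt 0 φ with hφ0 | hφ0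
    · have h1 : 1 / 3 * φ ≤ (t - 1) * φ := mul_le_mul_of_nonneg_right (by linarith) hφ0
      linarith
    · linarith
  have k112 := l112 (Or.inr happ)
  -- contradiction
  have hPQ1 : 1 - ξ - (A + B) - 2 * C + (1 - 3 * ξ - i) / 3 < φ := by linarith
  have hφ0 : 0 < φ := by linarith
  have hP : 1 - ξ - (A + B) - 2 * C + (1 - 3 * ξ - i) / 3 < (2 - t) * φ := by
    have e : (2 - t) * φ = φ - (t - 1) * φ := by ring
    rw [e]
    linarith
  have hQ : (3 * t - 4) * φ < 3 / 4 * (A + B) + 4 * C - 1 - ξ - 5 / 3 * (1 - 3 * ξ - i) := by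
    have e : (3 * t - 4) * φ = 3 * ((t - 1) * φ) - φ := by ring
    rw [e]
    linarith
  rcases le_or_gt 2 t with ht2 | ht2
  · have : (2 - t) * φ ≤ 0 := mul_nonpos_of_nonpos_of_nonneg (by linarith) hφ0.le
    linarith
  · have h1 := mul_le_mul_of_nonneg_left hP.le (by linarith : (0 : ℝ) ≤ 3 * t - 4)
    have h2 := mul_lt_mul_of_pos_left hQ (by linarith : (0 : ℝ) < 2 - t)
    have e : (3 * t - 4) * ((2 - t) * φ) = (2 - t) * ((3 * t - 4) * φ) := by ring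
    rw [e] at h1
    have h3 := h1.trans_lt h2
    linarith

/-- the columns of `{A, B, C | m, a}` -/
theorem colX_V8 (R : ExpRules (7 / 8 + d) r s) (Lv : ExpLv (7 / 8 + d) r) (hd : 0 ≤ d)
    {ξ A B C W t₀ m a : ℝ} (hC : 0 ≤ C) (hCB : C ≤ B) (hBA : B ≤ A)
    (hm : 0 ≤ m) (ha : 0 ≤ a) (hWp : 0 < W) (hW : m + a ≤ W) (hCW : 2 * (C + W) ≤ 1)
    (c1 : 3 + 2 * C ≤ 25 * ξ) (c3 : 12 * W + 7 * (A + B) ≤ 7 * (1 - 3 / 2 * ξ - 9 / 8 * C))
    (c4 : 0 ≤ 1 - ξ - (A + B) - 2 * C)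
    (c5 : 0 ≤ 3 * (1 - ξ - (A + B) - 2 * C) + (3 / 4 * (A + B) + 4 * C - 1 - ξ))
    (c6 : t₀ * W ≤ 7 / 9 * (1 - 3 * ξ - (A + B)))
    (c7 : 4 * (1 - ξ - (A + B) - 2 * C) + 2 * (3 / 4 * (A + B) + 4 * C - 1 - ξ) ≤
      t₀ * (3 * (1 - ξ - (A + B) - 2 * C) + (3 / 4 * (A + B) + 4 * C - 1 - ξ)))
    (c8 : 7 / 9 * (3 * (1 - ξ - (A + B) - 2 * C) + (3 / 4 * (A + B) + 4 * C - 1 - ξ)) +
      2 / 3 * (7 / 9 * (1 - 3 * ξ - (A + B))) ≤ 2 * W)
    (c9 : 1 - 3 * ξ ≤ 4 * (A + B)) (c9' : 1 - 3 / 2 * ξ - 9 / 8 * C ≤ 4 * (A + B))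
    (c10 : A + B + 34 * C ≤ 2 + 42 * ξ) :
    ColX (7 / 8 + d) r 1 ξ d {A, B, C} m a := by
  have hA : 0 ≤ A := by linarith
  have hB : 0 ≤ B := by linarith
  have hdCW : d * (2 * (C + W)) ≤ d * 1 := mul_le_mul_of_nonneg_left hCW hd
  refine ⟨?_, ?_⟩
  · intro Y' m' a' i hY' hm0 hm1 ha0 ha1 hi hyi hii
    obtain ⟨A', Z₁, rfl, hA0, hA1, hZ₁⟩ := Sh.of_cons (Y := {B, C}) (y := A) hY'
    obtain ⟨B', C', rfl, hB0, hB1, hC0, hC1⟩ := hZ₁.pair
    have hs3 : (A' ::ₘ ({B', C'} : Multiset ℝ)).sum = A' + B' + C' := sum_trip A' B' C'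
    rw [hs3]
    have hiA : A' ≤ i := hyi A' (by simp)
    have hiB : B' ≤ i := hyi B' (by simp)
    have hiC : C' ≤ i := hyi C' (by simp)
    rcases le_total i (1 - 3 / 2 * ξ - 9 / 8 * C) with hi1 | hi1
    · -- the third lump pointwise
      have hdw : d * (m' + a') ≤ d * W := mul_le_mul_of_nonneg_left (by linarith) hd
      have hdC' : d * C' ≤ d * C := mul_le_mul_of_nonneg_left hC1 hd
      have e0 := supV R (κ := i) hi {A', B'} {C'}
        (ok_pair (m := 0) (a := 0) hA0 hB0 le_rfl le_rfl).1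
        (fun y hy => by rw [Multiset.mem_singleton.1 hy]; exact hC0) hm0 ha0
      have e00 : ({C'} + {A', B'} : Multiset ℝ) = A' ::ₘ {B', C'} := by
        rw [Multiset.singleton_add]
        show C' ::ₘ A' ::ₘ {B'} = A' ::ₘ B' ::ₘ {C'}
        rw [Multiset.cons_swap]
        congr 1
        exact Multiset.pair_comm C' B'
      rw [e00, Multiset.sum_singleton] at e0
      rcases le_or_gt i (A' + B') with hks | hks
      · have e1 := sup_all R hi hA0 hB0 hm0 ha0 hiA hiB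
        linarith
      · obtain ⟨e, he⟩ : ∃ e, e = max 0 (max (m' + a' - 7 / 9 * (i - (A' + B')))
          ((12 * a' + 9 * m' + 4 * (A' + B') - 8 * i) / 12)) := ⟨_, rfl⟩
        have he0 : 0 ≤ e := by rw [he]; exact le_max_left _ _
        have he1 : m' + a' - 7 / 9 * (i - (A' + B')) ≤ e := by
          rw [he]; exact (le_max_left _ _).trans (le_max_right _ _)
        have he2 : (12 * a' + 9 * m' + 4 * (A' + B') - 8 * i) / 12 ≤ e := by
          rw [he]; exact (le_max_right _ _).trans (le_max_right _ _)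
        have e1 := side79a R hd hA0 hB0 hm0 ha0 hks.le he0 he1 (by linarith) hi le_rfl hiA hiB
        have e4 : e ≤ 4 / 3 * ((2 * 1 + i) / 3 - ξ - i - 3 / 4 * C') := by
          rw [he]
          refine max_le ?_ (max_le ?_ ?_)
          · linarith
          · linarith
          · linarith
        linarith
    · have := col_V8 R Lv hd (ξ := ξ) (A := A) (B := B) (C := C) (W := W) (t₀ := t₀) hB hBA hCB
        hC hWp c1 (by linarith) c4 c5 c6 c7 c8 c9 c10 hi hii hA0 hA1 hB0 hB1 hC0 hC1 hiA hiB hiC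
        hm0 ha0 (by linarith)
      have e : (A' ::ₘ ({B', C'} : Multiset ℝ)) = {A', B', C'} := rfl
      rw [e]
      linarith
  · intro Y' m' a' hY' hm0 hm1 ha0 ha1 h3
    have hYs := hY'.sum_nonneg
    have hdm : d * m' ≤ d * W := mul_le_mul_of_nonneg_left (by linarith) hd
    have hdC0 : 0 ≤ d * C := mul_nonneg hd hC
    linarith

/-- **V8** (family `1`): side `{y₁, y₂, y₃ | f, g}` up to `N = y₁ + y₂ + y₃ + ξ + W`, lumps
`≥ 13/100` -/
theorem v8 (R : ExpRules (7 / 8 + d) r s) (Lv : ExpLv (7 / 8 + d) r) (hd : 0 ≤ d)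
    {y₁ y₂ y₃ ξ W t f g : ℝ} (o1 : y₂ ≤ y₁) (o2 : y₃ ≤ y₂) (h0 : 13 / 100 ≤ y₃) (hW : 0 < W)
    (c0 : 2 * ξ + (y₁ + y₂ + y₃) + W ≤ 1)
    (c1 : 3 + 2 * y₃ ≤ 25 * ξ)
    (c3 : 12 * W + 7 * (y₁ + y₂) ≤ 7 * (1 - 3 / 2 * ξ - 9 / 8 * y₃))
    (c4 : 0 ≤ 1 - ξ - (y₁ + y₂) - 2 * y₃)
    (c5 : 0 ≤ 3 * (1 - ξ - (y₁ + y₂) - 2 * y₃) + (3 / 4 * (y₁ + y₂) + 4 * y₃ - 1 - ξ))
    (c6 : t * W ≤ 7 / 9 * (1 - 3 * ξ - (y₁ + y₂)))
    (c7 : 4 * (1 - ξ - (y₁ + y₂) - 2 * y₃) + 2 * (3 / 4 * (y₁ + y₂) + 4 * y₃ - 1 - ξ) ≤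
      t * (3 * (1 - ξ - (y₁ + y₂) - 2 * y₃) + (3 / 4 * (y₁ + y₂) + 4 * y₃ - 1 - ξ)))
    (c8 : 7 / 9 * (3 * (1 - ξ - (y₁ + y₂) - 2 * y₃) +
      (3 / 4 * (y₁ + y₂) + 4 * y₃ - 1 - ξ)) +
      2 / 3 * (7 / 9 * (1 - 3 * ξ - (y₁ + y₂))) ≤ 2 * W)
    (c9 : 1 - 3 / 2 * ξ - 9 / 8 * y₃ ≤ 4 * (y₁ + y₂))
    (c10 : y₁ + y₂ + 34 * y₃ ≤ 2 + 42 * ξ)
    (hf : 0 ≤ f) (hg : 0 ≤ g) (hN : f + g ≤ ξ + W) :
    ∀ k' : ℝ, 0 ≤ k' → k' ≤ 1 →
      r k' {y₁, y₂, y₃} f g + (1 - k') / 3 ≤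
        1 + ((({y₁, y₂, y₃} : Multiset ℝ)).sum + f + g) + d := by
  have hξ : 0 ≤ ξ := by linarith
  -- the part in `X` : `(b, b')` of length `≤ ξ`, the rest of length `≤ W`
  obtain ⟨τ, hτ⟩ : ∃ τ, τ = min (f + g) ξ := ⟨_, rfl⟩
  have hτ0 : 0 ≤ τ := by rw [hτ]; exact le_min (by linarith) hξ
  have hτ1 : τ ≤ f + g := by rw [hτ]; exact min_le_left _ _
  have hτ2 : τ ≤ ξ := by rw [hτ]; exact min_le_right _ _
  have hτ3 : f + g - τ ≤ W := by
    rcases le_total (f + g) ξ with h | h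
    · rw [hτ, min_eq_left h]; linarith
    · rw [hτ, min_eq_right h]; linarith
  obtain ⟨b, hb⟩ : ∃ b, b = min f τ := ⟨_, rfl⟩
  have hb0 : 0 ≤ b := by rw [hb]; exact le_min hf hτ0
  have hb1 : b ≤ f := by rw [hb]; exact min_le_left _ _
  have hb2 : b ≤ τ := by rw [hb]; exact min_le_right _ _
  have hb3 : τ - b ≤ g := by
    rcases le_total f τ with h | h
    · rw [hb, min_eq_left h]; linarith
    · rw [hb, min_eq_right h]; linarith
  have hcol := colX_V8 R Lv hd (ξ := ξ) (A := y₁) (B := y₂) (C := y₃) (m := f - b)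
    (a := g - (τ - b)) (W := W) (t₀ := t) (by linarith) o2 o1 (by linarith) (by linarith) hW
    (by linarith) (by linarith) c1 c3 c4 c5 c6 c7 c8 (by linarith) c9 c10
  have hZ : ∀ y ∈ ({y₁, y₂, y₃} : Multiset ℝ), 0 ≤ y := by
    intro y hy
    simp only [Multiset.insert_eq_cons, Multiset.mem_cons, Multiset.mem_singleton] at hy
    rcases hy with rfl | rfl | rfl <;> linarith
  intro k' hk0 hk1
  have := side_xi R (κ := 1) (ξ := ξ) (m := f - b) (b := b) (a := g - (τ - b)) (b' := τ - b)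
    (F := d) (V := 0) (Z := {y₁, y₂, y₃}) zero_le_one (by simp) hZ (by linarith) hb0
    (by linarith) (by linarith) hd (by rw [Multiset.sum_zero]; linarith)
    (by rw [sum_trip]; linarith) hcol k' hk0 hk1
  rw [zero_add, Multiset.sum_zero, zero_add, sub_add_cancel, sub_add_cancel] at this
  linarith

end Crest.Agent.R017.V8358
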