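import Mathlib

/-!
# Row 17, section D: side certificates (D1, helper83)

Exponents of second moments of sides `{y₁,y₂ | w, u}`: two smooth pieces of lengths `y₁, y₂`,
a granular mass `w` (splittable), a killer piece of length `u` (never moved).

* `r κ y₁ y₂ w u` : character side, cube-free families of length `κ`
* `s κ y₁ y₂ w u` : Gauss sum side.

`θ = 7/8 + d`.  Everything is affine in `d`.  No large sieve is used here except inside the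
hypothesis `g1` (`r (3n/4) ≤ (2+lam) n`, from REM at ratio `3/4`).
-/

set_option autoImplicit false

namespace Crest.Agent.R017.Side83

/-- The rules (all lengths real, `n = y₁+y₂+w+u`).
`d = θ - 7/8`. -/
structure Rules (d lam : ℝ) (r s : ℝ → ℝ → ℝ → ℝ → ℝ → ℝ) : Prop where
  /-- Poisson from the character side to the Gauss side, all shortenings (gcd terms), cubes. -/
  poisC : ∀ κ y₁ y₂ w u E : ℝ, 0 ≤ κ → 0 ≤ y₁ → 0 ≤ y₂ → 0 ≤ w → 0 ≤ u →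
    κ + (y₁ + y₂ + w + u) ≤ E →
    (∀ a₁ a₂ w' u' i : ℝ, 0 ≤ a₁ → a₁ ≤ y₁ → 0 ≤ a₂ → a₂ ≤ y₂ → 0 ≤ w' → w' ≤ w →
      0 ≤ u' → u' ≤ u → 0 ≤ i → i ≤ 2 * (a₁ + a₂ + w' + u') - κ →
      κ + (y₁ + y₂ + w + u) - 2 * (a₁ + a₂ + w' + u') + s i a₁ a₂ w' u' +
        (2 * (a₁ + a₂ + w' + u') - κ - i) / 3 ≤ E) →
    ∀ κ' : ℝ, 0 ≤ κ' → κ' ≤ κ → r κ' y₁ y₂ w u + (κ - κ') / 3 ≤ E
  /-- Poisson from the Gauss side to the character side; families shorter than a smooth piece or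
  than the killer are empty. -/
  poisG : ∀ κ y₁ y₂ w u E : ℝ, 0 ≤ κ → 0 ≤ y₁ → 0 ≤ y₂ → 0 ≤ w → 0 ≤ u →
    κ + (y₁ + y₂ + w + u) ≤ E →
    (∀ a₁ a₂ w' u' i : ℝ, 0 ≤ a₁ → a₁ ≤ y₁ → 0 ≤ a₂ → a₂ ≤ y₂ → 0 ≤ w' → w' ≤ w →
      0 ≤ u' → u' ≤ u → 0 ≤ i → a₁ ≤ i → a₂ ≤ i → u' ≤ i →
      i ≤ 2 * (a₁ + a₂ + w' + u') - κ →
      κ + (y₁ + y₂ + w + u) - 2 * (a₁ + a₂ + w' + u') + r i a₁ a₂ w' u' +
        (2 * (a₁ + a₂ + w' + u') - κ - i) / 3 ≤ E) →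
    ∀ κ' : ℝ, 0 ≤ κ' → κ' ≤ κ → s κ' y₁ y₂ w u + (κ - κ') / 3 ≤ E
  /-- Cauchy on the Gauss side -/
  cau : ∀ κ y₁ y₂ w u b : ℝ, 0 ≤ κ → 0 ≤ y₁ → 0 ≤ y₂ → 0 ≤ u → 0 ≤ b → b ≤ w →
    s κ y₁ y₂ w u ≤ b + s (κ + b) y₁ y₂ (w - b) u
  /-- pointwise bound of granular mass on the character side -/
  sup : ∀ κ y₁ y₂ w u x : ℝ, 0 ≤ κ → 0 ≤ y₁ → 0 ≤ y₂ → 0 ≤ u → 0 ≤ x → x ≤ w →
    r κ y₁ y₂ w u ≤ (7 / 4 + 2 * d) * x + r κ y₁ y₂ (w - x) u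
  /-- pointwise bound of both smooth pieces on the character side -/
  supy : ∀ κ y₁ y₂ w u : ℝ, 0 ≤ κ → 0 ≤ y₁ → 0 ≤ y₂ → 0 ≤ w → 0 ≤ u →
    r κ y₁ y₂ w u ≤ (7 / 4 + 2 * d) * (y₁ + y₂) + r κ 0 0 w u
  /-- two-factor theorem -/
  tf : ∀ κ y₁ y₂ : ℝ, 0 ≤ y₁ → 0 ≤ y₂ → y₁ ≤ κ → y₂ ≤ κ → r κ y₁ y₂ 0 0 ≤ κ + y₁ + y₂
  /-- (G1'): ratio `3/4` (from REM) -/
  g1 : ∀ y₁ y₂ w u : ℝ, 0 ≤ y₁ → 0 ≤ y₂ → 0 ≤ w → 0 ≤ u →
    y₁ ≤ 3 / 4 * (y₁ + y₂ + w + u) → y₂ ≤ 3 / 4 * (y₁ + y₂ + w + u) →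
    u ≤ 3 / 4 * (y₁ + y₂ + w + u) →
    r (3 / 4 * (y₁ + y₂ + w + u)) y₁ y₂ w u ≤ (2 + lam) * (y₁ + y₂ + w + u)

variable {d lam : ℝ} {r s : ℝ → ℝ → ℝ → ℝ → ℝ → ℝ}

/-- two-factor theorem on the Gauss side, long families -/
theorem tfg_long (R : Rules d lam r s) {κ y₁ y₂ : ℝ} (h1 : 0 ≤ y₁) (h2 : 0 ≤ y₂)
    (h : y₁ + y₂ ≤ κ) : ∀ κ' : ℝ, 0 ≤ κ' → κ' ≤ κ →
      s κ' y₁ y₂ 0 0 + (κ - κ') / 3 ≤ κ + y₁ + y₂ := by
  have hκ : 0 ≤ κ := by linarith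
  refine R.poisG κ y₁ y₂ 0 0 (κ + y₁ + y₂) hκ h1 h2 le_rfl le_rfl (by linarith) ?_
  intro a₁ a₂ w' u' i ha1 ha1' ha2 ha2' hw hw' hu hu' hi hi1 hi2 _ hi3
  have hw0 : w' = 0 := le_antisymm hw' hw
  have hu0 : u' = 0 := le_antisymm hu' hu
  subst hw0; subst hu0
  have := R.tf i a₁ a₂ ha1 ha2 hi1 hi2
  linarith

theorem tfg (R : Rules d lam r s) {k y₁ y₂ E : ℝ} (h1 : 0 ≤ y₁) (h2 : 0 ≤ y₂) (hk : 0 ≤ k)
    (hE1 : k + y₁ + y₂ ≤ E) (hE2 : (5 * (y₁ + y₂) + k) / 3 ≤ E) : s k y₁ y₂ 0 0 ≤ E := by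
  rcases le_total (y₁ + y₂) k with h | h
  · have := tfg_long R h1 h2 h k hk le_rfl
    linarith
  · have := tfg_long R h1 h2 le_rfl k hk h
    linarith

/-- `A(γ)` : the side `{y₁,y₂ | w}` is ideal up to `2 d w` if `w ≤ γ (κ - y₁ - y₂)`. -/
def AG (d : ℝ) (r : ℝ → ℝ → ℝ → ℝ → ℝ → ℝ) (γ : ℝ) : Prop :=
  ∀ κ y₁ y₂ w : ℝ, 0 ≤ y₁ → 0 ≤ y₂ → 0 ≤ w → y₁ + y₂ ≤ κ → w ≤ γ * (κ - y₁ - y₂) →
    ∀ κ' : ℝ, 0 ≤ κ' → κ' ≤ κ → y₁ ≤ κ' → y₂ ≤ κ' →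
      r κ' y₁ y₂ w 0 + (κ - κ') / 3 ≤ κ + y₁ + y₂ + w + 2 * d * w

theorem AG_zero (R : Rules d lam r s) : AG d r 0 := by
  intro κ y₁ y₂ w h1 h2 hw hs hle κ' hκ' hκ hy1 hy2
  have hw0 : w = 0 := by nlinarith
  subst hw0
  have := R.tf κ' y₁ y₂ h1 h2 hy1 hy2
  linarith


/-- arithmetic of the bad case of the `γ`-step -/
theorem gam_arith {γ κ σ w₁ j x k σ₂ w₂ k₂ : ℝ} (hγ : γ ≤ 7 / 9)
    (H : (10 - 9 * γ) * w₁ ≤ (7 - 6 * γ) * (κ - σ))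
    (hj : j ≤ 2 * (σ + w₁) - κ) (hx : 3 * x = σ + w₁ + κ - 2 * j) (hk : k = j + x)
    (hw2 : w₂ ≤ w₁ - x) (hσ2 : σ₂ ≤ σ) (hk2 : k₂ ≤ 2 * (σ₂ + w₂) - k) :
    5 * w₂ + (8 - 9 * γ) * k₂ + (9 * γ - 4) * σ₂ ≤ 4 * k := by
  have e1 : (8 - 9 * γ) * k₂ ≤ (8 - 9 * γ) * (2 * (σ₂ + w₂) - k) :=
    mul_le_mul_of_nonneg_left hk2 (by linarith)
  have e2 : (21 - 18 * γ) * w₂ ≤ (21 - 18 * γ) * (w₁ - x) :=
    mul_le_mul_of_nonneg_left hw2 (by linarith)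
  have e3 : (12 - 9 * γ) * σ₂ ≤ (12 - 9 * γ) * σ :=
    mul_le_mul_of_nonneg_left hσ2 (by linarith)
  have e4 : (10 - 9 * γ) * j ≤ (10 - 9 * γ) * (2 * (σ + w₁) - κ) :=
    mul_le_mul_of_nonneg_left hj (by linarith)
  have e5 : (11 - 9 * γ) * (3 * x) = (11 - 9 * γ) * (σ + w₁ + κ - 2 * j) := by rw [hx]
  subst hk
  nlinarith [e1, e2, e3, e4, e5, H]

theorem AG_step (R : Rules d lam r s) (hd : 0 ≤ d) {γ : ℝ} (hγ0 : 0 ≤ γ) (hγ : γ ≤ 7 / 9)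
    (hA : AG d r γ) : AG d r ((7 - 6 * γ) / (10 - 9 * γ)) := by
  intro κ y₁ y₂ w h1 h2 hw hs hle κ' hκ' hκ'κ _ _
  have hden : 0 < 10 - 9 * γ := by linarith
  have hH0 : (10 - 9 * γ) * w ≤ (7 - 6 * γ) * (κ - y₁ - y₂) := by
    have := mul_le_mul_of_nonneg_left hle hden.le
    calc (10 - 9 * γ) * w ≤ (10 - 9 * γ) * ((7 - 6 * γ) / (10 - 9 * γ) * (κ - y₁ - y₂)) := this
      _ = (7 - 6 * γ) * (κ - y₁ - y₂) := by field_simp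
  have hκ : 0 ≤ κ := by linarith
  have hdw : 0 ≤ 2 * d * w := by positivity
  refine R.poisC κ y₁ y₂ w 0 (κ + y₁ + y₂ + w + 2 * d * w) hκ h1 h2 hw le_rfl (by linarith) ?_
    κ' hκ' hκ'κ
  intro a₁ a₂ w₁ u' j ha1 ha1' ha2 ha2' hw1 hw1' hu hu' hj hj'
  have hu0 : u' = 0 := le_antisymm hu' hu
  subst hu0
  set σ := a₁ + a₂ with hσ
  have hσ0 : 0 ≤ σ := by positivity
  have hσs : σ ≤ y₁ + y₂ := by linarith
  -- hypothesis for the shortened side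
  have H : (10 - 9 * γ) * w₁ ≤ (7 - 6 * γ) * (κ - σ) := by
    have e1 : (10 - 9 * γ) * w₁ ≤ (10 - 9 * γ) * w := mul_le_mul_of_nonneg_left hw1' hden.le
    have e2 : (7 - 6 * γ) * (κ - y₁ - y₂) ≤ (7 - 6 * γ) * (κ - σ) :=
      mul_le_mul_of_nonneg_left (by linarith) (by linarith)
    linarith
  have H56 : 6 * w₁ ≤ 5 * (κ - σ) := by
    have hκσ : 0 ≤ κ - σ := by linarith
    have e3 : (7 - 6 * γ) * (κ - σ) ≤ 5 / 6 * (10 - 9 * γ) * (κ - σ) :=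
      mul_le_mul_of_nonneg_right (by linarith) hκσ
    have e4 : (10 - 9 * γ) * (6 * w₁) ≤ (10 - 9 * γ) * (5 * (κ - σ)) := by linarith
    exact le_of_mul_le_mul_left e4 hden
  have hn1 : σ + w₁ ≤ κ := by linarith
  -- target
  have key : s j a₁ a₂ w₁ 0 ≤ (4 * (σ + w₁) + κ + j) / 3 + 2 * d * w := by
    rcases le_or_gt w₁ ((σ + w₁ + κ - 2 * j) / 3) with hc | hc
    · -- case 1: remove all granular mass
      have c1 := R.cau j a₁ a₂ w₁ 0 w₁ hj ha1 ha2 le_rfl hw1 le_rfl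
      rw [sub_self] at c1
      have c2 : s (j + w₁) a₁ a₂ 0 0 ≤ (4 * (σ + w₁) + κ + j) / 3 - w₁ := by
        refine tfg R ha1 ha2 (by linarith) ?_ ?_
        · linarith
        · linarith
      linarith
    · -- case 2
      set x := (σ + w₁ + κ - 2 * j) / 3 with hx
      have hx0 : 0 ≤ x := by rw [hx]; linarith
      have h3x : 3 * x = σ + w₁ + κ - 2 * j := by rw [hx]; ring
      have c1 := R.cau j a₁ a₂ w₁ 0 x hj ha1 ha2 le_rfl hx0 hc.le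
      set k := j + x with hk
      have hk0 : 0 ≤ k := by linarith
      have c2 : s k a₁ a₂ (w₁ - x) 0 + (k - k) / 3 ≤ k + (σ + (w₁ - x)) + 2 * d * w := by
        refine R.poisG k a₁ a₂ (w₁ - x) 0 (k + (σ + (w₁ - x)) + 2 * d * w) hk0 ha1 ha2
          (by linarith) le_rfl (by linarith) ?_ k hk0 le_rfl
        intro c₁ c₂ w₂ u'' k₂ hc1 hc1' hc2 hc2' hw2 hw2' hu2 hu2' hk2 hk21 hk22 _ hk2'
        have hu0 : u'' = 0 := le_antisymm hu2' hu2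
        subst hu0
        set σ₂ := c₁ + c₂ with hσ2
        have hσ20 : 0 ≤ σ₂ := by positivity
        have hσ2σ : σ₂ ≤ σ := by linarith
        have hk2'' : k₂ ≤ 2 * (σ₂ + w₂) - k := by linarith
        have hl2 : σ₂ + w₂ ≤ k := by linarith
        have hdw2 : 2 * d * w₂ ≤ 2 * d * w :=
          mul_le_mul_of_nonneg_left (by linarith) (by linarith)
        -- target: r k₂ G₂ ≤ (4 l₂ + k + k₂)/3 + 2 d w
        have tgt : r k₂ c₁ c₂ w₂ 0 ≤ (4 * (σ₂ + w₂) + k + k₂) / 3 + 2 * d * w := by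
          rcases le_or_gt k₂ σ₂ with hks | hks
          · have d1 := R.sup k₂ c₁ c₂ w₂ 0 w₂ hk2 hc1 hc2 le_rfl hw2 le_rfl
            rw [sub_self] at d1
            have d2 := R.tf k₂ c₁ c₂ hc1 hc2 hk21 hk22
            have d3 : 4 * σ₂ + 5 * w₂ ≤ 4 * k := by linarith
            nlinarith [d1, d2, d3]
          · rcases le_or_gt w₂ (γ * (k₂ - σ₂)) with hwg | hwg
            · have d1 := hA k₂ c₁ c₂ w₂ hc1 hc2 hw2 (by linarith)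
                (by rw [sub_sub]; exact hwg) k₂ hk2 le_rfl hk21 hk22
              linarith
            · have hg0 : 0 ≤ γ * (k₂ - σ₂) := mul_nonneg hγ0 (by linarith)
              have d1 := R.sup k₂ c₁ c₂ w₂ 0 (w₂ - γ * (k₂ - σ₂)) hk2 hc1 hc2 le_rfl
                (by linarith) (by linarith)
              rw [sub_sub_cancel] at d1
              have d2 := hA k₂ c₁ c₂ (γ * (k₂ - σ₂)) hc1 hc2 hg0 (by linarith)
                (by rw [sub_sub]) k₂ hk2 le_rfl hk21 hk22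
              have d3 := gam_arith hγ H (by linarith) h3x hk hw2' hσ2σ hk2''
              nlinarith [d1, d2, d3]
        linarith
      linarith
  linarith


theorem AG.mono {γ γ' : ℝ} (h : AG d r γ) (hle : γ' ≤ γ) : AG d r γ' := by
  intro κ y₁ y₂ w h1 h2 hw hs hwle
  exact h κ y₁ y₂ w h1 h2 hw hs
    (hwle.trans (mul_le_mul_of_nonneg_right hle (by linarith)))

/-- the iterates of the `γ`-step -/
noncomputable def gseq : ℕ → ℝ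
  | 0 => 0
  | n + 1 => (7 - 6 * gseq n) / (10 - 9 * gseq n)

theorem gseq_bd (n : ℕ) : 0 ≤ gseq n ∧ gseq n ≤ 7 / 9 ∧ 7 / 9 - gseq n ≤ 7 / 9 * (1 / 3) ^ n := by
  induction n with
  | zero => norm_num [gseq]
  | succ n ih =>
    obtain ⟨h0, h1, h2⟩ := ih
    have hden : 0 < 10 - 9 * gseq n := by linarith
    have hden3 : 3 ≤ 10 - 9 * gseq n := by linarith
    have e : 7 / 9 - gseq (n + 1) = (7 / 9 - gseq n) / (10 - 9 * gseq n) := by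
      simp only [gseq]; field_simp; ring
    have hnn : 0 ≤ 7 / 9 - gseq n := by linarith
    have hp : 0 ≤ (7 / 9 - gseq n) / (10 - 9 * gseq n) := div_nonneg hnn hden.le
    refine ⟨?_, ?_, ?_⟩
    · simp only [gseq]
      exact div_nonneg (by linarith) hden.le
    · linarith
    · rw [e, pow_succ]
      calc (7 / 9 - gseq n) / (10 - 9 * gseq n) ≤ (7 / 9 - gseq n) / 3 :=
            div_le_div_of_nonneg_left hnn (by norm_num) hden3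
        _ ≤ _ := by linarith

theorem AG_gseq (R : Rules d lam r s) (hd : 0 ≤ d) (n : ℕ) : AG d r (gseq n) := by
  induction n with
  | zero => exact AG_zero R
  | succ n ih =>
    have := gseq_bd n
    exact AG_step R hd this.1 this.2.1 ih

theorem AG_lt (R : Rules d lam r s) (hd : 0 ≤ d) {γ : ℝ} (h : γ < 7 / 9) : AG d r γ := by
  obtain ⟨n, hn⟩ : ∃ n : ℕ, 7 / 9 * (1 / 3 : ℝ) ^ n < 7 / 9 - γ := by
    have h3 : 0 < (7 / 9 - γ) / (7 / 9) := by apply div_pos <;> linarith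
    obtain ⟨n, hn⟩ := exists_pow_lt_of_lt_one h3 (by norm_num : (1 / 3 : ℝ) < 1)
    refine ⟨n, ?_⟩
    have := (lt_div_iff₀ (by norm_num : (0 : ℝ) < 7 / 9)).1 hn
    linarith
  have := gseq_bd n
  exact (AG_gseq R hd n).mono (by linarith)

/-- the `γ`-region with the sharp constant `7/9`, and beyond it by the pointwise bound. -/
theorem side79 (R : Rules d lam r s) (hd : 0 ≤ d) {κ y₁ y₂ w : ℝ} (h1 : 0 ≤ y₁) (h2 : 0 ≤ y₂)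
    (hw : 0 ≤ w) (hs : y₁ + y₂ ≤ κ) {κ' : ℝ} (hκ' : 0 ≤ κ') (hκ : κ' ≤ κ) (hy1 : y₁ ≤ κ')
    (hy2 : y₂ ≤ κ') :
    r κ' y₁ y₂ w 0 + (κ - κ') / 3 ≤
      κ + y₁ + y₂ + w + 2 * d * w + 3 / 4 * max 0 (w - 7 / 9 * (κ - y₁ - y₂)) := by
  set D := κ - y₁ - y₂ with hD
  have hD0 : 0 ≤ D := by linarith
  -- for every `γ < 7/9`
  have key : ∀ γ : ℝ, 0 ≤ γ → γ < 7 / 9 → r κ' y₁ y₂ w 0 + (κ - κ') / 3 ≤
      κ + y₁ + y₂ + w + 2 * d * w + 3 / 4 * max 0 (w - γ * D) := by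
    intro γ hγ0 hγ
    have hA := AG_lt R hd hγ
    rcases le_or_gt w (γ * D) with h | h
    · have := hA κ y₁ y₂ w h1 h2 hw hs h κ' hκ' hκ hy1 hy2
      rw [max_eq_left (by linarith)]
      linarith
    · have hg : 0 ≤ γ * D := mul_nonneg hγ0 hD0
      have e1 := R.sup κ' y₁ y₂ w 0 (w - γ * D) hκ' h1 h2 le_rfl (by linarith) (by linarith)
      rw [sub_sub_cancel] at e1
      have e2 := hA κ y₁ y₂ (γ * D) h1 h2 hg hs le_rfl κ' hκ' hκ hy1 hy2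
      rw [max_eq_right (by linarith)]
      linarith
  -- let `γ → 7/9`
  refine le_of_forall_pos_le_add ?_
  intro ε hε
  obtain ⟨γ, hγ0, hγ1, hγ2⟩ : ∃ γ : ℝ, 0 ≤ γ ∧ γ < 7 / 9 ∧ (7 / 9 - γ) * D ≤ ε := by
    refine ⟨max 0 (7 / 9 - ε / (D + 1)), le_max_left _ _, ?_, ?_⟩
    · have : 0 < ε / (D + 1) := by positivity
      exact max_lt (by norm_num) (by linarith)
    · have h3 : 7 / 9 - max 0 (7 / 9 - ε / (D + 1)) ≤ ε / (D + 1) := by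
        have := le_max_right 0 (7 / 9 - ε / (D + 1)); linarith
      calc (7 / 9 - max 0 (7 / 9 - ε / (D + 1))) * D ≤ ε / (D + 1) * D :=
            mul_le_mul_of_nonneg_right h3 hD0
        _ ≤ ε / (D + 1) * (D + 1) := mul_le_mul_of_nonneg_left (by linarith) (by positivity)
        _ = ε := by field_simp
  have h4 := key γ hγ0 hγ1
  have h5 : max 0 (w - γ * D) ≤ max 0 (w - 7 / 9 * D) + ε := by
    have : w - γ * D = (w - 7 / 9 * D) + (7 / 9 - γ) * D := by ring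
    rcases le_total 0 (w - γ * D) with h | h
    · rw [max_eq_right h]
      have := le_max_right 0 (w - 7 / 9 * D)
      linarith
    · rw [max_eq_left h]
      have := le_max_left 0 (w - 7 / 9 * D)
      linarith
  linarith


/-! ### sides of relative length `≤ 5/6` -/

/-- (G2') with a granular sub-side of length `4κ/3` -/
theorem g2 (R : Rules d lam r s) {κ y₁ y₂ w u : ℝ} (hκ : 0 ≤ κ) (h1 : 0 ≤ y₁) (h2 : 0 ≤ y₂)
    (hu : 0 ≤ u) (hy1 : y₁ ≤ κ) (hy2 : y₂ ≤ κ) (huk : u ≤ κ)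
    (hl : 4 / 3 * κ ≤ y₁ + y₂ + w + u) (hs : y₁ + y₂ + u ≤ 4 / 3 * κ) :
    r κ y₁ y₂ w u ≤ (7 / 4 + 2 * d) * (y₁ + y₂ + w + u - 4 / 3 * κ) + (2 + lam) * (4 / 3 * κ) := by
  have e1 := R.sup κ y₁ y₂ w u (y₁ + y₂ + w + u - 4 / 3 * κ) hκ h1 h2 hu (by linarith) (by linarith)
  have hlen : y₁ + y₂ + (w - (y₁ + y₂ + w + u - 4 / 3 * κ)) + u = 4 / 3 * κ := by ring
  have e2 := R.g1 y₁ y₂ (w - (y₁ + y₂ + w + u - 4 / 3 * κ)) u h1 h2 (by linarith) hu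
    (by rw [hlen]; linarith) (by rw [hlen]; linarith) (by rw [hlen]; linarith)
  rw [hlen] at e2
  have hk : 3 / 4 * (4 / 3 * κ) = κ := by ring
  rw [hk] at e2
  linarith

/-- the same after dropping both smooth pieces -/
theorem g2' (R : Rules d lam r s) {κ y₁ y₂ w u : ℝ} (hκ : 0 ≤ κ) (h1 : 0 ≤ y₁) (h2 : 0 ≤ y₂)
    (hw : 0 ≤ w) (hu : 0 ≤ u) (huk : u ≤ κ) (hl : 4 / 3 * κ ≤ w + u) :
    r κ y₁ y₂ w u ≤ (7 / 4 + 2 * d) * (y₁ + y₂ + w + u - 4 / 3 * κ) + (2 + lam) * (4 / 3 * κ) := by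
  have e1 := R.supy κ y₁ y₂ w u hκ h1 h2 hw hu
  have e2 := g2 R (w := w) hκ le_rfl le_rfl hu hκ hκ huk (by linarith) (by linarith)
  have e3 : (0 : ℝ) + 0 + w + u - 4 / 3 * κ = w + u - 4 / 3 * κ := by ring
  rw [e3] at e2
  nlinarith [e1, e2]

/-- effective killer length of a side -/
noncomputable def vmax (y₁ y₂ u : ℝ) : ℝ := max (max y₁ y₂) u

theorem vmax_le {y₁ y₂ u k : ℝ} (h1 : y₁ ≤ k) (h2 : y₂ ≤ k) (h3 : u ≤ k) : vmax y₁ y₂ u ≤ k :=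
  max_le (max_le h1 h2) h3

theorem vmax_nonneg {y₁ y₂ u : ℝ} (h1 : 0 ≤ y₁) : 0 ≤ vmax y₁ y₂ u :=
  h1.trans ((le_max_left _ _).trans (le_max_left _ _))

theorem vmax_le_sum {y₁ y₂ u : ℝ} (h1 : 0 ≤ y₁) (h2 : 0 ≤ y₂) (h3 : 0 ≤ u) :
    vmax y₁ y₂ u ≤ y₁ + y₂ + u :=
  vmax_le (by linarith) (by linarith) (by linarith)

theorem vmax_lip {y₁ y₂ u a₁ a₂ u' : ℝ} (h1 : a₁ ≤ y₁) (h2 : a₂ ≤ y₂) (h3 : u' ≤ u) :
    vmax y₁ y₂ u ≤ vmax a₁ a₂ u' + ((y₁ + y₂ + u) - (a₁ + a₂ + u')) := by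
  have e1 : a₁ ≤ vmax a₁ a₂ u' := (le_max_left _ _).trans (le_max_left _ _)
  have e2 : a₂ ≤ vmax a₁ a₂ u' := (le_max_right _ _).trans (le_max_left _ _)
  have e3 : u' ≤ vmax a₁ a₂ u' := le_max_right _ _
  exact vmax_le (by linarith) (by linarith) (by linarith)

/-- inner estimate after Cauchy: `r k₂ G₂ ≤ (4 l₂ + k + k₂)/3 + 2 d (l₂ - c₀ v₂)` -/
theorem inner56 (R : Rules d lam r s) (hd : 0 ≤ d) {c₀ : ℝ} (hc0 : 0 ≤ c₀) (hc1 : c₀ ≤ 1)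
    (hlam : lam ≤ 2 * d * (1 - 3 / 4 * c₀)) {k k₂ c₁ c₂ w₂ u₂ : ℝ} (h1 : 0 ≤ c₁) (h2 : 0 ≤ c₂)
    (hw : 0 ≤ w₂) (hu : 0 ≤ u₂) (hk2 : 0 ≤ k₂) (hk21 : c₁ ≤ k₂) (hk22 : c₂ ≤ k₂) (hk2u : u₂ ≤ k₂)
    (hk2' : k₂ ≤ 2 * (c₁ + c₂ + w₂ + u₂) - k) (hl : 5 * (c₁ + c₂ + w₂ + u₂) ≤ 4 * k)
    (hor : u₂ = 0 ∨ c₁ + c₂ ≤ w₂) :
    r k₂ c₁ c₂ w₂ u₂ ≤ (4 * (c₁ + c₂ + w₂ + u₂) + k + k₂) / 3 +
      2 * d * (c₁ + c₂ + w₂ + u₂ - c₀ * vmax c₁ c₂ u₂) := by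
  set l₂ := c₁ + c₂ + w₂ + u₂ with hl2
  have hv : vmax c₁ c₂ u₂ ≤ k₂ := vmax_le hk21 hk22 hk2u
  have hv0 : 0 ≤ vmax c₁ c₂ u₂ := vmax_nonneg h1
  have h43 : 4 / 3 * k₂ ≤ l₂ := by linarith
  -- common arithmetic for the two granular cases
  have com : (7 / 4 + 2 * d) * (l₂ - 4 / 3 * k₂) + (2 + lam) * (4 / 3 * k₂) ≤
      (4 * l₂ + k + k₂) / 3 + 2 * d * (l₂ - c₀ * vmax c₁ c₂ u₂) := by
    have e1 : lam * (4 / 3 * k₂) ≤ 2 * d * (1 - 3 / 4 * c₀) * (4 / 3 * k₂) :=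
      mul_le_mul_of_nonneg_right hlam (by linarith)
    have e2 : 2 * d * c₀ * vmax c₁ c₂ u₂ ≤ 2 * d * c₀ * k₂ :=
      mul_le_mul_of_nonneg_left hv (by positivity)
    nlinarith [e1, e2]
  rcases le_or_gt (c₁ + c₂ + u₂) (4 / 3 * k₂) with hs | hs
  · exact (g2 R hk2 h1 h2 hu hk21 hk22 hk2u h43 hs).trans com
  · rcases hor with hu0 | hww
    · -- two-factor theorem and the pointwise bound
      subst hu0
      have d1 := R.sup k₂ c₁ c₂ w₂ 0 w₂ hk2 h1 h2 le_rfl hw le_rfl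
      rw [sub_self] at d1
      have d2 := R.tf k₂ c₁ c₂ h1 h2 hk21 hk22
      have hvs : vmax c₁ c₂ 0 ≤ c₁ + c₂ := by
        have := vmax_le_sum h1 h2 (le_refl (0 : ℝ)); linarith
      have d3 : c₀ * vmax c₁ c₂ 0 ≤ c₁ + c₂ := by nlinarith
      have d4 : 2 * d * w₂ ≤ 2 * d * (l₂ - c₀ * vmax c₁ c₂ 0) :=
        mul_le_mul_of_nonneg_left (by linarith) (by linarith)
      nlinarith [d1, d2, d4]
    · refine (g2' R hk2 h1 h2 hw hu hk2u ?_).trans com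
      linarith

/-- **sides of relative length `≤ 5/6`.**  `u = 0` (no killer) or `y₁+y₂+u` small. -/
theorem side56 (R : Rules d lam r s) (hd : 0 ≤ d) {c₀ : ℝ} (hc0 : 0 ≤ c₀) (hc1 : c₀ ≤ 1)
    (hlam : lam ≤ 2 * d * (1 - 3 / 4 * c₀)) {κ y₁ y₂ w u : ℝ} (hκ0 : 0 < κ) (h1 : 0 ≤ y₁)
    (h2 : 0 ≤ y₂) (hw : 0 ≤ w) (hu : 0 ≤ u) (hn : 6 * (y₁ + y₂ + w + u) ≤ 5 * κ)
    (hor : u = 0 ∨ 16 * (y₁ + y₂ + u) ≤ κ) {κ' : ℝ} (hκ' : 0 ≤ κ') (hκ : κ' ≤ κ) :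
    r κ' y₁ y₂ w u + (κ - κ') / 3 ≤
      κ + (y₁ + y₂ + w + u) +
        2 * d * max 0 (2 * (y₁ + y₂ + w + u) - κ - c₀ * vmax y₁ y₂ u) := by
  set n := y₁ + y₂ + w + u with hndef
  set L := 2 * d * max 0 (2 * n - κ - c₀ * vmax y₁ y₂ u) with hL
  have hL0 : 0 ≤ L := by positivity
  refine R.poisC κ y₁ y₂ w u (κ + n + L) hκ0.le h1 h2 hw hu (by linarith) ?_ κ' hκ' hκ
  intro a₁ a₂ w₁ u₁ j ha1 ha1' ha2 ha2' hw1 hw1' hu1 hu1' hj hj'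
  set n₁ := a₁ + a₂ + w₁ + u₁ with hn1
  have hn1n : n₁ ≤ n := by linarith
  have hlip := vmax_lip ha1' ha2' hu1'
  have hv1 : 0 ≤ vmax a₁ a₂ u₁ := vmax_nonneg ha1
  have hhalf : κ / 2 ≤ n₁ := by linarith
  -- loss of the shortened side
  have hL1 : 2 * d * (2 * n₁ - κ - c₀ * vmax a₁ a₂ u₁) ≤ L := by
    have e1 : 2 * n₁ - κ - c₀ * vmax a₁ a₂ u₁ ≤ 2 * n - κ - c₀ * vmax y₁ y₂ u := by
      have e2 : c₀ * vmax y₁ y₂ u ≤ c₀ * (vmax a₁ a₂ u₁ + ((y₁ + y₂ + u) - (a₁ + a₂ + u₁))) :=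
        mul_le_mul_of_nonneg_left hlip hc0
      have e3 : c₀ * ((y₁ + y₂ + u) - (a₁ + a₂ + u₁)) ≤ 1 * ((y₁ + y₂ + u) - (a₁ + a₂ + u₁)) :=
        mul_le_mul_of_nonneg_right hc1 (by linarith)
      nlinarith [e2, e3]
    exact mul_le_mul_of_nonneg_left (e1.trans (le_max_right _ _)) (by linarith)
  have key : s j a₁ a₂ w₁ u₁ ≤ (4 * n₁ + κ + j) / 3 + L := by
    rcases le_or_gt w₁ ((n₁ + κ - 2 * j) / 3) with hc | hc
    · have c1 := R.cau j a₁ a₂ w₁ u₁ w₁ hj ha1 ha2 hu1 hw1 le_rfl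
      rw [sub_self] at c1
      rcases hor with hu0 | hsm
      · have hu10 : u₁ = 0 := by linarith
        subst hu10
        have c2 : s (j + w₁) a₁ a₂ 0 0 ≤ (4 * n₁ + κ + j) / 3 - w₁ := by
          refine tfg R ha1 ha2 (by linarith) ?_ ?_
          · linarith
          · linarith
        linarith
      · -- no dual term
        have c2 : s (j + w₁) a₁ a₂ 0 u₁ + (j + w₁ - (j + w₁)) / 3 ≤
            j + w₁ + (a₁ + a₂ + 0 + u₁) := by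
          refine R.poisG (j + w₁) a₁ a₂ 0 u₁ _ (by linarith) ha1 ha2 le_rfl hu1 le_rfl ?_ (j + w₁)
            (by linarith) le_rfl
          intro c₁ c₂ w₂ u₂ k₂ hc1 hc1' hc2 hc2' hw2 hw2' hu2 hu2' hk2 _ _ _ hk2'
          exfalso
          linarith
        linarith
    · set x := (n₁ + κ - 2 * j) / 3 with hx
      have h3x : 3 * x = n₁ + κ - 2 * j := by rw [hx]; ring
      have hx0 : 0 ≤ x := by linarith
      have c1 := R.cau j a₁ a₂ w₁ u₁ x hj ha1 ha2 hu1 hx0 hc.le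
      set k := j + x with hk
      have hk0 : 0 ≤ k := by linarith
      have c2 : s k a₁ a₂ (w₁ - x) u₁ + (k - k) / 3 ≤ k + (n₁ - x) + L := by
        refine R.poisG k a₁ a₂ (w₁ - x) u₁ (k + (n₁ - x) + L) hk0 ha1 ha2 (by linarith) hu1
          (by linarith) ?_ k hk0 le_rfl
        intro c₁ c₂ w₂ u₂ k₂ hcc1 hc1' hc2 hc2' hw2 hw2' hu2 hu2' hk2 hk21 hk22 hk2u hk2'
        have hl2 : c₁ + c₂ + w₂ + u₂ ≤ n₁ - x := by linarith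
        have hin := inner56 R hd hc0 hc1 hlam (k := k) hcc1 hc2 hw2 hu2 hk2 hk21 hk22 hk2u hk2'
          (by linarith) (by
            rcases hor with hu0 | hsm
            · left; linarith
            · right; linarith)
        have hlip2 := vmax_lip hc1' hc2' hu2'
        have hloss : 2 * d * (c₁ + c₂ + w₂ + u₂ - c₀ * vmax c₁ c₂ u₂) ≤ L := by
          refine le_trans (mul_le_mul_of_nonneg_left ?_ (by linarith)) hL1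
          have e2 : c₀ * vmax a₁ a₂ u₁ ≤
              c₀ * (vmax c₁ c₂ u₂ + ((a₁ + a₂ + u₁) - (c₁ + c₂ + u₂))) :=
            mul_le_mul_of_nonneg_left hlip2 hc0
          have e3 : c₀ * ((a₁ + a₂ + u₁) - (c₁ + c₂ + u₂)) ≤
              1 * ((a₁ + a₂ + u₁) - (c₁ + c₂ + u₂)) :=
            mul_le_mul_of_nonneg_right hc1 (by linarith)
          nlinarith [e2, e3]
        linarith
      linarith
  linarith


/-- beyond `5/6`: pointwise bound on the surplus. -/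
theorem side56_ext (R : Rules d lam r s) (hd : 0 ≤ d) {c₀ : ℝ} (hc0 : 0 ≤ c₀) (hc1 : c₀ ≤ 1)
    (hlam : lam ≤ 2 * d * (1 - 3 / 4 * c₀)) {κ y₁ y₂ w u x : ℝ} (hκ0 : 0 < κ) (h1 : 0 ≤ y₁)
    (h2 : 0 ≤ y₂) (hu : 0 ≤ u) (hx0 : 0 ≤ x) (hx : x ≤ w)
    (hn : 6 * (y₁ + y₂ + w + u - x) ≤ 5 * κ)
    (hor : u = 0 ∨ 16 * (y₁ + y₂ + u) ≤ κ) {κ' : ℝ} (hκ' : 0 ≤ κ') (hκ : κ' ≤ κ) :
    r κ' y₁ y₂ w u + (κ - κ') / 3 ≤
      κ + (y₁ + y₂ + w + u) + (3 / 4 + 2 * d) * x +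
        2 * d * max 0 (2 * (y₁ + y₂ + w + u - x) - κ - c₀ * vmax y₁ y₂ u) := by
  have e1 := R.sup κ' y₁ y₂ w u x hκ' h1 h2 hu hx0 hx
  have e0 : y₁ + y₂ + (w - x) + u = y₁ + y₂ + w + u - x := by ring
  have e2 := side56 R hd hc0 hc1 hlam hκ0 h1 h2 (by linarith : 0 ≤ w - x) hu
    (by rw [e0]; exact hn) hor hκ' hκ
  rw [e0] at e2
  linarith

end Crest.Agent.R017.Side83
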