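import Mathlib

/-!
# Simplicial certificates : cones over integer vertices (helper90)

`Mem Ps x` : the homogeneous real vector `x : ℕ → ℝ` is a non-negative combination of the integer
vectors `Ps`.
-/

set_option autoImplicit false

namespace Crest.Agent.R017.SX90

open Finset

/-- dot product of multiplicities and an integer vector -/
def dotN : List ℕ → List ℤ → ℤ
  | a :: as, b :: bs => (a : ℤ) * b + dotN as bs
  | _, _ => 0

/-- dot product of integer vectors -/
def dotZ : List ℤ → List ℤ → ℤ
  | a :: as, b :: bs => a * b + dotZ as bs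
  | _, _ => 0

theorem dotN_eq (F : List ℕ) (P : List ℤ) :
    ((dotN F P : ℤ) : ℝ) = ∑ a ∈ range F.length, (F.getD a 0 : ℝ) * ((P.getD a 0 : ℤ) : ℝ) := by
  induction F generalizing P with
  | nil => simp [dotN]
  | cons a as ih =>
    cases P with
    | nil =>
      simp [dotN]
    | cons b bs =>
      simp only [dotN, List.length_cons, Finset.sum_range_succ', List.getD_cons_succ,
        List.getD_cons_zero, Int.cast_add, Int.cast_mul, Int.cast_natCast, ih bs]
      ring

theorem dotZ_eq (F : List ℤ) (P : List ℤ) :
    ((dotZ F P : ℤ) : ℝ)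
      = ∑ a ∈ range F.length, ((F.getD a 0 : ℤ) : ℝ) * ((P.getD a 0 : ℤ) : ℝ) := by
  induction F generalizing P with
  | nil => simp [dotZ]
  | cons a as ih =>
    cases P with
    | nil =>
      simp [dotZ]
    | cons b bs =>
      simp only [dotZ, List.length_cons, Finset.sum_range_succ', List.getD_cons_succ,
        List.getD_cons_zero, Int.cast_add, Int.cast_mul, ih bs]
      ring

/-- entry of an integer vector, as a real number -/
noncomputable def en (P : List ℤ) (a : ℕ) : ℝ := ((P.getD a 0 : ℤ) : ℝ)

/-- real cone membership -/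
def Mem (Ps : List (List ℤ)) (x : ℕ → ℝ) : Prop :=
  ∃ c : ℕ → ℝ, (∀ i, 0 ≤ c i) ∧ ∀ a, x a = ∑ i ∈ range Ps.length, c i * en (Ps.getD i []) a

theorem Mem.nil {x : ℕ → ℝ} (h : Mem [] x) (a : ℕ) : x a = 0 := by
  obtain ⟨c, -, h⟩ := h
  simpa using h a

theorem mem_cons {P : List ℤ} {Ps : List (List ℤ)} {x : ℕ → ℝ} :
    Mem (P :: Ps) x ↔ ∃ t : ℝ, 0 ≤ t ∧ Mem Ps (fun a => x a - t * en P a) := by
  constructor
  · rintro ⟨c, hc, h⟩
    refine ⟨c 0, hc 0, fun i => c (i + 1), fun i => hc _, fun a => ?_⟩
    have := h a
    simp only [List.length_cons, Finset.sum_range_succ', List.getD_cons_succ,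
      List.getD_cons_zero] at this
    show x a - c 0 * en P a = _
    rw [this]; ring
  · rintro ⟨t, ht, c, hc, h⟩
    refine ⟨fun i => match i with | 0 => t | i + 1 => c i, fun i => ?_, fun a => ?_⟩
    · cases i with
      | zero => exact ht
      | succ i => exact hc i
    · have := h a
      simp only [List.length_cons, Finset.sum_range_succ', List.getD_cons_succ,
        List.getD_cons_zero]
      linarith

theorem Mem.congr {Ps : List (List ℤ)} {x y : ℕ → ℝ} (h : Mem Ps x) (e : ∀ a, x a = y a) :
    Mem Ps y := by
  have : x = y := funext e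
  exact this ▸ h

/-- sum of integer vectors -/
def addL : List ℤ → List ℤ → List ℤ
  | [], Q => Q
  | p :: P, [] => p :: P
  | p :: P, q :: Q => (p + q) :: addL P Q

/-- integer combination `a P + b Q` -/
def comb (a b : ℕ) (P Q : List ℤ) : List ℤ :=
  addL (P.map fun z => (a : ℤ) * z) (Q.map fun z => (b : ℤ) * z)

theorem en_addL (P Q : List ℤ) (j : ℕ) : en (addL P Q) j = en P j + en Q j := by
  unfold en
  induction P generalizing Q j with
  | nil => simp [addL]
  | cons p P ih =>
    cases Q with
    | nil => simp [addL]
    | cons q Q =>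
      cases j with
      | zero => simp [addL]
      | succ j => simpa [addL] using ih Q j

theorem en_map (a : ℕ) (P : List ℤ) (j : ℕ) :
    en (P.map fun z => (a : ℤ) * z) j = a * en P j := by
  unfold en
  simp only [List.getD_eq_getElem?_getD, List.getElem?_map]
  cases P[j]? <;> simp

theorem en_comb (a b : ℕ) (P Q : List ℤ) (j : ℕ) :
    en (comb a b P Q) j = a * en P j + b * en Q j := by
  unfold comb
  rw [en_addL, en_map, en_map]

theorem getD_set (Ps : List (List ℤ)) (i l : ℕ) (Q : List ℤ) (hi : i < Ps.length) :
    (Ps.set i Q).getD l [] = if l = i then Q else Ps.getD l [] := by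
  by_cases h : l = i
  · subst h; simp [List.getD_eq_getElem?_getD, hi]
  · simp [List.getD_eq_getElem?_getD, h, Ne.symm h]

/-- one bisection step -/
theorem mem_split {Ps : List (List ℤ)} {x : ℕ → ℝ} {i j a b : ℕ} (hi : i < Ps.length)
    (hj : j < Ps.length) (hij : i ≠ j) (ha : 0 < a) (hb : 0 < b) (h : Mem Ps x) :
    Mem (Ps.set i (comb a b (Ps.getD i []) (Ps.getD j []))) x ∨
      Mem (Ps.set j (comb a b (Ps.getD i []) (Ps.getD j []))) x := by
  obtain ⟨c, hc, h⟩ := h
  have ha' : (0 : ℝ) < a := by exact_mod_cast ha
  have hb' : (0 : ℝ) < b := by exact_mod_cast hb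
  set Q := comb a b (Ps.getD i []) (Ps.getD j []) with hQ
  have key : ∀ (g : ℕ → ℝ), ∑ l ∈ range Ps.length, g l
      = g i + g j + ∑ l ∈ ((range Ps.length).erase i).erase j, g l := by
    intro g
    rw [← Finset.add_sum_erase (range Ps.length) g (Finset.mem_range.2 hi),
      ← Finset.add_sum_erase ((range Ps.length).erase i) g
        (Finset.mem_erase.2 ⟨Ne.symm hij, Finset.mem_range.2 hj⟩), add_assoc]
  by_cases hcase : c i * b ≤ c j * a
  · left
    refine ⟨fun l => if l = i then c i / a else if l = j then c j - b * (c i / a) else c l,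
      fun l => ?_, fun t => ?_⟩
    · dsimp only
      split_ifs
      · exact div_nonneg (hc i) ha'.le
      · have : b * (c i / a) ≤ c j := by
          rw [mul_div_assoc', div_le_iff₀ ha']; linarith
        linarith
      · exact hc l
    · rw [h t, List.length_set, key, key]
      have e1 : ∀ l ∈ ((range Ps.length).erase i).erase j,
          (if l = i then c i / (a : ℝ) else if l = j then c j - b * (c i / a) else c l)
            * en ((Ps.set i Q).getD l []) t = c l * en (Ps.getD l []) t := by
        intro l hl
        have h1 : l ≠ j := (Finset.mem_erase.1 hl).1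
        have h2 : l ≠ i := (Finset.mem_erase.1 (Finset.mem_erase.1 hl).2).1
        rw [getD_set _ _ _ _ hi]
        simp [h1, h2]
      rw [Finset.sum_congr rfl e1]
      rw [getD_set _ _ _ _ hi, getD_set _ _ _ _ hi]
      simp only [if_true, if_neg (Ne.symm hij)]
      rw [hQ, en_comb]
      field_simp
      ring
  · right
    push Not at hcase
    refine ⟨fun l => if l = j then c j / b else if l = i then c i - a * (c j / b) else c l,
      fun l => ?_, fun t => ?_⟩
    · dsimp only
      split_ifs
      · exact div_nonneg (hc j) hb'.le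
      · have : a * (c j / b) ≤ c i := by
          rw [mul_div_assoc', div_le_iff₀ hb']; linarith
        linarith
      · exact hc l
    · rw [h t, List.length_set, key, key]
      have e1 : ∀ l ∈ ((range Ps.length).erase i).erase j,
          (if l = j then c j / (b : ℝ) else if l = i then c i - a * (c j / b) else c l)
            * en ((Ps.set j Q).getD l []) t = c l * en (Ps.getD l []) t := by
        intro l hl
        have h1 : l ≠ j := (Finset.mem_erase.1 hl).1
        have h2 : l ≠ i := (Finset.mem_erase.1 (Finset.mem_erase.1 hl).2).1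
        rw [getD_set _ _ _ _ hj]
        simp [h1, h2]
      rw [Finset.sum_congr rfl e1]
      rw [getD_set _ _ _ _ hj, getD_set _ _ _ _ hj]
      simp only [if_true, if_neg hij]
      rw [hQ, en_comb]
      field_simp
      ring

/-- value of an integer form at a real homogeneous vector -/
noncomputable def phi (f : List ℤ) (x : ℕ → ℝ) : ℝ :=
  ∑ a ∈ range f.length, ((f.getD a 0 : ℤ) : ℝ) * x a

theorem phi_sum (f : List ℤ) (Ps : List (List ℤ)) (c : ℕ → ℝ) (x : ℕ → ℝ)
    (h : ∀ a, x a = ∑ i ∈ range Ps.length, c i * en (Ps.getD i []) a) :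
    phi f x = ∑ i ∈ range Ps.length, c i * ((dotZ f (Ps.getD i []) : ℤ) : ℝ) := by
  unfold phi
  simp only [dotZ_eq, h, Finset.mul_sum]
  rw [Finset.sum_comm]
  refine Finset.sum_congr rfl fun i _ => Finset.sum_congr rfl fun a _ => ?_
  unfold en
  ring

/-- dropping the vertices on the wrong side of a root form -/
theorem mem_drop {Ps : List (List ℤ)} {x : ℕ → ℝ} (f : List ℤ) (hx : 0 ≤ phi f x)
    (hf : ∀ P ∈ Ps, dotZ f P ≤ 0) (h : Mem Ps x) :
    Mem (Ps.filter fun P => dotZ f P == 0) x := by
  induction Ps generalizing x with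
  | nil => simpa using h
  | cons P Ps ih =>
    -- all coefficients of vertices with negative value vanish
    obtain ⟨c, hc, h⟩ := h
    have hs := phi_sum f (P :: Ps) c x h
    have hle : ∀ i ∈ range (P :: Ps).length,
        c i * ((dotZ f ((P :: Ps).getD i []) : ℤ) : ℝ) ≤ 0 := by
      intro i hi
      have hi' : i < (P :: Ps).length := Finset.mem_range.1 hi
      have hm : (P :: Ps).getD i [] ∈ P :: Ps := by
        rw [List.getD_eq_getElem _ _ hi']; exact List.getElem_mem hi'
      have := hf _ hm
      exact mul_nonpos_of_nonneg_of_nonpos (hc i) (by exact_mod_cast this)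
    have hz : ∀ i ∈ range (P :: Ps).length,
        c i * ((dotZ f ((P :: Ps).getD i []) : ℤ) : ℝ) = 0 := by
      have h0 : ∑ i ∈ range (P :: Ps).length,
          c i * ((dotZ f ((P :: Ps).getD i []) : ℤ) : ℝ) = 0 :=
        le_antisymm (Finset.sum_nonpos hle) (hs ▸ hx)
      exact (Finset.sum_eq_zero_iff_of_nonpos hle).1 h0
    -- recursion
    have hrec : Mem (Ps.filter fun P => dotZ f P == 0) (fun a => x a - c 0 * en P a) := by
      apply ih
      · -- phi of the rest is zero
        have h1 : ∀ a, (fun a => x a - c 0 * en P a) a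
            = ∑ i ∈ range Ps.length, c (i + 1) * en (Ps.getD i []) a := by
          intro a
          have := h a
          simp only [List.length_cons, Finset.sum_range_succ', List.getD_cons_succ,
            List.getD_cons_zero] at this
          simp only [this]; ring
        rw [phi_sum f Ps (fun i => c (i + 1)) _ h1]
        refine le_of_eq (Finset.sum_eq_zero fun i hi => ?_).symm
        have := hz (i + 1) (by
          have := Finset.mem_range.1 hi
          simp only [List.length_cons, Finset.mem_range]; omega)
        simpa using this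
      · exact fun Q hQ => hf Q (List.mem_cons_of_mem _ hQ)
      · refine ⟨fun i => c (i + 1), fun i => hc _, fun a => ?_⟩
        have := h a
        simp only [List.length_cons, Finset.sum_range_succ', List.getD_cons_succ,
          List.getD_cons_zero] at this
        simp only [this]; ring
    by_cases hP : dotZ f P = 0
    · have e : (P :: Ps).filter (fun P => dotZ f P == 0)
          = P :: Ps.filter (fun P => dotZ f P == 0) := by
        simp [hP]
      rw [e]
      exact mem_cons.2 ⟨c 0, hc 0, hrec⟩
    · have e : (P :: Ps).filter (fun P => dotZ f P == 0)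
          = Ps.filter (fun P => dotZ f P == 0) := by
        simp [hP]
      rw [e]
      have h0 := hz 0 (by simp)
      have hc0 : c 0 = 0 := by
        rcases mul_eq_zero.1 h0 with h | h
        · exact h
        · exfalso; apply hP; simpa using h
      refine hrec.congr fun a => ?_
      rw [hc0]; ring

/-! ## the prism over a base simplex -/

/-- lift of a base vertex to the height `n / d` -/
def lift (d n : ℕ) (Q : List ℤ) : List ℤ := Q.map (fun z => (d : ℤ) * z) ++ [(n : ℤ) * Q.getD 0 0]

theorem en_lift (d n m : ℕ) (Q : List ℤ) (hQ : Q.length = m) (a : ℕ) :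
    en (lift d n Q) a = if a < m then d * en Q a else if a = m then n * en Q 0 else 0 := by
  unfold en lift
  rcases lt_trichotomy a m with h | h | h
  · rw [if_pos h, List.getD_append _ _ _ _ (by simpa [hQ] using h)]
    simp [List.getD_eq_getElem?_getD, List.getElem?_map]
    cases hq : Q[a]? with
    | none => simp
    | some z => simp
  · subst h
    rw [if_neg (lt_irrefl _), if_pos rfl, List.getD_append_right _ _ _ _ (by simp [hQ])]
    simp [hQ]
  · rw [if_neg (by omega), if_neg (by omega)]
    rw [List.getD_eq_default]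
    · simp
    · simp [hQ]; omega

/-- the simplices of the staircase triangulation of the prism -/
def prism (d n₀ n₁ : ℕ) : List (List ℤ) → List (List (List ℤ))
  | [] => []
  | Q :: Qs => (lift d n₀ Q :: lift d n₁ Q :: Qs.map (lift d n₁)) ::
      (prism d n₀ n₁ Qs).map (fun S => lift d n₀ Q :: S)

/-- the point over `y` with upper mass `r` -/
noncomputable def overP (d n₀ n₁ m : ℕ) (y : ℕ → ℝ) (r : ℝ) : ℕ → ℝ := fun a =>
  if a < m then y a else if a = m then (n₀ * y 0 + ((n₁ : ℝ) - n₀) * r) / d else 0

theorem mem_top {d n₀ n₁ m : ℕ} (hd : 0 < d) {Qs : List (List ℤ)} (hQ : ∀ Q ∈ Qs, Q.length = m)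
    {y : ℕ → ℝ} (h : Mem Qs y) : Mem (Qs.map (lift d n₁)) (overP d n₀ n₁ m y (y 0)) := by
  have hd' : (d : ℝ) ≠ 0 := by positivity
  induction Qs generalizing y with
  | nil =>
    refine ⟨fun _ => 0, fun _ => le_rfl, fun a => ?_⟩
    have := h.nil
    simp [overP, this]
  | cons Q Qs ih =>
    obtain ⟨t, ht, h'⟩ := mem_cons.1 h
    rw [List.map_cons]
    refine mem_cons.2 ⟨t / d, by positivity, ?_⟩
    refine (ih (fun Q' hQ' => hQ Q' (List.mem_cons_of_mem _ hQ')) h').congr fun a => ?_
    rw [en_lift d n₁ m Q (hQ Q (by simp))]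
    unfold overP
    split_ifs with h1 h2
    · field_simp
    · field_simp; ring
    · simp

theorem mem_prism {d n₀ n₁ m : ℕ} (hd : 0 < d) {Qs : List (List ℤ)}
    (hQ : ∀ Q ∈ Qs, Q.length = m) (hp : ∀ Q ∈ Qs, 0 < Q.getD 0 0) (hne : Qs ≠ [])
    {y : ℕ → ℝ} (h : Mem Qs y) {r : ℝ} (hr : 0 ≤ r) (hr1 : r ≤ y 0) :
    ∃ S ∈ prism d n₀ n₁ Qs, Mem S (overP d n₀ n₁ m y r) := by
  have hd' : (d : ℝ) ≠ 0 := by positivity
  induction Qs generalizing y with
  | nil => exact absurd rfl hne
  | cons Q Qs ih =>
    obtain ⟨t, ht, h'⟩ := mem_cons.1 h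
    set y' : ℕ → ℝ := fun a => y a - t * en Q a with hy'
    have hΔ : 0 < en Q 0 := by
      have := hp Q (by simp)
      unfold en; exact_mod_cast this
    have hy0 : y' 0 = y 0 - t * en Q 0 := rfl
    have hnn : 0 ≤ y' 0 := by
      obtain ⟨c, hc, hh⟩ := h'
      rw [hh 0]
      refine Finset.sum_nonneg fun i hi => mul_nonneg (hc i) ?_
      have hi' : i < Qs.length := Finset.mem_range.1 hi
      have hm : Qs.getD i [] ∈ Qs := by
        rw [List.getD_eq_getElem _ _ hi']; exact List.getElem_mem hi'
      have := hp _ (List.mem_cons_of_mem _ hm)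
      unfold en; exact_mod_cast this.le
    by_cases hcase : r ≤ y' 0 ∧ Qs ≠ []
    · obtain ⟨S, hS, hM⟩ := ih (fun Q' hQ' => hQ Q' (List.mem_cons_of_mem _ hQ'))
        (fun Q' hQ' => hp Q' (List.mem_cons_of_mem _ hQ')) hcase.2 h' hcase.1
      refine ⟨lift d n₀ Q :: S, ?_, ?_⟩
      · simp only [prism, List.mem_cons, List.mem_map]
        exact Or.inr ⟨S, hS, rfl⟩
      · refine mem_cons.2 ⟨t / d, by positivity, hM.congr fun a => ?_⟩
        rw [en_lift d n₀ m Q (hQ Q (by simp))]
        unfold overP
        split_ifs with h1 h2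
        · simp only [hy']; field_simp
        · rw [hy0]; field_simp; ring
        · simp
    · -- the mixed vertex is `Q`
      have hr0 : y' 0 ≤ r := by
        by_contra hlt
        push Not at hlt
        apply hcase
        refine ⟨hlt.le, fun hemp => ?_⟩
        subst hemp
        have := h'.nil 0
        rw [this] at hlt
        linarith
      refine ⟨lift d n₀ Q :: lift d n₁ Q :: Qs.map (lift d n₁),
        by rw [prism]; exact List.mem_cons_self, ?_⟩
      set e : ℝ := (r - y' 0) / (d * en Q 0) with he
      have he0 : 0 ≤ e := div_nonneg (by linarith) (by positivity)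
      have het : e ≤ t / d := by
        rw [he, div_le_div_iff₀ (by positivity) (by positivity)]
        have : r - y' 0 ≤ t * en Q 0 := by rw [hy0]; linarith
        have hd0 : (0 : ℝ) < d := by positivity
        nlinarith
      refine mem_cons.2 ⟨t / d - e, by linarith, mem_cons.2 ⟨e, he0, ?_⟩⟩
      refine (mem_top (n₀ := n₀) hd
        (fun Q' hQ' => hQ Q' (List.mem_cons_of_mem _ hQ')) h').congr fun a => ?_
      rw [en_lift d n₀ m Q (hQ Q (by simp)), en_lift d n₁ m Q (hQ Q (by simp))]
      have he' : e * (d * en Q 0) = r - y' 0 := by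
        rw [he]; field_simp
      unfold overP
      split_ifs with h1 h2
      · simp only [hy']; field_simp; ring
      · have : (r : ℝ) = e * (d * en Q 0) + y' 0 := by linarith
        rw [this, hy0]; field_simp; ring
      · simp

/-- base simplex from a dual basis -/
theorem mem_base {m : ℕ} {L : ℕ} (hL : 0 < L) (B : List (List ℤ × List ℤ × ℕ))
    (hlen : ∀ b ∈ B, b.1.length = m ∧ b.2.1.length = m)
    (hd : ∀ a < m, ∀ b < m,
      (B.map fun q => (q.2.2 : ℤ) * q.1.getD a 0 * q.2.1.getD b 0).sum
        = if a = b then (L : ℤ) else 0)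
    {y : ℕ → ℝ} (hy : ∀ a, m ≤ a → y a = 0) (hf : ∀ b ∈ B, 0 ≤ phi b.2.1 y) :
    Mem (B.map (·.1)) y := by
  have hL' : (L : ℝ) ≠ 0 := by positivity
  refine ⟨fun i => (((B.getD i ([], [], 0)).2.2 : ℕ) : ℝ) * phi (B.getD i ([], [], 0)).2.1 y / L,
    fun i => ?_, fun a => ?_⟩
  · show 0 ≤ (((B.getD i ([], [], 0)).2.2 : ℕ) : ℝ) * phi (B.getD i ([], [], 0)).2.1 y / L
    by_cases hi : i < B.length
    · have hm : B.getD i ([], [], 0) ∈ B := by
        rw [List.getD_eq_getElem _ _ hi]; exact List.getElem_mem hi
      have := hf _ hm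
      positivity
    · rw [List.getD_eq_default _ _ (by omega)]; simp
  · rw [List.length_map]
    have hg : ∀ i, (B.map (·.1)).getD i [] = (B.getD i ([], [], 0)).1 := by
      intro i
      simp only [List.getD_eq_getElem?_getD, List.getElem?_map]
      cases B[i]? <;> simp
    simp only [hg]
    by_cases ha : a < m
    · -- expand phi
      have e1 : ∀ i ∈ range B.length, phi (B.getD i ([], [], 0)).2.1 y
          = ∑ b ∈ range m, en (B.getD i ([], [], 0)).2.1 b * y b := by
        intro i hi
        have hi' := Finset.mem_range.1 hi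
        have hm : B.getD i ([], [], 0) ∈ B := by
          rw [List.getD_eq_getElem _ _ hi']; exact List.getElem_mem hi'
        unfold phi en
        rw [(hlen _ hm).2]
      have e2 : ∀ b < m, ∑ i ∈ range B.length,
          (((B.getD i ([], [], 0)).2.2 : ℕ) : ℝ) * en (B.getD i ([], [], 0)).1 a
            * en (B.getD i ([], [], 0)).2.1 b = if a = b then (L : ℝ) else 0 := by
        intro b hb
        have h1 := hd a ha b hb
        have h2 : ((B.map fun q => (q.2.2 : ℤ) * q.1.getD a 0 * q.2.1.getD b 0).sum : ℤ)
            = ∑ i ∈ range B.length, (((B.getD i ([], [], 0)).2.2 : ℕ) : ℤ)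
              * (B.getD i ([], [], 0)).1.getD a 0 * (B.getD i ([], [], 0)).2.1.getD b 0 := by
          clear h1 hd hlen hf e1 hg
          induction B with
          | nil => simp
          | cons q B ihB =>
            rw [List.map_cons, List.sum_cons, ihB, List.length_cons, Finset.sum_range_succ']
            simp only [List.getD_cons_succ, List.getD_cons_zero]
            ring
        rw [h2] at h1
        have h3 := congrArg (fun z : ℤ => (z : ℝ)) h1
        simp only [Int.cast_sum, Int.cast_mul, Int.cast_natCast] at h3
        unfold en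
        rw [h3]
        split_ifs <;> simp
      calc y a = (1 / L) * ∑ b ∈ range m, (if a = b then (L : ℝ) else 0) * y b := by
            simp [Finset.sum_ite_eq, ha, hL']
        _ = (1 / L) * ∑ b ∈ range m, (∑ i ∈ range B.length,
              (((B.getD i ([], [], 0)).2.2 : ℕ) : ℝ) * en (B.getD i ([], [], 0)).1 a
                * en (B.getD i ([], [], 0)).2.1 b) * y b := by
            congr 1
            refine Finset.sum_congr rfl fun b hb => ?_
            rw [e2 b (Finset.mem_range.1 hb)]
        _ = ∑ i ∈ range B.length, (((B.getD i ([], [], 0)).2.2 : ℕ) : ℝ)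
              * phi (B.getD i ([], [], 0)).2.1 y / L * en (B.getD i ([], [], 0)).1 a := by
            rw [Finset.mul_sum]
            simp only [Finset.sum_mul, Finset.mul_sum]
            rw [Finset.sum_comm]
            refine Finset.sum_congr rfl fun i hi => ?_
            rw [e1 i hi, Finset.mul_sum, Finset.sum_div, Finset.sum_mul]
            refine Finset.sum_congr rfl fun b _ => ?_
            ring
    · rw [hy a (by omega)]
      refine (Finset.sum_eq_zero fun i hi => ?_).symm
      have hi' := Finset.mem_range.1 hi
      have hm : B.getD i ([], [], 0) ∈ B := by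
        rw [List.getD_eq_getElem _ _ hi']; exact List.getElem_mem hi'
      have : en (B.getD i ([], [], 0)).1 a = 0 := by
        unfold en
        rw [List.getD_eq_default _ _ (by rw [(hlen _ hm).1]; omega)]; simp
      rw [this, mul_zero]

end Crest.Agent.R017.SX90
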