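import Crest.Agent.R017.SimplexA_90
import Crest.Agent.R017.SimplexB_90

/-!
# Coverage : the kinds of columns of the simplicial certificates (helper90)
-/

set_option autoImplicit false

namespace Crest.Agent.R017.SX90

open Finset Cov499

/-- integer row on `(1, s, z, x)` -/
structure Row where
  r0 : ℤ
  r1 : ℤ
  r2 : ℤ
  r3 : ℤ

/-- value at integer atoms -/
def Row.val (r : Row) (o s z x : ℤ) : ℤ := r.r0 * o + r.r1 * s + r.r2 * z + r.r3 * x

/-- value at real atoms -/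
noncomputable def Row.rv (r : Row) (o s z x : ℝ) : ℝ := r.r0 * o + r.r1 * s + r.r2 * z + r.r3 * x

theorem Row.rv_cast (r : Row) (o s z x : ℤ) :
    r.rv (o : ℝ) (s : ℝ) (z : ℝ) (x : ℝ) = ((r.val o s z x : ℤ) : ℝ) := by
  unfold Row.rv Row.val; push_cast; ring

/-- side conditions of a kind of columns -/
def consOf : ℕ → List Row
  | 0 => [⟨-1, 4, 0, 0⟩, ⟨2, -2, -5, 0⟩]
  | 1 => [⟨2, -2, -5, 0⟩]
  | 2 => [⟨-1, 5, 0, 0⟩, ⟨497, 0, 0, -3000⟩]
  | 3 => [⟨1, -1, -2, 0⟩]
  | 4 => [⟨44, -58, -79, 0⟩, ⟨15, -22, -22, 0⟩]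
  | 5 => [⟨-1, 4, 0, 0⟩, ⟨16, -27, -27, 0⟩, ⟨1, 0, 0, -6⟩]
  | 6 => [⟨2, -2, -5, 0⟩]
  | 7 => [⟨-1, 5, 0, 0⟩, ⟨497, 0, 0, -3000⟩]
  | 8 => [⟨-1, 4, 0, 0⟩, ⟨16, -27, -27, 0⟩, ⟨1, 0, 0, -6⟩]
  | 9 => [⟨-1, 4, 0, 0⟩, ⟨3, -5, -5, 0⟩, ⟨3, 0, 0, -20⟩]
  | 10 => [⟨-1, 4, 0, 0⟩, ⟨16, -27, -27, 0⟩, ⟨1, 0, 0, -6⟩]
  | 11 => [⟨-1, 4, 0, 0⟩, ⟨3, -5, -5, 0⟩, ⟨3, 0, 0, -20⟩]
  | 12 => [⟨-1, 4, 0, 0⟩, ⟨16, -27, -27, 0⟩, ⟨1, 0, 0, -6⟩]
  | 13 => [⟨0, 1, -1, 0⟩, ⟨0, 0, 1, -1⟩, ⟨-48, 10, 5, 228⟩, ⟨-308, 236, 218, 1029⟩,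
      ⟨24, -38, -19, -52⟩, ⟨21, -17, -16, -63⟩]
  | _ => [⟨-1, 0, 0, 0⟩]

/-- caps of the total length in units `1/599760` -/
def capsOf : ℕ → List Row
  | 0 => [⟨599760, 0, 0, -599760⟩, ⟨599760, 0, -449820, 0⟩, ⟨466480, 133280, 0, 0⟩]
  | 1 => [⟨599760, 0, 0, -599760⟩, ⟨599760, 0, -449820, 0⟩, ⟨466480, 133280, 0, 0⟩,
      ⟨399840, 399840, 0, 0⟩]
  | 2 => [⟨499800, 0, 0, 0⟩]
  | 3 => [⟨440640, 110160, 0, 0⟩, ⟨547281, 0, -224910, 0⟩, ⟨516460, 0, -99960, 0⟩,
      ⟨458640, 70560, 0, 0⟩, ⟨519792, 0, -119952, 0⟩, ⟨494802, 0, 0, 0⟩]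
  | 4 => [⟨299880, 299880, 299880, 0⟩, ⟨399840, 199920, 49980, 0⟩]
  | 5 => [⟨499800, 0, 0, 0⟩]
  | 6 => [⟨599760, 0, 0, -599760⟩, ⟨599760, 0, -449820, 0⟩, ⟨466480, 133280, 0, 0⟩,
      ⟨399840, 399840, 149940, 0⟩]
  | 7 => [⟨499800, 0, 0, 0⟩]
  | 8 => [⟨499800, 0, 0, 0⟩]
  | 9 => [⟨499800, 0, 0, 0⟩]
  | 10 => [⟨499800, 0, 0, 0⟩]
  | 11 => [⟨499800, 0, 0, 0⟩]
  | 12 => [⟨499800, 0, 0, 0⟩]
  | 13 => [⟨719712, -39984, -19992, -959616⟩]
  | _ => []

/-- a column of a certificate -/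
structure Cl where
  kind : ℕ
  F : List ℕ
  Z : List ℕ
  X : List ℕ

/-- the chunks of this kind of columns may be trimmed -/
def isC0 (kind : ℕ) : Bool := kind < 6 || kind == 9 || kind == 10 || kind == 13

/-- kinds in which every lump of `F` and `Z` must be at most `4/25` -/
def isSm (kind : ℕ) : Bool := kind == 9 || kind == 11

/-- number of chunks -/
def Cl.t (k : ℕ) (c : Cl) : ℕ := c.F.getD k 0 + c.Z.getD k 0 + c.X.getD k 0

/-- chunks which remain after trimming -/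
def Cl.t0 (k : ℕ) (c : Cl) : ℕ := if isC0 c.kind then 0 else c.t k

/-- multiplicity of the lump `j` -/
def Cl.n (c : Cl) (j : ℕ) : ℕ := c.F.getD j 0 + c.Z.getD j 0 + c.X.getD j 0

/-- shape of the multiplicity vectors -/
def Cl.shape (k : ℕ) (c : Cl) : Bool :=
  (c.F.length == k + 1) && (c.Z.length == k + 1) && (c.X.length == k + 1) &&
  match c.kind with
  | 0 => c.F.sum == 2 && c.F.getD k 0 == 0
  | 1 => c.F.sum == 1 && c.F.getD k 0 == 0
  | 2 => c.F.sum == 2 && c.F.getD k 0 == 0 && c.Z.sum == 0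
  | 3 => c.F.sum == 2 && c.F.getD k 0 == 0 && c.Z.sum == 1 && c.Z.getD k 0 == 0 && c.X.sum == 0
  | 4 => c.F.sum == 2 && c.F.getD k 0 == 0 && c.Z.sum == 1 && c.Z.getD k 0 == 0 && c.X.sum == 0
  | 5 => c.F.sum == 2 && c.F.getD k 0 == 0 && c.Z.sum == 2 && c.Z.getD k 0 == 0 &&
      c.X.sum == 1 && c.X.getD k 0 == 0
  | 6 => c.F.sum == 2 && c.F.getD k 0 == 1
  | 7 => c.F.sum == 2 && c.F.getD k 0 == 1 && c.Z.sum == 0
  | 8 => c.F.sum == 2 && c.Z.sum == 2 && c.X.sum == 1
  | 9 => c.F.sum == 2 && c.F.getD k 0 == 0 && c.Z.sum == 2 && c.Z.getD k 0 == 0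
  | 10 => c.F.sum == 2 && c.F.getD k 0 == 0 && c.Z.sum == 2 && c.Z.getD k 0 == 0
  | 11 => c.F.sum == 2 && c.Z.sum == 2
  | 12 => c.F.sum == 2 && c.Z.sum == 2
  | 13 => c.F.sum == 1 && c.F.getD k 0 == 0 && c.Z.sum == 1 && c.Z.getD k 0 == 0 &&
      c.X.sum == 1 && c.X.getD k 0 == 0
  | _ => false

/-- real validity of a column -/
def ROK (kind : ℕ) (s z x N : ℝ) : Prop :=
  (∀ r ∈ consOf kind, 0 ≤ r.rv 1 s z x) ∧ (∀ r ∈ capsOf kind, 599760 * N ≤ r.rv 1 s z x) ∧
    s + z + x ≤ N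

/-- the lumps of `F` and `Z` are small (only for the kinds `9`, `11`) -/
def SOK {k : ℕ} (u : Fin k → ℝ) (v : ℝ) (c : Cl) : Prop :=
  isSm c.kind = true → (∀ j : Fin k, c.F.getD j 0 + c.Z.getD j 0 ≠ 0 → 25 * u j ≤ 4) ∧
    (c.F.getD k 0 + c.Z.getD k 0 ≠ 0 → 25 * v ≤ 4)

/-- big part of a multiplicity vector -/
def big (k : ℕ) (F : List ℕ) : Fin k → ℕ := fun j => F.getD j 0

theorem list_sum_eq (F : List ℕ) : F.sum = ∑ a ∈ range F.length, F.getD a 0 := by
  induction F with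
  | nil => simp
  | cons a F ih =>
    rw [List.sum_cons, List.length_cons, Finset.sum_range_succ', ih]
    simp [add_comm]

theorem sum_big {k : ℕ} {F : List ℕ} (h : F.length = k + 1) :
    ∑ j, big k F j + F.getD k 0 = F.sum := by
  rw [list_sum_eq, h, Finset.sum_range_succ, Finset.sum_range]
  rfl

/-- mass of a multiplicity vector -/
noncomputable def mass {k : ℕ} (u : Fin k → ℝ) (v : ℝ) (F : List ℕ) : ℝ :=
  (lum u (big k F)).sum + (F.getD k 0 : ℝ) * v

/-- the full multiset (with chunks) -/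
noncomputable def full {k : ℕ} (u : Fin k → ℝ) (v : ℝ) (F : List ℕ) : Multiset ℝ :=
  lum u (big k F) + Multiset.replicate (F.getD k 0) v

theorem full_sum {k : ℕ} (u : Fin k → ℝ) (v : ℝ) (F : List ℕ) :
    (full u v F).sum = mass u v F := by
  unfold full mass; simp

theorem full_card {k : ℕ} (u : Fin k → ℝ) (v : ℝ) {F : List ℕ} (h : F.length = k + 1) :
    Multiset.card (full u v F) = F.sum := by
  unfold full
  rw [Multiset.card_add, lum_card, Multiset.card_replicate, sum_big h]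

theorem big_card {k : ℕ} (u : Fin k → ℝ) {F : List ℕ} (h : F.length = k + 1)
    (h0 : F.getD k 0 = 0) : Multiset.card (lum u (big k F)) = F.sum := by
  rw [lum_card, ← sum_big h, h0, add_zero]

/-- multiset of big lumps of a column -/
theorem lum_col {k : ℕ} (u : Fin k → ℝ) (c : Cl) :
    lum u (fun j => c.n j) = lum u (big k c.F) + lum u (big k c.Z) + lum u (big k c.X) := by
  rw [← lum_add, ← lum_add]; rfl

theorem mem_lum' {k : ℕ} {u : Fin k → ℝ} {n : Fin k → ℕ} {y : ℝ} (h : y ∈ lum u n) :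
    ∃ j, n j ≠ 0 ∧ y = u j := by
  obtain ⟨j, _, hj⟩ := Multiset.mem_sum.1 h
  exact ⟨j, (Multiset.mem_replicate.1 hj).1, (Multiset.mem_replicate.1 hj).2⟩

section
variable {C0 C2 : CP} (T : Tm C0 C2)
include T

/-- soundness of the trimmable kinds -/
theorem sound0 {k : ℕ} (u : Fin k → ℝ) (v : ℝ) (c : Cl) (N : ℝ) (hs : c.shape k = true)
    (hk : isC0 c.kind = true) (h : ROK c.kind (mass u v c.F) (mass u v c.Z) (mass u v c.X) N)
    (hsm : SOK u v c) : C0 v (lum u (fun j => c.n j)) (c.t k) N := by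
  obtain ⟨kind, F, Z, X⟩ := c
  simp only [Cl.shape, Bool.and_eq_true, beq_iff_eq] at hs
  obtain ⟨⟨⟨hF, hZ⟩, hX⟩, hs⟩ := hs
  obtain ⟨h1, h2, h3⟩ := h
  have hk14 : kind < 14 := by
    by_contra hcon
    push Not at hcon
    obtain ⟨m, rfl⟩ := Nat.exists_eq_add_of_le hcon
    revert hs
    cases m <;> simp [Nat.add_comm]
  rw [lum_col]
  simp only [Cl.t]
  simp only [SOK] at hsm
  simp only at h1 h2 h3 hs hF hZ hX hk ⊢
  interval_cases kind
  · -- t6
    simp only [Bool.and_eq_true, beq_iff_eq] at hs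
    obtain ⟨hF2, hF0⟩ := hs
    obtain ⟨y₁, y₂, hy⟩ := Multiset.card_eq_two.1 ((big_card u hF hF0).trans hF2)
    simp only [consOf, capsOf, List.forall_mem_cons, Row.rv] at h1 h2
    unfold mass at h1 h2 h3
    rw [hy, hF0] at h1 h2 h3
    simp only [Multiset.insert_eq_cons, Multiset.sum_cons, Multiset.sum_singleton] at h1 h2 h3
    push_cast at h1 h2 h3
    rw [hy, hF0, zero_add]
    refine T.t6 v y₁ y₂ _ _ _ _ N ?_ ?_ ?_ ?_ ?_ ?_
    · linarith [h1.1]
    · linarith [h2.1]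
    · linarith [h2.2.1]
    · linarith [h2.2.2.1]
    · linarith [h1.2.1]
    · linarith [h3]
  · -- t6s
    simp only [Bool.and_eq_true, beq_iff_eq] at hs
    obtain ⟨hF2, hF0⟩ := hs
    obtain ⟨y₁, hy⟩ := Multiset.card_eq_one.1 ((big_card u hF hF0).trans hF2)
    simp only [consOf, capsOf, List.forall_mem_cons, Row.rv] at h1 h2
    unfold mass at h1 h2 h3
    rw [hy, hF0] at h1 h2 h3
    simp only [Multiset.sum_singleton] at h1 h2 h3
    push_cast at h1 h2 h3
    rw [hy, hF0, zero_add]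
    refine T.t6s v y₁ _ _ _ _ N ?_ ?_ ?_ ?_ ?_ ?_
    · linarith [h2.2.2.2.1]
    · linarith [h2.1]
    · linarith [h2.2.1]
    · linarith [h2.2.2.1]
    · linarith [h1.1]
    · linarith [h3]
  · -- t1
    simp only [Bool.and_eq_true, beq_iff_eq] at hs
    obtain ⟨⟨hF2, hF0⟩, hZ0⟩ := hs
    obtain ⟨y₁, y₂, hy⟩ := Multiset.card_eq_two.1 ((big_card u hF hF0).trans hF2)
    have hz := sum_big hZ
    have hz1 : Z.getD k 0 = 0 := by omega
    have hz2 : lum u (big k Z) = 0 := by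
      rw [← Multiset.card_eq_zero, lum_card]; omega
    simp only [consOf, capsOf, List.forall_mem_cons, Row.rv] at h1 h2
    unfold mass at h1 h2 h3
    rw [hy, hF0] at h1 h2 h3
    rw [hz1, hz2] at h1 h2 h3
    simp only [Multiset.insert_eq_cons, Multiset.sum_cons, Multiset.sum_singleton,
      Multiset.sum_zero] at h1 h2 h3
    push_cast at h1 h2 h3
    rw [hy, hF0, hz1, hz2, zero_add, zero_add, add_zero]
    refine T.t1 v y₁ y₂ _ _ N ?_ ?_ ?_ ?_
    · linarith [h1.1]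
    · unfold z₀; linarith [h1.2.1]
    · linarith [h2.1]
    · linarith [h3]
  · -- t3a
    simp only [Bool.and_eq_true, beq_iff_eq] at hs
    obtain ⟨⟨⟨⟨hF2, hF0⟩, hZ1⟩, hZ0⟩, hX0⟩ := hs
    obtain ⟨y₁, y₂, hy⟩ := Multiset.card_eq_two.1 ((big_card u hF hF0).trans hF2)
    obtain ⟨y₃, hy3⟩ := Multiset.card_eq_one.1 ((big_card u hZ hZ0).trans hZ1)
    have hx := sum_big hX
    have hx1 : X.getD k 0 = 0 := by omega
    have hx2 : lum u (big k X) = 0 := by
      rw [← Multiset.card_eq_zero, lum_card]; omega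
    simp only [consOf, capsOf, List.forall_mem_cons, Row.rv] at h1 h2
    unfold mass at h1 h2 h3
    rw [hy, hF0, hy3, hZ0, hx1, hx2] at h1 h2 h3
    simp only [Multiset.insert_eq_cons, Multiset.sum_cons, Multiset.sum_singleton,
      Multiset.sum_zero] at h1 h2 h3
    push_cast at h1 h2 h3
    rw [hy, hF0, hy3, hZ0, hx1, hx2, add_zero]
    have e : ({y₁, y₂} + {y₃} : Multiset ℝ) = {y₁, y₂, y₃} := by
      simp [Multiset.insert_eq_cons]
    rw [e]
    refine T.t3a v y₁ y₂ y₃ N ?_ ?_ ?_ ?_ ?_ ?_ ?_ ?_ ?_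
    · linarith [h1.1]
    · linarith [h2.1]
    · linarith [h2.2.2.2.2.2.1]
    · linarith [h2.2.1]
    · linarith [h2.2.2.1]
    · linarith [h2.2.2.2.1]
    · linarith [h2.2.2.2.2.1]
    · linarith [h2.2.2.2.2.2.1]
    · linarith [h3]
  · -- t3l
    simp only [Bool.and_eq_true, beq_iff_eq] at hs
    obtain ⟨⟨⟨⟨hF2, hF0⟩, hZ1⟩, hZ0⟩, hX0⟩ := hs
    obtain ⟨y₁, y₂, hy⟩ := Multiset.card_eq_two.1 ((big_card u hF hF0).trans hF2)
    obtain ⟨y₃, hy3⟩ := Multiset.card_eq_one.1 ((big_card u hZ hZ0).trans hZ1)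
    have hx := sum_big hX
    have hx1 : X.getD k 0 = 0 := by omega
    have hx2 : lum u (big k X) = 0 := by
      rw [← Multiset.card_eq_zero, lum_card]; omega
    simp only [consOf, capsOf, List.forall_mem_cons, Row.rv] at h1 h2
    unfold mass at h1 h2 h3
    rw [hy, hF0, hy3, hZ0, hx1, hx2] at h1 h2 h3
    simp only [Multiset.insert_eq_cons, Multiset.sum_cons, Multiset.sum_singleton,
      Multiset.sum_zero] at h1 h2 h3
    push_cast at h1 h2 h3
    rw [hy, hF0, hy3, hZ0, hx1, hx2, add_zero]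
    have e : ({y₁, y₂} + {y₃} : Multiset ℝ) = {y₁, y₂, y₃} := by
      simp [Multiset.insert_eq_cons]
    rw [e]
    refine T.t3l v y₁ y₂ y₃ N ?_ ?_ ?_ ?_ ?_
    · linarith [h1.1]
    · linarith [h1.2.1]
    · linarith [h2.1]
    · linarith [h2.2.1]
    · linarith [h3]
  · -- c5
    simp only [Bool.and_eq_true, beq_iff_eq] at hs
    obtain ⟨⟨⟨⟨⟨hF2, hF0⟩, hZ1⟩, hZ0⟩, hX1⟩, hX0⟩ := hs
    obtain ⟨y₁, y₂, hy⟩ := Multiset.card_eq_two.1 ((big_card u hF hF0).trans hF2)
    obtain ⟨a, ha⟩ := Multiset.card_eq_one.1 ((big_card u hX hX0).trans hX1)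
    have hz := (big_card u hZ hZ0).trans hZ1
    simp only [consOf, capsOf, List.forall_mem_cons, Row.rv] at h1 h2
    unfold mass at h1 h2 h3
    rw [hy, hF0, hZ0, ha, hX0] at h1 h2 h3
    simp only [Multiset.insert_eq_cons, Multiset.sum_cons, Multiset.sum_singleton] at h1 h2 h3
    push_cast at h1 h2 h3
    rw [hy, hF0, hZ0, ha, hX0]
    have e : ({y₁, y₂} + lum u (big k Z) + {a} : Multiset ℝ)
        = {a} + ({y₁, y₂} + lum u (big k Z)) := by rw [add_comm]
    rw [e]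
    refine T.c5v v {a} _ 0 N ?_ ⟨y₁, y₂, ?_, ?_, ?_⟩ ?_ ?_ ?_ ?_
    · simp [hz]
    · simp [Multiset.insert_eq_cons]
    · simp [Multiset.insert_eq_cons, Multiset.erase_cons_head]
    · linarith [h1.1]
    · simp only [Multiset.sum_add, Multiset.insert_eq_cons, Multiset.sum_cons,
        Multiset.sum_singleton]
      linarith [h1.2.1]
    · rw [Multiset.sum_singleton]; push_cast; linarith [h1.2.2.1]
    · linarith [h2.1]
    · simp only [Multiset.sum_add, Multiset.insert_eq_cons, Multiset.sum_cons,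
        Multiset.sum_singleton]
      push_cast
      linarith [h3]
  · exact absurd hk (by decide)
  · exact absurd hk (by decide)
  · exact absurd hk (by decide)
  · -- c5b
    simp only [Bool.and_eq_true, beq_iff_eq] at hs
    obtain ⟨⟨⟨hF2, hF0⟩, hZ1⟩, hZ0⟩ := hs
    have hcF := (big_card u hF hF0).trans hF2
    obtain ⟨y₁, y₂, hy⟩ := Multiset.card_eq_two.1 hcF
    have hz := (big_card u hZ hZ0).trans hZ1
    obtain ⟨hsm1, -⟩ := hsm rfl
    have hall : ∀ y ∈ lum u (big k F) + lum u (big k Z), 25 * y ≤ 4 := by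
      intro y hy
      rcases Multiset.mem_add.1 hy with h | h
      · obtain ⟨j, hj0, rfl⟩ := mem_lum' h
        exact hsm1 j (by unfold big at hj0; omega)
      · obtain ⟨j, hj0, rfl⟩ := mem_lum' h
        exact hsm1 j (by unfold big at hj0; omega)
    simp only [consOf, capsOf, List.forall_mem_cons, Row.rv] at h1 h2
    unfold mass at h1 h2 h3
    rw [hy] at hall
    rw [hy, hF0, hZ0] at h1 h2 h3
    simp only [Multiset.insert_eq_cons, Multiset.sum_cons, Multiset.sum_singleton] at h1 h2 h3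
    push_cast at h1 h2 h3
    rw [hy, hF0, hZ0]
    have e : ({y₁, y₂} + lum u (big k Z) + lum u (big k X) : Multiset ℝ)
        = lum u (big k X) + ({y₁, y₂} + lum u (big k Z)) := by rw [add_comm]
    rw [e, zero_add, zero_add]
    refine T.c5b v _ _ _ N ?_ hall ⟨y₁, y₂, ?_, ?_, ?_⟩ ?_ ?_ ?_ ?_
    · simp [hz]
    · simp [Multiset.insert_eq_cons]
    · simp [Multiset.insert_eq_cons, Multiset.erase_cons_head]
    · linarith [h1.1]
    · simp only [Multiset.sum_add, Multiset.insert_eq_cons, Multiset.sum_cons,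
        Multiset.sum_singleton]
      linarith [h1.2.1]
    · linarith [h1.2.2.1]
    · linarith [h2.1]
    · simp only [Multiset.sum_add, Multiset.insert_eq_cons, Multiset.sum_cons,
        Multiset.sum_singleton]
      linarith [h3]
  · -- c5v
    simp only [Bool.and_eq_true, beq_iff_eq] at hs
    obtain ⟨⟨⟨hF2, hF0⟩, hZ1⟩, hZ0⟩ := hs
    have hcF := (big_card u hF hF0).trans hF2
    obtain ⟨y₁, y₂, hy⟩ := Multiset.card_eq_two.1 hcF
    have hz := (big_card u hZ hZ0).trans hZ1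
    simp only [consOf, capsOf, List.forall_mem_cons, Row.rv] at h1 h2
    unfold mass at h1 h2 h3
    rw [hy, hF0, hZ0] at h1 h2 h3
    simp only [Multiset.insert_eq_cons, Multiset.sum_cons, Multiset.sum_singleton] at h1 h2 h3
    push_cast at h1 h2 h3
    rw [hy, hF0, hZ0]
    have e : ({y₁, y₂} + lum u (big k Z) + lum u (big k X) : Multiset ℝ)
        = lum u (big k X) + ({y₁, y₂} + lum u (big k Z)) := by rw [add_comm]
    rw [e, zero_add, zero_add]
    refine T.c5v v _ _ _ N ?_ ⟨y₁, y₂, ?_, ?_, ?_⟩ ?_ ?_ ?_ ?_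
    · simp [hz]
    · simp [Multiset.insert_eq_cons]
    · simp [Multiset.insert_eq_cons, Multiset.erase_cons_head]
    · linarith [h1.1]
    · simp only [Multiset.sum_add, Multiset.insert_eq_cons, Multiset.sum_cons,
        Multiset.sum_singleton]
      linarith [h1.2.1]
    · linarith [h1.2.2.1]
    · linarith [h2.1]
    · simp only [Multiset.sum_add, Multiset.insert_eq_cons, Multiset.sum_cons,
        Multiset.sum_singleton]
      linarith [h3]
  · exact absurd hk (by decide)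
  · exact absurd hk (by decide)
  · -- t7c
    simp only [Bool.and_eq_true, beq_iff_eq] at hs
    obtain ⟨⟨⟨⟨⟨hF2, hF0⟩, hZ1⟩, hZ0⟩, hX1⟩, hX0⟩ := hs
    obtain ⟨y₁, hy⟩ := Multiset.card_eq_one.1 ((big_card u hF hF0).trans hF2)
    obtain ⟨y₂, hy2⟩ := Multiset.card_eq_one.1 ((big_card u hZ hZ0).trans hZ1)
    obtain ⟨y₃, hy3⟩ := Multiset.card_eq_one.1 ((big_card u hX hX0).trans hX1)
    simp only [consOf, capsOf, List.forall_mem_cons, Row.rv] at h1 h2
    unfold mass at h1 h2 h3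
    rw [hy, hF0, hy2, hZ0, hy3, hX0] at h1 h2 h3
    simp only [Multiset.sum_singleton] at h1 h2 h3
    push_cast at h1 h2 h3
    rw [hy, hF0, hy2, hZ0, hy3, hX0]
    have e : ({y₁} + {y₂} + {y₃} : Multiset ℝ) = {y₁, y₂, y₃} := by
      simp [Multiset.insert_eq_cons]
    rw [e]
    refine T.t7c v y₁ y₂ y₃ N ?_ ?_ ?_ ?_ ?_ ?_ ?_ ?_
    · linarith [h1.2.1]
    · linarith [h1.1]
    · linarith [h2.1]
    · linarith [h1.2.2.1]
    · linarith [h1.2.2.2.1]
    · linarith [h1.2.2.2.2.1]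
    · linarith [h1.2.2.2.2.2.1]
    · linarith [h3]

/-- soundness of all kinds -/
theorem sound2 {k : ℕ} (u : Fin k → ℝ) (v : ℝ) (c : Cl) (N : ℝ) (hs : c.shape k = true)
    (h : ROK c.kind (mass u v c.F) (mass u v c.Z) (mass u v c.X) N) (hsm : SOK u v c) :
    C2 v (lum u (fun j => c.n j)) (c.t k) N := by
  by_cases hk : isC0 c.kind = true
  · exact T.of0 (sound0 T u v c N hs hk h hsm)
  obtain ⟨kind, F, Z, X⟩ := c
  simp only [Cl.shape, Bool.and_eq_true, beq_iff_eq] at hs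
  obtain ⟨⟨⟨hF, hZ⟩, hX⟩, hs⟩ := hs
  obtain ⟨h1, h2, h3⟩ := h
  rw [lum_col]
  simp only [Cl.t]
  simp only [SOK] at hsm
  simp only at h1 h2 h3 hs hF hZ hX hk ⊢
  have hk14 : kind < 14 := by
    by_contra hcon
    push Not at hcon
    obtain ⟨m, rfl⟩ := Nat.exists_eq_add_of_le hcon
    revert hs
    cases m <;> simp [Nat.add_comm]
  interval_cases kind
  · exact absurd rfl hk
  · exact absurd rfl hk
  · exact absurd rfl hk
  · exact absurd rfl hk
  · exact absurd rfl hk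
  · exact absurd rfl hk
  · -- t6v
    simp only [Bool.and_eq_true, beq_iff_eq] at hs
    obtain ⟨hF2, hF1⟩ := hs
    have hc : Multiset.card (lum u (big k F)) = 1 := by
      rw [lum_card]; have := sum_big hF; omega
    obtain ⟨y₁, hy⟩ := Multiset.card_eq_one.1 hc
    simp only [consOf, capsOf, List.forall_mem_cons, Row.rv] at h1 h2
    unfold mass at h1 h2 h3
    rw [hy, hF1] at h1 h2 h3
    simp only [Multiset.sum_singleton] at h1 h2 h3
    push_cast at h1 h2 h3
    rw [hy, hF1]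
    have e : 1 + Z.getD k 0 + X.getD k 0 = Z.getD k 0 + X.getD k 0 + 1 := by ring
    rw [e]
    refine T.t6v v y₁ _ _ _ _ N ?_ ?_ ?_ ?_ ?_ ?_
    · linarith [h2.2.2.2.1]
    · linarith [h2.1]
    · linarith [h2.2.1]
    · linarith [h2.2.2.1]
    · linarith [h1.1]
    · linarith [h3]
  · -- t1v
    simp only [Bool.and_eq_true, beq_iff_eq] at hs
    obtain ⟨⟨hF2, hF1⟩, hZ0⟩ := hs
    have hc : Multiset.card (lum u (big k F)) = 1 := by
      rw [lum_card]; have := sum_big hF; omega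
    obtain ⟨y₁, hy⟩ := Multiset.card_eq_one.1 hc
    have hz := sum_big hZ
    have hz1 : Z.getD k 0 = 0 := by omega
    have hz2 : lum u (big k Z) = 0 := by
      rw [← Multiset.card_eq_zero, lum_card]; omega
    simp only [consOf, capsOf, List.forall_mem_cons, Row.rv] at h1 h2
    unfold mass at h1 h2 h3
    rw [hy, hF1] at h1 h2 h3
    rw [hz1, hz2] at h1 h2 h3
    simp only [Multiset.sum_singleton, Multiset.sum_zero] at h1 h2 h3
    push_cast at h1 h2 h3
    rw [hy, hF1, hz1, hz2, add_zero]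
    have e : 1 + 0 + X.getD k 0 = X.getD k 0 + 1 := by ring
    rw [e]
    refine T.t1v v y₁ _ _ N ?_ ?_ ?_ ?_
    · linarith [h1.1]
    · unfold z₀; linarith [h1.2.1]
    · linarith [h2.1]
    · linarith [h3]
  · -- c5w
    simp only [Bool.and_eq_true, beq_iff_eq] at hs
    obtain ⟨⟨hF2, hZ2⟩, hX1⟩ := hs
    obtain ⟨y₁, y₂, hy⟩ := Multiset.card_eq_two.1 ((full_card u v hF).trans hF2)
    obtain ⟨a, ha⟩ := Multiset.card_eq_one.1 ((full_card u v hX).trans hX1)
    have hz := (full_card u v hZ).trans hZ2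
    simp only [consOf, capsOf, List.forall_mem_cons, Row.rv] at h1 h2
    rw [← full_sum, ← full_sum, ← full_sum, hy, ha] at h1 h2 h3
    simp only [Multiset.insert_eq_cons, Multiset.sum_cons, Multiset.sum_singleton] at h1 h2 h3
    push_cast at h1 h2 h3
    refine T.c5vw v {a} ({y₁, y₂} + full u v Z) _ _ N ?_ ?_ ⟨y₁, y₂, ?_, ?_, ?_⟩ ?_ ?_ ?_ ?_
    · rw [← hy, ← ha]
      unfold full
      rw [Multiset.replicate_add, Multiset.replicate_add]
      abel
    · simp [hz]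
    · simp [Multiset.insert_eq_cons]
    · simp [Multiset.insert_eq_cons, Multiset.erase_cons_head]
    · linarith [h1.1]
    · simp only [Multiset.sum_add, Multiset.insert_eq_cons, Multiset.sum_cons,
        Multiset.sum_singleton]
      linarith [h1.2.1]
    · rw [Multiset.sum_singleton]; linarith [h1.2.2.1]
    · linarith [h2.1]
    · simp only [Multiset.sum_add, Multiset.insert_eq_cons, Multiset.sum_cons,
        Multiset.sum_singleton]
      linarith [h3]
  · exact absurd rfl hk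
  · exact absurd rfl hk
  · -- c5bw
    simp only [Bool.and_eq_true, beq_iff_eq] at hs
    obtain ⟨hF2, hZ2⟩ := hs
    obtain ⟨y₁, y₂, hy⟩ := Multiset.card_eq_two.1 ((full_card u v hF).trans hF2)
    have hz := (full_card u v hZ).trans hZ2
    obtain ⟨hsm1, hsm2⟩ := hsm rfl
    have hall : ∀ y ∈ full u v F + full u v Z, 25 * y ≤ 4 := by
      intro y hy
      unfold full at hy
      rcases Multiset.mem_add.1 hy with h | h <;> rcases Multiset.mem_add.1 h with h | h
      · obtain ⟨j, hj0, rfl⟩ := mem_lum' h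
        exact hsm1 j (by unfold big at hj0; omega)
      · obtain ⟨h0, rfl⟩ := Multiset.mem_replicate.1 h
        exact hsm2 (by omega)
      · obtain ⟨j, hj0, rfl⟩ := mem_lum' h
        exact hsm1 j (by unfold big at hj0; omega)
      · obtain ⟨h0, rfl⟩ := Multiset.mem_replicate.1 h
        exact hsm2 (by omega)
    simp only [consOf, capsOf, List.forall_mem_cons, Row.rv] at h1 h2
    rw [← full_sum, ← full_sum, ← full_sum, hy] at h1 h2 h3
    rw [hy] at hall
    simp only [Multiset.insert_eq_cons, Multiset.sum_cons, Multiset.sum_singleton] at h1 h2 h3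
    push_cast at h1 h2 h3
    refine T.c5bw v (full u v X) ({y₁, y₂} + full u v Z) _ _ N ?_ ?_ hall
      ⟨y₁, y₂, ?_, ?_, ?_⟩ ?_ ?_ ?_ ?_
    · rw [← hy]
      unfold full
      rw [Multiset.replicate_add, Multiset.replicate_add]
      abel
    · simp [hz]
    · simp [Multiset.insert_eq_cons]
    · simp [Multiset.insert_eq_cons, Multiset.erase_cons_head]
    · linarith [h1.1]
    · simp only [Multiset.sum_add, Multiset.insert_eq_cons, Multiset.sum_cons,
        Multiset.sum_singleton]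
      linarith [h1.2.1]
    · linarith [h1.2.2.1]
    · linarith [h2.1]
    · simp only [Multiset.sum_add, Multiset.insert_eq_cons, Multiset.sum_cons,
        Multiset.sum_singleton]
      linarith [h3]
  · -- c5vw
    simp only [Bool.and_eq_true, beq_iff_eq] at hs
    obtain ⟨hF2, hZ2⟩ := hs
    obtain ⟨y₁, y₂, hy⟩ := Multiset.card_eq_two.1 ((full_card u v hF).trans hF2)
    have hz := (full_card u v hZ).trans hZ2
    simp only [consOf, capsOf, List.forall_mem_cons, Row.rv] at h1 h2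
    rw [← full_sum, ← full_sum, ← full_sum, hy] at h1 h2 h3
    simp only [Multiset.insert_eq_cons, Multiset.sum_cons, Multiset.sum_singleton] at h1 h2 h3
    push_cast at h1 h2 h3
    refine T.c5vw v (full u v X) ({y₁, y₂} + full u v Z) _ _ N ?_ ?_ ⟨y₁, y₂, ?_, ?_, ?_⟩
      ?_ ?_ ?_ ?_
    · rw [← hy]
      unfold full
      rw [Multiset.replicate_add, Multiset.replicate_add]
      abel
    · simp [hz]
    · simp [Multiset.insert_eq_cons]
    · simp [Multiset.insert_eq_cons, Multiset.erase_cons_head]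
    · linarith [h1.1]
    · simp only [Multiset.sum_add, Multiset.insert_eq_cons, Multiset.sum_cons,
        Multiset.sum_singleton]
      linarith [h1.2.1]
    · linarith [h1.2.2.1]
    · linarith [h2.1]
    · simp only [Multiset.sum_add, Multiset.insert_eq_cons, Multiset.sum_cons,
        Multiset.sum_singleton]
      linarith [h3]
  · exact absurd rfl hk

end

end Crest.Agent.R017.SX90
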