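import Crest.Agent.R017.SimplexD_90

/-!
# Coverage : the checker of simplicial certificates (helper90)

`chk_sound` : a certificate accepted by `Cert.chk` proves the coverage on its region.
-/

set_option autoImplicit false

namespace Crest.Agent.R017.SX90

open Finset Cov499

/-- subdivision trees -/
inductive Tr where
  | leaf (L : Lf) : Tr
  | split (i j a b : ℕ) (t₁ t₂ : Tr) : Tr
  | drop (r : ℕ) (t : Tr) : Tr

/-- check of a tree at a list of vertices; `G` : the extra root forms -/
def Tr.chk (k cap : ℕ) (two : Bool) (G : List (List ℤ)) : Tr → List (List ℤ) → Bool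
  | .leaf L, Ps => chkLeaf k cap two Ps L
  | .split i j a b t₁ t₂, Ps =>
      decide (i < Ps.length) && decide (j < Ps.length) && !(i == j) && decide (0 < a) &&
        decide (0 < b) &&
        t₁.chk k cap two G (Ps.set i (comb a b (Ps.getD i []) (Ps.getD j []))) &&
        t₂.chk k cap two G (Ps.set j (comb a b (Ps.getD i []) (Ps.getD j [])))
  | .drop r t, Ps =>
      match G[r]? with
      | none => false
      | some f => (Ps.all fun P => decide (dotZ f P ≤ 0)) &&
          ((Ps.filter fun P => dotZ f P == 0).isEmpty ||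
            t.chk k cap two G (Ps.filter fun P => dotZ f P == 0))

section
variable {C0 C2 : CP} (T : Tm C0 C2)
include T

theorem tree_sound {k cap : ℕ} (u : Fin k → ℝ) (v : ℝ) (x : ℕ → ℝ) (hx0 : x 0 = 1)
    (hxu : ∀ j : Fin k, x (j + 1) = u j) (hxv : x (k + 1) = v) (hv : 0 ≤ v)
    (hsum : ∑ j, u j ≤ 4 / 3) {two : Bool} {G : List (List ℤ)} (hG : ∀ f ∈ G, 0 ≤ phi f x)
    (t : Tr) : ∀ {Ps : List (List ℤ)}, Mem Ps x → t.chk k cap two G Ps = true →
      (two = false → Raw C0 cap u v) ∧ (two = true → Raw C2 cap u v) := by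
  induction t with
  | leaf L =>
    intro Ps hM h
    exact leaf_sound T u v x hx0 hxu hxv hv hsum hM h
  | split i j a b t₁ t₂ ih₁ ih₂ =>
    intro Ps hM h
    simp only [Tr.chk, Bool.and_eq_true, decide_eq_true_eq, Bool.not_eq_true',
      beq_eq_false_iff_ne] at h
    obtain ⟨⟨⟨⟨⟨⟨hi, hj⟩, hij⟩, ha⟩, hb⟩, h1⟩, h2⟩ := h
    rcases mem_split hi hj hij ha hb hM with h' | h'
    · exact ih₁ h' h1
    · exact ih₂ h' h2
  | drop r t ih =>
    intro Ps hM h
    simp only [Tr.chk] at h
    cases hr : G[r]? with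
    | none => rw [hr] at h; simp at h
    | some f =>
      rw [hr] at h
      simp only [Bool.and_eq_true, List.all_eq_true, decide_eq_true_eq, Bool.or_eq_true] at h
      have hf : f ∈ G := List.mem_of_getElem? hr
      have hM' := mem_drop f (hG f hf) h.1 hM
      rcases h.2 with h2 | h2
      · rw [List.isEmpty_iff] at h2
        rw [h2] at hM'
        have := hM'.nil 0
        rw [hx0] at this
        norm_num at this
      · exact ih hM' h2

end

/-- a certificate for `k` lumps -/
structure Cert where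
  /-- base simplex : vertex, dual form, multiplier -/
  base : List (List ℤ × List ℤ × ℕ)
  L : ℕ
  /-- `n₀ / d ≤ v ≤ n₁ / d` -/
  d : ℕ
  n₀ : ℕ
  n₁ : ℕ
  /-- extra root forms on `[1, u, v]` -/
  G : List (List ℤ)
  trees : List Tr

/-- zip check of simplices and trees -/
def chkAll (k cap : ℕ) (two : Bool) (G : List (List ℤ)) : List (List (List ℤ)) → List Tr → Bool
  | S :: Ss, t :: ts => t.chk k cap two G S && chkAll k cap two G Ss ts
  | [], _ => true
  | _ :: _, [] => false

/-- the root check (base simplex, heights) -/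
def Cert.root (k : ℕ) (c : Cert) : Bool :=
  decide (0 < c.L) && decide (0 < c.d) && decide (c.n₀ < c.n₁) && !c.base.isEmpty &&
  (c.base.all fun q => (q.1.length == k + 1) && (q.2.1.length == k + 1) &&
    decide (0 < q.1.getD 0 0)) &&
  ((List.range (k + 1)).all fun a => (List.range (k + 1)).all fun b =>
    decide ((c.base.map fun q => (q.2.2 : ℤ) * q.1.getD a 0 * q.2.1.getD b 0).sum
      = if a = b then (c.L : ℤ) else 0))

/-- the whole check -/
def Cert.chk (k cap : ℕ) (two : Bool) (c : Cert) : Bool :=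
  c.root k && chkAll k cap two c.G (prism c.d c.n₀ c.n₁ (c.base.map (·.1))) c.trees

theorem chkAll_spec {k cap : ℕ} {two : Bool} {G : List (List ℤ)} {Ss : List (List (List ℤ))}
    {ts : List Tr} (h : chkAll k cap two G Ss ts = true) :
    ∀ S ∈ Ss, ∃ t : Tr, t.chk k cap two G S = true := by
  induction Ss generalizing ts with
  | nil => intro S hS; simp at hS
  | cons S Ss ih =>
    cases ts with
    | nil => simp [chkAll] at h
    | cons t ts =>
      simp only [chkAll, Bool.and_eq_true] at h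
      intro S' hS'
      rcases List.mem_cons.1 hS' with rfl | hS'
      · exact ⟨t, h.1⟩
      · exact ih h.2 S' hS'

theorem root_spec {k : ℕ} {c : Cert} (h : c.root k = true) :
    0 < c.L ∧ 0 < c.d ∧ c.n₀ < c.n₁ ∧ c.base ≠ [] ∧
      (∀ q ∈ c.base, q.1.length = k + 1 ∧ q.2.1.length = k + 1 ∧ 0 < q.1.getD 0 0) ∧
      (∀ a < k + 1, ∀ b < k + 1,
        (c.base.map fun q => (q.2.2 : ℤ) * q.1.getD a 0 * q.2.1.getD b 0).sum
          = if a = b then (c.L : ℤ) else 0) := by
  unfold Cert.root at h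
  simp only [Bool.and_eq_true] at h
  obtain ⟨⟨⟨⟨⟨hL, hd⟩, hn⟩, hne⟩, hlen⟩, hdual⟩ := h
  refine ⟨of_decide_eq_true hL, of_decide_eq_true hd, of_decide_eq_true hn, ?_, ?_, ?_⟩
  · intro he
    rw [he] at hne
    simp at hne
  · intro q hq
    have := (List.all_eq_true.1 hlen) q hq
    simp only [Bool.and_eq_true, beq_iff_eq, decide_eq_true_eq] at this
    exact ⟨this.1.1, this.1.2, this.2⟩
  · intro a ha b hb
    have := (List.all_eq_true.1 hdual) a (List.mem_range.2 ha)
    have := (List.all_eq_true.1 this) b (List.mem_range.2 hb)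
    exact of_decide_eq_true this

/-- homogeneous vector of `(u, v)` -/
noncomputable def hvec {k : ℕ} (u : Fin k → ℝ) (v : ℝ) : ℕ → ℝ := fun a =>
  if a = 0 then 1 else if h : a - 1 < k then u ⟨a - 1, h⟩ else if a = k + 1 then v else 0

theorem hvec_zero {k : ℕ} (u : Fin k → ℝ) (v : ℝ) : hvec u v 0 = 1 := by simp [hvec]

theorem hvec_u {k : ℕ} (u : Fin k → ℝ) (v : ℝ) (j : Fin k) : hvec u v (j + 1) = u j := by
  simp [hvec]

theorem hvec_v {k : ℕ} (u : Fin k → ℝ) (v : ℝ) : hvec u v (k + 1) = v := by simp [hvec]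

section
variable {C0 C2 : CP} (T : Tm C0 C2)
include T

/-- soundness of the checker -/
theorem chk_sound {k cap : ℕ} {two : Bool} {c : Cert}
    (h : c.chk k cap two = true) (u : Fin k → ℝ) (v : ℝ)
    (hsum : ∑ j, u j ≤ 4 / 3) (hv0 : (c.n₀ : ℝ) / c.d ≤ v) (hv1 : v ≤ (c.n₁ : ℝ) / c.d)
    (hb : ∀ q ∈ c.base, 0 ≤ phi q.2.1 (hvec u v)) (hG : ∀ f ∈ c.G, 0 ≤ phi f (hvec u v)) :
    (two = false → Raw C0 cap u v) ∧ (two = true → Raw C2 cap u v) := by
  unfold Cert.chk at h
  rw [Bool.and_eq_true] at h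
  obtain ⟨hroot, hall⟩ := h
  obtain ⟨hL, hd, hn, hne, hlen, hdual⟩ := root_spec hroot
  -- the base point
  set y : ℕ → ℝ := fun a => if a < k + 1 then hvec u v a else 0 with hy
  have hphi : ∀ q ∈ c.base, phi q.2.1 y = phi q.2.1 (hvec u v) := by
    intro q hq
    unfold phi
    refine Finset.sum_congr rfl fun a ha => ?_
    have : a < k + 1 := by rw [← (hlen q hq).2.1]; exact Finset.mem_range.1 ha
    simp only [hy, if_pos this]
  have hM : Mem (c.base.map (·.1)) y := by
    refine mem_base (m := k + 1) hL c.base (fun q hq => ⟨(hlen q hq).1, (hlen q hq).2.1⟩) ?_ ?_ ?_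
    · intro a ha b hb'
      exact hdual a ha b hb'
    · intro a ha; simp only [hy, if_neg (not_lt.2 ha)]
    · intro q hq; rw [hphi q hq]; exact hb q hq
  have hy0 : y 0 = 1 := by simp [hy, hvec_zero]
  have hd' : (0 : ℝ) < c.d := by exact_mod_cast hd
  have hn' : (0 : ℝ) < (c.n₁ : ℝ) - c.n₀ := by
    have : (c.n₀ : ℝ) < c.n₁ := by exact_mod_cast hn
    linarith
  -- the height
  set r : ℝ := (v * c.d - c.n₀) / ((c.n₁ : ℝ) - c.n₀) with hr
  have hr0 : 0 ≤ r := by
    apply div_nonneg _ hn'.le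
    rw [div_le_iff₀ hd'] at hv0; linarith
  have hr1 : r ≤ y 0 := by
    rw [hy0, hr, div_le_one hn']
    rw [le_div_iff₀ hd'] at hv1; linarith
  have hB1 : ∀ Q ∈ c.base.map (·.1), Q.length = k + 1 := by
    intro Q hQ
    obtain ⟨q, hq, hqQ⟩ := List.mem_map.1 hQ
    rw [← hqQ]
    exact (hlen q hq).1
  have hB2 : ∀ Q ∈ c.base.map (·.1), 0 < Q.getD 0 0 := by
    intro Q hQ
    obtain ⟨q, hq, hqQ⟩ := List.mem_map.1 hQ
    rw [← hqQ]
    exact (hlen q hq).2.2
  have hB3 : c.base.map (·.1) ≠ [] := by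
    intro he
    exact hne (List.map_eq_nil_iff.1 he)
  obtain ⟨S, hS, hMS⟩ : ∃ S ∈ prism c.d c.n₀ c.n₁ (c.base.map (·.1)),
      Mem S (overP c.d c.n₀ c.n₁ (k + 1) y r) :=
    mem_prism hd hB1 hB2 hB3 hM hr0 hr1
  have hx : Mem S (hvec u v) := by
    refine hMS.congr fun a => ?_
    unfold overP
    split_ifs with h1 h2
    · simp only [hy, if_pos h1]
    · subst h2
      rw [hvec_v, hy0, hr]
      field_simp
      ring
    · unfold hvec
      have h3 : a ≠ 0 := by omega
      have h4 : ¬ a - 1 < k := by omega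
      rw [if_neg h3, dif_neg h4, if_neg h2]
  obtain ⟨t, ht⟩ := chkAll_spec hall S hS
  have hv : 0 ≤ v := le_trans (by positivity) hv0
  exact tree_sound T u v (hvec u v) (hvec_zero u v) (hvec_u u v) (hvec_v u v) hv hsum hG t hx ht

end

end Crest.Agent.R017.SX90
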