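import Crest.Agent.R017.SimplexC_90

/-!
# Coverage : the leaf check of the simplicial certificates (helper90)
-/

set_option autoImplicit false

namespace Crest.Agent.R017.SX90

open Finset Cov499

/-- minimum of the caps -/
def minCap : List Row → ℤ → ℤ → ℤ → ℤ → ℤ
  | [], _, _, _, _ => 0
  | [r], o, s, z, x => r.val o s z x
  | r :: r' :: l, o, s, z, x => min (r.val o s z x) (minCap (r' :: l) o s z x)

theorem minCap_le {l : List Row} {r : Row} (hr : r ∈ l) (o s z x : ℤ) :
    minCap l o s z x ≤ r.val o s z x := by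
  induction l with
  | nil => simp at hr
  | cons r0 l ih =>
    cases l with
    | nil => simp only [List.mem_singleton] at hr; subst hr; exact le_rfl
    | cons r1 l =>
      simp only [minCap]
      rcases List.mem_cons.1 hr with h | h
      · subst h; exact min_le_left _ _
      · exact le_trans (min_le_right _ _) (ih h)

/-- total length of the column `c` at the vertex `P`, units `1/599760` -/
def colN (c : Cl) (P : List ℤ) : ℤ :=
  minCap (capsOf c.kind) (P.getD 0 0) (dotN c.F P.tail) (dotN c.Z P.tail) (dotN c.X P.tail)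

/-- the lumps of `F` and `Z` are at most `4/25` (kinds `9`, `11`) -/
def smOK (k : ℕ) (c : Cl) (P : List ℤ) : Bool :=
  !(isSm c.kind) || (List.range (k + 1)).all fun a =>
    (c.F.getD a 0 + c.Z.getD a 0 == 0) || decide (25 * P.getD (a + 1) 0 ≤ 4 * P.getD 0 0)

/-- the column is valid at the vertex -/
def colOK (c : Cl) (P : List ℤ) : Bool :=
  ((consOf c.kind).all fun r =>
    decide (0 ≤ r.val (P.getD 0 0) (dotN c.F P.tail) (dotN c.Z P.tail) (dotN c.X P.tail))) &&
  decide (599760 * (dotN c.F P.tail + dotN c.Z P.tail + dotN c.X P.tail) ≤ colN c P)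

/-- weights at a vertex -/
structure VD where
  D : ℤ
  W : List ℤ

/-- leaf of a certificate -/
structure Lf where
  cols : List Cl
  vd : List VD

/-- vertex check -/
def vok (k cap : ℕ) (cols : List Cl) (P : List ℤ) (w : VD) : Bool :=
  decide (0 < P.getD 0 0) && decide (0 < w.D) && (w.W.all fun z => decide (0 ≤ z)) &&
  (w.W.length == cols.length) && decide ((cap : ℤ) * w.W.sum ≤ w.D) &&
  ((List.range k).all fun j => decide (2 * dotZ w.W (cols.map fun c => (c.n j : ℤ)) = w.D)) &&
  (cols.all fun c => colOK c P && smOK k c P)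

/-- vertex record -/
structure VR where
  o : ℤ
  D : ℤ
  U : ℤ
  sw : ℤ
  W : List ℤ
  B : List ℤ
  T : List ℤ
  T0 : List ℤ

def vrec (k : ℕ) (cols : List Cl) (P : List ℤ) (w : VD) : VR where
  o := P.getD 0 0
  D := w.D
  U := dotN (List.replicate k 1) P.tail
  sw := w.W.sum
  W := w.W
  B := cols.map fun c => colN c P - 499800 * P.getD 0 0
  T := cols.map fun c => 4 * P.getD 0 0 - 6 * (c.t k : ℤ) * P.getD (k + 1) 0
  T0 := cols.map fun c => 4 * P.getD 0 0 - 6 * (c.t0 k : ℤ) * P.getD (k + 1) 0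

def al (a b : VR) : ℤ := 3 * a.D * b.U - dotZ a.W b.T
def al0 (a b : VR) : ℤ := 3 * a.D * b.U - dotZ a.W b.T0
def be (a b : VR) : ℤ := dotZ a.W b.B
def ga (a b : VR) : ℤ := 2 * be a b - 49980 * al0 a b
def de (a b : VR) : ℤ := 4 * (a.D - a.sw) * b.o - al0 a b

/-- symmetrised coefficient -/
def sym (G : VR → VR → ℤ) (a b : VR) : ℤ := a.o * b.D * G a b + b.o * a.D * G b a

/-- pair check -/
def pairOK (two : Bool) (a b : VR) : Bool :=
  decide (0 ≤ sym al a b) && decide (0 ≤ sym be a b) && decide (0 ≤ sym ga a b) &&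
    (!two || decide (0 ≤ sym de a b))

theorem sym_comm (G : VR → VR → ℤ) (a b : VR) : sym G a b = sym G b a := by
  unfold sym; ring

theorem pairOK_comm (two : Bool) (a b : VR) : pairOK two a b = pairOK two b a := by
  unfold pairOK
  rw [sym_comm al a b, sym_comm be a b, sym_comm ga a b, sym_comm de a b]

/-- all unordered pairs -/
def allPairs (f : VR → VR → Bool) : List VR → Bool
  | [] => true
  | a :: l => f a a && (l.all fun b => f a b) && allPairs f l

theorem allPairs_spec {f : VR → VR → Bool} (hf : ∀ a b, f a b = f b a) {l : List VR}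
    (h : allPairs f l = true) : ∀ a ∈ l, ∀ b ∈ l, f a b = true := by
  induction l with
  | nil => intro a ha; simp at ha
  | cons c l ih =>
    simp only [allPairs, Bool.and_eq_true, List.all_eq_true] at h
    obtain ⟨⟨h1, h2⟩, h3⟩ := h
    intro a ha b hb
    rcases List.mem_cons.1 ha with ha1 | ha1
    · rcases List.mem_cons.1 hb with hb1 | hb1
      · rw [ha1, hb1]; exact h1
      · rw [ha1]; exact h2 b hb1
    · rcases List.mem_cons.1 hb with hb1 | hb1
      · rw [hf, hb1]; exact h2 a ha1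
      · exact ih h3 a ha1 b hb1

/-- vertex checks along two lists -/
def allV (k cap : ℕ) (cols : List Cl) : List (List ℤ) → List VD → Bool
  | P :: Ps, w :: ws => vok k cap cols P w && allV k cap cols Ps ws
  | [], [] => true
  | _, _ => false

def recs (k : ℕ) (cols : List Cl) : List (List ℤ) → List VD → List VR
  | P :: Ps, w :: ws => vrec k cols P w :: recs k cols Ps ws
  | _, _ => []

/-- the leaf check -/
def chkLeaf (k cap : ℕ) (two : Bool) (Ps : List (List ℤ)) (L : Lf) : Bool :=
  (L.cols.all fun c => c.shape k && (two || isC0 c.kind)) &&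
  allV k cap L.cols Ps L.vd && allPairs (pairOK two) (recs k L.cols Ps L.vd)

theorem allV_spec {k cap : ℕ} {cols : List Cl} {Ps : List (List ℤ)} {ws : List VD}
    (h : allV k cap cols Ps ws = true) : ∀ i < Ps.length,
      vok k cap cols (Ps.getD i []) (ws.getD i ⟨0, []⟩) = true ∧
        vrec k cols (Ps.getD i []) (ws.getD i ⟨0, []⟩) ∈ recs k cols Ps ws := by
  induction Ps generalizing ws with
  | nil => intro i hi; simp at hi
  | cons P Ps ih =>
    cases ws with
    | nil => simp [allV] at h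
    | cons w ws =>
      simp only [allV, Bool.and_eq_true] at h
      intro i hi
      cases i with
      | zero =>
        simp only [List.getD_cons_zero, recs]
        exact ⟨h.1, List.mem_cons_self⟩
      | succ i =>
        simp only [List.getD_cons_succ, recs]
        have := ih h.2 i (by simpa using hi)
        exact ⟨this.1, List.mem_cons_of_mem _ this.2⟩

/-! ## real statements -/

theorem bern (m : ℕ) (c o D : ℕ → ℝ) (hc : ∀ i, 0 ≤ c i) (hD : ∀ i < m, 0 < D i)
    (G : ℕ → ℕ → ℝ) (h : ∀ i < m, ∀ j < m, 0 ≤ o i * D j * G i j + o j * D i * G j i) :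
    0 ≤ ∑ i ∈ range m, ∑ j ∈ range m, (c i * o i / D i) * c j * G i j := by
  have e1 : ∑ i ∈ range m, ∑ j ∈ range m, (c i * o i / D i) * c j * G i j
      = ∑ i ∈ range m, ∑ j ∈ range m, (c j * o j / D j) * c i * G j i := Finset.sum_comm
  have e2 : 0 ≤ ∑ i ∈ range m, ∑ j ∈ range m,
      ((c i * o i / D i) * c j * G i j + (c j * o j / D j) * c i * G j i) := by
    refine Finset.sum_nonneg fun i hi => Finset.sum_nonneg fun j hj => ?_
    have hi' := hD i (Finset.mem_range.1 hi)
    have hj' := hD j (Finset.mem_range.1 hj)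
    have := h i (Finset.mem_range.1 hi) j (Finset.mem_range.1 hj)
    have e : (c i * o i / D i) * c j * G i j + (c j * o j / D j) * c i * G j i
        = c i * c j * (o i * D j * G i j + o j * D i * G j i) / (D i * D j) := by
      field_simp
    rw [e]
    exact div_nonneg (mul_nonneg (mul_nonneg (hc i) (hc j)) this) (mul_pos hi' hj').le
  simp only [Finset.sum_add_distrib] at e2
  rw [← e1] at e2
  linarith

theorem bil (m M : ℕ) (a b : ℕ → ℝ) (W H : ℕ → ℕ → ℝ) :
    ∑ q ∈ range M, (∑ i ∈ range m, a i * W i q) * (∑ j ∈ range m, b j * H j q)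
      = ∑ i ∈ range m, ∑ j ∈ range m, a i * b j * ∑ q ∈ range M, W i q * H j q := by
  rw [Finset.sum_congr rfl fun q _ => Finset.sum_mul_sum (range m) (range m)
    (fun i => a i * W i q) (fun j => b j * H j q)]
  rw [Finset.sum_comm]
  refine Finset.sum_congr rfl fun i _ => ?_
  rw [Finset.sum_comm]
  refine Finset.sum_congr rfl fun j _ => ?_
  rw [Finset.mul_sum]
  exact Finset.sum_congr rfl fun q _ => by ring

theorem getD_tail (P : List ℤ) (a : ℕ) : P.tail.getD a 0 = P.getD (a + 1) 0 := by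
  cases P <;> simp

theorem dotN_tail (F : List ℕ) (P : List ℤ) :
    ((dotN F P.tail : ℤ) : ℝ) = ∑ a ∈ range F.length, (F.getD a 0 : ℝ) * en P (a + 1) := by
  rw [dotN_eq]
  refine Finset.sum_congr rfl fun a _ => ?_
  rw [getD_tail]; rfl

theorem mass_eq {k : ℕ} {u : Fin k → ℝ} {v : ℝ} {x : ℕ → ℝ} (hxu : ∀ j : Fin k, x (j + 1) = u j)
    (hxv : x (k + 1) = v) {F : List ℕ} (hF : F.length = k + 1) {Ps : List (List ℤ)} {c : ℕ → ℝ}
    (h : ∀ a, x a = ∑ i ∈ range Ps.length, c i * en (Ps.getD i []) a) :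
    mass u v F
      = ∑ i ∈ range Ps.length, c i * ((dotN F (Ps.getD i []).tail : ℤ) : ℝ) := by
  have e : mass u v F = ∑ a ∈ range (k + 1), (F.getD a 0 : ℝ) * x (a + 1) := by
    unfold mass
    rw [lum_sum, Finset.sum_range_succ, Finset.sum_range, hxv]
    congr 1
    refine Finset.sum_congr rfl fun j _ => ?_
    rw [hxu]; rfl
  rw [e]
  simp only [dotN_tail, hF, h, Finset.mul_sum]
  rw [Finset.sum_comm]
  refine Finset.sum_congr rfl fun i _ => Finset.sum_congr rfl fun a _ => ?_
  ring

theorem dotZ_map {M : ℕ} (W : List ℤ) (hW : W.length = M) (cols : List Cl) (g : Cl → ℤ)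
    (hM : cols.length = M) :
    ((dotZ W (cols.map g) : ℤ) : ℝ)
      = ∑ q ∈ range M, ((W.getD q 0 : ℤ) : ℝ) * ((g (cols.getD q ⟨0, [], [], []⟩) : ℤ) : ℝ) := by
  rw [dotZ_eq, hW]
  refine Finset.sum_congr rfl fun q hq => ?_
  have hq' := Finset.mem_range.1 hq
  congr 2
  have h1 : q < (cols.map g).length := by rw [List.length_map, hM]; exact hq'
  rw [List.getD_eq_getElem _ _ h1, List.getD_eq_getElem _ _ (by rw [hM]; exact hq'),
    List.getElem_map]

theorem sumZ_eq (W : List ℤ) : ((W.sum : ℤ) : ℝ) = ∑ q ∈ range W.length, ((W.getD q 0 : ℤ) : ℝ) := by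
  induction W with
  | nil => simp
  | cons a W ih =>
    rw [List.sum_cons, List.length_cons, Finset.sum_range_succ', Int.cast_add, ih]
    simp [add_comm]

theorem rv_sum (r : Row) (m : ℕ) (c : ℕ → ℝ) (o s z x : ℕ → ℝ) :
    r.rv (∑ i ∈ range m, c i * o i) (∑ i ∈ range m, c i * s i) (∑ i ∈ range m, c i * z i)
      (∑ i ∈ range m, c i * x i) = ∑ i ∈ range m, c i * r.rv (o i) (s i) (z i) (x i) := by
  unfold Row.rv
  simp only [Finset.mul_sum, ← Finset.sum_add_distrib]
  refine Finset.sum_congr rfl fun i _ => ?_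
  ring

section
variable {C0 C2 : CP} (T : Tm C0 C2)
include T

theorem leaf_sound {k cap : ℕ} (u : Fin k → ℝ) (v : ℝ) (x : ℕ → ℝ) (hx0 : x 0 = 1)
    (hxu : ∀ j : Fin k, x (j + 1) = u j) (hxv : x (k + 1) = v) (hv : 0 ≤ v)
    (hsum : ∑ j, u j ≤ 4 / 3) {two : Bool} {Ps : List (List ℤ)} {L : Lf} (hM : Mem Ps x)
    (hchk : chkLeaf k cap two Ps L = true) :
    (two = false → Raw C0 cap u v) ∧ (two = true → Raw C2 cap u v) := by
  obtain ⟨c, hc, hx⟩ := hM
  simp only [chkLeaf, Bool.and_eq_true, List.all_eq_true] at hchk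
  obtain ⟨⟨hshape, hV⟩, hP⟩ := hchk
  have hsp := allPairs_spec (pairOK_comm two) hP
  have hAV := allV_spec hV
  set m := Ps.length with hm
  set M := L.cols.length with hMM
  -- shorthands
  set P : ℕ → List ℤ := fun i => Ps.getD i [] with hPdef
  set w : ℕ → VD := fun i => L.vd.getD i ⟨0, []⟩ with hwdef
  set R : ℕ → VR := fun i => vrec k L.cols (P i) (w i) with hRdef
  set cl : ℕ → Cl := fun q => L.cols.getD q ⟨0, [], [], []⟩ with hcl
  have hclmem : ∀ q < M, cl q ∈ L.cols := by
    intro q hq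
    simp only [hcl]
    rw [List.getD_eq_getElem _ _ hq]; exact List.getElem_mem hq
  have hvok : ∀ i < m, vok k cap L.cols (P i) (w i) = true := fun i hi => (hAV i hi).1
  have hpair : ∀ i < m, ∀ j < m, pairOK two (R i) (R j) = true := fun i hi j hj =>
    hsp _ (hAV i hi).2 _ (hAV j hj).2
  -- unpack the vertex checks
  have hv1 : ∀ i < m, 0 < (P i).getD 0 0 ∧ 0 < (w i).D ∧ (∀ z ∈ (w i).W, 0 ≤ z) ∧
      (w i).W.length = M ∧ (cap : ℤ) * (w i).W.sum ≤ (w i).D ∧
      (∀ j < k, 2 * dotZ (w i).W (L.cols.map fun c => (c.n j : ℤ)) = (w i).D) ∧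
      (∀ c ∈ L.cols, colOK c (P i) = true ∧ smOK k c (P i) = true) := by
    intro i hi
    have := hvok i hi
    simp only [vok, Bool.and_eq_true, decide_eq_true_eq, List.all_eq_true, beq_iff_eq,
      List.mem_range] at this
    obtain ⟨⟨⟨⟨⟨⟨h1, h2⟩, h3⟩, h4⟩, h5⟩, h6⟩, h7⟩ := this
    exact ⟨h1, h2, h3, h4, h5, h6, h7⟩
  set o : ℕ → ℝ := fun i => ((P i).getD 0 0 : ℤ) with ho
  set D : ℕ → ℝ := fun i => ((w i).D : ℤ) with hD
  have hD0 : ∀ i < m, 0 < D i := fun i hi => by
    have := (hv1 i hi).2.1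
    simp only [hD]; exact_mod_cast this
  set a : ℕ → ℝ := fun i => c i * o i / D i with ha
  have hao : ∑ i ∈ range m, c i * o i = 1 := by
    have := hx 0
    rw [hx0] at this
    exact this.symm
  have haD : ∑ i ∈ range m, a i * D i = 1 := by
    rw [← hao]
    refine Finset.sum_congr rfl fun i hi => ?_
    have := hD0 i (Finset.mem_range.1 hi)
    simp only [ha]; field_simp
  have ha0 : ∀ i < m, 0 ≤ a i := fun i hi => by
    have h1 := (hv1 i hi).1
    have : 0 < o i := by simp only [ho]; exact_mod_cast h1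
    exact div_nonneg (mul_nonneg (hc i) this.le) (hD0 i hi).le
  -- the weights and the lengths
  set Wr : ℕ → ℕ → ℝ := fun i q => (((w i).W.getD q 0 : ℤ) : ℝ) with hWr
  have hWr0 : ∀ i < m, ∀ q < M, 0 ≤ Wr i q := by
    intro i hi q hq
    obtain ⟨-, -, h3, h4, -⟩ := hv1 i hi
    have hq' : q < (w i).W.length := by rw [h4]; exact hq
    have : (w i).W.getD q 0 ∈ (w i).W := by
      rw [List.getD_eq_getElem _ _ hq']; exact List.getElem_mem hq'
    simp only [hWr]; exact_mod_cast h3 _ this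
  set Nr : ℕ → ℕ → ℝ := fun i q => ((colN (cl q) (P i) : ℤ) : ℝ) with hNr
  set p : ℕ → ℝ := fun q => ∑ i ∈ range m, a i * Wr i q with hp
  set N : ℕ → ℝ := fun q => (∑ i ∈ range m, c i * Nr i q) / 599760 with hN
  have hp0 : ∀ q < M, 0 ≤ p q := fun q hq => Finset.sum_nonneg fun i hi =>
    mul_nonneg (ha0 i (Finset.mem_range.1 hi)) (hWr0 i (Finset.mem_range.1 hi) q hq)
  -- multiplicities
  have hmul : ∀ j < k, ∑ q ∈ range M, p q * ((cl q).n j : ℝ) = 1 / 2 := by
    intro j hj
    simp only [hp, Finset.sum_mul]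
    rw [Finset.sum_comm]
    have e : ∀ i ∈ range m, ∑ q ∈ range M, a i * Wr i q * ((cl q).n j : ℝ) = a i * D i / 2 := by
      intro i hi
      have hi' := Finset.mem_range.1 hi
      obtain ⟨-, -, -, h4, -, h6, -⟩ := hv1 i hi'
      have h7 := h6 j hj
      have h8 := dotZ_map (w i).W h4 L.cols (fun c => (c.n j : ℤ)) rfl
      have h9 : (2 : ℝ) * ∑ q ∈ range M, Wr i q * ((cl q).n j : ℝ) = D i := by
        have := congrArg (fun z : ℤ => (z : ℝ)) h7
        simp only [Int.cast_mul, Int.cast_ofNat] at this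
        rw [h8] at this
        simpa only [Int.cast_natCast] using this
      calc ∑ q ∈ range M, a i * Wr i q * ((cl q).n j : ℝ)
          = a i * ∑ q ∈ range M, Wr i q * ((cl q).n j : ℝ) := by
            rw [Finset.mul_sum]; exact Finset.sum_congr rfl fun q _ => by ring
        _ = a i * D i / 2 := by rw [← h9]; ring
    rw [Finset.sum_congr rfl e, ← Finset.sum_div, haD]
  -- columns
  have hcolr : ∀ q < M, ROK (cl q).kind (mass u v (cl q).F) (mass u v (cl q).Z)
      (mass u v (cl q).X) (N q) := by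
    intro q hq
    have hmem := hclmem q hq
    have hsh := (hshape _ hmem)
    have hlen := hsh.1
    simp only [Cl.shape, Bool.and_eq_true, beq_iff_eq] at hlen
    obtain ⟨⟨⟨hF, hZ⟩, hX⟩, -⟩ := hlen
    have eF := mass_eq hxu hxv hF hx
    have eZ := mass_eq hxu hxv hZ hx
    have eX := mass_eq hxu hxv hX hx
    rw [eF, eZ, eX]
    have hck : ∀ i < m, (∀ r ∈ consOf (cl q).kind,
        0 ≤ r.val ((P i).getD 0 0) (dotN (cl q).F (P i).tail) (dotN (cl q).Z (P i).tail)
          (dotN (cl q).X (P i).tail)) ∧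
        599760 * (dotN (cl q).F (P i).tail + dotN (cl q).Z (P i).tail + dotN (cl q).X (P i).tail)
          ≤ colN (cl q) (P i) := by
      intro i hi
      have := ((hv1 i hi).2.2.2.2.2.2 _ hmem).1
      simpa only [colOK, Bool.and_eq_true, decide_eq_true_eq, List.all_eq_true] using this
    refine ⟨fun r hr => ?_, fun r hr => ?_, ?_⟩
    · rw [← hao, rv_sum r m c o]
      refine Finset.sum_nonneg fun i hi => mul_nonneg (hc i) ?_
      have := (hck i (Finset.mem_range.1 hi)).1 r hr
      simp only [ho]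
      rw [Row.rv_cast]; exact_mod_cast this
    · rw [← hao, rv_sum r m c o]
      have : 599760 * N q = ∑ i ∈ range m, c i * Nr i q := by simp only [hN]; ring
      rw [this]
      refine Finset.sum_le_sum fun i hi => mul_le_mul_of_nonneg_left ?_ (hc i)
      simp only [hNr, ho]
      rw [Row.rv_cast]
      exact_mod_cast minCap_le hr _ _ _ _
    · have : N q = ∑ i ∈ range m, c i * (Nr i q / 599760) := by
        simp only [hN, Finset.sum_div]
        exact Finset.sum_congr rfl fun i _ => by ring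
      rw [this, ← Finset.sum_add_distrib, ← Finset.sum_add_distrib]
      refine Finset.sum_le_sum fun i hi => ?_
      have h3 := (hck i (Finset.mem_range.1 hi)).2
      have h4 : (599760 : ℝ) * (((dotN (cl q).F (P i).tail : ℤ) : ℝ)
          + ((dotN (cl q).Z (P i).tail : ℤ) : ℝ) + ((dotN (cl q).X (P i).tail : ℤ) : ℝ))
          ≤ Nr i q := by
        simp only [hNr]; exact_mod_cast h3
      have h5 : ((dotN (cl q).F (P i).tail : ℤ) : ℝ)
          + ((dotN (cl q).Z (P i).tail : ℤ) : ℝ) + ((dotN (cl q).X (P i).tail : ℤ) : ℝ)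
          ≤ Nr i q / 599760 := by rw [le_div_iff₀ (by norm_num)]; linarith
      nlinarith [hc i]
  have hsmr : ∀ q < M, SOK u v (cl q) := by
    intro q hq hsmk
    have hmem := hclmem q hq
    have hck : ∀ i < m, ∀ a < k + 1, (cl q).F.getD a 0 + (cl q).Z.getD a 0 ≠ 0 →
        25 * (P i).getD (a + 1) 0 ≤ 4 * (P i).getD 0 0 := by
      intro i hi a ha hne
      have h := ((hv1 i hi).2.2.2.2.2.2 _ hmem).2
      simp only [smOK, hsmk, Bool.not_true, Bool.false_or, List.all_eq_true, List.mem_range,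
        Bool.or_eq_true, beq_iff_eq, decide_eq_true_eq] at h
      rcases h a ha with h | h
      · exact absurd h hne
      · exact h
    have key : ∀ a < k + 1, (cl q).F.getD a 0 + (cl q).Z.getD a 0 ≠ 0 → 25 * x (a + 1) ≤ 4 := by
      intro a ha hne
      rw [hx (a + 1)]
      calc 25 * ∑ i ∈ range m, c i * en (P i) (a + 1)
          = ∑ i ∈ range m, c i * (25 * en (P i) (a + 1)) := by
            rw [Finset.mul_sum]; exact Finset.sum_congr rfl fun i _ => by ring
        _ ≤ ∑ i ∈ range m, c i * (4 * o i) := by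
            refine Finset.sum_le_sum fun i hi => mul_le_mul_of_nonneg_left ?_ (hc i)
            have := hck i (Finset.mem_range.1 hi) a ha hne
            simp only [ho, en]
            exact_mod_cast this
        _ = 4 := by
            have : ∑ i ∈ range m, c i * (4 * o i) = 4 * ∑ i ∈ range m, c i * o i := by
              rw [Finset.mul_sum]; exact Finset.sum_congr rfl fun i _ => by ring
            rw [this, hao, mul_one]
    refine ⟨fun j hj => ?_, fun hj => ?_⟩
    · rw [← hxu j]; exact key j (by omega) hj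
    · rw [← hxv]; exact key k (by omega) hj
  -- sum of the weights
  have hsw : ∑ q ∈ range M, p q = ∑ i ∈ range m, a i * (((w i).W.sum : ℤ) : ℝ) := by
    simp only [hp]
    rw [Finset.sum_comm]
    refine Finset.sum_congr rfl fun i hi => ?_
    obtain ⟨-, -, -, h4, -⟩ := hv1 i (Finset.mem_range.1 hi)
    rw [sumZ_eq, h4, Finset.mul_sum]
  have hplec : (cap : ℝ) * ∑ q ∈ range M, p q ≤ 1 := by
    rw [hsw, ← haD, Finset.mul_sum]
    refine Finset.sum_le_sum fun i hi => ?_
    obtain ⟨-, -, -, -, h5, -⟩ := hv1 i (Finset.mem_range.1 hi)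
    have h5' : (cap : ℝ) * (((w i).W.sum : ℤ) : ℝ) ≤ D i := by simp only [hD]; exact_mod_cast h5
    have := mul_le_mul_of_nonneg_left h5' (ha0 i (Finset.mem_range.1 hi))
    linarith
  have hvx : v = ∑ i ∈ range m, c i * (((P i).getD (k + 1) 0 : ℤ) : ℝ) := by
    rw [← hxv]; exact hx (k + 1)
  have hUx : ∑ j, u j = ∑ i ∈ range m, c i * (((R i).U : ℤ) : ℝ) := by
    have e1 : ∀ j : Fin k, u j = ∑ i ∈ range m, c i * en (P i) (j + 1) := fun j => by
      rw [← hxu j]; exact hx (j + 1)
    simp only [e1]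
    rw [Finset.sum_comm]
    refine Finset.sum_congr rfl fun i _ => ?_
    rw [← Finset.mul_sum]
    congr 1
    simp only [hRdef, vrec]
    rw [dotN_tail, List.length_replicate, Finset.sum_range]
    refine Finset.sum_congr rfl fun j _ => ?_
    have : (List.replicate k 1).getD (j : ℕ) 0 = 1 := by
      rw [List.getD_eq_getElem _ _ (by simp), List.getElem_replicate]
    rw [this]; simp
  -- bilinear quantities
  have hlin : ∀ (g : Cl → List ℤ → ℤ),
      ∑ q ∈ range M, p q * (∑ j ∈ range m, c j * ((g (cl q) (P j) : ℤ) : ℝ))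
        = ∑ i ∈ range m, ∑ j ∈ range m, a i * c j
          * ((dotZ (w i).W (L.cols.map fun c => g c (P j)) : ℤ) : ℝ) := by
    intro g
    simp only [hp]
    rw [bil m M a c Wr (fun j q => ((g (cl q) (P j) : ℤ) : ℝ))]
    refine Finset.sum_congr rfl fun i hi => Finset.sum_congr rfl fun j _ => ?_
    obtain ⟨-, -, -, h4, -⟩ := hv1 i (Finset.mem_range.1 hi)
    rw [dotZ_map (w i).W h4 L.cols (fun c => g c (P j)) rfl]
  have hDU : 3 * ∑ j, u j = ∑ i ∈ range m, ∑ j ∈ range m, a i * c j
      * (((3 * (w i).D * (R j).U : ℤ)) : ℝ) := by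
    calc 3 * ∑ j, u j = (∑ i ∈ range m, a i * D i) * (3 * ∑ j, u j) := by rw [haD, one_mul]
      _ = _ := by
        rw [hUx, Finset.mul_sum, Finset.sum_mul_sum]
        refine Finset.sum_congr rfl fun i _ => Finset.sum_congr rfl fun j _ => ?_
        simp only [hD]; push_cast; ring
  have hTt : ∀ (tt : Cl → ℕ) (q : ℕ), (4 : ℝ) - 6 * ((tt (cl q) : ℝ) * v)
      = ∑ j ∈ range m, c j * (((4 * (P j).getD 0 0
        - 6 * (tt (cl q) : ℤ) * (P j).getD (k + 1) 0 : ℤ)) : ℝ) := by
    intro tt q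
    have h1 : (4 : ℝ) = ∑ j ∈ range m, c j * (4 * o j) := by
      calc (4 : ℝ) = 4 * ∑ i ∈ range m, c i * o i := by rw [hao, mul_one]
        _ = _ := by rw [Finset.mul_sum]; exact Finset.sum_congr rfl fun i _ => by ring
    have h2 : 6 * ((tt (cl q) : ℝ) * v)
        = ∑ j ∈ range m, c j * (6 * (tt (cl q) : ℝ) * (((P j).getD (k + 1) 0 : ℤ) : ℝ)) := by
      rw [hvx, Finset.mul_sum, Finset.mul_sum]
      exact Finset.sum_congr rfl fun i _ => by ring
    rw [h1, h2, ← Finset.sum_sub_distrib]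
    refine Finset.sum_congr rfl fun j _ => ?_
    simp only [ho]; push_cast; ring
  have hR1 : ∀ (tt : Cl → ℕ), 4 * (3 / 4 * (∑ j, u j)
      - ∑ q ∈ range M, p q * (1 - 3 / 2 * ((tt (cl q) : ℝ) * v)))
      = ∑ i ∈ range m, ∑ j ∈ range m, a i * c j * (((3 * (w i).D * (R j).U
        - dotZ (w i).W (L.cols.map fun c => 4 * (P j).getD 0 0
            - 6 * (tt c : ℤ) * (P j).getD (k + 1) 0) : ℤ)) : ℝ) := by
    intro tt
    have h1 : 4 * (3 / 4 * (∑ j, u j)
        - ∑ q ∈ range M, p q * (1 - 3 / 2 * ((tt (cl q) : ℝ) * v)))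
        = 3 * ∑ j, u j - ∑ q ∈ range M, p q * (4 - 6 * ((tt (cl q) : ℝ) * v)) := by
      have : ∑ q ∈ range M, p q * (4 - 6 * ((tt (cl q) : ℝ) * v))
          = 4 * ∑ q ∈ range M, p q * (1 - 3 / 2 * ((tt (cl q) : ℝ) * v)) := by
        rw [Finset.mul_sum]; exact Finset.sum_congr rfl fun q _ => by ring
      rw [this]; ring
    rw [h1, hDU]
    have h2 : ∑ q ∈ range M, p q * (4 - 6 * ((tt (cl q) : ℝ) * v))
        = ∑ i ∈ range m, ∑ j ∈ range m, a i * c j
          * ((dotZ (w i).W (L.cols.map fun c => 4 * (P j).getD 0 0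
            - 6 * (tt c : ℤ) * (P j).getD (k + 1) 0) : ℤ) : ℝ) := by
      rw [← hlin (fun c Q => 4 * Q.getD 0 0 - 6 * (tt c : ℤ) * Q.getD (k + 1) 0)]
      refine Finset.sum_congr rfl fun q _ => ?_
      rw [hTt tt q]
    rw [h2, ← Finset.sum_sub_distrib]
    refine Finset.sum_congr rfl fun i _ => ?_
    rw [← Finset.sum_sub_distrib]
    refine Finset.sum_congr rfl fun j _ => ?_
    push_cast; ring
  have hBN : 599760 * ∑ q ∈ range M, p q * (N q - 5 / 6)
      = ∑ i ∈ range m, ∑ j ∈ range m, a i * c j * ((be (R i) (R j) : ℤ) : ℝ) := by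
    have h1 : ∀ q, 599760 * (N q - 5 / 6)
        = ∑ j ∈ range m, c j * (((colN (cl q) (P j) - 499800 * (P j).getD 0 0 : ℤ)) : ℝ) := by
      intro q
      have e1 : 599760 * (N q - 5 / 6) = (∑ i ∈ range m, c i * Nr i q) - 499800 * 1 := by
        simp only [hN]; ring
      rw [e1, ← hao, Finset.mul_sum, ← Finset.sum_sub_distrib]
      refine Finset.sum_congr rfl fun j _ => ?_
      simp only [hNr, ho]; push_cast; ring
    have h2 : 599760 * ∑ q ∈ range M, p q * (N q - 5 / 6)
        = ∑ q ∈ range M, p q * (599760 * (N q - 5 / 6)) := by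
      rw [Finset.mul_sum]; exact Finset.sum_congr rfl fun q _ => by ring
    rw [h2]
    simp only [h1]
    rw [hlin (fun c Q => colN c Q - 499800 * Q.getD 0 0)]
    rfl
  -- the four inequalities
  have hpr : ∀ i < m, ∀ j < m, 0 ≤ sym al (R i) (R j) ∧ 0 ≤ sym be (R i) (R j) ∧
      0 ≤ sym ga (R i) (R j) ∧ (two = true → 0 ≤ sym de (R i) (R j)) := by
    intro i hi j hj
    have := hpair i hi j hj
    simp only [pairOK, Bool.and_eq_true, decide_eq_true_eq, Bool.or_eq_true,
      Bool.not_eq_true'] at this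
    obtain ⟨⟨⟨h1, h2⟩, h3⟩, h4⟩ := this
    refine ⟨h1, h2, h3, fun ht => ?_⟩
    rcases h4 with h4 | h4
    · rw [ht] at h4; exact absurd h4 (by decide)
    · exact h4
  have hbern : ∀ (G : VR → VR → ℤ), (∀ i < m, ∀ j < m, 0 ≤ sym G (R i) (R j)) →
      0 ≤ ∑ i ∈ range m, ∑ j ∈ range m, a i * c j * ((G (R i) (R j) : ℤ) : ℝ) := by
    intro G hG
    refine bern m c o D hc hD0 (fun i j => ((G (R i) (R j) : ℤ) : ℝ)) fun i hi j hj => ?_
    have h := hG i hi j hj
    have h' : (0 : ℝ) ≤ ((sym G (R i) (R j) : ℤ) : ℝ) := by exact_mod_cast h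
    have e : ((sym G (R i) (R j) : ℤ) : ℝ) = o i * D j * ((G (R i) (R j) : ℤ) : ℝ)
        + o j * D i * ((G (R j) (R i) : ℤ) : ℝ) := by
      unfold sym
      simp only [ho, hD, hRdef, vrec]
      push_cast; ring
    rw [e] at h'
    exact h'
  have Fsum : ∀ f : ℕ → ℝ, ∑ q : Fin M, f q = ∑ q ∈ range M, f q := fun f =>
    (Finset.sum_range f).symm
  have hR1t : 4 * R₁ u v (fun q : Fin M => p q) (fun q : Fin M => (cl q).t k)
      = ∑ i ∈ range m, ∑ j ∈ range m, a i * c j * ((al (R i) (R j) : ℤ) : ℝ) := by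
    unfold R₁
    rw [Fsum (fun q => p q * (1 - 3 / 2 * (((cl q).t k : ℝ) * v))), hR1 (fun c => c.t k)]
    rfl
  have hR1t0 : 4 * R₁ u v (fun q : Fin M => p q) (fun q : Fin M => (cl q).t0 k)
      = ∑ i ∈ range m, ∑ j ∈ range m, a i * c j * ((al0 (R i) (R j) : ℤ) : ℝ) := by
    unfold R₁
    rw [Fsum (fun q => p q * (1 - 3 / 2 * (((cl q).t0 k : ℝ) * v))), hR1 (fun c => c.t0 k)]
    rfl
  have hαR : 0 ≤ R₁ u v (fun q : Fin M => p q) (fun q : Fin M => (cl q).t k) := by
    have := hbern al fun i hi j hj => (hpr i hi j hj).1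
    linarith
  have hβR : 0 ≤ ∑ q : Fin M, p q * (N q - 5 / 6) := by
    rw [Fsum (fun q => p q * (N q - 5 / 6))]
    have := hbern be fun i hi j hj => (hpr i hi j hj).2.1
    linarith
  have hγR : R₁ u v (fun q : Fin M => p q) (fun q : Fin M => (cl q).t0 k) / 6
      ≤ ∑ q : Fin M, p q * (N q - 5 / 6) := by
    rw [Fsum (fun q => p q * (N q - 5 / 6))]
    have h := hbern ga fun i hi j hj => (hpr i hi j hj).2.2.1
    have e : ∑ i ∈ range m, ∑ j ∈ range m, a i * c j * ((ga (R i) (R j) : ℤ) : ℝ)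
        = 2 * (∑ i ∈ range m, ∑ j ∈ range m, a i * c j * ((be (R i) (R j) : ℤ) : ℝ))
          - 49980 * ∑ i ∈ range m, ∑ j ∈ range m, a i * c j * ((al0 (R i) (R j) : ℤ) : ℝ) := by
      simp only [Finset.mul_sum, ← Finset.sum_sub_distrib]
      refine Finset.sum_congr rfl fun i _ => Finset.sum_congr rfl fun j _ => ?_
      unfold ga; push_cast; ring
    rw [e, ← hBN, ← hR1t0] at h
    linarith
  have hnn : ∀ q : Fin M, 0 ≤ p q := fun q => hp0 q q.2
  have hmm : ∀ j : Fin k, ∑ q : Fin M, p q * ((cl q).n j : ℝ) = 1 / 2 := fun j => by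
    rw [Fsum (fun q => p q * ((cl q).n j : ℝ))]; exact hmul j j.2
  have hpp : (cap : ℝ) * ∑ q : Fin M, p q ≤ 1 := by rw [Fsum p]; exact hplec
  constructor
  · intro ht
    have hk0 : ∀ q : Fin M, isC0 (cl q).kind = true := fun q => by
      have := hshape _ (hclmem q q.2)
      rw [ht] at this
      simpa using this.2
    have hs0 : ∀ q : Fin M, (cl q).shape k = true := fun q => by
      have := hshape _ (hclmem q q.2)
      exact this.1
    refine ⟨M, fun q : Fin M => p q, fun q j => (cl q).n j,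
      fun q => (cl q).t k, fun q => (cl q).t0 k, fun q => N q, hnn, hmm,
      fun q => sound0 T u v (cl q) (N q) (hs0 q) (hk0 q) (hcolr q q.2) (hsmr q q.2), fun q => ?_, hpp,
      hαR, hβR, hγR, ?_⟩
    · have : (cl q).t0 k = 0 := by unfold Cl.t0; rw [hk0 q]; rfl
      show C0 v (lum u fun j => (cl q).n j) ((cl q).t0 k) (N q)
      rw [this]
      exact T.zero hv (sound0 T u v (cl q) (N q) (hs0 q) (hk0 q) (hcolr q q.2) (hsmr q q.2))
    · unfold R₁
      have e : ∀ q : Fin M, ((cl q).t0 k : ℝ) = 0 := fun q => by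
        have : (cl q).t0 k = 0 := by unfold Cl.t0; rw [hk0 q]; rfl
        rw [this]; simp
      simp only [e, zero_mul, mul_zero, sub_zero, mul_one]
      linarith
  · intro ht
    have hs0 : ∀ q : Fin M, (cl q).shape k = true := fun q => by
      have := hshape _ (hclmem q q.2)
      exact this.1
    have hδR : R₁ u v (fun q : Fin M => p q) (fun q : Fin M => (cl q).t0 k)
        ≤ 1 - ∑ q : Fin M, p q := by
      have h := hbern de fun i hi j hj => (hpr i hi j hj).2.2.2 ht
      have e : ∑ i ∈ range m, ∑ j ∈ range m, a i * c j * ((de (R i) (R j) : ℤ) : ℝ)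
          = 4 * (1 - ∑ q : Fin M, p q)
            - ∑ i ∈ range m, ∑ j ∈ range m, a i * c j * ((al0 (R i) (R j) : ℤ) : ℝ) := by
        have e1 : 4 * (1 - ∑ q : Fin M, p q) = ∑ i ∈ range m, ∑ j ∈ range m, a i * c j
            * (((4 * ((R i).D - (R i).sw) * (R j).o : ℤ)) : ℝ) := by
          have : (1 : ℝ) - ∑ q : Fin M, p q
              = ∑ i ∈ range m, a i * (D i - (((w i).W.sum : ℤ) : ℝ)) := by
            rw [Fsum p, hsw, ← haD, ← Finset.sum_sub_distrib]
            exact Finset.sum_congr rfl fun i _ => by ring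
          calc 4 * (1 - ∑ q : Fin M, p q)
              = (∑ i ∈ range m, a i * (D i - (((w i).W.sum : ℤ) : ℝ)))
                * (4 * ∑ j ∈ range m, c j * o j) := by rw [this, hao]; ring
            _ = _ := by
              rw [Finset.mul_sum, Finset.sum_mul_sum]
              refine Finset.sum_congr rfl fun i _ => Finset.sum_congr rfl fun j _ => ?_
              simp only [hD, ho, hRdef, vrec]; push_cast; ring
        rw [e1, ← Finset.sum_sub_distrib]
        refine Finset.sum_congr rfl fun i _ => ?_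
        rw [← Finset.sum_sub_distrib]
        refine Finset.sum_congr rfl fun j _ => ?_
        unfold de; push_cast; ring
      rw [e, ← hR1t0] at h
      linarith
    refine ⟨M, fun q : Fin M => p q, fun q j => (cl q).n j,
      fun q => (cl q).t k, fun q => (cl q).t0 k, fun q => N q, hnn, hmm,
      fun q => sound2 T u v (cl q) (N q) (hs0 q) (hcolr q q.2) (hsmr q q.2), fun q => ?_, hpp,
      hαR, hβR, hγR, hδR⟩
    by_cases hk : isC0 (cl q).kind = true
    · have : (cl q).t0 k = 0 := by unfold Cl.t0; rw [hk]; rfl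
      show C2 v (lum u fun j => (cl q).n j) ((cl q).t0 k) (N q)
      rw [this]
      exact T.of0 (T.zero hv (sound0 T u v (cl q) (N q) (hs0 q) hk (hcolr q q.2) (hsmr q q.2)))
    · have : (cl q).t0 k = (cl q).t k := by
        unfold Cl.t0
        rw [Bool.not_eq_true] at hk
        rw [hk]; rfl
      show C2 v (lum u fun j => (cl q).n j) ((cl q).t0 k) (N q)
      rw [this]
      exact sound2 T u v (cl q) (N q) (hs0 q) (hcolr q q.2) (hsmr q q.2)

end

end Crest.Agent.R017.SX90
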