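import Crest.Agent.R017.SimplexChk_90

/-!
# Coverage : certificates of the one-lump lemma (helper90, generated)
-/

set_option autoImplicit false
set_option maxRecDepth 100000

namespace Crest.Agent.R017.SX90.Single

def s1a : Cert where
  base := [([50,7],[4,-27],1),([27,4],[-7,50],1)]
  L := 11
  d := 200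
  n₀ := 7
  n₁ := 14
  G := []
  trees := [.leaf ⟨[⟨0,[2,0],[0,3],[1,0]⟩,⟨0,[2,0],[1,1],[1,0]⟩,⟨5,[2,0],[2,0],[1,0]⟩],[⟨94,[0,3,7]⟩,⟨100,[2,1,8]⟩,⟨100,[5,0,7]⟩]⟩,
    .leaf ⟨[⟨0,[2,0],[0,4],[0,3]⟩,⟨0,[2,0],[0,3],[1,0]⟩,⟨0,[2,0],[1,1],[1,0]⟩,⟨5,[2,0],[2,0],[1,0]⟩],[⟨94,[0,0,3,7]⟩,⟨106,[1,2,0,9]⟩,⟨100,[0,5,0,7]⟩]⟩]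
def s1b : Cert where
  base := [([50,7],[4,-27],1),([27,4],[-7,50],1)]
  L := 11
  d := 100
  n₀ := 7
  n₁ := 14
  G := []
  trees := [.leaf ⟨[⟨0,[2,0],[1,0],[1,0]⟩,⟨5,[2,0],[2,0],[1,0]⟩],[⟨96,[2,8]⟩,⟨96,[2,8]⟩,⟨100,[5,6]⟩]⟩,
    .leaf ⟨[⟨0,[2,0],[0,2],[1,0]⟩,⟨0,[2,0],[1,0],[1,0]⟩,⟨5,[2,0],[2,0],[1,0]⟩],[⟨3076486870,[19258525,54908235,252166984]⟩,⟨438495365365344,[5324857267354,9221517312725,33277408325942]⟩,⟨55376763660,[485982530,2912039505,2916455244]⟩]⟩]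
def s2a : Cert where
  base := [([27,4],[1,-6],1),([6,1],[-4,27],1)]
  L := 3
  d := 5400
  n₀ := 189
  n₁ := 200
  G := []
  trees := [.leaf ⟨[⟨0,[2,0],[0,6],[1,0]⟩,⟨0,[2,0],[0,7],[1,1]⟩,⟨0,[2,0],[1,1],[1,0]⟩,⟨0,[2,0],[1,2],[1,0]⟩],[⟨5904,[643,205,102,0]⟩,⟨1315116,[77438,0,0,106311]⟩,⟨8,[0,0,1,0]⟩]⟩,
    .leaf ⟨[⟨0,[2,0],[0,5],[0,4]⟩,⟨0,[2,0],[0,6],[1,0]⟩,⟨0,[2,0],[0,7],[1,1]⟩,⟨0,[2,0],[1,1],[1,0]⟩],[⟨96,[0,13,3,0]⟩,⟨100,[7,0,0,9]⟩,⟨96,[8,0,0,8]⟩]⟩]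
def s2b : Cert where
  base := [([27,4],[1,-6],1),([6,1],[-4,27],1)]
  L := 3
  d := 2700
  n₀ := 100
  n₁ := 189
  G := []
  trees := [.split 0 2 2 9 (.leaf ⟨[⟨0,[2,0],[0,3],[0,2]⟩,⟨0,[2,0],[0,3],[1,0]⟩,⟨0,[2,0],[1,1],[0,3]⟩,⟨0,[2,0],[1,0],[1,0]⟩,⟨0,[2,0],[1,1],[1,0]⟩],[⟨1444518,[0,0,22957,0,163347]⟩,⟨3211163514,[0,58788590,35740441,0,330498666]⟩,⟨642008,[49680,0,0,55411,0]⟩]⟩) (.split 0 1 1 1 (.split 1 2 4 1 (.leaf ⟨[⟨0,[2,0],[0,3],[0,2]⟩,⟨0,[2,0],[0,4],[0,3]⟩,⟨0,[2,0],[1,2],[0,3]⟩,⟨0,[2,0],[1,0],[1,0]⟩,⟨0,[2,0],[1,1],[1,0]⟩,⟨0,[2,0],[1,2],[1,0]⟩],[⟨998,[0,19,39,0,86,0]⟩,⟨996,[40,43,0,0,83,0]⟩,⟨1000,[0,0,0,17,85,23]⟩]⟩)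 (.split 0 1 1 2 (.leaf ⟨[⟨0,[2,0],[0,4],[0,3]⟩,⟨0,[2,0],[0,3],[1,0]⟩,⟨0,[2,0],[1,0],[1,0]⟩,⟨0,[2,0],[1,1],[1,0]⟩],[⟨100,[3,0,0,11]⟩,⟨106,[1,5,0,9]⟩,⟨102,[4,9,1,3]⟩]⟩) (.leaf ⟨[⟨0,[2,0],[0,4],[0,3]⟩,⟨0,[2,0],[0,3],[1,0]⟩,⟨0,[2,0],[1,2],[0,3]⟩,⟨0,[2,0],[1,1],[1,0]⟩],[⟨998,[19,0,39,86]⟩,⟨1000,[15,0,6,113]⟩,⟨1002,[43,81,0,43]⟩]⟩))) (.split 0 2 4 1 (.leaf ⟨[⟨0,[2,0],[0,4],[0,3]⟩,⟨0,[2,0],[0,5],[0,3]⟩,⟨0,[2,0],[1,2],[0,3]⟩,⟨0,[2,0],[1,0],[1,0]⟩,⟨0,[2,0],[1,1],[1,0]⟩],[⟨998,[6,0,61,0,76]⟩,⟨998,[19,5,33,0,88]⟩,⟨1000,[0,0,0,38,87]⟩]⟩) (.split 0 1 2 1 (.split 1 2 4 1 (.leaf ⟨[⟨0,[2,0],[0,5],[0,4]⟩,⟨0,[2,0],[1,2],[0,4]⟩,⟨0,[2,0],[1,1],[1,0]⟩,⟨0,[2,0],[1,2],[1,1]⟩],[⟨1000,[0,48,86,3]⟩,⟨996,[23,0,113,0]⟩,⟨1000,[0,0,103,22]⟩]⟩)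 (.split 0 1 1 2 (.leaf ⟨[⟨0,[2,0],[0,4],[0,3]⟩,⟨0,[2,0],[0,5],[0,4]⟩,⟨0,[2,0],[1,1],[1,0]⟩,⟨0,[2,0],[1,2],[1,1]⟩],[⟨10004,[833,0,418,416]⟩,⟨10000,[0,212,1144,0]⟩,⟨10000,[0,0,1001,249]⟩]⟩) (.leaf ⟨[⟨0,[2,0],[0,4],[0,3]⟩,⟨0,[2,0],[0,5],[0,4]⟩,⟨0,[2,0],[1,2],[0,4]⟩,⟨0,[2,0],[1,1],[1,0]⟩,⟨0,[2,0],[1,2],[1,1]⟩],[⟨533736,[803,0,15686,45295,9256]⟩,⟨14826,[0,99,401,1503,0]⟩,⟨17072,[0,0,0,1801,333]⟩]⟩))) (.split 0 2 8 1 (.leaf ⟨[⟨0,[2,0],[0,6],[1,1]⟩,⟨0,[2,0],[1,2],[0,4]⟩,⟨0,[2,0],[1,1],[1,0]⟩],[⟨1002,[33,6,96]⟩,⟨1000,[0,52,86]⟩,⟨1000,[12,0,116]⟩]⟩) (.split 0 1 4 1 (.leaf ⟨[⟨0,[2,0],[0,5],[1,0]⟩,⟨0,[2,0],[0,6],[1,1]⟩,⟨0,[2,0],[1,2],[0,4]⟩,⟨0,[2,0],[1,1],[1,0]⟩],[⟨998,[0,0,85,61]⟩,⟨996,[23,0,43,75]⟩,⟨1004,[0,38,0,97]⟩]⟩)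 (.leaf ⟨[⟨0,[2,0],[0,5],[0,4]⟩,⟨0,[2,0],[0,6],[0,4]⟩,⟨0,[2,0],[0,5],[1,0]⟩,⟨0,[2,0],[1,2],[0,4]⟩,⟨0,[2,0],[1,1],[1,0]⟩,⟨0,[2,0],[1,2],[1,0]⟩],[⟨48006,[0,0,0,7997,0,3]⟩,⟨96012,[0,4805,4807,1585,4805,0]⟩,⟨10668,[479,410,0,0,889,0]⟩]⟩)))))),
    .split 0 2 2 9 (.leaf ⟨[⟨0,[2,0],[0,3],[0,2]⟩,⟨0,[2,0],[0,3],[1,0]⟩,⟨0,[2,0],[1,0],[0,2]⟩,⟨0,[2,0],[1,1],[0,3]⟩,⟨0,[2,0],[1,1],[1,0]⟩],[⟨100,[0,0,2,0,11]⟩,⟨102,[2,1,0,0,11]⟩,⟨98,[1,0,8,1,5]⟩]⟩) (.split 0 2 4 1 (.leaf ⟨[⟨0,[2,0],[0,3],[0,2]⟩,⟨0,[2,0],[0,4],[0,3]⟩,⟨0,[2,0],[0,5],[0,3]⟩,⟨0,[2,0],[0,5],[1,0]⟩,⟨0,[2,0],[1,1],[1,0]⟩,⟨0,[2,0],[1,2],[1,0]⟩],[⟨100,[0,0,0,2,8,3]⟩,⟨96,[1,0,3,0,10,0]⟩,⟨100,[0,7,0,0,9,0]⟩]⟩)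 (.split 0 1 2 9 (.leaf ⟨[⟨0,[2,0],[0,5],[0,4]⟩,⟨0,[2,0],[1,1],[0,3]⟩,⟨0,[2,0],[1,2],[0,4]⟩,⟨0,[2,0],[1,1],[1,0]⟩,⟨0,[2,0],[1,2],[1,0]⟩],[⟨110,[1,0,3,10,1]⟩,⟨100,[1,8,0,6,0]⟩,⟨96,[1,0,2,10,0]⟩]⟩) (.split 0 2 8 1 (.leaf ⟨[⟨0,[2,0],[0,5],[0,3]⟩,⟨0,[2,0],[0,5],[0,4]⟩,⟨0,[2,0],[0,5],[1,0]⟩,⟨0,[2,0],[0,6],[1,1]⟩,⟨0,[2,0],[1,2],[0,4]⟩,⟨0,[2,0],[1,1],[1,0]⟩],[⟨98,[0,0,5,0,6,4]⟩,⟨100,[0,2,4,2,0,7]⟩,⟨106,[2,0,7,0,0,7]⟩]⟩) (.leaf ⟨[⟨0,[2,0],[0,5],[0,4]⟩,⟨0,[2,0],[0,6],[0,4]⟩,⟨0,[2,0],[1,2],[0,4]⟩,⟨0,[2,0],[1,1],[1,0]⟩,⟨0,[2,0],[1,2],[1,0]⟩],[⟨548,[0,0,66,0,19]⟩,⟨78912,[433,3637,0,7829,0]⟩,⟨438400,[13633,18581,0,38693,0]⟩]⟩))))]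
def s2c : Cert where
  base := [([27,4],[1,-6],1),([6,1],[-4,27],1)]
  L := 3
  d := 2700
  n₀ := 189
  n₁ := 200
  G := []
  trees := [.split 0 2 2 9 (.leaf ⟨[⟨0,[2,0],[0,3],[0,3]⟩,⟨0,[2,0],[1,0],[1,0]⟩,⟨0,[2,0],[1,1],[1,0]⟩,⟨8,[2,0],[1,1],[1,0]⟩],[⟨12800,[30,786,0,799]⟩,⟨216,[0,0,20,7]⟩,⟨8,[0,1,0,0]⟩]⟩) (.leaf ⟨[⟨0,[2,0],[0,3],[1,0]⟩,⟨0,[2,0],[1,1],[0,3]⟩,⟨0,[2,0],[1,0],[1,0]⟩,⟨0,[2,0],[1,1],[1,0]⟩,⟨8,[2,0],[1,1],[1,0]⟩],[⟨1314,[0,11,0,156,0]⟩,⟨11826,[143,0,0,1371,0]⟩,⟨755019144,[39187000,0,42654843,0,22332300]⟩]⟩),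
    .split 0 2 2 9 (.leaf ⟨[⟨0,[2,0],[0,3],[1,0]⟩,⟨0,[2,0],[1,0],[0,2]⟩,⟨8,[2,0],[1,1],[1,0]⟩],[⟨96,[13,3,0]⟩,⟨104,[7,9,1]⟩,⟨98,[0,11,4]⟩]⟩) (.leaf ⟨[⟨0,[2,0],[0,3],[0,2]⟩,⟨0,[2,0],[0,3],[1,0]⟩,⟨0,[2,0],[1,1],[0,3]⟩,⟨0,[2,0],[1,0],[1,0]⟩,⟨0,[2,0],[1,1],[1,0]⟩,⟨8,[2,0],[1,1],[1,0]⟩],[⟨240084,[0,2357,2365,0,26469,0]⟩,⟨12,[1,0,0,1,0,0]⟩,⟨602501328,[0,29333900,0,34725141,0,18587100]⟩]⟩)]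
def s2d : Cert where
  base := [([27,4],[1,-6],1),([6,1],[-4,27],1)]
  L := 3
  d := 1350
  n₀ := 100
  n₁ := 189
  G := []
  trees := [.split 0 2 2 9 (.split 0 1 1 4 (.split 0 2 1 36 (.split 1 2 2 9 (.leaf ⟨[⟨0,[2,0],[1,0],[0,1]⟩,⟨0,[2,0],[1,0],[1,0]⟩,⟨8,[0,2],[1,1],[1,0]⟩],[⟨102,[1,8,8]⟩,⟨96,[0,9,6]⟩,⟨96,[6,6,3]⟩]⟩) (.split 0 1 1 16 (.split 1 2 4 1 (.split 0 2 1 8 (.leaf ⟨[⟨0,[2,0],[1,0],[1,0]⟩,⟨8,[0,2],[1,1],[1,0]⟩],[⟨100,[9,7]⟩,⟨96,[8,8]⟩,⟨104,[10,6]⟩]⟩) (.leaf ⟨[⟨0,[2,0],[1,0],[0,1]⟩,⟨8,[0,2],[2,0],[1,0]⟩],[⟨96,[7,9]⟩,⟨102,[8,9]⟩,⟨102,[9,8]⟩]⟩)) (.leaf ⟨[⟨0,[2,0],[1,0],[0,1]⟩,⟨0,[2,0],[1,0],[1,0]⟩,⟨8,[0,2],[2,0],[1,0]⟩],[⟨98,[0,7,7]⟩,⟨96,[6,0,10]⟩,⟨98,[0,7,7]⟩]⟩))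 (.split 0 2 1 4 (.split 1 2 1 8 (.leaf ⟨[⟨0,[2,0],[1,0],[0,1]⟩,⟨0,[2,0],[1,0],[1,0]⟩,⟨8,[0,2],[1,1],[1,0]⟩],[⟨96,[2,7,7]⟩,⟨104,[0,9,8]⟩,⟨106,[1,9,7]⟩]⟩) (.leaf ⟨[⟨0,[2,0],[1,0],[0,1]⟩,⟨0,[2,0],[1,0],[1,0]⟩,⟨8,[0,2],[2,0],[1,0]⟩],[⟨96,[9,0,7]⟩,⟨96,[7,0,9]⟩,⟨102,[2,6,7]⟩]⟩)) (.leaf ⟨[⟨0,[2,0],[1,0],[0,1]⟩,⟨0,[2,0],[1,0],[1,0]⟩,⟨8,[0,2],[2,0],[1,0]⟩],[⟨102,[9,0,8]⟩,⟨96,[7,0,9]⟩,⟨102,[3,6,6]⟩]⟩)))) (.leaf ⟨[⟨0,[2,0],[1,0],[0,1]⟩,⟨0,[2,0],[1,0],[1,0]⟩,⟨8,[1,1],[1,1],[1,0]⟩],[⟨96,[2,3,10]⟩,⟨102,[3,3,10]⟩,⟨94,[0,8,5]⟩]⟩)) (.split 0 2 1 18 (.split 1 2 1 36 (.leaf ⟨[⟨0,[2,0],[1,0],[0,1]⟩,⟨0,[2,0],[1,0],[1,0]⟩,⟨8,[1,1],[0,2],[1,0]⟩],[⟨102,[1,8,8]⟩,⟨96,[0,9,6]⟩,⟨96,[2,10,1]⟩]⟩)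 (.leaf ⟨[⟨0,[2,0],[1,0],[0,1]⟩,⟨0,[2,0],[1,0],[1,0]⟩,⟨8,[1,1],[1,1],[1,0]⟩],[⟨104,[3,7,5]⟩,⟨94,[0,5,9]⟩,⟨96,[0,9,4]⟩]⟩)) (.leaf ⟨[⟨0,[2,0],[0,2],[1,0]⟩,⟨0,[2,0],[1,0],[0,1]⟩,⟨0,[2,0],[1,0],[1,0]⟩,⟨8,[1,1],[1,1],[1,0]⟩],[⟨98,[1,0,4,10]⟩,⟨98,[1,1,4,9]⟩,⟨94,[0,1,8,4]⟩]⟩))) (.leaf ⟨[⟨0,[2,0],[0,2],[1,0]⟩,⟨0,[2,0],[1,0],[1,0]⟩,⟨8,[2,0],[1,1],[1,0]⟩],[⟨8,[0,0,1]⟩,⟨19857600,[107156,1175245,1226588]⟩,⟨54767260800,[25475324,4100659555,2726141552]⟩]⟩),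
    .split 0 2 2 9 (.split 1 2 1 1 (.split 0 2 1 18 (.split 1 2 1 2 (.leaf ⟨[⟨0,[2,0],[1,0],[0,1]⟩,⟨0,[2,0],[1,0],[1,0]⟩,⟨8,[1,1],[0,2],[1,0]⟩],[⟨102,[1,8,8]⟩,⟨98,[3,8,4]⟩,⟨96,[2,10,1]⟩]⟩) (.leaf ⟨[⟨0,[2,0],[1,0],[0,1]⟩,⟨0,[2,0],[1,0],[1,0]⟩,⟨8,[1,1],[1,1],[1,0]⟩],[⟨98,[7,1,8]⟩,⟨96,[6,0,10]⟩,⟨98,[6,4,5]⟩]⟩)) (.leaf ⟨[⟨0,[2,0],[0,2],[1,0]⟩,⟨0,[2,0],[1,0],[0,1]⟩,⟨0,[2,0],[1,0],[1,0]⟩,⟨8,[1,1],[1,1],[1,0]⟩],[⟨102,[4,3,0,10]⟩,⟨98,[0,6,1,9]⟩,⟨96,[4,8,0,4]⟩]⟩)) (.split 0 1 1 18 (.split 1 2 2 1 (.leaf ⟨[⟨0,[2,0],[0,2],[0,1]⟩,⟨0,[2,0],[0,2],[0,2]⟩,⟨0,[2,0],[0,2],[1,0]⟩,⟨0,[2,0],[1,0],[0,1]⟩,⟨0,[2,0],[1,0],[1,0]⟩],[⟨1002,[0,10,147,0,10]⟩,⟨998,[15,0,71,0,64]⟩,⟨998,[0,0,8,5,115]⟩]⟩)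 (.leaf ⟨[⟨0,[2,0],[0,2],[0,1]⟩,⟨0,[2,0],[1,0],[1,0]⟩,⟨8,[2,0],[1,1],[1,0]⟩],[⟨100,[7,0,9]⟩,⟨100,[5,0,10]⟩,⟨100,[7,3,6]⟩]⟩)) (.leaf ⟨[⟨0,[2,0],[0,2],[0,2]⟩,⟨0,[2,0],[0,2],[1,0]⟩,⟨0,[2,0],[1,0],[1,0]⟩],[⟨100,[2,6,7]⟩,⟨102,[1,15,1]⟩,⟨102,[0,1,12]⟩]⟩))) (.leaf ⟨[⟨0,[2,0],[0,2],[0,2]⟩,⟨0,[2,0],[1,0],[1,0]⟩,⟨0,[2,0],[1,1],[1,0]⟩,⟨8,[2,0],[1,1],[1,0]⟩],[⟨131784,[0,0,3500,12973]⟩,⟨2224144,[13350,253543,17800,0]⟩,⟨43928,[0,3591,1050,850]⟩]⟩)]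
def s3a : Cert where
  base := [([6,1],[2,-9],1),([9,2],[-1,6],1)]
  L := 3
  d := 200
  n₀ := 7
  n₁ := 14
  G := []
  trees := [.split 0 2 3 2 (.split 1 2 3 2 (.leaf ⟨[⟨0,[2,0],[1,0],[0,2]⟩],[⟨6,[1]⟩,⟨6,[1]⟩,⟨6,[1]⟩]⟩) (.leaf ⟨[⟨0,[2,0],[0,3],[1,0]⟩,⟨0,[2,0],[1,0],[0,2]⟩],[⟨102,[0,17]⟩,⟨96,[8,8]⟩,⟨102,[0,17]⟩]⟩)) (.split 0 1 1 1 (.split 1 2 6 1 (.leaf ⟨[⟨0,[2,0],[0,4],[0,3]⟩,⟨0,[2,0],[0,4],[1,0]⟩,⟨0,[2,0],[1,0],[0,2]⟩,⟨0,[2,0],[1,0],[1,0]⟩],[⟨102,[4,5,4,4]⟩,⟨102,[0,1,16,0]⟩,⟨102,[0,0,17,0]⟩]⟩) (.leaf ⟨[⟨0,[2,0],[0,3],[0,2]⟩,⟨0,[2,0],[0,3],[1,0]⟩,⟨0,[2,0],[1,0],[0,2]⟩,⟨0,[2,0],[1,1],[0,3]⟩,⟨0,[2,0],[1,0],[1,0]⟩,⟨0,[2,0],[1,1],[1,0]⟩],[⟨104,[5,2,0,0,0,9]⟩,⟨102,[1,0,12,3,0,1]⟩,⟨96,[5,0,6,0,5,0]⟩]⟩))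 (.split 0 2 6 1 (.leaf ⟨[⟨0,[2,0],[0,3],[0,2]⟩,⟨0,[2,0],[0,4],[0,3]⟩,⟨0,[2,0],[0,4],[1,0]⟩,⟨0,[2,0],[1,0],[0,2]⟩,⟨0,[2,0],[1,0],[0,3]⟩,⟨0,[2,0],[1,0],[1,0]⟩],[⟨98,[3,4,0,0,1,8]⟩,⟨102,[0,7,1,2,0,7]⟩,⟨102,[0,0,0,17,0,0]⟩]⟩) (.leaf ⟨[⟨0,[2,0],[1,0],[0,3]⟩,⟨0,[2,0],[1,0],[0,4]⟩,⟨0,[2,0],[1,1],[0,3]⟩,⟨0,[2,0],[1,1],[0,4]⟩,⟨0,[2,0],[1,1],[1,0]⟩],[⟨100,[0,0,5,1,8]⟩,⟨98,[11,0,0,0,4]⟩,⟨102,[14,2,0,1,0]⟩]⟩))),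
    .split 0 2 3 2 (.leaf ⟨[⟨0,[2,0],[1,0],[0,2]⟩],[⟨6,[1]⟩,⟨6,[1]⟩,⟨6,[1]⟩]⟩) (.split 0 1 3 2 (.leaf ⟨[⟨0,[2,0],[1,0],[0,2]⟩,⟨0,[2,0],[1,0],[0,3]⟩],[⟨126,[13,8]⟩,⟨6,[1,0]⟩,⟨6,[1,0]⟩]⟩) (.split 0 2 6 1 (.leaf ⟨[⟨0,[2,0],[0,3],[0,2]⟩,⟨0,[2,0],[0,4],[0,3]⟩,⟨0,[2,0],[1,0],[0,2]⟩,⟨0,[2,0],[1,0],[0,3]⟩,⟨0,[2,0],[1,0],[1,0]⟩],[⟨102,[0,3,0,11,3]⟩,⟨102,[3,0,0,11,3]⟩,⟨102,[0,0,7,10,0]⟩]⟩) (.leaf ⟨[⟨0,[2,0],[0,4],[0,3]⟩,⟨0,[2,0],[1,0],[0,3]⟩,⟨0,[2,0],[1,0],[0,4]⟩,⟨0,[2,0],[1,1],[0,4]⟩,⟨0,[2,0],[1,0],[1,0]⟩],[⟨102,[0,1,0,16,0]⟩,⟨96,[2,0,12,0,2]⟩,⟨102,[0,17,0,0,0]⟩]⟩)))]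
def s3b : Cert where
  base := [([6,1],[2,-9],1),([9,2],[-1,6],1)]
  L := 3
  d := 300
  n₀ := 21
  n₁ := 25
  G := []
  trees := [.split 0 2 3 2 (.leaf ⟨[⟨0,[2,0],[1,0],[0,1]⟩,⟨0,[2,0],[1,0],[0,2]⟩],[⟨150,[21,4]⟩,⟨6,[0,1]⟩,⟨6,[1,0]⟩]⟩) (.leaf ⟨[⟨0,[2,0],[0,2],[0,1]⟩,⟨0,[2,0],[0,3],[0,2]⟩,⟨0,[2,0],[1,0],[0,1]⟩,⟨0,[2,0],[1,0],[0,2]⟩,⟨0,[2,0],[1,0],[1,0]⟩],[⟨126,[0,8,0,5,8]⟩,⟨6,[0,0,0,1,0]⟩,⟨150,[12,0,1,0,12]⟩]⟩),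
    .split 0 2 3 2 (.leaf ⟨[⟨0,[2,0],[1,0],[0,1]⟩,⟨0,[2,0],[1,0],[0,2]⟩],[⟨138,[21,2]⟩,⟨6,[1,0]⟩,⟨6,[1,0]⟩]⟩) (.split 0 1 3 2 (.leaf ⟨[⟨0,[2,0],[1,0],[0,1]⟩,⟨0,[2,0],[1,0],[0,2]⟩],[⟨126,[17,4]⟩,⟨6,[1,0]⟩,⟨138,[21,2]⟩]⟩) (.leaf ⟨[⟨0,[2,0],[0,2],[0,1]⟩,⟨0,[2,0],[0,3],[0,2]⟩,⟨0,[2,0],[1,0],[0,1]⟩,⟨0,[2,0],[1,0],[0,2]⟩,⟨0,[2,0],[1,0],[1,0]⟩],[⟨96,[0,7,0,2,7]⟩,⟨102,[7,0,3,0,7]⟩,⟨102,[0,0,0,17,0]⟩]⟩))]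
def s3c : Cert where
  base := [([6,1],[2,-9],1),([9,2],[-1,6],1)]
  L := 3
  d := 300
  n₀ := 25
  n₁ := 42
  G := []
  trees := [.split 0 2 3 2 (.split 1 2 3 2 (.leaf ⟨[⟨0,[2,0],[1,0],[0,1]⟩],[⟨6,[1]⟩,⟨6,[1]⟩,⟨6,[1]⟩]⟩) (.split 0 1 1 6 (.split 1 2 6 1 (.leaf ⟨[⟨0,[2,0],[0,1],[0,0]⟩,⟨0,[2,0],[1,0],[0,1]⟩,⟨0,[2,0],[1,0],[1,0]⟩],[⟨98,[0,11,4]⟩,⟨102,[1,11,4]⟩,⟨96,[2,12,2]⟩]⟩) (.leaf ⟨[⟨0,[2,0],[1,0],[0,1]⟩,⟨0,[2,0],[1,0],[1,0]⟩],[⟨128,[12,7]⟩,⟨8,[0,1]⟩,⟨128,[12,7]⟩]⟩)) (.leaf ⟨[⟨0,[2,0],[0,1],[0,0]⟩,⟨0,[2,0],[1,0],[0,1]⟩,⟨0,[2,0],[1,0],[1,0]⟩],[⟨96,[2,12,2]⟩,⟨98,[0,11,4]⟩,⟨96,[2,12,2]⟩]⟩))) (.split 0 1 1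 1 (.split 1 2 6 1 (.split 0 2 3 1 (.leaf ⟨[⟨0,[2,0],[0,1],[0,1]⟩,⟨0,[2,0],[0,2],[0,1]⟩,⟨0,[2,0],[1,0],[0,1]⟩,⟨0,[2,0],[1,0],[1,0]⟩],[⟨102,[0,4,9,4]⟩,⟨96,[0,0,12,3]⟩,⟨102,[4,0,9,4]⟩]⟩) (.leaf ⟨[⟨0,[2,0],[0,2],[0,1]⟩,⟨0,[2,0],[0,2],[1,0]⟩,⟨0,[2,0],[1,0],[0,1]⟩,⟨0,[2,0],[1,0],[1,0]⟩],[⟨96,[0,9,7,0]⟩,⟨104,[0,1,15,1]⟩,⟨96,[2,1,11,2]⟩]⟩)) (.leaf ⟨[⟨0,[2,0],[1,0],[0,1]⟩,⟨0,[2,0],[1,0],[1,0]⟩],[⟨8,[0,1]⟩,⟨8,[0,1]⟩,⟨128,[12,7]⟩]⟩)) (.split 0 2 6 1 (.split 1 2 3 1 (.leaf ⟨[⟨0,[2,0],[0,1],[0,1]⟩,⟨0,[2,0],[0,2],[0,1]⟩,⟨0,[2,0],[1,0],[0,1]⟩,⟨0,[2,0],[1,0],[1,0]⟩],[⟨96,[0,6,4,6]⟩,⟨96,[0,3,10,3]⟩,⟨102,[1,0,15,1]⟩]⟩) (.leaf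 ⟨[⟨0,[2,0],[0,2],[0,1]⟩,⟨0,[2,0],[0,2],[1,0]⟩,⟨0,[2,0],[1,0],[0,1]⟩,⟨0,[2,0],[1,0],[1,0]⟩],[⟨96,[0,6,10,0]⟩,⟨96,[0,9,7,0]⟩,⟨96,[3,0,10,3]⟩]⟩)) (.leaf ⟨[⟨0,[2,0],[0,2],[0,1]⟩,⟨0,[2,0],[0,2],[1,0]⟩,⟨0,[2,0],[1,0],[0,1]⟩,⟨0,[2,0],[1,0],[1,0]⟩],[⟨366,[0,25,0,27]⟩,⟨2928,[0,132,136,165]⟩,⟨366,[22,0,17,22]⟩]⟩))),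
    .split 0 2 3 2 (.leaf ⟨[⟨0,[2,0],[1,0],[0,1]⟩],[⟨6,[1]⟩,⟨6,[1]⟩,⟨6,[1]⟩]⟩) (.split 0 1 3 2 (.leaf ⟨[⟨0,[2,0],[1,0],[0,1]⟩],[⟨6,[1]⟩,⟨6,[1]⟩,⟨6,[1]⟩]⟩) (.split 0 2 6 1 (.leaf ⟨[⟨0,[2,0],[0,1],[0,1]⟩,⟨0,[2,0],[0,2],[0,1]⟩,⟨0,[2,0],[1,0],[0,1]⟩,⟨0,[2,0],[1,0],[1,0]⟩],[⟨96,[0,6,4,6]⟩,⟨96,[3,2,6,5]⟩,⟨102,[1,0,15,1]⟩]⟩) (.split 0 1 6 1 (.leaf ⟨[⟨0,[2,0],[0,1],[0,1]⟩,⟨0,[2,0],[0,2],[0,2]⟩,⟨0,[2,0],[0,2],[1,0]⟩,⟨0,[2,0],[1,0],[0,1]⟩,⟨0,[2,0],[1,0],[0,2]⟩,⟨0,[2,0],[1,0],[1,0]⟩],[⟨98,[0,3,0,7,2,4]⟩,⟨102,[4,1,0,7,0,5]⟩,⟨102,[0,0,1,11,5,0]⟩]⟩) (.split 0 2 12 1 (.leaf ⟨[⟨0,[2,0],[0,2],[0,1]⟩,⟨0,[2,0],[0,2],[1,0]⟩,⟨0,[2,0],[1,0],[0,1]⟩,⟨0,[2,0],[1,0],[1,0]⟩],[⟨102,[6,5,0,6]⟩,⟨102,[8,1,0,8]⟩,⟨102,[8,0,1,8]⟩]⟩)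 (.split 0 1 12 1 (.leaf ⟨[⟨0,[2,0],[0,2],[0,1]⟩,⟨0,[2,0],[0,2],[1,0]⟩,⟨0,[2,0],[1,0],[0,2]⟩,⟨0,[2,0],[1,0],[1,0]⟩],[⟨104,[4,3,5,5]⟩,⟨96,[6,0,0,9]⟩,⟨102,[6,0,5,6]⟩]⟩) (.split 0 2 24 1 (.leaf ⟨[⟨0,[2,0],[0,2],[0,1]⟩,⟨0,[2,0],[0,2],[0,2]⟩,⟨0,[2,0],[0,2],[1,0]⟩,⟨0,[2,0],[1,0],[0,2]⟩,⟨0,[2,0],[1,0],[1,0]⟩],[⟨104,[3,0,8,2,4]⟩,⟨102,[4,2,5,0,6]⟩,⟨100,[5,0,0,0,10]⟩]⟩) (.split 0 1 24 1 (.leaf ⟨[⟨0,[2,0],[0,2],[0,1]⟩,⟨0,[2,0],[0,3],[0,2]⟩,⟨0,[2,0],[0,3],[1,0]⟩,⟨0,[2,0],[1,0],[0,1]⟩,⟨0,[2,0],[1,0],[1,0]⟩,⟨0,[2,0],[1,1],[1,0]⟩],[⟨998,[52,0,17,40,0,56]⟩,⟨1000,[52,16,0,0,91,0]⟩,⟨1002,[48,0,20,51,0,48]⟩]⟩) (.split 0 2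 48 1 (.leaf ⟨[⟨0,[2,0],[0,2],[0,1]⟩,⟨0,[2,0],[0,3],[0,2]⟩,⟨0,[2,0],[0,2],[1,0]⟩,⟨0,[2,0],[1,1],[0,2]⟩,⟨0,[2,0],[1,0],[1,0]⟩],[⟨9996,[565,0,138,398,565]⟩,⟨9996,[580,0,129,377,580]⟩,⟨10004,[307,52,0,0,1071]⟩]⟩) (.split 0 1 48 1 (.split 1 2 2 1 (.leaf ⟨[⟨0,[2,0],[0,2],[0,1]⟩,⟨0,[2,0],[1,0],[0,1]⟩,⟨0,[2,0],[1,0],[1,0]⟩,⟨8,[1,1],[2,0],[0,1]⟩],[⟨996,[0,8,0,158]⟩,⟨1006,[16,0,57,81]⟩,⟨994,[13,0,51,89]⟩]⟩) (.leaf ⟨[⟨0,[2,0],[0,3],[1,0]⟩,⟨0,[2,0],[1,0],[0,1]⟩,⟨0,[2,0],[1,0],[0,2]⟩,⟨0,[2,0],[1,0],[1,0]⟩],[⟨1002,[49,59,59,0]⟩,⟨1004,[30,48,0,67]⟩,⟨1002,[40,58,69,0]⟩]⟩)) (.leaf ⟨[⟨0,[2,0],[0,2],[0,1]⟩,⟨0,[2,0],[0,3],[0,2]⟩,⟨0,[2,0],[1,0],[0,2]⟩,⟨0,[2,0],[1,0],[1,0]⟩,⟨8,[1,1],[2,0],[0,1]⟩],[⟨81513216,[0,0,301723,8903715,1412193]⟩,⟨652105728,[6792768,0,2124693,75475200,1397483]⟩,⟨16302643200,[231602886,47215400,0,1898421257,0]⟩]⟩))))))))))]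
def s4a : Cert where
  base := [([9,2],[1,-3],1),([3,1],[-2,9],1)]
  L := 3
  d := 200
  n₀ := 7
  n₁ := 14
  G := []
  trees := [.split 0 2 1 3 (.split 1 2 1 3 (.split 0 2 1 6 (.leaf ⟨[⟨0,[2,0],[0,1],[0,1]⟩],[⟨100,[25]⟩,⟨100,[25]⟩,⟨100,[25]⟩]⟩) (.leaf ⟨[⟨0,[2,0],[0,1],[0,1]⟩,⟨0,[2,0],[0,2],[0,1]⟩,⟨0,[2,0],[0,2],[0,2]⟩],[⟨100,[0,18,7]⟩,⟨100,[14,11,0]⟩,⟨100,[25,0,0]⟩]⟩)) (.leaf ⟨[⟨0,[2,0],[0,1],[0,1]⟩,⟨0,[2,0],[0,2],[0,1]⟩,⟨0,[2,0],[0,2],[0,2]⟩],[⟨100,[13,0,12]⟩,⟨100,[0,9,16]⟩,⟨100,[24,0,1]⟩]⟩)) (.split 0 2 2 1 (.leaf ⟨[⟨0,[2,0],[0,2],[0,1]⟩,⟨0,[2,0],[0,2],[0,2]⟩,⟨0,[2,0],[0,3],[0,2]⟩],[⟨100,[6,0,19]⟩,⟨100,[9,16,0]⟩,⟨100,[25,0,0]⟩]⟩)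 (.split 1 2 4 1 (.split 0 2 4 1 (.leaf ⟨[⟨0,[2,0],[0,2],[0,2]⟩,⟨0,[2,0],[0,3],[0,2]⟩,⟨0,[2,0],[0,3],[0,3]⟩,⟨3,[2,0],[1,0],[0,0]⟩],[⟨100,[0,8,17,0]⟩,⟨100,[25,0,0,0]⟩,⟨96,[11,0,4,6]⟩]⟩) (.split 0 1 8 1 (.leaf ⟨[⟨0,[2,0],[0,2],[0,2]⟩,⟨0,[2,0],[0,3],[0,2]⟩,⟨0,[2,0],[0,3],[0,3]⟩,⟨3,[2,0],[1,0],[0,0]⟩],[⟨96,[8,0,13,2]⟩,⟨100,[25,0,0,0]⟩,⟨100,[0,8,17,0]⟩]⟩) (.leaf ⟨[⟨0,[2,0],[0,3],[0,2]⟩,⟨0,[2,0],[0,4],[0,3]⟩,⟨0,[2,0],[0,1],[1,0]⟩],[⟨100,[0,19,4]⟩,⟨100,[22,0,2]⟩,⟨102,[15,3,5]⟩]⟩))) (.split 0 1 1 1 (.leaf ⟨[⟨0,[2,0],[0,2],[0,1]⟩,⟨0,[2,0],[0,2],[0,2]⟩,⟨0,[2,0],[0,3],[0,2]⟩,⟨3,[2,0],[1,0],[0,0]⟩],[⟨100,[0,6,19,0]⟩,⟨100,[15,0,10,0]⟩,⟨98,[9,0,8,5]⟩]⟩)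 (.split 0 2 8 1 (.leaf ⟨[⟨0,[2,0],[0,2],[0,2]⟩,⟨0,[2,0],[0,3],[0,2]⟩,⟨0,[2,0],[0,3],[0,3]⟩],[⟨100,[0,17,8]⟩,⟨100,[8,12,5]⟩,⟨100,[24,1,0]⟩]⟩) (.leaf ⟨[⟨0,[2,0],[0,3],[0,2]⟩,⟨0,[2,0],[0,4],[0,3]⟩,⟨0,[2,0],[0,1],[1,0]⟩],[⟨96,[0,21,2]⟩,⟨100,[25,0,0]⟩,⟨98,[20,0,3]⟩]⟩))))),
    .split 0 2 1 3 (.split 0 1 1 6 (.leaf ⟨[⟨0,[2,0],[0,1],[0,1]⟩],[⟨100,[25]⟩,⟨100,[25]⟩,⟨100,[25]⟩]⟩) (.split 0 2 1 6 (.leaf ⟨[⟨0,[2,0],[0,1],[0,1]⟩],[⟨100,[25]⟩,⟨100,[25]⟩,⟨100,[25]⟩]⟩) (.leaf ⟨[⟨0,[2,0],[0,1],[0,1]⟩,⟨0,[2,0],[0,2],[0,1]⟩,⟨0,[2,0],[0,2],[0,2]⟩],[⟨100,[0,16,9]⟩,⟨100,[14,0,11]⟩,⟨100,[25,0,0]⟩]⟩))) (.split 0 1 1 3 (.leaf ⟨[⟨0,[2,0],[0,2],[0,1]⟩,⟨0,[2,0],[0,2],[0,2]⟩,⟨0,[2,0],[0,3],[0,2]⟩],[⟨100,[0,3,22]⟩,⟨100,[25,0,0]⟩,⟨100,[22,0,3]⟩]⟩)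 (.split 0 2 2 1 (.leaf ⟨[⟨0,[2,0],[0,2],[0,1]⟩,⟨0,[2,0],[0,3],[0,2]⟩],[⟨100,[0,25]⟩,⟨100,[3,22]⟩,⟨100,[24,1]⟩]⟩) (.leaf ⟨[⟨0,[2,0],[0,3],[0,2]⟩,⟨0,[2,0],[0,4],[0,3]⟩],[⟨100,[0,25]⟩,⟨100,[25,0]⟩,⟨100,[25,0]⟩]⟩)))]
def s4b : Cert where
  base := [([9,2],[1,-3],1),([3,1],[-2,9],1)]
  L := 3
  d := 100
  n₀ := 7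
  n₁ := 14
  G := []
  trees := [.split 0 2 1 3 (.split 1 2 1 3 (.split 0 2 1 6 (.leaf ⟨[⟨0,[2,0],[0,0],[0,0]⟩,⟨0,[2,0],[0,0],[0,1]⟩],[⟨100,[7,18]⟩,⟨100,[0,25]⟩,⟨100,[20,5]⟩]⟩) (.leaf ⟨[⟨0,[2,0],[0,0],[0,0]⟩,⟨0,[2,0],[0,1],[0,0]⟩,⟨0,[2,0],[0,1],[0,1]⟩],[⟨100,[0,11,14]⟩,⟨100,[0,20,5]⟩,⟨100,[13,0,12]⟩]⟩)) (.leaf ⟨[⟨0,[2,0],[0,0],[0,0]⟩,⟨0,[2,0],[0,1],[0,0]⟩,⟨0,[2,0],[0,1],[0,1]⟩],[⟨100,[7,0,18]⟩,⟨100,[0,5,20]⟩,⟨100,[12,0,13]⟩]⟩)) (.split 0 1 1 1 (.split 1 2 2 1 (.split 0 2 1 1 (.leaf ⟨[⟨0,[2,0],[0,1],[0,0]⟩,⟨0,[2,0],[0,1],[0,1]⟩],[⟨100,[0,25]⟩,⟨100,[6,19]⟩,⟨100,[13,12]⟩]⟩) (.split 0 1 2 1 (.leaf ⟨[⟨0,[2,0],[0,1],[0,0]⟩,⟨0,[2,0],[0,1],[0,1]⟩,⟨3,[2,0],[1,0],[0,0]⟩],[⟨100,[0,25,0]⟩,⟨102,[8,10,5]⟩,⟨104,[2,15,6]⟩]⟩)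 (.split 0 2 2 1 (.leaf ⟨[⟨0,[2,0],[0,1],[0,1]⟩,⟨3,[2,0],[1,0],[0,0]⟩],[⟨100,[13,8]⟩,⟨100,[13,8]⟩,⟨98,[11,9]⟩]⟩) (.split 0 1 4 1 (.leaf ⟨[⟨0,[2,0],[0,1],[0,1]⟩,⟨3,[2,0],[1,0],[0,0]⟩],[⟨100,[10,10]⟩,⟨102,[9,11]⟩,⟨102,[9,11]⟩]⟩) (.leaf ⟨[⟨0,[2,0],[0,1],[0,1]⟩,⟨6,[1,1],[0,2],[0,2]⟩,⟨3,[2,0],[1,0],[0,0]⟩],[⟨104,[14,6,6]⟩,⟨100,[10,0,10]⟩,⟨98,[8,0,11]⟩]⟩))))) (.split 0 1 1 2 (.leaf ⟨[⟨0,[2,0],[0,1],[0,0]⟩,⟨0,[2,0],[0,1],[0,1]⟩,⟨3,[2,0],[1,0],[0,0]⟩],[⟨100,[0,25,0]⟩,⟨100,[2,20,2]⟩,⟨102,[9,3,9]⟩]⟩) (.split 0 2 2 1 (.leaf ⟨[⟨0,[2,0],[0,1],[0,0]⟩,⟨0,[2,0],[0,1],[0,1]⟩,⟨3,[2,0],[1,0],[0,0]⟩],[⟨96,[0,15,6]⟩,⟨100,[0,25,0]⟩,⟨102,[9,3,9]⟩]⟩)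 (.split 0 1 2 1 (.leaf ⟨[⟨0,[2,0],[0,1],[0,1]⟩,⟨3,[2,0],[1,0],[0,0]⟩],[⟨100,[25,0]⟩,⟨104,[8,12]⟩,⟨102,[6,13]⟩]⟩) (.split 0 2 4 1 (.leaf ⟨[⟨0,[2,0],[0,1],[0,1]⟩,⟨3,[2,0],[1,0],[0,0]⟩],[⟨100,[7,12]⟩,⟨100,[25,0]⟩,⟨102,[6,13]⟩]⟩) (.split 0 1 4 1 (.split 1 2 2 1 (.split 0 2 1 1 (.leaf ⟨[⟨0,[2,0],[0,1],[0,1]⟩,⟨3,[2,0],[1,0],[0,0]⟩],[⟨100,[7,12]⟩,⟨100,[7,12]⟩,⟨100,[7,12]⟩]⟩) (.split 0 1 2 1 (.leaf ⟨[⟨0,[2,0],[0,1],[0,1]⟩,⟨3,[2,0],[1,0],[0,0]⟩],[⟨96,[6,12]⟩,⟨102,[6,13]⟩,⟨102,[6,13]⟩]⟩) (.leaf ⟨[⟨0,[2,0],[0,1],[0,1]⟩,⟨6,[1,1],[0,2],[0,2]⟩,⟨3,[2,0],[1,0],[0,0]⟩],[⟨96,[16,4,4]⟩,⟨102,[15,3,6]⟩,⟨98,[14,3,6]⟩]⟩))) (.split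 0 1 1 2 (.leaf ⟨[⟨0,[2,0],[0,1],[0,1]⟩,⟨3,[2,0],[1,0],[0,0]⟩],[⟨100,[25,0]⟩,⟨102,[6,13]⟩,⟨98,[5,13]⟩]⟩) (.split 0 2 2 1 (.leaf ⟨[⟨0,[2,0],[0,1],[0,1]⟩,⟨3,[2,0],[1,0],[0,0]⟩],[⟨98,[5,13]⟩,⟨100,[25,0]⟩,⟨98,[5,13]⟩]⟩) (.leaf ⟨[⟨4,[2,0],[1,0],[0,0]⟩],[⟨6,[1]⟩,⟨6,[1]⟩,⟨6,[1]⟩]⟩)))) (.leaf ⟨[⟨0,[2,0],[0,1],[0,1]⟩,⟨6,[1,1],[0,2],[0,2]⟩,⟨3,[2,0],[1,0],[0,0]⟩],[⟨104,[14,6,6]⟩,⟨100,[13,3,7]⟩,⟨100,[10,0,10]⟩]⟩))))))) (.split 0 2 2 1 (.split 1 2 1 1 (.leaf ⟨[⟨0,[2,0],[0,1],[0,0]⟩,⟨0,[2,0],[0,1],[0,1]⟩],[⟨100,[0,25]⟩,⟨100,[8,17]⟩,⟨100,[22,3]⟩]⟩) (.leaf ⟨[⟨0,[2,0],[0,1],[0,1]⟩,⟨6,[1,1],[0,2],[0,2]⟩,⟨3,[2,0],[1,0],[0,0]⟩],[⟨96,[6,0,12]⟩,⟨104,[14,6,6]⟩,⟨96,[6,0,12]⟩]⟩))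 (.split 0 1 2 1 (.leaf ⟨[⟨0,[2,0],[0,1],[0,1]⟩,⟨0,[2,0],[0,2],[0,1]⟩,⟨3,[2,0],[1,0],[0,0]⟩],[⟨100,[4,21,0]⟩,⟨100,[16,9,0]⟩,⟨102,[10,5,7]⟩]⟩) (.split 0 2 4 1 (.leaf ⟨[⟨0,[2,0],[0,1],[0,1]⟩,⟨0,[2,0],[0,2],[0,1]⟩,⟨3,[2,0],[1,0],[0,0]⟩],[⟨102,[0,21,3]⟩,⟨100,[1,24,0]⟩,⟨100,[16,6,2]⟩]⟩) (.leaf ⟨[⟨0,[2,0],[0,1],[0,1]⟩,⟨0,[2,0],[0,2],[0,1]⟩,⟨0,[2,0],[0,2],[0,2]⟩,⟨3,[2,0],[1,0],[0,0]⟩],[⟨100,[0,11,14,0]⟩,⟨100,[4,21,0,0]⟩,⟨96,[12,0,9,2]⟩]⟩))))),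
    .split 0 2 1 3 (.split 1 2 1 1 (.split 0 2 1 6 (.leaf ⟨[⟨0,[2,0],[0,0],[0,0]⟩,⟨0,[2,0],[0,0],[0,1]⟩],[⟨100,[4,21]⟩,⟨100,[12,13]⟩,⟨100,[16,9]⟩]⟩) (.leaf ⟨[⟨0,[2,0],[0,0],[0,0]⟩,⟨0,[2,0],[0,1],[0,0]⟩,⟨0,[2,0],[0,1],[0,1]⟩],[⟨100,[0,9,16]⟩,⟨100,[17,0,8]⟩,⟨100,[1,24,0]⟩]⟩)) (.leaf ⟨[⟨0,[2,0],[0,0],[0,0]⟩,⟨0,[2,0],[0,1],[0,0]⟩,⟨0,[2,0],[0,1],[0,1]⟩],[⟨100,[0,8,17]⟩,⟨100,[10,0,15]⟩,⟨100,[17,0,8]⟩]⟩)) (.split 0 1 1 3 (.leaf ⟨[⟨0,[2,0],[0,1],[0,0]⟩,⟨0,[2,0],[0,1],[0,1]⟩],[⟨100,[0,25]⟩,⟨100,[25,0]⟩,⟨100,[17,8]⟩]⟩) (.split 0 2 2 1 (.leaf ⟨[⟨0,[2,0],[0,1],[0,0]⟩,⟨0,[2,0],[0,1],[0,1]⟩],[⟨100,[0,25]⟩,⟨100,[6,19]⟩,⟨100,[22,3]⟩]⟩)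 (.split 0 1 2 1 (.leaf ⟨[⟨0,[2,0],[0,1],[0,1]⟩,⟨0,[2,0],[0,2],[0,1]⟩],[⟨100,[0,25]⟩,⟨100,[20,5]⟩,⟨100,[14,11]⟩]⟩) (.split 0 2 4 1 (.leaf ⟨[⟨0,[2,0],[0,1],[0,1]⟩,⟨0,[2,0],[0,2],[0,1]⟩],[⟨100,[0,25]⟩,⟨100,[0,25]⟩,⟨96,[15,9]⟩]⟩) (.leaf ⟨[⟨0,[2,0],[0,1],[0,1]⟩,⟨0,[2,0],[0,2],[0,1]⟩,⟨0,[2,0],[0,2],[0,2]⟩],[⟨100,[0,9,16]⟩,⟨100,[14,0,11]⟩,⟨100,[5,18,2]⟩]⟩)))))]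

theorem s1a_ok : s1a.chk 1 6 false = true := by decide +kernel

theorem s1b_ok : s1b.chk 1 6 true = true := by decide +kernel

theorem s2a_ok : s2a.chk 1 6 false = true := by decide +kernel

theorem s2b_ok : s2b.chk 1 6 false = true := by decide +kernel

theorem s2c_ok : s2c.chk 1 6 true = true := by decide +kernel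

theorem s2d_ok : s2d.chk 1 6 true = true := by decide +kernel

theorem s3a_ok : s3a.chk 1 6 false = true := by decide +kernel

theorem s3b_ok : s3b.chk 1 6 true = true := by decide +kernel

theorem s3c_ok : s3c.chk 1 6 true = true := by decide +kernel

theorem s4a_ok : s4a.chk 1 4 false = true := by decide +kernel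

theorem s4b_ok : s4b.chk 1 4 true = true := by decide +kernel

end Crest.Agent.R017.SX90.Single
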