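import Crest.Agent.R017.SingleCert_90

/-!
# Coverage : one lump, complete families (helper90)

`Full C cap u v` : a family with `cap * ∑ p ≤ 1`, mean mass `≥ 2/3`, and the line condition.
-/

set_option autoImplicit false

namespace Crest.Agent.R017.SX90

open Finset Cov499

/-- a complete family of columns -/
def Full (C : CP) (cap : ℕ) {k : ℕ} (u : Fin k → ℝ) (v : ℝ) : Prop :=
  ∃ (M : ℕ) (p : Fin M → ℝ) (n : Fin M → Fin k → ℕ) (t : Fin M → ℕ) (N : Fin M → ℝ),
    (∀ q, 0 ≤ p q) ∧ (∀ j, ∑ q, p q * (n q j : ℝ) = 1 / 2) ∧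
    (∀ q, C v (lum u (n q)) (t q) (N q)) ∧ cap * ∑ q, p q ≤ 1 ∧ 0 ≤ R₁ u v p t ∧
    R₁ u v p t / 6 ≤ ∑ q, p q * (N q - 5 / 6)

theorem Raw.full {C : CP} {cap k : ℕ} {u : Fin k → ℝ} {v : ℝ} (h : Raw C cap u v) :
    Full C cap u v := by
  obtain ⟨M, p, n, t, t0, N, hp, hn, hC, hC0, hs, hα, hβ, hγ, hδ⟩ := h
  by_cases hc : 0 ≤ R₁ u v p t0
  · exact ⟨M, p, n, t0, N, hp, hn, hC0, hs, hc, hγ⟩
  push Not at hc
  obtain ⟨θ, h0, h1, hR⟩ : ∃ θ : ℝ, 0 ≤ θ ∧ θ ≤ 1 ∧
      θ * R₁ u v p t + (1 - θ) * R₁ u v p t0 = 0 := by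
    have hpos : 0 < R₁ u v p t - R₁ u v p t0 := by linarith
    refine ⟨-R₁ u v p t0 / (R₁ u v p t - R₁ u v p t0), ?_, ?_, ?_⟩
    · apply div_nonneg <;> linarith
    · rw [div_le_one hpos]; linarith
    · field_simp; ring
  have hsum : ∀ (f : Fin M → ℝ), ∑ q, θ * p q * f q + ∑ q, (1 - θ) * p q * f q
      = ∑ q, p q * f q := by
    intro f
    rw [← Finset.sum_add_distrib]
    exact Finset.sum_congr rfl fun q _ => by ring
  have hRe : R₁ u v (Fin.append (fun q => θ * p q) (fun q => (1 - θ) * p q)) (Fin.append t t0)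
      = 0 := by
    rw [← hR]
    unfold R₁
    rw [Fin.sum_univ_add]
    simp only [Fin.append_left, Fin.append_right]
    have e1 : ∑ q, θ * p q * (1 - 3 / 2 * ((t q : ℝ) * v))
        = θ * ∑ q, p q * (1 - 3 / 2 * ((t q : ℝ) * v)) := by
      rw [Finset.mul_sum]; exact Finset.sum_congr rfl fun q _ => by ring
    have e2 : ∑ q, (1 - θ) * p q * (1 - 3 / 2 * ((t0 q : ℝ) * v))
        = (1 - θ) * ∑ q, p q * (1 - 3 / 2 * ((t0 q : ℝ) * v)) := by
      rw [Finset.mul_sum]; exact Finset.sum_congr rfl fun q _ => by ring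
    rw [e1, e2]; ring
  refine ⟨M + M, Fin.append (fun q => θ * p q) (fun q => (1 - θ) * p q), Fin.append n n,
    Fin.append t t0, Fin.append N N, ?_, ?_, ?_, ?_, ?_, ?_⟩
  · refine fun q => Fin.addCases (fun i => ?_) (fun i => ?_) q
    · rw [Fin.append_left]; exact mul_nonneg h0 (hp i)
    · rw [Fin.append_right]; exact mul_nonneg (by linarith) (hp i)
  · intro j
    rw [Fin.sum_univ_add]
    simp only [Fin.append_left, Fin.append_right]
    rw [hsum (fun q => (n q j : ℝ)), hn j]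
  · refine fun q => Fin.addCases (fun i => ?_) (fun i => ?_) q
    · simp only [Fin.append_left]; exact hC i
    · simp only [Fin.append_right]; exact hC0 i
  · rw [Fin.sum_univ_add]
    simp only [Fin.append_left, Fin.append_right]
    have e : ∑ q, θ * p q + ∑ q, (1 - θ) * p q = ∑ q, p q := by
      rw [← Finset.sum_add_distrib]
      exact Finset.sum_congr rfl fun q _ => by ring
    rw [e]; exact hs
  · rw [hRe]
  · rw [hRe, Fin.sum_univ_add]
    simp only [Fin.append_left, Fin.append_right]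
    rw [hsum (fun q => N q - 5 / 6)]
    linarith

theorem Full.mono {C C' : CP} (hC : ∀ {v Y t N}, C v Y t N → C' v Y t N) {cap k : ℕ}
    {u : Fin k → ℝ} {v : ℝ} (h : Full C cap u v) : Full C' cap u v := by
  obtain ⟨M, p, n, t, N, h1, h2, h3, h4⟩ := h
  exact ⟨M, p, n, t, N, h1, h2, fun q => hC (h3 q), h4⟩

namespace Single

variable {C0 C2 : CP} (T : Tm C0 C2)
include T

/-- certificate of one lump, `lo ≤ A ≤ hi` -/
theorem use {cap : ℕ} {two : Bool} {c : Cert} (h : c.chk 1 cap two = true) {A v : ℝ}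
    (hA : A ≤ 4 / 3) (hv0 : (c.n₀ : ℝ) / c.d ≤ v) (hv1 : v ≤ (c.n₁ : ℝ) / c.d)
    (hG : c.G = []) (hb : ∀ q ∈ c.base, 0 ≤ (q.2.1.getD 0 0 : ℝ) + (q.2.1.getD 1 0 : ℝ) * A)
    (hl : ∀ q ∈ c.base, q.2.1.length = 2) :
    (two = false → Raw C0 cap (fun _ : Fin 1 => A) v) ∧
      (two = true → Raw C2 cap (fun _ : Fin 1 => A) v) := by
  refine chk_sound T h (fun _ => A) v (by simpa using hA) hv0 hv1 (fun q hq => ?_)
    (fun f hf => ?_)
  · have h1 := hb q hq
    have h2 := hl q hq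
    unfold phi
    rw [h2, Finset.sum_range_succ, Finset.sum_range_one, hvec_zero]
    have := hvec_u (fun _ : Fin 1 => A) v 0
    simp only [Fin.val_zero, zero_add] at this
    rw [this]
    linarith
  · rw [hG] at hf; simp at hf

theorem s3a_full {A v : ℝ} (h0 : 1 / 6 ≤ A) (h1 : A ≤ 2 / 9) (v0 : 7 / 200 ≤ v) (v1 : v ≤ 7 / 100) :
    Full C0 6 (fun _ : Fin 1 => A) v := by
  have hb : s3a.base = [([6, 1], [2, -9], 1), ([9, 2], [-1, 6], 1)] := rfl
  have e0 : (s3a.n₀, s3a.n₁, s3a.d) = (7, 14, 200) := rfl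
  simp only [Prod.mk.injEq] at e0
  obtain ⟨e1, e2, e3⟩ := e0
  refine ((use T s3a_ok (A := A) (v := v) (by linarith) (by rw [e1, e3]; norm_num; linarith)
    (by rw [e2, e3]; norm_num; linarith) rfl (fun q hq => ?_) (fun q hq => ?_)).1 rfl).full
  · rw [hb] at hq
    simp only [List.mem_cons, List.not_mem_nil, or_false] at hq
    rcases hq with rfl | rfl
    · simp only [List.getD_cons_zero, List.getD_cons_succ]; push_cast; linarith
    · simp only [List.getD_cons_zero, List.getD_cons_succ]; push_cast; linarith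
  · rw [hb] at hq
    simp only [List.mem_cons, List.not_mem_nil, or_false] at hq
    rcases hq with rfl | rfl <;> rfl

theorem s3b_full {A v : ℝ} (h0 : 1 / 6 ≤ A) (h1 : A ≤ 2 / 9) (v0 : 7 / 100 ≤ v) (v1 : v ≤ 1 / 12) :
    Full C2 6 (fun _ : Fin 1 => A) v := by
  have hb : s3b.base = [([6, 1], [2, -9], 1), ([9, 2], [-1, 6], 1)] := rfl
  have e0 : (s3b.n₀, s3b.n₁, s3b.d) = (21, 25, 300) := rfl
  simp only [Prod.mk.injEq] at e0
  obtain ⟨e1, e2, e3⟩ := e0
  refine ((use T s3b_ok (A := A) (v := v) (by linarith) (by rw [e1, e3]; norm_num; linarith)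
    (by rw [e2, e3]; norm_num; linarith) rfl (fun q hq => ?_) (fun q hq => ?_)).2 rfl).full
  · rw [hb] at hq
    simp only [List.mem_cons, List.not_mem_nil, or_false] at hq
    rcases hq with rfl | rfl
    · simp only [List.getD_cons_zero, List.getD_cons_succ]; push_cast; linarith
    · simp only [List.getD_cons_zero, List.getD_cons_succ]; push_cast; linarith
  · rw [hb] at hq
    simp only [List.mem_cons, List.not_mem_nil, or_false] at hq
    rcases hq with rfl | rfl <;> rfl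

theorem s3c_full {A v : ℝ} (h0 : 1 / 6 ≤ A) (h1 : A ≤ 2 / 9) (v0 : 1 / 12 ≤ v) (v1 : v ≤ 7 / 50) :
    Full C2 6 (fun _ : Fin 1 => A) v := by
  have hb : s3c.base = [([6, 1], [2, -9], 1), ([9, 2], [-1, 6], 1)] := rfl
  have e0 : (s3c.n₀, s3c.n₁, s3c.d) = (25, 42, 300) := rfl
  simp only [Prod.mk.injEq] at e0
  obtain ⟨e1, e2, e3⟩ := e0
  refine ((use T s3c_ok (A := A) (v := v) (by linarith) (by rw [e1, e3]; norm_num; linarith)
    (by rw [e2, e3]; norm_num; linarith) rfl (fun q hq => ?_) (fun q hq => ?_)).2 rfl).full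
  · rw [hb] at hq
    simp only [List.mem_cons, List.not_mem_nil, or_false] at hq
    rcases hq with rfl | rfl
    · simp only [List.getD_cons_zero, List.getD_cons_succ]; push_cast; linarith
    · simp only [List.getD_cons_zero, List.getD_cons_succ]; push_cast; linarith
  · rw [hb] at hq
    simp only [List.mem_cons, List.not_mem_nil, or_false] at hq
    rcases hq with rfl | rfl <;> rfl

theorem s4a_full {A v : ℝ} (h0 : 2 / 9 ≤ A) (h1 : A ≤ 1 / 3) (v0 : 7 / 200 ≤ v) (v1 : v ≤ 7 / 100) :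
    Full C0 4 (fun _ : Fin 1 => A) v := by
  have hb : s4a.base = [([9, 2], [1, -3], 1), ([3, 1], [-2, 9], 1)] := rfl
  have e0 : (s4a.n₀, s4a.n₁, s4a.d) = (7, 14, 200) := rfl
  simp only [Prod.mk.injEq] at e0
  obtain ⟨e1, e2, e3⟩ := e0
  refine ((use T s4a_ok (A := A) (v := v) (by linarith) (by rw [e1, e3]; norm_num; linarith)
    (by rw [e2, e3]; norm_num; linarith) rfl (fun q hq => ?_) (fun q hq => ?_)).1 rfl).full
  · rw [hb] at hq
    simp only [List.mem_cons, List.not_mem_nil, or_false] at hq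
    rcases hq with rfl | rfl
    · simp only [List.getD_cons_zero, List.getD_cons_succ]; push_cast; linarith
    · simp only [List.getD_cons_zero, List.getD_cons_succ]; push_cast; linarith
  · rw [hb] at hq
    simp only [List.mem_cons, List.not_mem_nil, or_false] at hq
    rcases hq with rfl | rfl <;> rfl

theorem s4b_full {A v : ℝ} (h0 : 2 / 9 ≤ A) (h1 : A ≤ 1 / 3) (v0 : 7 / 100 ≤ v) (v1 : v ≤ 7 / 50) :
    Full C2 4 (fun _ : Fin 1 => A) v := by
  have hb : s4b.base = [([9, 2], [1, -3], 1), ([3, 1], [-2, 9], 1)] := rfl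
  have e0 : (s4b.n₀, s4b.n₁, s4b.d) = (7, 14, 100) := rfl
  simp only [Prod.mk.injEq] at e0
  obtain ⟨e1, e2, e3⟩ := e0
  refine ((use T s4b_ok (A := A) (v := v) (by linarith) (by rw [e1, e3]; norm_num; linarith)
    (by rw [e2, e3]; norm_num; linarith) rfl (fun q hq => ?_) (fun q hq => ?_)).2 rfl).full
  · rw [hb] at hq
    simp only [List.mem_cons, List.not_mem_nil, or_false] at hq
    rcases hq with rfl | rfl
    · simp only [List.getD_cons_zero, List.getD_cons_succ]; push_cast; linarith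
    · simp only [List.getD_cons_zero, List.getD_cons_succ]; push_cast; linarith
  · rw [hb] at hq
    simp only [List.mem_cons, List.not_mem_nil, or_false] at hq
    rcases hq with rfl | rfl <;> rfl

/-- **one lump in `[1/6, 2/9]`, weight `≤ 1/6`** -/
theorem sing6 {A v : ℝ} (h0 : 1 / 6 ≤ A) (h1 : A ≤ 2 / 9) :
    (7 / 200 ≤ v → v ≤ 7 / 100 → Full C0 6 (fun _ : Fin 1 => A) v) ∧
      (7 / 100 ≤ v → v ≤ 7 / 50 → Full C2 6 (fun _ : Fin 1 => A) v) := by
  refine ⟨fun v0 v1 => s3a_full T h0 h1 v0 v1, fun v0 v1 => ?_⟩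
  rcases le_total v (1 / 12) with h | h
  · exact s3b_full T h0 h1 v0 h
  · exact s3c_full T h0 h1 h v1

/-- **one lump in `[2/9, 1/3]`, weight `≤ 1/4`** -/
theorem sing4 {A v : ℝ} (h0 : 2 / 9 ≤ A) (h1 : A ≤ 1 / 3) :
    (7 / 200 ≤ v → v ≤ 7 / 100 → Full C0 4 (fun _ : Fin 1 => A) v) ∧
      (7 / 100 ≤ v → v ≤ 7 / 50 → Full C2 4 (fun _ : Fin 1 => A) v) :=
  ⟨fun v0 v1 => s4a_full T h0 h1 v0 v1, fun v0 v1 => s4b_full T h0 h1 v0 v1⟩

end Single

end Crest.Agent.R017.SX90
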