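import Crest.Agent.R017.RQ_702
import Crest.Agent.R017.RstQ_702

/-!
# Row 17, R8: `SPIn` of `TailU`, the real lines at `k ∈ [7/10 κ, 17/20 κ]` (helper702)

Class form at one large cube: second moment of the structured function at `k₁ m³`, `log` length `k`,
one level `v`, one sequence of length `p` (`alb f β`, `p = N - β`), target
`G = 4/3 κ + p - k/3 + L - 3/4 a - 3/4 E - 2 μ` (`= ESP - β`).
* `hP` : the exponent of `H`, constant in `δ`
* `tP_le` : (T1), any `G`;  `thP` : `H² V³ ≤ K²`;  `mP_le` : the diagonal and `2/3 v`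
* `coreS`, `coreS2` : the `R`-part with the trivial `R`-number, second form
-/

set_option autoImplicit false
set_option linter.unusedVariables false

noncomputable section

namespace Crest.Agent.R017.SpR702

open Crest.Agent.R017.RQ702 Crest.Agent.R017.P1Q904 Crest.Agent.R017.RstQ702

/-- the family -/
def KP (v p z : ℝ) : ℝ := max (4 / 3 * p) (max (v + p / 2) (max (3 / 2 * v) (200 / 61 * z)))

/-- the exponent of `H` -/
def hP (k v p z G s : ℝ) : ℝ := 2 * k + 3 * p - 3 * G + 3 * s + KP v p z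

lemma K0_leP {v p δ b l n z z' t : ℝ} (t0 : 0 ≤ t) (δ0 : 0 ≤ δ) (b0 : 0 ≤ b) (p0 : 0 ≤ p)
    (hl : l ≤ v - 2 * δ + b + t) (hn : n ≤ p - δ - b + t) (hz : z' ≤ z + t) :
    K0 l n z' ≤ KP v p z + 3 / 2 * b + 4 * t := by
  have k1 : 4 / 3 * p ≤ KP v p z := le_max_left _ _
  have k2 : v + p / 2 ≤ KP v p z := (le_max_left _ _).trans (le_max_right _ _)
  have k3 : 3 / 2 * v ≤ KP v p z :=
    (le_max_left _ _).trans ((le_max_right _ _).trans (le_max_right _ _))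
  have k4 : 200 / 61 * z ≤ KP v p z :=
    (le_max_right _ _).trans ((le_max_right _ _).trans (le_max_right _ _))
  unfold K0
  refine max_le ?_ (max_le ?_ (max_le ?_ ?_)) <;> linarith

/-- **(T1)** for every target -/
theorem tP_le {k v p δ b l n z z' G s t : ℝ} (t0 : 0 ≤ t) (δ0 : 0 ≤ δ) (b0 : 0 ≤ b) (p0 : 0 ≤ p)
    (hl : l ≤ v - 2 * δ + b + t) (hn : n ≤ p - δ - b + t) (hz : z' ≤ z + t) :
    2 / 3 * k - (hP k v p z G s + v) / 3 + (tS l n z' + s) + 2 * δ +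
      (v - 2 * δ - (l - b)) / 3 - p / 3 ≤ G + 10 * t := by
  have hK := K0_leP t0 δ0 b0 p0 hl hn hz
  have k1 : 4 / 3 * p ≤ KP v p z := le_max_left _ _
  obtain ⟨hT1, hT2⟩ := tS_cases l n z'
  unfold hP
  generalize KP v p z = Q at *
  generalize K0 l n z' = K at *
  generalize tS l n z' = T at *
  rcases hT1 with hT1 | hT1
  swap
  · linarith
  rcases hT2 with hT2 | hT2 <;> linarith

/-- the frame of the reals -/
structure Fs (κ N M a c x L D k v p z E t : ℝ) : Prop where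
  F : Fq κ N M a c x 0 L D
  D1 : 40 * D ≤ κ
  t0 : 0 ≤ t
  t1 : t ≤ κ / 20000
  v1 : v ≤ 2 * N - κ + 11 / 5 * x + t
  v2 : v ≤ 3 / 4 * N + 11 / 5 * x + t
  k1 : 7 * κ ≤ 10 * k + 10 * t
  k2 : 20 * k ≤ 17 * κ + 20 * t
  p0 : 2 / 5 * κ ≤ p
  p1 : p ≤ N + t
  z1 : 2 * z ≤ M + t
  z2 : z ≤ 3 * N - 2 * κ + D / 8 + t
  E : E ≤ 0 ∨ (k ≤ M + t ∧ E ≤ c) ∨ (M ≤ k + t ∧ E ≤ c - 7 / 9 * (k - M) + t)

/-- the target of the child, `μ = 1/450` -/
def GP (κ L a k p E : ℝ) : ℝ := 4 / 3 * κ + p - k / 3 + L - 3 / 4 * a - 3 / 4 * E - 1 / 225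

lemma KP_cases (v p z : ℝ) : KP v p z = 4 / 3 * p ∨ KP v p z = v + p / 2 ∨ KP v p z = 3 / 2 * v ∨
    KP v p z = 200 / 61 * z := by
  unfold KP
  rcases max_choice (4 / 3 * p) (max (v + p / 2) (max (3 / 2 * v) (200 / 61 * z))) with h | h
  · exact Or.inl h
  · rcases max_choice (v + p / 2) (max (3 / 2 * v) (200 / 61 * z)) with g | g
    · exact Or.inr (Or.inl (h.trans g))
    · rcases max_choice (3 / 2 * v) (200 / 61 * z) with f | f
      · exact Or.inr (Or.inr (Or.inl (h.trans (g.trans f))))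
      · exact Or.inr (Or.inr (Or.inr (h.trans (g.trans f))))

set_option maxHeartbeats 1600000 in
/-- `H² V³ ≤ K²` -/
theorem thP {κ N M a c x L D k v p z E t s : ℝ} (H : Fs κ N M a c x L D k v p z E t)
    (hs : s ≤ 3 / 5 * D) :
    2 * hP k v p z (GP κ L a k p E) s + 3 * v + κ / 100 ≤ 2 * k := by
  obtain ⟨⟨κ0, κ1, N34, N84, MN, a0, a12, c0, c13, x0, D0, q43, sq2, L1, L2, L3, shr, v0, -, -⟩,
    D1, t0, t1, v1, v2, k1, k2, p0, p1, z1, z2, hE⟩ := H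
  unfold hP GP
  rcases KP_cases v p z with h | h | h | h <;> rw [h] <;> rcases shr with rfl | ⟨s1, s2, s3, s4⟩ <;>
    rcases hE with hE | ⟨hE1, hE⟩ | ⟨hE1, hE⟩ <;> linarith

set_option maxHeartbeats 1600000 in
/-- **(M)** the diagonal and the line `2/3 v` -/
theorem mP_le {κ N M a c x L D k v p z E t s δ b l n z' : ℝ}
    (H : Fs κ N M a c x L D k v p z E t) (hs : s ≤ 3 / 5 * D) (δ0 : 0 ≤ δ) (b0 : 0 ≤ b)
    (hl : l ≤ v - 2 * δ + b + t) (hn0 : 0 ≤ n) (hn : n ≤ p - δ - b + t) (hz : z' ≤ z + t) :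
    max (2 / 3 * k - v / 3) (2 / 3 * v) + (tS l n z' + s) + 2 * δ - p / 3 ≤
      GP κ L a k p E + 10 * t := by
  obtain ⟨hT1, hT2⟩ := tS_cases l n z'
  obtain ⟨⟨κ0, κ1, N34, N84, MN, a0, a12, c0, c13, x0, D0, q43, sq2, L1, L2, L3, shr, v0, -, -⟩,
    D1, t0, t1, v1, v2, k1, k2, p0, p1, z1, z2, hE⟩ := H
  have hK : K0 l n z' = 5 / 4 * n ∨ K0 l n z' = l + n / 2 ∨ K0 l n z' = 3 / 2 * l ∨
      K0 l n z' = 200 / 61 * z' := by
    unfold K0
    rcases max_choice (5 / 4 * n) (max (l + n / 2) (max (3 / 2 * l) (200 / 61 * z'))) with h | h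
    · exact Or.inl h
    · rcases max_choice (l + n / 2) (max (3 / 2 * l) (200 / 61 * z')) with g | g
      · exact Or.inr (Or.inl (h.trans g))
      · rcases max_choice (3 / 2 * l) (200 / 61 * z') with f | f
        · exact Or.inr (Or.inr (Or.inl (h.trans (g.trans f))))
        · exact Or.inr (Or.inr (Or.inr (h.trans (g.trans f))))
  unfold GP
  generalize K0 l n z' = K at *
  generalize tS l n z' = T at *
  rcases max_choice (2 / 3 * k - v / 3) (2 / 3 * v) with h | h <;> rw [h] <;>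
    rcases hT2 with hT2 | hT2
  · rcases hT1 with hT1 | hT1 <;> rcases shr with rfl | ⟨s1, s2, s3, s4⟩ <;>
      rcases hE with hE | ⟨hE1, hE⟩ | ⟨hE1, hE⟩ <;> linarith
  · rcases hK with rfl | rfl | rfl | rfl <;> rcases shr with rfl | ⟨s1, s2, s3, s4⟩ <;>
      rcases hE with hE | ⟨hE1, hE⟩ | ⟨hE1, hE⟩ <;> linarith
  · rcases hT1 with hT1 | hT1 <;> rcases shr with rfl | ⟨s1, s2, s3, s4⟩ <;>
      rcases hE with hE | ⟨hE1, hE⟩ | ⟨hE1, hE⟩ <;> linarith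
  · rcases hT1 with hT1 | hT1 <;> rcases hK with rfl | rfl | rfl | rfl <;>
      rcases shr with rfl | ⟨s1, s2, s3, s4⟩ <;>
      rcases hE with hE | ⟨hE1, hE⟩ | ⟨hE1, hE⟩ <;> linarith

set_option maxHeartbeats 8000000 in
/-- **the structured part** (`w = log (H V)`, `S` bounds the smallest lump) -/
lemma coreS {κ N M a c x L D k v p z E t s w δ e i n S : ℝ}
    (H : Fs κ N M a c x L D k v p z E t) (hs : s ≤ 3 / 5 * D)
    (hw : w ≤ v + hP k v p z (GP κ L a k p E) s + t) (hL : 0 ≤ w + v - k - δ + t)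
    (δ0 : 0 ≤ δ) (e0 : 0 ≤ e) (e1 : e ≤ κ / 64 + t)
    (hn : n ≤ p - δ - e + t) (i0 : 0 ≤ i)
    (hi : i ≤ w + p - k + t) (s1 : 3 * S ≤ N + t) (s2 : 3 * S ≤ n)
    (s3 : 2 * S ≤ i) :
    2 / 3 * k - w / 3 + 5 / 3 * δ + 2 * e + gQ (w + v - k - δ) (w + p - k) + 2 / 3 * (p - δ) +
      (i + 3 / 4 * S + 61 / 100 * D) + (w + p - k - i) / 3 + κ / 200 ≤ GP κ L a k p E := by
  have hg := gQ_cases (w + v - k - δ) (w + p - k)
  obtain ⟨⟨κ0, κ1, N34, N84, MN, a0, a12, c0, c13, x0, D0, q43, sq2, L1, L2, L3, shr, v0, -, -⟩,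
    D1, t0, t1, v1, v2, k1, k2, p0, p1, z1, z2, hE⟩ := H
  unfold hP at hw
  unfold GP at *
  generalize gQ (w + v - k - δ) (w + p - k) = g at *
  rcases KP_cases v p z with h | h | h | h <;> rw [h] at hw <;>
    rcases hg with rfl | rfl | rfl | rfl <;> rcases shr with rfl | ⟨s1, s2, s3, s4⟩ <;>
    rcases hE with hE | ⟨hE1, hE⟩ | ⟨hE1, hE⟩ <;> linarith

set_option maxHeartbeats 8000000 in
/-- the principal part -/
lemma coreS2 {κ N M a c x L D k v p z E t s w δ e : ℝ}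
    (H : Fs κ N M a c x L D k v p z E t) (hs : s ≤ 3 / 5 * D)
    (hw : w ≤ v + hP k v p z (GP κ L a k p E) s + t) (hL : 0 ≤ w + v - k - δ + t)
    (δ0 : 0 ≤ δ) (e0 : 0 ≤ e) (e1 : e ≤ κ / 64 + t) :
    2 / 3 * k - w / 3 + 5 / 3 * δ + 2 * e + gQ (w + v - k - δ) (w + p - k) + 2 / 3 * (p - δ) +
      max 0 ((w + p - k) / 3) + κ / 200 ≤ GP κ L a k p E := by
  have hg := gQ_cases (w + v - k - δ) (w + p - k)
  have h0 : max 0 ((w + p - k) / 3) = 0 ∨ max 0 ((w + p - k) / 3) = (w + p - k) / 3 :=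
    max_choice _ _
  obtain ⟨⟨κ0, κ1, N34, N84, MN, a0, a12, c0, c13, x0, D0, q43, sq2, L1, L2, L3, shr, v0, -, -⟩,
    D1, t0, t1, v1, v2, k1, k2, p0, p1, z1, z2, hE⟩ := H
  unfold hP at hw
  unfold GP at *
  generalize gQ (w + v - k - δ) (w + p - k) = g at *
  rcases h0 with h0 | h0 <;> rw [h0] <;>
  rcases KP_cases v p z with h | h | h | h <;> rw [h] at hw <;>
    rcases hg with rfl | rfl | rfl | rfl <;> rcases shr with rfl | ⟨s1, s2, s3, s4⟩ <;>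
    rcases hE with hE | ⟨hE1, hE⟩ | ⟨hE1, hE⟩ <;> linarith

end Crest.Agent.R017.SpR702
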