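import Crest.Agent.R017.GrB_829
import Crest.Agent.R012.DualGcd_671

/-!
# Row 17, R8: the common main form `XJ` in terms of the frequencies `κ = j e` (helper829)

`XJ J α` (pairs `(δ, j)`, arbitrary `m₁, m₂`) equals the sum over `d, m₁, m₂` with `(m₁, m₂) = 1` and
over the frequencies `κ = j e`, `e = d/δ`, `(j, d) = 1` : `XJ_eq`.
`KJ J d` is the set of these `κ`, `mem_KJ_JW` describes it for the window `JW`.
-/

set_option autoImplicit false

noncomputable section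

open Finset
open scoped ComplexConjugate

namespace Crest.Agent.R017.SqLoc829

open Crest.Agent.R012 Crest.Agent.R012.Eis Crest.Agent.R012.Mob705 Crest.Agent.R012.Gauss880
open Crest.Agent.R017.CM106 Crest.Agent.R017.PX764 Crest.Agent.R017.C70

open Classical in
/-- the admissible pairs for `d` -/
def PJ (J : Finset (Eis × Eis)) (d : Eis) : Finset (Eis × Eis) :=
  J.filter fun x => x.1 ∣ d ∧ IsCoprime x.2 d

open Classical in
/-- the frequencies `κ = j e` for `d = δ e` -/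
def KJ (J : Finset (Eis × Eis)) (d : Eis) : Finset Eis := (PJ J d).image fun x => x.2 * (d / x.1)

open Classical in
/-- the frequency sum -/
def KS (J : Finset (Eis × Eis)) (d m₁ m₂ : Eis) : ℂ :=
  ∑ κ ∈ KJ J d, if IsCoprime κ (m₁ * m₂) then
    (((nm κ : ℝ) ^ (-(1 : ℝ) / 3) : ℝ) : ℂ) * (Gh κ m₁ * conj (Gh κ m₂)) else 0

/-- arbitrary coefficients on squarefree primary elements -/
structure FQ (α : Eis → ℂ) (D : Finset Eis) : Prop where
  prim : ∀ m, α m ≠ 0 → IsPrim m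
  sqf : ∀ m, α m ≠ 0 → Squarefree m
  D_prim : ∀ d ∈ D, IsPrim d
  dvd_mem : ∀ m, α m ≠ 0 → ∀ d : Eis, IsPrim d → d ∣ m → d ∈ D

lemma mul_div_self {a b : Eis} (ha : a ≠ 0) : (a * b) / a = b := mul_div_cancel_left₀ b ha

lemma div_spec {J : Finset (Eis × Eis)} (hJ : OKJ J) {d : Eis} (hd : IsPrim d) {x : Eis × Eis}
    (hx : x ∈ PJ J d) : ∃ e, IsPrim e ∧ d = x.1 * e ∧ d / x.1 = e ∧ IsPrim x.1 ∧ IsCoprime x.2 d := by
  classical
  unfold PJ at hx
  rw [mem_filter] at hx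
  obtain ⟨hxJ, ⟨e, he⟩, hc⟩ := hx
  have hp := hJ.prim x hxJ
  refine ⟨e, ?_, he, ?_, hp, hc⟩
  · rw [he] at hd
    exact hd.of_mul_left hp
  · rw [he, mul_div_self hp.ne_zero]

lemma kj_inj {J : Finset (Eis × Eis)} (hJ : OKJ J) {d : Eis} (hd : IsPrim d) :
    Set.InjOn (fun x : Eis × Eis => x.2 * (d / x.1)) (PJ J d) := by
  intro x hx y hy hxy
  obtain ⟨e, he, hde, h1, hp, hc⟩ := div_spec hJ hd hx
  obtain ⟨e', he', hde', h1', hp', hc'⟩ := div_spec hJ hd hy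
  simp only [h1, h1'] at hxy
  have hce : IsCoprime e y.2 := by
    have : IsCoprime y.2 e := hc'.of_isCoprime_of_dvd_right ⟨x.1, by rw [hde]; ring⟩
    exact this.symm
  have hce' : IsCoprime e' x.2 := by
    have : IsCoprime x.2 e' := hc.of_isCoprime_of_dvd_right ⟨y.1, by rw [hde']; ring⟩
    exact this.symm
  have d1 : e ∣ e' := hce.dvd_of_dvd_mul_left (by rw [← hxy]; exact dvd_mul_left _ _)
  have d2 : e' ∣ e := hce'.dvd_of_dvd_mul_left (by rw [hxy]; exact dvd_mul_left _ _)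
  have hee : e = e' := he.eq_of_associated he' (associated_of_dvd_dvd d1 d2)
  subst hee
  have e2 : x.2 = y.2 := mul_right_cancel₀ he.ne_zero hxy
  have e1 : x.1 = y.1 := mul_right_cancel₀ he.ne_zero (hde.symm.trans hde')
  exact Prod.ext e1 e2

lemma KS_eq {J : Finset (Eis × Eis)} (hJ : OKJ J) {d : Eis} (hd : IsPrim d) (m₁ m₂ : Eis) :
    haveI := Classical.propDecidable
    KS J d m₁ m₂ = ∑ x ∈ PJ J d, if IsCoprime (x.2 * (d / x.1)) (m₁ * m₂) then
      (((nm (x.2 * (d / x.1)) : ℝ) ^ (-(1 : ℝ) / 3) : ℝ) : ℂ) *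
        (Gh (x.2 * (d / x.1)) m₁ * conj (Gh (x.2 * (d / x.1)) m₂)) else 0 := by
  classical
  unfold KS KJ
  rw [Finset.sum_image (kj_inj hJ hd)]

/-- the summand of `XJ` -/
def FX (α : Eis → ℂ) (x : Eis × Eis) (m₁ m₂ : Eis) : ℂ :=
  haveI := Classical.propDecidable
  if IsCoprime x.2 (x.1 * m₁ * m₂) then
      ((PE (x.1 * m₁ * m₂) : ℝ) : ℂ) * (α (x.1 * m₁) * ((n6 m₁ : ℂ) * Gh x.2 m₁)) *
        conj (α (x.1 * m₂) * ((n6 m₂ : ℂ) * Gh x.2 m₂)) else 0

lemma FX_left {α : Eis → ℂ} {x : Eis × Eis} {m₁ : Eis} (h : α (x.1 * m₁) = 0) (m₂ : Eis) :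
    FX α x m₁ m₂ = 0 := by
  unfold FX; rw [h]; simp

lemma FX_right {α : Eis → ℂ} {x : Eis × Eis} {m₂ : Eis} (h : α (x.1 * m₂) = 0) (m₁ : Eis) :
    FX α x m₁ m₂ = 0 := by
  unfold FX; rw [h]; simp

lemma pp_four {δ e k₁ k₂ : Eis} (h0 : δ ≠ 0) (h1 : e ≠ 0) (h2 : k₁ ≠ 0) (h3 : k₂ ≠ 0) :
    pp (δ * (e * k₁) * (e * k₂)) = pp (δ * e * k₁ * k₂) := by
  classical
  rw [pp_mul (mul_ne_zero h0 (mul_ne_zero h1 h2)) (mul_ne_zero h1 h3), pp_mul h0 (mul_ne_zero h1 h2),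
    pp_mul h1 h2, pp_mul h1 h3, pp_mul (mul_ne_zero (mul_ne_zero h0 h1) h2) h3,
    pp_mul (mul_ne_zero h0 h1) h2, pp_mul h0 h1]
  ext p
  simp only [mem_union]
  tauto

lemma n6_sq {e : Eis} : n6 e ^ 2 = (nm e : ℝ) ^ (-(1 : ℝ) / 3) := by
  unfold n6
  rw [← Real.rpow_natCast, ← Real.rpow_mul (Nat.cast_nonneg _)]
  norm_num

open Classical in
/-- the pointwise identity -/
lemma FX_point {α : Eis → ℂ} {D : Finset Eis} (hα : FQ α D) {δ j e k₁ k₂ : Eis} (hδ : IsPrim δ)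
    (he : IsPrim e) (hk₁ : IsPrim k₁) (hk₂ : IsPrim k₂) :
    (((nm j : ℝ) ^ (-(1 : ℝ) / 3) : ℝ) : ℂ) * FX α (δ, j) (e * k₁) (e * k₂) =
      if IsCoprime j (δ * e) then
        ((PE (δ * e * k₁ * k₂) : ℝ) : ℂ) * (α (δ * e * k₁) * (n6 k₁ : ℂ)) *
          conj (α (δ * e * k₂) * (n6 k₂ : ℂ)) * (if IsCoprime (j * e) (k₁ * k₂) then
        (((nm (j * e) : ℝ) ^ (-(1 : ℝ) / 3) : ℝ) : ℂ) * (Gh (j * e) k₁ * conj (Gh (j * e) k₂))
          else 0) else 0 := by
  by_cases h1 : α (δ * e * k₁) = 0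
  · rw [FX_left (x := (δ, j)) (by simpa [mul_assoc] using h1), h1]; simp
  by_cases h2 : α (δ * e * k₂) = 0
  · rw [FX_right (x := (δ, j)) (by simpa [mul_assoc] using h2), h2]; simp
  have hs1 := hα.sqf _ h1
  have hs2 := hα.sqf _ h2
  have c1 : IsCoprime (δ * e) k₁ := (squarefree_mul_iff.mp hs1).1.isCoprime
  have c2 : IsCoprime (δ * e) k₂ := (squarefree_mul_iff.mp hs2).1.isCoprime
  have hse : Squarefree e := (squarefree_mul_iff.mp (squarefree_mul_iff.mp hs1).2.1).2.2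
  unfold FX
  simp only
  by_cases hc : IsCoprime j (δ * e)
  · rw [if_pos hc]
    have hje : IsCoprime j e := hc.of_mul_right_right
    by_cases hk : IsCoprime j (k₁ * k₂)
    · have a1 : IsCoprime j (δ * (e * k₁) * (e * k₂)) :=
        ((hc.of_mul_right_left.mul_right (hje.mul_right hk.of_mul_right_left)).mul_right
          (hje.mul_right hk.of_mul_right_right))
      have a2 : IsCoprime (j * e) (k₁ * k₂) :=
        IsCoprime.mul_left hk (c1.of_mul_left_right.mul_right c2.of_mul_left_right)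
      rw [if_pos a1, if_pos a2]
      have e1 : PE (δ * (e * k₁) * (e * k₂)) = PE (δ * e * k₁ * k₂) := by
        unfold PE
        rw [pp_four hδ.ne_zero he.ne_zero hk₁.ne_zero hk₂.ne_zero]
      rw [e1, Gh_mul he hk₁, Gh_mul he hk₂, n6_mul, n6_mul, ← mul_assoc δ e k₁, ← mul_assoc δ e k₂,
        nm_mul]
      have e2 : ((((nm j * nm e : ℕ) : ℝ) ^ (-(1 : ℝ) / 3) : ℝ) : ℂ) =
          (((nm j : ℝ) ^ (-(1 : ℝ) / 3) : ℝ) : ℂ) * ((n6 e : ℂ) * (n6 e : ℂ)) := by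
        push_cast
        rw [Real.mul_rpow (Nat.cast_nonneg _) (Nat.cast_nonneg _), ← n6_sq (e := e)]
        push_cast; ring
      rw [e2]
      have e3 := Gh_mul_conj he hse hje
      simp only [map_mul, Complex.conj_ofReal, Complex.ofReal_mul]
      linear_combination ((((nm j : ℝ) ^ (-(1 : ℝ) / 3) : ℝ) : ℂ) *
        ((PE (δ * e * k₁ * k₂) : ℝ) : ℂ) * α (δ * e * k₁) * (n6 e : ℂ) * (n6 e : ℂ) * (n6 k₁ : ℂ) *
        (n6 k₂ : ℂ) * Gh (j * e) k₁ * conj (α (δ * e * k₂)) * conj (Gh (j * e) k₂)) * e3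
    · have a1 : ¬ IsCoprime j (δ * (e * k₁) * (e * k₂)) := fun h => hk
        ((h.of_mul_right_left.of_mul_right_right.of_mul_right_right).mul_right
          (h.of_mul_right_right.of_mul_right_right))
      have a2 : ¬ IsCoprime (j * e) (k₁ * k₂) := fun h => hk h.of_mul_left_left
      rw [if_neg a1, if_neg a2]; ring
  · rw [if_neg hc, if_neg, mul_zero]
    intro h
    exact hc (h.of_mul_right_left.of_mul_right_left.mul_right
      (h.of_mul_right_right.of_mul_right_left))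

open Classical in
lemma XJ_finset {α : Eis → ℂ} {D : Finset Eis} (hα : FQ α D) {J : Finset (Eis × Eis)}
    (hJ : OKJ J) :
    XJ J α = ∑ x ∈ J, (((nm x.2 : ℝ) ^ (-(1 : ℝ) / 3) : ℝ) : ℂ) *
      ∑ e ∈ D, ∑ k₁ ∈ D, ∑ k₂ ∈ D, if IsCoprime k₁ k₂ then FX α x (e * k₁) (e * k₂) else 0 := by
  unfold XJ
  refine Finset.sum_congr rfl fun x hx => ?_
  congr 1
  have hp := hJ.prim x hx
  -- the finite set of the `m`
  set S : Finset Eis := D.filter fun m => α (x.1 * m) ≠ 0 with hS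
  have hmem : ∀ m, α (x.1 * m) ≠ 0 → m ∈ S := fun m hm => by
    rw [hS, mem_filter]
    exact ⟨hα.dvd_mem _ hm m ((hα.prim _ hm).of_mul_left hp) (dvd_mul_left _ _), hm⟩
  have h1 : ∀ m₁ m₂, (if IsCoprime x.2 (x.1 * m₁ * m₂) then
      ((PE (x.1 * m₁ * m₂) : ℝ) : ℂ) * (α (x.1 * m₁) * ((n6 m₁ : ℂ) * Gh x.2 m₁)) *
        conj (α (x.1 * m₂) * ((n6 m₂ : ℂ) * Gh x.2 m₂)) else 0) = FX α x m₁ m₂ := fun m₁ m₂ => by
    unfold FX
    congr
  simp only [h1]
  have h2 : ∀ m₁, ∑' m₂, FX α x m₁ m₂ = ∑ m₂ ∈ S, FX α x m₁ m₂ := fun m₁ =>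
    tsum_eq_sum fun m₂ hm => FX_right (by_contra fun h => hm (hmem _ h)) m₁
  rw [tsum_congr h2, tsum_eq_sum (s := S)]
  · rw [Tau671.sum_pairs_gcd (S := S) (D := D)]
    · refine Finset.sum_congr rfl fun e _ => Finset.sum_congr rfl fun k₁ _ =>
        Finset.sum_congr rfl fun k₂ _ => ?_
      by_cases hc : IsCoprime k₁ k₂
      · rw [if_pos hc]
        by_cases h3 : α (x.1 * (e * k₁)) = 0
        · rw [FX_left h3]; simp
        by_cases h4 : α (x.1 * (e * k₂)) = 0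
        · rw [FX_right h4]; simp
        rw [if_pos ⟨hmem _ h3, hmem _ h4, hc⟩]
      · rw [if_neg hc, if_neg (fun h => hc h.2.2)]
    · intro b hb
      rw [hS, mem_filter] at hb
      exact ⟨(hα.prim _ hb.2).of_mul_left hp, (squarefree_mul_iff.mp (hα.sqf _ hb.2)).2.2⟩
    · exact hα.D_prim
    · intro b hb d hd hdb
      rw [hS, mem_filter] at hb
      exact hα.dvd_mem _ hb.2 d hd (hdb.mul_left _)
  · intro m₁ hm
    refine Finset.sum_eq_zero fun m₂ _ => FX_left (by_contra fun h => hm (hmem _ h)) m₂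

open Classical in
/-- **the common main form in terms of the frequencies `κ = j e`** -/
theorem XJ_eq {α : Eis → ℂ} {D : Finset Eis} (hα : FQ α D) {J : Finset (Eis × Eis)}
    (hJ : OKJ J) :
    XJ J α = ∑ d ∈ D, ∑ m₁ ∈ D, ∑ m₂ ∈ D, if IsCoprime m₁ m₂ then
      ((PE (d * m₁ * m₂) : ℝ) : ℂ) * (α (d * m₁) * (n6 m₁ : ℂ)) *
        conj (α (d * m₂) * (n6 m₂ : ℂ)) * KS J d m₁ m₂ else 0 := by
  rw [XJ_finset hα hJ]
  -- the term for `(x, e)`
  set H : Eis × Eis → Eis → ℂ := fun x e => (((nm x.2 : ℝ) ^ (-(1 : ℝ) / 3) : ℝ) : ℂ) *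
    ∑ k₁ ∈ D, ∑ k₂ ∈ D, if IsCoprime k₁ k₂ then FX α x (e * k₁) (e * k₂) else 0 with hH
  have hHne : ∀ x e, H x e ≠ 0 → ∃ k, α (x.1 * (e * k)) ≠ 0 := by
    intro x e hne
    by_contra hcon
    push Not at hcon
    apply hne
    rw [hH]
    simp only
    rw [Finset.sum_eq_zero, mul_zero]
    intro k₁ _
    refine Finset.sum_eq_zero fun k₂ _ => ?_
    rw [FX_left (hcon k₁)]; simp
  have e1 : ∑ x ∈ J, (((nm x.2 : ℝ) ^ (-(1 : ℝ) / 3) : ℝ) : ℂ) *
      ∑ e ∈ D, ∑ k₁ ∈ D, ∑ k₂ ∈ D, (if IsCoprime k₁ k₂ then FX α x (e * k₁) (e * k₂) else 0) =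
      ∑ x ∈ J, ∑ d ∈ D, if x.1 ∣ d then H x (d / x.1) else 0 := by
    refine Finset.sum_congr rfl fun x hx => ?_
    have hp := hJ.prim x hx
    rw [Finset.mul_sum]
    change ∑ e ∈ D, H x e = _
    rw [← Finset.sum_filter]
    refine Finset.sum_bij_ne_zero (fun e _ _ => x.1 * e) ?_ ?_ ?_ ?_
    · intro e he hne
      rw [mem_filter]
      obtain ⟨k, hk⟩ := hHne x e hne
      refine ⟨hα.dvd_mem _ hk _ (hp.mul (hα.D_prim e he)) ⟨k, by ring⟩, dvd_mul_right _ _⟩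
    · intro e _ _ e' _ _ h
      exact mul_left_cancel₀ hp.ne_zero h
    · intro d hd hne
      rw [mem_filter] at hd
      obtain ⟨e, he⟩ := hd.2
      subst he
      rw [mul_div_self hp.ne_zero] at hne
      obtain ⟨k, hk⟩ := hHne x e hne
      have hep : IsPrim e := (hα.D_prim _ hd.1).of_mul_left hp
      exact ⟨e, hα.dvd_mem _ hk _ hep ⟨x.1 * k, by ring⟩, hne, rfl⟩
    · intro e _ _
      rw [mul_div_self hp.ne_zero]
  rw [e1, Finset.sum_comm]
  refine Finset.sum_congr rfl fun d hd => ?_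
  have hdp := hα.D_prim d hd
  -- expand the right side
  have e2 : ∀ x ∈ J, (if x.1 ∣ d then H x (d / x.1) else 0) =
      if x.1 ∣ d ∧ IsCoprime x.2 d then ∑ m₁ ∈ D, ∑ m₂ ∈ D, (if IsCoprime m₁ m₂ then
      ((PE (d * m₁ * m₂) : ℝ) : ℂ) * (α (d * m₁) * (n6 m₁ : ℂ)) *
        conj (α (d * m₂) * (n6 m₂ : ℂ)) * (if IsCoprime (x.2 * (d / x.1)) (m₁ * m₂) then
      (((nm (x.2 * (d / x.1)) : ℝ) ^ (-(1 : ℝ) / 3) : ℝ) : ℂ) *
        (Gh (x.2 * (d / x.1)) m₁ * conj (Gh (x.2 * (d / x.1)) m₂)) else 0) else 0) else 0 := by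
    intro x hx
    by_cases hxd : x.1 ∣ d
    · rw [if_pos hxd]
      have hp := hJ.prim x hx
      obtain ⟨e, he⟩ := hxd
      have hde : d / x.1 = e := by rw [he, mul_div_self hp.ne_zero]
      have hep : IsPrim e := by
        rw [he] at hdp
        exact hdp.of_mul_left hp
      rw [hde, hH]
      simp only
      rw [Finset.mul_sum]
      have e3 : ∀ m₁ ∈ D, (((nm x.2 : ℝ) ^ (-(1 : ℝ) / 3) : ℝ) : ℂ) *
          ∑ m₂ ∈ D, (if IsCoprime m₁ m₂ then FX α x (e * m₁) (e * m₂) else 0) =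
          ∑ m₂ ∈ D, (if IsCoprime m₁ m₂ then (if IsCoprime x.2 (x.1 * e) then
        ((PE (x.1 * e * m₁ * m₂) : ℝ) : ℂ) * (α (x.1 * e * m₁) * (n6 m₁ : ℂ)) *
          conj (α (x.1 * e * m₂) * (n6 m₂ : ℂ)) * (if IsCoprime (x.2 * e) (m₁ * m₂) then
        (((nm (x.2 * e) : ℝ) ^ (-(1 : ℝ) / 3) : ℝ) : ℂ) * (Gh (x.2 * e) m₁ * conj (Gh (x.2 * e) m₂))
          else 0) else 0) else 0) := by
        intro m₁ hm₁
        rw [Finset.mul_sum]
        refine Finset.sum_congr rfl fun m₂ hm₂ => ?_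
        by_cases hc : IsCoprime m₁ m₂
        · rw [if_pos hc, if_pos hc]
          exact FX_point hα hp hep (hα.D_prim _ hm₁) (hα.D_prim _ hm₂)
        · rw [if_neg hc, if_neg hc, mul_zero]
      rw [Finset.sum_congr rfl e3]
      have hdvd : x.1 ∣ d := ⟨e, he⟩
      by_cases hc : IsCoprime x.2 d
      · rw [if_pos ⟨hdvd, hc⟩]
        rw [he] at hc ⊢
        simp only [if_pos hc]
      · rw [if_neg (fun h => hc h.2)]
        rw [he] at hc
        simp only [if_neg hc, ite_self, Finset.sum_const_zero]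
    · rw [if_neg hxd, if_neg (fun h => hxd h.1)]
  rw [Finset.sum_congr rfl e2, ← Finset.sum_filter]
  change ∑ x ∈ PJ J d, _ = _
  rw [Finset.sum_comm]
  refine Finset.sum_congr rfl fun m₁ hm₁ => ?_
  rw [Finset.sum_comm]
  refine Finset.sum_congr rfl fun m₂ hm₂ => ?_
  by_cases hc : IsCoprime m₁ m₂
  · simp only [if_pos hc]
    rw [KS_eq hJ hdp, Finset.mul_sum]
  · simp only [if_neg hc, Finset.sum_const_zero]

/-! ### the frequencies of the window -/

open Classical in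
/-- the primary gcd of `κ` and a squarefree primary `d` -/
def gd (κ d : Eis) : Eis := ∏ p ∈ (pp d).filter (fun p => p ∣ κ), p

open Classical in
lemma ppset_gd (κ d : Eis) : PPSet ((pp d).filter (fun p => p ∣ κ)) :=
  (ppSet_pp d).subset (Finset.filter_subset _ _)

lemma gd_prim (κ d : Eis) : IsPrim (gd κ d) := (ppset_gd κ d).isPrim_prod

lemma gd_dvd_left (κ d : Eis) : gd κ d ∣ κ := by
  classical
  unfold gd
  rw [(ppset_gd κ d).prod_dvd]
  intro p hp
  exact (mem_filter.1 hp).2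

lemma gd_dvd_right (κ d : Eis) : gd κ d ∣ d := by
  classical
  unfold gd
  rw [(ppset_gd κ d).prod_dvd]
  intro p hp
  exact dvd_of_mem_pp (mem_filter.1 hp).1

lemma gd_eq {j e δ : Eis} (hδ : IsPrim δ) (he : IsPrim e) (hs : Squarefree e)
    (hc : IsCoprime j (δ * e)) (hde : IsCoprime δ e) : gd (j * e) (δ * e) = e := by
  classical
  have h1 : (pp (δ * e)).filter (fun p => p ∣ j * e) = pp e := by
    ext p
    rw [mem_filter, mem_pp (mul_ne_zero hδ.ne_zero he.ne_zero), mem_pp he.ne_zero]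
    constructor
    · rintro ⟨⟨hp, h1⟩, h2⟩
      refine ⟨hp, ?_⟩
      rcases hp.2.dvd_or_dvd h2 with h3 | h3
      · exact absurd (hc.isUnit_of_dvd' h3 h1) hp.2.not_isUnit
      · exact h3
    · rintro ⟨hp, h1⟩
      exact ⟨⟨hp, h1.mul_left _⟩, h1.mul_left _⟩
  unfold gd
  rw [h1, prod_pp he hs]

/-- **membership for the window** -/
theorem mem_KJ_JW {D Y₀ Y₁ : ℝ} {d : Eis} (hd : IsPrim d) (hs : Squarefree d) (κ : Eis) :
    κ ∈ KJ (JW D Y₀ Y₁) d ↔ JC κ ∧ (∀ p ∈ pp d, ¬ p ^ 2 ∣ κ) ∧ nm (d / gd κ d) ≤ ⌊D⌋₊ ∧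
      Y₀ < nm (κ / gd κ d * (d / gd κ d) ^ 2) ∧
      (nm (κ / gd κ d * (d / gd κ d) ^ 2) : ℝ) ≤ Y₁ := by
  classical
  constructor
  · intro h
    unfold KJ at h
    rw [mem_image] at h
    obtain ⟨⟨δ, j⟩, hx, rfl⟩ := h
    obtain ⟨e, he, hde, h1, hδ, hc⟩ := div_spec (okJ_JW D Y₀ Y₁) hd hx
    simp only at hde h1 hc hδ ⊢
    have hx' := (mem_filter.1 (show (δ, j) ∈ PJ (JW D Y₀ Y₁) d from hx)).1
    unfold JW at hx'
    rw [mem_filter, mem_product, mem_primBall] at hx'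
    obtain ⟨⟨⟨hn, -⟩, -⟩, hsδ, hj, hY0, hY1⟩ := hx'
    simp only at hn hsδ hj hY0 hY1
    rw [h1]
    subst hde
    have hse : Squarefree e := (squarefree_mul_iff.mp hs).2.2
    have hcde : IsCoprime δ e := (squarefree_mul_iff.mp hs).1.isCoprime
    have hg : gd (j * e) (δ * e) = e := gd_eq hδ he hse hc hcde
    have hje : j * e / e = j := mul_div_cancel_right₀ _ he.ne_zero
    have hδe : δ * e / e = δ := mul_div_cancel_right₀ _ he.ne_zero
    rw [hg, hje, hδe]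
    refine ⟨?_, ?_, hn, hY0, hY1⟩
    · obtain ⟨c, hc0, j', hj', hcf, rfl⟩ := hj
      refine ⟨c, hc0, j' * e, hj'.mul he, ?_, by ring⟩
      intro p hp hd3
      by_cases hpe : p ∣ e
      · have hpj : IsCoprime (p ^ 3) j' := by
          have h3 : IsCoprime j' e := hc.of_mul_left_right.of_mul_right_right
          have h4 : ¬ p ∣ j' := fun h => hp.not_isUnit (h3.isUnit_of_dvd' h hpe)
          exact (hp.irreducible.coprime_iff_not_dvd.2 h4).pow_left
        have h5 : p ^ 3 ∣ e := hpj.dvd_of_dvd_mul_left hd3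
        have h6 : p * p ∣ e := (Dvd.intro p (by ring)).trans h5
        exact hp.not_isUnit (hse p h6)
      · have hpe' : IsCoprime (p ^ 3) e := (hp.irreducible.coprime_iff_not_dvd.2 hpe).pow_left
        exact hcf p hp (hpe'.dvd_of_dvd_mul_right hd3)
    · intro p hp h2
      have hpp := isPP_of_mem_pp hp
      have hpd := dvd_of_mem_pp hp
      have hpj : ¬ p ∣ j := fun h => hpp.2.not_isUnit (hc.isUnit_of_dvd' h hpd)
      have h3 : IsCoprime (p ^ 2) j := (hpp.2.irreducible.coprime_iff_not_dvd.2 hpj).pow_left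
      have h4 : p ^ 2 ∣ e := h3.dvd_of_dvd_mul_left h2
      rw [pow_two] at h4
      exact hpp.2.not_isUnit (hse p h4)
  · rintro ⟨hκ, h2, hn, hY0, hY1⟩
    obtain ⟨j, hj⟩ := gd_dvd_left κ d
    obtain ⟨δ, hδ⟩ := gd_dvd_right κ d
    set e := gd κ d with he
    have hep : IsPrim e := gd_prim κ d
    have hδp : IsPrim δ := by
      rw [hδ] at hd
      exact hd.of_mul_left hep
    have e1 : κ / e = j := by rw [hj, mul_div_cancel_left₀ _ hep.ne_zero]
    have e2 : d / e = δ := by rw [hδ, mul_div_cancel_left₀ _ hep.ne_zero]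
    rw [e1, e2] at hY0 hY1
    rw [e2] at hn
    have hsδ : Squarefree δ := by
      rw [hδ] at hs
      exact (squarefree_mul_iff.mp hs).2.2
    -- `j` is admissible
    have hJC : JC j := by
      obtain ⟨c, hc0, κ', hκ', hcf, hκe⟩ := hκ
      have hcl : IsCoprime e c := (GrB829.IsC.lamish hc0).isCoprime hep |>.symm
      have h3 : e ∣ κ' := hcl.dvd_of_dvd_mul_left (by rw [← hκe, hj]; exact dvd_mul_right _ _)
      obtain ⟨j', hj'⟩ := h3
      refine ⟨c, hc0, j', ?_, ?_, ?_⟩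
      · rw [hj'] at hκ'
        exact hκ'.of_mul_left hep
      · rw [hj'] at hcf
        exact GrB829.cbF_of_mul hcf
      · apply mul_left_cancel₀ hep.ne_zero
        rw [← hj, hκe, hj']; ring
    have hcop : IsCoprime j d := by
      rw [isCoprime_comm, isCoprime_iff_pp hd]
      intro p hp hpd hpj
      have h4 : p ∈ pp d := (mem_pp hd.ne_zero).2 ⟨hp, hpd⟩
      have h5 : p ∣ κ := by rw [hj]; exact hpj.mul_left _
      have h6 : p ∣ e := by
        rw [he]; unfold gd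
        exact Finset.dvd_prod_of_mem _ (mem_filter.2 ⟨h4, h5⟩)
      apply h2 p h4
      rw [hj, pow_two]
      exact mul_dvd_mul h6 hpj
    unfold KJ
    rw [mem_image]
    refine ⟨(δ, j), ?_, ?_⟩
    · unfold PJ
      rw [mem_filter]
      refine ⟨?_, ⟨e, by rw [hδ]; ring⟩, hcop⟩
      unfold JW
      rw [mem_filter, mem_product, mem_primBall, mem_ball]
      refine ⟨⟨⟨hn, hδp⟩, ?_⟩, hsδ, hJC, hY0, hY1⟩
      apply Nat.le_floor
      refine le_trans ?_ hY1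
      rw [nm_mul]
      have h7 : 1 ≤ nm (δ ^ 2) := nm_pos.2 (pow_ne_zero _ hδp.ne_zero)
      exact_mod_cast Nat.le_mul_of_pos_right _ h7
    · simp only
      have e3 : d / δ = e := by rw [hδ, mul_comm, mul_div_cancel_left₀ _ hδp.ne_zero]
      rw [e3, hj]; ring

end Crest.Agent.R017.SqLoc829
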