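import Crest.Agent.R017.StA_828
import Crest.Agent.R017.E2m_440

/-!
# Row 17, R8/P1: the truncated structured function times a squarefree frequency (helper828)

`Gt a E0 k` : the gate: squarefree primary `e ∣ k` with `N(e / (e, a)) ≤ E0`.

`sy k a * StE E0 J om (ca a α) k = StG a E0 (Ja a J) (om ∘ psi a) (xa a α) k` for every `k`.
-/

set_option autoImplicit false

noncomputable section

open Finset
open scoped ComplexConjugate

namespace Crest.Agent.R017.StB828

open Crest.Agent.R012 Crest.Agent.R012.Eis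
open Crest.Agent.R012.Mob705 hiding pb mem_pb
open Crest.Agent.R012.Gauss880
open Crest.Agent.R012.LS2 (S mem_S)
open Crest.Agent.R017.CM106 Crest.Agent.R017.PX764 Crest.Agent.R017.C70
open Crest.Agent.R017.StA828
open Crest.Agent.R017.E2440 (TE StE)

open Classical in
/-- the gate -/
def Gt (a : Eis) (E0 : ℝ) (k : Eis) : Finset Eis :=
  (S (E0 * nm a)).filter fun e => e ∣ k ∧ (nm (e / gp e a) : ℝ) ≤ E0

lemma mem_Gt {a : Eis} {E0 : ℝ} (hE : 0 ≤ E0) {k e : Eis} : e ∈ Gt a E0 k ↔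
    ((nm e : ℝ) ≤ E0 * nm a ∧ IsPrim e ∧ Squarefree e) ∧ e ∣ k ∧
      (nm (e / gp e a) : ℝ) ≤ E0 := by
  classical
  unfold Gt
  rw [mem_filter, mem_S (by positivity)]

lemma gp_of_cop {e a : Eis} (ha : IsPrim a) (h : IsCoprime e a) : gp e a = 1 :=
  gp_eq ha isPrim_one (one_mul e).symm (one_mul a).symm h

lemma one_le_nmR {a : Eis} (ha : IsPrim a) : (1 : ℝ) ≤ nm a := by
  exact_mod_cast nm_pos.2 ha.ne_zero

open Classical in
/-- the gate for `k` prime to `a` -/
lemma Gt_of_cop {a : Eis} (ha : IsPrim a) {E0 : ℝ} (hE : 0 ≤ E0) {k : Eis} (h : IsCoprime k a) :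
    Gt a E0 k = (S E0).filter (fun e => e ∣ k) := by
  have key : ∀ e, e ∣ k → e / gp e a = e := fun e he => by
    rw [gp_of_cop ha (h.of_isCoprime_of_dvd_left he), EuclideanDomain.div_one]
  ext e
  rw [mem_Gt hE, mem_filter, mem_S hE]
  constructor
  · rintro ⟨⟨h1, h2, h3⟩, h4, h5⟩
    rw [key e h4] at h5
    exact ⟨⟨h5, h2, h3⟩, h4⟩
  · rintro ⟨⟨h1, h2, h3⟩, h4⟩
    refine ⟨⟨h1.trans ?_, h2, h3⟩, h4, by rw [key e h4]; exact h1⟩
    exact le_mul_of_one_le_right hE (one_le_nmR ha)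

/-- `(p e, a) = p (e, a)` -/
lemma gp_mul_prime {a e p : Eis} (ha : IsPrim a) (hp : IsPP p) (hpa : p ∣ a)
    (hpe : ¬ p ∣ e) : gp (p * e) a = p * gp e a := by
  obtain ⟨h1, h2, h3, h4, h5⟩ := gp_spec e ha
  have hpg : ¬ p ∣ gp e a := fun h => hpe (h.trans ⟨_, h3⟩)
  have hd : p ∣ a / gp e a := by
    rw [h4] at hpa
    exact (hp.prime.dvd_or_dvd hpa).resolve_left hpg
  obtain ⟨c, hc⟩ := hd
  refine gp_eq ha (hp.isPrim.mul h1) (l₁ := e / gp e a) (u₁ := c) ?_ ?_ ?_
  · conv_lhs => rw [h3]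
    ring
  · conv_lhs => rw [h4, hc]
    ring
  · exact h5.of_isCoprime_of_dvd_right ⟨p, by rw [hc]; ring⟩

/-- cancellation over the gate -/
lemma sum_gate_zero {a p k : Eis} {E0 : ℝ} (hE : 0 ≤ E0) (ha : IsPrim a)
    (hp : IsPP p) (hpa : p ∣ a) (hpk : p ∣ k) (f : Eis → ℂ)
    (hf : ∀ e, ¬ p ∣ e → f (p * e) = f e) :
    ∑ e ∈ Gt a E0 k, (mu e : ℂ) * f e = 0 := by
  classical
  have hp0 : p ≠ 0 := hp.prime.ne_zero
  have hcop : ∀ e, ¬ p ∣ e → IsCoprime p e := fun e he =>
    (hp.prime.irreducible.coprime_iff_not_dvd).2 he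
  -- multiplication by `p`
  have hmul : ∀ e, ¬ p ∣ e → (e ∈ Gt a E0 k ↔ p * e ∈ Gt a E0 k) := by
    intro e he
    obtain ⟨h1, h2, h3, h4, h5⟩ := gp_spec e ha
    have hg := gp_mul_prime ha hp hpa he
    have hdiv : p * e / gp (p * e) a = e / gp e a := by
      have e0 : p * e = (p * gp e a) * (e / gp e a) := by
        rw [mul_assoc, ← h3]
      rw [hg, e0, mul_div_cancel_left₀ _ (mul_ne_zero hp0 h1.ne_zero)]
    have hsz : (nm (p * e) : ℝ) ≤ nm a * nm (e / gp e a) := by
      have e1 : p * e = (p * gp e a) * (e / gp e a) := by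
        conv_lhs => rw [h3]
        ring
      have h6 : p * gp e a ∣ a := by
        have hpg : ¬ p ∣ gp e a := fun h => he (h.trans ⟨_, h3⟩)
        exact (hcop _ hpg).mul_dvd hpa ⟨_, h4⟩
      have h7 : nm (p * gp e a) ≤ nm a := Div277.nm_le_of_dvd ha.ne_zero h6
      rw [e1, nm_mul, Nat.cast_mul]
      exact mul_le_mul_of_nonneg_right (by exact_mod_cast h7) (Nat.cast_nonneg _)
    rw [mem_Gt hE, mem_Gt hE, hdiv]
    constructor
    · rintro ⟨⟨-, h8, h9⟩, h10, h11⟩
      refine ⟨⟨?_, hp.isPrim.mul h8, ?_⟩, (hcop e he).mul_dvd hpk h10, h11⟩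
      · refine hsz.trans ?_
        rw [mul_comm]
        exact mul_le_mul_of_nonneg_right h11 (Nat.cast_nonneg _)
      · exact (sqf_mul (hcop e he)).2 ⟨hp.prime.irreducible.squarefree, h9⟩
    · rintro ⟨⟨h7, h8, h9⟩, h10, h11⟩
      refine ⟨⟨?_, h8.of_mul_left hp.isPrim, h9.of_mul_right⟩, (dvd_mul_left e p).trans h10, h11⟩
      refine le_trans ?_ h7
      rw [nm_mul, Nat.cast_mul]
      exact le_mul_of_one_le_left (Nat.cast_nonneg _) (one_le_nmR hp.isPrim)
  have hdivp : ∀ e, p ∣ e → e ∈ Gt a E0 k → ¬ p ∣ e / p ∧ p * (e / p) = e := by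
    intro e he hm
    have e1 : p * (e / p) = e := EuclideanDomain.mul_div_cancel' hp0 he
    refine ⟨fun h => ?_, e1⟩
    obtain ⟨c, hc⟩ := h
    have hsq := ((mem_Gt hE).1 hm).1.2.2
    exact hp.prime.not_isUnit (hsq p ⟨c, by rw [← e1, hc]; ring⟩)
  refine sum_involution (fun e _ => if p ∣ e then e / p else p * e) ?_ ?_ ?_ ?_
  · intro e he
    split_ifs with h
    · obtain ⟨h1, h2⟩ := hdivp e h he
      have h3 : e / p ≠ 0 := fun h0 => by
        rw [h0, mul_zero] at h2
        exact ((mem_Gt hE).1 he).1.2.1.ne_zero h2.symm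
      have e1 : (mu e : ℂ) = -(mu (e / p) : ℂ) := by
        conv_lhs => rw [← h2]
        rw [mu_mul hp0 h3 (hcop _ h1), mu_prime hp]
        push_cast; ring
      have e2 : f e = f (e / p) := by
        conv_lhs => rw [← h2]
        exact hf _ h1
      rw [e1, e2]; ring
    · have h3 : e ≠ 0 := ((mem_Gt hE).1 he).1.2.1.ne_zero
      rw [mu_mul hp0 h3 (hcop _ h), mu_prime hp, hf e h]
      push_cast; ring
  · intro e he _ h
    have h3 : e ≠ 0 := ((mem_Gt hE).1 he).1.2.1.ne_zero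
    have h1p : p ≠ 1 := fun h1 => hp.prime.not_isUnit (h1 ▸ isUnit_one)
    split_ifs at h with h0
    · obtain ⟨h1, h2⟩ := hdivp e h0 he
      rw [h] at h1
      exact h1 h0
    · exact h1p (mul_right_cancel₀ h3 (h.trans (one_mul e).symm))
  · intro e he
    split_ifs with h
    · obtain ⟨h1, h2⟩ := hdivp e h he
      exact (hmul _ h1).2 (by rw [h2]; exact he)
    · exact (hmul e h).1 he
  · intro e he
    by_cases h : p ∣ e
    · obtain ⟨h1, h2⟩ := hdivp e h he
      simp only [if_pos h, if_neg h1]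
      exact h2
    · simp only [if_neg h, if_pos (dvd_mul_right p e)]
      exact mul_div_cancel_left₀ e hp0

/-! ### `TE` of a shifted sequence -/

open Classical in
lemma TE_xa {g b j δ e : Eis} (hg : IsPrim g) (hb : IsPrim b)
    (hδg : IsCoprime δ g) (α : Eis → ℂ) :
    TE (xa (g * b) α) (b * δ, j) e = ∑' m : Eis,
      if e ∣ g * m ∧ IsCoprime j (b * δ * (g * m)) then
        ca (g * b) α (δ * m) * ((n6 (g * m) : ℂ) * Gh j (g * m)) else 0 := by
  unfold TE
  set F : Eis → ℂ := fun m => if e ∣ m ∧ IsCoprime j (b * δ * m) then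
    xa (g * b) α (b * δ * m) * ((n6 m : ℂ) * Gh j m) else 0 with hF
  have h1 : ∀ m, F m = if g ∣ m then F m else 0 := by
    intro m
    split_ifs with h
    · rfl
    · rw [hF]
      simp only
      split_ifs with h2
      · have h3 : xa (g * b) α (b * δ * m) = 0 := by
          by_contra h4
          have h5 := xa_dvd h4
          have h6 : g ∣ δ * m := by
            have h7 : b * g ∣ b * (δ * m) := by
              rw [mul_comm b g, ← mul_assoc b δ m]; exact h5
            exact (mul_dvd_mul_iff_left hb.ne_zero).1 h7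
          exact h (hδg.symm.dvd_of_dvd_mul_left h6)
        rw [h3, zero_mul]
      · rfl
  have h2 : ∑' m, F m = ∑' m, F (g * m) := by
    rw [tsum_mult hg.ne_zero F]
    exact tsum_congr h1
  show ∑' m, F m = _
  rw [h2]
  refine tsum_congr fun m => ?_
  rw [hF]
  simp only
  have e1 : b * δ * (g * m) = g * b * (δ * m) := by ring
  have hgb : g * b ≠ 0 := mul_ne_zero hg.ne_zero hb.ne_zero
  congr 1
  rw [e1, xa_mul hgb]

open Classical in
/-- a prime of `g` may be removed from `e` -/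
lemma TE_xa_prime {g b j δ e p : Eis} (hg : IsPrim g) (hb : IsPrim b)
    (hδg : IsCoprime δ g) (hp : IsPP p) (hpg : p ∣ g) (hpe : ¬ p ∣ e) (α : Eis → ℂ) :
    TE (xa (g * b) α) (b * δ, j) (p * e) = TE (xa (g * b) α) (b * δ, j) e := by
  rw [TE_xa hg hb hδg, TE_xa hg hb hδg]
  refine tsum_congr fun m => ?_
  have h1 : p * e ∣ g * m ↔ e ∣ g * m := by
    constructor
    · exact fun h => (dvd_mul_left e p).trans h
    · exact fun h => ((hp.prime.irreducible.coprime_iff_not_dvd).2 hpe).mul_dvd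
        (hpg.mul_right m) h
  simp only [h1]

open Classical in
/-- main case -/
lemma TE_main {g b j δ e : Eis} (hg : IsPrim g) (hb : IsPrim b)
    (hjb : IsCoprime j b) (hjg : IsCoprime j g) (hδ : IsPrim δ) (hδa : IsCoprime δ (g * b))
    (heg : IsCoprime e g) {α : Eis → ℂ} (hα : ∀ n, α n ≠ 0 → IsPrim n) :
    TE (xa (g * b) α) (b * δ, j) e =
      ((n6 g : ℂ) * Gh j g) * TE (ca (g * b) α) (δ, g * j) e := by
  have hδg : IsCoprime δ g := hδa.of_mul_right_left
  rw [TE_xa hg hb hδg]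
  unfold TE
  rw [← tsum_mul_left]
  refine tsum_congr fun m => ?_
  by_cases hc : ca (g * b) α (δ * m) = 0
  · simp [hc]
  obtain ⟨h1, h2⟩ := ca_ne hc
  have hm : IsPrim m := (hα _ h2).of_mul_left hδ
  have hiff : (e ∣ g * m ∧ IsCoprime j (b * δ * (g * m))) ↔
      (e ∣ m ∧ IsCoprime (g * j) (δ * m)) := by
    rw [show b * δ * (g * m) = (g * b) * (δ * m) by ring]
    constructor
    · rintro ⟨h3, h4⟩
      exact ⟨heg.dvd_of_dvd_mul_left h3, h1.of_mul_left_left.mul_left h4.of_mul_right_right⟩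
    · rintro ⟨h3, h4⟩
      exact ⟨h3.mul_left g, (hjg.mul_right hjb).mul_right h4.of_mul_left_right⟩
  by_cases h5 : e ∣ m ∧ IsCoprime (g * j) (δ * m)
  · have h6 := hiff.2 h5
    simp only at h5 ⊢
    rw [if_pos h5, if_pos h6, n6_mul, Gh_mul hg hm, mul_comm j g]
    push_cast
    ring
  · have h6 : ¬ (e ∣ g * m ∧ IsCoprime j (b * δ * (g * m))) := fun h => h5 (hiff.1 h)
    simp only at h5 ⊢
    rw [if_neg h5, if_neg h6, mul_zero]

open Classical in
/-- **the identity for one index, truncated form** -/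
theorem term_eqE {g b j δ k : Eis} (hg : IsPrim g) (hb : IsPrim b) (hs : Squarefree (g * b))
    (hjb : IsCoprime j b) (hδ : IsPrim δ) (hδa : IsCoprime δ (g * b))
    (hcf : ∀ p, Prime p → IsPrim p → ¬ p ^ 3 ∣ g * j) {α : Eis → ℂ}
    (hα : ∀ n, α n ≠ 0 → IsPrim n) {E0 : ℝ} (hE : 0 ≤ E0) :
    sy k (g * b) * (sy k δ * (conj (th (g * j * k)) *
      ∑ e ∈ (S E0).filter (fun e => e ∣ k), (mu e : ℂ) * TE (ca (g * b) α) (δ, g * j) e)) =
      sy k (b * δ) * (conj (th (j * k)) *
      ∑ e ∈ Gt (g * b) E0 k, (mu e : ℂ) * TE (xa (g * b) α) (b * δ, j) e) := by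
  have hgb : IsPrim (g * b) := hg.mul hb
  have hδg : IsCoprime δ g := hδa.of_mul_right_left
  have hsg : Squarefree g := hs.of_mul_left
  by_cases hk : IsCoprime k (g * b)
  swap
  · rw [(syG.eq_zero k (g * b) hgb).2 hk, zero_mul]
    by_cases hkb : IsCoprime k b
    · have hkg : ¬ IsCoprime k g := fun h => hk (h.mul_right hkb)
      obtain ⟨p, hp, hpg, hpk⟩ := exists_common hg hkg
      rw [sum_gate_zero hE hgb hp (hpg.mul_right b) hpk _
        (fun e he => TE_xa_prime hg hb hδg hp hpg he α)]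
      ring
    · have h0 : sy k (b * δ) = 0 :=
        (syG.eq_zero k (b * δ) (hb.mul hδ)).2 fun h => hkb h.of_mul_right_left
      rw [h0]; ring
  have hkg : IsCoprime k g := hk.of_mul_right_left
  have hkb : IsCoprime k b := hk.of_mul_right_right
  rw [Gt_of_cop hgb hE hk]
  by_cases hjg : IsCoprime j g
  swap
  · rw [th_eq_zero hg hsg hkg hjg hcf]
    have h0 : ∀ e, TE (xa (g * b) α) (b * δ, j) e = 0 := by
      intro e
      rw [TE_xa hg hb hδg]
      refine (tsum_congr fun m => ?_).trans tsum_zero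
      rw [if_neg]
      intro h
      exact hjg h.2.of_mul_right_right.of_mul_right_left
    have h1 : ∑ e ∈ (S E0).filter (fun e => e ∣ k), (mu e : ℂ) *
        TE (xa (g * b) α) (b * δ, j) e = 0 := by
      refine Finset.sum_eq_zero fun e _ => ?_
      rw [h0, mul_zero]
    rw [h1]; simp
  -- main case
  have hjk : IsCoprime (j * k) g := hjg.mul_left hkg
  have eth : th (g * j * k) = conj (Gh (j * k) g) * (n6 g : ℂ) * th (j * k) := by
    rw [show g * j * k = (j * k) * g by ring]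
    exact th_mul hg hsg hjk
  have eG : sy k g * Gh (j * k) g = Gh j g := by
    unfold Gh
    rw [syG.mul_left j k g hg, map_mul]
    have h1 : sy k g * conj (sy k g) = 1 := by
      rw [Complex.mul_conj, Complex.normSq_eq_norm_sq, norm_sy_one hg hkg]; simp
    linear_combination (G g * conj (sy j g)) * h1
  have eT : ∑ e ∈ (S E0).filter (fun e => e ∣ k), (mu e : ℂ) *
      TE (xa (g * b) α) (b * δ, j) e = ((n6 g : ℂ) * Gh j g) *
      ∑ e ∈ (S E0).filter (fun e => e ∣ k), (mu e : ℂ) * TE (ca (g * b) α) (δ, g * j) e := by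
    rw [Finset.mul_sum]
    refine Finset.sum_congr rfl fun e he => ?_
    rw [mem_filter] at he
    rw [TE_main hg hb hjb hjg hδ hδa (hkg.of_isCoprime_of_dvd_left he.2) hα]
    ring
  have hsy1 : sy k (g * b) = sy k g * sy k b :=
    Sym645.sy_mul_right k hg.ne_zero hb.ne_zero
  have hsy2 : sy k (b * δ) = sy k b * sy k δ :=
    Sym645.sy_mul_right k hb.ne_zero hδ.ne_zero
  rw [eT, eth, hsy1, hsy2]
  simp only [map_mul, Complex.conj_conj, Complex.conj_ofReal]
  set T := ∑ e ∈ (S E0).filter (fun e => e ∣ k), (mu e : ℂ) * TE (ca (g * b) α) (δ, g * j) e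
  linear_combination (sy k b * sy k δ * (n6 g : ℂ) * conj (th (j * k)) * T) * eG

open Classical in
/-- the gated structured function -/
def StG (a : Eis) (E0 : ℝ) (J : Finset (Eis × Eis)) (om : Eis × Eis → ℂ) (α : Eis → ℂ)
    (k : Eis) : ℂ :=
  ∑ x ∈ J, om x * (sy k x.1 * (conj (th (x.2 * k)) *
    ∑ e ∈ Gt a E0 k, (mu e : ℂ) * TE α x e))

open Classical in
lemma TE_ca_zero {a : Eis} {x : Eis × Eis} {e : Eis} {α : Eis → ℂ} (h : ¬ IsCoprime x.1 a) :
    TE (ca a α) x e = 0 := by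
  unfold TE
  refine (tsum_congr fun m => ?_).trans tsum_zero
  by_cases hc : ca a α (x.1 * m) = 0
  · simp [hc]
  · exact absurd (ca_ne hc).1.of_mul_right_left.symm h

open Classical in
/-- **the truncated structured function times a squarefree frequency**. -/
theorem sy_mul_StE {a : Eis} (ha : IsPrim a) (hs : Squarefree a) {J : Finset (Eis × Eis)}
    (hJ : OKJ J) (om : Eis × Eis → ℂ) {α : Eis → ℂ} (hα : ∀ n, α n ≠ 0 → IsPrim n) {E0 : ℝ}
    (hE : 0 ≤ E0) (k : Eis) :
    sy k a * StE E0 J om (ca a α) k =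
      StG a E0 (Ja a J) (fun y => om (psi a y)) (xa a α) k := by
  unfold StE StG Ja
  rw [sum_image]
  · rw [sum_filter, mul_sum]
    refine sum_congr rfl fun x hx => ?_
    split_ifs with hc
    · obtain ⟨h1, h2, h3, h4, h5⟩ := gp_spec x.2 ha
      have hpp := psi_phi ha (hJ.prim x hx) hc
      simp only [hpp]
      have hs' : Squarefree (gp x.2 a * (a / gp x.2 a)) := h4 ▸ hs
      have hc' : IsCoprime x.1 (gp x.2 a * (a / gp x.2 a)) := h4 ▸ hc
      have key := term_eqE (g := gp x.2 a) (b := a / gp x.2 a) (j := x.2 / gp x.2 a) (δ := x.1)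
        (k := k) h1 h2 hs' h5 (hJ.prim x hx) hc'
        (fun p hp hpp => by rw [← h3]; exact JC_cbf (hJ.jc x hx) hp hpp) hα hE
      rw [← h3, ← h4] at key
      show _ = om x * (sy k (a / gp x.2 a * x.1) * (conj (th (x.2 / gp x.2 a * k)) *
          ∑ e ∈ Gt a E0 k, (mu e : ℂ) *
            TE (xa a α) (a / gp x.2 a * x.1, x.2 / gp x.2 a) e))
      rw [← key]
      ring
    · have h0 : ∑ e ∈ (S E0).filter (fun e => e ∣ k), (mu e : ℂ) * TE (ca a α) x e = 0 :=
        Finset.sum_eq_zero fun e _ => by rw [TE_ca_zero hc, mul_zero]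
      rw [h0]; ring
  · intro x hx y hy hxy
    simp only [coe_filter, Set.mem_ofPred_eq] at hx hy
    rw [← psi_phi ha (hJ.prim x hx.1) hx.2, ← psi_phi ha (hJ.prim y hy.1) hy.2, hxy]

end Crest.Agent.R017.StB828
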