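import Crest.Agent.R017.StB_828

/-!
# Row 17, R8/P1: character sum times the error of the structured function (helper828)

`rs g α` : the part of `α` on the multiples of `g`; `cvc Y η β = Σ_a η a (xa a β)`.

`mul_split` : for `η` supported on squarefree primary numbers `≤ Y`
`CS η k (CS α k - c StE α k) = Σ_g sy k g (CS (cvc (sub η g) (rs g α)) k
   - c Σ_a η(g a) StG a E0 (Ja a J) (om ∘ psi a) (xa a (rs g α)) k)`.
-/

set_option autoImplicit false

noncomputable section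

open Finset
open scoped ComplexConjugate

namespace Crest.Agent.R017.StC828

open Crest.Agent.R012 Crest.Agent.R012.Eis Crest.Agent.R012.Div277
open Crest.Agent.R012.Mob705 hiding pb mem_pb
open Crest.Agent.R012.Gauss880
open Crest.Agent.R012.LS2 (S mem_S)
open Crest.Agent.R017.CM106 Crest.Agent.R017.PX764 Crest.Agent.R017.C70
open Crest.Agent.R017.StA828 Crest.Agent.R017.StB828
open Crest.Agent.R017.E2440 (TE StE)

open Classical in
/-- the part on the multiples of `g` -/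
def rs (g : Eis) (α : Eis → ℂ) (n : Eis) : ℂ := if g ∣ n then α n else 0

/-- squarefree support -/
def SqS (α : Eis → ℂ) : Prop := ∀ n, α n ≠ 0 → Squarefree n

lemma rs_ne {g : Eis} {α : Eis → ℂ} {n : Eis} (h : rs g α n ≠ 0) : g ∣ n ∧ α n ≠ 0 := by
  classical
  unfold rs at h
  split_ifs at h with h1
  · exact ⟨h1, h⟩
  · exact absurd rfl h

lemma FS_rs {α : Eis → ℂ} (h : FS α) (g : Eis) : FS (rs g α) where
  fin := h.fin.subset fun n hn => (rs_ne hn).2
  prim := fun n hn => h.prim n (rs_ne hn).2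

lemma SqS_rs {α : Eis → ℂ} (h : SqS α) (g : Eis) : SqS (rs g α) := fun n hn => h n (rs_ne hn).2

lemma FS_ca {α : Eis → ℂ} (h : FS α) (g : Eis) : FS (ca g α) where
  fin := h.fin.subset fun n hn => (ca_ne hn).2
  prim := fun n hn => h.prim n (ca_ne hn).2

lemma SqS_ca {α : Eis → ℂ} (h : SqS α) (g : Eis) : SqS (ca g α) := fun n hn => h n (ca_ne hn).2

lemma xa_ne {a : Eis} (ha : a ≠ 0) {α : Eis → ℂ} {n : Eis} (h : xa a α n ≠ 0) :
    ∃ m, n = a * m ∧ IsCoprime a m ∧ α m ≠ 0 := by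
  classical
  unfold xa at h
  split_ifs at h with h1
  · refine ⟨n / a, (EuclideanDomain.mul_div_cancel' ha h1.1).symm, h1.2, h⟩
  · exact absurd rfl h

lemma FS_xa {α : Eis → ℂ} (h : FS α) {a : Eis} (ha : IsPrim a) : FS (xa a α) where
  fin := (h.fin.image fun m => a * m).subset fun n hn => by
    obtain ⟨m, rfl, -, hm⟩ := xa_ne ha.ne_zero hn
    exact ⟨m, hm, rfl⟩
  prim := fun n hn => by
    obtain ⟨m, rfl, -, hm⟩ := xa_ne ha.ne_zero hn
    exact ha.mul (h.prim m hm)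

lemma SqS_xa {α : Eis → ℂ} (h : SqS α) {a : Eis} (ha : IsPrim a) (hs : Squarefree a) :
    SqS (xa a α) := fun n hn => by
  obtain ⟨m, rfl, hc, hm⟩ := xa_ne ha.ne_zero hn
  exact (sqf_mul hc).2 ⟨hs, h m hm⟩

lemma FS_zero : FS (0 : Eis → ℂ) := ⟨by simp, fun m h => absurd rfl h⟩

lemma FS_add {α β : Eis → ℂ} (hα : FS α) (hβ : FS β) : FS (α + β) where
  fin := (hα.fin.union hβ.fin).subset (Function.support_add α β)
  prim := fun n hn => by
    by_cases h : α n = 0
    · refine hβ.prim n fun h' => hn ?_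
      rw [Pi.add_apply, h, h', add_zero]
    · exact hα.prim n h

lemma FS_smul {α : Eis → ℂ} (hα : FS α) (c : ℂ) : FS (c • α) where
  fin := hα.fin.subset (Function.support_const_smul_subset c α)
  prim := fun n hn => hα.prim n fun h => hn (by rw [Pi.smul_apply, h, smul_zero])

lemma FS_sum {ι : Type*} (s : Finset ι) (f : ι → Eis → ℂ) (h : ∀ i ∈ s, FS (f i)) :
    FS (∑ i ∈ s, f i) := by
  classical
  induction s using Finset.induction_on with
  | empty => simpa using FS_zero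
  | insert i s hi ih =>
    rw [sum_insert hi]
    exact FS_add (h i (mem_insert_self i s)) (ih fun j hj => h j (mem_insert_of_mem hj))

/-! ### linearity -/

lemma CS_add {α β : Eis → ℂ} (hα : FS α) (hβ : FS β) (k : Eis) :
    CS (α + β) k = CS α k + CS β k := by
  unfold CS
  rw [← (hα.summable _).tsum_add (hβ.summable _)]
  exact tsum_congr fun m => by rw [Pi.add_apply, add_mul]

lemma CS_smul' (c : ℂ) (α : Eis → ℂ) (k : Eis) : CS (c • α) k = c * CS α k := by
  unfold CS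
  rw [← tsum_mul_left]
  exact tsum_congr fun m => by rw [Pi.smul_apply, smul_eq_mul, mul_assoc]

lemma CS_zero' (k : Eis) : CS (0 : Eis → ℂ) k = 0 := by
  unfold CS
  simp

lemma CS_sum' {ι : Type*} (s : Finset ι) (f : ι → Eis → ℂ) (h : ∀ i ∈ s, FS (f i)) (k : Eis) :
    CS (∑ i ∈ s, f i) k = ∑ i ∈ s, CS (f i) k := by
  classical
  induction s using Finset.induction_on with
  | empty => simp [CS_zero']
  | insert i s hi ih =>
    rw [sum_insert hi, sum_insert hi, CS_add (h i (mem_insert_self i s))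
      (FS_sum s f fun j hj => h j (mem_insert_of_mem hj)),
      ih fun j hj => h j (mem_insert_of_mem hj)]

open Classical in
lemma TE_summable {α : Eis → ℂ} (hα : FS α) {x : Eis × Eis} (hx : x.1 ≠ 0) (e : Eis) :
    Summable fun m : Eis => if e ∣ m ∧ IsCoprime x.2 (x.1 * m) then
      α (x.1 * m) * ((n6 m : ℂ) * Gh x.2 m) else 0 := by
  refine summable_of_hasFiniteSupport ?_
  have h1 : (Function.support fun m : Eis => α (x.1 * m)).Finite := by
    have h2 : Set.InjOn (fun m : Eis => x.1 * m) ((fun m : Eis => x.1 * m) ⁻¹' Function.support α) :=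
      fun a _ b _ h => mul_left_cancel₀ hx h
    exact hα.fin.preimage h2
  refine h1.subset fun m hm => ?_
  rw [Function.mem_support] at hm ⊢
  intro h
  apply hm
  rw [h, zero_mul]
  split_ifs <;> rfl

lemma TE_add {α β : Eis → ℂ} (hα : FS α) (hβ : FS β) {x : Eis × Eis} (hx : x.1 ≠ 0) (e : Eis) :
    TE (α + β) x e = TE α x e + TE β x e := by
  classical
  unfold TE
  rw [← (TE_summable hα hx e).tsum_add (TE_summable hβ hx e)]
  refine tsum_congr fun m => ?_
  split_ifs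
  · rw [Pi.add_apply, add_mul]
  · rw [add_zero]

lemma TE_smul (c : ℂ) (α : Eis → ℂ) (x : Eis × Eis) (e : Eis) :
    TE (c • α) x e = c * TE α x e := by
  classical
  unfold TE
  rw [← tsum_mul_left]
  refine tsum_congr fun m => ?_
  split_ifs
  · rw [Pi.smul_apply, smul_eq_mul, mul_assoc]
  · rw [mul_zero]

lemma TE_zero (x : Eis × Eis) (e : Eis) : TE 0 x e = 0 := by
  classical
  unfold TE
  simp

lemma TE_sum {ι : Type*} (s : Finset ι) (f : ι → Eis → ℂ) (h : ∀ i ∈ s, FS (f i))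
    {x : Eis × Eis} (hx : x.1 ≠ 0) (e : Eis) :
    TE (∑ i ∈ s, f i) x e = ∑ i ∈ s, TE (f i) x e := by
  classical
  induction s using Finset.induction_on with
  | empty => simp [TE_zero]
  | insert i s hi ih =>
    rw [sum_insert hi, sum_insert hi, TE_add (h i (mem_insert_self i s))
      (FS_sum s f fun j hj => h j (mem_insert_of_mem hj)) hx,
      ih fun j hj => h j (mem_insert_of_mem hj)]

open Classical in
lemma StE_sum {ι : Type*} (s : Finset ι) (f : ι → Eis → ℂ) (h : ∀ i ∈ s, FS (f i)) {E0 : ℝ}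
    {J : Finset (Eis × Eis)} (hJ : ∀ x ∈ J, x.1 ≠ 0) (om : Eis × Eis → ℂ) (k : Eis) :
    StE E0 J om (∑ i ∈ s, f i) k = ∑ i ∈ s, StE E0 J om (f i) k := by
  unfold StE
  rw [sum_comm]
  refine sum_congr rfl fun x hx => ?_
  rw [← mul_sum, ← mul_sum]
  congr 2
  rw [sum_comm]
  refine sum_congr rfl fun e _ => ?_
  rw [TE_sum s f h (hJ x hx), mul_sum]

/-! ### the gcd split -/

open Classical in
/-- splitting by the gcd with a squarefree number -/
lemma gcd_split {a : Eis} (ha : IsPrim a) (hs : Squarefree a) {α : Eis → ℂ}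
    (hα : ∀ n, α n ≠ 0 → IsPrim n) :
    α = ∑ g ∈ dvs a, ca (a / g) (rs g α) := by
  funext n
  rw [Finset.sum_apply]
  by_cases hn : α n = 0
  · rw [hn]
    symm
    refine Finset.sum_eq_zero fun g _ => ?_
    unfold ca rs
    split_ifs <;> simp [hn]
  · have hnp := hα n hn
    have hgn : gp n a = gp n a := rfl
    obtain ⟨h1, h2, h3, h4, h5⟩ := gp_spec n ha
    have hmem : gp n a ∈ dvs a := (mem_dvs ha.ne_zero).2 ⟨h1, ⟨_, h4⟩⟩
    rw [Finset.sum_eq_single (gp n a)]
    · unfold ca rs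
      rw [if_pos, if_pos ⟨_, h3⟩]
      have hc : IsCoprime (a / gp n a) (gp n a) := by
        have h6 : Squarefree (gp n a * (a / gp n a)) := h4 ▸ hs
        exact (squarefree_mul_iff.1 h6).1.isCoprime.symm
      have h7 : IsCoprime (a / gp n a) (gp n a * (n / gp n a)) := hc.mul_right h5.symm
      rwa [← h3] at h7
    · intro g hg hne
      unfold ca rs
      split_ifs with h6 h7
      · exfalso
        apply hne
        obtain ⟨hg1, hg2⟩ := (mem_dvs ha.ne_zero).1 hg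
        symm
        refine gp_eq ha hg1 (l₁ := n / g) (u₁ := a / g)
          (EuclideanDomain.mul_div_cancel' hg1.ne_zero h7).symm
          (EuclideanDomain.mul_div_cancel' hg1.ne_zero hg2).symm ?_
        exact (h6.symm.of_isCoprime_of_dvd_left
          ⟨g, by rw [mul_comm]; exact (EuclideanDomain.mul_div_cancel' hg1.ne_zero h7).symm⟩)
      · rfl
      · rfl
    · exact fun h => absurd hmem h

open Classical in
/-- exchange of a sum over divisors -/
lemma sum_dvs_S {Y : ℝ} (hY : 0 ≤ Y) (F : Eis → Eis → ℂ)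
    (hF : ∀ g a, F g a ≠ 0 → g * a ∈ S Y) :
    ∑ a ∈ S Y, ∑ g ∈ dvs a, F g (a / g) = ∑ g ∈ S Y, ∑ a ∈ S Y, F g a := by
  have key : ∀ a ∈ S Y, ∀ g ∈ dvs a, g ∈ S Y ∧ a / g ∈ S Y ∧ g * (a / g) = a := by
    intro a ha g hg
    obtain ⟨h1, h2, h3⟩ := (mem_S hY).1 ha
    obtain ⟨h4, h5⟩ := (mem_dvs h2.ne_zero).1 hg
    have e : g * (a / g) = a := EuclideanDomain.mul_div_cancel' h4.ne_zero h5
    have h6 : IsPrim (a / g) := IsPrim.of_mul_left (e.symm ▸ h2) h4
    have h7 : nm g ≤ nm a := Div277.nm_le_of_dvd h2.ne_zero h5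
    have h8 : nm (a / g) ≤ nm a := Div277.nm_le_of_dvd h2.ne_zero ⟨g, by rw [mul_comm]; exact e.symm⟩
    have h9 : Squarefree (g * (a / g)) := e.symm ▸ h3
    exact ⟨(mem_S hY).2 ⟨le_trans (by exact_mod_cast h7) h1, h4, h9.of_mul_left⟩,
      (mem_S hY).2 ⟨le_trans (by exact_mod_cast h8) h1, h6, h9.of_mul_right⟩, e⟩
  rw [Finset.sum_sigma', ← Finset.sum_product']
  refine Finset.sum_of_injOn (fun x => (x.2, x.1 / x.2)) ?_ ?_ ?_ ?_
  · rintro ⟨a, g⟩ h ⟨a', g'⟩ h' e
    simp only [Finset.coe_sigma, Set.mem_sigma_iff, Finset.mem_coe] at h h'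
    simp only [Prod.mk.injEq] at e
    obtain ⟨e1, e2⟩ := e
    have k1 := (key a h.1 g h.2).2.2
    have k2 := (key a' h'.1 g' h'.2).2.2
    subst e1
    rw [← k1, ← k2, e2]
  · rintro ⟨a, g⟩ h
    simp only [Finset.coe_sigma, Set.mem_sigma_iff, Finset.mem_coe] at h
    obtain ⟨k1, k2, k3⟩ := key a h.1 g h.2
    simp only [Finset.coe_product, Set.mem_prod, Finset.mem_coe]
    exact ⟨k1, k2⟩
  · rintro ⟨g, a⟩ h hn
    rw [Finset.mem_product] at h
    by_contra h0
    apply hn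
    have hga := hF g a h0
    have hg := ((mem_S hY).1 h.1).2.1
    refine ⟨⟨g * a, g⟩, ?_, ?_⟩
    · simp only [Finset.coe_sigma, Set.mem_sigma_iff, Finset.mem_coe]
      exact ⟨hga, (mem_dvs ((mem_S hY).1 hga).2.1.ne_zero).2 ⟨hg, dvd_mul_right _ _⟩⟩
    · simp only [Prod.mk.injEq, true_and]
      exact mul_div_cancel_left₀ a hg.ne_zero
  · rintro ⟨a, g⟩ _
    rfl

lemma xa_eq_zero {a : Eis} {β : Eis → ℂ} {n : Eis} (h : ¬ a ∣ n) : xa a β n = 0 := by
  by_contra h'
  exact h (xa_dvd h')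

open Classical in
/-- `sy k a * CS (ca a β) k = CS (xa a β) k` -/
lemma sy_mul_CS {a : Eis} (ha : IsPrim a) {β : Eis → ℂ} (hβ : ∀ n, β n ≠ 0 → IsPrim n) (k : Eis) :
    sy k a * CS (ca a β) k = CS (xa a β) k := by
  unfold CS
  rw [← tsum_mul_left]
  have h1 : ∀ n : Eis, xa a β n * sy k n = if a ∣ n then xa a β n * sy k n else 0 := by
    intro n
    split_ifs with h
    · rfl
    · rw [xa_eq_zero h, zero_mul]
  rw [tsum_congr h1]
  have h2 := tsum_mult ha.ne_zero (fun n => xa a β n * sy k n)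
  rw [← h2]
  refine tsum_congr fun m => ?_
  rw [xa_mul ha.ne_zero]
  by_cases hc : ca a β m = 0
  · rw [hc]; ring
  · have hm : IsPrim m := hβ m (ca_ne hc).2
    rw [Sym645.sy_mul_right k ha.ne_zero hm.ne_zero]
    ring

/-- squarefree convolution with a sequence on `S Y` -/
def cvc (Y : ℝ) (η β : Eis → ℂ) : Eis → ℂ := ∑ a ∈ S Y, η a • xa a β

lemma FS_cvc {Y : ℝ} (hY : 0 ≤ Y) (η : Eis → ℂ) {β : Eis → ℂ} (hβ : FS β) : FS (cvc Y η β) :=
  FS_sum _ _ fun _ ha => FS_smul (FS_xa hβ ((mem_S hY).1 ha).2.1) _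

lemma CS_cvc {Y : ℝ} (hY : 0 ≤ Y) (η : Eis → ℂ) {β : Eis → ℂ} (hβ : FS β) (k : Eis) :
    CS (cvc Y η β) k = ∑ a ∈ S Y, η a * CS (xa a β) k := by
  unfold cvc
  rw [CS_sum' _ _ (fun _ ha => FS_smul (FS_xa hβ ((mem_S hY).1 ha).2.1) _)]
  exact sum_congr rfl fun a _ => CS_smul' _ _ _

lemma CS_eq_S {Y : ℝ} {η : Eis → ℂ} (hη : ∀ a, η a ≠ 0 → a ∈ S Y) (k : Eis) :
    CS η k = ∑ a ∈ S Y, η a * sy k a := by
  unfold CS
  refine tsum_eq_sum fun a ha => ?_
  by_contra h
  exact ha (hη a fun h0 => h (by rw [h0, zero_mul]))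

open Classical in
/-- **character sum times the error of the structured function** -/
theorem mul_split {Y : ℝ} (hY : 0 ≤ Y) {η : Eis → ℂ} (hη : ∀ a, η a ≠ 0 → a ∈ S Y)
    {α : Eis → ℂ} (hα : FS α) {J : Finset (Eis × Eis)} (hJ : OKJ J) (om : Eis × Eis → ℂ)
    {E0 : ℝ} (hE : 0 ≤ E0) (c : ℂ) (k : Eis) :
    CS η k * (CS α k - c * StE E0 J om α k) =
      ∑ g ∈ S Y, sy k g * (CS (cvc Y (sub η g) (rs g α)) k -
        c * ∑ a ∈ S Y, η (g * a) *
          StG a E0 (Ja a J) (fun y => om (psi a y)) (xa a (rs g α)) k) := by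
  have hJ0 : ∀ x ∈ J, x.1 ≠ 0 := fun x hx => (hJ.prim x hx).ne_zero
  set Λ : (Eis → ℂ) → ℂ := fun β => CS β k - c * StE E0 J om β k with hΛ
  have hlin : ∀ a ∈ S Y, Λ α = ∑ g ∈ dvs a, Λ (ca (a / g) (rs g α)) := by
    intro a ha
    obtain ⟨h1, h2, h3⟩ := (mem_S hY).1 ha
    have hf : ∀ g ∈ dvs a, FS (ca (a / g) (rs g α)) := fun g _ => FS_ca (FS_rs hα g) _
    rw [hΛ]
    simp only
    rw [Finset.sum_sub_distrib, ← Finset.mul_sum, ← CS_sum' _ _ hf, ← StE_sum _ _ hf hJ0,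
      ← gcd_split h2 h3 hα.prim]
  have hsy : ∀ a ∈ S Y, ∀ g, sy k a * Λ (ca a (rs g α)) = CS (xa a (rs g α)) k -
      c * StG a E0 (Ja a J) (fun y => om (psi a y)) (xa a (rs g α)) k := by
    intro a ha g
    obtain ⟨h1, h2, h3⟩ := (mem_S hY).1 ha
    rw [hΛ]
    simp only
    rw [mul_sub, sy_mul_CS h2 (FS_rs hα g).prim, mul_left_comm,
      sy_mul_StE h2 h3 hJ om (FS_rs hα g).prim hE]
  have e1 : CS η k * Λ α = ∑ a ∈ S Y, ∑ g ∈ dvs a,
      η (g * (a / g)) * (sy k g * (sy k (a / g) * Λ (ca (a / g) (rs g α)))) := by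
    rw [CS_eq_S hη, Finset.sum_mul]
    refine Finset.sum_congr rfl fun a ha => ?_
    rw [hlin a ha, Finset.mul_sum]
    refine Finset.sum_congr rfl fun g hg => ?_
    obtain ⟨h1, h2, h3⟩ := (mem_S hY).1 ha
    obtain ⟨h4, h5⟩ := (mem_dvs h2.ne_zero).1 hg
    have e : g * (a / g) = a := EuclideanDomain.mul_div_cancel' h4.ne_zero h5
    have h6 : IsPrim (a / g) := IsPrim.of_mul_left (e.symm ▸ h2) h4
    rw [e]
    conv_lhs => rw [show sy k a = sy k (g * (a / g)) by rw [e]]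
    rw [Sym645.sy_mul_right k h4.ne_zero h6.ne_zero]
    ring
  rw [show CS η k * (CS α k - c * StE E0 J om α k) = CS η k * Λ α from rfl, e1,
    sum_dvs_S hY (fun g a => η (g * a) * (sy k g * (sy k a * Λ (ca a (rs g α)))))
      (fun g a h => hη _ fun h0 => h (by rw [h0, zero_mul]))]
  refine Finset.sum_congr rfl fun g _ => ?_
  rw [CS_cvc hY _ (FS_rs hα g), Finset.mul_sum, ← Finset.sum_sub_distrib, Finset.mul_sum]
  refine Finset.sum_congr rfl fun a ha => ?_
  rw [hsy a ha g]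
  unfold sub
  ring

end Crest.Agent.R017.StC828
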