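import Crest.Agent.R017.StC_828
import Crest.Agent.R017.E3A_164

/-!
# Row 17, R8/P1: the structured function of an amplified sequence (helper828)

`Tm` : the coefficient of the difference of the two structured functions.

`hyb` : for `k` prime to `g`
`Σ_a η(g a) StG a E0 (Ja a J) (o ∘ psi a) (xa a (rs g α)) k = sy k g StE E0 J o ρ k + SteT JJ 1 E' (Tm ..) k`

`mul_hyb` : `CS η k (CS α k - c StE E0 J o α k) = Σ_g sy k g (sy k g (CS ρ_g - c StE E0 J o ρ_g)(k)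
  - c SteT JJ 1 E' (Tm .. g) k)`.
-/

set_option autoImplicit false

noncomputable section

open Finset
open scoped ComplexConjugate

namespace Crest.Agent.R017.StD828

open Crest.Agent.R012 Crest.Agent.R012.Eis Crest.Agent.R012.Div277
open Crest.Agent.R012.Mob705 hiding pb mem_pb
open Crest.Agent.R012.Gauss880
open Crest.Agent.R012.LS2 (S mem_S)
open Crest.Agent.R017.CM106 Crest.Agent.R017.PX764 Crest.Agent.R017.C70
open Crest.Agent.R017.StA828 Crest.Agent.R017.StB828 Crest.Agent.R017.StC828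
open Crest.Agent.R017.E2440 (TE StE)
open Crest.Agent.R017.E3A164 (SteT)

/-- the element `j δ²` -/
def ln (x : Eis × Eis) : Eis := x.2 * x.1 ^ 2

/-! ### the inverse of the index map -/

lemma cop_div {y a : Eis} (ha : IsPrim a) (hy : Squarefree y) : IsCoprime (y / gp y a) a := by
  obtain ⟨h1, h2, h3, h4, h5⟩ := gp_spec y ha
  have h6 : Squarefree (gp y a * (y / gp y a)) := h3 ▸ hy
  have h7 : IsCoprime (y / gp y a) (gp y a) := (squarefree_mul_iff.1 h6).1.isCoprime.symm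
  have h8 : IsCoprime (y / gp y a) (gp y a * (a / gp y a)) := h7.mul_right h5
  rwa [← h4] at h8

lemma phi_psi {a : Eis} (ha : IsPrim a) {y : Eis × Eis} (hc : IsCoprime y.2 a) :
    phi a (psi a y) = y := by
  obtain ⟨h1, h2, h3, h4, h5⟩ := gp_spec y.1 ha
  have hcb : IsCoprime y.2 (gp y.1 a) := hc.of_isCoprime_of_dvd_right ⟨_, h4⟩
  have e1 : gp (a / gp y.1 a * y.2) a = a / gp y.1 a :=
    gp_eq ha h2 rfl (by rw [mul_comm]; exact h4) hcb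
  have e2 : a / (a / gp y.1 a) = gp y.1 a := div_div_self' h1 h2 h4
  unfold psi phi
  simp only
  rw [e1, mul_div_cancel_left₀ _ h2.ne_zero, e2, ← h3]

lemma ln_psi {a : Eis} (ha : IsPrim a) (y : Eis × Eis) :
    ln (psi a y) * gp y.1 a ^ 3 = a * ln y := by
  obtain ⟨h1, h2, h3, h4, h5⟩ := gp_spec y.1 ha
  show a / gp y.1 a * y.2 * (y.1 / gp y.1 a) ^ 2 * gp y.1 a ^ 3 = a * (y.2 * y.1 ^ 2)
  set b := gp y.1 a with hb
  conv_rhs => rw [h3, h4]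
  ring

lemma JC_mul {g j : Eis} (hg : IsPrim g) (hs : Squarefree g) (hj : JC j) (hc : IsCoprime j g) :
    JC (g * j) := by
  obtain ⟨c, hc1, j', hj', hcf, rfl⟩ := hj
  refine ⟨c, hc1, g * j', hg.mul hj', fun p hp hd => ?_, by ring⟩
  by_cases hpg : p ∣ g
  · obtain ⟨g', rfl⟩ := hpg
    have h1 : ¬ p ∣ g' := by
      rintro ⟨s, rfl⟩
      exact hp.not_isUnit (hs p ⟨s, by ring⟩)
    have h2 : p ∣ g' * j' := by
      obtain ⟨s, hs'⟩ := hd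
      refine ⟨p * s, ?_⟩
      apply mul_left_cancel₀ hp.ne_zero
      linear_combination hs'
    have h3 : p ∣ j' := (hp.dvd_or_dvd h2).resolve_left h1
    exact hp.not_isUnit (hc.isUnit_of_dvd' (h3.mul_left c) (dvd_mul_right p g'))
  · have h1 : IsCoprime (p ^ 3) g := (hp.irreducible.coprime_iff_not_dvd.2 hpg).pow_left
    exact hcf p hp (h1.dvd_of_dvd_mul_left hd)

/-! ### the window without a `δ`-cut -/

lemma mem_JW {D Y₀ Y₁ : ℝ} (hD : 0 ≤ D) (h0 : Y₀ < 1) (h1 : Y₁ ≤ D ^ 2) {x : Eis × Eis} :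
    x ∈ JW D Y₀ Y₁ ↔ IsPrim x.1 ∧ Squarefree x.1 ∧ JC x.2 ∧ (nm (ln x) : ℝ) ≤ Y₁ := by
  classical
  unfold JW ln
  rw [mem_filter, mem_product, mem_primBall, mem_ball]
  constructor
  · rintro ⟨⟨⟨h2, h3⟩, h4⟩, h5, h6, h7, h8⟩
    exact ⟨h3, h5, h6, h8⟩
  · rintro ⟨h3, h5, h6, h8⟩
    have h9 : (1 : ℝ) ≤ nm x.1 := by exact_mod_cast nm_pos.2 h3.ne_zero
    have h10 : (1 : ℝ) ≤ nm x.2 := by exact_mod_cast nm_pos.2 (JC_ne_zero h6)
    have e : (nm (x.2 * x.1 ^ 2) : ℝ) = nm x.2 * (nm x.1 : ℝ) ^ 2 := by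
      rw [nm_mul, nm_pow]; push_cast; ring
    have h11 : (1 : ℝ) ≤ nm (x.2 * x.1 ^ 2) := by
      rw [e]; nlinarith [one_le_pow₀ h9 (n := 2)]
    refine ⟨⟨⟨?_, h3⟩, ?_⟩, h5, h6, by linarith, h8⟩
    · refine Nat.le_floor ?_
      have h12 : (nm x.1 : ℝ) ^ 2 ≤ D ^ 2 := by
        refine le_trans ?_ (h8.trans h1)
        rw [e]
        exact le_mul_of_one_le_left (by positivity) h10
      exact (sq_le_sq₀ (by positivity) hD).1 h12
    · refine Nat.le_floor (le_trans ?_ h8)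
      rw [e]
      exact le_mul_of_one_le_right (by positivity) (one_le_pow₀ h9)


/-- the levels of the image -/
lemma ln_phi {a : Eis} (ha : IsPrim a) (x : Eis × Eis) :
    ln (phi a x) * gp x.2 a = ln x * (a / gp x.2 a) ^ 2 := by
  obtain ⟨h1, h2, h3, h4, h5⟩ := gp_spec x.2 ha
  show x.2 / gp x.2 a * (a / gp x.2 a * x.1) ^ 2 * gp x.2 a = x.2 * x.1 ^ 2 * _
  have h6 : x.2 / gp x.2 a * gp x.2 a = x.2 := by rw [mul_comm]; exact h3.symm
  linear_combination ((a / gp x.2 a) ^ 2 * x.1 ^ 2) * h6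

lemma nm_ln_phi_le {a : Eis} (ha : IsPrim a) (x : Eis × Eis) :
    (nm (ln (phi a x)) : ℝ) ≤ nm (ln x) * (nm a : ℝ) ^ 2 := by
  obtain ⟨h1, h2, h3, h4, h5⟩ := gp_spec x.2 ha
  have e := congrArg nm (ln_phi ha x)
  rw [nm_mul, nm_mul, nm_pow] at e
  have e' : (nm (ln (phi a x)) : ℝ) * nm (gp x.2 a) = nm (ln x) * (nm (a / gp x.2 a) : ℝ) ^ 2 := by
    exact_mod_cast e
  have h6 : (nm (a / gp x.2 a) : ℝ) ≤ nm a := by
    exact_mod_cast Div277.nm_le_of_dvd ha.ne_zero ⟨gp x.2 a, by rw [mul_comm]; exact h4⟩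
  have h7 := one_le_nmR h1
  calc (nm (ln (phi a x)) : ℝ) ≤ (nm (ln (phi a x)) : ℝ) * nm (gp x.2 a) :=
        le_mul_of_one_le_right (Nat.cast_nonneg _) h7
    _ = nm (ln x) * (nm (a / gp x.2 a) : ℝ) ^ 2 := e'
    _ ≤ _ := mul_le_mul_of_nonneg_left (pow_le_pow_left₀ (by positivity) h6 2) (Nat.cast_nonneg _)

lemma TE_cop {a : Eis} {β : Eis → ℂ} {y : Eis × Eis} {e : Eis} (h : TE (xa a β) y e ≠ 0) :
    IsCoprime y.2 a := by
  classical
  by_contra hc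
  apply h
  unfold TE
  refine (tsum_congr fun m => ?_).trans tsum_zero
  split_ifs with h1
  · by_cases h2 : xa a β (y.1 * m) = 0
    · rw [h2, zero_mul]
    · exact absurd (h1.2.of_isCoprime_of_dvd_right (xa_dvd h2)) hc
  · rfl

open Classical in
/-- **`StG` over the large window** -/
theorem StG_window {a : Eis} (ha : IsPrim a) (hs : Squarefree a) (β : Eis → ℂ) (k : Eis)
    {D Y₀ Y₁ D' Y₀' Y₁' : ℝ} (hD : 0 ≤ D) (h0 : Y₀ < 1) (h1 : Y₁ ≤ D ^ 2) (hD' : 0 ≤ D')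
    (h0' : Y₀' < 1) (h1' : Y₁' ≤ D' ^ 2) (hY : Y₁ * (nm a : ℝ) ^ 2 ≤ Y₁') {o : Eis → ℂ}
    (ho : ∀ z, o z ≠ 0 → (nm z : ℝ) ≤ Y₁) (E0 : ℝ) :
    StG a E0 (Ja a (JW D Y₀ Y₁)) (fun y => o (ln (psi a y))) (xa a β) k =
      ∑ y ∈ JW D' Y₀' Y₁', o (ln (psi a y)) * (sy k y.1 * (conj (th (y.2 * k)) *
        ∑ e ∈ Gt a E0 k, (mu e : ℂ) * TE (xa a β) y e)) := by
  have hsub : Ja a (JW D Y₀ Y₁) ⊆ JW D' Y₀' Y₁' := by
    intro y hy
    have hok := okJ_Ja ha hs (okJ_JW D Y₀ Y₁)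
    refine (mem_JW hD' h0' h1').2 ⟨hok.prim y hy, hok.sqf y hy, hok.jc y hy, ?_⟩
    unfold Ja at hy
    obtain ⟨x, hx, rfl⟩ := mem_image.1 hy
    obtain ⟨hxJ, hxc⟩ := mem_filter.1 hx
    have h2 := ((mem_JW hD h0 h1).1 hxJ).2.2.2
    refine (nm_ln_phi_le ha x).trans (le_trans ?_ hY)
    exact mul_le_mul_of_nonneg_right h2 (by positivity)
  unfold StG
  refine Finset.sum_subset hsub fun y hy hn => ?_
  obtain ⟨h2, h3, h4, -⟩ := (mem_JW hD' h0' h1').1 hy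
  by_contra hne
  have hon : o (ln (psi a y)) ≠ 0 := left_ne_zero_of_mul hne
  have hT : (∑ e ∈ Gt a E0 k, (mu e : ℂ) * TE (xa a β) y e) ≠ 0 :=
    right_ne_zero_of_mul (right_ne_zero_of_mul (right_ne_zero_of_mul hne))
  obtain ⟨e, -, he⟩ := Finset.exists_ne_zero_of_sum_ne_zero hT
  have hc : IsCoprime y.2 a := TE_cop (right_ne_zero_of_mul he)
  apply hn
  obtain ⟨g1, g2, g3, g4, g5⟩ := gp_spec y.1 ha
  unfold Ja
  refine mem_image.2 ⟨psi a y, mem_filter.2 ⟨(mem_JW hD h0 h1).2 ⟨?_, ?_, ?_, ho _ hon⟩, ?_⟩,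
    phi_psi ha hc⟩
  · exact IsPrim.of_mul_left (g3 ▸ h2) g1
  · exact (g3 ▸ h3 : Squarefree (gp y.1 a * (y.1 / gp y.1 a))).of_mul_right
  · refine JC_mul g2 ?_ h4 (hc.of_isCoprime_of_dvd_right ⟨gp y.1 a, ?_⟩)
    · exact (g4 ▸ hs : Squarefree (gp y.1 a * (a / gp y.1 a))).of_mul_right
    · rw [mul_comm]; exact g4
  · exact cop_div ha h3

/-! ### the sequences -/

lemma rs_eq_xa {g : Eis} (hg : g ≠ 0) {α : Eis → ℂ} (hs : SqS α) :
    rs g α = xa g (sub α g) := by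
  classical
  funext n
  unfold rs
  split_ifs with h
  · obtain ⟨m, rfl⟩ := h
    rw [xa_mul hg]
    unfold ca sub
    split_ifs with h1
    · rfl
    · by_contra h2
      exact h1 (squarefree_mul_iff.1 (hs _ h2)).1.isCoprime
  · exact (xa_eq_zero h).symm

lemma ca_sub {g : Eis} {α : Eis → ℂ} (hs : SqS α) : ca g (sub α g) = sub α g := by
  classical
  funext m
  unfold ca sub
  split_ifs with h1
  · rfl
  · by_contra h2
    exact h1 (squarefree_mul_iff.1 (hs _ (Ne.symm h2))).1.isCoprime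

lemma xa_comm {a g : Eis} (ha : a ≠ 0) (hg : g ≠ 0) (β : Eis → ℂ) :
    xa g (xa a β) = xa a (xa g β) := by
  classical
  have key : ∀ {a g : Eis}, a ≠ 0 → g ≠ 0 → ∀ n, xa g (xa a β) n ≠ 0 →
      xa g (xa a β) n = xa a (xa g β) n := by
    intro a g ha hg n hn
    obtain ⟨n1, rfl, h1, h2⟩ := xa_ne hg hn
    obtain ⟨n2, rfl, h3, h4⟩ := xa_ne ha h2
    have h5 : IsCoprime g a := h1.of_mul_right_left
    have h6 : IsCoprime g n2 := h1.of_mul_right_right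
    rw [xa_mul hg, show g * (a * n2) = a * (g * n2) by ring, xa_mul ha]
    unfold ca
    rw [if_pos h1, if_pos (h5.symm.mul_right h3), xa_mul ha, xa_mul hg]
    unfold ca
    rw [if_pos h3, if_pos h6]
  funext n
  by_cases h1 : xa g (xa a β) n = 0
  · by_cases h2 : xa a (xa g β) n = 0
    · rw [h1, h2]
    · exact (key hg ha n h2).symm
  · exact key ha hg n h1

lemma xa_sum {ι : Type*} (s : Finset ι) (c : ι → ℂ) (f : ι → Eis → ℂ) (g : Eis) :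
    xa g (∑ i ∈ s, c i • f i) = ∑ i ∈ s, c i • xa g (f i) := by
  classical
  funext n
  unfold xa
  simp only [Finset.sum_apply, Pi.smul_apply, smul_eq_mul]
  split_ifs with h
  · rfl
  · simp

lemma xa_cvc {Y : ℝ} (hY : 0 ≤ Y) {g : Eis} (hg : IsPrim g) (η : Eis → ℂ) {α : Eis → ℂ}
    (hs : SqS α) : xa g (cvc Y (sub η g) (sub α g)) = cvc Y (sub η g) (rs g α) := by
  unfold cvc
  rw [xa_sum]
  refine sum_congr rfl fun a ha => ?_
  rw [rs_eq_xa hg.ne_zero hs, xa_comm ((mem_S hY).1 ha).2.1.ne_zero hg.ne_zero]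

lemma ca_cvc {Y : ℝ} (hY : 0 ≤ Y) {g : Eis} (hg : IsPrim g) {η : Eis → ℂ} (hη : SqS η)
    {α : Eis → ℂ} (hs : SqS α) :
    ca g (cvc Y (sub η g) (sub α g)) = cvc Y (sub η g) (sub α g) := by
  classical
  funext n
  unfold ca
  split_ifs with h1
  · rfl
  · symm
    unfold cvc
    rw [Finset.sum_apply]
    refine Finset.sum_eq_zero fun a ha => ?_
    rw [Pi.smul_apply, smul_eq_mul]
    by_contra hne
    have h2 : sub η g a ≠ 0 := left_ne_zero_of_mul hne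
    have h3 : xa a (sub α g) n ≠ 0 := right_ne_zero_of_mul hne
    obtain ⟨m, rfl, h4, h5⟩ := xa_ne ((mem_S hY).1 ha).2.1.ne_zero h3
    have h6 : IsCoprime g a := (squarefree_mul_iff.1 (hη _ h2)).1.isCoprime
    have h7 : IsCoprime g m := (squarefree_mul_iff.1 (hs _ h5)).1.isCoprime
    exact h1 (h6.mul_right h7)

/-! ### the coefficient of the difference -/

open Classical in
/-- **the coefficient of the difference of the two structured functions** -/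
def Tm (E0 Y : ℝ) (o : Eis → ℂ) (η α : Eis → ℂ) (g d e j : Eis) : ℂ :=
  ∑ a ∈ S Y, η (g * a) * (((if (nm (e / gp e a) : ℝ) ≤ E0 then 1 else 0) * o (ln (psi a (d, j))) -
    (if (nm e : ℝ) ≤ E0 then 1 else 0) * o (ln (psi g (d, j)))) * TE (xa a (rs g α)) (d, j) e)

open Classical in
lemma Gt_eq {a : Eis} (ha : IsPrim a) {E0 Y : ℝ} (hE : 0 ≤ E0) (haY : (nm a : ℝ) ≤ Y) (k : Eis) :
    Gt a E0 k = ((S (E0 * Y)).filter (fun e => e ∣ k)).filter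
      (fun e => (nm (e / gp e a) : ℝ) ≤ E0) := by
  classical
  have hY : 0 ≤ Y := le_trans (Nat.cast_nonneg _) haY
  ext e
  rw [mem_Gt hE, mem_filter, mem_filter, mem_S (by positivity)]
  constructor
  · rintro ⟨⟨h1, h2, h3⟩, h4, h5⟩
    exact ⟨⟨⟨h1.trans (mul_le_mul_of_nonneg_left haY hE), h2, h3⟩, h4⟩, h5⟩
  · rintro ⟨⟨⟨h1, h2, h3⟩, h4⟩, h5⟩
    refine ⟨⟨?_, h2, h3⟩, h4, h5⟩
    obtain ⟨g1, g2, g3, g4, g5⟩ := gp_spec e ha
    have h6 : (nm e : ℝ) = nm (gp e a) * nm (e / gp e a) := by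
      conv_lhs => rw [g3]
      rw [nm_mul]; push_cast; ring
    have h7 : (nm (gp e a) : ℝ) ≤ nm a := by
      exact_mod_cast Div277.nm_le_of_dvd ha.ne_zero ⟨_, g4⟩
    rw [h6, mul_comm]
    exact mul_le_mul h5 h7 (Nat.cast_nonneg _) hE

open Classical in
/-- **the amplified structured function**, `k` prime to `g` -/
theorem hyb {Y : ℝ} (hY : 0 ≤ Y) {g : Eis} (hg : g ∈ S Y) {η α : Eis → ℂ}
    (hη : SqS η) (hα : FS α) (hs : SqS α) {k : Eis} (hk : IsCoprime k g)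
    {D Y₀ Y₁ D' Y₀' Y₁' : ℝ} (hD : 0 ≤ D) (h0 : Y₀ < 1) (hY1 : 0 ≤ Y₁) (h1 : Y₁ ≤ D ^ 2)
    (hD' : 0 ≤ D')
    (h0' : Y₀' < 1) (h1' : Y₁' ≤ D' ^ 2) (hYY : Y₁ * Y ^ 2 ≤ Y₁') {o : Eis → ℂ}
    (ho : ∀ z, o z ≠ 0 → (nm z : ℝ) ≤ Y₁) {E0 : ℝ} (hE : 0 ≤ E0) :
    ∑ a ∈ S Y, η (g * a) * StG a E0 (Ja a (JW D Y₀ Y₁)) (fun y => o (ln (psi a y)))
        (xa a (rs g α)) k =
      sy k g * StE E0 (JW D Y₀ Y₁) (fun x => o (ln x)) (cvc Y (sub η g) (sub α g)) k +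
        SteT (JW D' Y₀' Y₁') (fun _ => 1) (E0 * Y) (Tm E0 Y o η α g) k := by
  obtain ⟨hgY, hgp, hgs⟩ := (mem_S hY).1 hg
  set ρ := cvc Y (sub η g) (sub α g) with hρ
  have hFsub : FS (sub α g) := by
    refine ⟨hα.fin.preimage (f := fun m => g * m)
      (fun x _ y _ h => mul_left_cancel₀ hgp.ne_zero h), fun m hm => ?_⟩
    exact (hα.prim _ hm).of_mul_left hgp
  have hFρ : FS ρ := FS_cvc hY _ hFsub
  have hsyE : sy k g * StE E0 (JW D Y₀ Y₁) (fun x => o (ln x)) ρ k =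
      StG g E0 (Ja g (JW D Y₀ Y₁)) (fun y => o (ln (psi g y))) (xa g ρ) k := by
    have h := sy_mul_StE hgp hgs (okJ_JW D Y₀ Y₁) (fun x => o (ln x)) hFρ.prim hE k
    rwa [ca_cvc hY hgp hη hs] at h
  have hb : ∀ a ∈ S Y, Y₁ * (nm a : ℝ) ^ 2 ≤ Y₁' := fun a ha => le_trans
    (mul_le_mul_of_nonneg_left (pow_le_pow_left₀ (Nat.cast_nonneg _) ((mem_S hY).1 ha).1 2) hY1) hYY
  rw [hsyE, StG_window hgp hgs ρ k hD h0 h1 hD' h0' h1' (hb g hg) ho, xa_cvc hY hgp η hs]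
  have e1 : ∀ a ∈ S Y, StG a E0 (Ja a (JW D Y₀ Y₁)) (fun y => o (ln (psi a y)))
      (xa a (rs g α)) k = ∑ y ∈ JW D' Y₀' Y₁', (sy k y.1 * conj (th (y.2 * k))) *
        ∑ e ∈ (S (E0 * Y)).filter (fun e => e ∣ k), (mu e : ℂ) *
          ((if (nm (e / gp e a) : ℝ) ≤ E0 then 1 else 0) * o (ln (psi a y)) *
            TE (xa a (rs g α)) y e) := by
    intro a ha
    obtain ⟨a1, a2, a3⟩ := (mem_S hY).1 ha
    rw [StG_window a2 a3 (rs g α) k hD h0 h1 hD' h0' h1' (hb a ha) ho]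
    refine sum_congr rfl fun y _ => ?_
    rw [Gt_eq a2 hE a1, sum_filter, mul_sum, mul_sum, mul_sum, mul_sum]
    refine sum_congr rfl fun e _ => ?_
    split_ifs <;> ring
  have e2 : ∑ y ∈ JW D' Y₀' Y₁', o (ln (psi g y)) * (sy k y.1 * (conj (th (y.2 * k)) *
        ∑ e ∈ Gt g E0 k, (mu e : ℂ) * TE (cvc Y (sub η g) (rs g α)) y e)) =
      ∑ y ∈ JW D' Y₀' Y₁', (sy k y.1 * conj (th (y.2 * k))) *
        ∑ e ∈ (S (E0 * Y)).filter (fun e => e ∣ k), (mu e : ℂ) * ∑ a ∈ S Y, η (g * a) *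
          ((if (nm e : ℝ) ≤ E0 then 1 else 0) * o (ln (psi g y)) * TE (xa a (rs g α)) y e) := by
    refine sum_congr rfl fun y hy => ?_
    have hy1 := ((mem_JW hD' h0' h1').1 hy).1
    rw [Gt_eq hgp hE hgY, sum_filter, mul_sum, mul_sum, mul_sum, mul_sum]
    refine sum_congr rfl fun e he => ?_
    have hek : e ∣ k := (mem_filter.1 he).2
    have hgp1 : gp e g = 1 := gp_of_cop hgp (hk.of_isCoprime_of_dvd_left hek)
    rw [hgp1, EuclideanDomain.div_one]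
    have hT : TE (cvc Y (sub η g) (rs g α)) y e =
        ∑ a ∈ S Y, η (g * a) * TE (xa a (rs g α)) y e := by
      unfold cvc
      rw [TE_sum _ _ (fun a ha => FS_smul (FS_xa (FS_rs hα g) ((mem_S hY).1 ha).2.1) _)
        hy1.ne_zero]
      exact sum_congr rfl fun a _ => TE_smul _ _ _ _
    split_ifs with h3
    · rw [hT, mul_sum, mul_sum, mul_sum, mul_sum, mul_sum, mul_sum]
      refine sum_congr rfl fun a _ => ?_
      ring
    · simp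
  rw [e2]
  have e3 : SteT (JW D' Y₀' Y₁') (fun _ => 1) (E0 * Y) (Tm E0 Y o η α g) k =
      ∑ y ∈ JW D' Y₀' Y₁', (sy k y.1 * conj (th (y.2 * k))) *
        ∑ e ∈ (S (E0 * Y)).filter (fun e => e ∣ k), (mu e : ℂ) * Tm E0 Y o η α g y.1 e y.2 := by
    unfold SteT
    refine sum_congr rfl fun y _ => ?_
    rw [one_mul]
  rw [e3, ← sum_add_distrib]
  have e4 : ∑ a ∈ S Y, η (g * a) * StG a E0 (Ja a (JW D Y₀ Y₁)) (fun y => o (ln (psi a y)))
        (xa a (rs g α)) k =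
      ∑ y ∈ JW D' Y₀' Y₁', (sy k y.1 * conj (th (y.2 * k))) *
        ∑ e ∈ (S (E0 * Y)).filter (fun e => e ∣ k), (mu e : ℂ) * ∑ a ∈ S Y, η (g * a) *
          ((if (nm (e / gp e a) : ℝ) ≤ E0 then 1 else 0) * o (ln (psi a y)) *
            TE (xa a (rs g α)) y e) := by
    rw [sum_congr rfl fun a ha => by rw [e1 a ha]]
    simp_rw [mul_sum]
    rw [sum_comm]
    refine sum_congr rfl fun y _ => ?_
    rw [sum_comm]
    refine sum_congr rfl fun e _ => sum_congr rfl fun a _ => ?_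
    ring
  rw [e4]
  refine sum_congr rfl fun y _ => ?_
  rw [← mul_add, ← sum_add_distrib]
  congr 1
  refine sum_congr rfl fun e _ => ?_
  rw [← mul_add]
  congr 1
  unfold Tm
  rw [← sum_add_distrib]
  refine sum_congr rfl fun a _ => ?_
  ring

open Classical in
/-- **the amplified error** -/
theorem mul_hyb {Y : ℝ} (hY : 0 ≤ Y) {η : Eis → ℂ} (hηY : ∀ a, η a ≠ 0 → a ∈ S Y) {α : Eis → ℂ}
    (hα : FS α) (hs : SqS α) (k : Eis)
    {D Y₀ Y₁ D' Y₀' Y₁' : ℝ} (hD : 0 ≤ D) (h0 : Y₀ < 1) (hY1 : 0 ≤ Y₁) (h1 : Y₁ ≤ D ^ 2)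
    (hD' : 0 ≤ D')
    (h0' : Y₀' < 1) (h1' : Y₁' ≤ D' ^ 2) (hYY : Y₁ * Y ^ 2 ≤ Y₁') {o : Eis → ℂ}
    (ho : ∀ z, o z ≠ 0 → (nm z : ℝ) ≤ Y₁) {E0 : ℝ} (hE : 0 ≤ E0) (c : ℂ) :
    CS η k * (CS α k - c * StE E0 (JW D Y₀ Y₁) (fun x => o (ln x)) α k) =
      ∑ g ∈ S Y, sy k g * (sy k g * (CS (cvc Y (sub η g) (sub α g)) k -
        c * StE E0 (JW D Y₀ Y₁) (fun x => o (ln x)) (cvc Y (sub η g) (sub α g)) k) -
        c * SteT (JW D' Y₀' Y₁') (fun _ => 1) (E0 * Y) (Tm E0 Y o η α g) k) := by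
  have hη : SqS η := fun n hn => ((mem_S hY).1 (hηY n hn)).2.2
  rw [mul_split hY hηY hα (okJ_JW D Y₀ Y₁) (fun x => o (ln x)) hE c k]
  refine sum_congr rfl fun g hg => ?_
  obtain ⟨hgY, hgp, hgs⟩ := (mem_S hY).1 hg
  by_cases hk : IsCoprime k g
  swap
  · rw [(syG.eq_zero k g hgp).2 hk]; ring
  congr 1
  have hFsub : FS (sub α g) := by
    refine ⟨hα.fin.preimage (f := fun m => g * m)
      (fun x _ y _ h => mul_left_cancel₀ hgp.ne_zero h), fun m hm => ?_⟩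
    exact (hα.prim _ hm).of_mul_left hgp
  have hFρ : FS (cvc Y (sub η g) (sub α g)) := FS_cvc hY _ hFsub
  have e1 := hyb hY hg hη hα hs hk hD h0 hY1 h1 hD' h0' h1' hYY ho hE
  have e2 : CS (cvc Y (sub η g) (rs g α)) k = sy k g * CS (cvc Y (sub η g) (sub α g)) k := by
    rw [← xa_cvc hY hgp η hs, ← sy_mul_CS hgp hFρ.prim k, ca_cvc hY hgp hη hs]
  rw [e1, e2]
  ring

open Classical in
/-- **character sum times the structured function**, hybrid form -/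
theorem mul_StE {Y : ℝ} (hY : 0 ≤ Y) {η : Eis → ℂ} (hηY : ∀ a, η a ≠ 0 → a ∈ S Y) {α : Eis → ℂ}
    (hα : FS α) (hs : SqS α) (k : Eis)
    {D Y₀ Y₁ D' Y₀' Y₁' : ℝ} (hD : 0 ≤ D) (h0 : Y₀ < 1) (hY1 : 0 ≤ Y₁) (h1 : Y₁ ≤ D ^ 2)
    (hD' : 0 ≤ D')
    (h0' : Y₀' < 1) (h1' : Y₁' ≤ D' ^ 2) (hYY : Y₁ * Y ^ 2 ≤ Y₁') {o : Eis → ℂ}
    (ho : ∀ z, o z ≠ 0 → (nm z : ℝ) ≤ Y₁) {E0 : ℝ} (hE : 0 ≤ E0) :
    CS η k * StE E0 (JW D Y₀ Y₁) (fun x => o (ln x)) α k =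
      ∑ g ∈ S Y, sy k g * (sy k g *
        StE E0 (JW D Y₀ Y₁) (fun x => o (ln x)) (cvc Y (sub η g) (sub α g)) k +
        SteT (JW D' Y₀' Y₁') (fun _ => 1) (E0 * Y) (Tm E0 Y o η α g) k) := by
  have e0 := mul_hyb hY hηY hα hs k hD h0 hY1 h1 hD' h0' h1' hYY ho hE 0
  have e1 := mul_hyb hY hηY hα hs k hD h0 hY1 h1 hD' h0' h1' hYY ho hE 1
  have e2 : CS η k * StE E0 (JW D Y₀ Y₁) (fun x => o (ln x)) α k =
      CS η k * (CS α k - 0 * StE E0 (JW D Y₀ Y₁) (fun x => o (ln x)) α k) -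
      CS η k * (CS α k - 1 * StE E0 (JW D Y₀ Y₁) (fun x => o (ln x)) α k) := by ring
  rw [e2, e0, e1, ← sum_sub_distrib]
  refine sum_congr rfl fun g _ => ?_
  ring

open Classical in
/-- the coefficient of an amplified structured function -/
def Ta (E0 Y : ℝ) (o : Eis → ℂ) (η α : Eis → ℂ) (g d e j : Eis) : ℂ :=
  ∑ a ∈ S Y, η (g * a) * (((if (nm (e / gp e a) : ℝ) ≤ E0 then 1 else 0) *
    o (ln (psi a (d, j)))) * TE (xa a (rs g α)) (d, j) e)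

open Classical in
/-- **character sum times the structured function** as structured functions, every `k` -/
theorem mul_SteT {Y : ℝ} (hY : 0 ≤ Y) {η : Eis → ℂ} (hηY : ∀ a, η a ≠ 0 → a ∈ S Y) {α : Eis → ℂ}
    (hα : FS α) (k : Eis)
    {D Y₀ Y₁ D' Y₀' Y₁' : ℝ} (hD : 0 ≤ D) (h0 : Y₀ < 1) (hY1 : 0 ≤ Y₁) (h1 : Y₁ ≤ D ^ 2)
    (hD' : 0 ≤ D')
    (h0' : Y₀' < 1) (h1' : Y₁' ≤ D' ^ 2) (hYY : Y₁ * Y ^ 2 ≤ Y₁') {o : Eis → ℂ}
    (ho : ∀ z, o z ≠ 0 → (nm z : ℝ) ≤ Y₁) {E0 : ℝ} (hE : 0 ≤ E0) :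
    CS η k * StE E0 (JW D Y₀ Y₁) (fun x => o (ln x)) α k =
      ∑ g ∈ S Y, sy k g *
        SteT (JW D' Y₀' Y₁') (fun _ => 1) (E0 * Y) (Ta E0 Y o η α g) k := by
  have e0 := mul_split hY hηY hα (okJ_JW D Y₀ Y₁) (fun x => o (ln x)) hE 0 k
  have e1 := mul_split hY hηY hα (okJ_JW D Y₀ Y₁) (fun x => o (ln x)) hE 1 k
  have e2 : CS η k * StE E0 (JW D Y₀ Y₁) (fun x => o (ln x)) α k =
      CS η k * (CS α k - 0 * StE E0 (JW D Y₀ Y₁) (fun x => o (ln x)) α k) -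
      CS η k * (CS α k - 1 * StE E0 (JW D Y₀ Y₁) (fun x => o (ln x)) α k) := by ring
  rw [e2, e0, e1, ← sum_sub_distrib]
  refine sum_congr rfl fun g hg => ?_
  have hb : ∀ a ∈ S Y, Y₁ * (nm a : ℝ) ^ 2 ≤ Y₁' := fun a ha => le_trans
    (mul_le_mul_of_nonneg_left (pow_le_pow_left₀ (Nat.cast_nonneg _) ((mem_S hY).1 ha).1 2) hY1) hYY
  have e3 : ∑ a ∈ S Y, η (g * a) * StG a E0 (Ja a (JW D Y₀ Y₁)) (fun y => o (ln (psi a y)))
      (xa a (rs g α)) k = SteT (JW D' Y₀' Y₁') (fun _ => 1) (E0 * Y) (Ta E0 Y o η α g) k := by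
    have e4 : ∀ a ∈ S Y, StG a E0 (Ja a (JW D Y₀ Y₁)) (fun y => o (ln (psi a y)))
        (xa a (rs g α)) k = ∑ y ∈ JW D' Y₀' Y₁', (sy k y.1 * conj (th (y.2 * k))) *
          ∑ e ∈ (S (E0 * Y)).filter (fun e => e ∣ k), (mu e : ℂ) *
            ((if (nm (e / gp e a) : ℝ) ≤ E0 then 1 else 0) * o (ln (psi a y)) *
              TE (xa a (rs g α)) y e) := by
      intro a ha
      obtain ⟨a1, a2, a3⟩ := (mem_S hY).1 ha
      rw [StG_window a2 a3 (rs g α) k hD h0 h1 hD' h0' h1' (hb a ha) ho]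
      refine sum_congr rfl fun y _ => ?_
      rw [Gt_eq a2 hE a1, sum_filter, mul_sum, mul_sum, mul_sum, mul_sum]
      refine sum_congr rfl fun e _ => ?_
      split_ifs <;> ring
    rw [sum_congr rfl fun a ha => by rw [e4 a ha]]
    simp_rw [mul_sum]
    rw [sum_comm]
    unfold SteT
    refine sum_congr rfl fun y _ => ?_
    rw [one_mul, mul_sum, sum_comm]
    refine sum_congr rfl fun e _ => ?_
    unfold Ta
    rw [mul_sum, mul_sum]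
    refine sum_congr rfl fun a _ => ?_
    ring
  rw [e3]
  ring

end Crest.Agent.R017.StD828
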