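import Crest.Agent.R017.StF_828

/-!
# Row 17, R8/P1: the mismatch in reduced coordinates (helper828)

* `T1 b δ e j` : inner sum of a one-variable sequence
* `term_T` : the identity for one frequency
* `afd`, `omr` : the reduced coefficient and weight
* `red` : `‖SteT JJ (omz g i s) E' (T3 af) k‖ ≤ τ(g) Σ_{h ∣ g} ‖SteT JJ (omr g h i s) E' (T3 (afd af g h)) k‖`
-/

set_option autoImplicit false

noncomputable section

open Finset MeasureTheory
open scoped ComplexConjugate

namespace Crest.Agent.R017.StG828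

open Crest.Agent.R012 Crest.Agent.R012.Eis Crest.Agent.R012.Div277
open Crest.Agent.R012.Mob705 hiding pb mem_pb
open Crest.Agent.R012.Gauss880
open Crest.Agent.R012.LS2 (S mem_S)
open Crest.Agent.R012.Weight600 (osc norm_osc pw)
open Crest.Agent.R017.CM106 Crest.Agent.R017.PX764 Crest.Agent.R017.C70
open Crest.Agent.R017.StA828 Crest.Agent.R017.StB828 Crest.Agent.R017.StC828
open Crest.Agent.R017.StD828 Crest.Agent.R017.StE828 Crest.Agent.R017.StF828
open Crest.Agent.R017.E2440 (TE StE)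
open Crest.Agent.R017.E3A164 (SteT)
open Crest.Agent.R017.Win813

open Classical in
/-- inner sum of a one-variable sequence -/
def T1 (b : Eis → ℂ) (δ e j : Eis) : ℂ :=
  ∑' m : Eis, if e ∣ m ∧ IsCoprime j (δ * m) then b m * ((n6 m : ℂ) * Gh j m) else 0

open Classical in
/-- **the identity for one frequency** -/
lemma term_T {T j k δ e : Eis} (hT : IsPrim T) (hs : Squarefree T) (hk : IsCoprime k T)
    (hcf : ∀ p, Prime p → IsPrim p → ¬ p ^ 3 ∣ T * j) (he : e ∣ k) (hδ : IsCoprime δ T)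
    {b b' : Eis → ℂ} {u : ℂ} (hb : ∀ m, b m = u * b' (T * m)) (h' : ∀ m, b' m ≠ 0 → T ∣ m)
    (hm : ∀ m, b' (T * m) ≠ 0 → IsPrim m ∧ IsCoprime T m) :
    conj (th (T * j * k)) * T1 b δ e (T * j) =
      conj (sy k T) * (u * (conj (th (j * k)) * T1 b' δ e j)) := by
  by_cases hj : IsCoprime j T
  swap
  · rw [th_eq_zero hT hs hk hj hcf]
    have h0 : T1 b' δ e j = 0 := by
      unfold T1
      refine (tsum_congr fun m => ?_).trans tsum_zero
      split_ifs with h
      · by_cases hb0 : b' m = 0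
        · rw [hb0, zero_mul]
        · obtain ⟨m', rfl⟩ := h' m hb0
          exact absurd h.2.of_mul_right_right.of_mul_right_left hj
      · rfl
    rw [h0]; simp
  have hjk : IsCoprime (j * k) T := hj.mul_left hk
  have eth : th (T * j * k) = conj (Gh (j * k) T) * (n6 T : ℂ) * th (j * k) := by
    rw [show T * j * k = (j * k) * T by ring]
    exact th_mul hT hs hjk
  have hsy : sy k T * conj (sy k T) = 1 := by
    rw [Complex.mul_conj, Complex.normSq_eq_norm_sq, norm_sy_one hT hk]; simp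
  have eG : Gh (j * k) T = conj (sy k T) * Gh j T := by
    unfold Gh
    rw [syG.mul_left j k T hT, map_mul]
    ring
  set W₁ : ℂ := ∑' m : Eis, if e ∣ m ∧ IsCoprime (T * j) (δ * m) then
    b' (T * m) * ((n6 m : ℂ) * Gh (T * j) m) else 0 with hW₁
  have e1 : T1 b δ e (T * j) = u * W₁ := by
    unfold T1
    rw [hW₁, ← tsum_mul_left]
    refine tsum_congr fun m => ?_
    rw [hb m]
    split_ifs
    · ring
    · rw [mul_zero]
  have heT : IsCoprime e T := hk.of_isCoprime_of_dvd_left he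
  have e2 : T1 b' δ e j = ((n6 T : ℂ) * Gh j T) * W₁ := by
    unfold T1
    set F : Eis → ℂ := fun m => if e ∣ m ∧ IsCoprime j (δ * m) then
      b' m * ((n6 m : ℂ) * Gh j m) else 0 with hF
    have h1 : ∀ m, F m = if T ∣ m then F m else 0 := by
      intro m
      split_ifs with h
      · rfl
      · rw [hF]
        simp only
        have h3 : b' m = 0 := by
          by_contra h4
          exact h (h' m h4)
        rw [h3, zero_mul]; simp
    have h2 : ∑' m, F m = ∑' m, F (T * m) := by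
      rw [tsum_mult hT.ne_zero F]
      exact tsum_congr h1
    rw [h2, hW₁, ← tsum_mul_left]
    refine tsum_congr fun m => ?_
    rw [hF]
    simp only
    by_cases hc : b' (T * m) = 0
    · simp [hc]
    obtain ⟨hm1, hm2⟩ := hm m hc
    have hiff : (e ∣ T * m ∧ IsCoprime j (δ * (T * m))) ↔
        (e ∣ m ∧ IsCoprime (T * j) (δ * m)) := by
      rw [show δ * (T * m) = T * (δ * m) by ring]
      constructor
      · rintro ⟨h3, h4⟩
        exact ⟨heT.dvd_of_dvd_mul_left h3,
          (hδ.symm.mul_right hm2).mul_left h4.of_mul_right_right⟩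
      · rintro ⟨h3, h4⟩
        exact ⟨h3.mul_left T, hj.mul_right h4.of_mul_left_right⟩
    by_cases h5 : e ∣ m ∧ IsCoprime (T * j) (δ * m)
    · rw [if_pos h5, if_pos (hiff.2 h5), n6_mul, Gh_mul hT hm1, mul_comm j T]
      push_cast
      ring
    · rw [if_neg h5, if_neg (fun h => h5 (hiff.1 h)), mul_zero]
  rw [e1, e2, eth, eG]
  simp only [map_mul, Complex.conj_conj, Complex.conj_ofReal]
  ring

/-! ### reduced coordinates -/

open Classical in
/-- the coefficient in reduced coordinates -/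
def afd (af : Eis → Eis → Eis → ℂ) (g h : Eis) (e d m : Eis) : ℂ :=
  if IsCoprime d g then af e (h * d) m else 0

/-- the reduced weight -/
def omr (g h : Eis) (i : ℕ) (s : ℝ) (x : Eis × Eis) : ℂ :=
  ((wD i (Real.log (nm (g / h * ln x))) : ℝ) : ℂ) * pw s (nm (ln x))

/-- the weight in the coordinates of the multiples of `g` -/
def omz (g : Eis) (i : ℕ) (s : ℝ) (y : Eis × Eis) : ℂ :=
  ((wD i (Real.log (nm (ln (psi g y)))) : ℝ) : ℂ) * pw s (nm (ln y))

/-- admissible coefficients for the multiples of `g` -/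
structure AOK (g : Eis) (af : Eis → Eis → Eis → ℂ) : Prop where
  dvd : ∀ e d m, af e d m ≠ 0 → g ∣ d * m
  prim : ∀ e d m, af e d m ≠ 0 → IsPrim (d * m) ∧ Squarefree (d * m)
  cov : ∀ h T, IsPrim h → IsPrim T → h * T ∣ g → ∃ u : ℂ, ‖u‖ ≤ 1 ∧
    ∀ e δ m, IsCoprime δ g → af e (h * T * δ) m = u * af e (h * δ) (T * m)

open Classical in
lemma T3_afd (af : Eis → Eis → Eis → ℂ) (g h δ e j : Eis) :
    T3 (afd af g h) δ e j = if IsCoprime δ g then T1 (af e (h * δ)) δ e j else 0 := by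
  unfold T3 T1 afd
  split_ifs with hc
  · rfl
  · refine (tsum_congr fun m => ?_).trans tsum_zero
    simp

/-- `JC` and coprimality -/
lemma JC_mu {j a : Eis} (hj : JC j) (ha : IsPrim a) :
    ∑ d ∈ dvs a, (open Classical in if d ∣ j then muE d else 0) =
      (open Classical in if IsCoprime j a then 1 else 0) := by
  classical
  obtain ⟨c, hc, j', hj', hcf, rfl⟩ := hj
  have hca : ∀ d, IsPrim d → IsCoprime d c := fun d hd => cop_c hc hd
  have h1 : (if IsCoprime (c * j') a then (1 : ℤ) else 0) = if IsCoprime j' a then 1 else 0 := by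
    by_cases h : IsCoprime j' a
    · rw [if_pos h, if_pos ((hca a ha).symm.mul_left h)]
    · rw [if_neg h, if_neg fun h2 => h h2.of_mul_left_right]
  rw [h1, ← sum_muE_coprime hj' ha.ne_zero]
  refine sum_congr rfl fun d hd => ?_
  have hd' := ((mem_dvs ha.ne_zero).1 hd).1
  have h2 : d ∣ c * j' ↔ d ∣ j' :=
    ⟨fun h => (hca d hd').dvd_of_dvd_mul_left h, fun h => h.mul_left c⟩
  simp only [h2]

/-- the big window -/
def JB (D : ℝ) : Finset (Eis × Eis) := JW D (1 / 10) (D ^ 2)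

lemma mem_JB {D : ℝ} (hD : 0 ≤ D) {x : Eis × Eis} :
    x ∈ JB D ↔ IsPrim x.1 ∧ Squarefree x.1 ∧ JC x.2 ∧ (nm (ln x) : ℝ) ≤ D ^ 2 :=
  mem_JW hD (by norm_num) le_rfl

lemma okJ_JB (D : ℝ) : OKJ (JB D) := okJ_JW _ _ _

lemma gp_of_mul {g h T δ : Eis} (hg : IsPrim g) (hh : IsPrim h) (hT : IsPrim T) (hd : h * T ∣ g)
    (hδ : IsCoprime δ g) : gp (h * T * δ) g = h * T := by
  obtain ⟨c, hc⟩ := hd
  refine gp_eq (l₁ := δ) (u₁ := c) hg (hh.mul hT) rfl hc ?_
  exact hδ.of_isCoprime_of_dvd_right ⟨h * T, by rw [hc]; ring⟩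

/-- the weights in both coordinates -/
lemma omz_eq {g h T : Eis} (hg : IsPrim g) (hh : IsPrim h) (hT : IsPrim T) (hd : h * T ∣ g)
    {x : Eis × Eis} (hx : ln x ≠ 0) (hc : IsCoprime x.1 g) (i : ℕ) (s : ℝ) :
    omz g i s (h * T * x.1, T * x.2) = pw s (nm (T * (h * T) ^ 2)) * omr g h i s x := by
  have e1 := gp_of_mul hg hh hT hd hc
  have h1 : g / (h * T) * T = g / h := by
    obtain ⟨c, hc⟩ := hd
    have e2 : g / (h * T) = c := by
      rw [hc, mul_div_cancel_left₀ _ (mul_ne_zero hh.ne_zero hT.ne_zero)]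
    have e3 : g / h = T * c := by
      rw [hc, mul_assoc, mul_div_cancel_left₀ _ hh.ne_zero]
    rw [e2, e3, mul_comm]
  have e2 : ln (psi g (h * T * x.1, T * x.2)) = g / h * ln x := by
    unfold psi ln
    simp only
    rw [e1, mul_div_cancel_left₀ _ (mul_ne_zero hh.ne_zero hT.ne_zero), ← h1]
    ring
  have e3 : ln (h * T * x.1, T * x.2) = T * (h * T) ^ 2 * ln x := by
    unfold ln
    simp only
    ring
  have hne : T * (h * T) ^ 2 ≠ 0 :=
    mul_ne_zero hT.ne_zero (pow_ne_zero 2 (mul_ne_zero hh.ne_zero hT.ne_zero))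
  unfold omz omr
  rw [e2, e3, nm_mul (T * (h * T) ^ 2)]
  have e4 : pw s ((nm (T * (h * T) ^ 2) * nm (ln x) : ℕ) : ℝ) =
      pw s (nm (T * (h * T) ^ 2)) * pw s (nm (ln x)) := by
    push_cast
    exact Weight600.pw_mul (by exact_mod_cast (nm_pos.2 hne).ne')
      (by exact_mod_cast (nm_pos.2 hx).ne') s
  rw [e4]
  ring

/-- the summand in the coordinates `y = (h δ, j)` without `(j, h) = 1` -/
def Fy (af : Eis → Eis → Eis → ℂ) (g h' : Eis) (i : ℕ) (s E' : ℝ) (k : Eis) (y : Eis × Eis) : ℂ := by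
  classical
  exact omz g i s y * (sy k y.1 * conj (th (y.2 * k)) *
    ∑ e ∈ (S E').filter (fun e => e ∣ k), (muE e : ℂ) * T1 (af e y.1) (y.1 / h') e y.2)

/-- the summand in reduced coordinates -/
def Gx (af : Eis → Eis → Eis → ℂ) (g h : Eis) (i : ℕ) (s E' : ℝ) (k : Eis) (x : Eis × Eis) : ℂ := by
  classical
  exact omr g h i s x * (sy k x.1 * conj (th (x.2 * k)) *
    ∑ e ∈ (S E').filter (fun e => e ∣ k), (muE e : ℂ) * T3 (afd af g h) x.1 e x.2)

lemma Fy_Gx {g h T : Eis} (hg : IsPrim g) (hgs : Squarefree g) {af : Eis → Eis → Eis → ℂ}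
    (ha : AOK g af) (hh : IsPrim h) (hT : IsPrim T) (hd : h * T ∣ g) {u : ℂ}
    (hu : ∀ e δ m, IsCoprime δ g → af e (h * T * δ) m = u * af e (h * δ) (T * m))
    {i : ℕ} {s E' : ℝ} {k : Eis} (hk : IsCoprime k (h * T)) {x : Eis × Eis} (hx1 : IsPrim x.1)
    (hc : IsCoprime x.1 g) (hj : JC (T * x.2)) (hx : ln x ≠ 0) :
    Fy af g (h * T) i s E' k (h * T * x.1, T * x.2) =
      pw s (nm (T * (h * T) ^ 2)) * (sy k (h * T) * conj (sy k T) * u) *
        Gx af g h i s E' k x := by
  classical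
  have hhT : IsPrim (h * T) := hh.mul hT
  have hTg : T ∣ g := (dvd_mul_left T h).trans hd
  have hTs : Squarefree T := hgs.squarefree_of_dvd hTg
  have hxT : IsCoprime x.1 T := hc.of_isCoprime_of_dvd_right hTg
  have key : ∀ e ∈ (S E').filter (fun e => e ∣ k), (muE e : ℂ) *
      (conj (th (T * x.2 * k)) * T1 (af e (h * T * x.1)) x.1 e (T * x.2)) =
      (conj (sy k T) * u) * (conj (th (x.2 * k)) * ((muE e : ℂ) *
        T1 (af e (h * x.1)) x.1 e x.2)) := by
    intro e he
    rw [mem_filter] at he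
    rw [term_T hT hTs hk.of_mul_right_right (fun p hp hpp => JC_cbf hj hp hpp) he.2 hxT
      (fun m => hu e x.1 m hc) (fun m hm => ?_) (fun m hm => ?_)]
    · ring
    · have h1 := ha.dvd _ _ _ hm
      have h2 : h * T ∣ h * (x.1 * m) := by
        rw [← mul_assoc]; exact hd.trans h1
      have h3 : T ∣ x.1 * m := (mul_dvd_mul_iff_left hh.ne_zero).1 h2
      exact hxT.symm.dvd_of_dvd_mul_left h3
    · obtain ⟨h1, h2⟩ := ha.prim _ _ _ hm
      have e1 : h * x.1 * (T * m) = (h * x.1) * (T * m) := rfl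
      have hhx : IsPrim (h * x.1) := hh.mul hx1
      have h3 : IsPrim (T * m) := h1.of_mul_left hhx
      refine ⟨h3.of_mul_left hT, ?_⟩
      have h4 : Squarefree (T * m) := h2.of_mul_right
      exact (squarefree_mul_iff.1 h4).1.isCoprime
  have e1 : ∀ e, T3 (afd af g h) x.1 e x.2 = T1 (af e (h * x.1)) x.1 e x.2 := fun e => by
    rw [T3_afd, if_pos hc]
  unfold Fy Gx
  simp only [e1]
  have e2 : h * T * x.1 / (h * T) = x.1 := mul_div_cancel_left₀ _ hhT.ne_zero
  rw [e2, omz_eq hg hh hT hd hx hc i s]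
  have hsy : sy k (h * T * x.1) = sy k (h * T) * sy k x.1 :=
    Sym645.sy_mul_right k hhT.ne_zero hx1.ne_zero
  rw [hsy]
  have e3 : conj (th (T * x.2 * k)) * ∑ e ∈ (S E').filter (fun e => e ∣ k), (muE e : ℂ) *
      T1 (af e (h * T * x.1)) x.1 e (T * x.2) = (conj (sy k T) * u) * (conj (th (x.2 * k)) *
      ∑ e ∈ (S E').filter (fun e => e ∣ k), (muE e : ℂ) * T1 (af e (h * x.1)) x.1 e x.2) := by
    rw [mul_sum, mul_sum, mul_sum]
    refine sum_congr rfl fun e he => ?_
    rw [← key e he]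
    ring
  linear_combination (pw s (nm (T * (h * T) ^ 2)) * omr g h i s x * sy k (h * T) *
    sy k x.1) * e3

lemma wD_top {i : ℕ} {z : Eis} (hz : z ≠ 0) (h : wD i (Real.log (nm z)) ≠ 0) :
    (nm z : ℝ) ≤ Real.exp (Real.log 2 * (i + 1)) := by
  have h1 := (abs_le.1 (wD_ne h)).2
  have hp : (0 : ℝ) < nm z := by exact_mod_cast nm_pos.2 hz
  rw [← Real.log_le_iff_le_exp hp]
  linarith

open Classical in
/-- **the sum over the multiples of `T`** -/
lemma step_c {g h T : Eis} (hg : IsPrim g) (hgs : Squarefree g) {af : Eis → Eis → Eis → ℂ}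
    (ha : AOK g af) (hh : IsPrim h) (hT : IsPrim T) (hd : h * T ∣ g) {D : ℝ} (hD : 0 ≤ D)
    {i : ℕ} (hi : Real.exp (Real.log 2 * (i + 1)) * (nm g : ℝ) ^ 3 ≤ D ^ 2) (s E' : ℝ)
    {k : Eis} (hk : IsCoprime k (h * T)) :
    ‖∑ y ∈ (JB D).filter (fun y => gp y.1 g = h * T ∧ T ∣ y.2), Fy af g (h * T) i s E' k y‖ ≤
      ‖SteT (JB D) (omr g h i s) E' (T3 (afd af g h)) k‖ := by
  obtain ⟨u, hu1, hu⟩ := ha.cov h T hh hT hd
  set c : ℂ := pw s (nm (T * (h * T) ^ 2)) * (sy k (h * T) * conj (sy k T) * u) with hc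
  have hhT : IsPrim (h * T) := hh.mul hT
  have hTg : T ∣ g := (dvd_mul_left T h).trans hd
  have hTs : Squarefree T := hgs.squarefree_of_dvd hTg
  have hc1 : ‖c‖ ≤ 1 := by
    rw [hc, norm_mul, norm_mul, norm_mul, RCLike.norm_conj, Weight600.norm_pw, one_mul]
    have b1 := CF61.norm_sy_le k (h * T)
    have b2 := CF61.norm_sy_le k T
    have b3 : ‖sy k (h * T)‖ * ‖sy k T‖ ≤ 1 := mul_le_one₀ b1 (norm_nonneg _) b2
    exact mul_le_one₀ b3 (norm_nonneg _) hu1
  have hS : SteT (JB D) (omr g h i s) E' (T3 (afd af g h)) k = ∑ x ∈ JB D, Gx af g h i s E' k x :=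
    rfl
  have hmain : ∑ x ∈ JB D, c * Gx af g h i s E' k x =
      ∑ y ∈ (JB D).filter (fun y => gp y.1 g = h * T ∧ T ∣ y.2), Fy af g (h * T) i s E' k y := by
    have hdat : ∀ x ∈ JB D, c * Gx af g h i s E' k x ≠ 0 → IsCoprime x.1 g ∧
        JC (T * x.2) ∧ (nm (ln x) : ℝ) ≤ Real.exp (Real.log 2 * (i + 1)) := by
      intro x hx h0
      obtain ⟨x1, x2, x3, x4⟩ := (mem_JB hD).1 hx
      have hlx : ln x ≠ 0 := ln_ne x1 x3
      have hG := right_ne_zero_of_mul h0
      unfold Gx at hG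
      have ho := left_ne_zero_of_mul hG
      have hs := right_ne_zero_of_mul (right_ne_zero_of_mul hG)
      obtain ⟨e, -, he⟩ := Finset.exists_ne_zero_of_sum_ne_zero hs
      have h3 := right_ne_zero_of_mul he
      rw [T3_afd] at h3
      split_ifs at h3 with hcg
      · refine ⟨hcg, ?_, ?_⟩
        · have hjT : IsCoprime x.2 T := by
            by_contra hn
            apply h3
            unfold T1
            refine (tsum_congr fun m => ?_).trans tsum_zero
            split_ifs with hm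
            · by_cases hb0 : af e (h * x.1) m = 0
              · rw [hb0, zero_mul]
              · exfalso
                have h1 := ha.dvd _ _ _ hb0
                have h2 : h * T ∣ h * (x.1 * m) := by
                  rw [← mul_assoc]; exact hd.trans h1
                have h4 : T ∣ x.1 * m := (mul_dvd_mul_iff_left hh.ne_zero).1 h2
                exact hn (hm.2.of_isCoprime_of_dvd_right h4)
            · rfl
          exact JC_mul hT hTs x3 hjT
        · have hw : wD i (Real.log (nm (g / h * ln x))) ≠ 0 := by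
            have := left_ne_zero_of_mul ho
            intro hh0
            apply this
            rw [hh0]; simp
          obtain ⟨c', hc'⟩ := hd
          have hgh : g / h = T * c' := by rw [hc', mul_assoc, mul_div_cancel_left₀ _ hh.ne_zero]
          have hgh0 : g / h ≠ 0 := by
            rw [hgh]
            intro h0'
            rw [hc', mul_assoc, h0', mul_zero] at hg
            exact hg.ne_zero rfl
          have h5 := wD_top (mul_ne_zero hgh0 hlx) hw
          refine le_trans ?_ h5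
          rw [nm_mul]
          push_cast
          refine le_mul_of_one_le_left (Nat.cast_nonneg _) ?_
          exact_mod_cast nm_pos.2 hgh0
      · exact absurd rfl h3
    refine Finset.sum_bij_ne_zero (fun x _ _ => (h * T * x.1, T * x.2)) ?_ ?_ ?_ ?_
    · intro x hx h0
      obtain ⟨x1, x2, x3, x4⟩ := (mem_JB hD).1 hx
      obtain ⟨y1, y2, y3⟩ := hdat x hx h0
      rw [mem_filter]
      refine ⟨(mem_JB hD).2 ⟨hhT.mul x1, ?_, y2, ?_⟩, gp_of_mul hg hh hT hd y1,
        dvd_mul_right _ _⟩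
      · exact (sqf_mul (y1.symm.of_isCoprime_of_dvd_left hd)).2 ⟨hgs.squarefree_of_dvd hd, x2⟩
      · have e1 : ln (h * T * x.1, T * x.2) = T * (h * T) ^ 2 * ln x := by
          unfold ln
          simp only
          ring
        rw [e1, nm_mul, nm_mul, nm_pow]
        push_cast
        have g0 : (0 : ℝ) < nm g := by exact_mod_cast nm_pos.2 hg.ne_zero
        have b1 : (nm T : ℝ) ≤ nm g := by
          exact_mod_cast Div277.nm_le_of_dvd hg.ne_zero hTg
        have b2 : (nm (h * T) : ℝ) ≤ nm g := by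
          exact_mod_cast Div277.nm_le_of_dvd hg.ne_zero hd
        calc (nm T : ℝ) * (nm (h * T) : ℝ) ^ 2 * nm (ln x)
            ≤ (nm g * (nm g : ℝ) ^ 2) * Real.exp (Real.log 2 * (i + 1)) := by
              refine mul_le_mul ?_ y3 (Nat.cast_nonneg _) (by positivity)
              exact mul_le_mul b1 (pow_le_pow_left₀ (Nat.cast_nonneg _) b2 2) (by positivity)
                g0.le
          _ = Real.exp (Real.log 2 * (i + 1)) * (nm g : ℝ) ^ 3 := by ring
          _ ≤ D ^ 2 := hi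
    · intro x hx h0 x' hx' h0' hxx
      rw [Prod.mk.injEq] at hxx
      exact Prod.ext (mul_left_cancel₀ hhT.ne_zero hxx.1) (mul_left_cancel₀ hT.ne_zero hxx.2)
    · intro y hy h0
      rw [mem_filter] at hy
      obtain ⟨hyJ, hgp, hTy⟩ := hy
      obtain ⟨y1, y2, y3, y4⟩ := (mem_JB hD).1 hyJ
      obtain ⟨k1, k2, k3, k4, k5⟩ := gp_spec y.1 hg
      rw [hgp] at k1 k2 k3 k4 k5
      obtain ⟨c', hc'⟩ := hTy
      set x : Eis × Eis := (y.1 / (h * T), c') with hxd
      have hyx : (h * T * x.1, T * x.2) = y := by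
        rw [hxd]
        simp only
        rw [← k3, ← hc']
      have hx1 : IsPrim x.1 := (k3 ▸ y1 : IsPrim (h * T * (y.1 / (h * T)))).of_mul_left hhT
      have hsq : Squarefree (h * T * x.1) := by
        rw [hxd]; simp only; rw [← k3]; exact y2
      have hxg : IsCoprime x.1 g := by
        have h1 : IsCoprime x.1 (h * T) := (squarefree_mul_iff.1 hsq).1.isCoprime.symm
        rw [k4]
        exact h1.mul_right k5
      have hxJ : JC (T * x.2) := by
        rw [hxd]; simp only; rw [← hc']; exact y3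
      have hx3 : JC x.2 := JC_div hT hxJ
      have hlx : ln x ≠ 0 := ln_ne hx1 hx3
      have hxm : x ∈ JB D := by
        refine (mem_JB hD).2 ⟨hx1, hsq.of_mul_right, hx3, le_trans ?_ y4⟩
        have e1 : ln y = T * (h * T) ^ 2 * ln x := by
          rw [← hyx]
          unfold ln
          simp only
          ring
        have hne : T * (h * T) ^ 2 ≠ 0 := mul_ne_zero hT.ne_zero (pow_ne_zero 2 hhT.ne_zero)
        rw [e1, nm_mul (T * (h * T) ^ 2)]
        push_cast
        refine le_mul_of_one_le_left (Nat.cast_nonneg _) ?_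
        exact_mod_cast nm_pos.2 hne
      have hP := Fy_Gx hg hgs ha hh hT hd hu (i := i) (s := s) (E' := E') hk hx1 hxg hxJ hlx
      rw [hyx] at hP
      refine ⟨x, hxm, ?_, hyx⟩
      rw [hc, ← hP]
      exact h0
    · intro x hx h0
      obtain ⟨x1, x2, x3, x4⟩ := (mem_JB hD).1 hx
      obtain ⟨y1, y2, y3⟩ := hdat x hx h0
      exact (Fy_Gx hg hgs ha hh hT hd hu hk x1 y1 y2 (ln_ne x1 x3)).symm
  rw [← hmain, ← mul_sum, norm_mul, hS]
  exact mul_le_of_le_one_left (norm_nonneg _) hc1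

open Classical in
/-- **one value of `(d, g)`** -/
lemma step_b {g h' : Eis} (hg : IsPrim g) (hgs : Squarefree g) {af : Eis → Eis → Eis → ℂ}
    (ha : AOK g af) (hh' : IsPrim h') (hd : h' ∣ g) {D : ℝ} (hD : 0 ≤ D)
    {i : ℕ} (hi : Real.exp (Real.log 2 * (i + 1)) * (nm g : ℝ) ^ 3 ≤ D ^ 2) (s E' : ℝ) (k : Eis) :
    ‖∑ y ∈ (JB D).filter (fun y => gp y.1 g = h'), omz g i s y * (sy k y.1 *
      conj (th (y.2 * k)) * ∑ e ∈ (S E').filter (fun e => e ∣ k), (muE e : ℂ) *
        T3 af y.1 e y.2)‖ ≤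
      ∑ T ∈ dvs h', ‖SteT (JB D) (omr g (h' / T) i s) E' (T3 (afd af g (h' / T))) k‖ := by
  have hnn : 0 ≤ ∑ T ∈ dvs h',
      ‖SteT (JB D) (omr g (h' / T) i s) E' (T3 (afd af g (h' / T))) k‖ :=
    sum_nonneg fun _ _ => norm_nonneg _
  by_cases hk : IsCoprime k h'
  swap
  · rw [Finset.sum_eq_zero, norm_zero]
    · exact hnn
    · intro y hy
      rw [mem_filter] at hy
      obtain ⟨y1, y2, y3, y4⟩ := (mem_JB hD).1 hy.1
      have h1 : h' ∣ y.1 := ⟨y.1 / h', by rw [← hy.2]; exact (gp_spec y.1 hg).2.2.1⟩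
      have h2 : sy k y.1 = 0 :=
        (syG.eq_zero k y.1 y1).2 fun h => hk (h.of_isCoprime_of_dvd_right h1)
      rw [h2]; ring
  have e1 : ∀ y ∈ (JB D).filter (fun y => gp y.1 g = h'), omz g i s y * (sy k y.1 *
      conj (th (y.2 * k)) * ∑ e ∈ (S E').filter (fun e => e ∣ k), (muE e : ℂ) *
        T3 af y.1 e y.2) = ∑ T ∈ dvs h', (if T ∣ y.2 then ((muE T : ℤ) : ℂ) else 0) *
          Fy af g h' i s E' k y := by
    intro y hy
    rw [mem_filter] at hy
    obtain ⟨y1, y2, y3, y4⟩ := (mem_JB hD).1 hy.1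
    obtain ⟨k1, k2, k3, k4, k5⟩ := gp_spec y.1 hg
    rw [hy.2] at k1 k2 k3 k4 k5
    have h1 : ∑ T ∈ dvs h', (if T ∣ y.2 then ((muE T : ℤ) : ℂ) else 0) =
        if IsCoprime y.2 h' then 1 else 0 := by
      have h := JC_mu y3 hh'
      have h2 : ((∑ d ∈ dvs h', (if d ∣ y.2 then muE d else 0) : ℤ) : ℂ) =
          ((if IsCoprime y.2 h' then 1 else 0 : ℤ) : ℂ) := by rw [h]
      push_cast at h2
      exact h2
    have h2 : ∀ e, T3 af y.1 e y.2 = (if IsCoprime y.2 h' then 1 else 0) *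
        T1 (af e y.1) (y.1 / h') e y.2 := by
      intro e
      unfold T3 T1
      by_cases hc : IsCoprime y.2 h'
      · rw [if_pos hc, one_mul]
        refine tsum_congr fun m => ?_
        have h3 : IsCoprime y.2 (y.1 * m) ↔ IsCoprime y.2 (y.1 / h' * m) := by
          constructor
          · intro h
            refine h.of_isCoprime_of_dvd_right ?_
            refine mul_dvd_mul_right ⟨h', ?_⟩ m
            rw [mul_comm]; exact k3
          · intro h
            rw [k3, mul_assoc]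
            exact hc.mul_right h
        simp only [h3]
      · rw [if_neg hc, zero_mul]
        refine (tsum_congr fun m => ?_).trans tsum_zero
        rw [if_neg]
        rintro ⟨-, h4⟩
        apply hc
        rw [k3] at h4
        exact h4.of_mul_right_left.of_mul_right_left
    rw [← sum_mul, h1]
    unfold Fy
    simp only [h2]
    split_ifs
    · simp only [one_mul]
    · simp
  rw [sum_congr rfl e1, sum_comm]
  refine (norm_sum_le _ _).trans (sum_le_sum fun T hT => ?_)
  obtain ⟨t1, t2⟩ := (mem_dvs hh'.ne_zero).1 hT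
  obtain ⟨h, hh⟩ := t2
  have hq : h' / T = h := by rw [hh, mul_div_cancel_left₀ _ t1.ne_zero]
  have hh1 : h' = h * T := by rw [hh, mul_comm]
  have hhp : IsPrim h := (hh ▸ hh' : IsPrim (T * h)).of_mul_left t1
  rw [hq]
  have e2 : ∑ y ∈ (JB D).filter (fun y => gp y.1 g = h'),
      (if T ∣ y.2 then ((muE T : ℤ) : ℂ) else 0) * Fy af g h' i s E' k y =
      ((muE T : ℤ) : ℂ) * ∑ y ∈ (JB D).filter (fun y => gp y.1 g = h * T ∧ T ∣ y.2),
        Fy af g (h * T) i s E' k y := by
    rw [← hh1, mul_sum]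
    rw [← Finset.filter_filter, Finset.sum_filter (fun y : Eis × Eis => T ∣ y.2)]
    refine sum_congr rfl fun y _ => ?_
    split_ifs
    · rfl
    · rw [zero_mul]
  rw [e2, norm_mul]
  have b1 : ‖((muE T : ℤ) : ℂ)‖ ≤ 1 := norm_muE_le T
  refine (mul_le_of_le_one_left (norm_nonneg _) b1).trans ?_
  exact step_c hg hgs ha hhp t1 (hh1 ▸ hd) hD hi s E' (hh1 ▸ hk)

open Classical in
/-- **reduced coordinates** -/
theorem red {g : Eis} (hg : IsPrim g) (hgs : Squarefree g) {af : Eis → Eis → Eis → ℂ}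
    (ha : AOK g af) {D : ℝ} (hD : 0 ≤ D)
    {i : ℕ} (hi : Real.exp (Real.log 2 * (i + 1)) * (nm g : ℝ) ^ 3 ≤ D ^ 2) (s E' : ℝ) (k : Eis) :
    ‖SteT (JB D) (omz g i s) E' (T3 af) k‖ ≤ (tau g : ℝ) * ∑ h ∈ dvs g,
      ‖SteT (JB D) (omr g h i s) E' (T3 (afd af g h)) k‖ := by
  set R : Eis → ℝ := fun h => ‖SteT (JB D) (omr g h i s) E' (T3 (afd af g h)) k‖ with hR
  have h1 : SteT (JB D) (omz g i s) E' (T3 af) k = ∑ h' ∈ dvs g,
      ∑ y ∈ (JB D).filter (fun y => gp y.1 g = h'), omz g i s y * (sy k y.1 *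
      conj (th (y.2 * k)) * ∑ e ∈ (S E').filter (fun e => e ∣ k), (muE e : ℂ) *
        T3 af y.1 e y.2) := by
    unfold SteT
    rw [sum_fiberwise_of_maps_to]
    intro y _
    obtain ⟨k1, k2, k3, k4, k5⟩ := gp_spec y.1 hg
    exact (mem_dvs hg.ne_zero).2 ⟨k1, ⟨_, k4⟩⟩
  rw [h1]
  refine (norm_sum_le _ _).trans ?_
  have h2 : ∀ h' ∈ dvs g, ‖∑ y ∈ (JB D).filter (fun y => gp y.1 g = h'), omz g i s y * (sy k y.1 *
      conj (th (y.2 * k)) * ∑ e ∈ (S E').filter (fun e => e ∣ k), (muE e : ℂ) *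
        T3 af y.1 e y.2)‖ ≤ ∑ h ∈ dvs g, R h := by
    intro h' hh
    obtain ⟨p1, p2⟩ := (mem_dvs hg.ne_zero).1 hh
    refine (step_b hg hgs ha p1 p2 hD hi s E' k).trans ?_
    have hinj : Set.InjOn (fun T => h' / T) (dvs h' : Set Eis) := by
      intro T hT T' hT' he
      obtain ⟨a1, a2⟩ := (mem_dvs p1.ne_zero).1 (mem_coe.1 hT)
      obtain ⟨b1, b2⟩ := (mem_dvs p1.ne_zero).1 (mem_coe.1 hT')
      obtain ⟨u, hu⟩ := a2
      obtain ⟨v, hv⟩ := b2
      have e1 : h' / T = u := by rw [hu, mul_div_cancel_left₀ _ a1.ne_zero]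
      have e2 : h' / T' = v := by rw [hv, mul_div_cancel_left₀ _ b1.ne_zero]
      have he' : h' / T = h' / T' := he
      rw [e1, e2] at he'
      have hu0 : u ≠ 0 := by
        rintro rfl
        exact p1.ne_zero (by rw [hu, mul_zero])
      apply mul_right_cancel₀ hu0
      rw [← hu, he', ← hv]
    rw [← Finset.sum_image (f := R) hinj]
    refine sum_le_sum_of_subset_of_nonneg ?_ (fun _ _ _ => norm_nonneg _)
    intro x hx
    rw [mem_image] at hx
    obtain ⟨T, hT, rfl⟩ := hx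
    obtain ⟨a1, a2⟩ := (mem_dvs p1.ne_zero).1 hT
    obtain ⟨u, hu⟩ := a2
    have e1 : h' / T = u := by rw [hu, mul_div_cancel_left₀ _ a1.ne_zero]
    rw [e1]
    exact (mem_dvs hg.ne_zero).2 ⟨(hu ▸ p1 : IsPrim (T * u)).of_mul_left a1,
      (Dvd.intro_left T hu.symm).trans p2⟩
  refine (sum_le_sum h2).trans (le_of_eq ?_)
  rw [sum_const, nsmul_eq_mul]
  rfl

end Crest.Agent.R017.StG828
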