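import Crest.Agent.R017.StG_828
import Crest.Agent.R017.GrT1_828

/-!
# Row 17, R8/P1: the mismatch in reduced coordinates, part 2 (helper828)

* `Tz`, `Tm_eqz` : localisation in the level of `psi g y`
* `SteT_winz` : level weights removed
* `aok_1`, `aok_2`, `aok_3` : the coefficients are admissible
* `Tm_big` : enlargement of the window
* **`mism2`** : the mismatch by the reduced structured functions
-/

set_option autoImplicit false

noncomputable section

open Finset MeasureTheory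
open scoped ComplexConjugate

namespace Crest.Agent.R017.StG828

open Crest.Agent.R012 Crest.Agent.R012.Eis Crest.Agent.R012.Div277
open Crest.Agent.R012.Mob705 hiding pb mem_pb
open Crest.Agent.R012.Gauss880
open Crest.Agent.R012.LS2 (S mem_S)
open Crest.Agent.R012.Weight600 (osc norm_osc pw norm_pw)
open Crest.Agent.R017.CM106 Crest.Agent.R017.PX764 Crest.Agent.R017.C70
open Crest.Agent.R017.StA828 Crest.Agent.R017.StB828 Crest.Agent.R017.StC828
open Crest.Agent.R017.StD828 Crest.Agent.R017.StE828 Crest.Agent.R017.StF828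
open Crest.Agent.R017.E2440 (TE StE)
open Crest.Agent.R017.E3A164 (SteT)
open Crest.Agent.R017.Win813

/-- the weighted coefficient, localised in the level of `psi g y` -/
def Tz (gt : Eis → Eis → ℂ) (q : Eis → Eis) (Y : ℝ) (I J : Finset ℕ) (η α : Eis → ℂ)
    (g d e j : Eis) : ℂ :=
  ∑ a ∈ S Y, η (g * a) * ((gt a e * (lD I (ln (psi g (d, j))) * oD J (ln (psi (q a) (d, j))))) *
    TE (xa a (rs g α)) (d, j) e)

/-- **removal of the level weights**. -/
theorem SteT_winz {A : ℕ} (hA : 2 ≤ A) : ∃ C : ℝ, 0 ≤ C ∧ ∀ (JJ : Finset (Eis × Eis)), OKJ JJ →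
    ∀ (Y E' : ℝ), 0 ≤ Y → ∀ (gt : Eis → Eis → ℂ) (q : Eis → Eis), (∀ a ∈ S Y, IsPrim (q a)) →
    ∀ (η α : Eis → ℂ), FS α → ∀ (g : Eis) (I J : Finset ℕ),
    ∀ (K : Finset Eis) (W : Eis → ℝ), (∀ k ∈ K, 0 ≤ W k) →
    ∑ k ∈ K, W k * ‖SteT JJ (fun _ => 1) E' (Tz gt q Y I J η α g) k‖ ^ 2 ≤
      C * (I.card * (J.card : ℝ) ^ 2) * ∑ i ∈ I, ∫ s, ew A 2 s * ∑ k ∈ K, W k *
        ‖SteT JJ (omz g i s) E' (T3 (afa gt q Y η α g s)) k‖ ^ 2 := by
  obtain ⟨C, hC, H⟩ := multi_win hA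
  refine ⟨C, hC, ?_⟩
  intro JJ hJ Y E' hY gt q hq η α hα g I J K W hW
  have h := H (JJ ×ˢ ((S E') ×ˢ (S Y))) (fun b => ln (psi (q b.2.2) b.1))
    (fun b => ln (psi g b.1)) I J K W (fun k b => Ak E' gt η α g k b) hW
  have e1 : ∀ k, SteT JJ (fun _ => 1) E' (Tz gt q Y I J η α g) k =
      ∑ b ∈ JJ ×ˢ ((S E') ×ˢ (S Y)), Ak E' gt η α g k b *
        (lD I (ln (psi g b.1)) * oD J (ln (psi (q b.2.2) b.1))) := fun k =>
    SteT_form (fun _ => 1) (fun y a => lD I (ln (psi g y)) * oD J (ln (psi (q a) y))) gt η α g k _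
      (fun y _ e => by rw [one_mul]; rfl)
  have e2 : ∀ (i : ℕ) (s : ℝ) (k : Eis),
      SteT JJ (omz g i s) E' (T3 (afa gt q Y η α g s)) k =
      HF (JJ ×ˢ ((S E') ×ˢ (S Y))) (fun b => ln (psi (q b.2.2) b.1)) (fun b => Ak E' gt η α g k b *
        ((wD i (Real.log (nm (ln (psi g b.1)))) : ℝ) : ℂ)) s := by
    intro i s k
    rw [SteT_form (omz g i s) (fun y a => ((wD i (Real.log (nm (ln (psi g y)))) : ℝ) : ℂ) *
      pw s (nm (ln (psi (q a) y)))) gt η α g k _ ?_]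
    · unfold HF
      refine sum_congr rfl fun b _ => ?_
      ring
    · intro y hy e
      have h3 := sum_TE (gt := gt) hY hq hα η g s (hJ.prim y hy) (hJ.jc y hy) e
      unfold omz
      rw [mul_assoc, ← h3, mul_sum]
      refine sum_congr rfl fun a _ => ?_
      ring
  simp only [e1, e2]
  exact h

/-! ### the plateau weight -/

/-- levels near the top -/
def I1z (g : Eis) (M n : ℕ) (Y : ℝ) : Finset ℕ := by
  classical
  exact (range M).filter fun i => Real.log 2 * n - Real.log Y - Real.log (nm g) -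
      3 * Real.log 2 ≤ Real.log 2 * i ∧
    Real.log 2 * i ≤ Real.log 2 * n + 2 * Real.log Y - Real.log (nm g) + 3 * Real.log 2

/-- all levels -/
def I2z (g : Eis) (M n : ℕ) (Y : ℝ) : Finset ℕ := by
  classical
  exact (range M).filter fun i =>
    Real.log 2 * i ≤ Real.log 2 * n + 2 * Real.log Y - Real.log (nm g) + 3 * Real.log 2

/-- the levels of `psi a y` and `psi g y` -/
lemma lev {Y : ℝ} {g a : Eis} (hg : IsPrim g) (ha : IsPrim a) (hga : (nm g : ℝ) * nm a ≤ Y)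
    {y : Eis × Eis} (h : ln y ≠ 0) :
    Real.log (nm (ln (psi a y))) ≤ Real.log (nm (ln (psi g y))) + Real.log Y + Real.log (nm g) ∧
      Real.log (nm (ln (psi g y))) ≤ Real.log (nm (ln (psi a y))) + 2 * Real.log Y -
        Real.log (nm g) := by
  obtain ⟨k1, k2, k3, k4, k5⟩ := gp_spec y.1 ha
  obtain ⟨m1, m2, m3, m4, m5⟩ := gp_spec y.1 hg
  have ha0 := one_le_nmR ha
  have hg0 := one_le_nmR hg
  have h1 := log_ln_psi ha h
  have h2 := log_ln_psi hg h
  have p2 : (nm (gp y.1 a) : ℝ) ≤ nm a := by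
    exact_mod_cast Div277.nm_le_of_dvd ha.ne_zero ⟨_, k4⟩
  have p3 : (nm (gp y.1 g) : ℝ) ≤ nm g := by
    exact_mod_cast Div277.nm_le_of_dvd hg.ne_zero ⟨_, m4⟩
  have q2 := Real.log_le_log (by linarith [one_le_nmR k1]) p2
  have q3 := Real.log_le_log (by linarith [one_le_nmR m1]) p3
  have r2 := Real.log_nonneg (one_le_nmR k1)
  have r3 := Real.log_nonneg (one_le_nmR m1)
  have r4 := Real.log_nonneg ha0
  have r5 := Real.log_nonneg hg0
  have h3 : Real.log (nm g) + Real.log (nm a) ≤ Real.log Y := by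
    rw [← Real.log_mul (by linarith) (by linarith)]
    exact Real.log_le_log (by nlinarith) hga
  constructor <;> linarith

lemma sum_I {g : Eis} {M n : ℕ} {Y u : ℝ} (h0 : 0 ≤ u) (hM : u + Real.log 2 ≤ Real.log 2 * M)
    (h1 : Real.log 2 * n - Real.log Y - Real.log (nm g) - Real.log 2 ≤ u)
    (h2 : u ≤ Real.log 2 * n + 2 * Real.log Y - Real.log (nm g)) :
    ∑ i ∈ I1z g M n Y, wD i u = 1 := by
  classical
  rw [← sum_wD h0 hM]
  unfold I1z
  refine sum_subset (filter_subset _ _) fun i hi hn => ?_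
  by_contra hne
  have h3 := abs_le.mp (wD_ne hne)
  have hl := Real.log_pos (by norm_num : (1 : ℝ) < 2)
  apply hn
  rw [mem_filter]
  exact ⟨hi, by linarith, by linarith⟩

lemma sum_I2 {g : Eis} {M n : ℕ} {Y u : ℝ} (h0 : 0 ≤ u) (hM : u + Real.log 2 ≤ Real.log 2 * M)
    (h2 : u ≤ Real.log 2 * n + 2 * Real.log Y - Real.log (nm g)) :
    ∑ i ∈ I2z g M n Y, wD i u = 1 := by
  classical
  rw [← sum_wD h0 hM]
  unfold I2z
  refine sum_subset (filter_subset _ _) fun i hi hn => ?_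
  by_contra hne
  have h3 := abs_le.mp (wD_ne hne)
  have hl := Real.log_pos (by norm_num : (1 : ℝ) < 2)
  apply hn
  rw [mem_filter]
  exact ⟨hi, by linarith⟩

lemma lD_splitz {M n : ℕ} {Y : ℝ} {g a : Eis} (hg : IsPrim g) (ha : IsPrim a)
    (hga : (nm g : ℝ) * nm a ≤ Y) {y : Eis × Eis} (h : ln y ≠ 0)
    (hM : Real.log 2 * n + 2 * Real.log Y + Real.log 2 ≤ Real.log 2 * M) :
    oD (range n) (ln (psi a y)) - oD (range n) (ln (psi g y)) =
      lD (I1z g M n Y) (ln (psi g y)) *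
        (oD (range n) (ln (psi a y)) - oD (range n) (ln (psi g y))) := by
  by_cases heq : oD (range n) (ln (psi a y)) = oD (range n) (ln (psi g y))
  · rw [heq, sub_self, mul_zero]
  obtain ⟨a1, a2⟩ := lev hg ha hga h
  have hg0 := one_le_nmR hg
  have ha0 := one_le_nmR ha
  have r5 := Real.log_nonneg hg0
  have hl := Real.log_pos (by norm_num : (1 : ℝ) < 2)
  have h3 : Real.log (nm g) ≤ Real.log Y := Real.log_le_log (by linarith) (by nlinarith)
  have hup : Real.log (nm (ln (psi g y))) ≤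
      Real.log 2 * n + 2 * Real.log Y - Real.log (nm g) := by
    by_contra hc
    push Not at hc
    exact heq (by rw [oD_zero (by linarith), oD_zero (by linarith)])
  have hlo : Real.log 2 * n - Real.log Y - Real.log (nm g) - Real.log 2 ≤
      Real.log (nm (ln (psi g y))) := by
    by_contra hc
    push Not at hc
    exact heq (by rw [oD_one (by linarith), oD_one (by linarith)])
  have h1 : lD (I1z g M n Y) (ln (psi g y)) = 1 := by
    unfold lD
    rw [← Complex.ofReal_one, ← sum_I (log_nm_nonneg _) (by linarith) hlo hup,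
      ← Complex.ofReal_sum]
  rw [h1, one_mul]

lemma lD_splitz2 {M n : ℕ} {Y : ℝ} {g a : Eis} (hg : IsPrim g) (ha : IsPrim a)
    (hga : (nm g : ℝ) * nm a ≤ Y) {y : Eis × Eis} (h : ln y ≠ 0)
    (hM : Real.log 2 * n + 2 * Real.log Y + Real.log 2 ≤ Real.log 2 * M) :
    oD (range n) (ln (psi a y)) =
      lD (I2z g M n Y) (ln (psi g y)) * oD (range n) (ln (psi a y)) := by
  by_cases heq : oD (range n) (ln (psi a y)) = 0
  · rw [heq, mul_zero]
  obtain ⟨a1, a2⟩ := lev hg ha hga h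
  have hg0 := one_le_nmR hg
  have ha0 := one_le_nmR ha
  have r5 := Real.log_nonneg hg0
  have hl := Real.log_pos (by norm_num : (1 : ℝ) < 2)
  have hup : Real.log (nm (ln (psi g y))) ≤
      Real.log 2 * n + 2 * Real.log Y - Real.log (nm g) := by
    by_contra hc
    push Not at hc
    exact heq (oD_zero (by linarith))
  have h1 : lD (I2z g M n Y) (ln (psi g y)) = 1 := by
    unfold lD
    rw [← Complex.ofReal_one, ← sum_I2 (log_nm_nonneg _) (by linarith) hup,
      ← Complex.ofReal_sum]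
  rw [h1, one_mul]

/-- **the coefficient of the difference for the plateau weight** -/
lemma Tm_eqz {E0 Y : ℝ} (hY : 0 ≤ Y) {n M : ℕ} {η α : Eis → ℂ}
    (hη : ∀ n, η n ≠ 0 → (nm n : ℝ) ≤ Y) {g : Eis}
    (hg : IsPrim g) {d e j : Eis} (hd : IsPrim d) (hj : JC j)
    (hM : Real.log 2 * n + 2 * Real.log Y + Real.log 2 ≤ Real.log 2 * M) :
    Tm E0 Y (oD (range n)) η α g d e j = Tz (g1 E0) id Y (I1z g M n Y) (range n) η α g d e j -
      Tz (g1 E0) (fun _ => g) Y (I1z g M n Y) (range n) η α g d e j +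
      Tz (g2 E0) id Y (I2z g M n Y) (range n) η α g d e j := by
  have hln : ln (d, j) ≠ 0 := ln_ne (y := (d, j)) hd hj
  unfold Tm Tz
  rw [← sum_sub_distrib, ← sum_add_distrib]
  refine sum_congr rfl fun a ha => ?_
  rw [← mul_sub, ← mul_add]
  by_cases h0 : η (g * a) = 0
  · rw [h0, zero_mul, zero_mul]
  have hap : IsPrim a := ((mem_S hY).1 ha).2.1
  have hga : (nm g : ℝ) * nm a ≤ Y := by
    have := hη _ h0
    rw [nm_mul] at this
    exact_mod_cast this
  congr 1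
  rw [← sub_mul, ← add_mul]
  congr 1
  have h1 := lD_splitz (M := M) (n := n) hg hap hga hln hM
  have h2 := lD_splitz2 (M := M) (n := n) hg hap hga hln hM
  unfold g1 g2
  simp only [id]
  by_cases h5 : (nm e : ℝ) ≤ E0
  · have h6 : (nm (e / gp e a) : ℝ) ≤ E0 := by
      refine le_trans ?_ h5
      obtain ⟨k1, k2, k3, k4, k5⟩ := gp_spec e hap
      have h7 : (nm e : ℝ) = nm (gp e a) * nm (e / gp e a) := by
        conv_lhs => rw [k3]
        rw [nm_mul]; push_cast; ring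
      rw [h7]
      exact le_mul_of_one_le_left (Nat.cast_nonneg _) (one_le_nmR k1)
    rw [if_pos h5, if_pos h6, if_neg (fun h => h.1 h5)]
    linear_combination h1
  · by_cases h6 : (nm (e / gp e a) : ℝ) ≤ E0
    · rw [if_neg h5, if_pos h6, if_pos ⟨h5, h6⟩]
      linear_combination h2
    · rw [if_neg h5, if_neg h6, if_neg (fun h => h6 h.2)]; ring

/-- **the mismatch**: mean squares, level weights removed. -/
theorem mismz {A : ℕ} (hA : 2 ≤ A) : ∃ C : ℝ, 0 ≤ C ∧ ∀ (JJ : Finset (Eis × Eis)), OKJ JJ →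
    ∀ (M n : ℕ) (Y E0 E' : ℝ), 0 ≤ Y →
    Real.log 2 * n + 2 * Real.log Y + Real.log 2 ≤ Real.log 2 * M → ∀ (η α : Eis → ℂ),
    (∀ n, η n ≠ 0 → (nm n : ℝ) ≤ Y) → FS α → ∀ g, IsPrim g →
    ∀ (K : Finset Eis) (W : Eis → ℝ), (∀ k ∈ K, 0 ≤ W k) →
    ∑ k ∈ K, W k * ‖SteT JJ (fun _ => 1) E' (Tm E0 Y (oD (range n)) η α g) k‖ ^ 2 ≤
      C * (M * (n : ℝ) ^ 2) * (
        (∑ i ∈ I1z g M n Y, ∫ s, ew A 2 s * ∑ k ∈ K, W k *
          ‖SteT JJ (omz g i s) E' (T3 (afa (g1 E0) id Y η α g s)) k‖ ^ 2) +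
        (∑ i ∈ I1z g M n Y, ∫ s, ew A 2 s * ∑ k ∈ K, W k *
          ‖SteT JJ (omz g i s) E' (T3 (afa (g1 E0) (fun _ => g) Y η α g s)) k‖ ^ 2) +
        (∑ i ∈ I2z g M n Y, ∫ s, ew A 2 s * ∑ k ∈ K, W k *
          ‖SteT JJ (omz g i s) E' (T3 (afa (g2 E0) id Y η α g s)) k‖ ^ 2)) := by
  obtain ⟨C, hC, H⟩ := SteT_winz hA
  refine ⟨3 * C, by positivity, ?_⟩
  intro JJ hJ M n Y E0 E' hY hM η α hη hα g hg K W hW
  have hid : ∀ a ∈ S Y, IsPrim (id a) := fun a ha => ((mem_S hY).1 ha).2.1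
  have b1 := H JJ hJ Y E' hY (g1 E0) id hid η α hα g (I1z g M n Y) (range n) K W hW
  have b2 := H JJ hJ Y E' hY (g1 E0) (fun _ => g) (fun _ _ => hg) η α hα g (I1z g M n Y) (range n)
    K W hW
  have b3 := H JJ hJ Y E' hY (g2 E0) id hid η α hα g (I2z g M n Y) (range n) K W hW
  have e1 : ∀ k, SteT JJ (fun _ => 1) E' (Tm E0 Y (oD (range n)) η α g) k =
      SteT JJ (fun _ => 1) E' (Tz (g1 E0) id Y (I1z g M n Y) (range n) η α g) k -
      SteT JJ (fun _ => 1) E' (Tz (g1 E0) (fun _ => g) Y (I1z g M n Y) (range n) η α g) k +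
      SteT JJ (fun _ => 1) E' (Tz (g2 E0) id Y (I2z g M n Y) (range n) η α g) k := by
    intro k
    rw [← SteT_lin]
    exact SteT_congr _ (fun y hy e => Tm_eqz hY hη hg (hJ.prim y hy) (hJ.jc y hy) hM) k
  have e2 : ∀ k ∈ K, W k * ‖SteT JJ (fun _ => 1) E' (Tm E0 Y (oD (range n)) η α g) k‖ ^ 2 ≤
      3 * (W k * ‖SteT JJ (fun _ => 1) E' (Tz (g1 E0) id Y (I1z g M n Y) (range n) η α g) k‖ ^ 2 +
        W k * ‖SteT JJ (fun _ => 1) E'
          (Tz (g1 E0) (fun _ => g) Y (I1z g M n Y) (range n) η α g) k‖ ^ 2 +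
        W k * ‖SteT JJ (fun _ => 1) E'
          (Tz (g2 E0) id Y (I2z g M n Y) (range n) η α g) k‖ ^ 2) := by
    intro k hk
    rw [e1 k, ← mul_add, ← mul_add, mul_left_comm]
    refine mul_le_mul_of_nonneg_left ?_ (hW k hk)
    set x := SteT JJ (fun _ => 1) E' (Tz (g1 E0) id Y (I1z g M n Y) (range n) η α g) k
    set y := SteT JJ (fun _ => 1) E' (Tz (g1 E0) (fun _ => g) Y (I1z g M n Y) (range n) η α g) k
    set z := SteT JJ (fun _ => 1) E' (Tz (g2 E0) id Y (I2z g M n Y) (range n) η α g) k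
    have h1 : ‖x - y + z‖ ≤ ‖x‖ + ‖y‖ + ‖z‖ :=
      (norm_add_le _ _).trans (by linarith [norm_sub_le x y])
    have h2 := pow_le_pow_left₀ (norm_nonneg _) h1 2
    nlinarith [sq_nonneg (‖x‖ - ‖y‖), sq_nonneg (‖y‖ - ‖z‖), sq_nonneg (‖x‖ - ‖z‖)]
  have hI : ∀ q : Eis → Eis, ∀ gt : Eis → Eis → ℂ, ∀ i : ℕ, 0 ≤ ∫ s, ew A 2 s * ∑ k ∈ K, W k *
      ‖SteT JJ (omz g i s) E' (T3 (afa gt q Y η α g s)) k‖ ^ 2 := fun q gt i =>
    integral_nonneg fun s => mul_nonneg (ew_nonneg (by norm_num) s)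
      (sum_nonneg fun k hk => mul_nonneg (hW k hk) (by positivity))
  have c1 : ((I1z g M n Y).card : ℝ) ≤ M := by
    have : (I1z g M n Y).card ≤ (range M).card := card_le_card (filter_subset _ _)
    rw [card_range] at this
    exact_mod_cast this
  have c2 : ((I2z g M n Y).card : ℝ) ≤ M := by
    have : (I2z g M n Y).card ≤ (range M).card := card_le_card (filter_subset _ _)
    rw [card_range] at this
    exact_mod_cast this
  have mono : ∀ {x y R : ℝ}, x ≤ y → 0 ≤ R → C * (x * ((range n).card : ℝ) ^ 2) * R ≤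
      C * (y * (n : ℝ) ^ 2) * R := by
    intro x y R hxy hR
    rw [card_range]
    refine mul_le_mul_of_nonneg_right (mul_le_mul_of_nonneg_left ?_ hC) hR
    exact mul_le_mul_of_nonneg_right hxy (by positivity)
  have d1 := b1.trans (mono c1 (sum_nonneg fun i _ => hI _ _ i))
  have d2 := b2.trans (mono c1 (sum_nonneg fun i _ => hI _ _ i))
  have d3 := b3.trans (mono c2 (sum_nonneg fun i _ => hI _ _ i))
  refine (sum_le_sum e2).trans ?_
  rw [← mul_sum, sum_add_distrib, sum_add_distrib]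
  nlinarith [d1, d2, d3]

end Crest.Agent.R017.StG828
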