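import Crest.Agent.R017.StH_828

/-!
# Row 17, R8/P1: the mismatch in reduced coordinates, part 3 (helper828)

* `aok_id`, `aok_g` : the coefficients are admissible
* `Tm_big` : enlargement of the window
* `afr`, `omp` : the reduced coefficient with `N(d)^{2is}`, the reduced weight with `N(j)^{is}`
* **`mism2`** : the mismatch by the reduced structured functions
-/

set_option autoImplicit false

noncomputable section

open Finset MeasureTheory
open scoped ComplexConjugate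

namespace Crest.Agent.R017.StG828

open Crest.Agent.R012 Crest.Agent.R012.Eis Crest.Agent.R012.Div277
open Crest.Agent.R012.Mob705 hiding pb mem_pb
open Crest.Agent.R012.Gauss880
open Crest.Agent.R012.LS2 (S mem_S)
open Crest.Agent.R012.Weight600 (osc norm_osc pw norm_pw)
open Crest.Agent.R017.CM106 Crest.Agent.R017.PX764 Crest.Agent.R017.C70
open Crest.Agent.R017.StA828 Crest.Agent.R017.StB828 Crest.Agent.R017.StC828
open Crest.Agent.R017.StD828 Crest.Agent.R017.StE828 Crest.Agent.R017.StF828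
open Crest.Agent.R017.GrT828
open Crest.Agent.R017.E2440 (TE StE)
open Crest.Agent.R017.E3A164 (SteT)
open Crest.Agent.R017.Win813

/-- primary squarefree support -/
def PSu (α : Eis → ℂ) : Prop := ∀ n, α n ≠ 0 → IsPrim n ∧ Squarefree n

lemma afa_dat {gt : Eis → Eis → ℂ} {q : Eis → Eis} {Y : ℝ} (hY : 0 ≤ Y) {η α : Eis → ℂ}
    (hα : PSu α) {g : Eis} {s : ℝ} {e d m : Eis} (h : afa gt q Y η α g s e d m ≠ 0) :
    g ∣ d * m ∧ IsPrim (d * m) ∧ Squarefree (d * m) := by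
  rw [afa_eq] at h
  obtain ⟨a, n, ha, h1, h2, h3, h4, h5⟩ := afW_ne hY h
  obtain ⟨a1, a2, a3⟩ := (mem_S hY).1 ha
  obtain ⟨n1, n2⟩ := hα n h2
  rw [h4]
  exact ⟨h3.mul_left a, a2.mul n1, (sqf_mul h5).2 ⟨a3, n2⟩⟩

lemma gp_cop_left {l T a : Eis} (ha : IsPrim a) (h : IsCoprime T a) :
    gp (T * l) a = gp l a := by
  obtain ⟨h1, h2, h3, h4, h5⟩ := gp_spec l ha
  refine gp_eq (l₁ := T * (l / gp l a)) (u₁ := a / gp l a) ha h1 ?_ h4 ?_
  · conv_lhs => rw [h3]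
    ring
  · refine IsCoprime.mul_left ?_ h5
    exact h.of_isCoprime_of_dvd_right ⟨gp l a, by rw [mul_comm]; exact h4⟩

lemma aok_id {gt : Eis → Eis → ℂ} {Y : ℝ} (hY : 0 ≤ Y) {η α : Eis → ℂ}
    (hα : PSu α) {g : Eis} (hg : IsPrim g) (s : ℝ) : AOK g (afa gt id Y η α g s) where
  dvd e d m h := (afa_dat hY hα h).1
  prim e d m h := (afa_dat hY hα h).2
  cov h T hh hT hd := by
    refine ⟨1, by simp, fun e δ m hδ => ?_⟩
    rw [one_mul]
    unfold afa
    refine sum_congr rfl fun a ha => ?_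
    have hap : IsPrim a := ((mem_S hY).1 ha).2.1
    have e1 : h * T * δ * m = h * δ * (T * m) := by ring
    rw [e1]
    by_cases h0 : xa a (rs g α) (h * δ * (T * m)) = 0
    · rw [h0, mul_zero, mul_zero]
    obtain ⟨n, n1, n2, n3⟩ := xa_ne hap.ne_zero h0
    obtain ⟨n4, n5⟩ := rs_ne n3
    have hag : IsCoprime a g := n2.of_isCoprime_of_dvd_right n4
    have hTa : IsCoprime T a := hag.symm.of_isCoprime_of_dvd_left ((dvd_mul_left T h).trans hd)
    have e2 : gp (h * T * δ) (id a) = gp (h * δ) (id a) := by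
      rw [show h * T * δ = T * (h * δ) by ring]
      exact gp_cop_left hap hTa
    rw [e2]

lemma aok_g {gt : Eis → Eis → ℂ} {Y : ℝ} (hY : 0 ≤ Y) {η α : Eis → ℂ}
    (hα : PSu α) {g : Eis} (hg : IsPrim g) (s : ℝ) :
    AOK g (afa gt (fun _ => g) Y η α g s) where
  dvd e d m h := (afa_dat hY hα h).1
  prim e d m h := (afa_dat hY hα h).2
  cov h T hh hT hd := by
    refine ⟨pw (-3 * s) (nm T), (norm_pw _ _).le, fun e δ m hδ => ?_⟩
    unfold afa
    rw [mul_sum]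
    refine sum_congr rfl fun a ha => ?_
    have e1 : h * T * δ * m = h * δ * (T * m) := by ring
    rw [e1]
    have e2 : gp (h * T * δ) g = h * T := gp_of_mul hg hh hT hd hδ
    have e3 : gp (h * δ) g = h := by
      have h1 := gp_of_mul hg hh isPrim_one (by rw [mul_one]; exact (dvd_mul_right h T).trans hd) hδ
      rwa [mul_one] at h1
    have e4 : pw (-3 * s) (nm (h * T)) = pw (-3 * s) (nm h) * pw (-3 * s) (nm T) :=
      pw_mul' hh hT
    rw [e2, e3, e4]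
    ring

/-! ### windows -/

open Classical in
lemma SteT_shrink {D D' : ℝ} (hD' : 0 ≤ D') (hDD : D' ≤ D) {om : Eis × Eis → ℂ} {E' : ℝ}
    {T : Eis → Eis → Eis → ℂ} (h : ∀ y ∈ JB D, D' ^ 2 < nm (ln y) →
      om y * ∑ e ∈ S E', ‖T y.1 e y.2‖ = 0) (k : Eis) :
    SteT (JB D) om E' T k = SteT (JB D') om E' T k := by
  have hD : 0 ≤ D := hD'.trans hDD
  unfold SteT
  symm
  refine sum_subset ?_ ?_
  · intro x hx
    obtain ⟨x1, x2, x3, x4⟩ := (mem_JB hD').1 hx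
    exact (mem_JB hD).2 ⟨x1, x2, x3, x4.trans (pow_le_pow_left₀ hD' hDD 2)⟩
  · intro y hy hn
    obtain ⟨y1, y2, y3, y4⟩ := (mem_JB hD).1 hy
    have h1 : D' ^ 2 < nm (ln y) := by
      by_contra hc
      exact hn ((mem_JB hD').2 ⟨y1, y2, y3, not_lt.1 hc⟩)
    rcases mul_eq_zero.1 (h y hy h1) with h2 | h2
    · rw [h2, zero_mul]
    · have h3 : ∀ e ∈ S E', T y.1 e y.2 = 0 := by
        intro e he
        have h4 : (∑ e ∈ S E', ‖T y.1 e y.2‖ : ℝ) = 0 := by exact_mod_cast h2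
        have h5 := (sum_eq_zero_iff_of_nonneg (fun e _ => norm_nonneg (T y.1 e y.2))).1 h4 e he
        exact norm_eq_zero.1 h5
      have h6 : ∑ e ∈ (S E').filter (fun e => e ∣ k), (muE e : ℂ) * T y.1 e y.2 = 0 := by
        refine Finset.sum_eq_zero fun e he => ?_
        rw [h3 e (mem_filter.1 he).1, mul_zero]
      rw [h6]; ring

/-- **enlargement of the window** -/
lemma Tm_big {D D₀ Y : ℝ} (hD₀ : 0 ≤ D₀) (hDD : D₀ ≤ D) (hY : 1 ≤ Y) {n : ℕ}
    (hn : Real.exp (Real.log 2 * n) * Y ^ 2 ≤ D₀ ^ 2) {E0 E' : ℝ} {η α : Eis → ℂ} {g : Eis}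
    (hg : g ∈ S Y) (k : Eis) :
    SteT (JB D₀) (fun _ => 1) E' (Tm E0 Y (oD (range n)) η α g) k =
      SteT (JB D) (fun _ => 1) E' (Tm E0 Y (oD (range n)) η α g) k := by
  have hY0 : 0 ≤ Y := by linarith
  symm
  refine SteT_shrink hD₀ hDD (fun y hy hl => ?_) k
  obtain ⟨y1, y2, y3, y4⟩ := (mem_JB (hD₀.trans hDD)).1 hy
  have hln : ln y ≠ 0 := ln_ne y1 y3
  have h1 : Real.log 2 * n + 2 * Real.log Y ≤ Real.log (nm (ln y)) := by
    have h2 := (hn.trans hl.le)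
    have h3 := Real.log_le_log (by positivity) h2
    rw [Real.log_mul (Real.exp_pos _).ne' (by positivity), Real.log_exp, Real.log_pow] at h3
    push_cast at h3
    exact h3
  have hz : ∀ a ∈ S Y, oD (range n) (ln (psi a y)) = 0 := by
    intro a ha
    have h4 := (log_bounds hY0 ha hln).1
    exact oD_zero (by linarith)
  have h5 : ∀ e, Tm E0 Y (oD (range n)) η α g y.1 e y.2 = 0 := by
    intro e
    unfold Tm
    refine Finset.sum_eq_zero fun a ha => ?_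
    rw [hz a ha, hz g hg]
    simp
  simp [h5]

/-- the reduced coefficient -/
def afr (gt : Eis → Eis → ℂ) (q : Eis → Eis) (Y : ℝ) (η α : Eis → ℂ) (g h : Eis) (s : ℝ)
    (e d m : Eis) : ℂ := pw (2 * s) (nm d) * afd (afa gt q Y η α g s) g h e d m

/-- the reduced weight -/
def omp (c : Eis) (i : ℕ) (s : ℝ) (x : Eis × Eis) : ℂ :=
  ((wD i (Real.log (nm (c * ln x))) : ℝ) : ℂ) * pw s (nm x.2)

lemma SteT_omp {gt : Eis → Eis → ℂ} {q : Eis → Eis} {Y : ℝ} {η α : Eis → ℂ} {g h : Eis} {D : ℝ}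
    (hD : 0 ≤ D) (i : ℕ) (s E' : ℝ) (k : Eis) :
    SteT (JB D) (omr g h i s) E' (T3 (afd (afa gt q Y η α g s) g h)) k =
      SteT (JB D) (omp (g / h) i s) E' (T3 (afr gt q Y η α g h s)) k := by
  classical
  unfold SteT
  refine sum_congr rfl fun x hx => ?_
  obtain ⟨x1, x2, x3, x4⟩ := (mem_JB hD).1 hx
  have e1 : ∀ e, T3 (afr gt q Y η α g h s) x.1 e x.2 =
      pw (2 * s) (nm x.1) * T3 (afd (afa gt q Y η α g s) g h) x.1 e x.2 := by
    intro e
    unfold T3 afr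
    rw [← tsum_mul_left]
    refine tsum_congr fun m => ?_
    split_ifs
    · ring
    · rw [mul_zero]
  have e2 : pw s (nm (ln x)) = pw s (nm x.2) * pw (2 * s) (nm x.1) := by
    have h1 : (nm x.1 : ℝ) ≠ 0 := by exact_mod_cast (nm_pos.2 x1.ne_zero).ne'
    have h2 : (nm x.2 : ℝ) ≠ 0 := by exact_mod_cast (nm_pos.2 (JC_ne_zero x3)).ne'
    unfold ln
    rw [nm_mul, nm_pow]
    push_cast
    unfold pw osc
    rw [← Complex.exp_add, Real.log_mul h2 (pow_ne_zero 2 h1), Real.log_pow]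
    congr 1
    push_cast
    ring
  have e3 : ∑ e ∈ (S E').filter (fun e => e ∣ k), (muE e : ℂ) *
      T3 (afr gt q Y η α g h s) x.1 e x.2 = pw (2 * s) (nm x.1) *
      ∑ e ∈ (S E').filter (fun e => e ∣ k), (muE e : ℂ) *
        T3 (afd (afa gt q Y η α g s) g h) x.1 e x.2 := by
    rw [mul_sum]
    refine sum_congr rfl fun e _ => ?_
    rw [e1]; ring
  unfold omr omp
  rw [e2, e3]
  ring

lemma SteT_level {T : Eis → Eis → Eis → ℂ} {c : Eis} (hc : c ≠ 0) {D D' : ℝ}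
    (hD' : 0 ≤ D') (hDD : D' ≤ D) {i : ℕ}
    (hi : Real.exp (Real.log 2 * (i + 1)) ≤ nm c * D' ^ 2) (s E' : ℝ) (k : Eis) :
    SteT (JB D) (omp c i s) E' T k = SteT (JB D') (omp c i s) E' T k := by
  refine SteT_shrink hD' hDD (fun y hy hl => ?_) k
  obtain ⟨y1, y2, y3, y4⟩ := (mem_JB (hD'.trans hDD)).1 hy
  have hln : ln y ≠ 0 := ln_ne y1 y3
  have h1 : omp c i s y = 0 := by
    by_contra h0
    have h2 : wD i (Real.log (nm (c * ln y))) ≠ 0 := by
      intro h3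
      apply h0
      unfold omp
      rw [h3]; simp
    have h3 := wD_top (mul_ne_zero hc hln) h2
    rw [nm_mul] at h3
    push_cast at h3
    have hc0 : (0 : ℝ) < nm c := by exact_mod_cast nm_pos.2 hc
    have h4 : (nm c : ℝ) * D' ^ 2 < nm c * nm (ln y) := mul_lt_mul_of_pos_left hl hc0
    linarith
  rw [h1, zero_mul]

/-- the three types of terms -/
def gtc (E0 : ℝ) : Fin 3 → Eis → Eis → ℂ := ![g1 E0, g1 E0, g2 E0]

/-- the three types of terms -/
def qc (g : Eis) : Fin 3 → Eis → Eis := ![id, fun _ => g, id]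

/-- the three types of terms -/
def Ic (g : Eis) (M n : ℕ) (Y : ℝ) : Fin 3 → Finset ℕ := ![I1z g M n Y, I1z g M n Y, I2z g M n Y]

lemma sum3_sq {ι : Type*} (s : Finset ι) (f : ι → ℝ) : (∑ i ∈ s, f i) ^ 2 ≤
    s.card * ∑ i ∈ s, f i ^ 2 := sq_sum_le_card_mul_sum_sq

/-- one type of terms -/
lemma one_type {gt : Eis → Eis → ℂ} {q : Eis → Eis} {Y : ℝ} (hY : 1 ≤ Y) {η α : Eis → ℂ}
    {g : Eis} (hg : g ∈ S Y) (ha : ∀ s, AOK g (afa gt q Y η α g s)) {J M : ℕ} {D E' : ℝ}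
    (hD : 0 ≤ D) (hDM : Real.exp (Real.log 2 * (M + 1)) * Y ^ 3 ≤ D ^ 2)
    {K : Finset Eis} {W : Eis → ℝ} (hW : ∀ k ∈ K, 0 ≤ W k) {Bd : ℝ}
    {I : Finset ℕ} (hI : I ⊆ range M)
    (hB : ∀ i ∈ I, ∀ h ∈ dvs g, ∀ s : ℝ, ∑ k ∈ K, W k *
      ‖SteT (JB D) (omp (g / h) i s) E' (T3 (afr gt q Y η α g h s)) k‖ ^ 2 ≤
        Bd * (1 + |s|) ^ J) :
    ∑ i ∈ I, ∫ s, ew (J + 2) 2 s * ∑ k ∈ K, W k *
      ‖SteT (JB D) (omz g i s) E' (T3 (afa gt q Y η α g s)) k‖ ^ 2 ≤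
      I.card * ((tau g : ℝ) ^ 4 * Bd * iA 2) := by
  have hY0 : 0 ≤ Y := by linarith
  obtain ⟨g1, g2, g3⟩ := (mem_S hY0).1 hg
  rw [← nsmul_eq_mul]
  refine sum_le_card_nsmul _ _ _ fun i hi => ?_
  have hiM : (i : ℝ) + 1 ≤ M + 1 := by
    have := mem_range.1 (hI hi)
    have h2 : (i : ℝ) < M := by exact_mod_cast this
    linarith
  have hl := Real.log_pos (by norm_num : (1 : ℝ) < 2)
  have hiD : Real.exp (Real.log 2 * (i + 1)) * (nm g : ℝ) ^ 3 ≤ D ^ 2 := by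
    refine le_trans ?_ hDM
    refine mul_le_mul (Real.exp_le_exp.2 (mul_le_mul_of_nonneg_left hiM hl.le))
      (pow_le_pow_left₀ (Nat.cast_nonneg _) g1 3) (by positivity) (Real.exp_pos _).le
  have hcard : ((dvs g).card : ℝ) = tau g := rfl
  have htau : (1 : ℝ) ≤ tau g := by
    have : 0 < tau g := Finset.card_pos.mpr ⟨1, one_mem_dvs g2.ne_zero⟩
    exact_mod_cast this
  have hBd : 0 ≤ Bd := by
    have h1 := hB i hi 1 (one_mem_dvs g2.ne_zero) 0
    rw [abs_zero, add_zero, one_pow, mul_one] at h1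
    exact le_trans (sum_nonneg fun k hk => mul_nonneg (hW k hk) (by positivity)) h1
  have key : ∀ s : ℝ, ∑ k ∈ K, W k *
      ‖SteT (JB D) (omz g i s) E' (T3 (afa gt q Y η α g s)) k‖ ^ 2 ≤
      (tau g : ℝ) ^ 4 * Bd * (1 + |s|) ^ J := by
    intro s
    have h1 : ∀ k ∈ K, W k * ‖SteT (JB D) (omz g i s) E' (T3 (afa gt q Y η α g s)) k‖ ^ 2 ≤
        (tau g : ℝ) ^ 3 * ∑ h ∈ dvs g, W k *
          ‖SteT (JB D) (omp (g / h) i s) E' (T3 (afr gt q Y η α g h s)) k‖ ^ 2 := by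
      intro k hk
      have h2 := red g2 g3 (ha s) hD hiD s E' k
      have h3 := pow_le_pow_left₀ (norm_nonneg _) h2 2
      simp only [SteT_omp hD] at h3
      rw [mul_pow] at h3
      have h4 := sum3_sq (dvs g) (fun h =>
        ‖SteT (JB D) (omp (g / h) i s) E' (T3 (afr gt q Y η α g h s)) k‖)
      rw [hcard] at h4
      have h5 : ‖SteT (JB D) (omz g i s) E' (T3 (afa gt q Y η α g s)) k‖ ^ 2 ≤
          (tau g : ℝ) ^ 3 * ∑ h ∈ dvs g,
            ‖SteT (JB D) (omp (g / h) i s) E' (T3 (afr gt q Y η α g h s)) k‖ ^ 2 := by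
        refine h3.trans ((mul_le_mul_of_nonneg_left h4 (by positivity)).trans (le_of_eq ?_))
        ring
      refine (mul_le_mul_of_nonneg_left h5 (hW k hk)).trans (le_of_eq ?_)
      rw [mul_left_comm, mul_sum]
    refine (sum_le_sum h1).trans ?_
    rw [← mul_sum, sum_comm]
    have h6 : ∑ h ∈ dvs g, ∑ k ∈ K, W k *
        ‖SteT (JB D) (omp (g / h) i s) E' (T3 (afr gt q Y η α g h s)) k‖ ^ 2 ≤
        (dvs g).card • (Bd * (1 + |s|) ^ J) :=
      sum_le_card_nsmul _ _ _ fun h hh => hB i hi h hh s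
    rw [nsmul_eq_mul, hcard] at h6
    refine (mul_le_mul_of_nonneg_left h6 (by positivity)).trans (le_of_eq ?_)
    ring
  have hint : Integrable fun s : ℝ => ((tau g : ℝ) ^ 4 * Bd) * ew 2 2 s :=
    (integrable_ew le_rfl (by norm_num)).const_mul _
  have h7 : ∫ s, ew (J + 2) 2 s * ∑ k ∈ K, W k *
      ‖SteT (JB D) (omz g i s) E' (T3 (afa gt q Y η α g s)) k‖ ^ 2 ≤
      ∫ s : ℝ, ((tau g : ℝ) ^ 4 * Bd) * ew 2 2 s := by
    refine integral_mono_of_nonneg (Filter.Eventually.of_forall fun s => ?_) hint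
      (Filter.Eventually.of_forall fun s => ?_)
    · exact mul_nonneg (ew_nonneg (by norm_num) s)
        (sum_nonneg fun k hk => mul_nonneg (hW k hk) (by positivity))
    · have h8 := mul_le_mul_of_nonneg_left (key s) (ew_nonneg (A := J + 2) (η := 2) (by norm_num) s)
      refine h8.trans ?_
      have h9 := ew_shift (A := J + 2) (J := J) le_rfl (η := 2) (by norm_num) s 0
      rw [zero_add, abs_zero, mul_zero, add_zero, one_pow, one_mul] at h9
      have h10 : ew (J + 2) 2 s * (1 + |s|) ^ J ≤ ew (J + 2) 2 s * (1 + 2 * |s|) ^ J := by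
        refine mul_le_mul_of_nonneg_left ?_ (ew_nonneg (by norm_num) s)
        exact pow_le_pow_left₀ (by positivity) (by linarith [abs_nonneg s]) J
      calc ew (J + 2) 2 s * ((tau g : ℝ) ^ 4 * Bd * (1 + |s|) ^ J) =
          ((tau g : ℝ) ^ 4 * Bd) * (ew (J + 2) 2 s * (1 + |s|) ^ J) := by ring
        _ ≤ ((tau g : ℝ) ^ 4 * Bd) * ew 2 2 s :=
          mul_le_mul_of_nonneg_left (h10.trans h9) (by positivity)
  refine h7.trans (le_of_eq ?_)
  rw [integral_const_mul, integral_ew 2 (by norm_num)]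

/-- **the mismatch in reduced coordinates** -/
theorem mism2 (J : ℕ) : ∃ C : ℝ, 0 ≤ C ∧ ∀ (M n : ℕ) (Y E0 E' D D₀ : ℝ), 1 ≤ Y → 0 ≤ D₀ →
    D₀ ≤ D → Real.exp (Real.log 2 * n) * Y ^ 2 ≤ D₀ ^ 2 →
    Real.log 2 * n + 2 * Real.log Y + Real.log 2 ≤ Real.log 2 * M →
    Real.exp (Real.log 2 * (M + 1)) * Y ^ 3 ≤ D ^ 2 → ∀ (η α : Eis → ℂ),
    (∀ n, η n ≠ 0 → (nm n : ℝ) ≤ Y) → FS α → PSu α → ∀ g ∈ S Y,
    ∀ (K : Finset Eis) (W : Eis → ℝ), (∀ k ∈ K, 0 ≤ W k) → ∀ Bd : ℝ, 0 ≤ Bd →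
    (∀ c : Fin 3, ∀ i ∈ Ic g M n Y c, ∀ h ∈ dvs g, ∀ s : ℝ, ∑ k ∈ K, W k *
      ‖SteT (JB D) (omp (g / h) i s) E' (T3 (afr (gtc E0 c) (qc g c) Y η α g h s)) k‖ ^ 2 ≤
        Bd * (1 + |s|) ^ J) →
    ∑ k ∈ K, W k * ‖SteT (JB D₀) (fun _ => 1) E' (Tm E0 Y (oD (range n)) η α g) k‖ ^ 2 ≤
      C * (M : ℝ) ^ 2 * (n : ℝ) ^ 2 * (tau g : ℝ) ^ 4 * Bd := by
  obtain ⟨C, hC, H⟩ := mismz (A := J + 2) (by omega)
  have hA2 := iA_nonneg 2
  refine ⟨3 * C * iA 2, by positivity, ?_⟩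
  intro M n Y E0 E' D D₀ hY hD₀ hDD hn hM hDM η α hη hα hα2 g hg K W hW Bd hBd hB
  have hY0 : 0 ≤ Y := by linarith
  have hD : 0 ≤ D := hD₀.trans hDD
  obtain ⟨p1, p2, p3⟩ := (mem_S hY0).1 hg
  have h1 := H (JB D) (okJ_JB D) M n Y E0 E' hY0 hM η α hη hα g p2 K W hW
  have e1 : ∀ k, SteT (JB D₀) (fun _ => 1) E' (Tm E0 Y (oD (range n)) η α g) k =
      SteT (JB D) (fun _ => 1) E' (Tm E0 Y (oD (range n)) η α g) k := fun k =>
    Tm_big hD₀ hDD hY hn hg k
  simp only [e1]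
  refine h1.trans ?_
  have hI1 : I1z g M n Y ⊆ range M := by unfold I1z; exact filter_subset _ _
  have hI2 : I2z g M n Y ⊆ range M := by unfold I2z; exact filter_subset _ _
  have t1 := one_type (gt := g1 E0) (q := id) hY hg (fun s => aok_id hY0 hα2 p2 s) hD hDM hW hI1
    (hB 0)
  have t2 := one_type (gt := g1 E0) (q := fun _ => g) hY hg (fun s => aok_g hY0 hα2 p2 s) hD hDM
    hW hI1 (hB 1)
  have t3 := one_type (gt := g2 E0) (q := id) hY hg (fun s => aok_id hY0 hα2 p2 s) hD hDM hW hI2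
    (hB 2)
  have c1 : ((I1z g M n Y).card : ℝ) ≤ M := by
    have : (I1z g M n Y).card ≤ (range M).card := card_le_card hI1
    rw [card_range] at this
    exact_mod_cast this
  have c2 : ((I2z g M n Y).card : ℝ) ≤ M := by
    have : (I2z g M n Y).card ≤ (range M).card := card_le_card hI2
    rw [card_range] at this
    exact_mod_cast this
  have hX : 0 ≤ (tau g : ℝ) ^ 4 * Bd * iA 2 := by positivity
  have s1 := t1.trans (mul_le_mul_of_nonneg_right c1 hX)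
  have s2 := t2.trans (mul_le_mul_of_nonneg_right c1 hX)
  have s3 := t3.trans (mul_le_mul_of_nonneg_right c2 hX)
  have h5 : 0 ≤ C * (M * (n : ℝ) ^ 2) := by positivity
  refine (mul_le_mul_of_nonneg_left (add_le_add (add_le_add s1 s2) s3) h5).trans (le_of_eq ?_)
  ring

end Crest.Agent.R017.StG828
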