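import Crest.Agent.R017.E4Pu_783
import Crest.Agent.R017.E4JX_372
import Crest.Agent.R017.E4Xh_164
import Crest.Agent.R017.E4Cy_266

/-!
# Row 17, R8 / E4, exceptional class: the low levels of `StrUX` (helper783)

* **`strBandX_of_JPUX`** : the band of `e0` of the low levels from helper372's `JPUX` and
  helper939's `TSUXe` alone
-/

set_option autoImplicit false
set_option linter.unusedVariables false

noncomputable section

open Finset Complex
open scoped ComplexConjugate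

namespace Crest.Agent.R017.StrLX783

open Crest.Agent.R012 Crest.Agent.R012.Eis
open Crest.Agent.R012.LS2 (S mem_S)
open Crest.Agent.R017.C70 (OKJ)
open Crest.Agent.R017.E5B71
open Crest.Agent.R017.B770
open Crest.Agent.R017.FE47 (PU)
open Crest.Agent.R017.Prov71
open Crest.Agent.R017.E5L770
open Crest.Agent.R017.E5LX770 (SfEV SfE SqLX nLX_le midE_lev)
open Crest.Agent.R017.ExP960 hiding alX
open Crest.Agent.R017.E4D164 hiding E4L
open Crest.Agent.R017.E4U164 hiding E4L_smul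
open Crest.Agent.R017.E4Df372
open Crest.Agent.R017.E4Us512 (szUX)
open Crest.Agent.R017.MnU939 (TSUXe mnUX_of_TSUXe)
open Crest.Agent.R017.E4Pn783 (prUX_of_TSUXe)
open Crest.Agent.R017.E4X164 (strBandX_of_JBUX SqBandX)

variable {Λ : Type*}

/-- **the band of `e0` of the low levels of `StrUX`** from `JPUX` and `TSUXe` -/
theorem strBandX_of_JPUX {π : Λ → DPar} {h : ℝ → ℝ} {c A d β μ lo e0 r : ℝ} (hh : PU h c)
    (hP : ∀ lam, (π lam).OK) (hl3 : ∀ lam, ¬ (π lam).CaseD → (π lam).l₃ = 0)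
    (hA : 19 / 20 ≤ A) (hA1 : A ≤ 1) (hAd : 16 * (1 - A) ≤ d) (hd : 0 < d) (hd1 : d ≤ 9 / 200)
    (he0 : 0 ≤ e0) (he1 : e0 ≤ 1 / 8) (hμ : lo / 2 + μ ≤ 4 / 9 * d)
    {Bf : ℕ → ℝ → ℝ → ℝ → ℝ}
    (hBf : ∀ i l N z, 0 ≤ l → 0 ≤ z → 2 * Bf i l N z ≤
      min (2 * N - l) (3 / 4 * N) + 9 / 4 * z - Real.log 2 * i + d / 2 * l)
    {Jf : ℝ → ℝ → ℝ → Finset (Eis × Eis)}
    (hJf : ∀ l N z, OKJ (Jf l N z)) (hT : TSUXe π h A d β lo e0 r Bf Jf)
    (HJ : JPUX π h (7 / 8 + d) A d β μ e0 r Bf Jf) :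
    UB (lev (Real.log 2) S5X) Dq
      (fun lam a ps => if a.2 < nL a.1.l (a3 a.1.toBd) a.1.z then
        MidX π h (SfEV π h e0 r (Bf a.2) Jf a.2) lam a.1 ps else 0)
      (SqBandX A d β e0) (alL ExP960.alX) fun q => T5 (7 / 8 + d) (prQ (dn q.1, q.2)) - μ := by
  have hA2 : 2 / 3 ≤ A := by linarith
  have HS : SzUX π h A d β e0 r Bf Jf := szUX hh hP d β hA2 e0 r Bf hJf
  exact strBandX_of_JBUX E4X266.e4core7y hP hl3 (bump_of_cs hh.cs) hA2 hd (by linarith) he0 hBf hJf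
    (jbux_of_jpux hP hJf HS HJ)
    (mnUX_of_TSUXe hh hP hA2 hA1 hAd (by linarith) hμ hJf hT)
    (prUX_of_TSUXe hh hP hA (by linarith) he0 he1 (by linarith) hJf hT) HS

end Crest.Agent.R017.StrLX783
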