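import Crest.Agent.R017.VNX_939
import Crest.Agent.R017.D5X_939

/-!
# Row 17, R8 / E4, class E: the T-moment and the m-side from the flat claims (helper939)

* `tsux_FE` : `TSUXe` from 708's flat claims on `D5X`
* `mnUX_FE` : `MnUX` from the flat claims
-/

set_option autoImplicit false
set_option linter.unusedVariables false

noncomputable section

open Set

namespace Crest.Agent.R017.MnU939

open Crest.Agent.R012 Crest.Agent.R012.Eis
open Crest.Agent.R017.FE47 (PU cx SM)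
open Crest.Agent.R017.Prov71
open Crest.Agent.R017.B770
open Crest.Agent.R017.ER911
open Crest.Agent.R017.TM708
open Crest.Agent.R017.TK708
open Crest.Agent.R017.C70 (OKJ)
open Crest.Agent.R017.E5B71 (Bd S5 cκ cu cN cx' cM Sq5 SqD)
open Crest.Agent.R017.E5LX770 (SqLX bfE)
open Crest.Agent.R017.ExP960 hiding alX
open Crest.Agent.R017.E4Df372
open Crest.Agent.R017.VFa436 (b5q)
open Crest.Agent.R017.Red848 (Exc red)
open Crest.Agent.R017.XS0298 (S0K)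
open Crest.Agent.R017.PX764 (Dk)
open Crest.Agent.R017.D5X939 (D5X D5X_compact bP_memX bR_memX)

variable {Λ : Type*} {π : Λ → DPar} {h : ℝ → ℝ} {d : ℝ}

/-- **`TSUXe` from the flat claims of class E** -/
theorem tsux_FE {c₀ : ℝ} (hpu : PU h c₀) (hP : ∀ lam, (π lam).OK) (hE : ∀ lam, Exc (π lam))
    (hA : AllT d (ex Dq fun lam => S0K Dk (red (π lam)) h)) (hd : 0 ≤ d) (hd1 : d ≤ 1 / 10)
    {A : ℝ} (hAd : 16 * (1 - A) ≤ d) {β : ℝ} (hβ : 17 / 100 ≤ β) (hβ1 : β ≤ 22 / 125)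
    (hFE : FE2L (ex Dq fun lam => S0K Dk (red (π lam)) h) D5X fun b => 3 / 4 * d * b 0)
    {e0 : ℝ} (he0 : 0 ≤ e0) (he1 : e0 ≤ 1 / 64) (r : ℝ) {Bf : ℕ → ℝ → ℝ → ℝ → ℝ}
    (hBf : ∀ i l N z, Bf i l N z ≤ bfE (d / 4) i l N z)
    {Jf : ℝ → ℝ → ℝ → Finset (Eis × Eis)} (hJf : ∀ l N z, OKJ (Jf l N z)) :
    TSUXe π h A d β (19 / 24 * d) e0 r Bf Jf := by
  have hD5 : ∀ q ∈ SqD A d, b5q q.1 ∈ D5X := fun q hq =>
    bP_memX hd (by linarith) hAd ⟨q.2, hq⟩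
  -- the loss on the domain of the squares only
  set D : Set (Fin 5 → ℝ) := D5X ∩ {b | b 0 ≤ 1} with hDd
  have hDc : IsCompact D :=
    D5X_compact.inter_right (isClosed_le (continuous_apply 0) continuous_const)
  have hm1 : ∀ q ∈ SqD A d, b5q q.1 ∈ D := fun q hq =>
    ⟨hD5 q hq, (show Sq5 A d q.1 q.2 from hq).κ1⟩
  have hm2 : ∀ q ∈ SqD A d, ∀ Z, β * cκ q.1 ≤ Z → Z ≤ β → b5r q.1 Z ∈ D := fun q hq Z h1 h2 =>
    ⟨bR_memX hd (by linarith) hAd (by linarith) (by linarith) ⟨q.2, hq⟩ h1 h2,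
      (show Sq5 A d q.1 q.2 from hq).κ1⟩
  have hV : VNXE π h A d β (3 / 4 * d) r Bf :=
    vnxe_of hpu hP hE hA hDc (fun b hb => hb.1.1)
      (ℓ := fun b => 3 / 4 * d * b 0) (continuous_const.mul (continuous_apply 0))
      (D5X939.FE2L_mono inter_subset_left hFE) hm1 hm2 (fun b hb => by
        have h1 : b 0 ≤ 1 := hb.2
        have : 3 / 4 * d * b 0 ≤ 3 / 4 * d * 1 := mul_le_mul_of_nonneg_left h1 (by linarith)
        linarith)
  have := tsux_of hpu hd (D5 := D) (fun b hb => hb.1.1) hm1 (β := β) (lo := 3 / 4 * d)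
    (e0 := e0) (r := r) (c := d / 4) (by linarith) (by linarith) (by linarith) he0
    (by linarith) (by linarith) (by linarith) (by linarith) hBf hJf hV
  have e : 3 / 4 * d + d / 24 = 19 / 24 * d := by ring
  rw [e] at this
  exact this

/-- **`MnUX` from the flat claims of class E** -/
theorem mnUX_FE {c₀ : ℝ} (hpu : PU h c₀) (hP : ∀ lam, (π lam).OK) (hE : ∀ lam, Exc (π lam))
    (hA : AllT d (ex Dq fun lam => S0K Dk (red (π lam)) h)) (hd : 0 ≤ d) (hd1 : d ≤ 1 / 10)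
    {A : ℝ} (hAA : 2 / 3 ≤ A) (hA1 : A ≤ 1) (hAd : 16 * (1 - A) ≤ d) {β : ℝ}
    (hβ : 17 / 100 ≤ β) (hβ1 : β ≤ 22 / 125)
    (hFE : FE2L (ex Dq fun lam => S0K Dk (red (π lam)) h) D5X fun b => 3 / 4 * d * b 0)
    {μ : ℝ} (hμ : μ ≤ d / 32) {e0 : ℝ} (he0 : 0 ≤ e0) (he1 : e0 ≤ 1 / 64) (r : ℝ)
    {Bf : ℕ → ℝ → ℝ → ℝ → ℝ}
    (hBf : ∀ i l N z, Bf i l N z ≤ bfE (d / 4) i l N z)
    {Jf : ℝ → ℝ → ℝ → Finset (Eis × Eis)} (hJf : ∀ l N z, OKJ (Jf l N z)) :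
    MnUX π h (7 / 8 + d) A d β μ e0 r Bf Jf :=
  mnUX_of_TSUXe hpu hP hAA hA1 hAd (by linarith) (lo := 19 / 24 * d) (by linarith) hJf
    (tsux_FE hpu hP hE hA hd hd1 hAd hβ hβ1 hFE he0 he1 r hBf hJf)

end Crest.Agent.R017.MnU939
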