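import Crest.Agent.R017.StrWE_372
import Crest.Agent.R017.StrLX_783
import Crest.Agent.R017.E5HX_783
import Crest.Agent.R017.E4SfX_352
import Crest.Agent.R017.TSXF_939

/-!
# Row 17, T.3, `StrUX`: the low half (helper372)

* **`low_ofX`** : the bands `LowDX` of helper783's `strUX_of_bands` from helper918's real
  statements `E4D`, `E4F`, the number `XNumUX` of the `x`-side and the moments `TSUXe`
* `low_ofXO` : the official cuts, `TSUXe` from helper939's `tsux_FE`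
-/

set_option autoImplicit false
set_option linter.unusedSectionVars false

noncomputable section

open Finset Complex
open scoped ComplexConjugate

namespace Crest.Agent.R017.E4Df372

open Crest.Agent.R012 Crest.Agent.R012.Eis
open Crest.Agent.R017.CM106 (FS)
open Crest.Agent.R017.C70 (OKJ)
open Crest.Agent.R017.FE47 (PU SM)
open Crest.Agent.R017.B770
open Crest.Agent.R017.Prov71
open Crest.Agent.R017.ER911 Crest.Agent.R017.ExpC702
open Crest.Agent.R017.E5B71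
open Crest.Agent.R017.E5L770
open Crest.Agent.R017.E5LX770 (bfE SfEV SqLX)
open Crest.Agent.R017.ExP960 hiding alX
open Crest.Agent.R017.E4D164 hiding E4L
open Crest.Agent.R017.E4U164 hiding E4L_smul
open Crest.Agent.R017.E4Us512 (szUX)
open Crest.Agent.R017.Red848 (Exc red)
open Crest.Agent.R017.XS0298 (S0K)
open Crest.Agent.R017.PX764 (Dk)
open Crest.Agent.R017.TK708 (AllT)
open Crest.Agent.R017.TM708 (FE2L)
open Crest.Agent.R017.D5X939 (D5X)
open Crest.Agent.R017.Sf770 (JS okJ_JS)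
open Crest.Agent.R017.Ge918 (E4DE E4FE)
open Crest.Agent.R017.E4Sx352 (termUX_of)
open Crest.Agent.R017.MnU939 (TSUXe tsux_FE)
open Crest.Agent.R017.E4X164 (SqBandX)
open Crest.Agent.R017.StrLX783 (strBandX_of_JPUX)
open Crest.Agent.R017.E5HX783 (LowDX BandDX)
open Crest.Agent.R017.E5H319 (ub_sub)

lemma top5_le_low5 {A d : ℝ} {p : Fin 3 ⊕ Fin 5 → ℝ} {w : Kd → ℝ} (h : Sq5 A d p w) :
    top5 p ≤ low5 p := by
  have := h.x0
  unfold top5 low5
  linarith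

lemma two_bfE (d : ℝ) (i : ℕ) (l N z : ℝ) (hz : 0 ≤ z) : 2 * bfE (d / 4) i l N z ≤
    min (2 * N - l) (3 / 4 * N) + 9 / 4 * z - Real.log 2 * i + d / 2 * l := by
  have h1 : bfE (d / 4) i l N z ≤ (topL l N z - Real.log 2 * i) / 2 + d / 4 * l := min_le_right _ _
  unfold topL at h1
  linarith

section

variable {Λ Λ' : Type*} {π : Λ → DPar} {π' : Λ' → DPar} {h : ℝ → ℝ} {c₀ : ℝ} (hpu : PU h c₀)
  (hP : ∀ lam, (π lam).OK) (hE : ∀ lam, Exc (π lam))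
  (h3 : ∀ lam, ¬ (π lam).CaseD → (π lam).l₃ = 0)
  (hP' : ∀ lam, (π' lam).OK) (hcov : ∀ P : DPar, P.OK → Exc P → ∃ lam, π' lam = P)
  {r s : EF} {A d : ℝ} (R : ExpRules (7 / 8 + d) r s)
  (C : ExpC r (ex Dq (fun lam => Rc (π' lam) h)))

include hpu hP hE h3 hP' hcov R C

/-- **the bands of the low half** -/
theorem low_ofX (HD : E4DE) (HF : E4FE) (hd : 0 < d) (hd1 : d ≤ 9 / 200) (hA : 19 / 20 ≤ A)
    (hA1 : A ≤ 1) (hAd : 16 * (1 - A) ≤ d) {β μ lo e0 r0 : ℝ} (he0 : 64 * e0 ≤ 1)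
    (hμ : lo / 2 + μ ≤ 4 / 9 * d) (hμ2 : 2 * μ ≤ 4 / 9 * d) (hlo : 0 ≤ lo)
    {Bf : ℕ → ℝ → ℝ → ℝ → ℝ}
    (hBf : ∀ i l N z, 0 ≤ l → 0 ≤ z → 2 * Bf i l N z ≤
      min (2 * N - l) (3 / 4 * N) + 9 / 4 * z - Real.log 2 * i + d / 2 * l)
    (hBo : ∀ i l N z, Bf i l N z ≤ bfO l N z) {Jf : ℝ → ℝ → ℝ → Finset (Eis × Eis)}
    (hJf : ∀ l N z, OKJ (Jf l N z))
    (hT : ∀ e, 0 < e → e ≤ e0 → TSUXe π h A d β lo e r0 Bf Jf)
    (HN : ∀ e, 0 < e → e ≤ e0 → XNumUX π h A d β e r0 Bf Jf) :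
    ∀ e, 0 < e → e ≤ e0 → LowDX π h low5 e r0 Bf Jf A d β μ := by
  intro e he hee
  have hA2 : 2 / 3 ≤ A := by linarith
  have hd8 : d ≤ 1 / 8 := by linarith
  have HS : SzUX π h A d β e r0 Bf Jf := szUX hpu hP d β hA2 e r0 Bf hJf
  have HT : TermUX π h (7 / 8 + d) A d β μ e r0 Bf Jf :=
    termUX_of hP HD HF hd.le hd8 hA1 hAd (by linarith) (by linarith) hBo hJf HS
  have HX : XRUX π h (7 / 8 + d) A d β μ e r0 1 Bf Jf :=
    xrux_of hpu hP h3 hA2 le_rfl hJf HS HT (HN e he hee)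
  have HJ : JPUX π h (7 / 8 + d) A d β μ e r0 Bf Jf :=
    jpux_of hpu hP hE h3 hP' hcov R C hd.le hd8 hA2 le_rfl hJf HX
  have H := strBandX_of_JPUX hpu hP h3 hA hA1 hAd hd hd1 he.le (by linarith) hμ hBf hJf
    (hT e he hee) HJ
  refine ub_sub H fun q hq => ?_
  refine ⟨⟨hq.1, ?_⟩, hq.2⟩
  exact hq.1.2.2.trans (top5_le_low5 hq.1.1.1)

/-- **the bands of the low half at the official cuts** -/
theorem low_ofXO (HD : E4DE) (HF : E4FE) (hd : 0 < d) (hd1 : d ≤ 1 / 42) (hA : 19 / 20 ≤ A)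
    (hA1 : A ≤ 1) (hAd : 16 * (1 - A) ≤ d)
    (hAt : AllT d (ex Dq fun lam => S0K Dk (red (π lam)) h))
    (hFE : FE2L (ex Dq fun lam => S0K Dk (red (π lam)) h) D5X fun b => 3 / 4 * d * b 0)
    {β μ r0 : ℝ} (hβ : 17 / 100 ≤ β) (hβ1 : β ≤ 22 / 125) (hμ : μ ≤ d / 32)
    (HN : ∀ e, 0 < e → e ≤ 1 / 64 →
      XNumUX π h A d β e r0 (bfE (d / 4)) (fun l N z => JS (nL l N z))) :
    ∀ e, 0 < e → e ≤ 1 / 64 →
      LowDX π h low5 e r0 (bfE (d / 4)) (fun l N z => JS (nL l N z)) A d β μ :=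
  low_ofX hpu hP hE h3 hP' hcov R C HD HF hd (by linarith) hA hA1 hAd (lo := 19 / 24 * d)
    (e0 := 1 / 64) (by norm_num) (by linarith) (by linarith) (by linarith)
    (fun i l N z _ hz => two_bfE d i l N z hz) (fun i l N z => min_le_left _ _)
    (fun l N z => okJ_JS _)
    (fun e he he1 => tsux_FE hpu hP hE hAt hd.le (by linarith) hAd hβ hβ1 hFE he.le he1 r0
      (fun _ _ _ _ => le_rfl) fun l N z => okJ_JS _) HN

end

end Crest.Agent.R017.E4Df372
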