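import Crest.Agent.R017.YsU_61
import Crest.Agent.R017.E4JB_858

/-!
# Row 17, T.3, `StrU`: `JPU` from the `x`-side and the reals (helper699)

* `Wt` : the weight of a term in the `y`-side
* `XBlk` : the premise of 61's `YsC` for one block of 858's `JPU`
* `XRU` : the same at all data;  `jpu_of` : `XRU ⟹ JPU`
-/

set_option autoImplicit false

noncomputable section

open Finset Complex
open scoped ComplexConjugate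

namespace Crest.Agent.R017.StrU699

open Crest.Agent.R012 Crest.Agent.R012.Eis
open Crest.Agent.R012.Mob705 hiding pb mem_pb
open Crest.Agent.R017.Sx545 (Sm)
open Crest.Agent.R017.CM106 (FS CS)
open Crest.Agent.R017.C70 (OKJ)
open Crest.Agent.R017.FE47 (PU SM)
open Crest.Agent.R017.End699 (HC prin0 hc_prin0)
open Crest.Agent.R017.Sup271 (NPm)
open Crest.Agent.R017.B770
open Crest.Agent.R017.Prov71
open Crest.Agent.R017.Rough381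
open Crest.Agent.R017.ER911 Crest.Agent.R017.ExpC702
open Crest.Agent.R017.E4352 (PrI Dat4 rd)
open Crest.Agent.R017.E5B71
open Crest.Agent.R017.E5L770
open Crest.Agent.R017.E4D164
open Crest.Agent.R017.E4J352
open Crest.Agent.R017.E4U164
open Crest.Agent.R017.E4ap783 (TG7)
open Crest.Agent.R017.E4RH858 (Pf pf wP be1 JP0w)
open Crest.Agent.R017.TwP61
open Crest.Agent.R017.E4Dic352 (bkP cP Spl)
open Crest.Agent.R017.JyF744 (nu2 yK)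
open Crest.Agent.R017.YU61 Crest.Agent.R017.YM61
open Crest.Agent.R017.YsM61 Crest.Agent.R017.YsU61

/-- the weight of a term on the `y`-side -/
def Wt {OO : Finset (Eis × Eis)} (v : OO → Eis → ℂ) (G : Eis → ℂ) (t : Tm OO) : ℝ :=
  (nm (t.D1 * E4RH858.b1 t) : ℝ) ^ (-(1 / 2) : ℝ) * ((lD t.o * nm t.k)⁻¹ * ‖t.xs v G‖)

lemma Wt_nonneg {OO : Finset (Eis × Eis)} (v : OO → Eis → ℂ) (G : Eis → ℂ) (t : Tm OO) :
    0 ≤ Wt v G t := by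
  unfold Wt lD
  positivity

section

variable {Λ : Type*} (π : Λ → DPar) (h : ℝ → ℝ)

/-- **the premise of the `y`-side for one block** -/
def XBlk (d K R₁ σ ρ ε : ℝ) (M₁ : ℕ) (B₁ X Sb : ℝ) (Jf : ℝ → ℝ → ℝ → Finset (Eis × Eis))
    (lam : Λ × Eis) (a : Bd × ℕ) (ps : List Pq) (x : Dt)
    (h₁ : FS (b1 (π lam.1) h lam.2 ps)) (h₂ : FS (b2 (π lam.1) h lam.2 a.1 ps))
    (tt : (Eis → ℂ) × ℤ) (ξ : ℝ) (G : Eis → ℂ) (rng : Tm (x.O π lam Jf a) → Prop) : Prop :=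
  ∀ (c : E4J352.Win) (P : Pf) (β : Eis) (τ : Eis × Eis × Eis) (𝒥 : Finset (Tm (x.O π lam Jf a))),
    𝒥.Nonempty →
    (∀ t ∈ 𝒥, t.OK (π lam.1).n₃ 1 ∧
      t.val 1 lD (x.v π h lam Jf a) (x.w π h lam Jf a ps h₁ h₂) G ≠ 0 ∧ t.In lD c ∧ rng t ∧
      pf t = P ∧ bo3 t = β ∧ soL x (fN (π lam.1).n₃ (x.E a.1)) t = τ) →
    ∃ (b0 : Eis) (kn : Tm (x.O π lam Jf a) → Eis) (l : ℝ), IsPrim b0 ∧
      (∀ t ∈ 𝒥, t.k * nu2 t.o = kn t * b0 ^ 3 ∧ (∀ p : Eis, Prime p → p ∣ b0 → p ∣ nu2 t.o) ∧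
        (nm (yK nu2 t) : ℝ) ≤ X ^ B₁) ∧
      0 ≤ l ∧ Real.exp l ≤ X ^ B₁ ∧
      (∀ t ∈ 𝒥, (nm (yF kn E4RH858.b1 (bkP P) t) : ℝ) ≤ Real.exp l) ∧
      ∀ t ∈ 𝒥, ∀ f1 f2 f3 D1' Z'' l' m : Eis,
        Spl (π lam.1).n₃ (fN (π lam.1).n₃ (x.E a.1)) x.z t f1 f2 f3 D1' Z'' l' m →
        IsCoprime (D1' * Z'') b0 →
        Real.log (nm l') + Real.log (nm D1') ≤ Ls (amL ps) + ρ * Real.log X →
        Real.log (nm m) ≤ (a.1.us 0).z + (a.1.us 1).z + Ls (moL ps) + ρ * Real.log X →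
        ∃ κ Mv qv wv y mx e Sx : ℝ,
          Nom K (σ / 4) (Real.log X) l ((a.1.us 0).z + (a.1.us 1).z) (Real.log (nm m))
            (Ls (moL ps)) (Ls (amL ps)) (Real.log (nm l') + Real.log (nm D1')) κ Mv qv wv y mx ∧
          (GoodYM d κ Mv qv wv y e ∨
            YT 𝒥 (yF kn E4RH858.b1 (bkP P)) X Mv qv wv e) ∧ 0 ≤ Sx ∧
          Sx * X ^ e ≤ ((1 + |ξ|) ^ M₁ * (Sb / (nm (be1 x.e₀ β) *
            wP (fN (π lam.1).n₃ (x.E a.1)) P * X ^ ε))) ^ 2 ∧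
          XSide h (tU (π lam.1) lam.2) (amL ps) (π lam.1).n₃
            (P.B * (bkP P * cP P ^ 3) * b0) tt.1 tt.2 ξ x.z 𝒥 (yF kn E4RH858.b1 (bkP P))
            (Wt (x.v π h lam Jf a) G) (Real.log X) σ R₁
            (Real.log (nm l') + Real.log (nm D1')) mx Sx

/-- **the `x`-side and the reals at all data** -/
def XRU (θ A d μ e0 r K : ℝ) (Bf : ℝ → ℝ → ℝ → ℝ) (Jf : ℝ → ℝ → ℝ → Finset (Eis × Eis)) : Prop :=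
  ∀ ε : ℝ, 0 < ε → ∀ σ₀ R₁ : ℝ, 0 < σ₀ → 0 ≤ R₁ → ∃ σ : ℝ, 0 < σ ∧ σ ≤ σ₀ ∧
  ∃ ρ : ℝ, 0 < ρ ∧
  ∃ ε' : ℝ, 0 < ε' ∧ ε' ≤ ε ∧ ∃ δ : ℝ, 0 < δ ∧ δ ≤ σ / 4 ∧
    ∀ (lam : Λ × Eis) (N : ℕ) (B : ℝ)
    (T : Finset ((Eis → ℂ) × ℤ)), ¬ (π lam.1).CaseD →
    (∀ t ∈ T, TG7 (π lam.1).n₃ (-(π lam.1).l₃) t) →
    ∃ (B₁ : ℝ) (M₁ : ℕ), 0 ≤ B₁ ∧ ∃ δ' : ℝ, 0 < δ' ∧ ∃ X₀ : ℝ, 1 < X₀ ∧ ∀ X : ℝ, X₀ ≤ X →
    ∀ (a : Bd × ℕ) (ps : List Pq) (q : (Option (Fin 3 ⊕ Fin 5) → ℝ) × (Kd → ℝ)),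
      FrL A d δ δ' B X N a ps q → a.1.ok → lam.2 ∈ SM (π lam.1).n → a.1.okP (π lam.1) →
    ∀ x : Dt, x.OK (π lam.1) Bf e0 r ε' X a.1 → XLow d X q x →
    ∀ (h₁ : FS (b1 (π lam.1) h lam.2 ps)) (h₂ : FS (b2 (π lam.1) h lam.2 a.1 ps)),
    ∃ (sw : Eis → Eis → Eis → Eis → Eis → Prop) (T₀ : ℝ), 0 ≤ T₀ ∧
      (∀ D0 D1 B R Z : Eis, sw D0 D1 B R Z → (nm D1 : ℝ) * nm (rd Z) ≤ 2 * T₀) ∧
      XBlk π h d K R₁ σ ρ (ε / 2) M₁ B₁ X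
        (X ^ (T5 θ (dn q.1, q.2) - μ + ε) / (nrm x * Real.exp (a.1.l / 3))) Jf lam a ps x h₁ h₂
        (prin0 (π lam.1).n₃, 0) 0 (fun _ => 1) (rngD sw lD (X ^ ε' * Real.exp a.1.l)) ∧
      ∀ t ∈ T, ∀ ξ : ℝ,
        XBlk π h d K R₁ σ ρ (ε / 2) M₁ B₁ X
          (X ^ (T5 θ (dn q.1, q.2) - μ + ε) / (nrm x * Real.exp (a.1.l / 3))) Jf lam a ps x h₁ h₂
          t ξ (gx t.1 t.2 ξ) (rngF sw lD (X ^ ε' * (U0 (π lam.1) a ps x / Real.exp a.1.l)))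

end

lemma gx_prin0 {M y : Eis} (hy : Sm M y) : (1 : ℂ) = gx (prin0 M) 0 0 y := by
  have hy0 : (nm y : ℂ) ≠ 0 := by exact_mod_cast (nm_pos.2 hy.ne_zero).ne'
  unfold gx End699.tw prin0
  rw [if_pos hy.cop, End699.ang_zero']
  simp

section

variable {Λ Λ' : Type*} {π : Λ → DPar} {π' : Λ' → DPar} {h : ℝ → ℝ} {c₀ : ℝ} (hpu : PU h c₀)
  (hP : ∀ lam, (π lam).OK) (hN : ∀ lam k, k ≠ 0 → NPm (π lam).n (π lam).ψ (π lam).l₂ k)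
  (hP' : ∀ lam, (π' lam).OK) (hN' : ∀ lam k, k ≠ 0 → NPm (π' lam).n (π' lam).ψ (π' lam).l₂ k)
  (hcov : ∀ P : DPar, P.OK → (∀ k : Eis, k ≠ 0 → NPm P.n P.ψ P.l₂ k) → ∃ lam, π' lam = P)
  {r s : EF} {A d : ℝ} (R : ExpRules (7 / 8 + d) r s)
  (C : ExpC r (ex Dq (fun lam => Rc (π' lam) h)))

include hpu hP hN hP' hN' hcov R C

set_option maxHeartbeats 1000000 in
/-- **`JPU` from the `x`-side and the reals** -/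
theorem jpu_of (hd : 0 ≤ d) (hd8 : d ≤ 1 / 8) (hA : 2 / 3 ≤ A) {K : ℝ} (hK : 1 ≤ K)
    {θ μ e0 r0 : ℝ} {Bf : ℝ → ℝ → ℝ → ℝ} {Jf : ℝ → ℝ → ℝ → Finset (Eis × Eis)}
    (hJf : ∀ l N z, OKJ (Jf l N z)) (HX : XRU π h θ A d μ e0 r0 K Bf Jf) :
    JPU π h θ A d μ e0 r0 Bf Jf := by
  classical
  intro ε hε
  obtain ⟨σ₀, R₁, hσ₀, hR₁, V⟩ := ysUT hpu hP hN hP' hN' hcov R C hd hd8 hA hK e0 r0 Bf hJf
    (ε := ε / 2) (by linarith)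
  obtain ⟨σ, hσ, hσσ, ρ, hρ, ε', hε', hεε, δ, hδ, hδσ, HX⟩ := HX ε hε σ₀ R₁ hσ₀ hR₁
  refine ⟨ε', hε', hεε, δ, hδ, fun lam N B T hD hT => ?_⟩
  obtain ⟨B₁, M₁, hB₁, δ', hδ', X₁, hX₁, HX⟩ := HX lam N B T hD hT
  obtain ⟨M₀, δ₁, X₂, hδ₁, hX₂, V⟩ := V σ hσ hσσ ρ hρ lam N B ε' B₁ hB₁
    (insert (prin0 (π lam.1).n₃, 0) T) hD (by
      intro t ht
      rcases Finset.mem_insert.1 ht with h1 | h1
      · exact Or.inl h1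
      · exact Or.inr (hT t h1))
  refine ⟨((M₀ + M₁ : ℕ) : ℝ), Nat.cast_nonneg _, min δ' δ₁, lt_min hδ' hδ₁, max X₁ X₂,
    lt_of_lt_of_le hX₁ (le_max_left _ _), ?_⟩
  intro X hX a ps q hF hok hl2 hokP x hx hxl h₁ h₂
  have hXX₁ : X₁ ≤ X := (le_max_left _ _).trans hX
  have hXX₂ : X₂ ≤ X := (le_max_right _ _).trans hX
  have hX1 : 1 < X := hX₁.trans_le hXX₁
  have hX0 : 0 < X := by linarith
  obtain ⟨sw, T₀, hT₀, hsw, HD, HG⟩ := HX X hXX₁ a ps q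
    (hF.mono hX1.le le_rfl (min_le_left _ _)) hok hl2 hokP x hx hxl h₁ h₂
  obtain ⟨Sb, hSb⟩ : ∃ Sb : ℝ, Sb = X ^ (T5 θ (dn q.1, q.2) - μ + ε) /
    (nrm x * Real.exp (a.1.l / 3)) := ⟨_, rfl⟩
  rw [← hSb] at HD HG
  have hnrm : 0 ≤ nrm x := by
    unfold nrm
    positivity
  have hSb0 : 0 ≤ Sb := by
    rw [hSb]
    positivity
  have key : ∀ (tt : (Eis → ℂ) × ℤ), tt ∈ insert (prin0 (π lam.1).n₃, 0) T → ∀ (ξ : ℝ)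
      (G : Eis → ℂ), (∀ y, Sm (π lam.1).n₃ y → G y = gx tt.1 tt.2 ξ y) →
      ∀ rng : Tm (x.O π lam Jf a) → Prop,
      XBlk π h d K R₁ σ ρ (ε / 2) M₁ B₁ X Sb Jf lam a ps x h₁ h₂ tt ξ G rng →
      JP0w (π lam.1).n₃ (fN (π lam.1).n₃ (x.E a.1)) (fun β => (nm (be1 x.e₀ β) : ℝ)) bo3
        (soL x (fN (π lam.1).n₃ (x.E a.1))) lD (x.v π h lam Jf a) (x.w π h lam Jf a ps h₁ h₂) G
        rng ((1 + |ξ|) ^ (M₀ + M₁) * Sb) := by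
    intro tt htt ξ G hG rng HB c P β τ 𝒥 hJ
    have hξ : 0 < 1 + |ξ| := by
      have := abs_nonneg ξ
      linarith
    rcases Finset.eq_empty_or_nonempty 𝒥 with h𝒥 | hne
    · rw [h𝒥, Finset.sum_empty, mul_zero, mul_zero]
      positivity
    obtain ⟨b0, kn, l, hb0, hk, hl0, hlX, hKle, HB⟩ := HB c P β τ 𝒥 hne hJ
    have hβ : (0 : ℝ) < nm (be1 x.e₀ β) := by
      exact_mod_cast nm_pos.2 (E4RH858.be1_prim _ _).ne_zero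
    have hw : 0 < wP (fN (π lam.1).n₃ (x.E a.1)) P := by
      rw [E4Dic352.wP_eq]
      exact Real.exp_pos _
    have hXe : 0 < X ^ (ε / 2) := Real.rpow_pos_of_pos hX0 _
    have main := V tt htt X hXX₂ δ (min δ' δ₁) ε' hδσ (min_le_right _ _) le_rfl a ps q hF hok hl2
      hokP x hx h₁ h₂ ξ G hG P b0 kn 𝒥 hb0
      (fun t ht => by
        obtain ⟨g1, g2, g3, g4, g5, g6, g7⟩ := hJ t ht
        obtain ⟨k1, k2, k3⟩ := hk t ht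
        exact ⟨g1, g2, g5, k1, k2, k3⟩)
      l hl0 hlX hKle (Wt (x.v π h lam Jf a) G) (fun t _ => Wt_nonneg _ _ t)
      ((1 + |ξ|) ^ M₁ * (Sb / (nm (be1 x.e₀ β) *
        wP (fN (π lam.1).n₃ (x.E a.1)) P * X ^ (ε / 2)))) (by positivity)
      (fun t ht => HB t ht)
    have e1 : ∑ t ∈ 𝒥, (nm (t.D1 * E4RH858.b1 t) : ℝ) ^ (-(1 / 2) : ℝ) *
        ((lD t.o * nm t.k)⁻¹ * (‖t.xs (x.v π h lam Jf a) G‖ *
          ‖t.ys (x.w π h lam Jf a ps h₁ h₂) G‖)) =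
        ∑ t ∈ 𝒥, Wt (x.v π h lam Jf a) G t * ‖t.ys (x.w π h lam Jf a ps h₁ h₂) G‖ := by
      refine Finset.sum_congr rfl fun t _ => ?_
      unfold Wt
      ring
    show (nm (be1 x.e₀ β) : ℝ) * (wP (fN (π lam.1).n₃ (x.E a.1)) P * _) ≤ _
    rw [e1]
    calc (nm (be1 x.e₀ β) : ℝ) * (wP (fN (π lam.1).n₃ (x.E a.1)) P *
          ∑ t ∈ 𝒥, Wt (x.v π h lam Jf a) G t * ‖t.ys (x.w π h lam Jf a ps h₁ h₂) G‖)
        ≤ (nm (be1 x.e₀ β) : ℝ) * (wP (fN (π lam.1).n₃ (x.E a.1)) P *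
          ((1 + |ξ|) ^ M₀ * X ^ (ε / 2) * ((1 + |ξ|) ^ M₁ * (Sb / (nm (be1 x.e₀ β) *
            wP (fN (π lam.1).n₃ (x.E a.1)) P * X ^ (ε / 2)))))) :=
          mul_le_mul_of_nonneg_left (mul_le_mul_of_nonneg_left main hw.le) hβ.le
      _ = (1 + |ξ|) ^ (M₀ + M₁) * Sb := by
          rw [pow_add]
          field_simp
  refine ⟨sw, T₀, hT₀, hsw, ?_, ?_⟩
  · have h1 := key (prin0 (π lam.1).n₃, 0) (Finset.mem_insert_self _ _) 0 (fun _ => 1)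
      (fun y hy => gx_prin0 hy) _ HD
    rw [← hSb]
    simpa using h1
  · intro t ht ξ
    have h1 := key t (Finset.mem_insert_of_mem ht) ξ (gx t.1 t.2 ξ) (fun _ _ => rfl) _ (HG t ht ξ)
    rw [← hSb, Real.rpow_natCast]
    exact h1

end

end Crest.Agent.R017.StrU699
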