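import Crest.Agent.R017.TSE_436
import Crest.Agent.R017.MnU_939
import Crest.Agent.R017.P10e_146
import Crest.Agent.R017.StrU_699
import Crest.Agent.R017.E4Uh_164
import Crest.Agent.R017.E4Ux_512
import Crest.Agent.R017.E4v7d_352
import Crest.Agent.R017.Sf_770

/-!
# Row 17, T.3 : the low levels of `StrU` (helper436)

* `mnU_FE`         : `MnU` for cuts `Bf ≤ bfO` from the flat claims
* `strBand_of_XRU` : the band `(e0, b)` of the low levels of `StrU` from `XRU` and the flat claims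
-/

set_option autoImplicit false
set_option linter.unusedVariables false

noncomputable section

namespace Crest.Agent.R017.StrL436

open Crest.Agent.R012 Crest.Agent.R012.Eis
open Crest.Agent.R017.FE47 (PU cx SM)
open Crest.Agent.R017.Sup271 (NPm)
open Crest.Agent.R017.XT71 (Sys Win)
open Crest.Agent.R017.B770
open Crest.Agent.R017.Prov71
open Crest.Agent.R017.ER911 Crest.Agent.R017.ExpC702
open Crest.Agent.R017.E5B71
open Crest.Agent.R017.E5L770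
open Crest.Agent.R017.E4U164
open Crest.Agent.R017.TM708 (FE2L R5 K5)
open Crest.Agent.R017.P10146 (D5 D5_compact bP bP_mem)
open Crest.Agent.R017.Sf770 (JS okJ_JS)
open Crest.Agent.R017.StrU699 (XRU jpu_of)

variable {Λ : Type*} {π : Λ → DPar} {h : ℝ → ℝ} {c₀ : ℝ} {rr : EF} {A d : ℝ}

lemma b5q_mem (hd : 0 ≤ d) (hd1 : d ≤ 1 / 8) (hA1 : 16 * (1 - A) ≤ d)
    {q : (Fin 3 ⊕ Fin 5 → ℝ) × (Kd → ℝ)} (hq : q ∈ SqD A d) : VFa436.b5q q.1 ∈ D5 :=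
  bP_mem hd hd1 hA1 ⟨q.2, hq⟩

/-- **`MnU` from the flat claims** -/
theorem mnU_FE (hpu : PU h c₀) (hP : ∀ lam, (π lam).OK)
    (R : ExpRules (7 / 8 + d) rr (ex Dq fun lam => Sp (π lam) h)) (hd : 0 ≤ d)
    (hd1 : d ≤ 1 / 8) (hA : 2 / 3 ≤ A) (hA1 : A ≤ 1) (hAd : 16 * (1 - A) ≤ d)
    (hFE : FE2L (ex Dq fun lam => S0p (π lam) h) D5 fun b => 3 / 4 * d * b 0)
    {μ : ℝ} (hμ : μ ≤ d / 32) {e0 : ℝ} (he64 : e0 ≤ 1 / 64) (r : ℝ) {Bf : ℝ → ℝ → ℝ → ℝ}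
    (hBf : ∀ l N z, Bf l N z ≤ bfO l N z) :
    MnU π h (7 / 8 + d) A d μ e0 r Bf (fun l N z => JS (nL l N z)) := by
  refine MnU939.mnU_of_TSUe (lo := 19 / 24 * d) hpu hP hA hA1 hAd hd1 (by linarith)
    (fun l N z => okJ_JS _) ?_
  intro ε hε
  obtain ⟨δ, hδ, H⟩ := VFa436.tsue_lo hpu hP R hd hd1 D5_compact (fun b hb => hb.1)
    (fun q hq => b5q_mem hd hd1 hAd hq) (ℓ := fun b => 3 / 4 * d * b 0)
    (continuous_const.mul (continuous_apply 0)) (lo := 19 / 24 * d)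
    (fun q hq => by
      have h1 : cκ q.1 ≤ 1 := (show Sq5 A d q.1 q.2 from hq).κ1
      show 3 / 4 * d * cκ q.1 + d / 24 ≤ 19 / 24 * d
      nlinarith) hFE he64 r (cB := 0) le_rfl (Bf := Bf)
    (fun l N z => by
      have := hBf l N z
      unfold bfO at this
      linarith) (Jf := fun l N z => JS (nL l N z))
    (fun l N z => okJ_JS _) ε hε
  refine ⟨δ, hδ, fun lam N B _ => ?_⟩
  obtain ⟨δ', hδ', X₀, hX₀, H'⟩ := H lam N B
  exact ⟨δ', hδ', X₀, hX₀, fun X hX a ps q hF hok hlam _ => H' X hX a ps q hF hok hlam⟩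

/-- **the band `(e0, b)` of the low levels of `StrU` from the `x`-side and the flat claims** -/
theorem strBand_of_XRU {Λ' : Type*} {π' : Λ' → DPar} (hpu : PU h c₀)
    (hP : ∀ lam, (π lam).OK) (hN : ∀ lam k, k ≠ 0 → NPm (π lam).n (π lam).ψ (π lam).l₂ k)
    (hP' : ∀ lam, (π' lam).OK)
    (hN' : ∀ lam k, k ≠ 0 → NPm (π' lam).n (π' lam).ψ (π' lam).l₂ k)
    (hcov : ∀ P : DPar, P.OK → (∀ k : Eis, k ≠ 0 → NPm P.n P.ψ P.l₂ k) → ∃ lam, π' lam = P)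
    {r s : EF} (R : ExpRules (7 / 8 + d) rr (ex Dq fun lam => Sp (π lam) h))
    (R' : ExpRules (7 / 8 + d) r s) (C : ExpC r (ex Dq (fun lam => Rc (π' lam) h)))
    (hd : 0 < d) (hd1 : d ≤ 1 / 8) (hA : 2 / 3 ≤ A) (hA1 : A ≤ 1) (hAd : 16 * (1 - A) ≤ d)
    (hFE : FE2L (ex Dq fun lam => S0p (π lam) h) D5 fun b => 3 / 4 * d * b 0)
    {μ : ℝ} (hμ : μ ≤ d / 32) {e0 : ℝ} (he0 : 0 ≤ e0) (he64 : e0 ≤ 1 / 64) (r0 : ℝ)
    {b : ℝ} (hb : 0 ≤ b) {Bf : ℝ → ℝ → ℝ → ℝ} (hBf : ∀ l N z, Bf l N z ≤ bfO l N z)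
    (hBb : ∀ l N z, Bf l N z ≤ b * l) {K : ℝ} (hK : 1 ≤ K)
    (HX : XRU π h (7 / 8 + d) A d μ e0 r0 K Bf (fun l N z => JS (nL l N z))) :
    UB (lev (Real.log 2) S5) Dq
      (fun lam a ps => if a.2 < nL a.1.l (a3 a.1) a.1.z then
        MidF π h (SfV π h e0 r0 Bf (fun l N z => JS (nL l N z)) a.2) lam a.1 ps else 0)
      (SqBand A d e0 b) (alL al5) fun q => T5 (7 / 8 + d) (dn q.1, q.2) - μ := by
  have hS : SzU π h A d e0 r0 Bf (fun l N z => JS (nL l N z)) :=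
    E4Us512.szU hpu hP d hA e0 r0 Bf (fun l N z => okJ_JS _)
  exact strBand_of_JBU E4J352.e4core7 hP (bump_of_cs hpu.cs) hA hd (by linarith) (by linarith)
    he0 hb hBb (fun l N z => okJ_JS _)
    (jbu_of_jpu hP (fun l N z => okJ_JS _) hS
      (jpu_of hpu hP hN hP' hN' hcov R' C hd.le hd1 hA hK (fun l N z => okJ_JS _) HX))
    (mnU_FE hpu hP R hd.le hd1 hA hA1 hAd hFE hμ he64 r0 hBf) hS

end Crest.Agent.R017.StrL436
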