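import Crest.Agent.R017.StrL_436
import Crest.Agent.R017.E5H_319

/-!
# Row 17, T.3 : the low bands of `StrU` in 319's form (helper436)

* `lowD_of_XRU` : `E5H319.LowD` at `low5`, every band `0 ≤ t`
-/

set_option autoImplicit false
set_option linter.unusedVariables false

noncomputable section

namespace Crest.Agent.R017.StrL436

open Crest.Agent.R012 Crest.Agent.R012.Eis
open Crest.Agent.R017.FE47 (PU cx SM)
open Crest.Agent.R017.Sup271 (NPm)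
open Crest.Agent.R017.XT71 (Sys Win)
open Crest.Agent.R017.B770
open Crest.Agent.R017.Prov71
open Crest.Agent.R017.ER911 Crest.Agent.R017.ExpC702
open Crest.Agent.R017.E5B71
open Crest.Agent.R017.E5L770
open Crest.Agent.R017.E4U164
open Crest.Agent.R017.TM708 (FE2L R5 K5)
open Crest.Agent.R017.P10146 (D5 D5_compact bP bP_mem)
open Crest.Agent.R017.Sf770 (JS okJ_JS)
open Crest.Agent.R017.StrU699 (XRU jpu_of)
open Crest.Agent.R017.E5H319 (eT bT BandD LowD)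

variable {Λ : Type*} {π : Λ → DPar} {h : ℝ → ℝ} {c₀ : ℝ} {rr : EF} {A d : ℝ}

/-- the top of the levels is below `low5` -/
lemma top_low (hd : 0 ≤ d) (hd1 : d ≤ 1 / 8) (hA1 : 16 * (1 - A) ≤ d)
    {q : (Fin 3 ⊕ Fin 5 → ℝ) × (Kd → ℝ)} (hq : q ∈ SqD A d) : top5 q.1 ≤ low5 q.1 := by
  have hx : 0 ≤ cx' q.1 := (b5q_mem hd hd1 hA1 hq).1.x0
  unfold top5 low5
  linarith

/-- the bands are inside `SqBand` -/
lemma band_sub (hd : 0 ≤ d) (hd1 : d ≤ 1 / 8) (hA1 : 16 * (1 - A) ≤ d) {e0 t : ℝ} :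
    BandD A d low5 t ⊆ SqBand A d (eT e0 t) (t / 2) := by
  intro q hq
  obtain ⟨h1, h2⟩ := hq
  have hκ : 0 ≤ cκ (dn q.1) := by
    have : 8 / 9 ≤ cκ (dn q.1) := (show Sq5 A d (dn q.1) q.2 from h1.1).κ0
    linarith
  have htop : q.1 none ≤ top5 (dn q.1) := h1.2.2
  have h4 : 4 * eT e0 t * cκ (dn q.1) ≤ t * cκ (dn q.1) := by
    refine mul_le_mul_of_nonneg_right ?_ hκ
    have : eT e0 t ≤ t / 4 := min_le_right _ _
    linarith
  have h5 : 2 * (t / 2) * cκ (dn q.1) = t * cκ (dn q.1) := by ring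
  exact ⟨⟨h1, htop.trans (top_low hd hd1 hA1 h1.1)⟩, h4.trans h2, h5.le.trans h2⟩

/-- **the bands of the low levels from the `x`-side and the flat claims** -/
theorem lowD_of_XRU {Λ' : Type*} {π' : Λ' → DPar} (hpu : PU h c₀)
    (hP : ∀ lam, (π lam).OK) (hN : ∀ lam k, k ≠ 0 → NPm (π lam).n (π lam).ψ (π lam).l₂ k)
    (hP' : ∀ lam, (π' lam).OK)
    (hN' : ∀ lam k, k ≠ 0 → NPm (π' lam).n (π' lam).ψ (π' lam).l₂ k)
    (hcov : ∀ P : DPar, P.OK → (∀ k : Eis, k ≠ 0 → NPm P.n P.ψ P.l₂ k) → ∃ lam, π' lam = P)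
    {r s : EF} (R : ExpRules (7 / 8 + d) rr (ex Dq fun lam => Sp (π lam) h))
    (R' : ExpRules (7 / 8 + d) r s) (C : ExpC r (ex Dq (fun lam => Rc (π' lam) h)))
    (hd : 0 < d) (hd1 : d ≤ 1 / 8) (hA : 2 / 3 ≤ A) (hA1 : A ≤ 1) (hAd : 16 * (1 - A) ≤ d)
    (hFE : FE2L (ex Dq fun lam => S0p (π lam) h) D5 fun b => 3 / 4 * d * b 0)
    {μ : ℝ} (hμ : μ ≤ d / 32) {e0 : ℝ} (he0 : 0 ≤ e0) (he64 : e0 ≤ 1 / 64) (r0 : ℝ)
    {t : ℝ} (ht : 0 ≤ t) {K : ℝ} (hK : 1 ≤ K)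
    (HX : XRU π h (7 / 8 + d) A d μ (eT e0 t) r0 K (bT t) (fun l N z => JS (nL l N z))) :
    LowD π h e0 r0 (fun l N z => JS (nL l N z)) A d μ low5 t :=
  E5H319.ub_sub
    (strBand_of_XRU hpu hP hN hP' hN' hcov R R' C hd hd1 hA hA1 hAd hFE hμ
      (le_min he0 (by linarith)) ((min_le_left _ _).trans he64) r0 (b := t / 2) (by linarith)
      (Bf := bT t) (fun l N z => min_le_left _ _) (fun l N z => min_le_right _ _) hK HX)
    (band_sub hd.le hd1 hAd)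

end Crest.Agent.R017.StrL436
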