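import Crest.Agent.R017.StrV_699
import Crest.Agent.R017.JxTE_679
import Crest.Agent.R017.E4SbE_266

/-!
# Row 17, T.3, `StrUX`: one term in numbers, any `x`-sequence (helper372)

helper699's `tn_of` for the `x`-side `vX` with an arbitrary sequence `α`, any scale `sc`.
-/

set_option autoImplicit false
set_option linter.unusedSectionVars false

noncomputable section

open Finset Complex
open scoped ComplexConjugate

namespace Crest.Agent.R017.E4Df372

open Crest.Agent.R012 Crest.Agent.R012.Eis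
open Crest.Agent.R012.Mob705 hiding pb mem_pb kap
open Crest.Agent.R017.Sx545 (Sm)
open Crest.Agent.R017.CM106 (FS CS)
open Crest.Agent.R017.C70 (OKJ)
open Crest.Agent.R017.B770
open Crest.Agent.R017.Prov71
open Crest.Agent.R017.Rough381
open Crest.Agent.R017.E5B71
open Crest.Agent.R017.E5L770
open Crest.Agent.R017.E4D164
open Crest.Agent.R017.E4J352
open Crest.Agent.R017.E4U164
open Crest.Agent.R017.E4R70
open Crest.Agent.R017.E4RH858 (Pf pf wP be1 be2 kl Facts)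
open Crest.Agent.R017.E4Dic352
open Crest.Agent.R017.E4St352 hiding sk_sq_dvd
open Crest.Agent.R017.E4F858 (R1S R2S m1S m2S lS_m)
open Crest.Agent.R017.Str699 (nu0 b3)
open Crest.Agent.R017.JxS679 (sk)
open Crest.Agent.R017.JyF744 (nu2)
open Crest.Agent.R017.YsM61
open Crest.Agent.R017.YsU61
open Crest.Agent.R017.BK858
open Crest.Agent.R017.StrD699 (zT Vx)
open Crest.Agent.R017.StrV699
open Crest.Agent.R017.JxTE679 (cop_sk_b3X)
open Crest.Agent.R017.E4SE266 (e0_splitX)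

section

variable {Λ : Type*} {π : Λ → DPar} {lam : Λ × Eis}
  {Jf : ℝ → ℝ → ℝ → Finset (Eis × Eis)}
  {a : Bd × ℕ} {x : Dt} {Bf : ℝ → ℝ → ℝ → ℝ} {e0 r ε X : ℝ} {ψ : Eis → ℂ} {l₀ : ℤ} {α : Eis → ℂ}

/-- **the logarithms of one term** -/
theorem tn_ofX (hJ : ∀ l N z, OKJ (Jf l N z)) (ha : a.1.ok) (hP : a.1.okP (π lam.1))
    (hn : (π lam.1).n₃ ≠ 0) (hx : x.OK (π lam.1) Bf e0 r ε X a.1) {G : Eis → ℂ}
    {t : Tm (x.O π lam Jf a)} (hf : Facts (π lam.1).n₃ t) (hok : t.OK (π lam.1).n₃ 1)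
    (hxs : t.xs
      (vX (π lam.1).n₃ ψ l₀ (x.I Jf a) (omL a.2) x.ph (x.E a.1) α x.g x.e₀ x.t x.c₀ x.g') G ≠ 0) {f : Eis} {c : E4J352.Win} (hc : t.In lD c)
    {f1 f2 f3 D1' Z'' l m : Eis} (s : Spl (π lam.1).n₃ f x.z t f1 f2 f3 D1' Z'' l m) {Lg : ℝ}
    (hLg : 0 < Lg) (i : ℕ) (sc : ℝ) :
    TN Lg x f t c f1 f2 D1' l m (zT Lg i x f t f1 f2 D1' l m sc) := by
  classical
  have hL0 : Lg ≠ 0 := hLg.ne'
  have l2 := log2_nonneg
  have hlam := log_lam hJ ha hP hx t.o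
  have hb3 := lg_b3 hJ ha hP hx t.o
  have hb3' : kW x ≤ lg (bo3 t) ∧ lg (bo3 t) ≤ kW x + Real.log 2 := hb3
  have hgs := le_gS x t
  have hge : gS x t ≤ kG x + Real.log 2 := by
    rw [gS_eq]
    refine max_le (e0_splitX hJ ha hP hn hx hxs) ?_
    linarith
  have hk0 : t.k ≠ 0 := hok.sk.ne_zero
  have hlD : 0 < lD t.o := lD_pos t.o hJ ha hP hx
  have hβp := T3_prim x.β hx.β
  have hep : IsPrim x.e₀ := (e0_prim hx).1
  have hb0 : (0 : ℝ) < nm (be1 x.e₀ (bo3 t)) := nm_pos' (E4RH858.be1_prim _ _).ne_zero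
  have hD1 : lg t.D1 = lg f1 + lg D1' := by
    have h0 : t.D1 ≠ 0 := hok.pD1.ne_zero
    have e := s.hD
    rw [e] at h0
    rw [e, lg_mul (left_ne_zero_of_mul h0) (right_ne_zero_of_mul h0)]
  have hb1 := lg_b1 t f2
  have d0 : ∀ y : ℝ, Lg * (y / Lg) = y := fun y => mul_div_cancel₀ y hL0
  have hsk : sL (x.g * x.e₀ * x.t) t.k (bo3 t) = sk (x.g * x.e₀ * x.t) t.k :=
    sL_sk (cop_sk_b3X hJ ha hP hx hok hxs)
  refine ⟨?_, ?_, ?_, ?_, ?_, ?_, ?_, ?_, ?_⟩
  · have e : Lg * (zT Lg i x f t f1 f2 D1' l m sc).k = lg t.k := d0 _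
    rw [e]
    exact Real.log_le_log (by positivity) hc.hkk.1
  · have e : Lg * (zT Lg i x f t f1 f2 D1' l m sc).k = lg t.k := d0 _
    have e1 := zlam (i := i) (x := x) (f := f) (t := t) (f1 := f1) (f2 := f2) (D1' := D1')
      (l := l) (m := m) (sc := sc) hL0
    rw [mul_add, e, zT_eq, e1]
    have h1 : lD t.o * nm t.k ≤ 2 * 2 ^ c.nk := by
      have := hc.hk.2
      rw [pow_succ] at this
      linarith
    have h2 := Real.log_le_log (mul_pos hlD (nm_pos' hk0)) h1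
    rw [Real.log_mul hlD.ne' (nm_pos' hk0).ne', Real.log_mul (by norm_num) (by positivity)] at h2
    have h3 : Real.log (nm t.k) = lg t.k := rfl
    rw [h3] at h2
    linarith [hlam.1, hb3'.1, hb3'.2]
  · have h1 := E4RK858.spl_f1g s hf hok
    have h2 := E4RK858.spl_gb s hf hok
    have e : Lg * (zT Lg i x f t f1 f2 D1' l m sc).F = lg f1 := d0 _
    rw [e, ← h1, ← h2]
    exact Real.log_mul (nm_pos' s.s1.ne_zero).ne' (nm_pos' (E4RH858.gd_prim _ _).ne_zero).ne'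
  · exact lg_W0 hL0
  · have e : Lg * ((zT Lg i x f t f1 f2 D1' l m sc).β / 2 + (zT Lg i x f t f1 f2 D1' l m sc).s) =
        lg (∏ i, x.β i) / 2 + lg x.e₀ := by
      have h1 : Lg * (zT Lg i x f t f1 f2 D1' l m sc).β = lg (∏ i, x.β i) := d0 _
      have h2 : Lg * (zT Lg i x f t f1 f2 D1' l m sc).s = lg x.e₀ := d0 _
      rw [mul_add, ← h1, ← h2]
      ring
    rw [e]
    unfold nrm
    have h1 := nm_pos' hβp.ne_zero
    rw [Real.log_mul (Real.rpow_pos_of_pos h1 _).ne' (nm_pos' hep.ne_zero).ne', Real.log_rpow h1]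
    unfold lg
    ring
  · have h1 : Lg * (zT Lg i x f t f1 f2 D1' l m sc).η = lg D1' := d0 _
    have h2 : Lg * (zT Lg i x f t f1 f2 D1' l m sc).b1 = beS t f2 := d0 _
    have h3 : Lg * (zT Lg i x f t f1 f2 D1' l m sc).l = lg l - beS t f2 := d0 _
    rw [mul_add, mul_add, h1, h2, h3]
    ring
  · have h1 : Lg * (zT Lg i x f t f1 f2 D1' l m sc).m1 = m1S (pf t) m := d0 _
    have h2 : Lg * (zT Lg i x f t f1 f2 D1' l m sc).m2 = m2S (pf t) m := d0 _
    have h3 : Lg * (zT Lg i x f t f1 f2 D1' l m sc).zm = lg m - lS (pf t) m := d0 _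
    unfold Cls.m
    rw [mul_add, mul_add, h1, h2, h3, lS_m]
    ring
  · have e1 := zky (i := i) (x := x) (f := f) (t := t) (f1 := f1) (f2 := f2) (D1' := D1')
      (l := l) (m := m) (sc := sc) hL0
    have e2 : Lg * (zT Lg i x f t f1 f2 D1' l m sc).s1 =
        min (lg (sk (x.g * x.e₀ * x.t) t.k)) (kG x) := d0 _
    have e3 : Lg * (3 * (zT Lg i x f t f1 f2 D1' l m sc).s1) =
        3 * min (lg (sk (x.g * x.e₀ * x.t) t.k)) (kG x) := by
      rw [← e2]
      ring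
    have e4 : lg (b0L x (soL x f t) (bo3 t)) = lg (bo3 t) + lg (sk (x.g * x.e₀ * x.t) t.k) := by
      unfold b0L
      have h5 : sL (x.g * x.e₀ * x.t) (soL x f t).1 (bo3 t) =
          sL (x.g * x.e₀ * x.t) t.k (bo3 t) := sL_kl hk0
      rw [h5, hsk, lg_mul (bo3_prim t).ne_zero (JxS679.sk_prim _ _).ne_zero]
    have h6 := min_le_left (lg (sk (x.g * x.e₀ * x.t) t.k)) (kG x)
    have h7 : lg (nu2 t.o) = Real.log (lD t.o) := rfl
    rw [mul_sub, e3, zT_eq, e1]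
    unfold kyT
    rw [e4, hD1, hb1, h7]
    linarith [hlam.2, hb3'.1]
  · have e1 : Lg * (zT Lg i x f t f1 f2 D1' l m sc).kt = lg t.k + lg D1' + beS t f2 +
        x.m 1 1 * Real.log 2 + x.m 1 2 * Real.log 2 + lg (nu0 t.o.1.1 t.o.1.2) := by
      unfold Cls.kt zT
      field_simp
    rw [e1]
    have h1 := lg_nonneg (sL (x.g * x.e₀ * x.t) t.k (bo3 t))
    linarith

end

end Crest.Agent.R017.E4Df372
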