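import Crest.Agent.R017.StrW_699
import Crest.Agent.R017.StrVE_372

/-!
# Row 17, T.3, `StrUX`: the numbers of one term (helper372)

helper699's `fin_num`, `sx_term` with any exponent `V₀` of the `x`-side.
-/

set_option autoImplicit false
set_option linter.unusedSectionVars false

noncomputable section

open Finset Complex
open scoped ComplexConjugate

namespace Crest.Agent.R017.E4Df372

open Crest.Agent.R012 Crest.Agent.R012.Eis
open Crest.Agent.R012.Mob705 hiding pb mem_pb kap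
open Crest.Agent.R017.B770
open Crest.Agent.R017.Prov71
open Crest.Agent.R017.E5B71
open Crest.Agent.R017.E5L770
open Crest.Agent.R017.E4D164 hiding E4L
open Crest.Agent.R017.E4J352
open Crest.Agent.R017.E4U164
open Crest.Agent.R017.E4R70
open Crest.Agent.R017.Nm918 (Near)
open Crest.Agent.R017.StrV699
open Crest.Agent.R017.StrN699
open Crest.Agent.R017.StrW699 (rpow_le_of le_rpow_of)

/-- **the final inequality** -/
lemma fin_numV {κ₀ η₀ τ ε ε₃ ey ey' ex Tq μ bf V₀ dl : ℝ} {z' : Cls}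
    (h7 : κ₀ * (2 / 3 + (z'.β + z'.al - 2 * z'.E - z'.F + 2 * z'.s + 2 * z'.W) + V₀) + ex + ey ≤
      2 * Tq - 2 * μ - dl)
    (hs : η₀ + 8 * τ + ε₃ + (ey' - ey) ≤ ε) :
    η₀ + 6 * τ + (κ₀ * V₀ + dl + ex + ε₃) - (κ₀ * z'.F + bf) + ey' +
      2 * (κ₀ * (z'.W + z'.al / 2 - z'.E) + bf / 2) + 2 * (ε / 2) ≤
      2 * (Tq - μ + ε - κ₀ * (z'.β / 2 + z'.s) - κ₀ / 3 - τ) := by
  linarith

/-- **the numbers of one term** : the square of the target -/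
lemma sx_termV {X L κ₀ V₀ dl ex ε₃ ey e Tq μ ε η δ bf C Yε Bd Sb W₀ g aa bb Hm nr al : ℝ}
    {z z' : Cls}
    (hX : 1 < X) (hL : L = Real.log X) (h0 : 0 < κ₀) (h1 : κ₀ ≤ 1) (hη : 0 ≤ η) (hδ : 0 ≤ δ)
    (hn : Near η z z') (hCY0 : 0 ≤ C * Yε) (hCY : C * Yε ≤ X ^ (ε / 16))
    (ha0 : 0 < aa) (ha : Real.log aa ≤ κ₀ * L * z.k)
    (hb0 : 0 < bb) (hb : κ₀ * L * (z.k + z.lam) ≤ Real.log bb + η * L)
    (hg0 : 0 < g) (hg : Real.log g = κ₀ * L * z.F + bf)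
    (hW0 : 0 < W₀) (hW : 2 * Real.log W₀ = κ₀ * L * (2 * z.W + z.al - 2 * z.E) + bf)
    (hnr0 : 0 < nr) (hnr : Real.log nr = κ₀ * L * (z.β / 2 + z.s))
    (hal : al ≤ κ₀ * L + δ * L) (hSb : Sb = X ^ (Tq - μ + ε) / (nr * Real.exp (al / 3)))
    (hHm : 0 ≤ Hm)
    (hBd : Bd = Hm ^ 2 * X ^ (κ₀ * (z'.k + 2 * z'.lam) + (κ₀ * V₀ + dl + ex + ε₃)))
    (h7 : κ₀ * (2 / 3 + (z'.β + z'.al - 2 * z'.E - z'.F + 2 * z'.s + 2 * z'.W) +
      V₀) + ex + ey ≤ 2 * Tq - 2 * μ - dl)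
    (hs : ε / 16 + 8 * (20 * η + δ) + ε₃ + (e - ey) ≤ ε) :
    g⁻¹ * (C * Yε * (aa / bb ^ 2 * Bd)) * X ^ e ≤ (Hm * (Sb / (W₀ * X ^ (ε / 2)))) ^ 2 := by
  have hL0 : 0 < L := by rw [hL]; exact Real.log_pos hX
  have hX0 : 0 < X := by linarith
  have hg' : 0 ≤ κ₀ * L := (mul_pos h0 hL0).le
  have hgL : κ₀ * L ≤ L := by nlinarith
  have hηL : 0 ≤ η * L := mul_nonneg hη hL0.le
  have hδL : 0 ≤ δ * L := mul_nonneg hδ hL0.le
  have n2 := abs_le.1 hn.k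
  have n5 := abs_le.1 hn.F
  have n6 := abs_le.1 hn.β
  have n7 := abs_le.1 hn.s
  have n8 := abs_le.1 hn.G
  have n9 := abs_le.1 hn.Y0
  have n10 := abs_le.1 hn.Y1
  have n11 := abs_le.1 hn.W
  have n12 := abs_le.1 hn.c02
  have n13 := abs_le.1 hn.c12
  have n14 := abs_le.1 hn.nu
  have n15 := abs_le.1 hn.al
  have n25 := abs_le.1 hn.E
  have n27 := abs_le.1 hn.sW
  have e1 : |z'.k - z.k| ≤ 1 * η := by
    rw [abs_le]
    constructor <;> linarith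
  have e2 : |(z'.k + z'.lam) - (z.k + z.lam)| ≤ 18 * η := by
    unfold Cls.lam Cls.s0
    rw [abs_le]
    constructor <;> linarith
  have e3 : |z'.F - z.F| ≤ 1 * η := by
    rw [abs_le]
    constructor <;> linarith
  have e4 : |(2 * z'.W + z'.al - 2 * z'.E) - (2 * z.W + z.al - 2 * z.E)| ≤ 5 * η := by
    rw [abs_le]
    constructor <;> linarith
  have e5 : |(z'.β / 2 + z'.s) - (z.β / 2 + z.s)| ≤ 2 * η := by
    rw [abs_le]
    constructor <;> linarith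
  have g1 := abs_le.1 (gmul hg' hgL e1)
  have g2 := abs_le.1 (gmul hg' hgL e2)
  have g3 := abs_le.1 (gmul hg' hgL e3)
  have g4 := abs_le.1 (gmul hg' hgL e4)
  have g5 := abs_le.1 (gmul hg' hgL e5)
  clear n2 n5 n6 n7 n8 n9 n10 n11 n12 n13 n14 n15 n25 n27 e1 e2 e3 e4 e5
  have hBd0 : 0 ≤ Bd := by
    rw [hBd]
    have := Real.rpow_nonneg hX0.le (κ₀ * (z'.k + 2 * z'.lam) + (κ₀ * V₀ + dl + ex + ε₃))
    positivity
  have hSb0 : 0 < Sb := by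
    rw [hSb]
    have := Real.rpow_pos_of_pos hX0 (Tq - μ + ε)
    have := Real.exp_pos (al / 3)
    positivity
  have hbf : bf / L * L = bf := div_mul_cancel₀ _ hL0.ne'
  have key := sx_num (X := X) (CY := C * Yε) (A := aa) (Bk := bb) (Sx := Bd) (g := g) (W₀ := W₀)
    (S := Sb) (Hm := Hm) (η := ε / 16) (k := κ₀ * z'.k) (lam := κ₀ * z'.lam)
    (V := κ₀ * V₀ + dl + ex + ε₃) (F := κ₀ * z'.F + bf / L) (ey := e)
    (w := κ₀ * (z'.W + z'.al / 2 - z'.E) + bf / L / 2)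
    (T := Tq - μ + ε - κ₀ * (z'.β / 2 + z'.s) - κ₀ / 3 - (20 * η + δ)) (τ := 20 * η + δ)
    (ε₁ := ε / 2) hX.le hCY0 ha0.le hBd0 hHm hW0 hCY
    (le_rpow_of hX ha0 (by rw [← hL]; linarith [g1.1, g1.2]))
    (rpow_le_of hX hb0 (by rw [← hL]; linarith [g2.1, g2.2]))
    (by
      rw [hBd]
      refine le_of_eq ?_
      congr 2
      ring)
    (rpow_le_of hX hg0 (by rw [← hL]; linarith [g3.1, g3.2]))
    (le_rpow_of hX hW0 (by rw [← hL]; linarith [g4.1, g4.2]))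
    (rpow_le_of hX hSb0 (by
      rw [← hL, hSb, Real.log_div (Real.rpow_pos_of_pos hX0 _).ne'
        (mul_pos hnr0 (Real.exp_pos _)).ne', Real.log_rpow hX0,
        Real.log_mul hnr0.ne' (Real.exp_pos _).ne', Real.log_exp, hnr, ← hL]
      linarith [g5.1, g5.2]))
    (fin_numV (bf := bf / L) h7 hs)
  refine le_trans (le_of_eq ?_) key
  ring

end Crest.Agent.R017.E4Df372
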