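import Crest.Agent.R017.StrM_436
import Crest.Agent.R017.E5Hh_48

/-!
# Row 17, T.3 : `StrU` of class N from its last inputs (helper436)

* `strU_N`  : from `XRU` (all bands), `HNDg`, `HNBg`, the level tails and `MomU`
-/

set_option autoImplicit false
set_option linter.unusedVariables false

noncomputable section

namespace Crest.Agent.R017.StrL436

open Crest.Agent.R012 Crest.Agent.R012.Eis
open Crest.Agent.R017.FE47 (PU cx SM)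
open Crest.Agent.R017.Sup271 (NPm)
open Crest.Agent.R017.XT71 (Sys Win)
open Crest.Agent.R017.B770
open Crest.Agent.R017.Prov71
open Crest.Agent.R017.ER911 Crest.Agent.R017.ExpC702
open Crest.Agent.R017.E5B71
open Crest.Agent.R017.E5L770
open Crest.Agent.R017.E4U164
open Crest.Agent.R017.TM708 (FE2L R5 K5)
open Crest.Agent.R017.P10146 (D5 D5_compact bP bP_mem)
open Crest.Agent.R017.Sf770 (JS okJ_JS)
open Crest.Agent.R017.StrU699 (XRU jpu_of)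
open Crest.Agent.R017.E5H319 (eT bT BandD LowD TailL LR)
open Crest.Agent.R017.E5Hg48 (loT strU_of_bandg hiDb_of')
open Crest.Agent.R017.P1t54 (ParS)

variable {Λ : Type*} {π : Λ → DPar} {h : ℝ → ℝ} {c₀ : ℝ} {rr : EF} {A d : ℝ}

lemma low_half (hd : 0 ≤ d) (hd1 : d ≤ 1 / 8) (hA1 : 16 * (1 - A) ≤ d)
    {q : (Fin 3 ⊕ Fin 5 → ℝ) × (Kd → ℝ)} (hq : q ∈ SqD A d) :
    low5 q.1 + d / 2 ≤ cκ q.1 := by
  have hR := (b5q_mem hd hd1 hA1 hq).1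
  have hT := hR.T5_le
  have hx := hR.x0
  have hκ : 8 / 9 ≤ cκ q.1 := (show Sq5 A d q.1 q.2 from hq).κ0
  have e0 : VFa436.b5q q.1 0 = cκ q.1 := rfl
  have e1 : VFa436.b5q q.1 1 = cu q.1 2 := rfl
  have e2 : VFa436.b5q q.1 2 = cu q.1 3 := rfl
  have e3 : VFa436.b5q q.1 3 = cu q.1 4 := rfl
  have e4 : VFa436.b5q q.1 4 = cx' q.1 := rfl
  have eN : cN q.1 = cu q.1 2 + cu q.1 3 + cu q.1 4 := rfl
  unfold TM708.T5 at hT
  rw [e0, e1, e2, e3, e4, ← eN] at hT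
  rw [e4] at hx
  unfold low5
  linarith

/-- **`StrU` of class N** -/
theorem strU_N {Λ' : Type*} {π' : Λ' → DPar} (hpu : PU h c₀)
    (hP : ∀ lam, (π lam).OK) (hN : ∀ lam k, k ≠ 0 → NPm (π lam).n (π lam).ψ (π lam).l₂ k)
    (hP' : ∀ lam, (π' lam).OK)
    (hN' : ∀ lam k, k ≠ 0 → NPm (π' lam).n (π' lam).ψ (π' lam).l₂ k)
    (hcov : ∀ P : DPar, P.OK → (∀ k : Eis, k ≠ 0 → NPm P.n P.ψ P.l₂ k) → ∃ lam, π' lam = P)
    {r s : EF} (R : ExpRules (7 / 8 + d) rr (ex Dq fun lam => Sp (π lam) h))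
    (R' : ExpRules (7 / 8 + d) r s) (C : ExpC r (ex Dq (fun lam => Rc (π' lam) h)))
    (hd : 0 < d) (hd1 : d ≤ 1 / 8) (hA : 99 / 100 ≤ A) (hA1 : A ≤ 1) (hAd : 16 * (1 - A) ≤ d)
    (hFE : FE2L (ex Dq fun lam => S0p (π lam) h) D5 fun b => 3 / 4 * d * b 0)
    {Rh : ℝ} (hRh0 : 0 ≤ Rh) (hRh : ∀ u, cx h u ≠ 0 → |u| ≤ Rh)
    {μ μ' : ℝ} (hμ : μ ≤ d / 32) (hμ' : μ' ≤ μ) {e0 : ℝ} (he0 : 0 ≤ e0)
    (he64 : e0 ≤ 1 / 64) (r0 : ℝ) {K : ℝ} (hK : 1 ≤ K) {σ : ℝ} (hσ : 0 < σ) (hσd : 2 * σ ≤ d)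
    (HX : ∀ t : ℝ, 0 < t → t ≤ 1 →
      XRU π h (7 / 8 + d) A d μ (eT e0 t) r0 K (bT t) (fun l N z => JS (nL l N z)))
    (hND : ∀ t : ℝ, 0 < t → t ≤ 1 → t / 4 < e0 →
      Hi948.HNDg π h (t / 4) e0 (ParS A d) (loT low5 d t σ) top5 (LR d))
    (hNB : ∀ t : ℝ, 0 < t → t ≤ 1 →
      Hi948.HNBg π h e0 (t / 2) (ParS A d) (loT low5 d t σ) top5 (LR d))
    (tl0 : TailL π h e0 r0 bfO (fun l N z => JS (nL l N z)) A d μ)
    (tl : ∀ t : ℝ, 0 < t → t ≤ 1 →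
      TailL π h (eT e0 t) r0 (bT t) (fun l N z => JS (nL l N z)) A d μ)
    (hm : MomU π h A d) :
    StrU π h (7 / 8 + d) (SfP π h e0 r0 bfO (fun l N z => JS (nL l N z)) nL) A d μ' :=
  strU_of_bandg hP (by linarith) hd hμ' (by linarith) e0 r0
    (fun q hq => top_low hd.le hd1 hAd hq) (fun q hq => low_half hd.le hd1 hAd hq) hσ hσd
    (al' := ∅)
    (fun t ht ht1 => lowD_of_XRU hpu hP hN hP' hN' hcov R R' C hd hd1 (by linarith) hA1 hAd hFE hμ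
      he0 he64 r0 ht.le hK (HX t ht ht1))
    (fun t ht ht1 => hiDb_of' hP hpu hRh0 hRh r0 he0 (by linarith) hA hd.le ht ht1
      (hND t ht ht1) (hNB t ht ht1) _)
    tl0 tl hm

end Crest.Agent.R017.StrL436
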