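import Mathlib

/-!
# Row 17, T.3, `StrU`: the exponents of one block (helper699)

* `sx_num` : the number of the `x`-bracket times `X^e` against the square of the target
-/

set_option autoImplicit false

noncomputable section

namespace Crest.Agent.R017.StrN699

/-- **the exponents of one block** -/
lemma sx_num {X CY A Bk Sx g W₀ S Hm η k lam V F ey w T τ ε₁ : ℝ} (hX : 1 ≤ X)
    (hCY0 : 0 ≤ CY) (hA0 : 0 ≤ A) (hSx0 : 0 ≤ Sx) (hHm : 0 ≤ Hm) (hW : 0 < W₀)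
    (h1 : CY ≤ X ^ η) (h2 : A ≤ X ^ (k + τ)) (h3 : X ^ (k + lam - τ) ≤ Bk)
    (h4 : Sx ≤ Hm ^ 2 * X ^ (k + 2 * lam + V)) (h5 : X ^ (F - τ) ≤ g) (h6 : W₀ ≤ X ^ (w + τ))
    (h7 : X ^ T ≤ S)
    (hfin : η + 6 * τ + V - F + ey + 2 * w + 2 * ε₁ ≤ 2 * T) :
    CY * (A / Bk ^ 2 * Sx) * g⁻¹ * X ^ ey ≤ (Hm * (S / (W₀ * X ^ ε₁))) ^ 2 := by
  have hX0 : 0 < X := by linarith
  have p : ∀ r : ℝ, 0 < X ^ r := fun r => Real.rpow_pos_of_pos hX0 r
  have hg0 : 0 < g := (p _).trans_le h5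
  have hBk0 : 0 < Bk := (p _).trans_le h3
  have hS0 : 0 < S := (p _).trans_le h7
  have e1 : A / Bk ^ 2 ≤ X ^ (k + τ) / X ^ (2 * (k + lam - τ)) := by
    have h8 : X ^ (2 * (k + lam - τ)) ≤ Bk ^ 2 := by
      rw [mul_comm, Real.rpow_mul hX0.le, Real.rpow_two]
      exact pow_le_pow_left₀ (p _).le h3 2
    exact div_le_div₀ (p _).le h2 (p _) h8
  have e2 : g⁻¹ ≤ X ^ (-(F - τ)) := by
    rw [Real.rpow_neg hX0.le]
    exact inv_anti₀ (p _) h5
  have e3 : X ^ T / (X ^ (w + τ) * X ^ ε₁) ≤ S / (W₀ * X ^ ε₁) := by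
    refine div_le_div₀ hS0.le h7 (by have := p ε₁; positivity) ?_
    exact mul_le_mul_of_nonneg_right h6 (p _).le
  calc CY * (A / Bk ^ 2 * Sx) * g⁻¹ * X ^ ey
      ≤ X ^ η * (X ^ (k + τ) / X ^ (2 * (k + lam - τ)) * (Hm ^ 2 * X ^ (k + 2 * lam + V))) *
          X ^ (-(F - τ)) * X ^ ey := by
        have a1 : A / Bk ^ 2 * Sx ≤
            X ^ (k + τ) / X ^ (2 * (k + lam - τ)) * (Hm ^ 2 * X ^ (k + 2 * lam + V)) :=
          mul_le_mul e1 h4 hSx0 (by have := p (k + τ); have := p (2 * (k + lam - τ)); positivity)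
        have a2 : 0 ≤ A / Bk ^ 2 * Sx := by positivity
        have a3 := mul_le_mul h1 a1 a2 (p _).le
        have a4 := mul_le_mul a3 e2 (by positivity)
          (by have := p (k + τ); have := p (2 * (k + lam - τ)); have := p η
              have := p (k + 2 * lam + V); positivity)
        exact mul_le_mul_of_nonneg_right a4 (p _).le
    _ = Hm ^ 2 * X ^ (η + 4 * τ + V - F + ey) := by
        obtain ⟨a, ha⟩ : ∃ a : ℝ, a = k + τ := ⟨_, rfl⟩
        obtain ⟨b, hb⟩ : ∃ b : ℝ, b = 2 * (k + lam - τ) := ⟨_, rfl⟩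
        obtain ⟨c, hc⟩ : ∃ c : ℝ, c = k + 2 * lam + V := ⟨_, rfl⟩
        obtain ⟨f, hf⟩ : ∃ f : ℝ, f = -(F - τ) := ⟨_, rfl⟩
        have e : η + 4 * τ + V - F + ey = η + a - b + c + f + ey := by
          rw [ha, hb, hc, hf]; ring
        rw [← ha, ← hb, ← hc, ← hf, e, Real.rpow_add hX0, Real.rpow_add hX0, Real.rpow_add hX0,
          Real.rpow_sub hX0, Real.rpow_add hX0]
        ring
    _ ≤ Hm ^ 2 * X ^ (2 * (T - (w + τ) - ε₁)) := by
        refine mul_le_mul_of_nonneg_left ?_ (sq_nonneg _)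
        exact Real.rpow_le_rpow_of_exponent_le hX (by linarith)
    _ = (Hm * (X ^ T / (X ^ (w + τ) * X ^ ε₁))) ^ 2 := by
        have e : X ^ (2 * (T - (w + τ) - ε₁)) = (X ^ T / (X ^ (w + τ) * X ^ ε₁)) ^ 2 := by
          rw [mul_comm, Real.rpow_mul hX0.le, Real.rpow_two, Real.rpow_sub hX0, Real.rpow_sub hX0,
            div_div]
        rw [e]
        ring
    _ ≤ (Hm * (S / (W₀ * X ^ ε₁))) ^ 2 := by
        have := p T
        have := p (w + τ)
        have := p ε₁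
        gcongr

end Crest.Agent.R017.StrN699
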