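import Crest.Agent.R017.StrS_858
import Crest.Agent.R017.StrT_858
import Crest.Agent.R017.E5M_372

/-!
# Row 17, T.3 : `StrU` at the official structured function (helper858)

`strU_top` : `StrU` from the low bands (`LowD`), the high levels (`HNDg`, `HNBg`), the moments of
the tail (`SPs`) and the own numbers
-/

set_option autoImplicit false

noncomputable section

namespace Crest.Agent.R017.StrT858

open Crest.Agent.R012 Crest.Agent.R012.Eis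
open Crest.Agent.R017.FE47 (PU cx)
open Crest.Agent.R017.Sup271 (NPm)
open Crest.Agent.R017.B770 Crest.Agent.R017.Prov71
open Crest.Agent.R017.ER911 Crest.Agent.R017.ExpC702 Crest.Agent.R017.SC777
open Crest.Agent.R017.E5B71 Crest.Agent.R017.E5L770 Crest.Agent.R017.E5P571
open Crest.Agent.R017.E5H319 Crest.Agent.R017.E5Hg48
open Crest.Agent.R017.TU47 Crest.Agent.R017.TSc968
open Crest.Agent.R017.P1l54 (Jo)

variable {Λ : Type*} {π : Λ → DPar} {h : ℝ → ℝ} {c₀ d A r : ℝ} {re s s₀ bc : EF}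

/-- **`StrU` at the official structured function** -/
theorem strU_top (hpu : PU h c₀) (hP : ∀ lam, (π lam).OK)
    (hN : ∀ lam, ∀ k : Eis, k ≠ 0 → NPm (π lam).n (π lam).ψ (π lam).l₂ k)
    (P : ProvE (7 / 8 + d) re s s₀ (ex Dq (fun lam => Rc (π lam) h)) bc) (hd : 0 < d)
    (hd1 : d ≤ 1 / 42) (hA : 99 / 100 ≤ A) (hA1 : A < 1) (hA2 : 16 * (1 - A) ≤ d)
    (hr0 : 0 ≤ r) (hr : ∀ u : ℝ, cx h u ≠ 0 → |u| ≤ r)
    (hown : Own (ex Dq fun lam => S0p (π lam) h) d)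
    {μ₁ : ℝ} (hμ₁ : 0 < μ₁) (hSP : SPs π h A d r μ₁) {μ₂ : ℝ} (hμ₂ : 0 < μ₂)
    (low : ∀ t, 0 < t → t ≤ 1 → LowD π h (1 / 64) r Jo A d μ₂ E4U164.low5 t)
    {σ : ℝ} (hσ : 0 < σ) (hσd : 2 * σ ≤ d)
    (hND : ∀ t, 0 < t → t ≤ 1 → Hi948.HNDg π h (eT (1 / 64) t) (1 / 64) (P1t54.ParS A d)
      (loT E4U164.low5 d t σ) top5 (LR d))
    (hNB : ∀ t, 0 < t → t ≤ 1 → Hi948.HNBg π h (1 / 64) (t / 2) (P1t54.ParS A d)
      (loT E4U164.low5 d t σ) top5 (LR d)) :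
    ∃ μ : ℝ, 0 < μ ∧ StrU π h (7 / 8 + d) (SfP π h (1 / 64) r bfO Jo nL) A d μ := by
  obtain ⟨μ, hμ, H⟩ := tails_of hpu hP hN P hd hd1 hA hA1 hA2 hown hμ₁ hSP
  exact strU_top0 hpu hP hd hd1 hA hr0 hr hμ
    (H μ le_rfl _ (by norm_num) le_rfl _ fun _ _ _ => le_rfl)
    (fun t h1 h2 => H μ le_rfl _ (le_min (by norm_num) (by linarith)) (min_le_left _ _) _
      fun _ _ _ => min_le_left _ _) hμ₂ low hσ hσd hND hNB
    (E5M372.momU_372 hpu hP P.rules P.cpl hd.le hA)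

end Crest.Agent.R017.StrT858
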