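import Mathlib

/-!
# Row 17, StrU: selection of fine pieces (helper699)

* `sel` : a subset of fine pieces with prescribed total length
-/

set_option autoImplicit false

namespace Crest.Agent.R017.Str699

open Finset

/-- a subset of fine pieces with prescribed total -/
theorem sel {ι : Type*} {f : ι → ℝ} {w : ℝ} (hw : 0 ≤ w) (s : Finset ι)
    (hf : ∀ i ∈ s, 0 ≤ f i ∧ f i ≤ w) {x : ℝ} (h0 : 0 ≤ x) (hx : x ≤ ∑ i ∈ s, f i) :
    ∃ mv ⊆ s, x ≤ ∑ i ∈ mv, f i ∧ ∑ i ∈ mv, f i ≤ x + w := by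
  classical
  induction s using Finset.induction_on with
  | empty =>
    refine ⟨∅, subset_rfl, ?_, ?_⟩
    · simpa using hx
    · simp only [sum_empty]; linarith
  | insert a s ha ih =>
    by_cases h : x ≤ ∑ i ∈ s, f i
    · obtain ⟨mv, h1, h2, h3⟩ := ih (fun i hi => hf i (mem_insert_of_mem hi)) h
      exact ⟨mv, h1.trans (subset_insert _ _), h2, h3⟩
    · refine ⟨insert a s, subset_rfl, hx, ?_⟩
      rw [sum_insert ha]
      have := (hf a (mem_insert_self _ _)).2
      linarith [not_le.1 h]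

/-- the same with a cap: total at most the target, loss at most one piece -/
theorem sel' {ι : Type*} {f : ι → ℝ} {w : ℝ} (hw : 0 ≤ w) (s : Finset ι)
    (hf : ∀ i ∈ s, 0 ≤ f i ∧ f i ≤ w) {x : ℝ} (h0 : 0 ≤ x) (hx : x ≤ ∑ i ∈ s, f i) :
    ∃ mv ⊆ s, x - w ≤ ∑ i ∈ mv, f i ∧ ∑ i ∈ mv, f i ≤ x := by
  classical
  induction s using Finset.induction_on with
  | empty =>
    refine ⟨∅, subset_rfl, ?_, ?_⟩
    · simp only [sum_empty] at hx ⊢; linarith
    · simpa using h0
  | insert a s ha ih =>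
    by_cases h : x ≤ ∑ i ∈ s, f i
    · obtain ⟨mv, h1, h2, h3⟩ := ih (fun i hi => hf i (mem_insert_of_mem hi)) h
      exact ⟨mv, h1.trans (subset_insert _ _), h2, h3⟩
    · refine ⟨s, subset_insert _ _, ?_, (not_le.1 h).le⟩
      rw [sum_insert ha] at hx
      have := (hf a (mem_insert_self _ _)).2
      linarith

end Crest.Agent.R017.Str699
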