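import Crest.Agent.R017.YsUE_372
import Crest.Agent.R017.E4JX_372
import Crest.Agent.R017.StrU_699

/-!
# Row 17, T.3, `StrUX`: `JPUX` from the `x`-side and the reals (helper372)

helper699's `StrU` for the exceptional class.

* `XBlkX` : the premise of `YsCE` for one block of `JPUX`
* `XRUX` : the same at all data;  `jpux_of` : `XRUX ⟹ JPUX`
-/

set_option autoImplicit false

noncomputable section

open Finset Complex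
open scoped ComplexConjugate

namespace Crest.Agent.R017.E4Df372

open Crest.Agent.R012 Crest.Agent.R012.Eis
open Crest.Agent.R012.Mob705 hiding pb mem_pb
open Crest.Agent.R017.Sx545 (Sm)
open Crest.Agent.R017.CM106 (FS CS)
open Crest.Agent.R017.C70 (OKJ)
open Crest.Agent.R017.FE47 (PU SM)
open Crest.Agent.R017.End699 (HC prin0 hc_prin0)
open Crest.Agent.R017.Sup271 (NPm)
open Crest.Agent.R017.B770
open Crest.Agent.R017.Prov71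
open Crest.Agent.R017.Rough381
open Crest.Agent.R017.ER911 Crest.Agent.R017.ExpC702
open Crest.Agent.R017.E4352 (PrI Dat4 rd)
open Crest.Agent.R017.E5B71
open Crest.Agent.R017.E5L770
open Crest.Agent.R017.ExP960 hiding alX
open Crest.Agent.R017.E4D164 hiding E4L
open Crest.Agent.R017.E4J352
open Crest.Agent.R017.E4U164
open Crest.Agent.R017.E4ap783 (TG7)
open Crest.Agent.R017.E4X266 (PrC rngDC rngFC)
open Crest.Agent.R017.E4RH858 (Pf pf wP be1 JP0w)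
open Crest.Agent.R017.TwP61
open Crest.Agent.R017.E4Dic352 (bkP cP Spl)
open Crest.Agent.R017.JyF744 (nu2 yK)
open Crest.Agent.R017.Red848 (Exc)
open Crest.Agent.R017.YU61 Crest.Agent.R017.YM61
open Crest.Agent.R017.YsM61
open Crest.Agent.R017.YsU61 hiding mem_amL mem_moL
open Crest.Agent.R017.StrU699 (Wt Wt_nonneg gx_prin0)

section

variable {Λ : Type*} (π : Λ → DPar) (h : ℝ → ℝ)

/-- **the premise of the `y`-side for one block**, non-principal frequencies -/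
def XBlkX (d K R₁ σ ρ ε : ℝ) (M₁ : ℕ) (B₁ X Sb : ℝ) (Jf : ℝ → ℝ → ℝ → Finset (Eis × Eis))
    (lam : Λ × Eis) (a : BdX × ℕ) (ps : List Pq) (x : Dt) (j : Fin 2)
    (h₁ : FS (b1 (π lam.1) h lam.2 ps)) (h₂ : FS (b2X (π lam.1) h lam.2 a.1 ps j))
    (tt : (Eis → ℂ) × ℤ) (ξ : ℝ) (G : Eis → ℂ) (rng : Tm (x.O π lam Jf (bl a)) → Prop) : Prop :=
  ∀ (c : E4J352.Win) (P : Pf) (β : Eis) (τ : Eis × Eis × Eis)
    (𝒥 : Finset (Tm (x.O π lam Jf (bl a)))), 𝒥.Nonempty →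
    (∀ t ∈ 𝒥, t.OK (π lam.1).n₃ 1 ∧
      t.val 1 lD (vE π h lam Jf a x) (wE π h lam Jf a ps x j h₁ h₂) G ≠ 0 ∧ t.In lD c ∧ rng t ∧
      pf t = P ∧ bo3 t = β ∧ soL x (fN (π lam.1).n₃ (x.E a.1.toBd)) t = τ) →
    ∃ (b0 : Eis) (kn : Tm (x.O π lam Jf (bl a)) → Eis) (l : ℝ), IsPrim b0 ∧
      (∀ t ∈ 𝒥, t.k * nu2 t.o = kn t * b0 ^ 3 ∧ (∀ p : Eis, Prime p → p ∣ b0 → p ∣ nu2 t.o) ∧
        (nm (yK nu2 t) : ℝ) ≤ X ^ B₁) ∧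
      0 ≤ l ∧ Real.exp l ≤ X ^ B₁ ∧
      (∀ t ∈ 𝒥, (nm (yF kn E4RH858.b1 (bkP P) t) : ℝ) ≤ Real.exp l) ∧
      ∀ t ∈ 𝒥, ∀ f1 f2 f3 D1' Z'' l' m : Eis,
        Spl (π lam.1).n₃ (fN (π lam.1).n₃ (x.E a.1.toBd)) x.z t f1 f2 f3 D1' Z'' l' m →
        IsCoprime (D1' * Z'') b0 →
        Real.log (nm l') + Real.log (nm D1') ≤ Ls (amL ps) + ρ * Real.log X →
        Real.log (nm m) ≤ (a.1.us 0).z + (a.1.us 1).z + Ls (moL ps) + ρ * Real.log X →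
        ∃ κ Mv qv wv y mx e Sx : ℝ,
          Nom K (σ / 4) (Real.log X) l ((a.1.us 0).z + (a.1.us 1).z) (Real.log (nm m))
            (Ls (moL ps)) (Ls (amL ps)) (Real.log (nm l') + Real.log (nm D1')) κ Mv qv wv y mx ∧
          (GoodYM d κ Mv qv wv y e ∨
            YT 𝒥 (yF kn E4RH858.b1 (bkP P)) X Mv qv wv e) ∧ 0 ≤ Sx ∧
          Sx * X ^ e ≤ ((1 + |ξ|) ^ M₁ * (Sb / (nm (be1 x.e₀ β) *
            wP (fN (π lam.1).n₃ (x.E a.1.toBd)) P * X ^ ε))) ^ 2 ∧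
          XSide h (tU (π lam.1) lam.2) (amL ps) (π lam.1).n₃
            (P.B * (bkP P * cP P ^ 3) * b0) tt.1 tt.2 ξ x.z 𝒥 (yF kn E4RH858.b1 (bkP P))
            (Wt (vE π h lam Jf a x) G) (Real.log X) σ R₁
            (Real.log (nm l') + Real.log (nm D1')) mx Sx

/-- **the `x`-side and the reals at all data**, many scales -/
def XRUX (θ A d β μ e0 r K : ℝ) (Bf : ℕ → ℝ → ℝ → ℝ → ℝ) (Jf : ℝ → ℝ → ℝ → Finset (Eis × Eis)) :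
    Prop :=
  ∀ ε : ℝ, 0 < ε → ∀ σ₀ R₁ : ℝ, 0 < σ₀ → 0 ≤ R₁ → ∃ σ : ℝ, 0 < σ ∧ σ ≤ σ₀ ∧
  ∃ ρ : ℝ, 0 < ρ ∧
  ∃ ε' : ℝ, 0 < ε' ∧ ε' ≤ ε ∧ ∃ δ : ℝ, 0 < δ ∧ δ ≤ σ / 4 ∧
    ∀ (lam : Λ × Eis) (N : ℕ) (B : ℝ)
    (T : Finset ((Eis → ℂ) × ℤ)), ¬ (π lam.1).CaseD →
    (∀ t ∈ T, TG7 (π lam.1).n₃ 0 t) →
    ∃ (B₁ : ℝ) (M₁ : ℕ), 0 ≤ B₁ ∧ ∃ δ' : ℝ, 0 < δ' ∧ ∃ X₀ : ℝ, 1 < X₀ ∧ ∀ X : ℝ, X₀ ≤ X →
    ∀ (a : BdX × ℕ) (ps : List Pq) (q : (Option IX5 → ℝ) × (Kd → ℝ)),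
      FrLX A d β δ δ' B X N a ps q → a.1.ok → lam.2 ∈ SM (π lam.1).n → a.1.okP (π lam.1) →
    ∀ x : Dt, x.OK (π lam.1) (Bf a.2) e0 r ε' X a.1.toBd → XLowX d X q x →
    (x.I Jf (bl a)).Nonempty →
    ∀ (j : Fin 2) (h₁ : FS (b1 (π lam.1) h lam.2 ps))
      (h₂ : FS (b2X (π lam.1) h lam.2 a.1 ps j)),
    (1 ≤ X ^ ε' * Real.exp a.1.l * Real.exp (-hE (π lam.1) a ps x) →
      XBlkX π h d K R₁ σ ρ (ε / 2) M₁ B₁ X
        (X ^ (T5 θ (prQ (dn q.1, q.2)) - μ + ε) / (nrm x * Real.exp (a.1.l / 3))) Jf lam a ps x j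
        h₁ h₂ (prin0 (π lam.1).n₃, 0) 0 (fun _ => 1)
        (rngDC cD (fun _ _ _ _ _ => False) lD
          (X ^ ε' * Real.exp a.1.l * Real.exp (-hE (π lam.1) a ps x)))) ∧
    ∀ s : ℝ, 0 ≤ s → s < hE (π lam.1) a ps x →
    ∃ (sw : Eis → Eis → Eis → Eis → Eis → Prop) (T₀ : ℝ), 0 ≤ T₀ ∧
      (∀ D0 D1 B R Z : Eis, sw D0 D1 B R Z → (nm D1 : ℝ) * nm (rd Z) ≤ 2 * T₀) ∧
      XBlkX π h d K R₁ σ ρ (ε / 2) M₁ B₁ X
        (X ^ (T5 θ (prQ (dn q.1, q.2)) - μ + ε) / (nrm x * Real.exp (a.1.l / 3))) Jf lam a ps x j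
        h₁ h₂ (prin0 (π lam.1).n₃, 0) 0 (fun _ => 1)
        (rngDC cD sw lD (X ^ ε' * Real.exp a.1.l * Real.exp (-s))) ∧
      ∀ t ∈ T, ∀ ξ : ℝ,
        XBlkX π h d K R₁ σ ρ (ε / 2) M₁ B₁ X
          (X ^ (T5 θ (prQ (dn q.1, q.2)) - μ + ε) / (nrm x * Real.exp (a.1.l / 3))) Jf lam a ps x
          j h₁ h₂ t ξ (gx t.1 t.2 ξ)
          (rngFC cD sw lD
            (X ^ ε' * (U0 (π lam.1) (bl a) ps x / (Real.exp a.1.l * Real.exp (-s)))))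

end

section

variable {Λ Λ' : Type*} {π : Λ → DPar} {π' : Λ' → DPar} {h : ℝ → ℝ} {c₀ : ℝ} (hpu : PU h c₀)
  (hP : ∀ lam, (π lam).OK) (hE : ∀ lam, Exc (π lam))
  (h3 : ∀ lam, ¬ (π lam).CaseD → (π lam).l₃ = 0)
  (hP' : ∀ lam, (π' lam).OK) (hcov : ∀ P : DPar, P.OK → Exc P → ∃ lam, π' lam = P)
  {r s : EF} {A d : ℝ} (R : ExpRules (7 / 8 + d) r s)
  (C : ExpC r (ex Dq (fun lam => Rc (π' lam) h)))

include hpu hP hE h3 hP' hcov R C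

set_option maxHeartbeats 1000000 in
/-- **`JPUX` from the `x`-side and the reals** -/
theorem jpux_of (hd : 0 ≤ d) (hd8 : d ≤ 1 / 8) (hA : 2 / 3 ≤ A) {K : ℝ} (hK : 1 ≤ K)
    {θ β μ e0 r0 : ℝ} {Bf : ℕ → ℝ → ℝ → ℝ → ℝ} {Jf : ℝ → ℝ → ℝ → Finset (Eis × Eis)}
    (hJf : ∀ l N z, OKJ (Jf l N z)) (HX : XRUX π h θ A d β μ e0 r0 K Bf Jf) :
    JPUX π h θ A d β μ e0 r0 Bf Jf := by
  classical
  intro ε hε
  obtain ⟨σ₀, R₁, hσ₀, hR₁, V⟩ := ysUE hpu hP hE h3 hP' hcov R C β hd hd8 hA hK e0 r0 Bf hJf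
    (ε := ε / 2) (by linarith)
  obtain ⟨σ, hσ, hσσ, ρ, hρ, ε', hε', hεε, δ, hδ, hδσ, HX⟩ := HX ε hε σ₀ R₁ hσ₀ hR₁
  refine ⟨ε', hε', hεε, δ, hδ, fun lam N B T hD hT => ?_⟩
  obtain ⟨B₁, M₁, hB₁, δ', hδ', X₁, hX₁, HX⟩ := HX lam N B T hD hT
  obtain ⟨M₀, δ₁, X₂, hδ₁, hX₂, V⟩ := V σ hσ hσσ ρ hρ lam N B ε' B₁ hB₁
    (insert (prin0 (π lam.1).n₃, 0) T) hD (by
      intro t ht
      rcases Finset.mem_insert.1 ht with h1 | h1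
      · exact Or.inl h1
      · refine Or.inr ?_
        rw [h3 lam.1 hD, neg_zero]
        exact hT t h1)
  refine ⟨((M₀ + M₁ : ℕ) : ℝ), Nat.cast_nonneg _, min δ' δ₁, lt_min hδ' hδ₁, max X₁ X₂,
    lt_of_lt_of_le hX₁ (le_max_left _ _), ?_⟩
  intro X hX a ps q hF hok hl2 hokP x hx hlow hne j h₁ h₂
  have hXX₁ : X₁ ≤ X := (le_max_left _ _).trans hX
  have hXX₂ : X₂ ≤ X := (le_max_right _ _).trans hX
  have hX1 : 1 < X := hX₁.trans_le hXX₁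
  have hX0 : 0 < X := by linarith
  obtain ⟨HH, HS⟩ := HX X hXX₁ a ps q
    (hF.mono hX1.le le_rfl (min_le_left _ _)) hok hl2 hokP x hx hlow hne j h₁ h₂
  obtain ⟨Sb, hSb⟩ : ∃ Sb : ℝ, Sb = X ^ (T5 θ (prQ (dn q.1, q.2)) - μ + ε) /
    (nrm x * Real.exp (a.1.l / 3)) := ⟨_, rfl⟩
  rw [← hSb] at HH HS
  have hnrm : 0 ≤ nrm x := by
    unfold nrm
    positivity
  have hSb0 : 0 ≤ Sb := by
    rw [hSb]
    positivity
  have key : ∀ (tt : (Eis → ℂ) × ℤ), tt ∈ insert (prin0 (π lam.1).n₃, 0) T → ∀ (ξ : ℝ)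
      (G : Eis → ℂ), (∀ y, Sm (π lam.1).n₃ y → G y = gx tt.1 tt.2 ξ y) →
      ∀ rng : Tm (x.O π lam Jf (bl a)) → Prop,
      (∀ t, rng t → ¬ PrC (cD t.o) (t.D0 * t.D1) (t.b * t.k)) →
      XBlkX π h d K R₁ σ ρ (ε / 2) M₁ B₁ X Sb Jf lam a ps x j h₁ h₂ tt ξ G rng →
      JP0w (π lam.1).n₃ (fN (π lam.1).n₃ (x.E a.1.toBd)) (fun β => (nm (be1 x.e₀ β) : ℝ)) bo3
        (soL x (fN (π lam.1).n₃ (x.E a.1.toBd))) lD (vE π h lam Jf a x)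
        (wE π h lam Jf a ps x j h₁ h₂) G rng ((1 + |ξ|) ^ (M₀ + M₁) * Sb) := by
    intro tt htt ξ G hG rng hrng HB c P β τ 𝒥 hJ
    have hξ : 0 < 1 + |ξ| := by
      have := abs_nonneg ξ
      linarith
    rcases Finset.eq_empty_or_nonempty 𝒥 with h𝒥 | hne
    · rw [h𝒥, Finset.sum_empty, mul_zero, mul_zero]
      positivity
    obtain ⟨b0, kn, l, hb0, hk, hl0, hlX, hKle, HB⟩ := HB c P β τ 𝒥 hne hJ
    have hβ : (0 : ℝ) < nm (be1 x.e₀ β) := by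
      exact_mod_cast nm_pos.2 (E4RH858.be1_prim _ _).ne_zero
    have hw : 0 < wP (fN (π lam.1).n₃ (x.E a.1.toBd)) P := by
      rw [E4Dic352.wP_eq]
      exact Real.exp_pos _
    have hXe : 0 < X ^ (ε / 2) := Real.rpow_pos_of_pos hX0 _
    have main := V tt htt X hXX₂ δ (min δ' δ₁) ε' hδσ (min_le_right _ _) le_rfl a ps q hF hok hl2
      hokP x hx j h₁ h₂ ξ G hG P b0 kn 𝒥 hb0
      (fun t ht => by
        obtain ⟨g1, g2, g3, g4, g5, g6, g7⟩ := hJ t ht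
        obtain ⟨k1, k2, k3⟩ := hk t ht
        exact ⟨g1, g2, g5, k1, k2, k3⟩)
      l hl0 hlX hKle (fun t ht => hrng t (hJ t ht).2.2.2.1) (Wt (vE π h lam Jf a x) G)
      (fun t _ => Wt_nonneg _ _ t)
      ((1 + |ξ|) ^ M₁ * (Sb / (nm (be1 x.e₀ β) *
        wP (fN (π lam.1).n₃ (x.E a.1.toBd)) P * X ^ (ε / 2)))) (by positivity)
      (fun t ht => HB t ht)
    have e1 : ∑ t ∈ 𝒥, (nm (t.D1 * E4RH858.b1 t) : ℝ) ^ (-(1 / 2) : ℝ) *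
        ((lD t.o * nm t.k)⁻¹ * (‖t.xs (vE π h lam Jf a x) G‖ *
          ‖t.ys (wE π h lam Jf a ps x j h₁ h₂) G‖)) =
        ∑ t ∈ 𝒥, Wt (vE π h lam Jf a x) G t * ‖t.ys (wE π h lam Jf a ps x j h₁ h₂) G‖ := by
      refine Finset.sum_congr rfl fun t _ => ?_
      unfold StrU699.Wt
      ring
    show (nm (be1 x.e₀ β) : ℝ) * (wP (fN (π lam.1).n₃ (x.E a.1.toBd)) P * _) ≤ _
    rw [e1]
    calc (nm (be1 x.e₀ β) : ℝ) * (wP (fN (π lam.1).n₃ (x.E a.1.toBd)) P *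
          ∑ t ∈ 𝒥, Wt (vE π h lam Jf a x) G t * ‖t.ys (wE π h lam Jf a ps x j h₁ h₂) G‖)
        ≤ (nm (be1 x.e₀ β) : ℝ) * (wP (fN (π lam.1).n₃ (x.E a.1.toBd)) P *
          ((1 + |ξ|) ^ M₀ * X ^ (ε / 2) * ((1 + |ξ|) ^ M₁ * (Sb / (nm (be1 x.e₀ β) *
            wP (fN (π lam.1).n₃ (x.E a.1.toBd)) P * X ^ (ε / 2)))))) :=
          mul_le_mul_of_nonneg_left (mul_le_mul_of_nonneg_left main hw.le) hβ.le
      _ = (1 + |ξ|) ^ (M₀ + M₁) * Sb := by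
          rw [pow_add]
          field_simp
  refine ⟨fun h1 => ?_, fun s hs0 hs1 => ?_⟩
  · have h2 := key (prin0 (π lam.1).n₃, 0) (Finset.mem_insert_self _ _) 0 (fun _ => 1)
      (fun y hy => gx_prin0 hy) _ (fun t ht => ht.2) (HH h1)
    rw [← hSb]
    simpa using h2
  · obtain ⟨sw, T₀, hT₀, hsw, HD, HG⟩ := HS s hs0 hs1
    refine ⟨sw, T₀, hT₀, hsw, ?_, ?_⟩
    · have h1 := key (prin0 (π lam.1).n₃, 0) (Finset.mem_insert_self _ _) 0 (fun _ => 1)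
        (fun y hy => gx_prin0 hy) _ (fun t ht => ht.2) HD
      rw [← hSb]
      simpa using h1
    · intro t ht ξ
      have h1 := key t (Finset.mem_insert_of_mem ht) ξ (gx t.1 t.2 ξ) (fun _ _ => rfl) _
        (fun t ht => ht.2) (HG t ht ξ)
      rw [← hSb, Real.rpow_natCast]
      exact h1

end

end Crest.Agent.R017.E4Df372
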