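import Crest.Agent.R017.StrD_699
import Crest.Agent.R017.StrN_699
import Crest.Agent.R017.StrU_699
import Crest.Agent.R017.BKn_858
import Crest.Agent.R017.XSe_512
import Crest.Agent.R017.E4Sb_352
import Crest.Agent.R017.E4Gy_918

/-!
# Row 17, T.3, `StrU`: one term in numbers (helper699)

* `nom_num` : 61's `Nom` from the nearness of the classes
* `fin_num` : the final inequality
* `TN` : the logarithms of one term;  `tn_of`
-/

set_option autoImplicit false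
set_option linter.unusedSectionVars false

noncomputable section

open Finset Complex
open scoped ComplexConjugate

namespace Crest.Agent.R017.StrV699

open Crest.Agent.R012 Crest.Agent.R012.Eis
open Crest.Agent.R012.Mob705 hiding pb mem_pb kap
open Crest.Agent.R017.Sx545 (Sm)
open Crest.Agent.R017.CM106 (FS CS)
open Crest.Agent.R017.C70 (OKJ)
open Crest.Agent.R017.FE47 (PU SM)
open Crest.Agent.R017.B770
open Crest.Agent.R017.Prov71
open Crest.Agent.R017.Rough381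
open Crest.Agent.R017.E4352 (PrI Dat4 rd)
open Crest.Agent.R017.E5B71
open Crest.Agent.R017.E5L770
open Crest.Agent.R017.E4D164
open Crest.Agent.R017.E4J352
open Crest.Agent.R017.E4U164
open Crest.Agent.R017.E4R70
open Crest.Agent.R017.Nm918 (Near)
open Crest.Agent.R017.E4RH858 (Pf pf wP be1 be2 kl Facts)
open Crest.Agent.R017.E4Dic352
open Crest.Agent.R017.E4St352
open Crest.Agent.R017.E4F858 (R1S R2S m1S m2S lS_m)
open Crest.Agent.R017.Str699 (nu0 b3)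
open Crest.Agent.R017.JxS679 (sk)
open Crest.Agent.R017.JyF744 (nu2)
open Crest.Agent.R017.YsM61
open Crest.Agent.R017.YsU61
open Crest.Agent.R017.BK858
open Crest.Agent.R017.StrD699 (zT Vx)

/-! ### numbers -/

lemma abs_div_of {A B τ L : ℝ} (hL : 0 < L) (h : |A - B * L| ≤ τ * L) : |A / L - B| ≤ τ := by
  have e : A / L - B = (A - B * L) / L := by field_simp
  rw [e, abs_div, abs_of_pos hL, div_le_iff₀ hL]
  exact h

lemma gmul {g L s e : ℝ} (hg : 0 ≤ g) (hgL : g ≤ L) (h : |s| ≤ e) : |g * s| ≤ e * L := by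
  rw [abs_mul, abs_of_nonneg hg]
  have h1 := abs_nonneg s
  nlinarith

lemma max_near {y t τ : ℝ} (ht : 0 ≤ t) (h : |y - t| ≤ τ) : |max 0 y - t| ≤ τ := by
  obtain ⟨h1, h2⟩ := abs_le.1 h
  rw [abs_le]
  constructor
  · linarith [le_max_right 0 y]
  · rcases max_cases 0 y with ⟨e, -⟩ | ⟨e, -⟩ <;> rw [e]
    · have := abs_nonneg (y - t)
      linarith
    · linarith

set_option maxHeartbeats 2000000 in
/-- **61's `Nom`** from the nearness of the classes -/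
lemma nom_num {K τ L l uu lm Lmo Lam lDl κ₀ η δ M a c cx r d N κ mx : ℝ} {z z' : Cls}
    (hL : 0 < L) (h0 : 0 < κ₀) (h1 : κ₀ ≤ 1) (hη : 0 ≤ η) (hδ : 0 ≤ δ)
    (hn : Near η z z') (ho : z'.Ok d r N M a c cx) (hky : z'.ky ≤ 1) (hx0 : 0 ≤ mx)
    (hxc : mx ≤ κ₀ * z'.c1 c) (hk1 : κ₀ * z'.ky - 3 * (κ₀ * z'.s1) ≤ κ) (hk2 : κ ≤ κ₀ * z'.ky)
    (hl : l ≤ κ₀ * L * (z.ky - 3 * z.s1) + η * L)
    (hm : lm = κ₀ * L * (z.m + z.zm)) (hD : lDl = κ₀ * L * (z.η + z.b1 + z.l))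
    (huu : |uu - κ₀ * M * L| ≤ 2 * δ * L) (hmo : |Lmo - κ₀ * a * L| ≤ δ * L)
    (ham : |Lam - κ₀ * c * L| ≤ δ * L) (hK : 1 ≤ K) (hM : κ₀ * M ≤ 1) (ha0 : 0 ≤ a)
    (ha1 : κ₀ * a ≤ 1) (hc1 : κ₀ * c ≤ 1) (hτ : 30 * η + 2 * δ ≤ τ) :
    Nom K τ L l uu lm Lmo Lam lDl κ (κ₀ * z'.M1 M) (κ₀ * a) (κ₀ * z'.c1 c - mx)
      (κ₀ * (z'.m + z'.zm)) mx := by
  have hg : 0 ≤ κ₀ * L := (mul_pos h0 hL).le
  have hgL : κ₀ * L ≤ L := by nlinarith
  have n1 := abs_le.1 hn.v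
  have n2 := abs_le.1 hn.k
  have n3 := abs_le.1 hn.η
  have n4 := abs_le.1 hn.b1
  have n5 := abs_le.1 hn.F
  have n7 := abs_le.1 hn.s
  have n8 := abs_le.1 hn.G
  have n9 := abs_le.1 hn.Y0
  have n10 := abs_le.1 hn.Y1
  have n11 := abs_le.1 hn.W
  have n12 := abs_le.1 hn.c02
  have n13 := abs_le.1 hn.c12
  have n14 := abs_le.1 hn.nu
  have n18 := abs_le.1 hn.tau
  have n22 := abs_le.1 hn.l
  have n23 := abs_le.1 hn.m1
  have n24 := abs_le.1 hn.m2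
  have n26 := abs_le.1 hn.zm
  have n27 := abs_le.1 hn.sW
  have n29 := abs_le.1 hn.s1
  have pm : 0 ≤ z'.m + z'.zm := by
    have := ho.m1
    have := ho.m2
    have := ho.zm
    unfold Cls.m
    linarith
  have pc : 0 ≤ z'.c1 c := ho.hc
  have pky : 0 ≤ z'.ky - 3 * z'.s1 := by
    have := ho.s1G
    have := ho.s1k
    have := ho.Y0
    have := ho.Y1
    have := ho.c02
    have := ho.c12
    have := ho.nu
    have := ho.η
    have := ho.b1
    have := ho.F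
    have := ho.tau
    unfold Cls.ky Cls.lam
    linarith
  have e1 : |(z'.m + z'.zm) - (z.m + z.zm)| ≤ 3 * η := by
    unfold Cls.m
    rw [abs_le]
    constructor <;> linarith
  have e2 : |(z'.η + z'.b1 + z'.l) - (z.η + z.b1 + z.l)| ≤ 3 * η := by
    rw [abs_le]
    constructor <;> linarith
  have e3 : z.ky - 3 * z.s1 ≤ z'.ky - 3 * z'.s1 + 29 * η := by
    unfold Cls.ky Cls.lam Cls.s0
    linarith
  have g1 := abs_le.1 (gmul hg hgL e1)
  have g2 := abs_le.1 (gmul hg hgL e2)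
  have u1 := abs_le.1 huu
  have u2 := abs_le.1 hmo
  have u3 := abs_le.1 ham
  have hηL : 0 ≤ η * L := mul_nonneg hη hL.le
  have hδL : 0 ≤ δ * L := mul_nonneg hδ hL.le
  have hτL : (30 * η + 2 * δ) * L ≤ τ * L := mul_le_mul_of_nonneg_right hτ hL.le
  have hMd : z'.M1 M = M - (z'.m + z'.zm) := by unfold Cls.M1; ring
  have hcd : z'.c1 c = c - (z'.η + z'.b1 + z'.l) := by unfold Cls.c1; ring
  have pη : 0 ≤ z'.η + z'.b1 + z'.l := by
    have := ho.η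
    have := ho.b1
    have := ho.l
    linarith
  have e4 : 0 ≤ κ₀ * (z'.ky - 3 * z'.s1) := mul_nonneg h0.le pky
  have e5 := mul_le_mul_of_nonneg_left e3 hg
  have e6 : κ₀ * L * (29 * η) ≤ L * (29 * η) := mul_le_mul_of_nonneg_right hgL (by linarith)
  clear n1 n2 n3 n4 n5 n7 n8 n9 n10 n11 n12 n13 n14 n18 n22 n23 n24 n26 n27 n29 hn ho e1 e2 e3 pky
  refine ⟨?_, ?_, ?_, ?_, ?_, ?_, ?_, ?_, hx0, ?_, ?_, ?_, ?_, ?_⟩
  · have := e4
    linarith
  · have := mul_le_mul_of_nonneg_left hky h0.le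
    linarith
  · rw [hMd]
    have := mul_nonneg h0.le pm
    linarith
  · exact mul_nonneg h0.le ha0
  · linarith
  · linarith
  · rw [hcd]
    have := mul_nonneg h0.le pη
    linarith
  · exact mul_nonneg h0.le pm
  · rw [div_le_iff₀ hL]
    have h5 := mul_le_mul_of_nonneg_right hk1 hL.le
    linarith
  · refine abs_div_of hL ?_
    rw [hMd, hm, abs_le]
    constructor <;> linarith
  · refine abs_div_of hL ?_
    rw [abs_le]
    constructor <;> linarith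
  · have h3 : |(Lam - lDl) / L - κ₀ * z'.c1 c| ≤ τ := by
      refine abs_div_of hL ?_
      rw [hcd, hD, abs_le]
      constructor <;> linarith
    have h4 := max_near (mul_nonneg h0.le pc) h3
    have e : κ₀ * z'.c1 c - mx + mx = κ₀ * z'.c1 c := by ring
    rw [e]
    exact h4
  · refine abs_div_of hL ?_
    rw [hm, abs_le]
    constructor <;> linarith

/-- **the final inequality** -/
lemma fin_num {κ₀ η₀ τ ε ε₃ ey ey' ex Tq μ bf N u dl : ℝ} {z' : Cls}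
    (h7 : κ₀ * (2 / 3 + (z'.β + z'.al - 2 * z'.E - z'.F + 2 * z'.s + 2 * z'.W) +
      (z'.tT N u - (z'.v + z'.us) / 3 - (N - z'.β) / 3)) + ex + ey ≤ 2 * Tq - 2 * μ - dl)
    (hs : η₀ + 8 * τ + ε₃ + (ey' - ey) ≤ ε) :
    η₀ + 6 * τ + (κ₀ * Vx z' N u + dl + ex + ε₃) - (κ₀ * z'.F + bf) + ey' +
      2 * (κ₀ * (z'.W + z'.al / 2 - z'.E) + bf / 2) + 2 * (ε / 2) ≤
      2 * (Tq - μ + ε - κ₀ * (z'.β / 2 + z'.s) - κ₀ / 3 - τ) := by
  unfold Vx
  linarith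

/-! ### one term -/

/-- **the logarithms of one term** -/
structure TN (Lg : ℝ) (x : Dt) (f : Eis) {OO : Finset (Eis × Eis)} (t : Tm {x // x ∈ OO})
    (c : E4J352.Win) (f1 f2 D1' l m : Eis) (z : Cls) : Prop where
  kk : Real.log (2 ^ c.nkk) ≤ Lg * z.k
  kl : Lg * (z.k + z.lam) ≤ Real.log (2 ^ c.nk) + 5 * Real.log 2
  g : Real.log ((nm (E4RH858.gd f t.D1) : ℝ) * nm (E4RH858.gd f (E4RH858.b1 t))) =
    Lg * z.F + bfS t f2
  W : 2 * Real.log ((nm (be1 x.e₀ (bo3 t)) : ℝ) * wP f (pf t)) =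
    Lg * (2 * z.W + z.al - 2 * z.E) + bfS t f2
  nr : Real.log (nrm x) = Lg * (z.β / 2 + z.s)
  lD : lg l + lg D1' = Lg * (z.η + z.b1 + z.l)
  lm : lg m = Lg * (z.m + z.zm)
  ky : kyT (pf t) (b0L x (soL x f t) (bo3 t)) t ≤ Lg * (z.ky - 3 * z.s1) + 11 * Real.log 2
  kt : lg t.k - 2 * lg (sL (x.g * x.e₀ * x.t) t.k (bo3 t)) + lg D1' + beS t f2 +
    ((x.m 1 1 : ℝ) + x.m 1 2) * Real.log 2 + lg (nu0 t.o.1.1 t.o.1.2) ≤ Lg * z.kt

lemma zT_eq (Lg : ℝ) (i : ℕ) (x : Dt) (f : Eis) {OO : Finset (Eis × Eis)} (t : Tm OO)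
    (f1 f2 D1' l m : Eis) (sc : ℝ) :
    zT Lg i x f t f1 f2 D1' l m sc = zTr Lg i x f t f1 f2 D1' l m sc := rfl

section

variable {Λ : Type*} {π : Λ → DPar} {h : ℝ → ℝ} {lam : Λ × Eis}
  {Jf : ℝ → ℝ → ℝ → Finset (Eis × Eis)}
  {a : Bd × ℕ} {x : Dt} {Bf : ℝ → ℝ → ℝ → ℝ} {e0 r ε X : ℝ}

/-- **the logarithms of one term** -/
theorem tn_of (hJ : ∀ l N z, OKJ (Jf l N z)) (ha : a.1.ok) (hP : a.1.okP (π lam.1))
    (hn : (π lam.1).n₃ ≠ 0) (hx : x.OK (π lam.1) Bf e0 r ε X a.1) {G : Eis → ℂ}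
    {t : Tm (x.O π lam Jf a)} (hf : Facts (π lam.1).n₃ t) (hok : t.OK (π lam.1).n₃ 1)
    (hxs : t.xs (x.v π h lam Jf a) G ≠ 0) {f : Eis} {c : E4J352.Win} (hc : t.In lD c)
    {f1 f2 f3 D1' Z'' l m : Eis} (s : Spl (π lam.1).n₃ f x.z t f1 f2 f3 D1' Z'' l m) {Lg : ℝ}
    (hLg : 0 < Lg) (i : ℕ) :
    TN Lg x f t c f1 f2 D1' l m (zT Lg i x f t f1 f2 D1' l m 0) := by
  classical
  have hL0 : Lg ≠ 0 := hLg.ne'
  have l2 := log2_nonneg
  have hlam := log_lam hJ ha hP hx t.o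
  have hb3 := lg_b3 hJ ha hP hx t.o
  have hb3' : kW x ≤ lg (bo3 t) ∧ lg (bo3 t) ≤ kW x + Real.log 2 := hb3
  have hgs := le_gS x t
  have hge : gS x t ≤ kG x + Real.log 2 := by
    rw [gS_eq]
    refine max_le (e0_split hJ ha hP hn hx hxs) ?_
    linarith
  have hk0 : t.k ≠ 0 := hok.sk.ne_zero
  have hlD : 0 < lD t.o := lD_pos t.o hJ ha hP hx
  have hβp := T3_prim x.β hx.β
  have hep : IsPrim x.e₀ := (e0_prim hx).1
  have hb0 : (0 : ℝ) < nm (be1 x.e₀ (bo3 t)) := nm_pos' (E4RH858.be1_prim _ _).ne_zero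
  have hD1 : lg t.D1 = lg f1 + lg D1' := by
    have h0 : t.D1 ≠ 0 := hok.pD1.ne_zero
    have e := s.hD
    rw [e] at h0
    rw [e, lg_mul (left_ne_zero_of_mul h0) (right_ne_zero_of_mul h0)]
  have hb1 := lg_b1 t f2
  have d0 : ∀ y : ℝ, Lg * (y / Lg) = y := fun y => mul_div_cancel₀ y hL0
  have hsk : sL (x.g * x.e₀ * x.t) t.k (bo3 t) = sk (x.g * x.e₀ * x.t) t.k :=
    sL_sk (JxT679.cop_sk_b3 hJ ha hP hx hok hxs)
  refine ⟨?_, ?_, ?_, ?_, ?_, ?_, ?_, ?_, ?_⟩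
  · have e : Lg * (zT Lg i x f t f1 f2 D1' l m 0).k = lg t.k := d0 _
    rw [e]
    exact Real.log_le_log (by positivity) hc.hkk.1
  · have e : Lg * (zT Lg i x f t f1 f2 D1' l m 0).k = lg t.k := d0 _
    have e1 := zlam (i := i) (x := x) (f := f) (t := t) (f1 := f1) (f2 := f2) (D1' := D1')
      (l := l) (m := m) (sc := 0) hL0
    rw [mul_add, e, zT_eq, e1]
    have h1 : lD t.o * nm t.k ≤ 2 * 2 ^ c.nk := by
      have := hc.hk.2
      rw [pow_succ] at this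
      linarith
    have h2 := Real.log_le_log (mul_pos hlD (nm_pos' hk0)) h1
    rw [Real.log_mul hlD.ne' (nm_pos' hk0).ne', Real.log_mul (by norm_num) (by positivity)] at h2
    have h3 : Real.log (nm t.k) = lg t.k := rfl
    rw [h3] at h2
    linarith [hlam.1, hb3'.1, hb3'.2]
  · have h1 := E4RK858.spl_f1g s hf hok
    have h2 := E4RK858.spl_gb s hf hok
    have e : Lg * (zT Lg i x f t f1 f2 D1' l m 0).F = lg f1 := d0 _
    rw [e, ← h1, ← h2]
    exact Real.log_mul (nm_pos' s.s1.ne_zero).ne' (nm_pos' (E4RH858.gd_prim _ _).ne_zero).ne'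
  · exact lg_W0 hL0
  · have e : Lg * ((zT Lg i x f t f1 f2 D1' l m 0).β / 2 + (zT Lg i x f t f1 f2 D1' l m 0).s) =
        lg (∏ i, x.β i) / 2 + lg x.e₀ := by
      have h1 : Lg * (zT Lg i x f t f1 f2 D1' l m 0).β = lg (∏ i, x.β i) := d0 _
      have h2 : Lg * (zT Lg i x f t f1 f2 D1' l m 0).s = lg x.e₀ := d0 _
      rw [mul_add, ← h1, ← h2]
      ring
    rw [e]
    unfold nrm
    have h1 := nm_pos' hβp.ne_zero
    rw [Real.log_mul (Real.rpow_pos_of_pos h1 _).ne' (nm_pos' hep.ne_zero).ne', Real.log_rpow h1]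
    unfold lg
    ring
  · have h1 : Lg * (zT Lg i x f t f1 f2 D1' l m 0).η = lg D1' := d0 _
    have h2 : Lg * (zT Lg i x f t f1 f2 D1' l m 0).b1 = beS t f2 := d0 _
    have h3 : Lg * (zT Lg i x f t f1 f2 D1' l m 0).l = lg l - beS t f2 := d0 _
    rw [mul_add, mul_add, h1, h2, h3]
    ring
  · have h1 : Lg * (zT Lg i x f t f1 f2 D1' l m 0).m1 = m1S (pf t) m := d0 _
    have h2 : Lg * (zT Lg i x f t f1 f2 D1' l m 0).m2 = m2S (pf t) m := d0 _
    have h3 : Lg * (zT Lg i x f t f1 f2 D1' l m 0).zm = lg m - lS (pf t) m := d0 _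
    unfold Cls.m
    rw [mul_add, mul_add, h1, h2, h3, lS_m]
    ring
  · have e1 := zky (i := i) (x := x) (f := f) (t := t) (f1 := f1) (f2 := f2) (D1' := D1')
      (l := l) (m := m) (sc := 0) hL0
    have e2 : Lg * (zT Lg i x f t f1 f2 D1' l m 0).s1 =
        min (lg (sk (x.g * x.e₀ * x.t) t.k)) (kG x) := d0 _
    have e3 : Lg * (3 * (zT Lg i x f t f1 f2 D1' l m 0).s1) =
        3 * min (lg (sk (x.g * x.e₀ * x.t) t.k)) (kG x) := by
      rw [← e2]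
      ring
    have e4 : lg (b0L x (soL x f t) (bo3 t)) = lg (bo3 t) + lg (sk (x.g * x.e₀ * x.t) t.k) := by
      unfold b0L
      have h5 : sL (x.g * x.e₀ * x.t) (soL x f t).1 (bo3 t) =
          sL (x.g * x.e₀ * x.t) t.k (bo3 t) := sL_kl hk0
      rw [h5, hsk, lg_mul (bo3_prim t).ne_zero (JxS679.sk_prim _ _).ne_zero]
    have h6 := min_le_left (lg (sk (x.g * x.e₀ * x.t) t.k)) (kG x)
    have h7 : lg (nu2 t.o) = Real.log (lD t.o) := rfl
    rw [mul_sub, e3, zT_eq, e1]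
    unfold kyT
    rw [e4, hD1, hb1, h7]
    linarith [hlam.2, hb3'.1]
  · have e1 : Lg * (zT Lg i x f t f1 f2 D1' l m 0).kt = lg t.k + lg D1' + beS t f2 +
        x.m 1 1 * Real.log 2 + x.m 1 2 * Real.log 2 + lg (nu0 t.o.1.1 t.o.1.2) := by
      unfold Cls.kt zT
      field_simp
    rw [e1]
    have h1 := lg_nonneg (sL (x.g * x.e₀ * x.t) t.k (bo3 t))
    linarith

end

end Crest.Agent.R017.StrV699
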