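import Crest.Agent.R017.XSd_512
import Crest.Agent.R017.E4Xf_372

/-!
# Row 17, C70/E4 (version 7): the `x`-side at the data, exceptional class (helper372)

helper512's `XSe` for the double difference.

* `th_DtX` : `TH` at the data
-/

set_option autoImplicit false

noncomputable section

open Complex Finset
open scoped ComplexConjugate Classical

namespace Crest.Agent.R017.E4Df372

open Crest.Agent.R012 Crest.Agent.R012.Eis
open Crest.Agent.R012.Mob705 hiding pb mem_pb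
open Crest.Agent.R017.CM106 (CS FS)
open Crest.Agent.R017.B770 (DPar)
open Crest.Agent.R017.E5B71
open Crest.Agent.R017.Prov71
open Crest.Agent.R017.E4352
open Crest.Agent.R017.E4J352
open Crest.Agent.R017.E4U164
open Crest.Agent.R017.E4RH858 (Pf pf Facts)
open Crest.Agent.R017.JyF744 (nu2)
open Crest.Agent.R017.JxP679
open Crest.Agent.R017.ExP960 hiding alX
open Crest.Agent.R017.XSd512 (th_of)

variable {Λ : Type*} {π : Λ → DPar} {h : ℝ → ℝ} {lam : Λ × Eis}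
  {Jf : ℝ → ℝ → ℝ → Finset (Eis × Eis)} {a : BdX × ℕ} {ps : List Pq} {x : Dt} {j : Fin 2}
  {h₁ : FS (b1 (π lam.1) h lam.2 ps)} {h₂ : FS (b2X (π lam.1) h lam.2 a.1 ps j)}

/-- **the hypotheses on the terms at the data**, class E -/
theorem th_DtX {e0 r R C0 Y : ℝ} {Bf : ℝ → ℝ → ℝ → ℝ} (hY : 1 ≤ Y)
    (sz : SzFX π h e0 r R Y Bf Jf lam a ps) (sd : SzDX π h C0 Y Jf lam a ps x j h₁ h₂)
    (hM : (π lam.1).n₃ ≠ 0) (hE : IsPrim (x.E a.1.toBd)) {G : Eis → ℂ} {cl : Win} {Pp : Pf}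
    {Oc : Finset (x.O π lam Jf (bl a))} {t : Tm (x.O π lam Jf (bl a))}
    (hok : t.OK (π lam.1).n₃ 1)
    (hv : t.val 1 lD (vE π h lam Jf a x) (wE π h lam Jf a ps x j h₁ h₂) G ≠ 0)
    (hcl : t.In lD cl) (hpf : pf t = Pp) (ho : t.o ∈ Oc) :
    TH (π lam.1).n₃ lD (Y ^ 2) cl Pp x.z Oc t := by
  have hfp : IsPrim (E4D164.fN (π lam.1).n₃ (x.E a.1.toBd)) := (E4D164.fM_spec hM hE).2.1.1
  refine th_of (X := Y) (Yw := Y) (lam := lD) (v := vE π h lam Jf a x)
    (w := wE π h lam Jf a ps x j h₁ h₂) (G := G) sd.dat hfp (b₁ := b1 (π lam.1) h lam.2 ps)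
    (b₂ := b2X (π lam.1) h lam.2 a.1 ps j) (Lf := h₁.fin.toFinset ×ˢ h₂.fin.toFinset)
    (fun o => rfl) (fun p _ g1 g2 => ?_) (le_self_pow₀ hY (by norm_num)) (by linarith)
    (by rw [pow_two]) hok hv hcl hpf ho
  have h1 := sz.N₂ j p.1 p.2 g1 g2
  exact (Nat.le_floor_iff (by linarith)).mp h1

end Crest.Agent.R017.E4Df372
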