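import Crest.Agent.R017.StrY_699
import Crest.Agent.R017.StrNE_372
import Crest.Agent.R017.StrDE_372
import Crest.Agent.R017.StrUE_372
import Crest.Agent.R017.XSe_372
import Crest.Agent.R017.BKnX_858
import Crest.Agent.R017.BKX_266

/-!
# Row 17, T.3, `StrUX`: `XRUX` from the real side and the number of the `x`-side (helper372)

helper699's `StrW`, `StrY` for the exceptional class.

* `frm` : the frame in numbers
* `xblkx_of` : the premise of the `y`-side of one block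
* `xrux_of` : `TermUX` and `XNumUX` give `XRUX`
-/

set_option autoImplicit false
set_option linter.unusedSectionVars false

noncomputable section

open Finset Complex
open scoped ComplexConjugate

namespace Crest.Agent.R017.E4Df372

open Crest.Agent.R012 Crest.Agent.R012.Eis
open Crest.Agent.R012.Mob705 hiding pb mem_pb kap
open Crest.Agent.R012.PSer47 (IsChar)
open Crest.Agent.R017.Sx545 (Sm)
open Crest.Agent.R017.CM106 (FS CS)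
open Crest.Agent.R017.C70 (OKJ)
open Crest.Agent.R017.FE47 (PU SM)
open Crest.Agent.R017.End699 (HC prin0 hc_prin0)
open Crest.Agent.R017.B770
open Crest.Agent.R017.Prov71
open Crest.Agent.R017.Rough381
open Crest.Agent.R017.E4352 (PrI Dat4 rd)
open Crest.Agent.R017.E5B71
open Crest.Agent.R017.E5L770
open Crest.Agent.R017.ExP960 hiding alX
open Crest.Agent.R017.E4D164 hiding E4L
open Crest.Agent.R017.E4J352
open Crest.Agent.R017.E4U164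
open Crest.Agent.R017.E4ap783 (TG7)
open Crest.Agent.R017.E4X266 (PrC rngDC rngFC)
open Crest.Agent.R017.E4R70
open Crest.Agent.R017.Nm918 (Near)
open Crest.Agent.R017.Hg918 (ClYX)
open Crest.Agent.R017.He918 (ClXEX GoalEX)
open Crest.Agent.R017.E4RH858 (Pf pf wP be1 be2 kl Facts)
open Crest.Agent.R017.TwP61 (tU tU_OK)
open Crest.Agent.R017.E4Dic352
open Crest.Agent.R017.E4St352
open Crest.Agent.R017.JyF744 (nu2 yK)
open Crest.Agent.R017.Str699 (nu0)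
open Crest.Agent.R017.JxL679 (NatS)
open Crest.Agent.R017.JxP679 (TH)
open Crest.Agent.R017.XSd512 (XMo)
open Crest.Agent.R017.YU61
open Crest.Agent.R017.YsM61
open Crest.Agent.R017.YsU61 hiding mem_amL mem_moL
open Crest.Agent.R017.BK858
open Crest.Agent.R017.E4SE266 (bk_blkE)
open Crest.Agent.R017.StrU699 (gx_prin0)
open Crest.Agent.R017.StrD699 (zT)
open Crest.Agent.R017.StrV699
open Crest.Agent.R017.StrW699
open Crest.Agent.R017.StrY699 (tw_HC)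

/-- **the frame in numbers** -/
theorem frm {A d β δ δ' B X : ℝ} (hA : 2 / 3 ≤ A) (hX : 1 < X) {N : ℕ} {a : BdX × ℕ}
    {ps : List Pq} {q : (Option IX5 → ℝ) × (Kd → ℝ)} (H : FrLX A d β δ δ' B X N a ps q) :
    8 / 9 ≤ cκ (prX (dn q.1)) ∧ cκ (prX (dn q.1)) ≤ 1 ∧ cM (prX (dn q.1)) ≤ 1 ∧
    0 ≤ q.2 .mo ∧ q.2 .mo ≤ 1 ∧ 0 ≤ q.2 .am ∧ q.2 .am ≤ 1 ∧
    |a.1.l - cκ (prX (dn q.1)) * Real.log X| ≤ δ * Real.log X ∧
    |(a.1.us 0).z + (a.1.us 1).z - cM (prX (dn q.1)) * Real.log X| ≤ 2 * δ * Real.log X ∧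
    |Ls (moL ps) - q.2 .mo * Real.log X| ≤ δ * Real.log X ∧
    |Ls (amL ps) - q.2 .am * Real.log X| ≤ δ * Real.log X := by
  have hl : 0 < Real.log X := Real.log_pos hX
  have hdom := H.dom
  unfold E5LX770.SqLX DomL at hdom
  obtain ⟨hq, -, hq2⟩ := hdom
  have hSq : Sq5 A d (prX (dn q.1)) q.2 := hq.1
  have conv : ∀ {y c : ℝ}, |y / Real.log X - c| ≤ δ →
      |y - c * Real.log X| ≤ δ * Real.log X := by
    intro y c h
    have e : y - c * Real.log X = (y / Real.log X - c) * Real.log X := by field_simp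
    rw [e, abs_mul, abs_of_pos hl]
    exact mul_le_mul_of_nonneg_right h hl.le
  have el : |a.1.l / Real.log X - cκ (prX (dn q.1))| ≤ δ := H.win.ev (some (.inl (.inl 0)))
  have eu : ∀ j, |(a.1.us j).z / Real.log X - cu (prX (dn q.1)) j| ≤ δ := fun j =>
    H.win.ev (some (.inl (.inr j)))
  have h1 := hSq.κ0
  have h2 := hSq.κ1
  have h3 := hSq.q
  have h4 := hSq.c
  have h5 := hSq.w0 .mo
  have h6 := hSq.w0 .am
  have h7 := hSq.a12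
  have h8 := hSq.near
  obtain ⟨b1, b2, b3, b4⟩ := hSq.anti
  have h9 : 2 / 3 * (8 / 9) ≤ A * cκ (prX (dn q.1)) := by nlinarith
  refine ⟨h1, h2, ?_, h5, by linarith, h6, by linarith, conv el, ?_, ?_, ?_⟩
  · unfold cN at h8 h3
    linarith
  · have e0 := abs_le.1 (conv (eu 0))
    have e1 := abs_le.1 (conv (eu 1))
    unfold cM
    rw [abs_le]
    constructor <;> linarith [e0.1, e0.2, e1.1, e1.2]
  · have h10 := H.mass .mo
    rw [E4St352.mass_mo] at h10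
    exact conv h10
  · have h10 := H.mass .am
    rw [YsU61.mass_am] at h10
    exact conv h10

section

variable {Λ : Type*} (π : Λ → DPar) (h : ℝ → ℝ)

/-- `XNumUX` at fixed data -/
def XNumXI (d η ε : ℝ) (M₁ : ℕ) (X : ℝ) (Jf : ℝ → ℝ → ℝ → Finset (Eis × Eis)) (lam : Λ × Eis)
    (a : BdX × ℕ) (ps : List Pq) (q : (Option IX5 → ℝ) × (Kd → ℝ)) (x : Dt) (j : Fin 2)
    (h₁ : FS (b1 (π lam.1) h lam.2 ps)) (h₂ : FS (b2X (π lam.1) h lam.2 a.1 ps j))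
    (ξ : ℝ) (G : Eis → ℂ) : Prop :=
    ∀ (c : E4J352.Win) (P : Pf) (β₀ : Eis) (τ : Eis × Eis × Eis)
      (𝒥 : Finset (Tm (x.O π lam Jf (bl a)))),
      (∀ t ∈ 𝒥, t.OK (π lam.1).n₃ 1 ∧
        t.val 1 lD (vE π h lam Jf a x) (wE π h lam Jf a ps x j h₁ h₂) G ≠ 0 ∧ t.In lD c ∧
        pf t = P ∧ bo3 t = β₀ ∧ soL x (fN (π lam.1).n₃ (x.E a.1.toBd)) t = τ) →
    ∀ Oc : Finset (x.O π lam Jf (bl a)), (∀ o, o ∈ Oc ↔ ∃ t ∈ 𝒥, t.o = o) →
    ∀ t ∈ 𝒥, ∀ f1 f2 f3 D1' Z'' l' m : Eis,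
      Spl (π lam.1).n₃ (fN (π lam.1).n₃ (x.E a.1.toBd)) x.z t f1 f2 f3 D1' Z'' l' m →
    ∀ (z' : Cls) (sc mx ex : ℝ),
      Near η (zT (cκ (prX (dn q.1)) * Real.log X) a.2 x (fN (π lam.1).n₃ (x.E a.1.toBd)) t f1 f2
        D1' l' m sc) z' →
      z'.Ok d (1 / cκ (prX (dn q.1))) (cN (prX (dn q.1)) / cκ (prX (dn q.1)))
        (cM (prX (dn q.1)) / cκ (prX (dn q.1))) (q.2 .mo / cκ (prX (dn q.1)))
        (q.2 .am / cκ (prX (dn q.1))) (cx' (prX (dn q.1)) / cκ (prX (dn q.1))) →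
      z'.ky ≤ 1 → 0 ≤ mx → mx ≤ 2 →
      ClXEX (cκ (prX (dn q.1))) z' d (cN (prX (dn q.1)) / cκ (prX (dn q.1)))
        (cu (prX (dn q.1)) 4 / cκ (prX (dn q.1))) mx ex →
    ∀ t' ∈ 𝒥, ∀ Bm : ℝ, 1 ≤ Bm → Bm ≤ X ^ (mx + η) →
      ∀ Bd : ℝ, Bd = ((1 + |ξ|) ^ M₁) ^ 2 * X ^ (cκ (prX (dn q.1)) * (z'.k + 2 * z'.lam) +
        (cκ (prX (dn q.1)) * VxE z' (cN (prX (dn q.1)) / cκ (prX (dn q.1)))
          (cu (prX (dn q.1)) 4 / cκ (prX (dn q.1))) +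
          cκ (prX (dn q.1)) * (2 / 3 * d * z'.N1 (cN (prX (dn q.1)) / cκ (prX (dn q.1)))) +
          ex + ε)) →
      (mx = 0 → XMo (π lam.1).n₃ (vE π h lam Jf a x) G P Oc c.nkk
        (fun k => kl (x.g * x.e₀ * x.t) k = τ.1) t'.D1 (E4RH858.b1 t') (fun _ _ => 1) ≤ Bd) ∧
      (∀ bm : x.O π lam Jf (bl a) → Eis → ℂ, (∀ o ∈ Oc, NatS Bm (X ^ η * Bm) (bm o)) →
        XMo (π lam.1).n₃ (vE π h lam Jf a x) G P Oc c.nkk
          (fun k => kl (x.g * x.e₀ * x.t) k = τ.1) t'.D1 (E4RH858.b1 t')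
          (fun o k => ‖CS (bm o) k‖ ^ 2) ≤ Bd)

end

section

variable {Λ : Type*} {π : Λ → DPar} {h : ℝ → ℝ} {lam : Λ × Eis}
  {Jf : ℝ → ℝ → ℝ → Finset (Eis × Eis)}
  {a : BdX × ℕ} {ps : List Pq} {x : Dt} {j : Fin 2} {h₁ : FS (b1 (π lam.1) h lam.2 ps)}
  {h₂ : FS (b2X (π lam.1) h lam.2 a.1 ps j)}

set_option maxHeartbeats 4000000 in
/-- **the premise of the `y`-side of one block**, class E -/
theorem xblkx_of {Bf : ℝ → ℝ → ℝ → ℝ} {e0 r ε' X : ℝ}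
    {q : (Option IX5 → ℝ) × (Kd → ℝ)} {A d β' δ δ' B : ℝ} {N : ℕ}
    (hJ : ∀ l N z, OKJ (Jf l N z)) (ha : a.1.ok) (hP : a.1.okP (π lam.1))
    (hn3 : (π lam.1).n₃ ≠ 0) (hx : x.OK (π lam.1) Bf e0 r ε' X a.1.toBd) (hε'1 : ε' ≤ 1)
    (hA : 2 / 3 ≤ A) (hF : FrLX A d β' δ δ' B X N a ps q) (hX : 1 < X)
    {A0 C0 : ℝ} (hA0 : 1 ≤ A0) (hC0 : 1 ≤ C0) (SF : SzFX π h e0 r 1 (X ^ A0) Bf Jf lam a ps)
    (SD : SzDX π h C0 (X ^ A0) Jf lam a ps x j h₁ h₂)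
    {C A₁ ε₄ : ℝ} (hC : 1 ≤ C) (hA₁ : 1 ≤ A₁) (HXS : XGen h ε₄ N C A₁)
    {θ μ η ρ ηx ε ε₃ σ K R₁ : ℝ} {M₁ : ℕ} {tt : (Eis → ℂ) × ℤ}
    {ξ : ℝ} {G : Eis → ℂ} (HN : XNumXI π h d ηx ε₃ M₁ X Jf lam a ps q x j h₁ h₂ ξ G)
    (HB : BkI π (ε / 32) X Jf lam (bl a) x)
    {M' : Eis} (hHC : HC M' tt.1) (hch : ∀ k : Kd, IsChar (chK (tU (π lam.1) lam.2) k))
    (hη : 0 ≤ η) (hδ : 0 ≤ δ) (hσ : 0 < σ) (hK : 1 ≤ K) (hε0 : 0 ≤ ε / 32 + 6 * η)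
    (hηx : η ≤ ηx) (hσ1 : σ ≤ 1 / 2) (hσx : 2 * σ ≤ ηx)
    (hL16 : 16 * Real.log 2 ≤ η * Real.log X) (hησ : 30 * η + 2 * δ ≤ σ / 4)
    (hCY : C * ((X ^ A0) ^ 2) ^ ε₄ ≤ X ^ ηx) (hCY' : C * ((X ^ A0) ^ 2) ^ ε₄ ≤ X ^ (ε / 16))
    (hA₁X : A₁ ≤ X ^ σ)
    (hs : ε / 16 + 8 * (20 * η + δ) + ε₃ + (ε / 32 + 6 * η) ≤ ε)
    {s sc : ℝ} (hs0 : 0 ≤ s) (hs1 : s ≤ hE (π lam.1) a ps x)
    {sw : Eis → Eis → Eis → Eis → Eis → Prop} {rng : Tm (x.O π lam Jf (bl a)) → Prop}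
    (hrng : ∀ t, rng t → rngD sw lD (X ^ ε' * Real.exp a.1.l * Real.exp (-s)) t ∨
      rngF sw lD (X ^ ε' * (U0 (π lam.1) (bl a) ps x / (Real.exp a.1.l * Real.exp (-s)))) t)
    (HT : ∀ t, t.OK (π lam.1).n₃ 1 →
      t.val 1 lD (vE π h lam Jf a x) (wE π h lam Jf a ps x j h₁ h₂) G ≠ 0 → rng t →
      TmG π θ d μ η ρ X lam a ps q x t sc) :
    XBlkX π h d K R₁ σ ρ (ε / 2) M₁ (49 * A0) X
      (X ^ (T5 θ (prQ (dn q.1, q.2)) - μ + ε) / (nrm x * Real.exp (a.1.l / 3))) Jf lam a ps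
      x j h₁ h₂ tt ξ G rng := by
  classical
  intro c P β τ 𝒥 hne hJJ
  have hX0 : 0 < X := by linarith
  have hL0 : 0 < Real.log X := Real.log_pos hX
  -- the configuration
  obtain ⟨w1, w2, w3, w4, w5, w6, w7, w8, w9, w10, w11⟩ := frm hA hX hF
  have hκ : 0 < cκ (prX (dn q.1)) := by linarith
  -- the first half
  have hJJ' : ∀ t ∈ 𝒥, t.OK (π lam.1).n₃ 1 ∧
      t.val 1 lD (vE π h lam Jf a x) (wE π h lam Jf a ps x j h₁ h₂) G ≠ 0 ∧ t.In lD c ∧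
      (rngD sw lD (X ^ ε' * Real.exp a.1.l * Real.exp (-s)) t ∨
        rngF sw lD (X ^ ε' * (U0 (π lam.1) (bl a) ps x / (Real.exp a.1.l * Real.exp (-s)))) t) ∧
      pf t = P ∧ bo3 t = β ∧ soL x (fN (π lam.1).n₃ (x.E a.1.toBd)) t = τ := fun t ht => by
    obtain ⟨g1, g2, g3, g4, g5, g6, g7⟩ := hJJ t ht
    exact ⟨g1, g2, g3, hrng t g4, g5, g6, g7⟩
  obtain ⟨kn, l, hb0, hkn, hl0, hlX, hKl, hlg, hl5⟩ := bk_blkE hJ ha hP hx hX.le hA0 hC0 SF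
    SD hε'1 hs0 hs1 hne hJJ'
  have hfac : ∀ t ∈ 𝒥, Facts (π lam.1).n₃ t := fun t ht =>
    E4RH858.facts SD.dat (hJJ t ht).1 (hJJ t ht).2.1
  have hEp : IsPrim (x.E a.1.toBd) := hP.1.prim.mul (T3_prim x.β hx.β)
  have hf0 : fN (π lam.1).n₃ (x.E a.1.toBd) ≠ 0 := (fM_spec hn3 hEp).2.1.1.ne_zero
  -- the count
  obtain ⟨Fy, hFy, hFc⟩ := HB (π lam.1).n₃ (fN (π lam.1).n₃ (x.E a.1.toBd)) c P β τ 𝒥 hf0
    (fun t ht => by
      obtain ⟨g1, g2, g3, g4, g5, g6, g7⟩ := hJJ t ht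
      exact ⟨g1, hfac t ht, g3, g5, g6, g7⟩) kn (fun t ht => (hkn t ht).1)
  refine ⟨b0L x τ β, kn, l, hb0, hkn, hl0, hlX, hKl, ?_⟩
  intro t ht f1 f2 f3 D1' Z'' l' m hspl _ hll hmm
  obtain ⟨t1, t2, t3, t4, t5, t6, t7⟩ := hJJ t ht
  have tF := hfac t ht
  have txs : t.xs (vE π h lam Jf a x) G ≠ 0 := (E4RH858.val_ne t2).2.1
  have TNt := tn_ofX (a := bl a) hJ ha.base hP hn3 hx tF t1 txs t3 hspl (mul_pos hκ hL0) a.2 sc
  obtain ⟨z', hnear, hok', hky, mx, ex, ey, κ, q1, q2, q3, q4, q5, q6, q7⟩ :=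
    HT t t1 t2 t4 f1 f2 f3 D1' Z'' l' m hspl hll hmm
  obtain ⟨z, hz⟩ : ∃ z : Cls, z = zT (cκ (prX (dn q.1)) * Real.log X) a.2 x
      (fN (π lam.1).n₃ (x.E a.1.toBd)) t f1 f2 D1' l' m sc := ⟨_, rfl⟩
  rw [← hz] at TNt hnear
  -- the x-side
  obtain ⟨Bd, hBd⟩ : ∃ Bd : ℝ, Bd = ((1 + |ξ|) ^ M₁) ^ 2 *
      X ^ (cκ (prX (dn q.1)) * (z'.k + 2 * z'.lam) +
        (cκ (prX (dn q.1)) * VxE z' (cN (prX (dn q.1)) / cκ (prX (dn q.1))) (cu (prX (dn q.1)) 4 / cκ (prX (dn q.1))) +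
          cκ (prX (dn q.1)) * (2 / 3 * d * z'.N1 (cN (prX (dn q.1)) / cκ (prX (dn q.1)))) + ex + ε₃)) := ⟨_, rfl⟩
  have hBd0 : 0 ≤ Bd := by
    rw [hBd]
    have h1 : 0 ≤ X ^ (cκ (prX (dn q.1)) * (z'.k + 2 * z'.lam) +
        (cκ (prX (dn q.1)) * VxE z' (cN (prX (dn q.1)) / cκ (prX (dn q.1))) (cu (prX (dn q.1)) 4 / cκ (prX (dn q.1))) +
          cκ (prX (dn q.1)) * (2 / 3 * d * z'.N1 (cN (prX (dn q.1)) / cκ (prX (dn q.1)))) + ex + ε₃)) :=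
      Real.rpow_nonneg hX0.le _
    positivity
  have hmx1 : mx ≤ 1 := by
    have h1 : cκ (prX (dn q.1)) * z'.c1 (q.2 .am / cκ (prX (dn q.1))) =
        q.2 .am - cκ (prX (dn q.1)) * (z'.η + z'.b1 + z'.l) := by
      have := mul_div_cancel₀ (q.2 .am) hκ.ne'
      unfold Cls.c1
      linarith
    have h2 := mul_nonneg hκ.le (show 0 ≤ z'.η + z'.b1 + z'.l by
      have := hok'.η
      have := hok'.b1
      have := hok'.l
      linarith)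
    linarith
  obtain ⟨Bm, hBm⟩ : ∃ Bm : ℝ, Bm = A₁ * Real.exp ((mx + σ) * Real.log X) := ⟨_, rfl⟩
  have hexp : Real.exp ((mx + σ) * Real.log X) = X ^ (mx + σ) := by
    rw [Real.rpow_def_of_pos hX0, mul_comm]
  have hBmσ : Bm ≤ X ^ (mx + 2 * σ) := by
    rw [hBm, hexp]
    calc A₁ * X ^ (mx + σ) ≤ X ^ σ * X ^ (mx + σ) :=
          mul_le_mul_of_nonneg_right hA₁X (Real.rpow_nonneg hX0.le _)
      _ = X ^ (mx + 2 * σ) := by
          rw [← Real.rpow_add hX0]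
          congr 1
          ring
  have hBmX : Bm ≤ X ^ (mx + ηx) :=
    hBmσ.trans (Real.rpow_le_rpow_of_exponent_le hX.le (by linarith))
  have hBm1 : 1 ≤ Bm := by
    rw [hBm, hexp]
    have h1 : 1 ≤ X ^ (mx + σ) := Real.one_le_rpow hX.le (by linarith)
    nlinarith
  have hBmY : Bm ≤ (X ^ A0) ^ 2 := by
    refine hBmσ.trans ?_
    rw [← Real.rpow_natCast, ← Real.rpow_mul hX0.le]
    refine Real.rpow_le_rpow_of_exponent_le hX.le ?_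
    push_cast
    linarith
  have hY1 : (1 : ℝ) ≤ X ^ A0 := Real.one_le_rpow hX.le (by linarith)
  obtain ⟨Oc, hOc⟩ : ∃ Oc : Finset (x.O π lam Jf (bl a)), ∀ o, o ∈ Oc ↔ ∃ t ∈ 𝒥, t.o = o :=
    ⟨𝒥.image (fun t => t.o), fun o => mem_image⟩
  have hnear' : Near ηx (zT (cκ (prX (dn q.1)) * Real.log X) a.2 x (fN (π lam.1).n₃ (x.E a.1.toBd)) t f1 f2
      D1' l' m sc) z' := by
    rw [← hz]
    exact hnear.mono hηx
  have XN := HN c P β τ 𝒥 (fun t ht => by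
      obtain ⟨g1, g2, g3, g4, g5, g6, g7⟩ := hJJ t ht
      exact ⟨g1, g2, g3, g5, g6, g7⟩) Oc hOc t ht f1 f2 f3 D1' Z'' l' m hspl z' sc mx ex hnear' hok'
    hky q1 (by linarith) q5
  have hlen : (amL ps).length ≤ N := (List.length_filter_le _ _).trans hF.len
  have hg1 : τ.2.1 = E4RH858.gd (fN (π lam.1).n₃ (x.E a.1.toBd)) t.D1 :=
    (congrArg (fun v => v.2.1) t7).symm
  have hg2 : τ.2.2 = E4RH858.gd (fN (π lam.1).n₃ (x.E a.1.toBd)) (E4RH858.b1 t) :=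
    (congrArg (fun v => v.2.2) t7).symm
  have p1 : IsPrim τ.2.1 := by rw [hg1]; exact E4RH858.gd_prim _ _
  have p2 : IsPrim τ.2.2 := by rw [hg2]; exact E4RH858.gd_prim _ _
  have hXS := HXS (π lam.1).n₃ M' τ.2.1 τ.2.2 p1 p2 ((X ^ A0) ^ 2) (one_le_pow₀ hY1)
    (tU (π lam.1) lam.2) hch (amL ps) hlen tt.1 tt.2 ξ hHC
    (P.B * (bkP P * cP P ^ 3) * b0L x τ β) (b0L x τ β) (dvd_mul_left _ _) lD
    (vE π h lam Jf a x) G c P (bkP P) kn x.z hx.z.1.ne_zero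
    (fun k => kl (x.g * x.e₀ * x.t) k = τ.1) Oc 𝒥 (Real.log X) σ R₁
    (Real.log (nm l') + Real.log (nm D1')) mx Bd Bm hL0 hBd0 (le_of_eq hBm.symm) hBmY
    (fun t' ht' => by
      obtain ⟨g1, g2, g3, g4, g5, g6, g7⟩ := hJJ t' ht'
      exact ⟨th_DtX hY1 SF SD hn3 hEp g1 g2 g3 g5 ((hOc _).2 ⟨t', ht', rfl⟩),
        congrArg Prod.fst g7, (hkn t' ht').1⟩)
    (fun t' ht' => by
      obtain ⟨g1, g2, g3, g4, g5, g6, g7⟩ := hJJ t' ht'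
      refine ⟨?_, ?_⟩
      · have e : τ.2.1 = E4RH858.gd (fN (π lam.1).n₃ (x.E a.1.toBd)) t'.D1 :=
          (congrArg (fun v => v.2.1) g7).symm
        rw [e]
        exact E4RH858.gd_dvd' hf0 g1.pD1
      · have e : τ.2.2 = E4RH858.gd (fN (π lam.1).n₃ (x.E a.1.toBd)) (E4RH858.b1 t') :=
          (congrArg (fun v => v.2.2) g7).symm
        rw [e]
        exact E4RH858.gd_dvd' hf0 (E4RH858.prim_b1 t'))
    (fun h0 t' ht' => (XN t' ht' Bm hBm1 hBmX Bd hBd).1 h0)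
    (fun _ t' ht' bm hbm => (XN t' ht' Bm hBm1 hBmX Bd hBd).2 bm fun o ho =>
      JxN679.NatS.mono (hbm o ho) (mul_le_mul_of_nonneg_right hCY (by linarith)))
  -- the numbers
  have hal : a.1.l ≤ cκ (prX (dn q.1)) * Real.log X + δ * Real.log X := by
    have := (abs_le.1 w8).2
    linarith
  have hκ1' : cκ (prX (dn q.1)) ≤ 1 := w2
  have hβ0 : (0 : ℝ) < nm (be1 x.e₀ β) := nm_pos' (E4RH858.be1_prim _ _).ne_zero
  have hw0 : 0 < wP (fN (π lam.1).n₃ (x.E a.1.toBd)) P := by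
    rw [E4Dic352.wP_eq]
    exact Real.exp_pos _
  have hnr0 : 0 < nrm x := by
    unfold nrm
    have := nm_pos' (T3_prim x.β hx.β).ne_zero
    have := nm_pos' (e0_prim (a := bl a) hx).1.ne_zero
    positivity
  have hCY0 : 0 ≤ C * ((X ^ A0) ^ 2) ^ ε₄ := by
    have : 0 ≤ ((X ^ A0) ^ 2) ^ ε₄ := Real.rpow_nonneg (by positivity) _
    nlinarith
  have l2 := log2_nonneg
  have main : ∀ e : ℝ, e - ey ≤ ε / 32 + 6 * η →
      ((nm τ.2.1 : ℝ) * nm τ.2.2)⁻¹ * (C * ((X ^ A0) ^ 2) ^ ε₄ *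
        (2 ^ c.nkk / (2 ^ c.nk) ^ 2 * Bd)) * X ^ e ≤
      ((1 + |ξ|) ^ M₁ * (X ^ (T5 θ (prQ (dn q.1, q.2)) - μ + ε) /
        (nrm x * Real.exp (a.1.l / 3)) / (nm (be1 x.e₀ β) *
          wP (fN (π lam.1).n₃ (x.E a.1.toBd)) P * X ^ (ε / 2)))) ^ 2 := fun e he =>
    sx_termV hX rfl hκ hκ1' hη hδ hnear hCY0 hCY' (by positivity) TNt.kk (by positivity)
      (by
        have := TNt.kl
        linarith) (mul_pos (nm_pos' p1.ne_zero) (nm_pos' p2.ne_zero))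
      (by
        have := TNt.g
        rw [← hg1, ← hg2] at this
        exact this) (mul_pos hβ0 hw0)
      (by
        have := TNt.W
        rw [t5, t6] at this
        exact this) hnr0 TNt.nr hal rfl (by positivity) hBd q7 (by linarith)
  have NM : Nom K (σ / 4) (Real.log X) l ((a.1.us 0).z + (a.1.us 1).z) (Real.log (nm m))
      (Ls (moL ps)) (Ls (amL ps)) (Real.log (nm l') + Real.log (nm D1')) κ
      (cκ (prX (dn q.1)) * z'.M1 (cM (prX (dn q.1)) / cκ (prX (dn q.1))))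
      (cκ (prX (dn q.1)) * (q.2 .mo / cκ (prX (dn q.1))))
      (cκ (prX (dn q.1)) * z'.c1 (q.2 .am / cκ (prX (dn q.1))) - mx) (cκ (prX (dn q.1)) * (z'.m + z'.zm)) mx := by
    refine nom_num (δ := δ) (η := η) hL0 hκ hκ1' hη hδ hnear hok' hky q1 q2 q3 q4 ?_ TNt.lm
      TNt.lD ?_ ?_ ?_ hK ?_ (div_nonneg w4 hκ.le) ?_ ?_ hησ
    · have h1 := hl5 t ht
      have h2 := TNt.ky
      rw [t5, t6, t7] at h2
      linarith
    · have e1 : cκ (prX (dn q.1)) * (cM (prX (dn q.1)) / cκ (prX (dn q.1))) = cM (prX (dn q.1)) :=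
        mul_div_cancel₀ _ hκ.ne'
      rw [e1]
      exact w9
    · have e1 : cκ (prX (dn q.1)) * (q.2 .mo / cκ (prX (dn q.1))) = q.2 .mo :=
        mul_div_cancel₀ _ hκ.ne'
      rw [e1]
      exact w10
    · have e1 : cκ (prX (dn q.1)) * (q.2 .am / cκ (prX (dn q.1))) = q.2 .am :=
        mul_div_cancel₀ _ hκ.ne'
      rw [e1]
      exact w11
    · have e1 : cκ (prX (dn q.1)) * (cM (prX (dn q.1)) / cκ (prX (dn q.1))) = cM (prX (dn q.1)) :=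
        mul_div_cancel₀ _ hκ.ne'
      rw [e1]
      exact w3
    · have e1 : cκ (prX (dn q.1)) * (q.2 .mo / cκ (prX (dn q.1))) = q.2 .mo :=
        mul_div_cancel₀ _ hκ.ne'
      rw [e1]
      exact w5
    · have e1 : cκ (prX (dn q.1)) * (q.2 .am / cκ (prX (dn q.1))) = q.2 .am :=
        mul_div_cancel₀ _ hκ.ne'
      rw [e1]
      exact w7
  have hSx0 : 0 ≤ ((nm τ.2.1 : ℝ) * nm τ.2.2)⁻¹ * (C * ((X ^ A0) ^ 2) ^ ε₄ *
      (2 ^ c.nkk / (2 ^ c.nk) ^ 2 * Bd)) := by positivity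
  rcases Gy918.clY_good hκ.le (Gy918.M1_nonneg hok') q6 (cκ (prX (dn q.1)) * (z'.m + z'.zm)) with
    hG | hG
  · exact ⟨κ, _, _, _, _, mx, ey, _, NM, Or.inl hG, hSx0, main ey (by
      have : 0 ≤ ε / 32 + 6 * η := hε0
      linarith), hXS⟩
  · refine ⟨κ, _, _, _, _, mx, ey + (ε / 32 + 6 * η), _, NM, Or.inr ?_, hSx0,
      main _ (by linarith), hXS⟩
    refine ⟨cκ (prX (dn q.1)) * z'.kt + (ε / 32 + 6 * η), Fy, hFy, ?_, by linarith⟩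
    refine (hFc t ht x.z f1 f2 f3 D1' Z'' l' m hspl).trans ?_
    refine Real.rpow_le_rpow_of_exponent_le hX.le ?_
    have h1 := TNt.kt
    rw [t6] at h1
    have h2 : z.kt ≤ z'.kt + 6 * η := by
      have n1 := abs_le.1 hnear.k
      have n2 := abs_le.1 hnear.η
      have n3 := abs_le.1 hnear.b1
      have n4 := abs_le.1 hnear.Y1
      have n5 := abs_le.1 hnear.c12
      have n6 := abs_le.1 hnear.nu
      unfold Cls.kt
      linarith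
    have h3 := mul_le_mul_of_nonneg_left h2 hκ.le
    have h4 : cκ (prX (dn q.1)) * (6 * η) ≤ 6 * η := by nlinarith
    have h5 : (lg t.k - 2 * lg (sL (x.g * x.e₀ * x.t) t.k β) + lg D1' + beS t f2 +
        ((x.m 1 1 : ℝ) + x.m 1 2) * Real.log 2 + lg (nu0 t.o.1.1 t.o.1.2)) / Real.log X ≤
        cκ (prX (dn q.1)) * z.kt := by
      rw [div_le_iff₀ hL0]
      linarith
    linarith


end

section

variable {Λ : Type*} {π : Λ → DPar} {h : ℝ → ℝ} {c₀ : ℝ}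

set_option maxHeartbeats 2000000 in
/-- **`XRUX` from `TermUX` and `XNumUX`** -/
theorem xrux_of (hpu : PU h c₀) (hP : ∀ lam, (π lam).OK)
    (h3 : ∀ lam, ¬ (π lam).CaseD → (π lam).l₃ = 0) {θ A d β μ e0 r K : ℝ} (hA : 2 / 3 ≤ A)
    (hK : 1 ≤ K) {Bf : ℕ → ℝ → ℝ → ℝ → ℝ} {Jf : ℝ → ℝ → ℝ → Finset (Eis × Eis)}
    (hJf : ∀ l N z, OKJ (Jf l N z)) (HS : SzUX π h A d β e0 r Bf Jf)
    (HT : TermUX π h θ A d β μ e0 r Bf Jf) (HN : XNumUX π h A d β e0 r Bf Jf) :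
    XRUX π h θ A d β μ e0 r K Bf Jf := by
  classical
  intro ε hε σ₀ R₁ hσ₀ hR₁
  obtain ⟨ηx, hηx, HN⟩ := HN (ε / 16) (by linarith)
  obtain ⟨σ, hσ, hσσ, hσx, hσ1⟩ : ∃ σ : ℝ, 0 < σ ∧ σ ≤ σ₀ ∧ 2 * σ ≤ ηx ∧ σ ≤ 1 / 2 := by
    have h1 := min_le_left σ₀ (min (ηx / 2) (1 / 2))
    have h2 := min_le_right σ₀ (min (ηx / 2) (1 / 2))
    have h3 := min_le_left (ηx / 2) (1 / 2 : ℝ)
    have h4 := min_le_right (ηx / 2) (1 / 2 : ℝ)
    exact ⟨min σ₀ (min (ηx / 2) (1 / 2)), lt_min hσ₀ (lt_min (by linarith) (by norm_num)),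
      h1, by linarith, by linarith⟩
  obtain ⟨η, hη, hη1, hη2, hη3⟩ : ∃ η : ℝ, 0 < η ∧ η ≤ ηx ∧ 200 * η ≤ σ ∧ 10000 * η ≤ ε := by
    have h1 := min_le_left ηx (min (σ / 200) (ε / 10000))
    have h2 := min_le_right ηx (min (σ / 200) (ε / 10000))
    have h3 := min_le_left (σ / 200) (ε / 10000)
    have h4 := min_le_right (σ / 200) (ε / 10000)
    exact ⟨min ηx (min (σ / 200) (ε / 10000)), lt_min hηx (lt_min (by linarith) (by linarith)),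
      h1, by linarith, by linarith⟩
  obtain ⟨δ₃, hδ₃, HT⟩ := HT η hη
  obtain ⟨ε', hε', hε'1, hε'2, hε'3, hε'4⟩ : ∃ ε' : ℝ, 0 < ε' ∧ ε' ≤ δ₃ ∧ ε' ≤ ηx ∧ ε' ≤ ε ∧
      ε' ≤ 1 :=
    ⟨min (min δ₃ ηx) (min ε 1), lt_min (lt_min hδ₃ hηx) (lt_min hε one_pos),
      (min_le_left _ _).trans (min_le_left _ _), (min_le_left _ _).trans (min_le_right _ _),
      (min_le_right _ _).trans (min_le_left _ _), (min_le_right _ _).trans (min_le_right _ _)⟩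
  obtain ⟨δ, hδ, hδ1, hδ2, hδ3, hδ4, hδ5⟩ : ∃ δ : ℝ, 0 < δ ∧ δ ≤ δ₃ ∧ δ ≤ ηx ∧ 100 * δ ≤ σ ∧
      1000 * δ ≤ ε ∧ δ ≤ 1 / 2 := by
    have h1 := min_le_left (min δ₃ ηx) (min (σ / 100) (min (ε / 1000) (1 / 2)))
    have h2 := min_le_right (min δ₃ ηx) (min (σ / 100) (min (ε / 1000) (1 / 2)))
    have h3 := min_le_left δ₃ ηx
    have h4 := min_le_right δ₃ ηx
    have h5 := min_le_left (σ / 100) (min (ε / 1000) (1 / 2))
    have h6 := min_le_right (σ / 100) (min (ε / 1000) (1 / 2))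
    have h7 := min_le_left (ε / 1000) (1 / 2 : ℝ)
    have h8 := min_le_right (ε / 1000) (1 / 2 : ℝ)
    exact ⟨min (min δ₃ ηx) (min (σ / 100) (min (ε / 1000) (1 / 2))),
      lt_min (lt_min hδ₃ hηx) (lt_min (by linarith) (lt_min (by linarith) (by norm_num))),
      by linarith, by linarith, by linarith, by linarith, by linarith⟩
  refine ⟨σ, hσ, hσσ, δ₃, hδ₃, ε', hε', hε'3, δ, hδ, by linarith, ?_⟩
  intro lam N B T hD hT
  have hTw : ∀ t ∈ insert (prin0 (π lam.1).n₃, (0 : ℤ)) T, TwOK (π lam.1) t := by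
    intro t ht
    rcases Finset.mem_insert.1 ht with h1 | h1
    · exact Or.inl h1
    · refine Or.inr ?_
      rw [h3 lam.1 hD, neg_zero]
      exact hT t h1
  obtain ⟨δ₁, hδ₁, X₁, hX₁, HT⟩ := HT δ₃ ε' δ hδ₃ le_rfl hε' hε'1 hδ hδ1 lam N B hD
  obtain ⟨M₁, δ₂, hδ₂, X₂, hX₂, HN⟩ := HN lam N B (insert (prin0 (π lam.1).n₃, (0 : ℤ)) T) hD hTw
  obtain ⟨A0, C0, X₃, hA0, hC0, hX₃, HS⟩ := HS lam N B 1 one_pos
  obtain ⟨m, hm, hm1, hm2⟩ : ∃ m : ℝ, 0 < m ∧ m ≤ ηx ∧ m ≤ ε / 16 :=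
    ⟨min ηx (ε / 16), lt_min hηx (by linarith), min_le_left _ _, min_le_right _ _⟩
  have hA0' : 0 < A0 := by linarith
  obtain ⟨C, A₁, hC, hA₁, HG⟩ := xgen_ex hpu (ε := m / (4 * A0)) (by positivity) N
  obtain ⟨X₄, hX₄, HB⟩ := BKn858.bkn_blkE (Λ := Λ) (ε := ε / 32) hA0 (by linarith)
  obtain ⟨X₅, hX₅⟩ := (((tendsto_rpow_atTop (show 0 < m / 2 by positivity)).eventually_ge_atTop
    C).and (((tendsto_rpow_atTop hσ).eventually_ge_atTop A₁).and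
      (Real.tendsto_log_atTop.eventually_ge_atTop (16 * Real.log 2 / η)))).exists_forall_of_atTop
  refine ⟨49 * A0, M₁, by linarith, min (min δ₁ δ₂) 1, lt_min (lt_min hδ₁ hδ₂) one_pos,
    max (max X₁ X₂) (max (max X₃ X₄) X₅),
    lt_of_lt_of_le hX₁ ((le_max_left _ _).trans (le_max_left _ _)), ?_⟩
  intro X hX a ps q hF hok hl2 hokP x hx hxl hne j h₁ h₂
  have g1 : X₁ ≤ X := ((le_max_left _ _).trans (le_max_left _ _)).trans hX
  have g2 : X₂ ≤ X := ((le_max_right _ _).trans (le_max_left _ _)).trans hX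
  have g3 : X₃ ≤ X := (((le_max_left _ _).trans (le_max_left _ _)).trans (le_max_right _ _)).trans hX
  have g4 : X₄ ≤ X := (((le_max_right _ _).trans (le_max_left _ _)).trans (le_max_right _ _)).trans hX
  have g5 : X₅ ≤ X := ((le_max_right _ _).trans (le_max_right _ _)).trans hX
  have hX1 : 1 < X := hX₁.trans_le g1
  have hX0 : 0 < X := by linarith
  obtain ⟨c1, c2, c3⟩ := hX₅ X g5
  have hL16 : 16 * Real.log 2 ≤ η * Real.log X := by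
    have h1 : 16 * Real.log 2 / η ≤ Real.log X := c3
    rw [div_le_iff₀ hη] at h1
    linarith
  obtain ⟨THh, THs⟩ := HT X g1 a ps q
    (hF.mono hX1.le le_rfl ((min_le_left _ _).trans (min_le_left _ _))) hok hl2 hokP x hx hxl hne j
    h₁ h₂
  obtain ⟨SF, SD⟩ := HS X g3 a ps q δ (min (min δ₁ δ₂) 1) hδ5 (min_le_right _ _) hF hok hl2 hokP
  have SD := SD x (hx.mono hX1.le hε'4) hne j h₁ h₂
  have HBI : BkI π (ε / 32) X Jf lam (bl a) x := fun M f c P β τ 𝒥 hf h𝒥 kn hkn =>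
    HB X g4 π h lam Jf a ps x (Bf a.2) e0 r ε' hJf hok hokP hx SF M f c P β τ 𝒥 hf h𝒥 kn hkn
  have hF2 : FrLX A d β δ δ₂ B X N a ps q :=
    hF.mono hX1.le le_rfl ((min_le_left _ _).trans (min_le_right _ _))
  have hch : ∀ k : Kd, IsChar (chK (tU (π lam.1) lam.2) k) := isChar_chK (tU_OK (hP lam.1) hl2)
  have hY : ((X ^ A0) ^ 2) ^ (m / (4 * A0)) = X ^ (m / 2) := by
    rw [← Real.rpow_natCast, ← Real.rpow_mul hX0.le, ← Real.rpow_mul hX0.le]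
    congr 1
    push_cast
    field_simp
    ring
  have hCm : C * ((X ^ A0) ^ 2) ^ (m / (4 * A0)) ≤ X ^ m := by
    rw [hY]
    calc C * X ^ (m / 2) ≤ X ^ (m / 2) * X ^ (m / 2) :=
          mul_le_mul_of_nonneg_right c1 (Real.rpow_nonneg hX0.le _)
      _ = X ^ m := by
          rw [← Real.rpow_add hX0]
          congr 1
          ring
  have key : ∀ (tt : (Eis → ℂ) × ℤ), tt ∈ insert (prin0 (π lam.1).n₃, (0 : ℤ)) T → ∀ (ξ : ℝ)
      (G : Eis → ℂ), (∀ y, Sm (π lam.1).n₃ y → G y = gx tt.1 tt.2 ξ y) →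
      ∀ (s sc : ℝ) (sw : Eis → Eis → Eis → Eis → Eis → Prop)
        (rng : Tm (x.O π lam Jf (bl a)) → Prop), 0 ≤ s → s ≤ hE (π lam.1) a ps x →
      (∀ t, rng t → rngD sw lD (X ^ ε' * Real.exp a.1.l * Real.exp (-s)) t ∨
        rngF sw lD
          (X ^ ε' * (U0 (π lam.1) (bl a) ps x / (Real.exp a.1.l * Real.exp (-s)))) t) →
      (∀ t, t.OK (π lam.1).n₃ 1 →
        t.val 1 lD (vE π h lam Jf a x) (wE π h lam Jf a ps x j h₁ h₂) G ≠ 0 → rng t →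
        TmG π θ d μ η δ₃ X lam a ps q x t sc) →
      XBlkX π h d K R₁ σ δ₃ (ε / 2) M₁ (49 * A0) X
        (X ^ (T5 θ (prQ (dn q.1, q.2)) - μ + ε) / (nrm x * Real.exp (a.1.l / 3))) Jf lam a ps x j
        h₁ h₂ tt ξ G rng := by
    intro tt htt ξ G hG s sc sw rng hs0 hs1 hrng hTm
    obtain ⟨M', hM'⟩ : ∃ M' : Eis, HC M' tt.1 := tw_HC (hP lam.1) (hTw tt htt)
    exact xblkx_of hJf hok hokP (hP lam.1).χ₃.q0 hx hε'4 hA hF hX1 hA0 hC0 SF SD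
      hC hA₁ HG
      (HN X g2 δ ε' hδ2 hε'2 a ps q hF2 hok hl2 hokP x hx hxl hne j h₁ h₂ tt htt ξ G hG) HBI hM'
      hch hη.le hδ.le hσ hK (by linarith) hη1 hσ1 hσx hL16 (by linarith)
      (hCm.trans (Real.rpow_le_rpow_of_exponent_le hX1.le hm1))
      (hCm.trans (Real.rpow_le_rpow_of_exponent_le hX1.le hm2)) c2 (by linarith) hs0 hs1 hrng hTm
  refine ⟨fun hh => ?_, fun s hs0 hs1 => ?_⟩
  · exact key (prin0 (π lam.1).n₃, 0) (Finset.mem_insert_self _ _) 0 (fun _ => 1)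
      (fun y hy => gx_prin0 hy) (hE (π lam.1) a ps x) (hE (π lam.1) a ps x)
      (fun _ _ _ _ _ => False) _ (hE_nonneg _ _ _ _) le_rfl (fun t ht => Or.inl ht.1)
      (fun t g1 g2 g3 => THh hh _ t g1 g2 g3)
  · obtain ⟨sw, T₀, hT₀, hsw, hTm⟩ := THs s hs0 hs1
    refine ⟨sw, T₀, hT₀, hsw, ?_, fun tt htt ξ => ?_⟩
    · exact key (prin0 (π lam.1).n₃, 0) (Finset.mem_insert_self _ _) 0 (fun _ => 1)
        (fun y hy => gx_prin0 hy) s s sw _ hs0 hs1.le (fun t ht => Or.inl ht.1)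
        (fun t g1 g2 g3 => hTm _ t g1 g2 (Or.inl g3))
    · exact key tt (Finset.mem_insert_of_mem htt) ξ (gx tt.1 tt.2 ξ) (fun _ _ => rfl) s s sw _
        hs0 hs1.le (fun t ht => Or.inr ht.1) (fun t g1 g2 g3 => hTm _ t g1 g2 (Or.inr g3))

end

end Crest.Agent.R017.E4Df372
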