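import Crest.Agent.R017.StrV_699
import Crest.Agent.R017.E4Ue_164
import Crest.Agent.R017.E4Ux_512
import Crest.Agent.R017.E4Gm_918

/-!
# Row 17, T.3, `StrU`: the block (helper699)

* `XGen` : 512's `xside_gen`;  `TermI`, `XNumI`, `BkI` : the inputs at fixed data
* `xblk_of` : the premise of the `y`-side of one block
* `xru_of` : `TermU`, `XNumU` ⟹ `XRU`
-/

set_option autoImplicit false
set_option linter.unusedSectionVars false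

noncomputable section

open Finset Complex
open scoped ComplexConjugate

namespace Crest.Agent.R017.StrW699

open Crest.Agent.R012 Crest.Agent.R012.Eis
open Crest.Agent.R012.Mob705 hiding pb mem_pb kap
open Crest.Agent.R012.PSer47 (IsChar)
open Crest.Agent.R017.Sx545 (Sm)
open Crest.Agent.R017.CM106 (FS CS)
open Crest.Agent.R017.C70 (OKJ)
open Crest.Agent.R017.FE47 (PU SM)
open Crest.Agent.R017.End699 (HC prin0 hc_prin0)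
open Crest.Agent.R017.Sup271 (NPm)
open Crest.Agent.R017.B770
open Crest.Agent.R017.Prov71
open Crest.Agent.R017.Rough381
open Crest.Agent.R017.E4352 (PrI Dat4 rd)
open Crest.Agent.R017.E5B71
open Crest.Agent.R017.E5L770
open Crest.Agent.R017.E4D164
open Crest.Agent.R017.E4J352
open Crest.Agent.R017.E4U164
open Crest.Agent.R017.E4ap783 (TG7)
open Crest.Agent.R017.E4R70
open Crest.Agent.R017.Bx918 (Bx4)
open Crest.Agent.R017.Nm918 (Near)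
open Crest.Agent.R017.Hg918 (ClX ClYX GoalX)
open Crest.Agent.R017.E4RH858 (Pf pf wP be1 be2 kl Facts)
open Crest.Agent.R017.E4Dic352
open Crest.Agent.R017.E4St352
open Crest.Agent.R017.Str699 (nu0 b3)
open Crest.Agent.R017.JyF744 (nu2 yK)
open Crest.Agent.R017.JxL679 (NatS)
open Crest.Agent.R017.JxP679 (TH)
open Crest.Agent.R017.XSd512 (XMo Wx xside_gen th_Dt)
open Crest.Agent.R017.YU61
open Crest.Agent.R017.TwP61 (tU)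
open Crest.Agent.R017.YsM61
open Crest.Agent.R017.YsU61
open Crest.Agent.R017.BK858
open Crest.Agent.R017.StrU699 (Wt XBlk XRU)
open Crest.Agent.R017.StrD699 (zT Vx TermU XNumU)
open Crest.Agent.R017.StrV699
open Crest.Agent.R017.StrN699

lemma rpow_le_of {X r A : ℝ} (hX : 1 < X) (hA : 0 < A) (h : r * Real.log X ≤ Real.log A) :
    X ^ r ≤ A := by
  rw [Real.rpow_def_of_pos (by linarith), ← Real.exp_log hA]
  exact Real.exp_le_exp.mpr (by linarith)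

lemma le_rpow_of {X r A : ℝ} (hX : 1 < X) (hA : 0 < A) (h : Real.log A ≤ r * Real.log X) :
    A ≤ X ^ r := by
  rw [Real.rpow_def_of_pos (by linarith), ← Real.exp_log hA]
  exact Real.exp_le_exp.mpr (by linarith)

/-- 512's `xside_gen` -/
def XGen (h : ℝ → ℝ) (ε : ℝ) (N : ℕ) (C A₁ : ℝ) : Prop :=
    ∀ {OO : Finset (Eis × Eis)} (M M' g1 g2 : Eis),
    IsPrim g1 → IsPrim g2 → ∀ (Y : ℝ), 1 ≤ Y →
    ∀ (P : DPar), (∀ k : Kd, IsChar (chK P k)) → ∀ (ps₁ : List Pq), ps₁.length ≤ N →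
    ∀ (η : Eis → ℂ) (j : ℤ) (ξ : ℝ), HC M' η → ∀ (Bq b0 : Eis), b0 ∣ Bq → ∀
    (lam : {x // x ∈ OO} → ℝ) (v : {x // x ∈ OO} → Eis → ℂ) (G : Eis → ℂ) (cl : E4J352.Win)
    (Pp : Pf) (bk : Eis) (kn : Tm {x // x ∈ OO} → Eis) (z : Eis), z ≠ 0 →
    ∀ (Pk : Eis → Prop) (Oc : Finset {x // x ∈ OO}) (𝒥 : Finset (Tm {x // x ∈ OO}))
    (L σ R₁ l₁ mx Sx Bm : ℝ),
    0 < L → 0 ≤ Sx → A₁ * Real.exp ((mx + σ) * L) ≤ Bm → Bm ≤ Y →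
    (∀ t ∈ 𝒥, TH M lam Y cl Pp z Oc t ∧ Pk t.k ∧ t.k * nu2 t.o = kn t * b0 ^ 3) →
    (∀ t ∈ 𝒥, g1 ∣ t.D1 ∧ g2 ∣ E4RH858.b1 t) →
    (mx = 0 → ∀ t ∈ 𝒥,
      XMo M v G Pp Oc cl.nkk Pk t.D1 (E4RH858.b1 t) (fun _ _ => 1) ≤ Sx) →
    (mx ≠ 0 → ∀ t ∈ 𝒥, ∀ bm : {x // x ∈ OO} → Eis → ℂ,
      (∀ o ∈ Oc, NatS Bm (C * Y ^ ε * Bm) (bm o)) →
      XMo M v G Pp Oc cl.nkk Pk t.D1 (E4RH858.b1 t) (fun o k => ‖CS (bm o) k‖ ^ 2) ≤ Sx) →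
    XSide h P ps₁ M Bq η j ξ z 𝒥 (yF kn E4RH858.b1 bk) (Wx lam v G) L σ R₁ l₁ mx
      (((nm g1 : ℝ) * nm g2)⁻¹ * (C * Y ^ ε * (2 ^ cl.nkk / (2 ^ cl.nk) ^ 2 * Sx)))

lemma xgen_ex {h : ℝ → ℝ} {c₀ : ℝ} (hpu : PU h c₀) {ε : ℝ} (hε : 0 < ε) (N : ℕ) :
    ∃ C A₁ : ℝ, 1 ≤ C ∧ 1 ≤ A₁ ∧ XGen h ε N C A₁ := xside_gen hpu hε N

section

variable {Λ : Type*} (π : Λ → DPar) (h : ℝ → ℝ)

/-- `TermU` at fixed data -/
def TermI (θ d μ η ρ ε' X : ℝ) (Jf : ℝ → ℝ → ℝ → Finset (Eis × Eis)) (lam : Λ × Eis)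
    (a : Bd × ℕ) (ps : List Pq) (q : (Option (Fin 3 ⊕ Fin 5) → ℝ) × (Kd → ℝ)) (x : Dt)
    (h₁ : FS (b1 (π lam.1) h lam.2 ps)) (h₂ : FS (b2 (π lam.1) h lam.2 a.1 ps))
    (sw : Eis → Eis → Eis → Eis → Eis → Prop) : Prop :=
      ∀ (G : Eis → ℂ) (t : Tm (x.O π lam Jf a)), t.OK (π lam.1).n₃ 1 →
        t.val 1 lD (x.v π h lam Jf a) (x.w π h lam Jf a ps h₁ h₂) G ≠ 0 →
        (rngD sw lD (X ^ ε' * Real.exp a.1.l) t ∨
          rngF sw lD (X ^ ε' * (U0 (π lam.1) a ps x / Real.exp a.1.l)) t) →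
      ∀ f1 f2 f3 D1' Z'' l' m : Eis,
        Spl (π lam.1).n₃ (fN (π lam.1).n₃ (x.E a.1)) x.z t f1 f2 f3 D1' Z'' l' m →
        Real.log (nm l') + Real.log (nm D1') ≤ Ls (amL ps) + ρ * Real.log X →
        Real.log (nm m) ≤ (a.1.us 0).z + (a.1.us 1).z + Ls (moL ps) + ρ * Real.log X →
        ∃ z' : Cls,
          Near η (zT (cκ (dn q.1) * Real.log X) a.2 x (fN (π lam.1).n₃ (x.E a.1)) t f1 f2 D1' l' m
            0) z' ∧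
          z'.Ok d (1 / cκ (dn q.1)) (cN (dn q.1) / cκ (dn q.1)) (cM (dn q.1) / cκ (dn q.1))
            (q.2 .mo / cκ (dn q.1)) (q.2 .am / cκ (dn q.1)) (cx' (dn q.1) / cκ (dn q.1)) ∧
          z'.ky ≤ 1 ∧
          GoalX (cκ (dn q.1)) z' d (cN (dn q.1) / cκ (dn q.1)) (cM (dn q.1) / cκ (dn q.1))
            (cu (dn q.1) 4 / cκ (dn q.1)) (q.2 .mo / cκ (dn q.1)) (q.2 .am / cκ (dn q.1))
            (2 * T5 θ (dn q.1, q.2) - 2 * μ -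
              cκ (dn q.1) * (2 / 3 * d * z'.N1 (cN (dn q.1) / cκ (dn q.1))))

/-- `XNumU` at fixed data -/
def XNumI (d η ε : ℝ) (M₁ : ℕ) (X : ℝ) (Jf : ℝ → ℝ → ℝ → Finset (Eis × Eis)) (lam : Λ × Eis)
    (a : Bd × ℕ) (ps : List Pq) (q : (Option (Fin 3 ⊕ Fin 5) → ℝ) × (Kd → ℝ)) (x : Dt)
    (h₁ : FS (b1 (π lam.1) h lam.2 ps)) (h₂ : FS (b2 (π lam.1) h lam.2 a.1 ps))
    (ξ : ℝ) (G : Eis → ℂ) : Prop :=
    ∀ (c : E4J352.Win) (P : Pf) (β : Eis) (τ : Eis × Eis × Eis)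
      (𝒥 : Finset (Tm (x.O π lam Jf a))),
      (∀ t ∈ 𝒥, t.OK (π lam.1).n₃ 1 ∧
        t.val 1 lD (x.v π h lam Jf a) (x.w π h lam Jf a ps h₁ h₂) G ≠ 0 ∧ t.In lD c ∧
        pf t = P ∧ bo3 t = β ∧ soL x (fN (π lam.1).n₃ (x.E a.1)) t = τ) →
    ∀ Oc : Finset (x.O π lam Jf a), (∀ o, o ∈ Oc ↔ ∃ t ∈ 𝒥, t.o = o) →
    ∀ t ∈ 𝒥, ∀ f1 f2 f3 D1' Z'' l' m : Eis,
      Spl (π lam.1).n₃ (fN (π lam.1).n₃ (x.E a.1)) x.z t f1 f2 f3 D1' Z'' l' m →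
    ∀ (z' : Cls) (mx ex : ℝ),
      Near η (zT (cκ (dn q.1) * Real.log X) a.2 x (fN (π lam.1).n₃ (x.E a.1)) t f1 f2 D1' l' m
        0) z' →
      z'.Ok d (1 / cκ (dn q.1)) (cN (dn q.1) / cκ (dn q.1)) (cM (dn q.1) / cκ (dn q.1))
        (q.2 .mo / cκ (dn q.1)) (q.2 .am / cκ (dn q.1)) (cx' (dn q.1) / cκ (dn q.1)) →
      z'.ky ≤ 1 → 0 ≤ mx → mx ≤ 2 →
      ClX (cκ (dn q.1)) z' d (cN (dn q.1) / cκ (dn q.1)) (cu (dn q.1) 4 / cκ (dn q.1)) mx ex →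
    ∀ t' ∈ 𝒥, ∀ Bm : ℝ, 1 ≤ Bm → Bm ≤ X ^ (mx + η) →
      ∀ Bd : ℝ, Bd = ((1 + |ξ|) ^ M₁) ^ 2 * X ^ (cκ (dn q.1) * (z'.k + 2 * z'.lam) +
        (cκ (dn q.1) * Vx z' (cN (dn q.1) / cκ (dn q.1)) (cu (dn q.1) 4 / cκ (dn q.1)) +
          cκ (dn q.1) * (2 / 3 * d * z'.N1 (cN (dn q.1) / cκ (dn q.1))) + ex + ε)) →
      (mx = 0 → XMo (π lam.1).n₃ (x.v π h lam Jf a) G P Oc c.nkk
        (fun k => kl (x.g * x.e₀ * x.t) k = τ.1) t'.D1 (E4RH858.b1 t') (fun _ _ => 1) ≤ Bd) ∧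
      (∀ bm : x.O π lam Jf a → Eis → ℂ, (∀ o ∈ Oc, NatS Bm (X ^ η * Bm) (bm o)) →
        XMo (π lam.1).n₃ (x.v π h lam Jf a) G P Oc c.nkk
          (fun k => kl (x.g * x.e₀ * x.t) k = τ.1) t'.D1 (E4RH858.b1 t')
          (fun o k => ‖CS (bm o) k‖ ^ 2) ≤ Bd)

/-- 858's count at fixed data -/
def BkI (ε X : ℝ) (Jf : ℝ → ℝ → ℝ → Finset (Eis × Eis)) (lam : Λ × Eis) (a : Bd × ℕ) (x : Dt) :
    Prop :=
    ∀ (M f : Eis) (c : E4J352.Win) (P : Pf) (β : Eis) (τ : Eis × Eis × Eis)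
      (𝒥 : Finset (Tm (x.O π lam Jf a))), f ≠ 0 →
      (∀ t ∈ 𝒥, t.OK M 1 ∧ Facts M t ∧ t.In lD c ∧ pf t = P ∧ bo3 t = β ∧ soL x f t = τ) →
    ∀ kn : Tm (x.O π lam Jf a) → Eis,
      (∀ t ∈ 𝒥, t.k * nu2 t.o = kn t * b0L x τ β ^ 3) →
    ∃ F : Finset Eis, (∀ t ∈ 𝒥, yF kn E4RH858.b1 (bkP P) t ∈ F) ∧
      ∀ t ∈ 𝒥, ∀ z f1 f2 f3 D1' Z'' l m : Eis, Spl M f z t f1 f2 f3 D1' Z'' l m →
        (F.card : ℝ) ≤ X ^ (ε + (lg t.k - 2 * lg (sL (x.g * x.e₀ * x.t) t.k β) + lg D1' +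
          beS t f2 + ((x.m 1 1 : ℝ) + x.m 1 2) * Real.log 2 +
          lg (nu0 t.o.1.1 t.o.1.2)) / Real.log X)

end

/-- **the numbers of one term** : the square of the target -/
lemma sx_term {X L κ₀ N u dl ex ε₃ ey e Tq μ ε η δ bf C Yε Bd Sb W₀ g aa bb Hm nr al : ℝ}
    {z z' : Cls}
    (hX : 1 < X) (hL : L = Real.log X) (h0 : 0 < κ₀) (h1 : κ₀ ≤ 1) (hη : 0 ≤ η) (hδ : 0 ≤ δ)
    (hn : Near η z z') (hCY0 : 0 ≤ C * Yε) (hCY : C * Yε ≤ X ^ (ε / 16))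
    (ha0 : 0 < aa) (ha : Real.log aa ≤ κ₀ * L * z.k)
    (hb0 : 0 < bb) (hb : κ₀ * L * (z.k + z.lam) ≤ Real.log bb + η * L)
    (hg0 : 0 < g) (hg : Real.log g = κ₀ * L * z.F + bf)
    (hW0 : 0 < W₀) (hW : 2 * Real.log W₀ = κ₀ * L * (2 * z.W + z.al - 2 * z.E) + bf)
    (hnr0 : 0 < nr) (hnr : Real.log nr = κ₀ * L * (z.β / 2 + z.s))
    (hal : al ≤ κ₀ * L + δ * L) (hSb : Sb = X ^ (Tq - μ + ε) / (nr * Real.exp (al / 3)))
    (hHm : 0 ≤ Hm)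
    (hBd : Bd = Hm ^ 2 * X ^ (κ₀ * (z'.k + 2 * z'.lam) + (κ₀ * Vx z' N u + dl + ex + ε₃)))
    (h7 : κ₀ * (2 / 3 + (z'.β + z'.al - 2 * z'.E - z'.F + 2 * z'.s + 2 * z'.W) +
      (z'.tT N u - (z'.v + z'.us) / 3 - (N - z'.β) / 3)) + ex + ey ≤ 2 * Tq - 2 * μ - dl)
    (hs : ε / 16 + 8 * (20 * η + δ) + ε₃ + (e - ey) ≤ ε) :
    g⁻¹ * (C * Yε * (aa / bb ^ 2 * Bd)) * X ^ e ≤ (Hm * (Sb / (W₀ * X ^ (ε / 2)))) ^ 2 := by
  have hL0 : 0 < L := by rw [hL]; exact Real.log_pos hX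
  have hX0 : 0 < X := by linarith
  have hg' : 0 ≤ κ₀ * L := (mul_pos h0 hL0).le
  have hgL : κ₀ * L ≤ L := by nlinarith
  have hηL : 0 ≤ η * L := mul_nonneg hη hL0.le
  have hδL : 0 ≤ δ * L := mul_nonneg hδ hL0.le
  have n2 := abs_le.1 hn.k
  have n5 := abs_le.1 hn.F
  have n6 := abs_le.1 hn.β
  have n7 := abs_le.1 hn.s
  have n8 := abs_le.1 hn.G
  have n9 := abs_le.1 hn.Y0
  have n10 := abs_le.1 hn.Y1
  have n11 := abs_le.1 hn.W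
  have n12 := abs_le.1 hn.c02
  have n13 := abs_le.1 hn.c12
  have n14 := abs_le.1 hn.nu
  have n15 := abs_le.1 hn.al
  have n25 := abs_le.1 hn.E
  have n27 := abs_le.1 hn.sW
  have e1 : |z'.k - z.k| ≤ 1 * η := by
    rw [abs_le]
    constructor <;> linarith
  have e2 : |(z'.k + z'.lam) - (z.k + z.lam)| ≤ 18 * η := by
    unfold Cls.lam Cls.s0
    rw [abs_le]
    constructor <;> linarith
  have e3 : |z'.F - z.F| ≤ 1 * η := by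
    rw [abs_le]
    constructor <;> linarith
  have e4 : |(2 * z'.W + z'.al - 2 * z'.E) - (2 * z.W + z.al - 2 * z.E)| ≤ 5 * η := by
    rw [abs_le]
    constructor <;> linarith
  have e5 : |(z'.β / 2 + z'.s) - (z.β / 2 + z.s)| ≤ 2 * η := by
    rw [abs_le]
    constructor <;> linarith
  have g1 := abs_le.1 (gmul hg' hgL e1)
  have g2 := abs_le.1 (gmul hg' hgL e2)
  have g3 := abs_le.1 (gmul hg' hgL e3)
  have g4 := abs_le.1 (gmul hg' hgL e4)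
  have g5 := abs_le.1 (gmul hg' hgL e5)
  clear n2 n5 n6 n7 n8 n9 n10 n11 n12 n13 n14 n15 n25 n27 e1 e2 e3 e4 e5
  have hBd0 : 0 ≤ Bd := by
    rw [hBd]
    have := Real.rpow_nonneg hX0.le (κ₀ * (z'.k + 2 * z'.lam) + (κ₀ * Vx z' N u + dl + ex + ε₃))
    positivity
  have hSb0 : 0 < Sb := by
    rw [hSb]
    have := Real.rpow_pos_of_pos hX0 (Tq - μ + ε)
    have := Real.exp_pos (al / 3)
    positivity
  have hbf : bf / L * L = bf := div_mul_cancel₀ _ hL0.ne'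
  have key := sx_num (X := X) (CY := C * Yε) (A := aa) (Bk := bb) (Sx := Bd) (g := g) (W₀ := W₀)
    (S := Sb) (Hm := Hm) (η := ε / 16) (k := κ₀ * z'.k) (lam := κ₀ * z'.lam)
    (V := κ₀ * Vx z' N u + dl + ex + ε₃) (F := κ₀ * z'.F + bf / L) (ey := e)
    (w := κ₀ * (z'.W + z'.al / 2 - z'.E) + bf / L / 2)
    (T := Tq - μ + ε - κ₀ * (z'.β / 2 + z'.s) - κ₀ / 3 - (20 * η + δ)) (τ := 20 * η + δ)
    (ε₁ := ε / 2) hX.le hCY0 ha0.le hBd0 hHm hW0 hCY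
    (le_rpow_of hX ha0 (by rw [← hL]; linarith [g1.1, g1.2]))
    (rpow_le_of hX hb0 (by rw [← hL]; linarith [g2.1, g2.2]))
    (by
      rw [hBd]
      refine le_of_eq ?_
      congr 2
      ring)
    (rpow_le_of hX hg0 (by rw [← hL]; linarith [g3.1, g3.2]))
    (le_rpow_of hX hW0 (by rw [← hL]; linarith [g4.1, g4.2]))
    (rpow_le_of hX hSb0 (by
      rw [← hL, hSb, Real.log_div (Real.rpow_pos_of_pos hX0 _).ne'
        (mul_pos hnr0 (Real.exp_pos _)).ne', Real.log_rpow hX0,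
        Real.log_mul hnr0.ne' (Real.exp_pos _).ne', Real.log_exp, hnr, ← hL]
      linarith [g5.1, g5.2]))
    (fin_num (bf := bf / L) h7 hs)
  refine le_trans (le_of_eq ?_) key
  ring

section

variable {Λ : Type*} {π : Λ → DPar} {h : ℝ → ℝ} {lam : Λ × Eis}
  {Jf : ℝ → ℝ → ℝ → Finset (Eis × Eis)}
  {a : Bd × ℕ} {ps : List Pq} {x : Dt} {h₁ : FS (b1 (π lam.1) h lam.2 ps)}
  {h₂ : FS (b2 (π lam.1) h lam.2 a.1 ps)}

set_option maxHeartbeats 4000000 in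
/-- **the premise of the `y`-side of one block** -/
theorem xblk_of {Bf : ℝ → ℝ → ℝ → ℝ} {e0 r ε' X : ℝ}
    {q : (Option (Fin 3 ⊕ Fin 5) → ℝ) × (Kd → ℝ)} {A d δ δ' B : ℝ} {N : ℕ}
    (hJ : ∀ l N z, OKJ (Jf l N z)) (ha : a.1.ok) (hP : a.1.okP (π lam.1))
    (hn3 : (π lam.1).n₃ ≠ 0) (hx : x.OK (π lam.1) Bf e0 r ε' X a.1) (hε'1 : ε' ≤ 1)
    (hd : 0 ≤ d) (hd1 : d ≤ 1 / 8) (hA : A ≤ 1) (hA1 : 16 * (1 - A) ≤ d)
    (hF : FrL A d δ δ' B X N a ps q) (hX : 1 < X)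
    {A0 C0 : ℝ} (hA0 : 1 ≤ A0) (hC0 : 1 ≤ C0) (SF : SzF π h e0 r 1 (X ^ A0) Bf Jf lam a ps)
    (SD : SzD π h C0 (X ^ A0) Jf lam a ps x h₁ h₂)
    {C A₁ ε₄ : ℝ} (hC : 1 ≤ C) (hA₁ : 1 ≤ A₁) (HXS : XGen h ε₄ N C A₁)
    {sw : Eis → Eis → Eis → Eis → Eis → Prop} {μ η ρ ηx ε ε₃ σ K R₁ : ℝ} {M₁ : ℕ}
    (HT : TermI π h (7 / 8 + d) d μ η ρ ε' X Jf lam a ps q x h₁ h₂ sw) {tt : (Eis → ℂ) × ℤ}
    {ξ : ℝ} {G : Eis → ℂ} (HN : XNumI π h d ηx ε₃ M₁ X Jf lam a ps q x h₁ h₂ ξ G)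
    (HB : BkI π (ε / 32) X Jf lam a x)
    {M' : Eis} (hHC : HC M' tt.1) (hch : ∀ k : Kd, IsChar (chK (tU (π lam.1) lam.2) k))
    (hη : 0 ≤ η) (hδ : 0 ≤ δ) (hσ : 0 < σ) (hK : 1 ≤ K) (hε0 : 0 ≤ ε / 32 + 6 * η)
    (hηx : η ≤ ηx) (hσ1 : σ ≤ 1 / 2) (hσx : 2 * σ ≤ ηx)
    (hL16 : 16 * Real.log 2 ≤ η * Real.log X) (hησ : 30 * η + 2 * δ ≤ σ / 4)
    (hCY : C * ((X ^ A0) ^ 2) ^ ε₄ ≤ X ^ ηx) (hCY' : C * ((X ^ A0) ^ 2) ^ ε₄ ≤ X ^ (ε / 16))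
    (hA₁X : A₁ ≤ X ^ σ)
    (hs : ε / 16 + 8 * (20 * η + δ) + ε₃ + (ε / 32 + 6 * η) ≤ ε)
    {rng : Tm (x.O π lam Jf a) → Prop}
    (hrng : ∀ t, rng t → rngD sw lD (X ^ ε' * Real.exp a.1.l) t ∨
      rngF sw lD (X ^ ε' * (U0 (π lam.1) a ps x / Real.exp a.1.l)) t) :
    XBlk π h d K R₁ σ ρ (ε / 2) M₁ (49 * A0) X
      (X ^ (T5 (7 / 8 + d) (dn q.1, q.2) - μ + ε) / (nrm x * Real.exp (a.1.l / 3))) Jf lam a ps
      x h₁ h₂ tt ξ G rng := by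
  classical
  intro c P β τ 𝒥 hne hJJ
  have hX0 : 0 < X := by linarith
  have hL0 : 0 < Real.log X := Real.log_pos hX
  -- the configuration
  have hS : Sq5 A d (dn q.1) q.2 := hF.dom.1
  have hκ : 0 < cκ (dn q.1) := hS.κpos
  have FV := frV hF hX
  have BX : Bx4 (1 - A) d (1 / cκ (dn q.1)) (cN (dn q.1) / cκ (dn q.1))
      (cM (dn q.1) / cκ (dn q.1)) (cu (dn q.1) 4 / cκ (dn q.1)) (q.2 .mo / cκ (dn q.1))
      (q.2 .am / cκ (dn q.1)) (cx' (dn q.1) / cκ (dn q.1)) (q.1 none / cκ (dn q.1)) :=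
    Gl918.box hd hd1 hA hA1 hS hF.dom.2.1 hF.low ⟨rfl, rfl, rfl, rfl, rfl, rfl, rfl⟩
  obtain ⟨bb1, bb2, bb3, bb4, bb5, bb6, bb7⟩ := Gm918.box_bd BX
  obtain ⟨κ₀, hκ₀⟩ : ∃ κ₀ : ℝ, κ₀ = cκ (dn q.1) := ⟨_, rfl⟩
  have hκ1 : κ₀ ≤ 1 := by
    have h1 := BX.r1
    rw [le_div_iff₀ hκ] at h1
    linarith
  have hκ00 : 0 < κ₀ := by rw [hκ₀]; exact hκ
  -- the first half
  have hJJ' : ∀ t ∈ 𝒥, t.OK (π lam.1).n₃ 1 ∧
      t.val 1 lD (x.v π h lam Jf a) (x.w π h lam Jf a ps h₁ h₂) G ≠ 0 ∧ t.In lD c ∧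
      (rngD sw lD (X ^ ε' * Real.exp a.1.l) t ∨
        rngF sw lD (X ^ ε' * (U0 (π lam.1) a ps x / Real.exp a.1.l)) t) ∧
      pf t = P ∧ bo3 t = β ∧ soL x (fN (π lam.1).n₃ (x.E a.1)) t = τ := fun t ht => by
    obtain ⟨g1, g2, g3, g4, g5, g6, g7⟩ := hJJ t ht
    exact ⟨g1, g2, g3, hrng t g4, g5, g6, g7⟩
  obtain ⟨kn, l, hb0, hkn, hl0, hlX, hKl, hlg, hl5⟩ := bk_blk hJ ha hP hx hX.le hA0 hC0 SF SD
    hε'1 hne hJJ'
  have hfac : ∀ t ∈ 𝒥, Facts (π lam.1).n₃ t := fun t ht =>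
    E4RH858.facts SD.dat (hJJ t ht).1 (hJJ t ht).2.1
  have hEp : IsPrim (x.E a.1) := hP.1.prim.mul (T3_prim x.β hx.β)
  have hf0 : fN (π lam.1).n₃ (x.E a.1) ≠ 0 := (fM_spec hn3 hEp).2.1.1.ne_zero
  -- the count
  obtain ⟨Fy, hFy, hFc⟩ := HB (π lam.1).n₃ (fN (π lam.1).n₃ (x.E a.1)) c P β τ 𝒥 hf0
    (fun t ht => by
      obtain ⟨g1, g2, g3, g4, g5, g6, g7⟩ := hJJ t ht
      exact ⟨g1, hfac t ht, g3, g5, g6, g7⟩) kn (fun t ht => (hkn t ht).1)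
  refine ⟨b0L x τ β, kn, l, hb0, hkn, hl0, hlX, hKl, ?_⟩
  intro t ht f1 f2 f3 D1' Z'' l' m hspl _ hll hmm
  obtain ⟨t1, t2, t3, t4, t5, t6, t7⟩ := hJJ t ht
  have tF := hfac t ht
  have txs : t.xs (x.v π h lam Jf a) G ≠ 0 := (E4RH858.val_ne t2).2.1
  have TNt := tn_of (h := h) hJ ha hP hn3 hx tF t1 txs t3 hspl (mul_pos hκ hL0) a.2
  obtain ⟨z', hnear, hok', hky, mx, ex, ey, κ, q1, q2, q3, q4, q5, q6, q7⟩ :=
    HT G t t1 t2 (hrng t t4) f1 f2 f3 D1' Z'' l' m hspl hll hmm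
  obtain ⟨z, hz⟩ : ∃ z : Cls, z = zT (cκ (dn q.1) * Real.log X) a.2 x
      (fN (π lam.1).n₃ (x.E a.1)) t f1 f2 D1' l' m 0 := ⟨_, rfl⟩
  rw [← hz] at TNt hnear
  -- the x-side
  obtain ⟨Bd, hBd⟩ : ∃ Bd : ℝ, Bd = ((1 + |ξ|) ^ M₁) ^ 2 *
      X ^ (cκ (dn q.1) * (z'.k + 2 * z'.lam) +
        (cκ (dn q.1) * Vx z' (cN (dn q.1) / cκ (dn q.1)) (cu (dn q.1) 4 / cκ (dn q.1)) +
          cκ (dn q.1) * (2 / 3 * d * z'.N1 (cN (dn q.1) / cκ (dn q.1))) + ex + ε₃)) := ⟨_, rfl⟩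
  have hBd0 : 0 ≤ Bd := by
    rw [hBd]
    have h1 : 0 ≤ X ^ (cκ (dn q.1) * (z'.k + 2 * z'.lam) +
        (cκ (dn q.1) * Vx z' (cN (dn q.1) / cκ (dn q.1)) (cu (dn q.1) 4 / cκ (dn q.1)) +
          cκ (dn q.1) * (2 / 3 * d * z'.N1 (cN (dn q.1) / cκ (dn q.1))) + ex + ε₃)) :=
      Real.rpow_nonneg hX0.le _
    positivity
  have hmx1 : mx ≤ 1 / 2 := by
    have h1 : z'.c1 (q.2 .am / cκ (dn q.1)) ≤ 1 / 2 := by
      have := hok'.η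
      have := hok'.b1
      have := hok'.l
      unfold Cls.c1
      linarith
    have h2 := mul_le_mul_of_nonneg_left h1 hκ.le
    linarith
  obtain ⟨Bm, hBm⟩ : ∃ Bm : ℝ, Bm = A₁ * Real.exp ((mx + σ) * Real.log X) := ⟨_, rfl⟩
  have hexp : Real.exp ((mx + σ) * Real.log X) = X ^ (mx + σ) := by
    rw [Real.rpow_def_of_pos hX0, mul_comm]
  have hBmσ : Bm ≤ X ^ (mx + 2 * σ) := by
    rw [hBm, hexp]
    calc A₁ * X ^ (mx + σ) ≤ X ^ σ * X ^ (mx + σ) :=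
          mul_le_mul_of_nonneg_right hA₁X (Real.rpow_nonneg hX0.le _)
      _ = X ^ (mx + 2 * σ) := by
          rw [← Real.rpow_add hX0]
          congr 1
          ring
  have hBmX : Bm ≤ X ^ (mx + ηx) :=
    hBmσ.trans (Real.rpow_le_rpow_of_exponent_le hX.le (by linarith))
  have hBm1 : 1 ≤ Bm := by
    rw [hBm, hexp]
    have h1 : 1 ≤ X ^ (mx + σ) := Real.one_le_rpow hX.le (by linarith)
    nlinarith
  have hBmY : Bm ≤ (X ^ A0) ^ 2 := by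
    refine hBmσ.trans ?_
    rw [← Real.rpow_natCast, ← Real.rpow_mul hX0.le]
    refine Real.rpow_le_rpow_of_exponent_le hX.le ?_
    push_cast
    linarith
  have hY1 : (1 : ℝ) ≤ X ^ A0 := Real.one_le_rpow hX.le (by linarith)
  obtain ⟨Oc, hOc⟩ : ∃ Oc : Finset (x.O π lam Jf a), ∀ o, o ∈ Oc ↔ ∃ t ∈ 𝒥, t.o = o :=
    ⟨𝒥.image (fun t => t.o), fun o => mem_image⟩
  have hnear' : Near ηx (zT (cκ (dn q.1) * Real.log X) a.2 x (fN (π lam.1).n₃ (x.E a.1)) t f1 f2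
      D1' l' m 0) z' := by
    rw [← hz]
    exact hnear.mono hηx
  have XN := HN c P β τ 𝒥 (fun t ht => by
      obtain ⟨g1, g2, g3, g4, g5, g6, g7⟩ := hJJ t ht
      exact ⟨g1, g2, g3, g5, g6, g7⟩) Oc hOc t ht f1 f2 f3 D1' Z'' l' m hspl z' mx ex hnear' hok'
    hky q1 (by linarith) q5
  have hlen : (amL ps).length ≤ N := (List.length_filter_le _ _).trans hF.len
  have hg1 : τ.2.1 = E4RH858.gd (fN (π lam.1).n₃ (x.E a.1)) t.D1 :=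
    (congrArg (fun v => v.2.1) t7).symm
  have hg2 : τ.2.2 = E4RH858.gd (fN (π lam.1).n₃ (x.E a.1)) (E4RH858.b1 t) :=
    (congrArg (fun v => v.2.2) t7).symm
  have p1 : IsPrim τ.2.1 := by rw [hg1]; exact E4RH858.gd_prim _ _
  have p2 : IsPrim τ.2.2 := by rw [hg2]; exact E4RH858.gd_prim _ _
  have hXS := HXS (π lam.1).n₃ M' τ.2.1 τ.2.2 p1 p2 ((X ^ A0) ^ 2) (one_le_pow₀ hY1)
    (tU (π lam.1) lam.2) hch (amL ps) hlen tt.1 tt.2 ξ hHC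
    (P.B * (bkP P * cP P ^ 3) * b0L x τ β) (b0L x τ β) (dvd_mul_left _ _) lD
    (x.v π h lam Jf a) G c P (bkP P) kn x.z hx.z.1.ne_zero
    (fun k => kl (x.g * x.e₀ * x.t) k = τ.1) Oc 𝒥 (Real.log X) σ R₁
    (Real.log (nm l') + Real.log (nm D1')) mx Bd Bm hL0 hBd0 (le_of_eq hBm.symm) hBmY
    (fun t' ht' => by
      obtain ⟨g1, g2, g3, g4, g5, g6, g7⟩ := hJJ t' ht'
      exact ⟨th_Dt hY1 SF SD hn3 hEp g1 g2 g3 g5 ((hOc _).2 ⟨t', ht', rfl⟩),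
        congrArg Prod.fst g7, (hkn t' ht').1⟩)
    (fun t' ht' => by
      obtain ⟨g1, g2, g3, g4, g5, g6, g7⟩ := hJJ t' ht'
      refine ⟨?_, ?_⟩
      · have e : τ.2.1 = E4RH858.gd (fN (π lam.1).n₃ (x.E a.1)) t'.D1 :=
          (congrArg (fun v => v.2.1) g7).symm
        rw [e]
        exact E4RH858.gd_dvd' hf0 g1.pD1
      · have e : τ.2.2 = E4RH858.gd (fN (π lam.1).n₃ (x.E a.1)) (E4RH858.b1 t') :=
          (congrArg (fun v => v.2.2) g7).symm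
        rw [e]
        exact E4RH858.gd_dvd' hf0 (E4RH858.prim_b1 t'))
    (fun h0 t' ht' => (XN t' ht' Bm hBm1 hBmX Bd hBd).1 h0)
    (fun _ t' ht' bm hbm => (XN t' ht' Bm hBm1 hBmX Bd hBd).2 bm fun o ho =>
      JxN679.NatS.mono (hbm o ho) (mul_le_mul_of_nonneg_right hCY (by linarith)))
  -- the numbers
  have hal : a.1.l ≤ cκ (dn q.1) * Real.log X + δ * Real.log X := by
    have := (abs_le.1 FV.κ).2
    linarith
  have hκ1' : cκ (dn q.1) ≤ 1 := by rw [← hκ₀]; exact hκ1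
  have hβ0 : (0 : ℝ) < nm (be1 x.e₀ β) := nm_pos' (E4RH858.be1_prim _ _).ne_zero
  have hw0 : 0 < wP (fN (π lam.1).n₃ (x.E a.1)) P := by
    rw [E4Dic352.wP_eq]
    exact Real.exp_pos _
  have hnr0 : 0 < nrm x := by
    unfold nrm
    have := nm_pos' (T3_prim x.β hx.β).ne_zero
    have := nm_pos' (e0_prim hx).1.ne_zero
    positivity
  have hCY0 : 0 ≤ C * ((X ^ A0) ^ 2) ^ ε₄ := by
    have : 0 ≤ ((X ^ A0) ^ 2) ^ ε₄ := Real.rpow_nonneg (by positivity) _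
    nlinarith
  have l2 := log2_nonneg
  have main : ∀ e : ℝ, e - ey ≤ ε / 32 + 6 * η →
      ((nm τ.2.1 : ℝ) * nm τ.2.2)⁻¹ * (C * ((X ^ A0) ^ 2) ^ ε₄ *
        (2 ^ c.nkk / (2 ^ c.nk) ^ 2 * Bd)) * X ^ e ≤
      ((1 + |ξ|) ^ M₁ * (X ^ (T5 (7 / 8 + d) (dn q.1, q.2) - μ + ε) /
        (nrm x * Real.exp (a.1.l / 3)) / (nm (be1 x.e₀ β) *
          wP (fN (π lam.1).n₃ (x.E a.1)) P * X ^ (ε / 2)))) ^ 2 := fun e he =>
    sx_term hX rfl hκ hκ1' hη hδ hnear hCY0 hCY' (by positivity) TNt.kk (by positivity)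
      (by
        have := TNt.kl
        linarith) (mul_pos (nm_pos' p1.ne_zero) (nm_pos' p2.ne_zero))
      (by
        have := TNt.g
        rw [← hg1, ← hg2] at this
        exact this) (mul_pos hβ0 hw0)
      (by
        have := TNt.W
        rw [t5, t6] at this
        exact this) hnr0 TNt.nr hal rfl (by positivity) hBd q7 (by linarith)
  have NM : Nom K (σ / 4) (Real.log X) l ((a.1.us 0).z + (a.1.us 1).z) (Real.log (nm m))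
      (Ls (moL ps)) (Ls (amL ps)) (Real.log (nm l') + Real.log (nm D1')) κ
      (cκ (dn q.1) * z'.M1 (cM (dn q.1) / cκ (dn q.1)))
      (cκ (dn q.1) * (q.2 .mo / cκ (dn q.1)))
      (cκ (dn q.1) * z'.c1 (q.2 .am / cκ (dn q.1)) - mx) (cκ (dn q.1) * (z'.m + z'.zm)) mx := by
    refine nom_num hL0 hκ hκ1' hη hδ hnear hok' hky q1 q2 q3 q4 ?_ TNt.lm TNt.lD ?_ ?_ ?_ hK ?_
      BX.a0 ?_ ?_ hησ
    · have h1 := hl5 t ht
      have h2 := TNt.ky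
      rw [t5, t6, t7] at h2
      linarith
    · have e1 : cκ (dn q.1) * (cM (dn q.1) / cκ (dn q.1)) = cM (dn q.1) :=
        mul_div_cancel₀ _ hκ.ne'
      have e2 : cM (dn q.1) = cu (dn q.1) 0 + cu (dn q.1) 1 := rfl
      have h0 := abs_le.1 (FV.u 0)
      have h1 := abs_le.1 (FV.u 1)
      rw [e1, e2, abs_le]
      constructor <;> linarith
    · have e1 : cκ (dn q.1) * (q.2 .mo / cκ (dn q.1)) = q.2 .mo := mul_div_cancel₀ _ hκ.ne'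
      rw [e1]
      exact abs_of_div hL0 (by
        have := hF.mass .mo
        rw [mass_mo] at this
        exact this)
    · have e1 : cκ (dn q.1) * (q.2 .am / cκ (dn q.1)) = q.2 .am := mul_div_cancel₀ _ hκ.ne'
      rw [e1]
      exact FV.am
    · have := BX.a0
      have h1 : cM (dn q.1) / cκ (dn q.1) ≤ 1 := by linarith
      have h2 := mul_le_mul_of_nonneg_left h1 hκ.le
      linarith
    · have h0 : 0 ≤ cM (dn q.1) / cκ (dn q.1) := by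
        have := BX.MN
        have := BX.N34
        linarith
      have h1 : q.2 .mo / cκ (dn q.1) ≤ 1 := by linarith
      have h2 := mul_le_mul_of_nonneg_left h1 hκ.le
      linarith
    · have h1 : q.2 .am / cκ (dn q.1) ≤ 1 := by linarith
      have h2 := mul_le_mul_of_nonneg_left h1 hκ.le
      linarith
  have hSx0 : 0 ≤ ((nm τ.2.1 : ℝ) * nm τ.2.2)⁻¹ * (C * ((X ^ A0) ^ 2) ^ ε₄ *
      (2 ^ c.nkk / (2 ^ c.nk) ^ 2 * Bd)) := by positivity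
  rcases Gy918.clY_good hκ.le (Gy918.M1_nonneg hok') q6 (cκ (dn q.1) * (z'.m + z'.zm)) with
    hG | hG
  · exact ⟨κ, _, _, _, _, mx, ey, _, NM, Or.inl hG, hSx0, main ey (by
      have : 0 ≤ ε / 32 + 6 * η := hε0
      linarith), hXS⟩
  · refine ⟨κ, _, _, _, _, mx, ey + (ε / 32 + 6 * η), _, NM, Or.inr ?_, hSx0,
      main _ (by linarith), hXS⟩
    refine ⟨cκ (dn q.1) * z'.kt + (ε / 32 + 6 * η), Fy, hFy, ?_, by linarith⟩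
    refine (hFc t ht x.z f1 f2 f3 D1' Z'' l' m hspl).trans ?_
    refine Real.rpow_le_rpow_of_exponent_le hX.le ?_
    have h1 := TNt.kt
    rw [t6] at h1
    have h2 : z.kt ≤ z'.kt + 6 * η := by
      have n1 := abs_le.1 hnear.k
      have n2 := abs_le.1 hnear.η
      have n3 := abs_le.1 hnear.b1
      have n4 := abs_le.1 hnear.Y1
      have n5 := abs_le.1 hnear.c12
      have n6 := abs_le.1 hnear.nu
      unfold Cls.kt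
      linarith
    have h3 := mul_le_mul_of_nonneg_left h2 hκ.le
    have h4 : cκ (dn q.1) * (6 * η) ≤ 6 * η := by nlinarith
    have h5 : (lg t.k - 2 * lg (sL (x.g * x.e₀ * x.t) t.k β) + lg D1' + beS t f2 +
        ((x.m 1 1 : ℝ) + x.m 1 2) * Real.log 2 + lg (nu0 t.o.1.1 t.o.1.2)) / Real.log X ≤
        cκ (dn q.1) * z.kt := by
      rw [div_le_iff₀ hL0]
      linarith
    linarith

end

end Crest.Agent.R017.StrW699
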