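import Crest.Agent.R017.StrW_699

/-!
# Row 17, T.3, `StrU`: `XRU` from `TermU` and `XNumU` (helper699)
-/

set_option autoImplicit false
set_option linter.unusedSectionVars false

noncomputable section

open Finset Complex
open scoped ComplexConjugate

namespace Crest.Agent.R017.StrY699

open Crest.Agent.R012 Crest.Agent.R012.Eis
open Crest.Agent.R012.Mob705 hiding pb mem_pb kap
open Crest.Agent.R012.PSer47 (IsChar)
open Crest.Agent.R017.Sx545 (Sm)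
open Crest.Agent.R017.CM106 (FS CS)
open Crest.Agent.R017.C70 (OKJ)
open Crest.Agent.R017.FE47 (PU SM)
open Crest.Agent.R017.End699 (HC prin0 hc_prin0)
open Crest.Agent.R017.B770
open Crest.Agent.R017.Prov71
open Crest.Agent.R017.Rough381
open Crest.Agent.R017.E5B71
open Crest.Agent.R017.E5L770
open Crest.Agent.R017.E4D164
open Crest.Agent.R017.E4J352
open Crest.Agent.R017.E4U164
open Crest.Agent.R017.E4Us512 (szU)
open Crest.Agent.R017.E4ap783 (TG7)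
open Crest.Agent.R017.TwP61 (tU tU_OK)
open Crest.Agent.R017.YsU61
open Crest.Agent.R017.StrU699 (XBlk XRU gx_prin0)
open Crest.Agent.R017.StrD699 (TermU XNumU)
open Crest.Agent.R017.StrW699

/-- the twists are characters -/
lemma tw_HC {P : DPar} (hP : P.OK) {t : (Eis → ℂ) × ℤ} (ht : TwOK P t) :
    ∃ M' : Eis, HC M' t.1 := by
  rcases ht with rfl | ⟨⟨M', h0, hdvd, hrad, hη⟩, hl, hj⟩
  · exact ⟨P.n₃, hc_prin0 hP.χ₃.q0 hP.χ₃.three⟩
  · exact ⟨M', hη⟩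

variable {Λ : Type*} {π : Λ → DPar} {h : ℝ → ℝ} {c₀ : ℝ}

set_option maxHeartbeats 1000000 in
/-- **`XRU` from the two inputs** -/
theorem xru_of (hpu : PU h c₀) (hP : ∀ lam, (π lam).OK) {A d μ e0 r K : ℝ}
    {Bf : ℝ → ℝ → ℝ → ℝ} {Jf : ℝ → ℝ → ℝ → Finset (Eis × Eis)} (hd : 0 ≤ d) (hd1 : d ≤ 1 / 8)
    (hA : 2 / 3 ≤ A) (hA1 : A ≤ 1) (hAd : 16 * (1 - A) ≤ d) (hK : 1 ≤ K)
    (hJf : ∀ l N z, OKJ (Jf l N z)) (HT : TermU π h (7 / 8 + d) A d μ e0 r Bf Jf)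
    (HN : XNumU π h A d e0 r Bf Jf) : XRU π h (7 / 8 + d) A d μ e0 r K Bf Jf := by
  classical
  intro ε hε σ₀ R₁ hσ₀ hR₁
  obtain ⟨ηx, hηx, HN⟩ := HN (ε / 16) (by linarith)
  obtain ⟨σ, hσ, hσσ, hσx, hσ1⟩ : ∃ σ : ℝ, 0 < σ ∧ σ ≤ σ₀ ∧ 2 * σ ≤ ηx ∧ σ ≤ 1 / 2 := by
    have h1 := min_le_left σ₀ (min (ηx / 2) (1 / 2))
    have h2 := min_le_right σ₀ (min (ηx / 2) (1 / 2))
    have h3 := min_le_left (ηx / 2) (1 / 2 : ℝ)
    have h4 := min_le_right (ηx / 2) (1 / 2 : ℝ)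
    exact ⟨min σ₀ (min (ηx / 2) (1 / 2)), lt_min hσ₀ (lt_min (by linarith) (by norm_num)),
      h1, by linarith, by linarith⟩
  obtain ⟨η, hη, hη1, hη2, hη3⟩ : ∃ η : ℝ, 0 < η ∧ η ≤ ηx ∧ 200 * η ≤ σ ∧ 10000 * η ≤ ε := by
    have h1 := min_le_left ηx (min (σ / 200) (ε / 10000))
    have h2 := min_le_right ηx (min (σ / 200) (ε / 10000))
    have h3 := min_le_left (σ / 200) (ε / 10000)
    have h4 := min_le_right (σ / 200) (ε / 10000)
    exact ⟨min ηx (min (σ / 200) (ε / 10000)), lt_min hηx (lt_min (by linarith) (by linarith)),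
      h1, by linarith, by linarith⟩
  obtain ⟨δ₃, hδ₃, HT⟩ := HT η hη
  obtain ⟨ε', hε', hε'1, hε'2, hε'3, hε'4⟩ : ∃ ε' : ℝ, 0 < ε' ∧ ε' ≤ δ₃ ∧ ε' ≤ ηx ∧ ε' ≤ ε ∧
      ε' ≤ 1 :=
    ⟨min (min δ₃ ηx) (min ε 1), lt_min (lt_min hδ₃ hηx) (lt_min hε one_pos),
      (min_le_left _ _).trans (min_le_left _ _), (min_le_left _ _).trans (min_le_right _ _),
      (min_le_right _ _).trans (min_le_left _ _), (min_le_right _ _).trans (min_le_right _ _)⟩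
  obtain ⟨δ, hδ, hδ1, hδ2, hδ3, hδ4, hδ5⟩ : ∃ δ : ℝ, 0 < δ ∧ δ ≤ δ₃ ∧ δ ≤ ηx ∧ 100 * δ ≤ σ ∧
      1000 * δ ≤ ε ∧ δ ≤ 1 / 2 := by
    have h1 := min_le_left (min δ₃ ηx) (min (σ / 100) (min (ε / 1000) (1 / 2)))
    have h2 := min_le_right (min δ₃ ηx) (min (σ / 100) (min (ε / 1000) (1 / 2)))
    have h3 := min_le_left δ₃ ηx
    have h4 := min_le_right δ₃ ηx
    have h5 := min_le_left (σ / 100) (min (ε / 1000) (1 / 2))
    have h6 := min_le_right (σ / 100) (min (ε / 1000) (1 / 2))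
    have h7 := min_le_left (ε / 1000) (1 / 2 : ℝ)
    have h8 := min_le_right (ε / 1000) (1 / 2 : ℝ)
    exact ⟨min (min δ₃ ηx) (min (σ / 100) (min (ε / 1000) (1 / 2))),
      lt_min (lt_min hδ₃ hηx) (lt_min (by linarith) (lt_min (by linarith) (by norm_num))),
      by linarith, by linarith, by linarith, by linarith, by linarith⟩
  refine ⟨σ, hσ, hσσ, δ₃, hδ₃, ε', hε', hε'3, δ, hδ, by linarith, ?_⟩
  intro lam N B T hD hT
  obtain ⟨δ₁, hδ₁, X₁, hX₁, HT⟩ := HT δ₃ ε' δ hδ₃ le_rfl hε' hε'1 hδ hδ1 lam N B hD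
  obtain ⟨M₁, δ₂, hδ₂, X₂, hX₂, HN⟩ := HN lam N B (insert (prin0 (π lam.1).n₃, 0) T) hD (by
      intro t ht
      rcases Finset.mem_insert.1 ht with h1 | h1
      · exact Or.inl h1
      · exact Or.inr (hT t h1))
  obtain ⟨A0, C0, X₃, hA0, hC0, hX₃, HS⟩ := szU hpu hP d hA e0 r Bf hJf lam N B 1 one_pos
  obtain ⟨m, hm, hm1, hm2⟩ : ∃ m : ℝ, 0 < m ∧ m ≤ ηx ∧ m ≤ ε / 16 :=
    ⟨min ηx (ε / 16), lt_min hηx (by linarith), min_le_left _ _, min_le_right _ _⟩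
  have hA0' : 0 < A0 := by linarith
  obtain ⟨C, A₁, hC, hA₁, HG⟩ := xgen_ex hpu (ε := m / (4 * A0)) (by positivity) N
  obtain ⟨X₄, hX₄, HB⟩ := BKn858.bkn_blk (Λ := Λ) (ε := ε / 32) hA0 (by linarith)
  obtain ⟨X₅, hX₅⟩ := (((tendsto_rpow_atTop (show 0 < m / 2 by positivity)).eventually_ge_atTop
    C).and (((tendsto_rpow_atTop hσ).eventually_ge_atTop A₁).and
      (Real.tendsto_log_atTop.eventually_ge_atTop (16 * Real.log 2 / η)))).exists_forall_of_atTop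
  refine ⟨49 * A0, M₁, by linarith, min (min δ₁ δ₂) 1, lt_min (lt_min hδ₁ hδ₂) one_pos,
    max (max X₁ X₂) (max (max X₃ X₄) X₅),
    lt_of_lt_of_le hX₁ ((le_max_left _ _).trans (le_max_left _ _)), ?_⟩
  intro X hX a ps q hF hok hl2 hokP x hx hxl h₁ h₂
  have g1 : X₁ ≤ X := ((le_max_left _ _).trans (le_max_left _ _)).trans hX
  have g2 : X₂ ≤ X := ((le_max_right _ _).trans (le_max_left _ _)).trans hX
  have g3 : X₃ ≤ X := (((le_max_left _ _).trans (le_max_left _ _)).trans (le_max_right _ _)).trans hX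
  have g4 : X₄ ≤ X := (((le_max_right _ _).trans (le_max_left _ _)).trans (le_max_right _ _)).trans hX
  have g5 : X₅ ≤ X := ((le_max_right _ _).trans (le_max_right _ _)).trans hX
  have hX1 : 1 < X := hX₁.trans_le g1
  have hX0 : 0 < X := by linarith
  obtain ⟨c1, c2, c3⟩ := hX₅ X g5
  have hL16 : 16 * Real.log 2 ≤ η * Real.log X := by
    have h1 : 16 * Real.log 2 / η ≤ Real.log X := c3
    rw [div_le_iff₀ hη] at h1
    linarith
  obtain ⟨sw, T₀, hT₀, hsw, HTI⟩ := HT X g1 a ps q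
    (hF.mono hX1.le le_rfl ((min_le_left _ _).trans (min_le_left _ _))) hok hl2 hokP x hx hxl h₁ h₂
  obtain ⟨SF, SD⟩ := HS X g3 a ps q δ (min (min δ₁ δ₂) 1) hδ5 (min_le_right _ _) hF hok hl2 hokP
  have SD := SD x (hx.mono hX1.le hε'4) h₁ h₂
  have HBI : BkI π (ε / 32) X Jf lam a x := fun M f c P β τ 𝒥 hf h𝒥 kn hkn =>
    HB X g4 π h lam Jf a ps x Bf e0 r ε' hJf hok hokP hx SF M f c P β τ 𝒥 hf h𝒥 kn hkn
  have hF2 : FrL A d δ δ₂ B X N a ps q :=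
    hF.mono hX1.le le_rfl ((min_le_left _ _).trans (min_le_right _ _))
  have hch : ∀ k : Kd, IsChar (chK (tU (π lam.1) lam.2) k) := isChar_chK (tU_OK (hP lam.1) hl2)
  have hY : ((X ^ A0) ^ 2) ^ (m / (4 * A0)) = X ^ (m / 2) := by
    rw [← Real.rpow_natCast, ← Real.rpow_mul hX0.le, ← Real.rpow_mul hX0.le]
    congr 1
    push_cast
    field_simp
    ring
  have hCm : C * ((X ^ A0) ^ 2) ^ (m / (4 * A0)) ≤ X ^ m := by
    rw [hY]
    calc C * X ^ (m / 2) ≤ X ^ (m / 2) * X ^ (m / 2) :=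
          mul_le_mul_of_nonneg_right c1 (Real.rpow_nonneg hX0.le _)
      _ = X ^ m := by
          rw [← Real.rpow_add hX0]
          congr 1
          ring
  have key : ∀ (tt : (Eis → ℂ) × ℤ), tt ∈ insert (prin0 (π lam.1).n₃, 0) T → ∀ (ξ : ℝ)
      (G : Eis → ℂ), (∀ y, Sm (π lam.1).n₃ y → G y = gx tt.1 tt.2 ξ y) →
      ∀ rng : Tm (x.O π lam Jf a) → Prop,
      (∀ t, rng t → rngD sw lD (X ^ ε' * Real.exp a.1.l) t ∨
        rngF sw lD (X ^ ε' * (U0 (π lam.1) a ps x / Real.exp a.1.l)) t) →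
      XBlk π h d K R₁ σ δ₃ (ε / 2) M₁ (49 * A0) X
        (X ^ (T5 (7 / 8 + d) (dn q.1, q.2) - μ + ε) / (nrm x * Real.exp (a.1.l / 3))) Jf lam a ps
        x h₁ h₂ tt ξ G rng := by
    intro tt htt ξ G hG rng hrng
    obtain ⟨M', hM'⟩ : ∃ M' : Eis, HC M' tt.1 := by
      refine tw_HC (hP lam.1) ?_
      rcases Finset.mem_insert.1 htt with h1 | h1
      · exact Or.inl h1
      · exact Or.inr (hT _ h1)
    exact xblk_of hJf hok hokP (hP lam.1).χ₃.q0 hx hε'4 hd hd1 hA1 hAd hF hX1 hA0 hC0 SF SD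
      hC hA₁ HG HTI
      (HN X g2 δ ε' hδ2 hε'2 a ps q hF2 hok hl2 hokP x hx h₁ h₂ tt htt ξ G hG) HBI hM' hch
      hη.le hδ.le hσ hK (by linarith) hη1 hσ1 hσx hL16 (by linarith)
      (hCm.trans (Real.rpow_le_rpow_of_exponent_le hX1.le hm1))
      (hCm.trans (Real.rpow_le_rpow_of_exponent_le hX1.le hm2)) c2 (by linarith) hrng
  refine ⟨sw, T₀, hT₀, hsw, ?_, fun t ht ξ => ?_⟩
  · exact key (prin0 (π lam.1).n₃, 0) (Finset.mem_insert_self _ _) 0 (fun _ => 1)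
      (fun y hy => gx_prin0 hy) _ fun t ht => Or.inl ht
  · exact key t (Finset.mem_insert_of_mem ht) ξ (gx t.1 t.2 ξ) (fun _ _ => rfl) _
      fun t ht => Or.inr ht

end Crest.Agent.R017.StrY699
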