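import Crest.Agent.R017.SupI_271
import Crest.Agent.R017.ProvB_71

/-!
# Row 17, provider: the fields `sup`, `supS` of `BBox` for the literal instance (helper271)

* `sup1_BQ`, `sup1_Bp`, `sup1_Bc` : `Sup1 (θ / 2)` for the first moments
* `supB_271`, `supSB_271` : the fields of `BBox`
-/

set_option autoImplicit false

noncomputable section

open Complex Set
open scoped ComplexConjugate ContDiff

namespace Crest.Agent.R017.SupI271

open Crest.Agent.R012 Crest.Agent.R012.Eis Crest.Agent.R012.LS2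
open Crest.Agent.R017.CM106 Crest.Agent.R017.FE47 Crest.Agent.R017.End699
open Crest.Agent.R017.XG702 (Pcs BG)
open Crest.Agent.R017.B770 Crest.Agent.R017.Prov71 Crest.Agent.R017.XSup271
open Crest.Agent.R017.HP842 (UT Pc pc)
open Crest.Agent.R017.SupPc271

/-- `Sup1` for the first moment over any set of admissible `k` -/
theorem sup1_BQ {θ : ℝ} (hθ : 1 / 2 < θ) (hθ1 : θ ≤ 1) (hPF : PF Set.univ θ)
    {h : ℝ → ℝ} (hd : ContDiff ℝ ∞ h) (hc : HasCompactSupport h) {P : DPar} (hP : P.OK)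
    {Q : Eis → Prop} (hQ : ∀ k, Q k → P.NP2 k) :
    Sup1 (θ / 2) Dq (fun l ps => BQ Q h l (ps.map (Pq.pc P))) := by
  classical
  intro ε hε
  set s : ℝ := min 1 ε with hs
  have hs0 : 0 < s := by positivity
  have hs1 : s ≤ 1 := min_le_left _ _
  have hs2 : s ≤ ε := min_le_right _ _
  obtain ⟨C, hC1, hC⟩ := sup_pq hθ hθ1 hPF hs0 hs1 hd hc hP
  refine ⟨C, hC1, fun l p ps hlen => ?_⟩
  simp only [Dq_len, Dq_s1, Dq_s2] at hlen ⊢
  unfold BQ
  rw [Finset.mul_sum]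
  refine Finset.sum_le_sum fun k hk => ?_
  rw [Finset.mem_filter, mem_bl (Real.exp_pos _).le] at hk
  rw [List.map_cons, List.map_cons, List.prod_cons]
  refine mul_le_mul_of_nonneg_right ?_ (List.prod_nonneg ?_)
  · have h1 := hC p k hk.1.1 (hQ k hk.2)
    have hd1 : (1 : ℝ) ≤ nm p.d := by exact_mod_cast nm_pos.mpr p.d0
    have ht1 : 1 ≤ 1 + |p.t| := by linarith [abs_nonneg p.t]
    have hk1 : (1 : ℝ) ≤ nm k := by exact_mod_cast nm_pos.mpr hk.1.1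
    have hk2 : (nm k : ℝ) ≤ Real.exp |l| := hk.1.2.trans (Real.exp_le_exp.mpr (le_abs_self l))
    have e1 : max 1 (1 + |p.t|) = 1 + |p.t| := max_eq_right ht1
    have e2 : max 1 (nm p.d : ℝ) = nm p.d := max_eq_right hd1
    rw [e1, e2]
    set Z : ℝ := (1 + |p.t|) * nm p.d * Real.exp |l| with hZ
    have hZ1 : 1 ≤ Z := by
      rw [hZ]
      exact one_le_mul_of_one_le_of_one_le (one_le_mul_of_one_le_of_one_le ht1 hd1)
        (Real.one_le_exp (abs_nonneg l))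
    have h2 : ((nm p.d : ℝ) * nm k * (1 + |p.t|)) ^ s ≤ Z ^ s := by
      refine Real.rpow_le_rpow (by positivity) ?_ hs0.le
      rw [hZ]
      calc (nm p.d : ℝ) * nm k * (1 + |p.t|) ≤ (nm p.d : ℝ) * Real.exp |l| * (1 + |p.t|) := by
            gcongr
        _ = _ := by ring
    have h4 : Z ^ s ≤ Z ^ ε := Real.rpow_le_rpow_of_exponent_le hZ1 hs2
    have h5 : (θ + s) * p.z ≤ (2 * (θ / 2) + ε) * p.z := by
      refine mul_le_mul_of_nonneg_right ?_ hlen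
      linarith
    calc ‖CS (pc h (p.pc P)) k‖ ≤ C * (((nm p.d : ℝ) * nm k * (1 + |p.t|)) ^ s *
          Real.exp ((θ + s) * p.z)) := h1
      _ ≤ C * (Z ^ s * Real.exp ((θ + s) * p.z)) := by gcongr
      _ ≤ C * (Z ^ ε * Real.exp ((2 * (θ / 2) + ε) * p.z)) := by gcongr
      _ = _ := by ring
  · intro a ha
    obtain ⟨q, _, rfl⟩ := List.mem_map.1 ha
    positivity

theorem sup1_Bp {θ : ℝ} (hθ : 1 / 2 < θ) (hθ1 : θ ≤ 1) (hPF : PF Set.univ θ)
    {h : ℝ → ℝ} {c : ℝ} (hh : PU h c) {P : DPar} (hP : P.OK) : Sup1 (θ / 2) Dq (Bp P h) :=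
  sup1_BQ hθ hθ1 hPF hh.cd hh.cs hP fun _ hk => hk.1

/-- **field `sup` of `BBox`** -/
theorem supB_271 {θ : ℝ} (hθ : 1 / 2 < θ) (hθ1 : θ ≤ 1) (hPF : PF Set.univ θ)
    {h : ℝ → ℝ} {c₀ : ℝ} (hh : PU h c₀) {Lam : Type*} (π : Lam → DPar) (hP : ∀ lam, (π lam).OK) :
    ∀ (κ : ℝ) (u : List ℝ) (m a b c e : ℝ), 0 ≤ κ → Okl u m a → 0 ≤ b → b ≤ m → 0 ≤ c →
      c ≤ a → BG Dq (fun lam => Bp (π lam) h) κ u (wt (m - b) (a - c)) e →
      BG Dq (fun lam => Bp (π lam) h) κ u (wt m a) (θ * (b + c) + e) := by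
  intro κ u m a b c e hκ hu hb hbm hc hca H
  have h1 := BG_sup (θ := θ / 2) (by linarith) (pinv_Bp π h) (fun lam => Bp_nonneg (π lam) h)
    (fun lam => sup1_Bp hθ hθ1 hPF hh (hP lam)) κ u m a b c e hκ hu hb hbm hc hca H
  have h2 : 2 * (θ / 2) * (b + c) + e = θ * (b + c) + e := by ring
  rwa [h2] at h1

/-- **field `supS` of `BBox`** -/
theorem supSB_271 {θ : ℝ} (hθ : 1 / 2 < θ) (hθ1 : θ ≤ 1) (hPF : PF Set.univ θ)
    {h : ℝ → ℝ} {c₀ : ℝ} (hh : PU h c₀) {Lam : Type*} (π : Lam → DPar) (hP : ∀ lam, (π lam).OK) :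
    ∀ (κ y : ℝ) (u : List ℝ) (m a e : ℝ), 0 ≤ κ → 0 ≤ y → Okl u m a →
      BG Dq (fun lam => Bp (π lam) h) κ u (wt m a) e →
      BG Dq (fun lam => Bp (π lam) h) κ (y :: u) (wt m a) (θ * y + e) := by
  intro κ y u m a e hκ hy _ H
  have h1 := BG_supS (θ := θ / 2) (by linarith) (fun lam => Bp_nonneg (π lam) h)
    (fun lam => sup1_Bp hθ hθ1 hPF hh (hP lam)) κ y u m a e hκ hy H
  have h2 : 2 * (θ / 2) * y + e = θ * y + e := by ring
  rwa [h2] at h1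

end Crest.Agent.R017.SupI271
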