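import Crest.Agent.R017.XLv_702

/-!
# Row 17: the level rule for granular sides, main theorem (helper702)

* `level` : for all levels a monomial with a weak type input and the real inequality
  `b - 2 level + c (levels of the box) ≤ E`  ⟹  the moment of order `c` has exponent `E`
-/

set_option autoImplicit false
set_option linter.unusedSectionVars false
set_option linter.unusedVariables false

noncomputable section

open Set Filter Topology

namespace Crest.Agent.R017.XG702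

variable {Pc τ ι Lam : Type*} [DecidableEq τ] {D : Pcs Pc τ}

/-- the bound of one class -/
lemma class_bound {T : Finset ι} {F : ι → ℝ} {X a b e : ℝ} (hX : 1 < X)
    (h1 : (T.card : ℝ) * X ^ a ≤ X ^ b) (h2 : ∀ i ∈ T, F i ≤ X ^ (e - b + a)) :
    ∑ i ∈ T, F i ≤ X ^ e := by
  have hX0 : 0 < X := by linarith
  calc ∑ i ∈ T, F i ≤ ∑ _i ∈ T, X ^ (e - b + a) := Finset.sum_le_sum h2
    _ = (T.card : ℝ) * X ^ a * X ^ (e - b) := by
        rw [Finset.sum_const, nsmul_eq_mul, Real.rpow_add hX0]; ring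
    _ ≤ X ^ b * X ^ (e - b) := mul_le_mul_of_nonneg_right h1 (Real.rpow_nonneg hX0.le _)
    _ = X ^ e := by rw [← Real.rpow_add hX0]; congr 1; ring

lemma cps_good {X δ' B : ℝ} {n : ℕ} [Fintype τ] {N : Fin n → ℕ} {U : Fin n → Pc}
    {gs : List Pc} {p₀ : Pc} {f : τ → ℝ} {g : τ → Option (Fin gs.length)}
    (h : D.Good X δ' B (List.ofFn U ++ gs)) :
    D.Good X δ' B (rep N U ++ cps (qf D X gs f g) (Gf p₀ gs g)) := by
  refine Good_sub h ?_
  intro p hp
  rcases List.mem_append.1 hp with h1 | h1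
  · obtain ⟨j, rfl⟩ := mem_rep h1
    exact List.mem_append_left _ (by rw [List.mem_ofFn]; exact ⟨j, rfl⟩)
  · obtain ⟨s, hs, rfl⟩ := mem_cps h1
    refine List.mem_append_right _ ?_
    unfold qf at hs
    unfold Gf
    cases hgs : g s with
    | none => rw [hgs] at hs; simp [mu1] at hs
    | some j => exact List.get_mem gs j

lemma cps_gran [Fintype τ] {X δ η' : ℝ} (hδ : 0 ≤ δ) (hη : 0 < η') {gs : List Pc} {p₀ : Pc}
    {f : τ → ℝ} (hf : ∀ s, 0 ≤ f s) {g : τ → Option (Fin gs.length)}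
    (hgδ : ∀ p ∈ gs, D.nl X p ≤ δ)
    (hg : ∀ s, 0 < f s → ∃ j, g s = some j ∧ D.kind (gs.get j) = s ∧ η' ≤ D.nl X (gs.get j)) :
    D.Gran X δ (∑ s, ⌊f s / η'⌋₊) (cps (qf D X gs f g) (Gf p₀ gs g)) f := by
  have hq : ∀ s, 0 < qf D X gs f g s → ∃ j, g s = some j ∧ D.kind (gs.get j) = s ∧
      η' ≤ D.nl X (gs.get j) := by
    intro s hs
    apply hg
    rcases (hf s).eq_or_lt with h | h
    · exfalso
      unfold qf at hs
      rw [← h] at hs
      cases hgs : g s with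
      | none => rw [hgs] at hs; simp [mu1] at hs
      | some j => rw [hgs] at hs; simp [mu1] at hs
    · exact h
  refine ⟨?_, ?_, ?_⟩
  · rw [cps_length]
    refine Finset.sum_le_sum fun s _ => ?_
    rcases Nat.eq_zero_or_pos (qf D X gs f g s) with h | h
    · rw [h]; exact Nat.zero_le _
    · obtain ⟨j, h1, h2, h3⟩ := hq s h
      unfold qf
      rw [h1]
      exact Nat.floor_le_floor (div_le_div_of_nonneg_left (hf s) hη h3)
  · intro p hp
    obtain ⟨s, hs, rfl⟩ := mem_cps hp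
    obtain ⟨j, h1, h2, h3⟩ := hq s hs
    unfold Gf
    rw [h1]
    exact hgδ _ (List.get_mem gs j)
  · intro s
    rw [mass_cps X _ _ (fun s hs => by
      obtain ⟨j, h1, h2, h3⟩ := hq s hs
      unfold Gf
      rw [h1]
      exact h2)]
    rcases (hf s).eq_or_lt with h | h
    · have : qf D X gs f g s = 0 := by
        by_contra hne
        obtain ⟨j, h1, h2, h3⟩ := hq s (Nat.pos_of_ne_zero hne)
        apply hne
        unfold qf
        rw [h1, ← h]
        simp [mu1]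
      rw [this, ← h]
      simpa using hδ
    · obtain ⟨j, h1, h2, h3⟩ := hg s h
      have hnl : 0 < D.nl X (gs.get j) := lt_of_lt_of_le hη h3
      have h4 := hgδ _ (List.get_mem gs j)
      unfold qf Gf
      rw [h1]
      show |(⌊f s / D.nl X (gs.get j)⌋₊ : ℝ) * D.nl X (gs.get j) - f s| ≤ δ
      have h5 := Nat.floor_le (div_nonneg h.le hnl.le)
      have h6 := Nat.lt_floor_add_one (f s / D.nl X (gs.get j))
      rw [le_div_iff₀ hnl] at h5
      rw [div_lt_iff₀ hnl] at h6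
      rw [abs_le]
      constructor
      · nlinarith
      · linarith

set_option maxHeartbeats 2000000 in
/-- **the level rule** -/
theorem level [Fintype τ] [Nonempty Pc] {S : Lam → ℝ → Finset ι} {v : Lam → Pc → ι → ℝ}
    (hv : ∀ lam p i, 0 ≤ v lam p i) {θ : ℝ} (hθ : 0 ≤ θ) (hsup : SupG D S v θ)
    (hcard : ∀ lam, ∃ C₀ : ℝ, ∀ l, ((S lam l).card : ℝ) ≤ C₀ * Real.exp (max l 0)) {c : ℕ} (hc : 1 ≤ c) {κ : ℝ}
    (hκ : 0 ≤ κ) {n : ℕ} {u : Fin n → ℝ} {w : τ → ℝ} (hu : ∀ j, 0 ≤ u j) (hw : ∀ s, 0 ≤ w s)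
    {E : ℝ}
    (hcert : ∀ P : Pt n τ, (∀ j, P.1 j ≤ θ * u j) → (∀ s, P.2 s ≤ θ * w s) →
      ∃ (N : Fin n → ℕ) (f : τ → ℝ) (t b : ℝ), (∀ s, 0 ≤ f s) ∧ (∀ s, w s = 0 → f s = 0) ∧
        WG D S v κ (rep N u) f t b ∧
        (t < 2 * lvF w N f P ∨ (t ≤ 2 * lvF w N f P ∧ 0 < lenF u N f)) ∧
        b - 2 * lvF w N f P + c * smF P ≤ E) :
    BG D (fun lam => FF (S lam) (v lam) c) κ (List.ofFn u) w E := by
  classical
  intro ε hε
  obtain ⟨p₀⟩ := ‹Nonempty Pc›
  set L := ∑ j, u j + ∑ s, w s with hL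
  have hL0 : 0 ≤ L := add_nonneg (Finset.sum_nonneg fun j _ => hu j)
    (Finset.sum_nonneg fun s _ => hw s)
  have hc1 : (1:ℝ) ≤ c := by exact_mod_cast hc
  set ε₂ := ε / (8 * c * (L + 1)) with hε₂
  have hε₂0 : 0 < ε₂ := by positivity
  have hcε₂ : c * (ε₂ * L) ≤ ε / 8 := by
    have h1 : c * (ε₂ * L) = ε / 8 * (L / (L + 1)) := by rw [hε₂]; field_simp
    rw [h1]
    have h2 : L / (L + 1) ≤ 1 := by rw [div_le_one (by linarith)]; linarith
    have h3 : 0 ≤ ε / 8 := by linarith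
    nlinarith
  set M := max 0 (κ + 2 - E) with hM
  have hM0 : 0 ≤ M := le_max_left _ _
  set B₁ := M + θ * (L + 1) + 1 + ε₂ * L with hB₁
  set B₂ := B₁ + θ * (L + 1) + 1 with hB₂
  have hθL : 0 ≤ θ * (L + 1) := mul_nonneg hθ (by linarith)
  have hεL : 0 ≤ ε₂ * L := by positivity
  have hB₁0 : 0 ≤ B₁ := by rw [hB₁]; linarith
  -- local data
  have hloc : ∀ P ∈ PB B₁ θ u w, ∃ (N : Fin n → ℕ) (f : τ → ℝ) (b vP σ r δ : ℝ),
      Cel D S v κ u w c E ε ε₂ P N f b vP σ r δ := by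
    rintro P ⟨h1, h2⟩
    obtain ⟨N, f, t, b, hf, hfw, hW, hsl, hE⟩ := hcert P
      (fun j => (h1 j (Set.mem_univ j)).2) (fun s => (h2 s (Set.mem_univ s)).2)
    obtain ⟨vP, σ, r, δ, h⟩ := cell hu hε hε₂0 hf hfw hW hsl hE
    exact ⟨N, f, b, vP, σ, r, δ, h⟩
  choose! Nf ff bf vf σf rf δf hCel using hloc
  obtain ⟨F, hFS, hF⟩ := (PB_compact B₁ θ u w).elim_nhds_subcover
    (fun P => Metric.ball P (rf P / 2))
    (fun P hP => Metric.ball_mem_nhds P (half_pos (hCel P hP).r0))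
  have hne : F.Nonempty := by
    have h0 : ((fun _ => 0, fun _ => 0) : Pt n τ) ∈ PB B₁ θ u w := by
      refine ⟨fun j _ => ⟨?_, ?_⟩, fun s _ => ⟨?_, ?_⟩⟩
      · show -B₁ ≤ (0:ℝ); linarith
      · exact mul_nonneg hθ (hu j)
      · show -B₁ ≤ (0:ℝ); linarith
      · exact mul_nonneg hθ (hw s)
    have := hF h0
    rw [Set.mem_iUnion₂] at this
    obtain ⟨P, hP, _⟩ := this
    exact ⟨P, hP⟩
  -- constants
  obtain ⟨wm, hwm0, hwm⟩ := exists_lower (fun s => if 0 < w s then w s else 1)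
    (fun s => by split_ifs with h; exacts [h, one_pos])
  set CC : Pt n τ → ℝ := fun P => ∑ s, (ff P s * (4 * B₂ / w s ^ 2 + 2 / w s) + θ + 1) with hCC
  have hCC0 : ∀ P ∈ F, 0 ≤ CC P := by
    intro P hP
    refine Finset.sum_nonneg fun s _ => ?_
    have h1 := (hCel P (hFS P hP)).f0 s
    have h2 := hw s
    have h3 : 0 ≤ B₂ := by rw [hB₂]; linarith
    positivity
  set rm := F.inf' hne (fun P => rf P / 2) with hrm
  have hrm0 : 0 < rm := by
    rw [hrm, Finset.lt_inf'_iff]; exact fun P hP => half_pos (hCel P (hFS P hP)).r0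
  set δa := F.inf' hne δf with hδa
  have hδa0 : 0 < δa := by
    rw [hδa, Finset.lt_inf'_iff]; exact fun P hP => (hCel P (hFS P hP)).δ0
  set δb := F.inf' hne (fun P => σf P / (2 * CC P + 1)) with hδb
  have hδb0 : 0 < δb := by
    rw [hδb, Finset.lt_inf'_iff]
    intro P hP
    have := hCC0 P hP
    exact div_pos (hCel P (hFS P hP)).σ0 (by linarith)
  set δ := min (min δa δb) (min (min (rm / (4 * (θ + 1))) (wm / 4))
    (1 / (n + Fintype.card τ + 1))) with hδdef
  have hδ0 : 0 < δ := by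
    refine lt_min (lt_min hδa0 hδb0) (lt_min (lt_min (by positivity) (by positivity))
      (by positivity))
  have hδ_a : δ ≤ δa := (min_le_left _ _).trans (min_le_left _ _)
  have hδ_b : δ ≤ δb := (min_le_left _ _).trans (min_le_right _ _)
  have hδ_r : δ ≤ rm / (4 * (θ + 1)) :=
    (min_le_right _ _).trans ((min_le_left _ _).trans (min_le_left _ _))
  have hδ_w : δ ≤ wm / 4 := (min_le_right _ _).trans ((min_le_left _ _).trans (min_le_right _ _))
  have hδ_n : δ ≤ 1 / (n + Fintype.card τ + 1) := (min_le_right _ _).trans (min_le_right _ _)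
  have hδ1 : (n + Fintype.card τ : ℝ) * δ ≤ 1 := by
    rw [le_div_iff₀ (by positivity)] at hδ_n
    nlinarith
  have hδle1 : δ ≤ 1 := by
    rw [le_div_iff₀ (by positivity)] at hδ_n
    have : 0 ≤ (n + Fintype.card τ : ℝ) * δ := by positivity
    nlinarith
  have hθδ : θ * δ ≤ rm / 4 := by
    rw [le_div_iff₀ (by positivity)] at hδ_r
    nlinarith
  refine ⟨δ, hδ0, fun lam Ng B => ?_⟩
  obtain ⟨C₀, hcard⟩ := hcard lam
  -- after the number of granular pieces
  set η' := δ / (2 * (θ + 1) * (Ng + 1)) with hη'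
  have hη0 : 0 < η' := by positivity
  set ε₄ := min (min η' (rm / (8 * (Ng + 1)))) (1 / (n + Ng + 1)) with hε₄
  have hε₄0 : 0 < ε₄ := lt_min (lt_min hη0 (by positivity)) (by positivity)
  have h4η : ε₄ ≤ η' := (min_le_left _ _).trans (min_le_left _ _)
  have h4r : ε₄ ≤ rm / (8 * (Ng + 1)) := (min_le_left _ _).trans (min_le_right _ _)
  have h4n : ε₄ ≤ 1 / (n + Ng + 1) := min_le_right _ _
  set Bs := max B (κ + L + 3) with hBs
  obtain ⟨δs, hδs, Xs, hXs, HS⟩ := hsup ε₄ hε₄0 lam Bs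
  have hwt : ∀ P ∈ F, ∃ δ' : ℝ, 0 < δ' ∧ ∃ X₀ : ℝ, 1 < X₀ ∧ ∀ X : ℝ, X₀ ≤ X →
      ∀ (k : ℝ) (us gs : List Pc), |k - κ| ≤ δf P → D.Near X (δf P) us (rep (Nf P) u) →
      D.Gran X (δf P) (∑ s, ⌊ff P s / η'⌋₊) gs (ff P) →
      D.Good X δ' B (us ++ gs) → ∀ (T : Finset ι) (V : ℝ), T ⊆ S lam (k * Real.log X) →
        X ^ vf P ≤ V → (∀ i ∈ T, V ≤ pvl (v lam) (us ++ gs) i ^ 2) →
          (T.card : ℝ) * V ≤ X ^ (bf P + σf P) :=
    fun P hP => (hCel P (hFS P hP)).wt lam _ B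
  choose! δ'f hδ'f X₀f hX₀f HW using hwt
  obtain ⟨X₁, hX₁, hX₁'⟩ : ∃ X₁ : ℝ, 1 < X₁ ∧ ∀ X, X₁ ≤ X →
      (F.card : ℝ) * (Ng + 1) ^ Fintype.card τ ≤ X ^ (ε / 8) ∧ 2 ≤ X ^ (ε / 8) ∧ C₀ ≤ X := by
    have ht := tendsto_rpow_atTop (show (0:ℝ) < ε / 8 by linarith)
    obtain ⟨Y, hY⟩ := Filter.eventually_atTop.1 (ht.eventually_ge_atTop
      (max ((F.card : ℝ) * (Ng + 1) ^ Fintype.card τ) 2))
    refine ⟨max (max Y 2) C₀, lt_of_lt_of_le (by norm_num)
      ((le_max_right Y 2).trans (le_max_left _ _)), fun X hX => ?_⟩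
    have h1 := hY X (((le_max_left _ _).trans (le_max_left _ _)).trans hX)
    exact ⟨(le_max_left _ _).trans h1, (le_max_right _ _).trans h1, (le_max_right _ _).trans hX⟩
  set δ' := min δs (F.inf' hne δ'f) with hδ'
  have hδ'0 : 0 < δ' := by
    refine lt_min hδs ?_
    rw [Finset.lt_inf'_iff]; exact fun P hP => hδ'f P hP
  refine ⟨δ', hδ'0, max (max Xs X₁) (F.sup' hne X₀f),
    lt_of_lt_of_le hXs ((le_max_left _ _).trans (le_max_left _ _)), ?_⟩
  intro X hX k us gs hk hnear hgran hgood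
  have hXs' : Xs ≤ X := ((le_max_left _ _).trans (le_max_left _ _)).trans hX
  have hX1' : X₁ ≤ X := ((le_max_right _ _).trans (le_max_left _ _)).trans hX
  have hX1 : 1 < X := lt_of_lt_of_le hXs hXs'
  have hX0 : 0 < X := by linarith
  have hlog : 0 < Real.log X := Real.log_pos hX1
  obtain ⟨hcl, h2X, hC₀X⟩ := hX₁' X hX1'
  obtain ⟨U, rfl, hU⟩ := near_iff hnear
  have hgl : (gs.length : ℝ) ≤ Ng := by exact_mod_cast hgran.1
  have hnl0 : ∀ p ∈ List.ofFn U ++ gs, 0 ≤ D.nl X p := fun p hp =>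
    div_nonneg (hgood p hp).2.2 hlog.le
  have hUmem : ∀ j, U j ∈ List.ofFn U ++ gs := fun j =>
    List.mem_append_left _ (by rw [List.mem_ofFn]; exact ⟨j, rfl⟩)
  have hkle : k ≤ Bs := by
    have h1 := (abs_le.1 hk).2
    have h2 : κ + L + 3 ≤ Bs := le_max_right _ _
    linarith
  have hXBs : X ^ B ≤ X ^ Bs := Real.rpow_le_rpow_of_exponent_le hX1.le (le_max_left _ _)
  have hXδs : X ^ δ' ≤ X ^ δs := Real.rpow_le_rpow_of_exponent_le hX1.le (min_le_left _ _)
  have hgood1 : ∀ p ∈ List.ofFn U ++ gs, D.Good X δs Bs [p] := by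
    intro p hp q hq
    rw [List.mem_singleton] at hq
    subst hq
    obtain ⟨h1, h2, h3⟩ := hgood q hp
    exact ⟨h1.trans hXδs, h2.trans hXBs, h3⟩
  have huL : ∀ j, u j ≤ L := fun j => by
    have := Finset.single_le_sum (f := u) (fun j _ => hu j) (Finset.mem_univ j)
    have h5 : 0 ≤ ∑ s, w s := Finset.sum_nonneg fun s _ => hw s
    rw [hL]; linarith
  set l := k * Real.log X with hl
  -- classes
  set A : Finset (Pt n τ × (τ → Option (Fin gs.length))) := F ×ˢ Finset.univ with hA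
  set Ta : Pt n τ × (τ → Option (Fin gs.length)) → Finset ι := fun a => (S lam l).filter fun i =>
    (∀ s, 0 < ff a.1 s → ∃ j, a.2 s = some j ∧ D.kind (gs.get j) = s ∧
      η' ≤ D.nl X (gs.get j)) ∧
    X ^ vf a.1 ≤ pvl (v lam) (rep (Nf a.1) U ++ cps (qf D X gs (ff a.1) a.2) (Gf p₀ gs a.2)) i ^ 2 ∧
    pvl (v lam) (List.ofFn U ++ gs) i ^ c ≤ X ^ (E + 5 * ε / 8 - (bf a.1 + σf a.1) + vf a.1) with hTa
  have hclassify : ∀ i ∈ S lam l, pvl (v lam) (List.ofFn U ++ gs) i ^ c ≤ X ^ (-M) ∨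
      ∃ a ∈ A, i ∈ Ta a := by
    intro i hi
    have hcf := classify (D := D) (hv lam) hX1 (θ := θ) (B₁ := B₁) (ε₂ := ε₂) (ε₄ := ε₄) (η' := η')
      (δ := δ) (M := M) (rm := rm) (u := u) (w := w) (c := c) hc hu hw hθ hε₂0.le hε₄0.le hη0 h4η
      hδ0 hδ1 (fun s hs => by
        have := hwm s
        rw [if_pos hs] at this
        linarith) hM0 (by rw [hB₁]) p₀ (U := U) (gs := gs) (i := i) ?_ ?_ ?_ ?_
      (fun j => (hU j).2) (fun j => hnl0 _ (hUmem j))
      (fun g hg => hnl0 g (List.mem_append_right _ hg)) hgran.2.1 hgran.2.2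
      (fun j => HS X hXs' k (U j) hkle ?_ (hgood1 _ (hUmem j)) i hi)
      (fun g hg => HS X hXs' k g hkle ?_ (hgood1 _ (List.mem_append_right _ hg)) i hi)
    · rcases hcf with h | ⟨Q, R, hR, hQR, hval, hmono⟩
      · exact Or.inl h
      right
      have hRF := hF hR
      rw [Set.mem_iUnion₂] at hRF
      obtain ⟨P, hPF, hRP⟩ := hRF
      have hC := hCel P (hFS P hPF)
      have hQP : dist Q P < rf P := by
        have h1 : dist R P < rf P / 2 := hRP
        have h2 : rm ≤ rf P / 2 := Finset.inf'_le _ hPF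
        have h3 := dist_triangle Q R P
        linarith
      obtain ⟨g, hg1, hg2⟩ := hmono (Nf P) (ff P) hC.f0 hC.fw
      refine ⟨(P, g), Finset.mem_product.2 ⟨hPF, Finset.mem_univ _⟩, ?_⟩
      rw [hTa]
      simp only
      rw [Finset.mem_filter]
      refine ⟨hi, hg1, le_trans ?_ hg2, ?_⟩
      · refine Real.rpow_le_rpow_of_exponent_le hX1.le ?_
        have h1 := hC.lev Q hQP
        have h2 : δ * (2 * CC P) ≤ σf P := by
          have h3 : δ ≤ σf P / (2 * CC P + 1) := hδ_b.trans (Finset.inf'_le _ hPF)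
          have h4 := hCC0 P hPF
          rw [le_div_iff₀ (by linarith)] at h3
          linarith
        have h3 : CC P = ∑ s, (ff P s * (4 * (B₁ + θ * (L + 1) + 1) / w s ^ 2 + 2 / w s) +
          θ + 1) := rfl
        rw [← hL, ← h3]
        linarith
      · rw [hval, ← Real.rpow_natCast, ← Real.rpow_mul hX0.le]
        refine Real.rpow_le_rpow_of_exponent_le hX1.le ?_
        have h1 := hC.val Q hQP
        rw [← hL]
        linarith
    · -- (n + len) ε₄ ≤ 1
      rw [le_div_iff₀ (by positivity)] at h4n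
      have h1 : (n + gs.length : ℝ) * ε₄ ≤ (n + Ng) * ε₄ :=
        mul_le_mul_of_nonneg_right (by linarith) hε₄0.le
      nlinarith
    · have h1 : θ * η' + ε₄ ≤ (θ + 1) * η' := by linarith
      have h2 : (gs.length : ℝ) * (θ * η' + ε₄) ≤ Ng * ((θ + 1) * η') :=
        mul_le_mul hgl h1 (by positivity) (by positivity)
      have h3 : (Ng : ℝ) * ((θ + 1) * η') = δ / 2 * (Ng / (Ng + 1)) := by
        rw [hη']; field_simp
      have h4 : (Ng : ℝ) / (Ng + 1) ≤ 1 := by rw [div_le_one (by positivity)]; linarith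
      nlinarith
    · have h2 : (gs.length : ℝ) * η' ≤ Ng * η' := mul_le_mul_of_nonneg_right hgl hη0.le
      have h3 : (Ng : ℝ) * η' = δ * (Ng / (Ng + 1)) * (1 / (2 * (θ + 1))) := by
        rw [hη']; field_simp
      have h4 : (Ng : ℝ) / (Ng + 1) ≤ 1 := by rw [div_le_one (by positivity)]; linarith
      have h5 : 1 / (2 * (θ + 1)) ≤ 1 := by rw [div_le_one (by positivity)]; linarith
      have h6 : 0 ≤ (Ng : ℝ) / (Ng + 1) := by positivity
      have h7 : δ * (Ng / (Ng + 1)) ≤ δ := by nlinarith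
      have h8 : 0 ≤ δ * ((Ng : ℝ) / (Ng + 1)) := by positivity
      rw [h3] at h2
      nlinarith
    · have h1 : (gs.length + 1 : ℝ) * ε₄ ≤ (Ng + 1) * (rm / (8 * (Ng + 1))) :=
        mul_le_mul (by linarith) h4r hε₄0.le (by positivity)
      have h2 : ((Ng : ℝ) + 1) * (rm / (8 * (Ng + 1))) = rm / 8 := by field_simp
      linarith
    · have h1 := (abs_le.1 (hU j).2).2
      have h2 := huL j
      have h3 : κ + L + 3 ≤ Bs := le_max_right _ _
      linarith
    · have h1 := hgran.2.1 g hg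
      have h3 : κ + L + 3 ≤ Bs := le_max_right _ _
      linarith
  -- bound of one class
  have hclass : ∀ a ∈ A, ∑ i ∈ Ta a, pvl (v lam) (List.ofFn U ++ gs) i ^ c ≤ X ^ (E + 5 * ε / 8) := by
    intro a ha
    obtain ⟨hPF, _⟩ := Finset.mem_product.1 ha
    have hC := hCel a.1 (hFS _ hPF)
    rcases (Ta a).eq_empty_or_nonempty with h0 | ⟨i0, hi0⟩
    · rw [h0, Finset.sum_empty]; exact Real.rpow_nonneg hX0.le _
    have hvalid := (Finset.mem_filter.1 hi0).2.1
    have hδP : δ ≤ δf a.1 := hδ_a.trans (Finset.inf'_le _ hPF)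
    have hXP : X₀f a.1 ≤ X := ((Finset.le_sup' X₀f hPF).trans (le_max_right _ _)).trans hX
    have hδ'P : δ' ≤ δ'f a.1 := (min_le_right _ _).trans (Finset.inf'_le _ hPF)
    have h1 := HW a.1 hPF X hXP k (rep (Nf a.1) U)
      (cps (qf D X gs (ff a.1) a.2) (Gf p₀ gs a.2)) (hk.trans hδP)
      (Near_rep (Nf a.1) fun j => ⟨(hU j).1, (hU j).2.trans hδP⟩)
      (Gran_mono (cps_gran hδ0.le hη0 hC.f0 hgran.2.1 hvalid) hδP le_rfl)
      (Good_mono hX1.le (cps_good hgood) hδ'P) (Ta a) (X ^ vf a.1) (Finset.filter_subset _ _)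
      le_rfl (fun i hi => (Finset.mem_filter.1 hi).2.2.1)
    exact class_bound hX1 h1 fun i hi => (Finset.mem_filter.1 hi).2.2.2
  -- conclusion
  have hpv0 : ∀ i, 0 ≤ pvl (v lam) (List.ofFn U ++ gs) i ^ c := fun i => pow_nonneg (pvl_nonneg (hv lam) _ _) _
  have hXM : 0 ≤ X ^ (-M) := Real.rpow_nonneg hX0.le _
  have hsum : FF (S lam) (v lam) c l (List.ofFn U ++ gs) ≤ (S lam l).card * X ^ (-M) +
      (A.card : ℝ) * X ^ (E + 5 * ε / 8) := by
    unfold FF
    calc ∑ i ∈ S lam l, pvl (v lam) (List.ofFn U ++ gs) i ^ c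
        ≤ ∑ i ∈ S lam l, (X ^ (-M) + ∑ a ∈ A, if i ∈ Ta a then
            pvl (v lam) (List.ofFn U ++ gs) i ^ c else 0) := by
          refine Finset.sum_le_sum fun i hi => ?_
          have hnn : ∀ a ∈ A, 0 ≤ (if i ∈ Ta a then pvl (v lam) (List.ofFn U ++ gs) i ^ c else 0) := by
            intro a _
            split_ifs
            · exact hpv0 i
            · exact le_rfl
          rcases hclassify i hi with h | ⟨a, ha, hia⟩
          · have := Finset.sum_nonneg hnn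
            linarith
          · have := Finset.single_le_sum hnn ha
            rw [if_pos hia] at this
            linarith
      _ = (S lam l).card * X ^ (-M) + ∑ a ∈ A, ∑ i ∈ Ta a, pvl (v lam) (List.ofFn U ++ gs) i ^ c := by
          rw [Finset.sum_add_distrib, Finset.sum_const, nsmul_eq_mul, Finset.sum_comm]
          congr 1
          refine Finset.sum_congr rfl fun a _ => ?_
          rw [← Finset.sum_filter]
          refine Finset.sum_congr ?_ fun _ _ => rfl
          ext i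
          rw [Finset.mem_filter]
          exact ⟨fun h => h.2, fun h => ⟨(Finset.mem_filter.1 h).1, h⟩⟩
      _ ≤ _ := by
          gcongr
          calc ∑ a ∈ A, ∑ i ∈ Ta a, pvl (v lam) (List.ofFn U ++ gs) i ^ c
              ≤ ∑ _a ∈ A, X ^ (E + 5 * ε / 8) := Finset.sum_le_sum hclass
            _ = _ := by rw [Finset.sum_const, nsmul_eq_mul]
  have hAcard : (A.card : ℝ) ≤ X ^ (ε / 8) := by
    refine le_trans ?_ hcl
    rw [hA, Finset.card_product, Finset.card_univ, Fintype.card_fun, Fintype.card_option,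
      Fintype.card_fin]
    push_cast
    gcongr
  have hS1 : ((S lam l).card : ℝ) * X ^ (-M) ≤ X ^ E := by
    have h1 := hcard l
    have h2 : Real.exp (max l 0) ≤ X ^ (κ + 1) := by
      rw [Real.rpow_def_of_pos hX0]
      apply Real.exp_le_exp.2
      refine max_le ?_ (by positivity)
      rw [hl, mul_comm]
      have := (abs_le.1 hk).2
      nlinarith
    have h3 : ((S lam l).card : ℝ) ≤ X ^ (κ + 2) := by
      rcases le_total C₀ 0 with h | h
      · have : ((S lam l).card : ℝ) ≤ 0 := h1.trans (mul_nonpos_of_nonpos_of_nonneg h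
          (Real.exp_pos _).le)
        exact this.trans (Real.rpow_nonneg hX0.le _)
      · calc ((S lam l).card : ℝ) ≤ C₀ * Real.exp (max l 0) := h1
          _ ≤ X * X ^ (κ + 1) := mul_le_mul hC₀X h2 (Real.exp_pos _).le hX0.le
          _ = X ^ (κ + 2) := by
              nth_rewrite 1 [← Real.rpow_one X]
              rw [← Real.rpow_add hX0]; congr 1; ring
    calc ((S lam l).card : ℝ) * X ^ (-M) ≤ X ^ (κ + 2) * X ^ (-M) :=
          mul_le_mul_of_nonneg_right h3 hXM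
      _ = X ^ (κ + 2 - M) := by rw [← Real.rpow_add hX0]; congr 1
      _ ≤ X ^ E := by
          refine Real.rpow_le_rpow_of_exponent_le hX1.le ?_
          have : κ + 2 - E ≤ M := le_max_right _ _
          linarith
  calc FF (S lam) (v lam) c l (List.ofFn U ++ gs) ≤ (S lam l).card * X ^ (-M) +
      (A.card : ℝ) * X ^ (E + 5 * ε / 8) := hsum
    _ ≤ X ^ E + X ^ (ε / 8) * X ^ (E + 5 * ε / 8) := by gcongr
    _ ≤ X ^ (E + 6 * ε / 8) + X ^ (E + 6 * ε / 8) := by
        gcongr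
        · exact hX1.le
        · linarith
        · rw [← Real.rpow_add hX0]
          refine Real.rpow_le_rpow_of_exponent_le hX1.le ?_
          linarith
    _ = 2 * X ^ (E + 6 * ε / 8) := by ring
    _ ≤ X ^ (ε / 8) * X ^ (E + 6 * ε / 8) :=
        mul_le_mul_of_nonneg_right h2X (Real.rpow_nonneg hX0.le _)
    _ ≤ X ^ (E + ε) := by
        rw [← Real.rpow_add hX0]
        refine Real.rpow_le_rpow_of_exponent_le hX1.le ?_
        linarith

end Crest.Agent.R017.XG702
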