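import Crest.Agent.R017.SupI_271
import Crest.Agent.R017.XLv2_702
import Crest.Agent.R012.CR2b_180

/-!
# Row 17, provider: the inputs of the level rule for the literal instance (helper271)

* `Sq Q l`, `vq P h p k` : index sets and values of the pieces
* `FF_one`, `FF_two` : the moments of the provider
* `supG_271` : pointwise bound; `card_Sq`
-/

set_option autoImplicit false

noncomputable section

open Complex Set
open scoped ComplexConjugate ContDiff

namespace Crest.Agent.R017.SupI271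

open Crest.Agent.R012 Crest.Agent.R012.Eis Crest.Agent.R012.LS2
open Crest.Agent.R017.CM106 Crest.Agent.R017.FE47 Crest.Agent.R017.End699
open Crest.Agent.R017.XG702
open Crest.Agent.R017.B770 Crest.Agent.R017.Prov71 Crest.Agent.R017.XSup271
open Crest.Agent.R017.HP842 (UT Pc pc)
open Crest.Agent.R017.SupPc271

open Classical in
/-- index sets -/
def Sq (Q : Eis → Prop) (l : ℝ) : Finset Eis := (bl (Real.exp l)).filter Q

/-- values of the pieces -/
def vq (P : DPar) (h : ℝ → ℝ) (p : Pq) (k : Eis) : ℝ := ‖CS (pc h (p.pc P)) k‖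

lemma vq_nonneg (P : DPar) (h : ℝ → ℝ) (p : Pq) (k : Eis) : 0 ≤ vq P h p k := norm_nonneg _

lemma FF_two (Q : Eis → Prop) (P : DPar) (h : ℝ → ℝ) (l : ℝ) (ps : List Pq) :
    FF (Sq Q) (vq P h) 2 l ps = RQ Q h l (ps.map (Pq.pc P)) := by
  classical
  unfold FF RQ Sq
  refine Finset.sum_congr ?_ fun k _ => ?_
  · congr!
  · unfold pvl
    induction ps with
    | nil => simp
    | cons p ps ih =>
      rw [List.map_cons, List.prod_cons, mul_pow, ih, List.map_cons, List.map_cons, List.prod_cons]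
      rfl

lemma FF_one (Q : Eis → Prop) (P : DPar) (h : ℝ → ℝ) (l : ℝ) (ps : List Pq) :
    FF (Sq Q) (vq P h) 1 l ps = BQ Q h l (ps.map (Pq.pc P)) := by
  classical
  unfold FF BQ Sq
  refine Finset.sum_congr ?_ fun k _ => ?_
  · congr!
  · rw [pow_one]
    unfold pvl
    rw [List.map_map]
    rfl

/-- the second moment of the provider -/
lemma FF_Rp (P : DPar) (h : ℝ → ℝ) : FF (Sq (Qp P)) (vq P h) 2 = Rp P h :=
  funext fun l => funext fun ps => FF_two (Qp P) P h l ps

/-- the box functional of the provider -/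
lemma FF_Bp (P : DPar) (h : ℝ → ℝ) : FF (Sq (Qp P)) (vq P h) 1 = Bp P h :=
  funext fun l => funext fun ps => FF_one (Qp P) P h l ps

lemma card_Sq (Q : Eis → Prop) :
    ∃ C₀ : ℝ, ∀ l, ((Sq Q l).card : ℝ) ≤ C₀ * Real.exp (max l 0) := by
  classical
  refine ⟨16, fun l => ?_⟩
  have h1 : ((Sq Q l).card : ℝ) ≤ (bl (Real.exp l)).card := by
    exact_mod_cast Finset.card_filter_le _ _
  have h2 := Crest.Agent.R012.CR2.card_bl_le (Real.exp_pos l).le
  have h3 : Real.exp l ≤ Real.exp (max l 0) := Real.exp_le_exp.mpr (le_max_left _ _)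
  linarith

/-- **pointwise bound of the pieces, in the form of the level rule** -/
theorem supG_gen {θ : ℝ} (hθ : 1 / 2 < θ) (hθ1 : θ ≤ 1) (hPF : PF Set.univ θ)
    {h : ℝ → ℝ} (hd : ContDiff ℝ ∞ h) (hc : HasCompactSupport h) {Lam : Type*}
    (π : Lam → DPar) (hP : ∀ lam, (π lam).OK) {Q : Lam → Eis → Prop}
    (hQ : ∀ lam k, Q lam k → (π lam).NP2 k) :
    SupG Dq (fun lam => Sq (Q lam)) (fun lam => vq (π lam) h) θ := by
  classical
  intro ε hε lam B
  set B' : ℝ := max B 0 with hB'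
  have hB0 : 0 ≤ B' := le_max_right _ _
  have hBB : B ≤ B' := le_max_left _ _
  set s : ℝ := min 1 (ε / 2 / (3 * B' + 1)) with hs
  have hs0 : 0 < s := by positivity
  have hs1 : s ≤ 1 := min_le_left _ _
  have hs2 : s * (3 * B' + 1) ≤ ε / 2 := by
    have : s ≤ ε / 2 / (3 * B' + 1) := min_le_right _ _
    rwa [le_div_iff₀ (by positivity)] at this
  obtain ⟨C, hC1, hC⟩ := sup_pq hθ hθ1 hPF hs0 hs1 hd hc (hP lam)
  obtain ⟨X₁, hX₁, hX₁'⟩ := exists_X hC1 (show 0 < ε / 2 by positivity)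
  refine ⟨1, one_pos, X₁, hX₁, fun X hX k p hk hnl hgood i hi => ?_⟩
  have hX1 : 1 < X := hX₁.trans_le hX
  have hX0 : 0 < X := by linarith
  have hlog : 0 < Real.log X := Real.log_pos hX1
  obtain ⟨g1, g2, g3⟩ := hgood p (List.mem_singleton_self p)
  simp only [Dq_s1, Dq_s2, Dq_len] at g1 g2 g3
  unfold Sq at hi
  rw [Finset.mem_filter, mem_bl (Real.exp_pos _).le] at hi
  have hz : p.z = Dq.nl X p * Real.log X := by
    unfold Pcs.nl
    rw [Dq_len]
    field_simp
  have hnl0 : 0 ≤ Dq.nl X p := div_nonneg (by rw [Dq_len]; exact g3) hlog.le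
  have hk' : (nm i : ℝ) ≤ X ^ B' := by
    refine hi.1.2.trans ?_
    rw [Real.rpow_def_of_pos hX0, mul_comm (Real.log X)]
    exact Real.exp_le_exp.mpr (mul_le_mul_of_nonneg_right (hk.trans hBB) hlog.le)
  have hd' : (nm p.d : ℝ) ≤ X ^ B' := g2.trans (Real.rpow_le_rpow_of_exponent_le hX1.le hBB)
  have ht : 1 + |p.t| ≤ X := by rwa [Real.rpow_one] at g1
  have hexp : Real.exp ((θ + s) * p.z) = X ^ ((θ + s) * Dq.nl X p) := by
    rw [Real.rpow_def_of_pos hX0, hz]
    congr 1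
    ring
  have h1 : ((nm p.d : ℝ) * nm i * (1 + |p.t|)) ^ s ≤ X ^ ((2 * B' + 1) * s) := by
    rw [Real.rpow_mul hX0.le]
    refine Real.rpow_le_rpow (by positivity) ?_ hs0.le
    calc (nm p.d : ℝ) * nm i * (1 + |p.t|) ≤ X ^ B' * X ^ B' * X := by gcongr
      _ = X ^ (2 * B' + 1) := by
          rw [← Real.rpow_add hX0]
          nth_rewrite 2 [← Real.rpow_one X]
          rw [← Real.rpow_add hX0]
          ring_nf
  calc vq (π lam) h p i ≤ C * (((nm p.d : ℝ) * nm i * (1 + |p.t|)) ^ s *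
        Real.exp ((θ + s) * p.z)) := hC p i hi.1.1 (hQ lam i hi.2)
    _ ≤ X ^ (ε / 2) * (X ^ ((2 * B' + 1) * s) * X ^ ((θ + s) * Dq.nl X p)) := by
        rw [hexp]
        have := hX₁' X hX
        gcongr
    _ = X ^ (ε / 2 + ((2 * B' + 1) * s + (θ + s) * Dq.nl X p)) := by
        rw [← Real.rpow_add hX0, ← Real.rpow_add hX0]
    _ ≤ X ^ (θ * Dq.nl X p + ε) := by
        refine Real.rpow_le_rpow_of_exponent_le hX1.le ?_
        have h2 : s * Dq.nl X p ≤ s * B' := by
          have := hnl.trans hBB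
          gcongr
        nlinarith

theorem supG_271 {θ : ℝ} (hθ : 1 / 2 < θ) (hθ1 : θ ≤ 1) (hPF : PF Set.univ θ)
    {h : ℝ → ℝ} {c₀ : ℝ} (hh : PU h c₀) {Lam : Type*} (π : Lam → DPar) (hP : ∀ lam, (π lam).OK) :
    SupG Dq (fun lam => Sq (Qp (π lam))) (fun lam => vq (π lam) h) θ :=
  supG_gen hθ hθ1 hPF hh.cd hh.cs π hP fun _ _ hk => hk.1

end Crest.Agent.R017.SupI271
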