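import Crest.Agent.R017.RGE6_545
import Crest.Agent.R017.PM6_320
import Crest.Agent.R017.RHXb_116

/-!
# Row 17, T.7: the roles of the two levels exchanged, noncubes (helper545)

after helper320 (`PMf_swap`, `PG_swap`)

* `ncube_swap` : `x b²` is a noncube iff `b x²` is
* `PM2Q_swap`  : the two-level functional over the noncubes, the other order (conjugate data)
* `bg2_swap`   : **the other order**, robust exponents
-/

set_option autoImplicit false

noncomputable section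

open Complex
open scoped ComplexConjugate

namespace Crest.Agent.R017.RGB545

open Crest.Agent.R012 Crest.Agent.R012.Eis Crest.Agent.R012.LS2
open Crest.Agent.R012.T411 (NCube)
open Crest.Agent.R012.CR2 (card_bl_le)
open Crest.Agent.R017.CM106 (CS)
open Crest.Agent.R017.FE47 Crest.Agent.R017.End699
open Crest.Agent.R017.B770
open Crest.Agent.R017.XG702 (Pcs BG)
open Crest.Agent.R017.Prov71
open Crest.Agent.R017.HP842 (pc)
open Crest.Agent.R017.XP699
open Crest.Agent.R017.RuleM545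
open Crest.Agent.R017.PMB521 (CS_lam_pow bl_le_prim)
open Crest.Agent.R017.PML320 (cjD cjq prod_conj_symm prod_lam_pow)
open Crest.Agent.R017.PM320 (map_cjq_near map_cjq_gran map_cjq_good)
open Crest.Agent.R017.RQd385 (PM2Q PMpQ PM2Q_nonneg PM2Q_mono PM2Q_perm)

variable {Lam : Type*} {π : Lam → DPar} {h : ℝ → ℝ}

lemma ncube_of_sq {x : Eis} (hx : NCube (x ^ 2)) : NCube x := by
  refine ⟨fun h0 => hx.1 (by rw [h0]; ring), fun m hm => hx.2 (m ^ 2) ?_⟩
  rw [hm]; ring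

lemma ncube_cube_iff {x D : Eis} (hD : D ≠ 0) : NCube (x * D ^ 3) ↔ NCube x :=
  RHX116.ncube_mul_cube hD

/-- `x b²` is a noncube iff `b x²` is -/
theorem ncube_swap {x b : Eis} (hx : x ≠ 0) (hb : b ≠ 0) :
    NCube (x * b ^ 2) ↔ NCube (b * x ^ 2) := by
  have key : ∀ y c : Eis, y ≠ 0 → NCube (y * c ^ 2) → NCube (c * y ^ 2) := by
    intro y c hy h1
    refine ncube_of_sq ?_
    rw [show (c * y ^ 2) ^ 2 = (y * c ^ 2) * y ^ 3 by ring]
    exact (ncube_cube_iff hy).2 h1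
  exact ⟨key x b hx, key b x hb⟩

lemma ncube_lam_pow {B u m : Eis} (k : ℕ) :
    NCube (B * (lam ^ k * (u * m)) ^ 2) ↔ NCube ((B * (lam ^ (k % 3) * u) ^ 2) * m ^ 2) := by
  have e1 : B * (lam ^ k * (u * m)) ^ 2 =
      ((B * (lam ^ (k % 3) * u) ^ 2) * m ^ 2) * (lam ^ (2 * (k / 3))) ^ 3 := by
    have e2 : (lam : Eis) ^ k = lam ^ (k % 3) * lam ^ (3 * (k / 3)) := by
      rw [← pow_add, Nat.mod_add_div]
    rw [e2, ← pow_mul]
    ring
  rw [e1]
  exact ncube_cube_iff (pow_ne_zero _ lam_ne_zero)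

set_option maxHeartbeats 1000000 in
/-- **the other order**, noncubes -/
theorem PM2Q_swap {P : DPar} (hP : P.OK) (hh : Bump h) {l β : ℝ} (hl : 0 ≤ l)
    (ps : List Pq) : PM2Q NCube P h l β ps ≤
      (l + 1) * (16 * PM2Q NCube (cjD P) h (β + Real.log 81) l (ps.map cjq)) := by
  classical
  obtain ⟨K, hK⟩ : ∃ K : ℝ, K = Real.exp l := ⟨_, rfl⟩
  have hK1 : 1 ≤ K := by rw [hK]; exact Real.one_le_exp hl
  have hlogK : Real.log K = l := by rw [hK, Real.log_exp]
  obtain ⟨E, hE⟩ : ∃ E : ℝ, E = Real.exp β := ⟨_, rfl⟩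
  have hE0 : 0 < E := by rw [hE]; exact Real.exp_pos _
  have hE81 : Real.exp (β + Real.log 81) = 81 * E := by
    rw [Real.exp_add, Real.exp_log (by norm_num), hE, mul_comm]
  set Bs := primBall ⌊E⌋₊ with hBs
  set F : Eis → Eis → ℝ := fun B r => if NCube (B * r ^ 2) then
    ((ps.map cjq).map fun p => ‖CS (pc h (p.pc (cjD P))) (B * r ^ 2)‖ ^ 2).prod else 0 with hF
  have hF0 : ∀ B r, 0 ≤ F B r := fun B r => by
    rw [hF]; beta_reduce; split_ifs
    · exact RQd385.prod_nonneg' _ _ _ _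
    · exact le_rfl
  have h1 : PM2Q NCube P h l β ps = ∑ r ∈ bl K, ∑ B ∈ Bs, F B r := by
    unfold PM2Q PMpQ
    rw [Finset.sum_comm, ← hK, ← hE]
    refine Finset.sum_congr rfl fun B hB => ?_
    rw [Finset.sum_filter]
    refine Finset.sum_congr rfl fun r hr => ?_
    have hr0 : r ≠ 0 := ((mem_bl (by linarith)).1 hr).1
    have hB0 : B ≠ 0 := ((mem_primBall).1 hB).2.ne_zero
    rw [hF]
    beta_reduce
    by_cases hc : NCube (r * B ^ 2)
    · rw [if_pos hc, if_pos ((ncube_swap hr0 hB0).1 hc)]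
      exact prod_conj_symm hP hh ps r B
    · rw [if_neg hc, if_neg (fun h' => hc ((ncube_swap hr0 hB0).2 h'))]
  set T : ℝ := ∑ m ∈ primBall ⌊K⌋₊, ∑ x ∈ bl (81 * E), F x m with hT
  have hT0 : 0 ≤ T := Finset.sum_nonneg fun _ _ => Finset.sum_nonneg fun _ _ => hF0 _ _
  have hTe : T = PM2Q NCube (cjD P) h (β + Real.log 81) l (ps.map cjq) := by
    unfold PM2Q PMpQ
    rw [hT, hE81, ← hK]
    refine Finset.sum_congr rfl fun m _ => ?_
    rw [Finset.sum_filter]
  have h2 : ∑ r ∈ bl K, ∑ B ∈ Bs, F B r ≤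
      ∑ k ∈ Finset.range (⌊Real.log K⌋₊ + 1), ∑ u ∈ (bl 1), T := by
    refine (bl_le_prim hK1 (fun r => ∑ B ∈ Bs, F B r)
      (fun _ => Finset.sum_nonneg fun _ _ => hF0 _ _)).trans ?_
    refine Finset.sum_le_sum fun k _ => Finset.sum_le_sum fun u hu => ?_
    rw [mem_bl zero_le_one] at hu
    refine Finset.sum_le_sum fun m _ => ?_
    set c0 : Eis := (lam ^ (k % 3) * u) ^ 2 with hc0
    have hc00 : c0 ≠ 0 := pow_ne_zero _ (mul_ne_zero (pow_ne_zero _ lam_ne_zero) hu.1)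
    have hc0n : (nm c0 : ℝ) ≤ 81 := by
      rw [hc0, nm_pow, nm_mul, nm_pow, nm_lam]
      push_cast
      have h3 : (3 : ℝ) ^ (k % 3) ≤ 9 := by
        have : k % 3 < 3 := Nat.mod_lt _ (by norm_num)
        calc (3 : ℝ) ^ (k % 3) ≤ 3 ^ 2 := pow_le_pow_right₀ (by norm_num) (by omega)
          _ = 9 := by norm_num
      have h4 : (0 : ℝ) ≤ 3 ^ (k % 3) := by positivity
      have h5 := hu.2
      have h6 : (0 : ℝ) ≤ nm u := Nat.cast_nonneg _
      have h7 : (3 : ℝ) ^ (k % 3) * nm u ≤ 9 * 1 := mul_le_mul h3 h5 h6 (by norm_num)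
      calc ((3 : ℝ) ^ (k % 3) * nm u) ^ 2 ≤ (9 * 1) ^ 2 :=
            pow_le_pow_left₀ (mul_nonneg h4 h6) h7 2
        _ = 81 := by norm_num
    have e1 : ∑ B ∈ Bs, F B (lam ^ k * (u * m)) =
        ∑ x ∈ Bs.image (fun B => B * c0), F x m := by
      rw [Finset.sum_image fun x _ y _ hxy => mul_right_cancel₀ hc00 hxy]
      refine Finset.sum_congr rfl fun B _ => ?_
      rw [hF]
      beta_reduce
      by_cases hc : NCube (B * (lam ^ k * (u * m)) ^ 2)
      · rw [if_pos hc, if_pos ((ncube_lam_pow k).1 hc)]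
        exact prod_lam_pow _ B u m k
      · rw [if_neg hc, if_neg (fun h' => hc ((ncube_lam_pow k).2 h'))]
    show ∑ B ∈ Bs, F B (lam ^ k * (u * m)) ≤ _
    rw [e1]
    refine Finset.sum_le_sum_of_subset_of_nonneg ?_ fun _ _ _ => hF0 _ _
    intro x hx
    rw [Finset.mem_image] at hx
    obtain ⟨B, hB, rfl⟩ := hx
    rw [hBs, mem_primBall] at hB
    have hBn : (nm B : ℝ) ≤ E := (Nat.le_floor_iff hE0.le).1 hB.1
    rw [mem_bl (by positivity)]
    refine ⟨mul_ne_zero hB.2.ne_zero hc00, ?_⟩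
    rw [nm_mul]
    push_cast
    have : (0 : ℝ) ≤ nm c0 := Nat.cast_nonneg _
    calc (nm B : ℝ) * nm c0 ≤ E * 81 := mul_le_mul hBn hc0n this hE0.le
      _ = 81 * E := by ring
  rw [h1, ← hTe]
  refine h2.trans ?_
  rw [Finset.sum_const, Finset.sum_const, Finset.card_range, nsmul_eq_mul, nsmul_eq_mul, hlogK]
  have hcard : ((bl 1).card : ℝ) ≤ 16 := by
    have := card_bl_le (zero_le_one' ℝ)
    linarith
  have hN : ((⌊l⌋₊ + 1 : ℕ) : ℝ) ≤ l + 1 := by
    push_cast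
    linarith [Nat.floor_le hl]
  gcongr

/-- **the other order**, robust exponents -/
theorem bg2_swap {c₁ : ℝ} (hpu : PU h c₁) (hP : ∀ lam, (π lam).OK)
    {κ b : ℝ} (hκ : 0 ≤ κ) {u : List ℝ} {w : Kd → ℝ} {e : ℝ}
    (H : BG2 Dq (PQe (fun lam => cjD (π lam)) h) b κ u w e) : BG2 Dq (PQe π h) κ b u w e := by
  intro ε hε
  obtain ⟨δ, hδ, K⟩ := H (ε / 2) (by linarith)
  refine ⟨δ / 2, by linarith, fun lam N B => ?_⟩
  obtain ⟨δ', hδ', X₀, hX₀, K1⟩ := K lam N B
  obtain ⟨X₁, hX₁, hX₁'⟩ : ∃ X₁ : ℝ, 1 < X₁ ∧ ∀ X, X₁ ≤ X →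
      Real.log 81 ≤ δ / 2 * Real.log X := by
    refine ⟨Real.exp (2 * Real.log 81 / δ), Real.one_lt_exp_iff.2 ?_, fun X hX => ?_⟩
    · have : 0 < Real.log 81 := Real.log_pos (by norm_num)
      positivity
    · have h1 : 2 * Real.log 81 / δ ≤ Real.log X :=
        (Real.le_log_iff_exp_le (lt_of_lt_of_le (Real.exp_pos _) hX)).2 hX
      rw [div_le_iff₀ hδ] at h1
      linarith
  obtain ⟨X₂, hX₂⟩ := Filter.eventually_atTop.1
    ((tendsto_rpow_atTop (show 0 < ε / 4 by linarith)).eventually_ge_atTop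
      (16 * (1 + (κ + δ) * (4 / ε))))
  refine ⟨δ', hδ', max X₀ (max X₁ X₂), lt_of_lt_of_le hX₀ (le_max_left _ _), ?_⟩
  intro X hX k β us gs h1 h2 h3 h4 h5
  have hX0 : X₀ ≤ X := (le_max_left _ _).trans hX
  have hXX1 : X₁ ≤ X := ((le_max_left _ _).trans (le_max_right _ _)).trans hX
  have hXX2 : X₂ ≤ X := ((le_max_right _ _).trans (le_max_right _ _)).trans hX
  have hX1 : 1 < X := by linarith
  have hXp : 0 < X := by linarith
  have hlog : 0 < Real.log X := Real.log_pos hX1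
  have hk2 := abs_le.1 h1
  have hb2 := abs_le.1 h2
  obtain ⟨k', hk'⟩ : ∃ k' : ℝ, k' = max k 0 := ⟨_, rfl⟩
  have hk0 : 0 ≤ k' := hk' ▸ le_max_right _ _
  have hkk : k ≤ k' := hk' ▸ le_max_left _ _
  have hk1 : k' ≤ κ + δ / 2 := by rw [hk']; exact max_le (by linarith) (by linarith)
  have s1 : PM2Q NCube (π lam) h (k * Real.log X) (β * Real.log X) (us ++ gs) ≤
      PM2Q NCube (π lam) h (k' * Real.log X) (β * Real.log X) (us ++ gs) :=
    PM2Q_mono (fun _ h => h) (mul_le_mul_of_nonneg_right hkk hlog.le) le_rfl _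
  have s2 := PM2Q_swap (hP lam) (bump_of_cs hpu.cs) (β := β * Real.log X)
    (mul_nonneg hk0 hlog.le) (us ++ gs)
  have e1 : β * Real.log X + Real.log 81 = (β + Real.log 81 / Real.log X) * Real.log X := by
    field_simp
  have e2 : Real.log 81 / Real.log X ≤ δ / 2 := by
    rw [div_le_iff₀ hlog]; exact hX₁' X hXX1
  have e3 : 0 ≤ Real.log 81 / Real.log X := by
    have : 0 < Real.log 81 := Real.log_pos (by norm_num)
    positivity
  have s3 := K1 X hX0 (β + Real.log 81 / Real.log X) k' (us.map cjq) (gs.map cjq)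
    (by rw [abs_le]; constructor <;> linarith) (by rw [abs_le]; constructor <;> linarith)
    (map_cjq_near (XG702.Near_mono h3 (by linarith)))
    (map_cjq_gran (XG702.Gran_mono h4 (by linarith) le_rfl))
    (by rw [← List.map_append]; exact map_cjq_good h5)
  rw [← List.map_append] at s3
  rw [e1] at s2
  have s4 : k' * Real.log X + 1 ≤ (1 + (κ + δ) * (4 / ε)) * X ^ (ε / 4) := by
    have a3 : Real.log X ≤ X ^ (ε / 4) / (ε / 4) := Real.log_le_rpow_div hXp.le (by linarith)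
    have a4 : 1 ≤ X ^ (ε / 4) := Real.one_le_rpow hX1.le (by linarith)
    have a5 : X ^ (ε / 4) / (ε / 4) = 4 / ε * X ^ (ε / 4) := by field_simp
    rw [a5] at a3
    have a6 : k' * Real.log X ≤ (κ + δ) * (4 / ε * X ^ (ε / 4)) :=
      mul_le_mul (by linarith) a3 hlog.le (by linarith)
    linarith
  have s5 := hX₂ X hXX2
  have hYn := PM2Q_nonneg NCube (cjD (π lam)) h ((β + Real.log 81 / Real.log X) * Real.log X)
    (k' * Real.log X) ((us ++ gs).map cjq)
  have hq : 0 ≤ X ^ (ε / 4) := Real.rpow_nonneg hXp.le _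
  calc PM2Q NCube (π lam) h (k * Real.log X) (β * Real.log X) (us ++ gs)
      ≤ (k' * Real.log X + 1) * (16 * PM2Q NCube (cjD (π lam)) h
          ((β + Real.log 81 / Real.log X) * Real.log X) (k' * Real.log X)
          ((us ++ gs).map cjq)) := s1.trans s2
    _ ≤ ((1 + (κ + δ) * (4 / ε)) * X ^ (ε / 4)) * (16 * X ^ (e + ε / 2)) := by
        have hA : 0 ≤ (1 + (κ + δ) * (4 / ε)) := by positivity
        exact mul_le_mul s4 (mul_le_mul_of_nonneg_left s3 (by norm_num))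
          (by positivity) (by positivity)
    _ = 16 * (1 + (κ + δ) * (4 / ε)) * (X ^ (ε / 4) * X ^ (e + ε / 2)) := by ring
    _ ≤ X ^ (ε / 4) * (X ^ (ε / 4) * X ^ (e + ε / 2)) := by gcongr
    _ = X ^ (e + ε) := by
        rw [← Real.rpow_add hXp, ← Real.rpow_add hXp]
        congr 1; ring

end Crest.Agent.R017.RGB545
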