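import Crest.Agent.R012.Sym6_645
import Mathlib.NumberTheory.LegendreSymbol.JacobiSymbol

/-!
# Row 17, sextic algebra (helper146), part 1: the quadratic residue symbol of `ℤ[ω]`

* `q0 x p : ℤ` : quadratic residue symbol modulo a prime `p` of odd norm (Euler criterion)
* `q2 x c : ℤ` : its multiplicative extension (product over the prime factors of `c`)
* `q2_mul_left`, `q2_mul_right`, `q2_congr`, `q2_assoc_right`, `q2_eq_zero_iff`, `q2_sq`
* `q2_intCast_left : q2 n c = J(n | N c)`, `q2_intCast_right : q2 x n = J(N x | |n|)`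
* `q2_recip` : for `a = 1 + 2 α`, `b = 1 + 2 β` coprime
  `(a/b)(b/a) = (-1)^{α.re β.im + α.im β.re + α.im β.im}`
-/

set_option autoImplicit false

noncomputable section

open Crest.Agent.R012 Crest.Agent.R012.Eis

namespace Crest.Agent.R017.Sx146

open Crest.Agent.R012.Sym645 (rq rq_eq rq_eq_zero isCoprime_of_prime_not_dvd one_lt_nm_of_prime
  nm_ne_one_of_prime prime_dvd_pow_sub_one nm_dvd_nm)

/-! ### norms modulo 2 -/

lemma nm_odd_mul {a b : Eis} : nm (a * b) % 2 = 1 ↔ nm a % 2 = 1 ∧ nm b % 2 = 1 := by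
  rw [nm_mul, Nat.mul_mod]
  rcases Nat.mod_two_eq_zero_or_one (nm a) with h | h <;>
    rcases Nat.mod_two_eq_zero_or_one (nm b) with h' | h' <;> simp [h, h']

lemma nm_two : nm (2 : Eis) = 4 := by
  have := nm_natCast 2
  simpa using this

lemma ne_zero_of_odd {a : Eis} (h : nm a % 2 = 1) : a ≠ 0 := by
  rintro rfl; simp at h

lemma two_re : (2 : Eis).re = 2 := rfl
lemma two_im : (2 : Eis).im = 0 := rfl

lemma two_dvd_iff {z : Eis} : (2 : Eis) ∣ z ↔ (2 : ℤ) ∣ z.re ∧ (2 : ℤ) ∣ z.im := by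
  constructor
  · rintro ⟨t, rfl⟩
    rw [re_mul', im_mul', two_re, two_im]
    exact ⟨⟨t.re, by ring⟩, ⟨t.im, by ring⟩⟩
  · rintro ⟨⟨p, hp⟩, ⟨q, hq⟩⟩
    refine ⟨⟨p, q⟩, ?_⟩
    apply ext'
    · rw [re_mul', two_re, two_im, hp]; ring
    · rw [im_mul', two_re, two_im, hq]; ring

lemma nm_odd_iff {z : Eis} : nm z % 2 = 1 ↔ ¬ (2 : Eis) ∣ z := by
  rw [two_dvd_iff]
  have h := nm_cast z
  have key : ((nm z : ℤ) % 2 = 1) ↔ ¬ ((2 : ℤ) ∣ z.re ∧ (2 : ℤ) ∣ z.im) := by
    rw [h]
    have h1 : z.re % 2 = 0 ∨ z.re % 2 = 1 := by omega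
    have h2 : z.im % 2 = 0 ∨ z.im % 2 = 1 := by omega
    rw [Int.dvd_iff_emod_eq_zero, Int.dvd_iff_emod_eq_zero]
    rcases h1 with h1 | h1 <;> rcases h2 with h2 | h2 <;>
      simp [pow_two, Int.add_emod, Int.sub_emod, Int.mul_emod, h1, h2]
  rw [← key]; omega

lemma not_dvd_two_of_odd {p : Eis} (hp : Prime p) (h2 : nm p % 2 = 1) : ¬ p ∣ (2 : Eis) := by
  rintro ⟨t, ht⟩
  have h := congrArg nm ht
  rw [nm_two, nm_mul] at h
  have h1 : nm p ∣ 2 ^ 2 := ⟨nm t, h⟩
  have h3 := nm_ne_one_of_prime hp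
  obtain ⟨k, hk, hk'⟩ := (Nat.dvd_prime_pow Nat.prime_two).1 h1
  interval_cases k
  · exact h3 (by simpa using hk')
  · rw [hk'] at h2; omega
  · rw [hk'] at h2; omega

/-! ### the symbol modulo a prime -/

open Classical in
/-- Quadratic residue symbol modulo a prime of odd norm. -/
def q0 (x p : Eis) : ℤ :=
  if p ∣ x then 0 else if p ∣ x ^ ((nm p - 1) / 2) - 1 then 1 else -1

lemma q0_of_dvd {x p : Eis} (h : p ∣ x) : q0 x p = 0 := by simp [q0, h]

lemma q0_cases {x p : Eis} (h : ¬ p ∣ x) : q0 x p = 1 ∨ q0 x p = -1 := by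
  unfold q0; rw [if_neg h]; split_ifs <;> simp

lemma q0_spec {x p : Eis} (hp : Prime p) (h2 : nm p % 2 = 1) :
    p ∣ x ^ ((nm p - 1) / 2) - (q0 x p : Eis) := by
  have h1 := one_lt_nm_of_prime hp
  by_cases h : p ∣ x
  · rw [q0_of_dvd h]
    simp only [Int.cast_zero, sub_zero]
    exact dvd_pow h (by omega)
  · unfold q0
    rw [if_neg h]
    split_ifs with h3
    · simpa using h3
    · have h4 := prime_dvd_pow_sub_one hp h
      have h5 : x ^ (nm p - 1) - 1 = (x ^ ((nm p - 1) / 2) - 1) * (x ^ ((nm p - 1) / 2) + 1) := by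
        have : nm p - 1 = (nm p - 1) / 2 + (nm p - 1) / 2 := by omega
        rw [this, pow_add]
        have h6 : ((nm p - 1) / 2 + (nm p - 1) / 2) / 2 = (nm p - 1) / 2 := by omega
        rw [h6]; ring
      rw [h5] at h4
      rcases hp.dvd_or_dvd h4 with h6 | h6
      · exact absurd h6 h3
      · push_cast
        have : x ^ ((nm p - 1) / 2) - -1 = x ^ ((nm p - 1) / 2) + 1 := by ring
        rw [this]; exact h6

lemma int_unique {p : Eis} (hp : Prime p) (h2 : nm p % 2 = 1) {u v : ℤ}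
    (hu : u = 0 ∨ u = 1 ∨ u = -1) (hv : v = 0 ∨ v = 1 ∨ v = -1)
    (h : p ∣ (u : Eis) - (v : Eis)) : u = v := by
  have hn2 := not_dvd_two_of_odd hp h2
  have hn1 : ¬ p ∣ (1 : Eis) := fun h => hp.not_isUnit (isUnit_of_dvd_one h)
  have hn1' : ¬ p ∣ (-1 : Eis) := fun h => hn1 (by simpa using h)
  have hn2' : ¬ p ∣ (-2 : Eis) := fun h => hn2 (by simpa using h)
  rcases hu with rfl | rfl | rfl <;> rcases hv with rfl | rfl | rfl
  · rfl
  · exfalso; apply hn1'; simpa using h
  · exfalso; apply hn1; simpa using h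
  · exfalso; apply hn1; simpa using h
  · rfl
  · exfalso; apply hn2
    have : ((1 : ℤ) : Eis) - ((-1 : ℤ) : Eis) = 2 := by push_cast; ring
    rwa [this] at h
  · exfalso; apply hn1'; simpa using h
  · exfalso; apply hn2'
    have : ((-1 : ℤ) : Eis) - ((1 : ℤ) : Eis) = -2 := by push_cast; ring
    rwa [this] at h
  · rfl

lemma q0_range (x p : Eis) : q0 x p = 0 ∨ q0 x p = 1 ∨ q0 x p = -1 := by
  by_cases h : p ∣ x
  · left; exact q0_of_dvd h
  · right; exact q0_cases h

lemma q0_eq_of {x p : Eis} {u : ℤ} (hp : Prime p) (h2 : nm p % 2 = 1)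
    (hu : u = 0 ∨ u = 1 ∨ u = -1) (h : p ∣ x ^ ((nm p - 1) / 2) - (u : Eis)) : q0 x p = u := by
  apply int_unique hp h2 (q0_range _ _) hu
  have h1 := q0_spec (x := x) hp h2
  have := dvd_sub h h1
  have e : x ^ ((nm p - 1) / 2) - (u : Eis) - (x ^ ((nm p - 1) / 2) - (q0 x p : Eis))
    = (q0 x p : Eis) - (u : Eis) := by ring
  rwa [e] at this

lemma q0_congr {x y p : Eis} (hp : Prime p) (h2 : nm p % 2 = 1) (h : p ∣ x - y) :
    q0 x p = q0 y p := by
  apply q0_eq_of hp h2 (q0_range _ _)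
  have h1 : p ∣ x ^ ((nm p - 1) / 2) - y ^ ((nm p - 1) / 2) := h.trans (sub_dvd_pow_sub_pow x y _)
  have h3 := q0_spec (x := y) hp h2
  have := dvd_add h1 h3
  have e : x ^ ((nm p - 1) / 2) - y ^ ((nm p - 1) / 2) + (y ^ ((nm p - 1) / 2) - (q0 y p : Eis))
    = x ^ ((nm p - 1) / 2) - (q0 y p : Eis) := by ring
  rwa [e] at this

lemma q0_mul {x y p : Eis} (hp : Prime p) (h2 : nm p % 2 = 1) :
    q0 (x * y) p = q0 x p * q0 y p := by
  apply q0_eq_of hp h2
  · rcases q0_range x p with h | h | h <;> rcases q0_range y p with h' | h' | h' <;>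
      simp [h, h']
  · obtain ⟨s, hs⟩ := q0_spec (x := x) hp h2
    obtain ⟨t, ht⟩ := q0_spec (x := y) hp h2
    refine ⟨s * y ^ ((nm p - 1) / 2) + (q0 x p : Eis) * t, ?_⟩
    rw [mul_pow]; push_cast
    linear_combination y ^ ((nm p - 1) / 2) * hs + (q0 x p : Eis) * ht

lemma q0_one {p : Eis} (hp : Prime p) (h2 : nm p % 2 = 1) : q0 1 p = 1 := by
  apply q0_eq_of hp h2 (by simp)
  simp

lemma q0_eq_zero_iff {x p : Eis} : q0 x p = 0 ↔ p ∣ x := by
  constructor
  · intro h
    by_contra hx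
    rcases q0_cases hx with h' | h' <;> rw [h'] at h <;> simp at h
  · exact q0_of_dvd

lemma q0_assoc {x p q : Eis} (h : Associated p q) : q0 x p = q0 x q := by
  have h1 : nm p = nm q := by
    obtain ⟨u, rfl⟩ := h
    rw [nm_mul, isUnit_iff.1 u.isUnit, mul_one]
  unfold q0
  rw [h1, h.dvd_iff_dvd_left, h.dvd_iff_dvd_left]

/-! ### the symbol -/

/-- The quadratic residue symbol `(x/c)_2`. -/
def q2 (x c : Eis) : ℤ :=
  ((UniqueFactorizationMonoid.factors c).map (fun p => q0 x p)).prod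

lemma prod_rel {x : Eis} {s t : Multiset Eis} (h : Multiset.Rel Associated s t) :
    (s.map (fun p => q0 x p)).prod = (t.map (fun p => q0 x p)).prod := by
  induction h with
  | zero => rfl
  | cons hab _ ih =>
    simp only [Multiset.map_cons, Multiset.prod_cons]
    rw [q0_assoc hab, ih]

lemma q2_mul_right (x : Eis) {a b : Eis} (ha : a ≠ 0) (hb : b ≠ 0) :
    q2 x (a * b) = q2 x a * q2 x b := by
  unfold q2
  rw [prod_rel (UniqueFactorizationMonoid.factors_mul ha hb), Multiset.map_add, Multiset.prod_add]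

lemma q2_assoc_right (x : Eis) {a b : Eis} (h : Associated a b) : q2 x a = q2 x b := by
  by_cases ha : a = 0
  · subst ha
    rw [(associated_zero_iff_eq_zero b).1 h.symm]
  unfold q2
  refine prod_rel (UniqueFactorizationMonoid.factors_unique ?_ ?_ ?_)
  · exact fun _ => UniqueFactorizationMonoid.irreducible_of_factor _
  · exact fun _ => UniqueFactorizationMonoid.irreducible_of_factor _
  · have hb : b ≠ 0 := by
      rintro rfl
      exact ha ((associated_zero_iff_eq_zero a).1 h)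
    exact (UniqueFactorizationMonoid.factors_prod ha).trans
      (h.trans (UniqueFactorizationMonoid.factors_prod hb).symm)

@[simp] lemma q2_one_right (x : Eis) : q2 x 1 = 1 := by
  unfold q2
  rw [UniqueFactorizationMonoid.factors_one]
  simp

lemma q2_unit_right (x : Eis) {u : Eis} (hu : IsUnit u) : q2 x u = 1 := by
  rw [q2_assoc_right x (associated_one_iff_isUnit.2 hu), q2_one_right]

lemma q2_prime (x : Eis) {p : Eis} (hp : Prime p) : q2 x p = q0 x p := by
  have h : Multiset.Rel Associated (UniqueFactorizationMonoid.factors p) {p} := by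
    refine UniqueFactorizationMonoid.factors_unique ?_ ?_ ?_
    · exact fun _ => UniqueFactorizationMonoid.irreducible_of_factor _
    · intro q hq
      rw [Multiset.mem_singleton.1 hq]; exact hp.irreducible
    · rw [Multiset.prod_singleton]
      exact UniqueFactorizationMonoid.factors_prod hp.ne_zero
  unfold q2
  rw [prod_rel h]
  simp

/-- Induction on elements of odd norm. -/
@[elab_as_elim]
theorem odd_induction {P : Eis → Prop} (hu : ∀ u, IsUnit u → P u)
    (hmul : ∀ p b, Prime p → nm p % 2 = 1 → nm b % 2 = 1 → P b → P (p * b))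
    {c : Eis} (hc : nm c % 2 = 1) : P c := by
  revert hc
  refine UniqueFactorizationMonoid.induction_on_prime (P := fun c => nm c % 2 = 1 → P c) c ?_ ?_ ?_
  · intro h; simp at h
  · intro x hx _; exact hu x hx
  · intro a p ha hp ih h
    obtain ⟨h1, h2⟩ := nm_odd_mul.1 h
    exact hmul p a hp h1 h2 (ih h2)

lemma q2_mul_left {c : Eis} (hc : nm c % 2 = 1) (x y : Eis) :
    q2 (x * y) c = q2 x c * q2 y c := by
  refine odd_induction ?_ ?_ hc
  · intro u hu; simp [q2_unit_right _ hu]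
  · intro p b hp h2 hb h
    have hb0 := ne_zero_of_odd hb
    rw [q2_mul_right _ hp.ne_zero hb0, q2_mul_right _ hp.ne_zero hb0,
      q2_mul_right _ hp.ne_zero hb0, h, q2_prime _ hp, q2_prime _ hp, q2_prime _ hp, q0_mul hp h2]
    ring

lemma q2_congr {c x y : Eis} (hc : nm c % 2 = 1) (h : c ∣ x - y) : q2 x c = q2 y c := by
  revert h
  refine odd_induction ?_ ?_ hc
  · intro u hu _; simp [q2_unit_right _ hu]
  · intro p b hp h2 hb h hd
    have hb0 := ne_zero_of_odd hb
    rw [q2_mul_right _ hp.ne_zero hb0, q2_mul_right _ hp.ne_zero hb0,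
      h ((dvd_mul_left b p).trans hd), q2_prime _ hp, q2_prime _ hp,
      q0_congr hp h2 ((dvd_mul_right p b).trans hd)]

@[simp] lemma q2_one_left {c : Eis} (hc : nm c % 2 = 1) : q2 1 c = 1 := by
  refine odd_induction ?_ ?_ hc
  · intro u hu; simp [q2_unit_right _ hu]
  · intro p b hp h2 hb h
    rw [q2_mul_right _ hp.ne_zero (ne_zero_of_odd hb), h, q2_prime _ hp, q0_one hp h2]
    simp

lemma q2_pow_left {c : Eis} (hc : nm c % 2 = 1) (x : Eis) (n : ℕ) :
    q2 (x ^ n) c = q2 x c ^ n := by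
  induction n with
  | zero => simp [q2_one_left hc]
  | succ n ih => rw [pow_succ, q2_mul_left hc, ih, pow_succ]

lemma q2_pow_right (x : Eis) {c : Eis} (hc : c ≠ 0) (n : ℕ) :
    q2 x (c ^ n) = q2 x c ^ n := by
  induction n with
  | zero => simp
  | succ n ih => rw [pow_succ, q2_mul_right x (pow_ne_zero n hc) hc, ih, pow_succ]

lemma q2_sq {c x : Eis} (hc : nm c % 2 = 1) (hx : IsCoprime x c) : q2 x c ^ 2 = 1 := by
  revert hx
  refine odd_induction ?_ ?_ hc
  · intro u hu _; simp [q2_unit_right _ hu]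
  · intro p b hp h2 hb h hx
    have h1 : IsCoprime x p := hx.of_mul_right_left
    have h3 : IsCoprime x b := hx.of_mul_right_right
    have hnd : ¬ p ∣ x := fun hd => hp.not_isUnit (h1.isUnit_of_dvd' hd dvd_rfl)
    rw [q2_mul_right _ hp.ne_zero (ne_zero_of_odd hb), mul_pow, h h3, q2_prime _ hp]
    rcases q0_cases hnd with h' | h' <;> rw [h'] <;> simp

lemma q2_mul_self {c x : Eis} (hc : nm c % 2 = 1) (hx : IsCoprime x c) :
    q2 x c * q2 x c = 1 := by
  rw [← pow_two]; exact q2_sq hc hx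

lemma q2_eq_zero_iff {c x : Eis} (hc : nm c % 2 = 1) : q2 x c = 0 ↔ ¬ IsCoprime x c := by
  constructor
  · intro h hx
    have := q2_sq hc hx
    rw [h] at this
    simp at this
  · refine odd_induction ?_ ?_ hc
    · intro u hu h
      exact absurd (Associated.symm (associated_one_iff_isUnit.2 hu) |>.dvd |> fun _ =>
        (isCoprime_one_right.of_isCoprime_of_dvd_right (hu.dvd) : IsCoprime x u)) h
    · intro p b hp h2 hb h hx
      rw [q2_mul_right _ hp.ne_zero (ne_zero_of_odd hb)]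
      by_cases hpx : p ∣ x
      · rw [q2_prime _ hp, q0_of_dvd hpx]; simp
      · have h1 : IsCoprime x p := (isCoprime_of_prime_not_dvd hp hpx).symm
        have h2 : ¬ IsCoprime x b := fun h2 => hx (h1.mul_right h2)
        rw [h h2, mul_zero]

lemma q2_cases {c x : Eis} (hc : nm c % 2 = 1) (hx : IsCoprime x c) :
    q2 x c = 1 ∨ q2 x c = -1 := by
  have h := q2_sq hc hx
  have : (q2 x c - 1) * (q2 x c + 1) = 0 := by linear_combination h
  rcases mul_eq_zero.1 this with h | h
  · left; linarith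
  · right; linarith

lemma q2_abs_le {c : Eis} (hc : nm c % 2 = 1) (x : Eis) : |q2 x c| ≤ 1 := by
  by_cases hx : IsCoprime x c
  · rcases q2_cases hc hx with h | h <;> rw [h] <;> simp
  · rw [(q2_eq_zero_iff hc).2 hx]; simp

/-! ### rational arguments -/

/-- The prime `p` of `ℤ[ω]` lies over a rational prime `l`, `N p = l` or `N p = l²`. -/
lemma exists_rat_prime {p : Eis} (hp : Prime p) :
    ∃ l : ℕ, l.Prime ∧ p ∣ (l : Eis) ∧ (nm p = l ∨ (nm p = l ^ 2)) := by
  have h1 : p ∣ ((nm p : ℕ) : Eis) := ⟨Eis.conj p, (mul_conj p).symm⟩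
  have h2 : ∀ n : ℕ, n ≠ 0 → p ∣ (n : Eis) → ∃ l : ℕ, l.Prime ∧ p ∣ (l : Eis) := by
    intro n
    induction n using Nat.strong_induction_on with
    | _ n ih =>
      intro hn hd
      by_cases h1 : n = 1
      · subst h1
        exact absurd (isUnit_of_dvd_one (by simpa using hd)) hp.not_isUnit
      · obtain ⟨l, hl, m, hm⟩ := Nat.exists_prime_and_dvd h1
        rw [hm] at hd
        push_cast at hd
        rcases hp.dvd_or_dvd hd with h | h
        · exact ⟨l, hl, h⟩
        · have hm0 : m ≠ 0 := by rintro rfl; exact hn (by simpa using hm)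
          refine ih m ?_ hm0 h
          rw [hm]
          have := hl.one_lt
          have hmp : 0 < m := Nat.pos_of_ne_zero hm0
          nlinarith
  obtain ⟨l, hl, hd⟩ := h2 (nm p) (nm_pos.2 hp.ne_zero).ne' h1
  refine ⟨l, hl, hd, ?_⟩
  have h3 : nm p ∣ l ^ 2 := by
    have := nm_dvd_nm hd
    rwa [nm_natCast] at this
  rcases (Nat.dvd_prime_pow hl).1 h3 with ⟨k, hk, hk'⟩
  have h4 := nm_ne_one_of_prime hp
  interval_cases k
  · simp at hk'; exact absurd hk' h4
  · left; simpa using hk'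
  · right; exact hk'

/-- Fermat, rational version. -/
lemma int_pow_dvd {l : ℕ} [Fact l.Prime] {n : ℤ} (h : ¬ (l : ℤ) ∣ n) :
    (l : ℤ) ∣ n ^ (l - 1) - 1 := by
  have h1 : (n : ZMod l) ≠ 0 := by
    intro h0; exact h ((ZMod.intCast_zmod_eq_zero_iff_dvd n l).1 h0)
  have h2 := ZMod.pow_card_sub_one_eq_one h1
  rw [← ZMod.intCast_zmod_eq_zero_iff_dvd]
  push_cast
  rw [h2]; ring

lemma intCast_dvd_of_dvd {p : Eis} {l : ℕ} (hd : p ∣ (l : Eis)) {n : ℤ} (h : (l : ℤ) ∣ n) :
    p ∣ (n : Eis) := by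
  obtain ⟨m, rfl⟩ := h
  push_cast
  exact hd.mul_right _

/-- `(n/p)_2 = J(n | N p)` for rational `n`. -/
lemma q0_intCast {p : Eis} (hp : Prime p) (h2 : nm p % 2 = 1) (n : ℤ) :
    q0 (n : Eis) p = jacobiSym n (nm p) := by
  obtain ⟨l, hl, hd, hN⟩ := exists_rat_prime hp
  have : Fact l.Prime := ⟨hl⟩
  have hlp : p ∣ (n : Eis) ↔ (l : ℤ) ∣ n := by
    constructor
    · intro h
      by_contra hn
      have hc : IsCoprime (l : ℤ) n := by
        rw [Int.isCoprime_iff_gcd_eq_one]
        have := (Nat.Prime.coprime_iff_not_dvd hl (n := n.natAbs)).2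
          (fun h' => hn (Int.natCast_dvd.2 h'))
        simpa [Int.gcd] using this
      obtain ⟨s, t, hst⟩ := hc
      have : p ∣ ((s * l + t * n : ℤ) : Eis) := by
        push_cast
        exact dvd_add (hd.mul_left _) (h.mul_left _)
      rw [hst] at this
      exact hp.not_isUnit (isUnit_of_dvd_one (by simpa using this))
    · exact intCast_dvd_of_dvd hd
  by_cases h : (l : ℤ) ∣ n
  · rw [q0_of_dvd (hlp.2 h)]
    symm
    have hne : NeZero (nm p) := ⟨(nm_pos.2 hp.ne_zero).ne'⟩
    rw [jacobiSym.eq_zero_iff_not_coprime]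
    intro hc
    have h1 : (l : ℤ) ∣ (nm p : ℤ) := by
      rcases hN with h' | h' <;> rw [h']
      push_cast
      exact dvd_pow_self _ (by norm_num)
    have h3 : (l : ℤ) ∣ ((n.gcd (nm p) : ℕ) : ℤ) := Int.dvd_coe_gcd h h1
    rw [hc] at h3
    have := Int.natCast_dvd_natCast.1 (by simpa using h3 : ((l : ℕ) : ℤ) ∣ ((1 : ℕ) : ℤ))
    exact hl.one_lt.ne' (Nat.dvd_one.1 this)
  · have hl2 : l ≠ 2 := by
      rintro rfl
      rcases hN with h' | h' <;> rw [h'] at h2 <;> simp at h2
    have hlodd : l % 2 = 1 := hl.eq_two_or_odd.resolve_left hl2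
    rcases hN with hN | hN
    · rw [hN]
      rw [← jacobiSym.legendreSym.to_jacobiSym]
      apply q0_eq_of hp h2
      · have := legendreSym.eq_one_or_neg_one l (a := n) (by
          intro h0; exact h ((ZMod.intCast_zmod_eq_zero_iff_dvd n l).1 h0))
        tauto
      · have h3 : (legendreSym l n : ZMod l) = (n : ZMod l) ^ (l / 2) := legendreSym.eq_pow l n
        have h4 : (l : ℤ) ∣ n ^ (l / 2) - legendreSym l n := by
          rw [← ZMod.intCast_zmod_eq_zero_iff_dvd]
          push_cast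
          rw [h3]; ring
        have h5 := intCast_dvd_of_dvd hd h4
        push_cast at h5
        have h6 : (nm p - 1) / 2 = l / 2 := by omega
        rw [h6]
        exact h5
    · rw [hN, jacobiSym.pow_right]
      have h3 : jacobiSym n l ^ 2 = 1 := by
        apply jacobiSym.sq_one
        have := (Nat.Prime.coprime_iff_not_dvd hl (n := n.natAbs)).2
          (fun h' => h (Int.natCast_dvd.2 h'))
        rw [Int.gcd_comm]
        simpa [Int.gcd] using this
      rw [h3]
      apply q0_eq_of hp h2 (by simp)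
      have h4 : (nm p - 1) / 2 = (l - 1) * ((l + 1) / 2) := by
        rw [hN]
        obtain ⟨k, hk⟩ : ∃ k, l = 2 * k + 1 := ⟨l / 2, by omega⟩
        subst hk
        have e1 : (2 * k + 1) ^ 2 - 1 = 2 * (2 * k * (k + 1)) := by
          have : (2 * k + 1) ^ 2 = 2 * (2 * k * (k + 1)) + 1 := by ring
          omega
        have e2 : (2 * k + 1 + 1) / 2 = k + 1 := by omega
        rw [e1, e2]
        have e3 : 2 * k + 1 - 1 = 2 * k := by omega
        rw [e3]; omega
      rw [h4, pow_mul]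
      have h5 := intCast_dvd_of_dvd hd (int_pow_dvd h)
      push_cast at h5 ⊢
      have h6 := sub_dvd_pow_sub_pow ((n : Eis) ^ (l - 1)) 1 ((l + 1) / 2)
      rw [one_pow] at h6
      exact h5.trans h6

end Crest.Agent.R017.Sx146
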