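import Crest.Agent.R017.Sx1_146

/-!
# Row 17, sextic algebra (helper146), part 2: quadratic reciprocity in `ℤ[ω]`

* `q2_intCast_left : q2 n c = J(n | N c)`, `q2_natCast_right : q2 x n = J(N x | n)`
* `q2_w`, `q2_neg_one`, `q2_two`
* `sg a b` : the sign `(-1)^{Tr(α β)}` for `a = 1 + 2 α`, `b = 1 + 2 β`
* `q2_recip` : `q2 a b * q2 b a = sg a b` for coprime `a, b ≡ 1 (mod 2)`
-/

set_option autoImplicit false

noncomputable section

open Crest.Agent.R012 Crest.Agent.R012.Eis

namespace Crest.Agent.R017.Sx146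

open Crest.Agent.R012.Sym645 (rq rq_eq rq_eq_zero isCoprime_of_prime_not_dvd one_lt_nm_of_prime
  nm_ne_one_of_prime prime_dvd_pow_sub_one nm_dvd_nm Rq natCard_Rq finite_Rq fieldRq conj_prime)

/-! ### rational arguments -/

theorem q2_intCast_left {c : Eis} (hc : nm c % 2 = 1) (n : ℤ) :
    q2 (n : Eis) c = jacobiSym n (nm c) := by
  refine odd_induction ?_ ?_ hc
  · intro u hu
    rw [q2_unit_right _ hu, isUnit_iff.1 hu, jacobiSym.one_right]
  · intro p b hp h2 hb h
    have hp0 : NeZero (nm p) := ⟨(nm_pos.2 hp.ne_zero).ne'⟩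
    have hb0 : NeZero (nm b) := ⟨(nm_pos.2 (ne_zero_of_odd hb)).ne'⟩
    rw [q2_mul_right _ hp.ne_zero (ne_zero_of_odd hb), h, q2_prime _ hp, q0_intCast hp h2,
      nm_mul, jacobiSym.mul_right]

lemma q0_conj {x p : Eis} (hp : Prime p) (h2 : nm p % 2 = 1) :
    q0 x (Eis.conj p) = q0 (Eis.conj x) p := by
  have hn : nm (Eis.conj p) = nm p := nm_conj p
  apply q0_eq_of (conj_prime hp) (by rw [hn]; exact h2) (q0_range _ _)
  have h1 := q0_spec (x := Eis.conj x) hp h2
  have h3 := conj_dvd_conj h1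
  rw [hn]
  have e : Eis.conj (Eis.conj x ^ ((nm p - 1) / 2) - (q0 (Eis.conj x) p : Eis))
      = x ^ ((nm p - 1) / 2) - (q0 (Eis.conj x) p : Eis) := by
    rw [conj_sub, ← conjHom_apply, map_pow, conjHom_apply, conj_conj,
      Crest.Agent.R012.Sym645.conj_intCast]
  rwa [e] at h3

lemma re_natCast' (n : ℕ) : ((n : Eis)).re = n := by simp
lemma im_natCast' (n : ℕ) : ((n : Eis)).im = 0 := by simp

/-- In the inert case the Frobenius is complex conjugation. -/
lemma inert_pow {p x : Eis} (hp : Prime p) {l : ℕ} (hl : l.Prime) (hd : p ∣ (l : Eis))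
    (hN : nm p = l ^ 2) : p ∣ x ^ l - Eis.conj x := by
  let _ := fieldRq hp
  have hfin := finite_Rq hp.ne_zero
  let _ : Fintype (Rq p) := Fintype.ofFinite _
  have : Fact l.Prime := ⟨hl⟩
  have hl0 : ((l : ℕ) : Rq p) = 0 := by
    have := rq_eq_zero.2 hd
    simpa [rq] using this
  have hchar : CharP (Rq p) l := (CharP.charP_iff_prime_eq_zero hl).2 hl0
  -- Frobenius of a general element
  have hfrob : ∀ y : Eis, rq p y ^ l = rq p ((y.re : Eis) + (y.im : Eis) * w ^ l) := by
    intro y
    have h1 : rq p y = (y.re : Rq p) + (y.im : Rq p) * rq p w := by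
      conv_lhs => rw [eq_re_add y]
      simp [rq]
    have h2 : rq p y ^ l = frobenius (Rq p) l (rq p y) := rfl
    rw [h2, h1, map_add, map_mul, map_intCast, map_intCast]
    have h3 : frobenius (Rq p) l (rq p w) = rq p w ^ l := rfl
    rw [h3]
    simp [rq]
  have hcard : Nat.card (Rq p) = l ^ 2 := by rw [natCard_Rq, hN]
  -- l ≡ 2 mod 3
  have hl3 : l % 3 = 2 := by
    have h012 : l % 3 = 0 ∨ l % 3 = 1 ∨ l % 3 = 2 := by omega
    rcases h012 with h | h | h
    · exfalso
      have : 3 ∣ l := Nat.dvd_of_mod_eq_zero h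
      have hl' : l = 3 := ((Nat.prime_dvd_prime_iff_eq Nat.prime_three hl).1 this).symm
      subst hl'
      have h3 : ((3 : ℕ) : Eis) = (1 - w) * (1 - w ^ 2) := by
        have := w_cube
        have h2 := w_sq
        push_cast
        linear_combination (-1 : Eis) * this + h2
      rw [h3] at hd
      rcases hp.dvd_or_dvd hd with h' | h'
      · have := nm_dvd_nm h'
        rw [Crest.Agent.R012.Sym645.nm_one_sub_w, hN] at this
        norm_num at this
      · have := nm_dvd_nm h'
        rw [Crest.Agent.R012.Sym645.nm_one_sub_w2, hN] at this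
        norm_num at this
    · exfalso
      have hw : w ^ l = w := by
        obtain ⟨k, hk⟩ : ∃ k, l = 3 * k + 1 := ⟨l / 3, by omega⟩
        rw [hk, pow_add, pow_mul, w_cube, one_pow, one_mul, pow_one]
      have hid : ∀ z : Rq p, z ^ l = z := by
        intro z
        obtain ⟨y, rfl⟩ := Ideal.Quotient.mk_surjective z
        have := hfrob y
        rw [hw, ← eq_re_add] at this
        exact this
      obtain ⟨g, hg⟩ := IsCyclic.exists_ofOrder_eq_natCard (α := (Rq p)ˣ)
      have hg1 : g ^ l = g := by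
        ext
        push_cast
        exact hid _
      have hl1 : 1 ≤ l := hl.one_lt.le
      have hg2 : g ^ (l - 1) = 1 := by
        have : g ^ (l - 1) * g = 1 * g := by
          rw [← pow_succ, Nat.sub_add_cancel hl1, hg1, one_mul]
        exact mul_right_cancel this
      have h4 : orderOf g ∣ l - 1 := orderOf_dvd_of_pow_eq_one hg2
      rw [hg, Nat.card_units, hcard] at h4
      have h5 : l ^ 2 - 1 ≤ l - 1 := Nat.le_of_dvd (by have := hl.one_lt; omega) h4
      have h6 := hl.one_lt
      have h7 : l * 2 ≤ l ^ 2 := by rw [pow_two]; exact Nat.mul_le_mul_left l h6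
      omega
    · exact h
  have hw : w ^ l = w ^ 2 := by
    obtain ⟨k, hk⟩ : ∃ k, l = 3 * k + 2 := ⟨l / 3, by omega⟩
    rw [hk, pow_add, pow_mul, w_cube, one_pow, one_mul]
  have h1 := hfrob x
  rw [hw] at h1
  have h2 : (x.re : Eis) + (x.im : Eis) * w ^ 2 = Eis.conj x := by
    conv_rhs => rw [eq_re_add x]
    rw [conj_add, conj_mul, Crest.Agent.R012.Sym645.conj_intCast,
      Crest.Agent.R012.Sym645.conj_intCast, conj_w]
  rw [h2] at h1
  have h3 : rq p (x ^ l) = rq p (Eis.conj x) := by
    rw [← h1]; simp [rq]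
  exact rq_eq.1 h3

lemma q2_prime_right (x : Eis) {l : ℕ} (hl : l.Prime) (h2 : l % 2 = 1) :
    q2 x (l : Eis) = jacobiSym (nm x) l := by
  have hl0 : (l : Eis) ≠ 0 := by exact_mod_cast hl.ne_zero
  have hlu : ¬ IsUnit (l : Eis) := by
    intro h
    have := isUnit_iff.1 h
    rw [nm_natCast] at this
    have h1 := hl.one_lt
    nlinarith
  obtain ⟨p, hp', t, ht⟩ := WfDvdMonoid.exists_irreducible_factor hlu hl0
  have hp : Prime p := hp'.prime
  have hd : p ∣ (l : Eis) := ⟨t, ht⟩
  have hnm : nm p * nm t = l ^ 2 := by rw [← nm_mul, ← ht, nm_natCast]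
  have hpodd : nm p % 2 = 1 := by
    have h3 : nm (p * t) % 2 = 1 := by
      rw [← ht, nm_natCast, Nat.pow_mod, h2]
    exact (nm_odd_mul.1 h3).1
  have h3 : nm p ∣ l ^ 2 := ⟨_, hnm.symm⟩
  obtain ⟨k, hk, hk'⟩ := (Nat.dvd_prime_pow hl).1 h3
  have h4 := nm_ne_one_of_prime hp
  have : Fact l.Prime := ⟨hl⟩
  interval_cases k
  · simp at hk'; exact absurd hk' h4
  · -- split (or ramified)
    rw [pow_one] at hk'
    have ht' : t = Eis.conj p := by
      have h5 : p * t = p * Eis.conj p := by
        rw [mul_conj, ← ht, hk']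
      exact mul_left_cancel₀ hp.ne_zero h5
    have hcp := conj_prime hp
    rw [ht, ht', q2_mul_right _ hp.ne_zero hcp.ne_zero, q2_prime _ hp, q2_prime _ hcp,
      q0_conj hp hpodd, ← q0_mul hp hpodd, mul_conj]
    have := q0_intCast hp hpodd (nm x : ℤ)
    rw [Int.cast_natCast] at this
    rw [this, hk']
  · -- inert
    have htu : IsUnit t := by
      rw [isUnit_iff]
      rw [hk'] at hnm
      have hl2 : 0 < l ^ 2 := pow_pos hl.pos 2
      exact Nat.eq_of_mul_eq_mul_left hl2 (by rw [hnm, mul_one])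
    have hassoc : Associated p (l : Eis) := by
      rw [ht]
      exact (associated_mul_unit_right p t htu)
    rw [← q2_assoc_right x hassoc, q2_prime _ hp, ← jacobiSym.legendreSym.to_jacobiSym]
    apply q0_eq_of hp hpodd
    · by_cases h0 : ((nm x : ℤ) : ZMod l) = 0
      · left; exact (legendreSym.eq_zero_iff l _).2 h0
      · right; exact legendreSym.eq_one_or_neg_one l h0
    · have h6 : ((legendreSym l (nm x : ℤ) : ℤ) : ZMod l) = ((nm x : ℤ) : ZMod l) ^ (l / 2) :=
        legendreSym.eq_pow l _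
      have h7 : (l : ℤ) ∣ (nm x : ℤ) ^ (l / 2) - legendreSym l (nm x : ℤ) := by
        rw [← ZMod.intCast_zmod_eq_zero_iff_dvd, Int.cast_sub, h6]
        push_cast
        ring
      have h8 := intCast_dvd_of_dvd hd h7
      rw [Int.cast_sub, Int.cast_pow, Int.cast_natCast] at h8
      have h9 : p ∣ x ^ l * x - (nm x : Eis) := by
        obtain ⟨s, hs⟩ := inert_pow (x := x) hp hl hd hk'
        refine ⟨s * x, ?_⟩
        rw [← mul_conj]
        linear_combination x * hs
      have h10 : p ∣ (x ^ l * x) ^ (l / 2) - (nm x : Eis) ^ (l / 2) :=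
        h9.trans (sub_dvd_pow_sub_pow _ _ _)
      have h11 : (x ^ l * x) ^ (l / 2) = x ^ ((nm p - 1) / 2) := by
        rw [← pow_succ, ← pow_mul]
        congr 1
        rw [hk']
        obtain ⟨k, hk⟩ : ∃ k, l = 2 * k + 1 := ⟨l / 2, by omega⟩
        subst hk
        have e1 : (2 * k + 1) ^ 2 - 1 = 2 * (2 * k * (k + 1)) := by
          have : (2 * k + 1) ^ 2 = 2 * (2 * k * (k + 1)) + 1 := by ring
          omega
        have e2 : (2 * k + 1) / 2 = k := by omega
        rw [e1, e2, Nat.mul_div_cancel_left _ (by norm_num : 0 < 2)]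
        ring
      rw [h11] at h10
      have := dvd_add h10 h8
      have e : x ^ ((nm p - 1) / 2) - (nm x : Eis) ^ (l / 2)
          + ((nm x : Eis) ^ (l / 2) - ((legendreSym l (nm x : ℤ) : ℤ) : Eis))
          = x ^ ((nm p - 1) / 2) - ((legendreSym l (nm x : ℤ) : ℤ) : Eis) := by ring
      rwa [e] at this

theorem q2_natCast_right (x : Eis) {n : ℕ} (hn : n % 2 = 1) :
    q2 x (n : Eis) = jacobiSym (nm x) n := by
  induction n using Nat.strong_induction_on with
  | _ n ih =>
    by_cases h1 : n = 1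
    · subst h1; simp
    · obtain ⟨l, hl, m, hm⟩ := Nat.exists_prime_and_dvd h1
      subst hm
      have hl2 : l % 2 = 1 := by
        rcases Nat.mod_two_eq_zero_or_one l with h | h
        · rw [Nat.mul_mod, h] at hn; simp at hn
        · exact h
      have hm2 : m % 2 = 1 := by
        rcases Nat.mod_two_eq_zero_or_one m with h | h
        · rw [Nat.mul_mod, h] at hn; simp at hn
        · exact h
      have hm0 : m ≠ 0 := by omega
      have hlt : m < l * m := by
        have := hl.one_lt
        have : 0 < m := by omega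
        nlinarith
      have hl0 : NeZero l := ⟨hl.ne_zero⟩
      have hm0' : NeZero m := ⟨hm0⟩
      rw [Nat.cast_mul, q2_mul_right _ (by exact_mod_cast hl.ne_zero) (by exact_mod_cast hm0),
        ih m hlt hm2, q2_prime_right x hl hl2, jacobiSym.mul_right]

/-- `(x/n)_2 = J(N x | |n|)` for odd rational `n`. -/
theorem q2_intCast_right (x : Eis) {n : ℤ} (hn : n % 2 = 1) :
    q2 x (n : Eis) = jacobiSym (nm x) n.natAbs := by
  have h : Associated (n : Eis) ((n.natAbs : ℕ) : Eis) := by
    rcases Int.natAbs_eq n with h | h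
    · have : (n : Eis) = ((n.natAbs : ℕ) : Eis) := by
        conv_lhs => rw [h]
        simp
      rw [this]
    · have : (n : Eis) = - ((n.natAbs : ℕ) : Eis) := by
        conv_lhs => rw [h]
        simp
      rw [this]
      exact Associated.neg_left (Associated.refl _)
  rw [q2_assoc_right x h, q2_natCast_right x (by omega)]

lemma q2_w {c : Eis} (hc : nm c % 2 = 1) : q2 w c = 1 := by
  have h1 : w = w ^ 2 * w ^ 2 := by
    have := w_cube
    linear_combination (-w) * this
  have h2 : IsCoprime (w ^ 2) c := by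
    have : IsUnit (w ^ 2) := isUnit_w.pow 2
    obtain ⟨v, hv⟩ := this.exists_left_inv
    exact ⟨v, 0, by rw [hv]; ring⟩
  rw [h1, q2_mul_left hc]
  exact q2_mul_self hc h2

lemma q2_neg_one {c : Eis} (hc : nm c % 2 = 1) : q2 (-1) c = ZMod.χ₄ (nm c : ZMod 4) := by
  have h := q2_intCast_left hc (-1)
  push_cast at h
  rw [h, jacobiSym.at_neg_one (Nat.odd_iff.2 hc)]

lemma q2_two {c : Eis} (hc : nm c % 2 = 1) : q2 2 c = ZMod.χ₈ (nm c : ZMod 8) := by
  have h := q2_intCast_left hc 2
  push_cast at h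
  rw [h, jacobiSym.at_two (Nat.odd_iff.2 hc)]

end Crest.Agent.R017.Sx146
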