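import Crest.Agent.R017.Sx2_146
import Crest.Agent.R017.Sx1_440

/-!
# Row 17, sextic algebra (helper146), part 3: quadratic reciprocity in `ℤ[ω]`

`sg a b = (-1)^{Tr(α β)}` for `a = 1 + 2 α`, `b = 1 + 2 β`, and

* `q2_recip : q2 a b * q2 b a = sg a b` (coprime, `≡ 1 mod 2`)
* `sy2_eq_q2 : sy2 x c = q2 x c` (bridge to `Sx1_440`)
* `sy2_recip : sy2 a b = sg a b * sy2 b a`, `sy2_recip_four` (`a ≡ 1 mod 4`)
-/

set_option autoImplicit false

noncomputable section

open Crest.Agent.R012 Crest.Agent.R012.Eis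

namespace Crest.Agent.R017.Sx146

/-! ### extended Jacobi reciprocity -/

/-- The sign in `J(m|n) = ep m n * J(n | |m|)`. -/
def ep (m n : ℤ) : ℤ := if m % 4 = 3 ∧ n % 4 = 3 then -1 else 1

lemma neg_one_pow_half (k : ℕ) (hk : k % 2 = 1) :
    ((-1 : ℤ)) ^ (k / 2) = if k % 4 = 3 then -1 else 1 := by
  rcases (by omega : k % 4 = 1 ∨ k % 4 = 3) with h | h
  · have : Even (k / 2) := by rw [Nat.even_iff]; omega
    rw [this.neg_one_pow, if_neg (by omega)]
  · have : Odd (k / 2) := by rw [Nat.odd_iff]; omega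
    rw [this.neg_one_pow, if_pos h]

lemma jac_swap_nat {m n : ℕ} (hm : m % 2 = 1) (hn : n % 2 = 1) :
    jacobiSym m n = ep m n * jacobiSym n m := by
  rw [jacobiSym.quadratic_reciprocity (Nat.odd_iff.2 hm) (Nat.odd_iff.2 hn)]
  congr 1
  rw [pow_mul, neg_one_pow_half m hm]
  unfold ep
  by_cases h : m % 4 = 3
  · rw [if_pos h, neg_one_pow_half n hn]
    by_cases h' : n % 4 = 3
    · rw [if_pos h', if_pos (by omega)]
    · rw [if_neg h', if_neg (by omega)]
  · rw [if_neg h, one_pow, if_neg (by omega)]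

lemma jac_swap {m : ℤ} {n : ℕ} (hm : m % 2 = 1) (hn : n % 2 = 1) :
    jacobiSym m n = ep m n * jacobiSym n m.natAbs := by
  rcases Int.natAbs_eq m with h | h
  · have h1 := jac_swap_nat (m := m.natAbs) (n := n) (by omega) hn
    rw [← h] at h1
    exact h1
  · have h1 := jac_swap_nat (m := m.natAbs) (n := n) (by omega) hn
    conv_lhs => rw [h]
    rw [jacobiSym.neg _ (Nat.odd_iff.2 hn), h1, ZMod.χ₄_nat_eq_if_mod_four, if_neg (by omega)]
    rw [← mul_assoc]
    congr 1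
    unfold ep
    have h2 : (m.natAbs : ℤ) = -m := by omega
    rw [h2]
    rcases (by omega : m % 4 = 1 ∨ m % 4 = 3) with h3 | h3 <;>
      rcases (by omega : n % 4 = 1 ∨ n % 4 = 3) with h4 | h4
    · rw [if_pos h4, if_neg (by omega), if_neg (by omega)]; norm_num
    · rw [if_neg (by omega), if_pos (by omega), if_neg (by omega)]; norm_num
    · rw [if_pos h4, if_neg (by omega), if_neg (by omega)]; norm_num
    · rw [if_neg (by omega), if_neg (by omega), if_pos (by omega)]; norm_num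

/-! ### the sign -/

/-- `(-1)^{Tr(α β)}`, `α = (a - 1)/2`, `β = (b - 1)/2`. -/
def sg (a b : Eis) : ℤ :=
  if (((a.re - 1) / 2) * (b.im / 2) + (a.im / 2) * ((b.re - 1) / 2)
    + (a.im / 2) * (b.im / 2)) % 2 = 0 then 1 else -1

/-- `a ≡ 1 (mod 2)`. -/
def Un (a : Eis) : Prop := a.re % 2 = 1 ∧ a.im % 2 = 0

lemma un_iff {a : Eis} : Un a ↔ (2 : Eis) ∣ a - 1 := by
  rw [two_dvd_iff]
  unfold Un
  simp only [QuadraticAlgebra.re_sub, QuadraticAlgebra.im_sub, one_re', one_im']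
  omega

lemma Un.odd {a : Eis} (h : Un a) : nm a % 2 = 1 := by
  rw [nm_odd_iff, two_dvd_iff]
  rintro ⟨h1, -⟩
  have := h.1
  omega

lemma Un.mul {a b : Eis} (ha : Un a) (hb : Un b) : Un (a * b) := by
  rw [un_iff] at *
  have : a * b - 1 = (a - 1) * b + (b - 1) := by ring
  rw [this]; exact dvd_add (ha.mul_right _) hb

lemma Un.param {a : Eis} (h : Un a) : ∃ p q : ℤ, a = ⟨1 + 2 * p, 2 * q⟩ := by
  refine ⟨(a.re - 1) / 2, a.im / 2, ?_⟩
  obtain ⟨h1, h2⟩ := h
  apply ext'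
  · show a.re = 1 + 2 * ((a.re - 1) / 2); omega
  · show a.im = 2 * (a.im / 2); omega

lemma sg_param (p q r s : ℤ) :
    sg ⟨1 + 2 * p, 2 * q⟩ ⟨1 + 2 * r, 2 * s⟩ = if (p * s + q * r + q * s) % 2 = 0 then 1 else -1 := by
  unfold sg
  have h1 : (1 + 2 * p - 1) / 2 = p := by omega
  have h2 : 2 * q / 2 = q := by omega
  have h3 : (1 + 2 * r - 1) / 2 = r := by omega
  have h4 : 2 * s / 2 = s := by omega
  simp only [h1, h2, h3, h4]

lemma sign_mul (m n : ℤ) : (if (m + n) % 2 = 0 then (1 : ℤ) else -1)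
    = (if m % 2 = 0 then 1 else -1) * (if n % 2 = 0 then 1 else -1) := by
  rcases (by omega : m % 2 = 0 ∨ m % 2 = 1) with h1 | h1 <;>
    rcases (by omega : n % 2 = 0 ∨ n % 2 = 1) with h2 | h2
  · rw [if_pos (by omega), if_pos h1, if_pos h2]; rfl
  · rw [if_neg (by omega), if_pos h1, if_neg (by omega)]; rfl
  · rw [if_neg (by omega), if_neg (by omega), if_pos h2]; rfl
  · rw [if_pos (by omega), if_neg (by omega), if_neg (by omega)]; rfl

lemma sign_congr {m n : ℤ} (h : m % 2 = n % 2) :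
    (if m % 2 = 0 then (1 : ℤ) else -1) = (if n % 2 = 0 then 1 else -1) := by rw [h]

lemma sg_mul_left {a b c : Eis} (ha : Un a) (hb : Un b) (hc : Un c) :
    sg (a * b) c = sg a c * sg b c := by
  obtain ⟨p, q, rfl⟩ := ha.param
  obtain ⟨r, s, rfl⟩ := hb.param
  obtain ⟨t, u, rfl⟩ := hc.param
  have h : (⟨1 + 2 * p, 2 * q⟩ : Eis) * ⟨1 + 2 * r, 2 * s⟩
      = ⟨1 + 2 * (p + r + 2 * (p * r - q * s)), 2 * (q + s + 2 * (p * s + q * r - q * s))⟩ := by
    apply ext'
    · rw [re_mul']; simp only []; ring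
    · rw [im_mul']; simp only []; ring
  rw [h, sg_param, sg_param, sg_param, ← sign_mul]
  apply sign_congr
  have : (p + r + 2 * (p * r - q * s)) * u + (q + s + 2 * (p * s + q * r - q * s)) * t
      + (q + s + 2 * (p * s + q * r - q * s)) * u
      = (p * u + q * t + q * u + (r * u + s * t + s * u))
        + 2 * ((p * r - q * s) * u + (p * s + q * r - q * s) * t + (p * s + q * r - q * s) * u) := by
    ring
  rw [this]; omega

lemma sg_symm (a b : Eis) : sg a b = sg b a := by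
  unfold sg
  apply sign_congr
  congr 1
  ring

lemma sg_mul_right {a b c : Eis} (ha : Un a) (hb : Un b) (hc : Un c) :
    sg c (a * b) = sg c a * sg c b := by
  rw [sg_symm, sg_mul_left ha hb hc, sg_symm a, sg_symm b]

lemma sg_cases (a b : Eis) : sg a b = 1 ∨ sg a b = -1 := by
  unfold sg; split_ifs <;> simp

lemma sg_mul_self (a b : Eis) : sg a b * sg a b = 1 := by
  rcases sg_cases a b with h | h <;> rw [h] <;> rfl

lemma four_re : (4 : Eis).re = 4 := rfl
lemma four_im : (4 : Eis).im = 0 := rfl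

lemma four_dvd {z : Eis} (h : (4 : Eis) ∣ z) : (4 : ℤ) ∣ z.re ∧ (4 : ℤ) ∣ z.im := by
  obtain ⟨t, rfl⟩ := h
  rw [re_mul', im_mul', four_re, four_im]
  exact ⟨⟨t.re, by ring⟩, ⟨t.im, by ring⟩⟩

/-- `sg` only depends on the class modulo `4`. -/
lemma sg_congr {a a' b : Eis} (h : (4 : Eis) ∣ a - a') : sg a b = sg a' b := by
  obtain ⟨h1, h2⟩ := four_dvd h
  rw [QuadraticAlgebra.re_sub] at h1
  rw [QuadraticAlgebra.im_sub] at h2
  unfold sg
  apply sign_congr
  have e1 : ∃ k : ℤ, (a.re - 1) / 2 = (a'.re - 1) / 2 + 2 * k := by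
    obtain ⟨k, hk⟩ := h1
    exact ⟨k, by omega⟩
  have e2 : ∃ k : ℤ, a.im / 2 = a'.im / 2 + 2 * k := by
    obtain ⟨k, hk⟩ := h2
    exact ⟨k, by omega⟩
  obtain ⟨k, hk⟩ := e1
  obtain ⟨j, hj⟩ := e2
  rw [hk, hj]
  have : ((a'.re - 1) / 2 + 2 * k) * (b.im / 2) + (a'.im / 2 + 2 * j) * ((b.re - 1) / 2)
      + (a'.im / 2 + 2 * j) * (b.im / 2)
      = ((a'.re - 1) / 2 * (b.im / 2) + a'.im / 2 * ((b.re - 1) / 2) + a'.im / 2 * (b.im / 2))
       + 2 * (k * (b.im / 2) + j * ((b.re - 1) / 2) + j * (b.im / 2)) := by ring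
  rw [this]; omega

lemma sg_one_left (b : Eis) : sg 1 b = 1 := by
  unfold sg; simp

lemma sg_of_four {a b : Eis} (h : (4 : Eis) ∣ a - 1) : sg a b = 1 := by
  rw [sg_congr h, sg_one_left]

/-! ### reciprocity -/

/-- The pairing. -/
def tt (a b : Eis) : ℤ := q2 a b * q2 b a

lemma tt_symm (a b : Eis) : tt a b = tt b a := mul_comm _ _

lemma tt_mul_left {a b c : Eis} (ha : nm a % 2 = 1) (hb : nm b % 2 = 1) (hc : nm c % 2 = 1) :
    tt (a * b) c = tt a c * tt b c := by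
  unfold tt
  rw [q2_mul_left hc, q2_mul_right _ (ne_zero_of_odd ha) (ne_zero_of_odd hb)]
  ring

/-- norm of an element `≡ 1 mod 2`, modulo `4`. -/
lemma nm_mod_four {a : Eis} (h : Un a) : (nm a : ℤ) % 4 = 3 ↔ (a.im / 2) % 2 = 1 := by
  obtain ⟨p, q, rfl⟩ := h.param
  rw [nm_cast]
  simp only []
  have h2 : 2 * q / 2 = q := by omega
  rw [h2]
  have e : (1 + 2 * p) ^ 2 - (1 + 2 * p) * (2 * q) + (2 * q) ^ 2
      = 1 + 2 * q + 4 * (p + p ^ 2 - q - p * q + q ^ 2) := by ring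
  rw [e]; omega

lemma tt_int {n : ℤ} {b : Eis} (hn : n % 2 = 1) (hb : Un b) (hc : IsCoprime (n : Eis) b) :
    tt (n : Eis) b = sg (n : Eis) b := by
  unfold tt
  have hbo := hb.odd
  rw [q2_intCast_left hbo, q2_intCast_right b hn, jac_swap hn hbo, mul_assoc]
  have h1 : jacobiSym (nm b : ℤ) n.natAbs * jacobiSym (nm b : ℤ) n.natAbs = 1 := by
    have h2 : jacobiSym n (nm b) ≠ 0 := by
      rw [← q2_intCast_left hbo]
      intro h0
      exact (q2_eq_zero_iff hbo).1 h0 hc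
    rw [jac_swap hn hbo] at h2
    have h3 : jacobiSym (nm b : ℤ) n.natAbs ≠ 0 := right_ne_zero_of_mul h2
    have := (nm b : ℤ)
    rcases jacobiSym.trichotomy (nm b : ℤ) n.natAbs with h | h | h
    · exact absurd h h3
    · rw [h]; rfl
    · rw [h]; rfl
  rw [h1, mul_one]
  have h4 := nm_mod_four hb
  unfold ep sg
  have e1 : ((n : Eis)).re = n := by simp
  have e2 : ((n : Eis)).im = 0 := by simp
  rw [e1, e2]
  simp only [Int.zero_ediv, zero_mul, add_zero]
  rcases (by omega : n % 4 = 1 ∨ n % 4 = 3) with h | h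
  · rw [if_neg (by omega)]
    have : ((n - 1) / 2) % 2 = 0 := by omega
    rw [if_pos]
    rw [Int.mul_emod, this]; simp
  · have h5 : ((n - 1) / 2) % 2 = 1 := by omega
    rw [Int.mul_emod, h5]
    rcases (by omega : (b.im / 2) % 2 = 0 ∨ (b.im / 2) % 2 = 1) with h6 | h6
    · rw [h6, if_neg (by rw [h4, h6]; omega), if_pos (by norm_num)]
    · rw [h6, if_pos ⟨h, h4.2 h6⟩, if_neg (by norm_num)]

/-- Coprime coordinates make `x` (and `u - v`) prime to `x + y ω`. -/
lemma jac_sq_one {a n : ℤ} {m : ℕ} (h : (m : ℤ) ∣ a - n ^ 2) (hc : IsCoprime n (m : ℤ)) :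
    jacobiSym a m = 1 := by
  have h1 : jacobiSym a m = jacobiSym (n ^ 2) m := by
    rw [jacobiSym.mod_left a m, jacobiSym.mod_left (n ^ 2) m]
    congr 1
    exact (Int.modEq_iff_dvd.2 h).symm
  rw [h1, jacobiSym.pow_left]
  apply jacobiSym.sq_one
  exact Int.isCoprime_iff_gcd_eq_one.1 hc

lemma ep_eq {m n i j : ℤ} (hm : m % 4 = (1 + 2 * i) % 4) (hn : n % 4 = (1 + 2 * j) % 4) :
    ep m n = if (i * j) % 2 = 0 then 1 else -1 := by
  unfold ep
  rcases (by omega : i % 2 = 0 ∨ i % 2 = 1) with h1 | h1 <;>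
    rcases (by omega : j % 2 = 0 ∨ j % 2 = 1) with h2 | h2
  · rw [if_neg (by omega), if_pos (by rw [Int.mul_emod, h1, h2]; rfl)]
  · rw [if_neg (by omega), if_pos (by rw [Int.mul_emod, h1, h2]; rfl)]
  · rw [if_neg (by omega), if_pos (by rw [Int.mul_emod, h1, h2]; rfl)]
  · rw [if_pos (by omega), if_neg (by rw [Int.mul_emod, h1, h2]; norm_num)]

lemma ep_mul_self (m n : ℤ) : ep m n * ep m n = 1 := by
  unfold ep; split_ifs <;> rfl

lemma isCoprime_of_jac_ne {a : ℤ} {m : ℕ} (hm : m ≠ 0) (h : jacobiSym a m ≠ 0) :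
    IsCoprime a (m : ℤ) := by
  have : NeZero m := ⟨hm⟩
  rw [Int.isCoprime_iff_gcd_eq_one]
  by_contra hc
  exact h (jacobiSym.eq_zero_iff_not_coprime.2 hc)

/-- Reciprocity for primitive elements. -/
theorem tt_prim {p q r s : ℤ} (hg : IsCoprime (1 + 2 * p) (2 * q))
    (hg' : IsCoprime (1 + 2 * r) (2 * s))
    (hc : IsCoprime (⟨1 + 2 * p, 2 * q⟩ : Eis) ⟨1 + 2 * r, 2 * s⟩) :
    tt ⟨1 + 2 * p, 2 * q⟩ ⟨1 + 2 * r, 2 * s⟩ = sg ⟨1 + 2 * p, 2 * q⟩ ⟨1 + 2 * r, 2 * s⟩ := by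
  set x : ℤ := 1 + 2 * p with hx
  set y : ℤ := 2 * q with hy
  set u : ℤ := 1 + 2 * r with hu
  set v : ℤ := 2 * s with hv
  set a : Eis := ⟨x, y⟩ with ha
  set b : Eis := ⟨u, v⟩ with hb
  have hau : Un a := ⟨by show x % 2 = 1; omega, by show y % 2 = 0; omega⟩
  have hbu : Un b := ⟨by show u % 2 = 1; omega, by show v % 2 = 0; omega⟩
  have hao := hau.odd
  have hbo := hbu.odd
  have ha0 := ne_zero_of_odd hao
  have hb0 := ne_zero_of_odd hbo
  have haN : nm a ≠ 0 := (nm_pos.2 ha0).ne'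
  have hbN : nm b ≠ 0 := (nm_pos.2 hb0).ne'
  have eNa : (nm a : ℤ) = x ^ 2 - x * y + y ^ 2 := nm_cast a
  have eNb : (nm b : ℤ) = u ^ 2 - u * v + v ^ 2 := nm_cast b
  set R : ℤ := x * u - x * v + v * y with hR
  set D : ℤ := x * v - u * y with hD
  have ea : a = (x : Eis) + (y : Eis) * w := eq_re_add a
  have eb : b = (u : Eis) + (v : Eis) * w := eq_re_add b
  have hw := w_sq
  -- congruences
  have c1 : b ∣ ((u - v : ℤ) : Eis) * a - (R : Eis) := by
    refine ⟨(y : Eis) * w, ?_⟩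
    rw [ea, eb, hR]; push_cast
    linear_combination (-(v : Eis) * y) * hw
  have c2 : a ∣ (x : Eis) * b - (R : Eis) := by
    refine ⟨(v : Eis) * (1 + w), ?_⟩
    rw [ea, eb, hR]; push_cast
    linear_combination (-(v : Eis) * y) * hw
  -- first symbol
  have hba : IsCoprime b a := hc.symm
  have s1 : q2 a b * ep (u - v) (nm b) = jacobiSym R (nm b) := by
    have h1 := q2_congr hbo c1
    rw [q2_mul_left hbo, q2_intCast_left hbo, q2_intCast_left hbo,
      jac_swap (by omega) hbo] at h1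
    have h2 : jacobiSym (nm b : ℤ) (u - v).natAbs = 1 := by
      apply jac_sq_one (n := u)
      · rw [Int.natAbs_dvd, eNb]
        exact ⟨-v, by ring⟩
      · have h3 : IsCoprime u (u - v) := by
          obtain ⟨m, n, hmn⟩ := hg'
          exact ⟨m + n, -n, by linear_combination hmn⟩
        rcases Int.natAbs_eq (u - v) with h4 | h4
        · rw [← h4]; exact h3
        · have h5 : (((u - v).natAbs : ℕ) : ℤ) = -(u - v) := by omega
          rw [h5]; exact h3.neg_right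
    rw [h2, mul_one] at h1
    rw [← h1]; ring
  have s2 : q2 b a * ep x (nm a) = jacobiSym R (nm a) := by
    have h1 := q2_congr hao c2
    rw [q2_mul_left hao, q2_intCast_left hao, q2_intCast_left hao,
      jac_swap (by omega) hao] at h1
    have h2 : jacobiSym (nm a : ℤ) x.natAbs = 1 := by
      apply jac_sq_one (n := y)
      · rw [Int.natAbs_dvd, eNa]
        exact ⟨x - y, by ring⟩
      · have h3 : IsCoprime y x := hg.symm
        rcases Int.natAbs_eq x with h4 | h4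
        · rw [← h4]; exact h3
        · have h5 : ((x.natAbs : ℕ) : ℤ) = -x := by omega
          rw [h5]; exact h3.neg_right
    rw [h2, mul_one] at h1
    rw [← h1]; ring
  have hRo : R % 2 = 1 := by
    rw [hR, hx, hu, hv, hy]
    have : (1 + 2 * p) * (1 + 2 * r) - (1 + 2 * p) * (2 * s) + 2 * s * (2 * q)
      = 1 + 2 * (p + r + 2 * p * r - (1 + 2 * p) * s + 2 * s * q) := by ring
    rw [this]; omega
  have hepne : ∀ m n : ℤ, ep m n ≠ 0 := by
    intro m n; unfold ep; split_ifs <;> norm_num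
  have n1 : jacobiSym R (nm b) ≠ 0 := by
    rw [← s1]
    exact mul_ne_zero (fun h0 => (q2_eq_zero_iff hbo).1 h0 hc) (hepne _ _)
  have n2 : jacobiSym R (nm a) ≠ 0 := by
    rw [← s2]
    exact mul_ne_zero (fun h0 => (q2_eq_zero_iff hao).1 h0 hba) (hepne _ _)
  have k1 := isCoprime_of_jac_ne hbN n1
  have k2 := isCoprime_of_jac_ne haN n2
  have k3 : IsCoprime R (((nm a * nm b : ℕ)) : ℤ) := by
    push_cast; exact k2.mul_right k1
  have eNN : (((nm a * nm b : ℕ)) : ℤ) = D ^ 2 + R * (R + D) := by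
    push_cast
    rw [eNa, eNb, hR, hD]; ring
  have k4 : IsCoprime R D := by
    rw [eNN] at k3
    have h5 : IsCoprime R (D ^ 2) := by
      have := k3.add_mul_left_right (-(R + D))
      have e : D ^ 2 + R * (R + D) + R * -(R + D) = D ^ 2 := by ring
      rwa [e] at this
    exact (IsCoprime.pow_right_iff (by norm_num)).1 h5
  have hNodd : (nm a * nm b) % 2 = 1 := by rw [Nat.mul_mod, hao, hbo]
  have haN' : NeZero (nm a) := ⟨haN⟩
  have hbN' : NeZero (nm b) := ⟨hbN⟩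
  have s3 : jacobiSym R (nm a) * jacobiSym R (nm b) = ep R ((nm a * nm b : ℕ) : ℤ) := by
    rw [← jacobiSym.mul_right, jac_swap hRo hNodd]
    have h2 : jacobiSym ((nm a * nm b : ℕ) : ℤ) R.natAbs = 1 := by
      apply jac_sq_one (n := D)
      · rw [Int.natAbs_dvd, eNN]
        exact ⟨R + D, by ring⟩
      · rcases Int.natAbs_eq R with h4 | h4
        · rw [← h4]; exact k4.symm
        · have h5 : ((R.natAbs : ℕ) : ℤ) = -R := by omega
          rw [h5]; exact k4.symm.neg_right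
    rw [h2, mul_one]
  -- combination
  have t1 : tt a b = ep (u - v) (nm b) * (ep x (nm a) * ep R ((nm a * nm b : ℕ) : ℤ)) := by
    unfold tt
    have h1 := ep_mul_self (u - v) (nm b)
    have h2 := ep_mul_self x (nm a)
    rw [← s3, ← s1, ← s2]
    calc q2 a b * q2 b a
        = q2 a b * q2 b a * (ep (u - v) (nm b) * ep (u - v) (nm b))
          * (ep x (nm a) * ep x (nm a)) := by rw [h1, h2]; ring
      _ = _ := by ring
  rw [t1]
  have f1 : (nm a : ℤ) % 4 = (1 + 2 * q) % 4 := by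
    rw [eNa, hx, hy]
    have : (1 + 2 * p) ^ 2 - (1 + 2 * p) * (2 * q) + (2 * q) ^ 2
        = 1 + 2 * q + 4 * (p + p ^ 2 - q - p * q + q ^ 2) := by ring
    rw [this]; omega
  have f2 : (nm b : ℤ) % 4 = (1 + 2 * s) % 4 := by
    rw [eNb, hu, hv]
    have : (1 + 2 * r) ^ 2 - (1 + 2 * r) * (2 * s) + (2 * s) ^ 2
        = 1 + 2 * s + 4 * (r + r ^ 2 - s - r * s + s ^ 2) := by ring
    rw [this]; omega
  have f3 : ((nm a * nm b : ℕ) : ℤ) % 4 = (1 + 2 * (q + s)) % 4 := by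
    push_cast
    rw [Int.mul_emod, f1, f2, ← Int.mul_emod]
    have : (1 + 2 * q) * (1 + 2 * s) = 1 + 2 * (q + s) + 4 * (q * s) := by ring
    rw [this]; omega
  have f4 : R % 4 = (1 + 2 * (p + r - s)) % 4 := by
    rw [hR, hx, hu, hv, hy]
    have : (1 + 2 * p) * (1 + 2 * r) - (1 + 2 * p) * (2 * s) + 2 * s * (2 * q)
      = 1 + 2 * (p + r - s) + 4 * (p * r - p * s + s * q) := by ring
    rw [this]; omega
  have f5 : (u - v) % 4 = (1 + 2 * (r - s)) % 4 := by rw [hu, hv]; ring_nf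
  rw [ep_eq f5 f2, ep_eq (i := p) (by rw [hx]) f1, ep_eq f4 f3, ← sign_mul, ← sign_mul]
  rw [ha, hb, hx, hy, hu, hv, sg_param]
  apply sign_congr
  have : (r - s) * s + (p * q + (p + r - s) * (q + s))
      = p * s + q * r + q * s + 2 * (r * s - s ^ 2 + p * q - s * q) := by ring
  rw [this]; omega

lemma un_intCast {n : ℤ} (hn : n % 2 = 1) : Un (n : Eis) := by
  refine ⟨by simpa using hn, by simp⟩

/-- Every element `≡ 1 mod 2` is an odd integer times a primitive element `≡ 1 mod 2`. -/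
lemma exists_content {a : Eis} (ha : Un a) : ∃ (g p q : ℤ), g % 2 = 1 ∧
    IsCoprime (1 + 2 * p) (2 * q) ∧ a = (g : Eis) * ⟨1 + 2 * p, 2 * q⟩ := by
  have hx : a.re ≠ 0 := by have := ha.1; omega
  have hg0 : (Int.gcd a.re a.im) ≠ 0 := by
    rw [Ne, Int.gcd_eq_zero_iff]; exact fun h => hx h.1
  have hgp : 0 < Int.gcd a.re a.im := Nat.pos_of_ne_zero hg0
  obtain ⟨x, hx'⟩ := Int.gcd_dvd_left (a := a.re) (b := a.im)
  obtain ⟨y, hy'⟩ := Int.gcd_dvd_right (a := a.re) (b := a.im)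
  set g : ℤ := (Int.gcd a.re a.im : ℤ) with hg
  have hg0' : g ≠ 0 := by rw [hg]; exact_mod_cast hg0
  have hcop : IsCoprime x y := by
    have h1 : (Int.gcd a.re a.im : ℤ) = Int.gcdA a.re a.im * a.re + Int.gcdB a.re a.im * a.im := by
      rw [Int.gcd_eq_gcd_ab]; ring
    refine ⟨Int.gcdA a.re a.im, Int.gcdB a.re a.im, ?_⟩
    apply mul_left_cancel₀ hg0'
    rw [mul_one]
    conv_rhs => rw [hg, h1]
    linear_combination (- Int.gcdA a.re a.im) * hx' - (Int.gcdB a.re a.im) * hy'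
  have hgo : g % 2 = 1 := by
    rcases (by omega : g % 2 = 0 ∨ g % 2 = 1) with h | h
    · exfalso
      have h1 := ha.1
      rw [hx', Int.mul_emod, h] at h1
      simp at h1
    · exact h
  have hxo : x % 2 = 1 := by
    rcases (by omega : x % 2 = 0 ∨ x % 2 = 1) with h | h
    · exfalso
      have h1 := ha.1
      rw [hx', Int.mul_emod, h] at h1
      simp at h1
    · exact h
  have hye : y % 2 = 0 := by
    rcases (by omega : y % 2 = 0 ∨ y % 2 = 1) with h | h
    · exact h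
    · exfalso
      have h1 := ha.2
      rw [hy', Int.mul_emod, h, hgo] at h1
      simp at h1
  refine ⟨g, (x - 1) / 2, y / 2, hgo, ?_, ?_⟩
  · have e1 : 1 + 2 * ((x - 1) / 2) = x := by omega
    have e2 : 2 * (y / 2) = y := by omega
    rw [e1, e2]; exact hcop
  · have e1 : 1 + 2 * ((x - 1) / 2) = x := by omega
    have e2 : 2 * (y / 2) = y := by omega
    rw [e1, e2]
    apply ext'
    · rw [re_mul']
      simp only [QuadraticAlgebra.re_intCast, QuadraticAlgebra.im_intCast, Int.cast_id]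
      rw [hx']; ring
    · rw [im_mul']
      simp only [QuadraticAlgebra.re_intCast, QuadraticAlgebra.im_intCast, Int.cast_id]
      rw [hy']; ring

lemma un_mk (p q : ℤ) : Un (⟨1 + 2 * p, 2 * q⟩ : Eis) :=
  ⟨by show (1 + 2 * p) % 2 = 1; omega, by show (2 * q) % 2 = 0; omega⟩

/-- **Quadratic reciprocity in `ℤ[ω]`**, pairing form. -/
theorem tt_eq {a b : Eis} (ha : Un a) (hb : Un b) (hc : IsCoprime a b) : tt a b = sg a b := by
  obtain ⟨g, p, q, hg, hpq, rfl⟩ := exists_content ha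
  obtain ⟨h, r, s, hh, hrs, rfl⟩ := exists_content hb
  have u1 := un_intCast hg
  have u2 := un_intCast hh
  have u3 := un_mk p q
  have u4 := un_mk r s
  have hc1 : IsCoprime (g : Eis) ((h : Eis) * ⟨1 + 2 * r, 2 * s⟩) := hc.of_mul_left_left
  have hc2 : IsCoprime (⟨1 + 2 * p, 2 * q⟩ : Eis) ((h : Eis) * ⟨1 + 2 * r, 2 * s⟩) :=
    hc.of_mul_left_right
  rw [tt_mul_left u1.odd u3.odd hb.odd, sg_mul_left u1 u3 hb, tt_int hg hb hc1, tt_symm,
    tt_mul_left u2.odd u4.odd u3.odd, tt_int hh u3 hc2.of_mul_right_left.symm, tt_symm,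
    tt_prim hpq hrs hc2.of_mul_right_right, sg_mul_right u2 u4 u3, sg_symm (h : Eis)]

/-- **Quadratic reciprocity in `ℤ[ω]`**. -/
theorem q2_recip {a b : Eis} (ha : Un a) (hb : Un b) (hc : IsCoprime a b) :
    q2 a b * q2 b a = sg a b := tt_eq ha hb hc

/-- Form valid for all `a, b ≡ 1 (mod 2)`. -/
theorem q2_recip' {a b : Eis} (ha : Un a) (hb : Un b) : q2 a b = sg a b * q2 b a := by
  by_cases hc : IsCoprime a b
  · have h1 := q2_recip ha hb hc
    have h2 := q2_mul_self ha.odd hc.symm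
    rw [← h1]
    linear_combination (-(q2 a b)) * h2
  · rw [(q2_eq_zero_iff hb.odd).2 hc, (q2_eq_zero_iff ha.odd).2 (fun h => hc h.symm), mul_zero]

/-- `(a/b)_2 = (b/a)_2` if `a ≡ 1 mod 4`. -/
theorem q2_recip_four {a b : Eis} (ha : (4 : Eis) ∣ a - 1) (hb : Un b) : q2 a b = q2 b a := by
  have ha' : Un a := by
    rw [un_iff]
    have : (2 : Eis) ∣ 4 := ⟨2, by norm_num⟩
    exact this.trans ha
  rw [q2_recip' ha' hb, sg_of_four ha, one_mul]

/-! ### elements of odd norm, not nec. `≡ 1 mod 2` -/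

lemma exists_unit_un {a : Eis} (h : nm a % 2 = 1) :
    ∃ i : ℕ, Un (w ^ i * a) := by
  rw [nm_odd_iff, two_dvd_iff] at h
  have e2 : w ^ 2 = (⟨-1, -1⟩ : Eis) := by
    rw [w_sq]; apply ext' <;> simp
  rcases (by omega : a.re % 2 = 0 ∨ a.re % 2 = 1) with h1 | h1 <;>
    rcases (by omega : a.im % 2 = 0 ∨ a.im % 2 = 1) with h2 | h2
  · exfalso; apply h; constructor <;> omega
  · refine ⟨2, ?_, ?_⟩
    · rw [e2, re_mul']; simp only []; omega
    · rw [e2, im_mul']; simp only []; omega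
  · refine ⟨0, ?_, ?_⟩ <;> rw [pow_zero, one_mul] <;> assumption
  · refine ⟨1, ?_, ?_⟩
    · rw [pow_one, re_mul']; simp only [w_re, w_im]; omega
    · rw [pow_one, im_mul']; simp only [w_re, w_im]; omega

lemma q2_w_mul {c : Eis} (hc : nm c % 2 = 1) (i : ℕ) (x : Eis) :
    q2 (w ^ i * x) c = q2 x c := by
  rw [q2_mul_left hc, q2_pow_left hc, q2_w hc, one_pow, one_mul]

lemma q2_right_w_mul (i : ℕ) (x c : Eis) : q2 x (w ^ i * c) = q2 x c :=
  q2_assoc_right x (associated_unit_mul_left c (w ^ i) (isUnit_w.pow i))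

/-! ### bridge to `Sx1_440` -/

open Sx440 in
lemma sy20_eq_q0 (x p : Eis) : sy20 x p = (q0 x p : ℂ) := by
  unfold sy20 q0
  split_ifs <;> simp

open Sx440 in
theorem sy2_eq_q2 (x c : Eis) : sy2 x c = (q2 x c : ℂ) := by
  unfold sy2 q2
  rw [Int.cast_multiset_prod, Multiset.map_map]
  congr 1
  apply Multiset.map_congr rfl
  intro p _
  exact sy20_eq_q0 x p

open Sx440 in
theorem sy2_recip {a b : Eis} (ha : Un a) (hb : Un b) : sy2 a b = (sg a b : ℂ) * sy2 b a := by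
  rw [sy2_eq_q2, sy2_eq_q2, q2_recip' ha hb]; push_cast; ring

open Sx440 in
theorem sy2_recip_four {a b : Eis} (ha : (4 : Eis) ∣ a - 1) (hb : Un b) : sy2 a b = sy2 b a := by
  rw [sy2_eq_q2, sy2_eq_q2, q2_recip_four ha hb]

end Crest.Agent.R017.Sx146
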