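import Crest.Agent.R017.Sx3b_545
import Crest.Agent.R012.LatW_413

/-!
# Row 17: Euler product upper bounds for sums over the pairs `(t,e)` with equal radical

`tsum_RR_le` : if `h 1 1 ≤ 1`, `h (p^l t) (p^k e) ≤ u p l k * h t e` (`l, k ≥ 1`, `p ∤ t e`) and
`Σ_{l,k ≥ 1} u p l k ≤ a p`, then `Σ_{(t,e) ∈ RR} h t e ≤ exp (Σ_p a p)`.
-/

set_option autoImplicit false

noncomputable section

open scoped ENNReal

namespace Crest.Agent.R017.Sx545

open Crest.Agent.R012 Crest.Agent.R012.Eis Crest.Agent.R012.Mob705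

variable {m : Eis}

/-- primary primes prime to `m`. -/
def PPm (m p : Eis) : Prop := Sm m p ∧ Prime p

lemma PPm.isPP {p : Eis} (h : PPm m p) : IsPP p := ⟨h.1.prim, h.2⟩

/-- pairs in `RR` all whose primes are in `P`. -/
def RRP (m : Eis) (P : Finset Eis) : Set (Eis × Eis) :=
  {x | x ∈ RR m ∧ ∀ p, PPm m p → p ∣ x.1 → p ∈ P}

lemma supp_pp {a : Eis} (ha : Sm m a) {q : Eis} (hq : Prime q) (h : q ∣ a) :
    ∃ p, PPm m p ∧ Associated q p ∧ p ∣ a := by
  have hql : ¬ lam ∣ q := fun h' => ha.not_lam_dvd (h'.trans h)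
  have has := prim_associated q
  exact ⟨prim q, ⟨ha.of_dvd (prim_isPrim hql) (has.symm.dvd.trans h), has.prime_iff.mp hq⟩, has,
    has.symm.dvd.trans h⟩

lemma supp_iff_pp {a b : Eis} (ha : Sm m a) : Supp a b ↔ ∀ p, PPm m p → p ∣ a → p ∣ b := by
  constructor
  · intro h p hp hpa; exact h p hp.2 hpa
  · intro h q hq hqa
    obtain ⟨p, hp, has, hpa⟩ := supp_pp ha hq hqa
    exact has.dvd.trans (h p hp hpa)

lemma PPm.eq_of_dvd {p q : Eis} (hp : PPm m p) (hq : PPm m q) (h : p ∣ q) : p = q :=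
  hp.isPP.eq_of_dvd hq.isPP h

lemma RRP_empty {x : Eis × Eis} (hx : x ∈ RRP m ∅) : x = (1, 1) := by
  obtain ⟨⟨ht, he, h1, h2⟩, h3⟩ := hx
  have e1 : x.1 = 1 := by
    by_contra hcon
    obtain ⟨p, hp, hpt⟩ := exists_pp_dvd_of_isPrim ht.prim hcon
    have := h3 p ⟨ht.of_dvd hp.isPrim hpt, hp.prime⟩ hpt
    simp at this
  have e2 : x.2 = 1 := by
    by_contra hcon
    obtain ⟨p, hp, hpt⟩ := exists_pp_dvd_of_isPrim he.prim hcon
    have h4 := h2 p hp.prime hpt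
    rw [e1] at h4
    exact hp.prime.not_isUnit (isUnit_of_dvd_one h4)
  exact Prod.ext e1 e2

/-- splitting off `p`. -/
lemma RRP_insert [DecidableEq Eis] {P : Finset Eis} {p : Eis} (hp : PPm m p)
    {x : Eis × Eis} (hx : x ∈ RRP m (insert p P)) :
    ∃ l k : ℕ, ∃ te : Eis × Eis, te ∈ RRP m P ∧ ¬ p ∣ te.1 ∧ ¬ p ∣ te.2 ∧
      ((l = 0 ∧ k = 0) ∨ (1 ≤ l ∧ 1 ≤ k)) ∧ x = (p ^ l * te.1, p ^ k * te.2) := by
  obtain ⟨⟨ht, he, h1, h2⟩, h3⟩ := hx
  obtain ⟨l, t, hxt, hpt, hst⟩ := Res.exists_split hp.1 hp.2 ht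
  obtain ⟨k, e, hxe, hpe, hse⟩ := Res.exists_split hp.1 hp.2 he
  refine ⟨l, k, (t, e), ⟨⟨hst, hse, ?_, ?_⟩, ?_⟩, hpt, hpe, ?_, Prod.ext hxt hxe⟩
  · rw [supp_iff_pp hst]
    intro q hq hqt
    have h4 : q ∣ x.2 := h1 q hq.2 (by rw [hxt]; exact hqt.mul_left _)
    rw [hxe] at h4
    rcases hq.2.dvd_or_dvd h4 with h5 | h5
    · have h6 := hq.eq_of_dvd hp (hq.2.dvd_of_dvd_pow h5)
      subst h6; exact absurd hqt hpt
    · exact h5
  · rw [supp_iff_pp hse]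
    intro q hq hqe
    have h4 : q ∣ x.1 := h2 q hq.2 (by rw [hxe]; exact hqe.mul_left _)
    rw [hxt] at h4
    rcases hq.2.dvd_or_dvd h4 with h5 | h5
    · have h6 := hq.eq_of_dvd hp (hq.2.dvd_of_dvd_pow h5)
      subst h6; exact absurd hqe hpe
    · exact h5
  · intro q hq hqt
    have h4 := h3 q hq (by rw [hxt]; exact hqt.mul_left _)
    rcases Finset.mem_insert.mp h4 with h5 | h5
    · subst h5; exact absurd hqt hpt
    · exact h5
  · rcases Nat.eq_zero_or_pos l with hl | hl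
    · left
      refine ⟨hl, ?_⟩
      by_contra hk
      have h4 : p ∣ x.2 := by rw [hxe]; exact (dvd_pow_self p hk).mul_right _
      have h5 := h2 p hp.2 h4
      rw [hxt, hl, pow_zero, one_mul] at h5
      exact hpt h5
    · right
      refine ⟨hl, ?_⟩
      by_contra hk
      have h4 : p ∣ x.1 := by rw [hxt]; exact (dvd_pow_self p (by omega)).mul_right _
      have h5 := h1 p hp.2 h4
      rw [hxe, show k = 0 by omega, pow_zero, one_mul] at h5
      exact hpe h5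

open Classical in
lemma tsum_insert_le [DecidableEq Eis] {h : Eis → Eis → ℝ≥0∞} {u : Eis → ℕ → ℕ → ℝ≥0∞}
    (hu : ∀ p, PPm m p → ∀ l k, 1 ≤ l → 1 ≤ k → ∀ t e, Sm m t → Sm m e → ¬ p ∣ t → ¬ p ∣ e →
      h (p ^ l * t) (p ^ k * e) ≤ u p l k * h t e)
    {P : Finset Eis} {p : Eis} (hp : PPm m p) :
    ∑' x : Eis × Eis, (if x ∈ RRP m (insert p P) then h x.1 x.2 else 0) ≤
      (1 + ∑' l : ℕ, ∑' k : ℕ, if 1 ≤ l ∧ 1 ≤ k then u p l k else 0) *
        ∑' x : Eis × Eis, (if x ∈ RRP m P then h x.1 x.2 else 0) := by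
  set S := ∑' x : Eis × Eis, (if x ∈ RRP m P then h x.1 x.2 else 0) with hS
  -- the two families
  have key : ∀ x : Eis × Eis, (if x ∈ RRP m (insert p P) then h x.1 x.2 else 0) ≤
      (if x ∈ RRP m P then h x.1 x.2 else 0) +
      ∑' y : ℕ × ℕ × (Eis × Eis), if (1 ≤ y.1 ∧ 1 ≤ y.2.1) ∧ y.2.2 ∈ RRP m P ∧
        x = (p ^ y.1 * y.2.2.1, p ^ y.2.1 * y.2.2.2) ∧ ¬ p ∣ y.2.2.1 ∧ ¬ p ∣ y.2.2.2
        then h x.1 x.2 else 0 := by
    intro x
    by_cases hx : x ∈ RRP m (insert p P)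
    · rw [if_pos hx]
      obtain ⟨l, k, te, hte, hpt, hpe, hlk, rfl⟩ := RRP_insert hp hx
      rcases hlk with ⟨rfl, rfl⟩ | ⟨hl, hk⟩
      · simp only [pow_zero, one_mul]
        rw [if_pos hte]
        exact le_self_add
      · refine le_add_left ?_
        refine le_trans ?_ (ENNReal.le_tsum ((l, k, te) : ℕ × ℕ × (Eis × Eis)))
        simp only
        rw [if_pos ⟨⟨hl, hk⟩, hte, trivial, hpt, hpe⟩]
    · rw [if_neg hx]; exact zero_le
  refine (ENNReal.tsum_le_tsum key).trans ?_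
  rw [ENNReal.tsum_add, ENNReal.tsum_comm, add_mul, one_mul]
  refine add_le_add le_rfl ?_
  rw [← ENNReal.tsum_mul_right]
  rw [ENNReal.tsum_prod']
  refine ENNReal.tsum_le_tsum fun l => ?_
  rw [← ENNReal.tsum_mul_right, ENNReal.tsum_prod']
  refine ENNReal.tsum_le_tsum fun k => ?_
  by_cases hlk : 1 ≤ l ∧ 1 ≤ k
  · rw [if_pos hlk, hS, ← ENNReal.tsum_mul_left]
    refine ENNReal.tsum_le_tsum fun te => ?_
    by_cases hte : te ∈ RRP m P
    · rw [if_pos hte]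
      by_cases hpd : ¬ p ∣ te.1 ∧ ¬ p ∣ te.2
      · refine le_trans ?_ (hu p hp l k hlk.1 hlk.2 te.1 te.2 hte.1.1 hte.1.2.1 hpd.1 hpd.2)
        rw [tsum_eq_single (p ^ l * te.1, p ^ k * te.2)]
        · split_ifs
          · exact le_rfl
          · exact zero_le
        · intro x hx
          rw [if_neg]
          rintro ⟨-, -, h3, -⟩
          exact hx h3
      · rw [ENNReal.tsum_eq_zero.mpr]
        · exact zero_le
        · intro x
          rw [if_neg]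
          rintro ⟨-, -, -, h3⟩
          exact hpd h3
    · rw [if_neg hte, mul_zero, nonpos_iff_eq_zero, ENNReal.tsum_eq_zero]
      intro x
      rw [if_neg]
      rintro ⟨-, h3, -⟩
      exact hte h3
  · rw [if_neg hlk, zero_mul, nonpos_iff_eq_zero, ENNReal.tsum_eq_zero]
    intro te
    rw [ENNReal.tsum_eq_zero]
    intro x
    rw [if_neg]
    rintro ⟨h3, -⟩
    exact hlk h3

open Classical in
lemma tsum_RRP_le {h : Eis → Eis → ℝ≥0∞} {u : Eis → ℕ → ℕ → ℝ≥0∞} (h1 : h 1 1 ≤ 1)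
    (hu : ∀ p, PPm m p → ∀ l k, 1 ≤ l → 1 ≤ k → ∀ t e, Sm m t → Sm m e → ¬ p ∣ t → ¬ p ∣ e →
      h (p ^ l * t) (p ^ k * e) ≤ u p l k * h t e)
    (P : Finset Eis) (hP : ∀ p ∈ P, PPm m p) :
    ∑' x : Eis × Eis, (if x ∈ RRP m P then h x.1 x.2 else 0) ≤
      ∏ p ∈ P, (1 + ∑' l : ℕ, ∑' k : ℕ, if 1 ≤ l ∧ 1 ≤ k then u p l k else 0) := by
  induction P using Finset.induction_on with
  | empty =>
    rw [Finset.prod_empty, tsum_eq_single (1, 1)]
    · split_ifs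
      · exact h1
      · exact zero_le
    · intro x hx
      rw [if_neg]
      intro h2
      exact hx (RRP_empty h2)
  | insert p P hpP ih =>
    rw [Finset.prod_insert hpP]
    refine (tsum_insert_le hu (hP p (Finset.mem_insert_self _ _))).trans ?_
    gcongr
    exact ih fun q hq => hP q (Finset.mem_insert_of_mem hq)

open Classical in
/-- **Euler product upper bound.** -/
theorem tsum_RR_le {h : Eis → Eis → ℝ≥0∞} {u : Eis → ℕ → ℕ → ℝ≥0∞} {a : Eis → ℝ}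
    (ha : ∀ p, 0 ≤ a p) (has : Summable a) (h1 : h 1 1 ≤ 1)
    (hu : ∀ p, PPm m p → ∀ l k, 1 ≤ l → 1 ≤ k → ∀ t e, Sm m t → Sm m e → ¬ p ∣ t → ¬ p ∣ e →
      h (p ^ l * t) (p ^ k * e) ≤ u p l k * h t e)
    (hua : ∀ p, PPm m p → ∑' l : ℕ, ∑' k : ℕ, (if 1 ≤ l ∧ 1 ≤ k then u p l k else 0) ≤
      ENNReal.ofReal (a p)) :
    ∑' x : Eis × Eis, (if x ∈ RR m then h x.1 x.2 else 0) ≤
      ENNReal.ofReal (Real.exp (∑' p, a p)) := by
  rw [ENNReal.tsum_eq_iSup_sum]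
  refine iSup_le fun F => ?_
  -- the primes of the members of `F`
  set P : Finset Eis := (F.biUnion fun x => pp x.1).filter (PPm m) with hPdef
  have hP : ∀ p ∈ P, PPm m p := fun p hp => (Finset.mem_filter.mp hp).2
  have h2 : ∑ x ∈ F, (if x ∈ RR m then h x.1 x.2 else 0) ≤
      ∑ x ∈ F, (if x ∈ RRP m P then h x.1 x.2 else 0) := by
    refine Finset.sum_le_sum fun x hx => ?_
    by_cases hR : x ∈ RR m
    · rw [if_pos hR, if_pos]
      refine ⟨hR, fun p hp hpx => ?_⟩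
      rw [hPdef, Finset.mem_filter]
      refine ⟨Finset.mem_biUnion.mpr ⟨x, hx, ?_⟩, hp⟩
      exact (mem_pp hR.1.ne_zero).mpr ⟨hp.isPP, hpx⟩
    · rw [if_neg hR]; exact zero_le
  refine h2.trans ((ENNReal.sum_le_tsum F).trans ((tsum_RRP_le h1 hu P hP).trans ?_))
  have h3 : ∀ p ∈ P, (1 + ∑' l : ℕ, ∑' k : ℕ, if 1 ≤ l ∧ 1 ≤ k then u p l k else 0) ≤
      ENNReal.ofReal (Real.exp (a p)) := by
    intro p hp
    refine (add_le_add le_rfl (hua p (hP p hp))).trans ?_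
    rw [← ENNReal.ofReal_one, ← ENNReal.ofReal_add zero_le_one (ha p)]
    apply ENNReal.ofReal_le_ofReal
    rw [add_comm]
    exact Real.add_one_le_exp (a p)
  refine (Finset.prod_le_prod' h3).trans ?_
  rw [← ENNReal.ofReal_prod_of_nonneg (fun p _ => (Real.exp_pos _).le), ← Real.exp_sum]
  apply ENNReal.ofReal_le_ofReal
  apply Real.exp_le_exp.mpr
  exact has.sum_le_tsum P (fun p _ => ha p)

end Crest.Agent.R017.Sx545
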