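import Crest.Agent.R017.Sx3c_545

/-!
# Row 17: the coefficients of the local expansion are absolutely summable

`norm_local_le` : `‖gR (r p^(q l)) (p^k)‖ ≤ loc n q N l k`
`summable_coef` : for `X > 1`, `Y > 0`, `(q+1) X + Y > q + 3/2`,
`n (X-1) + n Y/(2q) + Y/2 > 1` :
`Σ_{(t,e) ∈ RR} ‖gR (r t^q) e‖ N(e)^(-X) N(t)^(-Y) ≤ C(n,q,X,Y)`, uniformly in `r` prime to all `c ∈ Sm m`.
-/

set_option autoImplicit false

noncomputable section

open scoped ENNReal

namespace Crest.Agent.R017.Sx545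

open Crest.Agent.R012 Crest.Agent.R012.Eis Crest.Agent.R012.Mob705

variable {m : Eis} {n : ℕ} {σ : Eis → Eis → ℂ}

/-! ### geometric series -/

lemma geo_le {τ τ0 : ℝ} (h0 : 0 ≤ τ) (h1 : τ ≤ τ0) (h2 : τ0 < 1) (s : ℕ) :
    ∑' l : ℕ, (if s ≤ l then ENNReal.ofReal (τ ^ l) else 0) ≤ ENNReal.ofReal (τ ^ s / (1 - τ0)) := by
  have hτ : τ < 1 := h1.trans_lt h2
  have h3 : ∑' l : ℕ, (if s ≤ l then ENNReal.ofReal (τ ^ l) else 0) =
      ∑' l : ℕ, ENNReal.ofReal (τ ^ (l + s)) := by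
    have h4 := (add_left_injective s).tsum_eq (f := fun l : ℕ =>
      (if s ≤ l then ENNReal.ofReal (τ ^ l) else 0)) (by
        intro l hl
        by_cases h : s ≤ l
        · exact ⟨l - s, by simp [Nat.sub_add_cancel h]⟩
        · simp [h] at hl)
    rw [← h4]
    refine tsum_congr fun l => ?_
    simp
  rw [h3, ← ENNReal.ofReal_tsum_of_nonneg (fun l => by positivity)]
  · apply ENNReal.ofReal_le_ofReal
    have h5 : ∀ l : ℕ, τ ^ (l + s) = τ ^ l * τ ^ s := fun l => pow_add _ _ _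
    simp only [h5]
    rw [tsum_mul_right, tsum_geometric_of_lt_one h0 hτ, mul_comm, ← div_eq_mul_inv]
    apply div_le_div_of_nonneg_left (by positivity) (by linarith) (by linarith)
  · simp only [pow_add]
    exact (summable_geometric_of_lt_one h0 hτ).mul_right _

/-! ### the local bound -/

/-- local majorant: exponents of `N = N(p)` -/
def locu (n q : ℕ) (X Y N : ℝ) (l k : ℕ) : ℝ :=
  (if k = q * l + 1 then N ^ (1 / 2 - X) * (N ^ (-(q * (X - 1) + Y))) ^ l else 0) +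
    (if n ≤ k then (N ^ (-(X - 1 + Y / (2 * q)))) ^ k * (N ^ (-(Y / 2))) ^ l else 0)

lemma locu_nonneg {q : ℕ} {X Y N : ℝ} (hN : 0 < N) (l k : ℕ) : 0 ≤ locu n q X Y N l k := by
  unfold locu
  have h1 : (0 : ℝ) ≤ (if k = q * l + 1 then N ^ (1 / 2 - X) * (N ^ (-(q * (X - 1) + Y))) ^ l
    else 0) := by split_ifs <;> positivity
  have h2 : (0 : ℝ) ≤ (if n ≤ k then (N ^ (-(X - 1 + Y / (2 * q)))) ^ k * (N ^ (-(Y / 2))) ^ l
    else 0) := by split_ifs <;> positivity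
  exact add_nonneg h1 h2

namespace Res

variable (H : Res n m σ)
include H

omit H in
lemma one_le_nm {p : Eis} (hp : Sm m p) : (1 : ℝ) ≤ nm p := by
  exact_mod_cast Nat.one_le_iff_ne_zero.mpr (fun h => hp.ne_zero (nm_eq_zero.mp h))

/-- the local factors: `‖g(s p^(q l), p^k)‖ N^(-X k) N^(-Y l) ≤ locu`. -/
lemma norm_local_le {p s : Eis} (hp : Sm m p) (hpp : Prime p) (hs : ¬ p ∣ s) {q l k : ℕ}
    (hq : 1 ≤ q) (hk : 1 ≤ k) {X Y : ℝ} (hY : 0 ≤ Y) :
    ‖gR σ (s * p ^ (q * l)) (p ^ k)‖ * ((nm p : ℝ) ^ (-X)) ^ k * ((nm p : ℝ) ^ (-Y)) ^ l ≤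
      locu n q X Y (nm p) l k := by
  have hN1 : (1 : ℝ) ≤ nm p := one_le_nm hp
  have hN : (0 : ℝ) < nm p := by linarith
  have hq0 : (0 : ℝ) < q := by exact_mod_cast hq
  rcases lt_trichotomy k (q * l + 1) with h | h | h
  · -- Ramanujan range
    have hkl : k ≤ q * l := by omega
    rw [H.gR_table_le hp hpp hk hkl]
    unfold locu
    rw [if_neg (by omega : ¬ k = q * l + 1), zero_add]
    by_cases hn : n ∣ k
    · have hnk : n ≤ k := Nat.le_of_dvd (by omega) hn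
      rw [if_pos hn, if_pos hnk]
      have h1 : ‖(nm p : ℂ) ^ (k - 1) * ((nm p : ℂ) - 1)‖ ≤ (nm p : ℝ) ^ k := by
        rw [norm_mul, norm_pow, Complex.norm_natCast]
        have h2 : ‖(nm p : ℂ) - 1‖ ≤ nm p := by
          have : ((nm p : ℂ) - 1) = (((nm p : ℝ) - 1 : ℝ) : ℂ) := by push_cast; ring
          rw [this, Complex.norm_real, Real.norm_eq_abs, abs_of_nonneg (by linarith)]
          linarith
        calc (nm p : ℝ) ^ (k - 1) * ‖(nm p : ℂ) - 1‖ ≤ (nm p : ℝ) ^ (k - 1) * nm p := by gcongr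
          _ = (nm p : ℝ) ^ k := by rw [← pow_succ]; congr 1; omega
      have h3 : (nm p : ℝ) ^ k * ((nm p : ℝ) ^ (-X)) ^ k * ((nm p : ℝ) ^ (-Y)) ^ l ≤
          ((nm p : ℝ) ^ (-(X - 1 + Y / (2 * q)))) ^ k * ((nm p : ℝ) ^ (-(Y / 2))) ^ l := by
        rw [← Real.rpow_natCast (nm p : ℝ) k, ← Real.rpow_mul_natCast hN.le,
          ← Real.rpow_mul_natCast hN.le, ← Real.rpow_mul_natCast hN.le,
          ← Real.rpow_mul_natCast hN.le, ← Real.rpow_add hN, ← Real.rpow_add hN,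
          ← Real.rpow_add hN]
        apply Real.rpow_le_rpow_of_exponent_le hN1
        have h4 : (k : ℝ) ≤ q * l := by exact_mod_cast hkl
        have h5 : Y / (2 * q) * k ≤ Y / 2 * l := by
          rw [div_mul_eq_mul_div, div_le_iff₀ (by positivity)]
          calc Y * k ≤ Y * (q * l) := by gcongr
            _ = Y / 2 * l * (2 * q) := by ring
        nlinarith
      refine le_trans ?_ h3
      gcongr
    · rw [if_neg hn, norm_zero, zero_mul, zero_mul]
      split_ifs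
      · positivity
      · exact le_rfl
  · subst h
    rw [H.gR_table_succ s hp (q * l)]
    have h3 : ‖tw σ (q * l + 1) s p‖ ≤ (nm p : ℝ) ^ (1 / 2 : ℝ) := by
      have h4 : ‖tw σ (q * l + 1) s p‖ ^ 2 ≤ nm p := by
        by_cases hn : n ∣ q * l + 1
        · rw [H.tw_of_dvd_exp hp hpp (by omega) hn, if_neg hs]
          simpa using hN1
        · exact (H.norm_tw_sq hp hpp hn hs).le
      rw [← Real.sqrt_eq_rpow]
      exact Real.le_sqrt_of_sq_le h4
    have h5 : locu n q X Y (nm p) l (q * l + 1) ≥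
        (nm p : ℝ) ^ (1 / 2 - X) * ((nm p : ℝ) ^ (-(q * (X - 1) + Y))) ^ l := by
      unfold locu
      rw [if_pos rfl]
      have : (0 : ℝ) ≤ (if n ≤ q * l + 1 then ((nm p : ℝ) ^ (-(X - 1 + Y / (2 * q)))) ^ (q * l + 1)
        * ((nm p : ℝ) ^ (-(Y / 2))) ^ l else 0) := by split_ifs <;> positivity
      linarith
    refine le_trans ?_ h5
    rw [norm_mul, norm_pow, Complex.norm_natCast]
    calc (nm p : ℝ) ^ (q * l) * ‖tw σ (q * l + 1) s p‖ * ((nm p : ℝ) ^ (-X)) ^ (q * l + 1) *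
          ((nm p : ℝ) ^ (-Y)) ^ l
        ≤ (nm p : ℝ) ^ (q * l) * (nm p : ℝ) ^ (1 / 2 : ℝ) * ((nm p : ℝ) ^ (-X)) ^ (q * l + 1) *
          ((nm p : ℝ) ^ (-Y)) ^ l := by gcongr
      _ = _ := by
        rw [← Real.rpow_natCast (nm p : ℝ) (q * l), ← Real.rpow_mul_natCast hN.le,
          ← Real.rpow_mul_natCast hN.le, ← Real.rpow_mul_natCast hN.le, ← Real.rpow_add hN,
          ← Real.rpow_add hN, ← Real.rpow_add hN, ← Real.rpow_add hN]
        congr 1
        push_cast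
        ring
  · rw [H.gR_table_ge hp hs (by omega), norm_zero, zero_mul, zero_mul]
    exact locu_nonneg hN l k

end Res

/-- the sum of the local majorants -/
lemma tsum_locu_le {q : ℕ} (hq : 1 ≤ q) {X Y N : ℝ} (hX : 1 < X) (hY : 0 < Y) (hN : 4 ≤ N) :
    ∑' l : ℕ, ∑' k : ℕ, (if 1 ≤ l ∧ 1 ≤ k then ENNReal.ofReal (locu n q X Y N l k) else 0) ≤
      ENNReal.ofReal (N ^ (-(X - 1 / 2 + (q * (X - 1) + Y))) /
          (1 - (4 : ℝ) ^ (-(q * (X - 1) + Y))) +
        N ^ (-(n * (X - 1 + Y / (2 * q)) + Y / 2)) /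
          ((1 - (4 : ℝ) ^ (-(X - 1 + Y / (2 * q)))) * (1 - (4 : ℝ) ^ (-(Y / 2))))) := by
  have hN0 : 0 < N := by linarith
  have hq0 : (0 : ℝ) < q := by exact_mod_cast hq
  set D := q * (X - 1) + Y with hD
  have hD0 : 0 < D := by
    have : 0 < (q : ℝ) * (X - 1) := by apply mul_pos hq0; linarith
    linarith
  set E := X - 1 + Y / (2 * q) with hE
  have hE0 : 0 < E := by have : 0 < Y / (2 * q) := by positivity
                         linarith
  have hpow : ∀ a : ℝ, 0 < a → N ^ (-a) ≤ (4 : ℝ) ^ (-a) := fun a ha =>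
    Real.rpow_le_rpow_of_nonpos (by norm_num) hN (by linarith)
  have hlt : ∀ a : ℝ, 0 < a → (4 : ℝ) ^ (-a) < 1 := fun a ha =>
    Real.rpow_lt_one_of_one_lt_of_neg (by norm_num) (by linarith)
  have h1 : ∀ l k : ℕ, (if 1 ≤ l ∧ 1 ≤ k then ENNReal.ofReal (locu n q X Y N l k) else 0) ≤
      (if k = q * l + 1 then ENNReal.ofReal (N ^ (1 / 2 - X)) *
        (if 1 ≤ l then ENNReal.ofReal ((N ^ (-D)) ^ l) else 0) else 0) +
      (if n ≤ k then ENNReal.ofReal ((N ^ (-E)) ^ k) else 0) *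
        (if 1 ≤ l then ENNReal.ofReal ((N ^ (-(Y / 2))) ^ l) else 0) := by
    intro l k
    by_cases hl : 1 ≤ l
    · by_cases hk : 1 ≤ k
      · rw [if_pos ⟨hl, hk⟩, if_pos hl, if_pos hl]
        unfold locu
        refine ENNReal.ofReal_add_le.trans ?_
        refine add_le_add ?_ ?_
        · split_ifs
          · rw [ENNReal.ofReal_mul (by positivity)]
          · simp
        · split_ifs
          · rw [ENNReal.ofReal_mul (by positivity)]
          · simp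
      · rw [if_neg (fun h => hk h.2)]; exact zero_le
    · rw [if_neg (fun h => hl h.1)]; exact zero_le
  refine (ENNReal.tsum_le_tsum fun l => ENNReal.tsum_le_tsum fun k => h1 l k).trans ?_
  simp_rw [ENNReal.tsum_add]
  rw [ENNReal.ofReal_add]
  · refine add_le_add ?_ ?_
    · have h2 : ∀ l : ℕ, ∑' k : ℕ, (if k = q * l + 1 then ENNReal.ofReal (N ^ (1 / 2 - X)) *
          (if 1 ≤ l then ENNReal.ofReal ((N ^ (-D)) ^ l) else 0) else 0) =
          ENNReal.ofReal (N ^ (1 / 2 - X)) *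
          (if 1 ≤ l then ENNReal.ofReal ((N ^ (-D)) ^ l) else 0) := fun l => by
        rw [tsum_ite_eq]
      simp_rw [h2]
      rw [ENNReal.tsum_mul_left]
      refine (mul_le_mul_right (geo_le (by positivity) (hpow D hD0) (hlt D hD0) 1) _).trans ?_
      rw [← ENNReal.ofReal_mul (by positivity)]
      apply ENNReal.ofReal_le_ofReal
      rw [pow_one, ← mul_div_assoc, ← Real.rpow_add hN0]
      apply le_of_eq
      congr 2
      ring
    · simp_rw [ENNReal.tsum_mul_right]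
      rw [ENNReal.tsum_mul_left]
      refine (mul_le_mul' (geo_le (by positivity) (hpow E hE0) (hlt E hE0) n)
        (geo_le (by positivity) (hpow (Y / 2) (by linarith)) (hlt (Y / 2) (by linarith)) 1)).trans ?_
      have hh : 0 < 1 - (4 : ℝ) ^ (-E) := by linarith [hlt E hE0]
      rw [← ENNReal.ofReal_mul (by positivity)]
      apply ENNReal.ofReal_le_ofReal
      rw [pow_one, div_mul_div_comm]
      apply le_of_eq
      congr 1
      rw [← Real.rpow_mul_natCast hN0.le, ← Real.rpow_add hN0]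
      congr 1
      ring
  · have hh : 0 < 1 - (4 : ℝ) ^ (-D) := by linarith [hlt D hD0]
    positivity
  · have hh : 0 < 1 - (4 : ℝ) ^ (-E) := by linarith [hlt E hE0]
    have hh2 : 0 < 1 - (4 : ℝ) ^ (-(Y / 2)) := by linarith [hlt (Y / 2) (by linarith)]
    positivity

/-- the majorant at a prime -/
def coefA (n q : ℕ) (X Y : ℝ) (p : Eis) : ℝ :=
  (nm p : ℝ) ^ (-(X - 1 / 2 + (q * (X - 1) + Y))) / (1 - (4 : ℝ) ^ (-(q * (X - 1) + Y))) +
    (nm p : ℝ) ^ (-(n * (X - 1 + Y / (2 * q)) + Y / 2)) /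
      ((1 - (4 : ℝ) ^ (-(X - 1 + Y / (2 * q)))) * (1 - (4 : ℝ) ^ (-(Y / 2))))

/-- the conditions on the exponents -/
structure ExpOK (n q : ℕ) (X Y : ℝ) : Prop where
  hq : 1 ≤ q
  hX : 1 < X
  hY : 0 < Y
  h1 : q + 3 / 2 < (q + 1) * X + Y
  h2 : 1 < n * (X - 1 + Y / (2 * q)) + Y / 2

lemma four_rpow_lt {a : ℝ} (ha : 0 < a) : 0 < 1 - (4 : ℝ) ^ (-a) := by
  have : (4 : ℝ) ^ (-a) < 1 := Real.rpow_lt_one_of_one_lt_of_neg (by norm_num) (by linarith)
  linarith

lemma ExpOK.pos1 {n q : ℕ} {X Y : ℝ} (h : ExpOK n q X Y) : 0 < q * (X - 1) + Y := by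
  have h1 := h.hX
  have h2 := h.hY
  have : 0 ≤ (q : ℝ) * (X - 1) := mul_nonneg (by positivity) (by linarith)
  linarith

lemma ExpOK.pos2 {n q : ℕ} {X Y : ℝ} (h : ExpOK n q X Y) : 0 < X - 1 + Y / (2 * q) := by
  have h1 := h.hX
  have h2 := h.hY
  have : 0 ≤ Y / (2 * (q : ℝ)) := by positivity
  linarith

lemma coefA_nonneg {n q : ℕ} {X Y : ℝ} (h : ExpOK n q X Y) (p : Eis) : 0 ≤ coefA n q X Y p := by
  unfold coefA
  have h1 := four_rpow_lt h.pos1
  have h2 := four_rpow_lt h.pos2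
  have h3 := four_rpow_lt (a := Y / 2) (by have := h.hY; linarith)
  positivity

lemma coefA_summable {n q : ℕ} {X Y : ℝ} (h : ExpOK n q X Y) : Summable (coefA n q X Y) := by
  have e1 : 1 < X - 1 / 2 + (q * (X - 1) + Y) := by have := h.h1; linarith
  have e2 := h.h2
  have s1 := LatSum413.summable_nm_rpow e1
  have s2 := LatSum413.summable_nm_rpow e2
  exact (s1.div_const _).add (s2.div_const _)

namespace Res

variable (H : Res n m σ)
include H

open Classical in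
/-- **absolute summability of the coefficients of the local expansion**, uniform in `r`. -/
theorem tsum_coef_le {q : ℕ} {X Y : ℝ} (hE : ExpOK n q X Y) {r : Eis}
    (hr : ∀ p, PPm m p → ¬ p ∣ r) :
    ∑' te : Eis × Eis, (if te ∈ RR m then ENNReal.ofReal
      (‖gR σ (r * te.1 ^ q) te.2‖ * (nm te.2 : ℝ) ^ (-X) * (nm te.1 : ℝ) ^ (-Y)) else 0) ≤
      ENNReal.ofReal (Real.exp (∑' p, coefA n q X Y p)) := by
  refine tsum_RR_le (m := m)
    (h := fun t e => ENNReal.ofReal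
      (‖gR σ (r * t ^ q) e‖ * (nm e : ℝ) ^ (-X) * (nm t : ℝ) ^ (-Y)))
    (u := fun p l k => ENNReal.ofReal (locu n q X Y (nm p) l k))
    (a := coefA n q X Y) (coefA_nonneg hE) (coefA_summable hE) ?_ ?_ ?_
  · rw [H.gR_one_right]
    simp
  · intro p hp l k hl hk t e ht he hpt hpe
    have hp0 : (0 : ℝ) ≤ nm p := by positivity
    rw [← ENNReal.ofReal_mul (locu_nonneg (by
      exact_mod_cast nm_pos.mpr hp.1.ne_zero) l k)]
    apply ENNReal.ofReal_le_ofReal
    have hs : ¬ p ∣ r * t ^ q := by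
      intro h
      rcases hp.2.dvd_or_dvd h with h | h
      · exact hr p hp h
      · exact hpt (hp.2.dvd_of_dvd_pow h)
    have hfac : r * (p ^ l * t) ^ q = (r * t ^ q) * p ^ (q * l) := by
      rw [mul_pow, ← pow_mul, mul_comm l q]; ring
    have h1 : ‖gR σ (r * (p ^ l * t) ^ q) (p ^ k * e)‖ ≤
        ‖gR σ ((r * t ^ q) * p ^ (q * l)) (p ^ k)‖ * ‖gR σ (r * t ^ q) e‖ := by
      rw [H.gR_pow_mul hp.1 hp.2 he hpe, hfac]
      have h2 : ‖gR σ (r * t ^ q * p ^ (q * l)) e‖ = ‖gR σ (r * t ^ q) e‖ := by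
        have hcop : IsCoprime (p ^ (q * l)) e := coprime_pow hp.2 hpe _
        rw [H.gR_mul_left he _ hcop, norm_mul, RCLike.norm_conj, H.norm_eq_one he hcop, one_mul]
      rw [norm_mul, norm_mul (gR σ (r * t ^ q * p ^ (q * l)) (p ^ k)), h2]
      have h3 : ‖σ e p ^ k * σ p e ^ k‖ ≤ 1 := by
        rw [norm_mul, norm_pow, norm_pow]
        exact mul_le_one₀ (pow_le_one₀ (norm_nonneg _) (H.norm_le_one e hp.1)) (by positivity)
          (pow_le_one₀ (norm_nonneg _) (H.norm_le_one p he))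
      calc _ ≤ 1 * (‖gR σ (r * t ^ q * p ^ (q * l)) (p ^ k)‖ * ‖gR σ (r * t ^ q) e‖) := by
            gcongr
        _ = _ := one_mul _
    have h4 := H.norm_local_le (Y := Y) (X := X) hp.1 hp.2 hs (q := q) (l := l) (k := k) hE.hq hk
      hE.hY.le
    have e1 : (nm (p ^ k * e) : ℝ) ^ (-X) = ((nm p : ℝ) ^ (-X)) ^ k * (nm e : ℝ) ^ (-X) := by
      rw [nm_mul, nm_pow]; push_cast
      rw [Real.mul_rpow (by positivity) (by positivity), ← Real.rpow_natCast_mul hp0,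
        ← Real.rpow_mul_natCast hp0, mul_comm (k : ℝ)]
    have e2 : (nm (p ^ l * t) : ℝ) ^ (-Y) = ((nm p : ℝ) ^ (-Y)) ^ l * (nm t : ℝ) ^ (-Y) := by
      rw [nm_mul, nm_pow]; push_cast
      rw [Real.mul_rpow (by positivity) (by positivity), ← Real.rpow_natCast_mul hp0,
        ← Real.rpow_mul_natCast hp0, mul_comm (l : ℝ)]
    rw [e1, e2]
    calc ‖gR σ (r * (p ^ l * t) ^ q) (p ^ k * e)‖ * (((nm p : ℝ) ^ (-X)) ^ k * (nm e : ℝ) ^ (-X)) *
          (((nm p : ℝ) ^ (-Y)) ^ l * (nm t : ℝ) ^ (-Y))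
        ≤ (‖gR σ ((r * t ^ q) * p ^ (q * l)) (p ^ k)‖ * ‖gR σ (r * t ^ q) e‖) *
          (((nm p : ℝ) ^ (-X)) ^ k * (nm e : ℝ) ^ (-X)) *
          (((nm p : ℝ) ^ (-Y)) ^ l * (nm t : ℝ) ^ (-Y)) := by gcongr
      _ = (‖gR σ ((r * t ^ q) * p ^ (q * l)) (p ^ k)‖ * ((nm p : ℝ) ^ (-X)) ^ k *
          ((nm p : ℝ) ^ (-Y)) ^ l) *
          (‖gR σ (r * t ^ q) e‖ * (nm e : ℝ) ^ (-X) * (nm t : ℝ) ^ (-Y)) := by ring
      _ ≤ _ := by gcongr
  · intro p hp
    have h4 : (4 : ℝ) ≤ nm p := by exact_mod_cast hp.isPP.four_le_nm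
    exact tsum_locu_le hE.hq hE.hX hE.hY h4

open Classical in
/-- real version. -/
theorem summable_coef {q : ℕ} {X Y : ℝ} (hE : ExpOK n q X Y) {r : Eis}
    (hr : ∀ p, PPm m p → ¬ p ∣ r) :
    Summable (fun te : Eis × Eis => if te ∈ RR m then
      ‖gR σ (r * te.1 ^ q) te.2‖ * (nm te.2 : ℝ) ^ (-X) * (nm te.1 : ℝ) ^ (-Y) else 0) ∧
    ∑' te : Eis × Eis, (if te ∈ RR m then
      ‖gR σ (r * te.1 ^ q) te.2‖ * (nm te.2 : ℝ) ^ (-X) * (nm te.1 : ℝ) ^ (-Y) else 0) ≤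
      Real.exp (∑' p, coefA n q X Y p) := by
  have h := H.tsum_coef_le hE hr
  set f : Eis × Eis → ℝ := fun te => if te ∈ RR m then
      ‖gR σ (r * te.1 ^ q) te.2‖ * (nm te.2 : ℝ) ^ (-X) * (nm te.1 : ℝ) ^ (-Y) else 0 with hf
  have hf0 : ∀ x, 0 ≤ f x := by
    intro x; simp only [hf]; split_ifs <;> positivity
  have h2 : ∑' te : Eis × Eis, ENNReal.ofReal (f te) ≤
      ENNReal.ofReal (Real.exp (∑' p, coefA n q X Y p)) := by
    refine le_trans (le_of_eq ?_) h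
    refine tsum_congr fun te => ?_
    simp only [hf]
    split_ifs <;> simp
  have hfin : ∑' te : Eis × Eis, ENNReal.ofReal (f te) ≠ ∞ :=
    ne_top_of_le_ne_top ENNReal.ofReal_ne_top h2
  have hs : Summable f := by
    have h3 := ENNReal.summable_toReal hfin
    refine h3.congr fun x => ?_
    exact ENNReal.toReal_ofReal (hf0 x)
  refine ⟨hs, ?_⟩
  rw [← ENNReal.ofReal_tsum_of_nonneg hf0 hs] at h2
  exact (ENNReal.ofReal_le_ofReal_iff (Real.exp_pos _).le).mp h2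

end Res

end Crest.Agent.R017.Sx545
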