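import Crest.Agent.R017.Sx3_146

/-!
# Row 17, sextic algebra (helper146), part 4

* `q2_lam` : `(λ/c)_2 = sg (1+2ω) (w^i c)` for `c ≡ 1 mod λ`, `w^i c ≡ 1 mod 2`
* `sy6_recip` : `sy6 a b = sg a b * sy6 b a` for primary `a, b ≡ 1 mod 2`; `sy6_recip_four`
* `q2_congr_right` : `(x/·)_2` is periodic: for `x ≠ 0`, `8 x ∣ c - c'`, `c, c'` odd, `c ≡ c' mod 3`:
  `q2 x c = q2 x c'`
* `recip2_periodic`, `recip6_periodic` : `(c/d)(d/c)^{-1}` depends only on `c, d` modulo `36`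
-/

set_option autoImplicit false

noncomputable section

open Crest.Agent.R012 Crest.Agent.R012.Eis

namespace Crest.Agent.R017.Sx146

/-! ### the law for `λ` -/

lemma one_add_two_w : (1 + 2 * w : Eis) = w * (1 - w) := by
  have := w_sq
  linear_combination this

lemma un_sqrt : Un (1 + 2 * w : Eis) := by
  rw [un_iff]; exact ⟨w, by ring⟩

lemma nm_lam_odd : nm (1 - w : Eis) % 2 = 1 := by
  rw [Crest.Agent.R012.Sym645.nm_one_sub_w]

lemma lam_dvd_w_pow (i : ℕ) : (1 - w : Eis) ∣ w ^ i - 1 := by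
  have h := sub_dvd_pow_sub_pow (w : Eis) 1 i
  rw [one_pow] at h
  have h2 : (1 - w : Eis) = -(w - 1) := by ring
  rw [h2, neg_dvd]; exact h

/-- `(c/λ)_2 = 1` for `c ≡ 1 mod λ`. -/
lemma q2_right_lam {c : Eis} (h : (1 - w : Eis) ∣ c - 1) : q2 c (1 - w) = 1 := by
  rw [q2_congr nm_lam_odd h, q2_one_left nm_lam_odd]

/-- The law for `λ = 1 - ω`. -/
theorem q2_lam {c : Eis} (h : (1 - w : Eis) ∣ c - 1) (i : ℕ) (hu : Un (w ^ i * c)) :
    q2 (1 - w) c = sg (1 + 2 * w) (w ^ i * c) := by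
  have ho := hu.odd
  have h1 : q2 (1 - w) c = q2 (1 + 2 * w) (w ^ i * c) := by
    rw [one_add_two_w, q2_mul_left ho, q2_w ho, one_mul, q2_right_w_mul]
  rw [h1, q2_recip' un_sqrt hu]
  have h2 : q2 (w ^ i * c) (1 + 2 * w) = 1 := by
    rw [one_add_two_w, q2_assoc_right (b := 1 - w)]
    · apply q2_right_lam
      have : w ^ i * c - 1 = (w ^ i - 1) * c + (c - 1) := by ring
      rw [this]
      exact dvd_add ((lam_dvd_w_pow i).mul_right _) h
    · exact (associated_unit_mul_left (1 - w : Eis) w isUnit_w)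
  rw [h2, mul_one]

/-! ### periodicity in the denominator -/

lemma w_pow_mul_congr {c c' m : Eis} (i : ℕ) (h : m ∣ c - c') : m ∣ w ^ i * c - w ^ i * c' := by
  rw [← mul_sub]; exact h.mul_left _

lemma un_of_congr {c c' : Eis} (h : (2 : Eis) ∣ c - c') (hc : Un c) : Un c' := by
  rw [un_iff] at *
  have : c' - 1 = (c - 1) - (c - c') := by ring
  rw [this]; exact dvd_sub hc h

lemma odd_of_congr {c c' : Eis} (h : (2 : Eis) ∣ c - c') (hc : nm c % 2 = 1) : nm c' % 2 = 1 := by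
  rw [nm_odd_iff] at *
  intro h2
  apply hc
  have : c = (c - c') + c' := by ring
  rw [this]; exact dvd_add h h2

/-- Reciprocity for general odd elements: `w^i a`, `w^j b` are the representatives `≡ 1 mod 2`. -/
theorem q2_recip_gen {a b : Eis} {i j : ℕ} (ha : Un (w ^ i * a)) (hb : Un (w ^ j * b)) :
    q2 a b = sg (w ^ i * a) (w ^ j * b) * q2 b a := by
  have h := q2_recip' ha hb
  have ha' : nm (w ^ i * a) % 2 = 1 := ha.odd
  have hb' : nm (w ^ j * b) % 2 = 1 := hb.odd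
  have ha'' := (nm_odd_mul.1 ha').2
  have hb'' := (nm_odd_mul.1 hb').2
  rw [q2_right_w_mul, q2_right_w_mul, q2_w_mul hb'', q2_w_mul ha''] at h
  exact h

/-- `(2/c)_2` is periodic modulo `8`. -/
lemma q2_two_congr {c c' : Eis} (hc : nm c % 2 = 1) (h : (8 : Eis) ∣ c - c') :
    q2 2 c = q2 2 c' := by
  have h8 : (2 : Eis) ∣ 8 := ⟨4, by norm_num⟩
  have hc' := odd_of_congr (h8.trans h) hc
  rw [q2_two hc, q2_two hc']
  congr 1
  have h1 : (8 : ℤ) ∣ (nm c : ℤ) - (nm c' : ℤ) := by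
    obtain ⟨t, ht⟩ := h
    have e8r : (8 : Eis).re = 8 := rfl
    have e8i : (8 : Eis).im = 0 := rfl
    have hr := congrArg QuadraticAlgebra.re ht
    have hi := congrArg QuadraticAlgebra.im ht
    rw [QuadraticAlgebra.re_sub, re_mul', e8r, e8i] at hr
    rw [QuadraticAlgebra.im_sub, im_mul', e8r, e8i] at hi
    have hr' : c.re = c'.re + 8 * t.re := by linarith
    have hi' : c.im = c'.im + 8 * t.im := by linarith
    rw [nm_cast, nm_cast, hr', hi']
    refine ⟨2 * c'.re * t.re + 8 * t.re ^ 2 - c'.re * t.im - t.re * c'.im - 8 * t.re * t.im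
      + 2 * c'.im * t.im + 8 * t.im ^ 2, ?_⟩
    ring
  have h2 : (((nm c : ℤ)) : ZMod 8) = ((nm c' : ℤ) : ZMod 8) := by
    rw [← sub_eq_zero, ← Int.cast_sub]
    exact (ZMod.intCast_zmod_eq_zero_iff_dvd _ 8).2 (by exact_mod_cast h1)
  exact_mod_cast h2

lemma q2_neg_one_congr {c c' : Eis} (hc : nm c % 2 = 1) (h : (4 : Eis) ∣ c - c') :
    q2 (-1) c = q2 (-1) c' := by
  have h4 : (2 : Eis) ∣ 4 := ⟨2, by norm_num⟩
  have hc' := odd_of_congr (h4.trans h) hc
  rw [q2_neg_one hc, q2_neg_one hc']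
  congr 1
  have h1 : (4 : ℤ) ∣ (nm c : ℤ) - (nm c' : ℤ) := by
    obtain ⟨t, ht⟩ := h
    have hr := congrArg QuadraticAlgebra.re ht
    have hi := congrArg QuadraticAlgebra.im ht
    rw [QuadraticAlgebra.re_sub, re_mul', four_re, four_im] at hr
    rw [QuadraticAlgebra.im_sub, im_mul', four_re, four_im] at hi
    have hr' : c.re = c'.re + 4 * t.re := by linarith
    have hi' : c.im = c'.im + 4 * t.im := by linarith
    rw [nm_cast, nm_cast, hr', hi']
    refine ⟨2 * c'.re * t.re + 4 * t.re ^ 2 - c'.re * t.im - t.re * c'.im - 4 * t.re * t.im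
      + 2 * c'.im * t.im + 4 * t.im ^ 2, ?_⟩
    ring
  have h2 : (((nm c : ℤ)) : ZMod 4) = ((nm c' : ℤ) : ZMod 4) := by
    rw [← sub_eq_zero, ← Int.cast_sub]
    exact (ZMod.intCast_zmod_eq_zero_iff_dvd _ 4).2 (by exact_mod_cast h1)
  exact_mod_cast h2

/-- Units. -/
lemma q2_unit_congr {u c c' : Eis} (hu : IsUnit u) (hc : nm c % 2 = 1) (h : (4 : Eis) ∣ c - c') :
    q2 u c = q2 u c' := by
  have h4 : (2 : Eis) ∣ 4 := ⟨2, by norm_num⟩
  have hc' := odd_of_congr (h4.trans h) hc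
  have hw : ∀ i : ℕ, q2 (w ^ i) c = q2 (w ^ i) c' := by
    intro i
    rw [q2_pow_left hc, q2_pow_left hc', q2_w hc, q2_w hc']
  have hnw : ∀ i : ℕ, q2 (-w ^ i) c = q2 (-w ^ i) c' := by
    intro i
    have e : (-w ^ i : Eis) = (-1) * w ^ i := by ring
    rw [e, q2_mul_left hc, q2_mul_left hc', hw i, q2_neg_one_congr hc h]
  rcases isUnit_cases hu with rfl | rfl | rfl | rfl | rfl | rfl
  · rw [q2_one_left hc, q2_one_left hc']
  · exact q2_neg_one_congr hc h
  · simpa using hw 1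
  · simpa using hnw 1
  · exact hw 2
  · exact hnw 2

/-- For odd numerators `x`: periodic modulo `4 x`. -/
theorem q2_congr_right_odd {x c c' : Eis} (hx : nm x % 2 = 1) (hc : nm c % 2 = 1)
    (h : 4 * x ∣ c - c') : q2 x c = q2 x c' := by
  have h4 : (4 : Eis) ∣ c - c' := (Dvd.intro _ rfl).trans h
  have hx' : x ∣ c - c' := (Dvd.intro_left _ rfl).trans h
  have h42 : (2 : Eis) ∣ 4 := ⟨2, by norm_num⟩
  have hc' := odd_of_congr (h42.trans h4) hc
  obtain ⟨i, hi⟩ := exists_unit_un hx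
  obtain ⟨j, hj⟩ := exists_unit_un hc
  have hj' : Un (w ^ j * c') := un_of_congr (w_pow_mul_congr j (h42.trans h4)) hj
  rw [q2_recip_gen hi hj, q2_recip_gen hi hj', q2_congr hx hx', sg_symm, sg_symm (w ^ i * x),
    sg_congr (w_pow_mul_congr j h4)]

lemma exists_two_pow {x : Eis} (hx : x ≠ 0) : ∃ (k : ℕ) (y : Eis), nm y % 2 = 1 ∧
    x = 2 ^ k * y := by
  induction hn : nm x using Nat.strong_induction_on generalizing x with
  | _ n ih =>
    by_cases h : nm x % 2 = 1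
    · exact ⟨0, x, h, by ring⟩
    · rw [nm_odd_iff, not_not] at h
      obtain ⟨y, rfl⟩ := h
      have hy : y ≠ 0 := right_ne_zero_of_mul hx
      have hpos := nm_pos.2 hy
      obtain ⟨k, z, hz, hz'⟩ := ih (nm y) (by rw [← hn, nm_mul, nm_two]; omega) hy rfl
      exact ⟨k + 1, z, hz, by rw [hz']; ring⟩

/-- `(x/·)_2` is periodic modulo `8 x`. -/
theorem q2_congr_right {x c c' : Eis} (hx : x ≠ 0) (hc : nm c % 2 = 1) (h : 8 * x ∣ c - c') :
    q2 x c = q2 x c' := by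
  obtain ⟨k, y, hy, rfl⟩ := exists_two_pow hx
  have h8 : (8 : Eis) ∣ c - c' := (Dvd.intro _ rfl).trans h
  have h82 : (2 : Eis) ∣ 8 := ⟨4, by norm_num⟩
  have hc' := odd_of_congr (h82.trans h8) hc
  have h4y : 4 * y ∣ c - c' := by
    refine Dvd.dvd.trans ⟨2 * 2 ^ k, ?_⟩ h
    ring
  rw [q2_mul_left hc, q2_mul_left hc', q2_pow_left hc, q2_pow_left hc', q2_two_congr hc h8,
    q2_congr_right_odd hy hc h4y]

/-! ### the reciprocity factor is periodic -/

/-- `(a/b)_2 (b/a)_2` depends only on `a, b` modulo `4`. -/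
theorem recip2_periodic {a a' b b' : Eis} (ha : nm a % 2 = 1) (hb : nm b % 2 = 1)
    (h1 : (4 : Eis) ∣ a - a') (h2 : (4 : Eis) ∣ b - b') (hc : IsCoprime a b)
    (hc' : IsCoprime a' b') : q2 a b * q2 b a = q2 a' b' * q2 b' a' := by
  have h42 : (2 : Eis) ∣ 4 := ⟨2, by norm_num⟩
  have ha' := odd_of_congr (h42.trans h1) ha
  have hb' := odd_of_congr (h42.trans h2) hb
  obtain ⟨i, hi⟩ := exists_unit_un ha
  obtain ⟨j, hj⟩ := exists_unit_un hb
  have hi' : Un (w ^ i * a') := un_of_congr (w_pow_mul_congr i (h42.trans h1)) hi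
  have hj' : Un (w ^ j * b') := un_of_congr (w_pow_mul_congr j (h42.trans h2)) hj
  have e1 : q2 a b * q2 b a = sg (w ^ i * a) (w ^ j * b) := by
    rw [q2_recip_gen hi hj, mul_assoc, q2_mul_self ha hc.symm, mul_one]
  have e2 : q2 a' b' * q2 b' a' = sg (w ^ i * a') (w ^ j * b') := by
    rw [q2_recip_gen hi' hj', mul_assoc, q2_mul_self ha' hc'.symm, mul_one]
  rw [e1, e2, sg_congr (w_pow_mul_congr i h1), sg_symm, sg_congr (w_pow_mul_congr j h2), sg_symm]

/-! ### sextic symbol -/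

open Sx440

lemma od_iff_nm {c : Eis} : Od c ↔ nm c % 2 = 1 := nm_odd_iff.symm

/-- Sextic reciprocity, primary elements `≡ 1 mod 2`. -/
theorem sy6_recip {a b : Eis} (ha : IsPrim a) (hb : IsPrim b) (ha2 : Un a) (hb2 : Un b) :
    sy6 a b = (sg a b : ℂ) * sy6 b a := by
  unfold sy6
  rw [sy2_recip ha2 hb2, Crest.Agent.R012.Sym645.sy_reciprocity ha hb]
  ring

/-- Sextic reciprocity `(a/b)_6 = (b/a)_6` for `a ≡ 1 mod 12`, `b` primary, `b ≡ 1 mod 2`. -/
theorem sy6_recip_four {a b : Eis} (ha : IsPrim a) (hb : IsPrim b) (ha4 : (4 : Eis) ∣ a - 1)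
    (hb2 : Un b) : sy6 a b = sy6 b a := by
  unfold sy6
  rw [sy2_recip_four ha4 hb2, Crest.Agent.R012.Sym645.sy_reciprocity ha hb]

/-- Sextic reciprocity for primary elements prime to `2`. -/
theorem sy6_recip_gen {a b : Eis} (ha : IsPrim a) (hb : IsPrim b) {i j : ℕ}
    (ha2 : Un (w ^ i * a)) (hb2 : Un (w ^ j * b)) :
    sy6 a b = (sg (w ^ i * a) (w ^ j * b) : ℂ) * sy6 b a := by
  unfold sy6
  rw [sy2_eq_q2, sy2_eq_q2, q2_recip_gen ha2 hb2, Crest.Agent.R012.Sym645.sy_reciprocity ha hb]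
  push_cast
  ring

theorem sy2_congr_right {x c c' : Eis} (hx : x ≠ 0) (hc : Od c) (h : 8 * x ∣ c - c') :
    sy2 x c = sy2 x c' := by
  rw [sy2_eq_q2, sy2_eq_q2, q2_congr_right hx (od_iff_nm.1 hc) h]

/-- `(x/·)_6` is periodic modulo `72 x` on primary odd elements. -/
theorem sy6_congr_right {x c c' : Eis} (hx : x ≠ 0) (hc : IsPrim c) (hc' : IsPrim c') (h2 : Od c)
    (h : 72 * x ∣ c - c') : sy6 x c = sy6 x c' := by
  unfold sy6
  have h8 : 8 * x ∣ c - c' := Dvd.dvd.trans ⟨9, by ring⟩ h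
  have h9 : 9 * x ∣ c - c' := Dvd.dvd.trans ⟨8, by ring⟩ h
  rw [sy2_congr_right hx h2 h8, Crest.Agent.R012.Sym645.sy_periodic hx hc hc' h9]

end Crest.Agent.R017.Sx146
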