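import Crest.Agent.R017.SideT3_777

/-!
# Row 17, section D: three big lumps with a loss (helper59, after helper777's T3a)

Side `{A, B, C | m, a}` with `A + B + 2 C > κ` (near-equal lumps), total `n`.
`T3F` : loss `2 d (C + m + a) + (κp - κ)/3`. Levels up to `2 n - κq` : T3a's levels at the family
`κq`; levels in `[2 n - κq, 2 n - κ]` : REM without shift.
-/

set_option autoImplicit false

noncomputable section

namespace Crest.Agent.R017.T3F59

open Crest.Agent.R017.ER911 Crest.Agent.R017.SC777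

variable {θ d : ℝ} {r s s₀ : EF}

lemma ok3 {A B C m a : ℝ} (hA : 0 ≤ A) (hB : 0 ≤ B) (hC : 0 ≤ C) (hm : 0 ≤ m) (ha : 0 ≤ a) :
    Ok {A, B, C} m a := by
  refine ⟨fun y hy => ?_, hm, ha⟩
  simp only [Multiset.insert_eq_cons, Multiset.mem_cons, Multiset.mem_singleton] at hy
  rcases hy with rfl | rfl | rfl
  · exact hA
  · exact hB
  · exact hC

lemma sum3 (A B C : ℝ) : ({A, B, C} : Multiset ℝ).sum = A + B + C := by
  simp [add_assoc]

/-- one lump to the family, then P' : the levels above those of `level_lump` -/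
theorem level_lump' (R : ExpRules θ r s) {κ y p q m a i F : ℝ} (hy : 0 ≤ y)
    (hp : 0 ≤ p) (hq : 0 ≤ q) (hm : 0 ≤ m) (ha : 0 ≤ a) (hF : 0 ≤ F)
    (C : ColX θ r κ ((κ - (p + q + m + a)) / 2) F {p, q} m a) (hi : 0 ≤ i)
    (hiy : (p + q + m + a + κ) / 2 ≤ i + y) :
    s i (y ::ₘ {p, q}) m a ≤ i + y + y + (p + q + m + a) + F := by
  have hok : Ok {p, q} m a := ok_pair hp hq hm ha
  have c0 := R.cauS i y {p, q} m a hi hy hok
  obtain ⟨l, hl⟩ : ∃ l, l = p + q + m + a := ⟨_, rfl⟩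
  have hs : ({p, q} : Multiset ℝ).sum = p + q := sum_pair p q
  have c2 := R.poisG (i + y) {p, q} m a (i + y + l + F) (by linarith) hok
    (by rw [hs]; linarith)
    (fun Z' m' a' j hZ' hm0 hm1 ha0 ha1 hj hyj hjj => by
      rw [hs] at hjj ⊢
      have := C.col Z' m' a' j hZ' hm0 hm1 ha0 ha1 hj hyj (by linarith)
      linarith)
    (fun Z' m' a' hZ' hm0 hm1 ha0 ha1 hKK => by
      rw [hs] at hKK ⊢
      have := C.cube Z' m' a' hZ' hm0 hm1 ha0 ha1 (by linarith)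
      linarith)
    (i + y) (by linarith) le_rfl
  linarith

/-- the columns of the REM hypothesis -/
theorem col3 (R : ExpRules (7 / 8 + d) r s) (hd : 0 ≤ d) {z₁ z₂ z₃ S m a w i : ℝ}
    (h1 : 0 ≤ z₁) (h2 : 0 ≤ z₂) (h3 : 0 ≤ z₃) (h3' : z₃ ≤ S) (hm : 0 ≤ m) (ha : 0 ≤ a)
    (hw : m + a ≤ w) (hi1 : z₁ ≤ i) (hi2 : z₂ ≤ i) :
    r i {z₁, z₂, z₃} m a ≤ i + (z₁ + z₂ + z₃ + m + a) + 3 / 4 * (z₃ + m + a) + 2 * d * (S + w) := by
  have hj : 0 ≤ i := h1.trans hi1
  have e0 := supV R (κ := i) hj {z₁, z₂} {z₃} (ok_pair (m := 0) (a := 0) h1 h2 le_rfl le_rfl).1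
    (fun y hy => by rw [Multiset.mem_singleton.1 hy]; exact h3) hm ha
  have e00 : ({z₃} + {z₁, z₂} : Multiset ℝ) = {z₁, z₂, z₃} := by
    rw [Multiset.singleton_add]
    show z₃ ::ₘ z₁ ::ₘ {z₂} = z₁ ::ₘ z₂ ::ₘ {z₃}
    rw [Multiset.cons_swap]
    congr 1
    exact Multiset.pair_comm z₃ z₂
  rw [e00, Multiset.sum_singleton] at e0
  have e1 := sup_all R hj h1 h2 hm ha hi1 hi2
  have e3 : 2 * d * (z₃ + (m + a)) ≤ 2 * d * (S + w) :=
    mul_le_mul_of_nonneg_left (by linarith) (by linarith)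
  linarith

/-- the levels `f ≤ 2 n - κ` (from helper777's T3a), lumps sorted, `S` the smallest -/
theorem key1 (R : ExpRules (7 / 8 + d) r s) (Rm : ExpRem (7 / 8 + d) r s s₀) (hd : 0 ≤ d)
    {κ P Q S m a G f : ℝ} (hκ : 0 ≤ κ) (hS : 0 ≤ S) (hSP : S ≤ P) (hSQ : S ≤ Q) (hm : 0 ≤ m)
    (ha : 0 ≤ a) (h2 : P + Q + 2 * S ≤ κ) (h56 : 6 * (P + Q + S + m + a) ≤ 5 * κ)
    (h36 : 40 * (P + Q + S + m + a) + 9 * (S + m + a) ≤ 36 * κ)
    (h59 : 5 * (P + Q) + 9 * (m + a) ≤ 5 * κ) (hamp : 3 * (m + 2 * a) ≤ 2 * κ)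
    (hG : 2 * d * (S + (m + a)) ≤ G) (hf : 0 ≤ f)
    (hft : f ≤ 2 * (P + Q + S + m + a) - κ) :
    s₀ f {P, Q, S} m a ≤ 4 / 3 * (P + Q + S + m + a) + (κ + f) / 3 + G := by
  have hP : 0 ≤ P := hS.trans hSP
  have hQ : 0 ≤ Q := hS.trans hSQ
  have hG0 : 0 ≤ G := le_trans (by positivity) hG
  have hle := Rm.le f {P, Q, S} m a hf (ok3 hP hQ hS hm ha)
  have hcol := colX_pair R hd (κ := κ) hP hQ hm ha (by linarith) (by linarith)
  have hGma : 2 * d * (m + a) ≤ G := le_trans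
    (mul_le_mul_of_nonneg_left (by linarith) (by linarith)) hG
  rcases le_or_gt (f + S) ((P + Q + m + a + κ) / 2) with h | hfC
  · have := level_lump R hκ hS hP hQ hm ha (by positivity) hcol hf h
    have e : (S ::ₘ {P, Q} : Multiset ℝ) = {P, Q, S} := by
      show S ::ₘ P ::ₘ {Q} = P ::ₘ Q ::ₘ {S}
      rw [Multiset.cons_swap]
      congr 1
      exact Multiset.pair_comm S Q
    rw [e] at this
    linarith
  -- REM
  obtain ⟨x, hx⟩ : ∃ x, x = (2 * (P + Q + S + m + a) - κ - f) / 3 := ⟨_, rfl⟩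
  have hx0 : 0 ≤ x := by linarith
  have hxw : 2 * x ≤ m + a := by linarith
  obtain ⟨b, c, hbc, hb0, hbm, hc0, hca⟩ : ∃ b c : ℝ, b + c = x ∧ 0 ≤ b ∧ b ≤ m ∧ 0 ≤ c ∧
      c ≤ a := by
    rcases le_total x m with h | h
    · exact ⟨x, 0, by ring, hx0, h, le_rfl, ha⟩
    · exact ⟨m, x - m, by ring, hm, le_rfl, by linarith, by linarith⟩
  obtain ⟨n, hn⟩ : ∃ n, n = P + Q + S + (m - b) + (a - c) := ⟨_, rfl⟩
  have hfn : f + (b + c) = 2 * n - κ := by linarith
  have hn34 : 3 * κ ≤ 4 * n := by linarith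
  have hcau := Rm.cau f {P, Q, S} m a b c hf (ok3 hP hQ hS hm ha) hb0 hbm hc0 hca
  have hmax : max 0 ((2 * n - κ + 2 * n - 2 * κ) / 3) = (2 * n - κ + 2 * n - 2 * κ) / 3 :=
    max_eq_right (by linarith)
  have hrem := Rm.rem κ (2 * n - κ) P Q S (m - b) (a - c) n
    (2 * n + G) (2 * n + G) (by linarith) (by linarith)
    (by linarith) hn (by linarith) (by linarith) (by linarith) (by linarith) (by linarith)
    (by linarith) (by linarith) (by linarith) (by linarith) (by ring)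
    (by linarith) (by linarith)
    (by
      intro z₁ z₂ z₃ m'' a'' j hz1 hz2 hz3 hz12 hz3' hm0' hm1' ha0' ha1' hj1 hj2 hj3 hjj
      rw [hmax]
      have e1 := col3 R hd hz1 hz2 hz3 hz3' hm0' ha0' (w := m + a) (by linarith) hj1 hj2
      linarith)
    (by
      rw [hmax]
      have e3 : 2 * d * (m - b) ≤ G := le_trans
        (mul_le_mul_of_nonneg_left (by linarith) (by linarith)) hG
      linarith)
    (2 * n - κ) (by linarith) le_rfl
  rw [← hfn] at hrem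
  have hm3 : max 0 ((f + (b + c) + κ - 2 * n) / 3) = 0 := max_eq_left (by linarith)
  rw [hm3] at hrem
  linarith

/-- REM without shift, `K = κ` -/
theorem flat1 (R : ExpRules (7 / 8 + d) r s) (Rm : ExpRem (7 / 8 + d) r s s₀) (hd : 0 ≤ d)
    {κ P Q S m a n G f : ℝ} (hS : 0 ≤ S) (hSP : S ≤ P) (hSQ : S ≤ Q) (hm : 0 ≤ m)
    (ha : 0 ≤ a) (hn : n = P + Q + S + m + a) (h56 : 6 * n ≤ 5 * κ)
    (h36 : 40 * n + 9 * (S + m + a) ≤ 36 * κ) (h11 : 11 * n + 5 * (m + a) ≤ 10 * κ)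
    (h34 : 3 * κ ≤ 4 * n) (h5 : n ≤ 5 * S)
    (hG : 2 * d * (S + (m + a)) ≤ G) (hf : 0 ≤ f) (hft : f ≤ 2 * n - κ) :
    s₀ f {P, Q, S} m a ≤ 2 * n + G := by
  have hG0 : 0 ≤ G := le_trans (by positivity) hG
  have hmax : max 0 ((2 * n - κ + 2 * n - 2 * κ) / 3) = (2 * n - κ + 2 * n - 2 * κ) / 3 :=
    max_eq_right (by linarith)
  have hrem := Rm.rem κ (2 * n - κ) P Q S m a n
    (2 * n + G) (2 * n + G) hm ha
    (by linarith) hn (by linarith) (by linarith) (by linarith) (by linarith) (by linarith)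
    (by linarith) (by linarith) (by linarith) (by linarith) (by ring)
    (by linarith) (by linarith)
    (by
      intro z₁ z₂ z₃ m'' a'' j hz1 hz2 hz3 hz12 hz3' hm0' hm1' ha0' ha1' hj1 hj2 hj3 hjj
      rw [hmax]
      have e1 := col3 R hd hz1 hz2 hz3 hz3' hm0' ha0' (w := m + a) (by linarith) hj1 hj2
      linarith)
    (by
      rw [hmax]
      have e3 : 2 * d * m ≤ G := le_trans
        (mul_le_mul_of_nonneg_left (by linarith) (by linarith)) hG
      linarith)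
    f hf hft
  have hm3 : max 0 ((f + κ - 2 * n) / 3) = 0 := max_eq_left (by linarith)
  rw [hm3] at hrem
  linarith

/-- REM above the top level, no granular mass, `5/6 κ ≤ n ≤ κ` -/
theorem flat2 (R : ExpRules (7 / 8 + d) r s) (Rm : ExpRem (7 / 8 + d) r s s₀) (hd : 0 ≤ d)
    {κ P Q S n G f : ℝ} (hS : 0 ≤ S) (hSP : S ≤ P) (hSQ : S ≤ Q)
    (hn : n = P + Q + S) (h56 : 5 * κ ≤ 6 * n) (h1 : n ≤ κ) (h5 : n ≤ 5 * S)
    (hG : 2 * d * S ≤ G) (hf : 0 ≤ f) (hft : f ≤ 2 * n - κ) :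
    s₀ f {P, Q, S} 0 0 ≤ 2 * n + (n / 5 - κ / 6) + G + max 0 ((f + n - 3 / 2 * κ) / 3) := by
  have hG0 : 0 ≤ G := le_trans (by positivity) hG
  have hmax : max 0 ((2 * n - κ + 2 * n - 2 * (3 * n - 3 / 2 * κ)) / 3) =
      (2 * n - κ + 2 * n - 2 * (3 * n - 3 / 2 * κ)) / 3 :=
    max_eq_right (by linarith)
  have hrem := Rm.rem (3 * n - 3 / 2 * κ) (2 * n - κ) P Q S 0 0 n
    (2 * n + (n / 5 - κ / 6) + G) (2 * n + (n / 5 - κ / 6) + G + (n - 5 / 6 * κ)) le_rfl le_rfl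
    (by linarith) (by linarith) (by linarith) (by linarith) (by linarith) (by linarith)
    (by linarith) (by linarith) (by linarith) (by linarith) (by linarith) (by ring)
    (by linarith) (by linarith)
    (by
      intro z₁ z₂ z₃ m'' a'' j hz1 hz2 hz3 hz12 hz3' hm0' hm1' ha0' ha1' hj1 hj2 hj3 hjj
      rw [hmax]
      have e1 := col3 R hd hz1 hz2 hz3 hz3' hm0' ha0' (w := 0) (by linarith) hj1 hj2
      rw [add_zero] at e1
      linarith)
    (by
      rw [hmax, mul_zero, mul_zero]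
      linarith)
    f hf hft
  have e : (f + (3 * n - 3 / 2 * κ) - 2 * n) / 3 = (f + n - 3 / 2 * κ) / 3 := by ring
  rw [e] at hrem
  exact hrem

/-- all levels, sorted lumps -/
theorem key2 (R : ExpRules (7 / 8 + d) r s) (Rm : ExpRem (7 / 8 + d) r s s₀) (hd : 0 ≤ d)
    {κ κq κp P Q S m a G f : ℝ} (hκ : 0 ≤ κ) (hκq : κ ≤ κq) (hqp : κq ≤ κp) (hS : 0 ≤ S)
    (hSP : S ≤ P) (hSQ : S ≤ Q) (hm : 0 ≤ m) (ha : 0 ≤ a) (h2 : P + Q + 2 * S ≤ κq)
    (h56 : 6 * (P + Q + S + m + a) ≤ 5 * κq)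
    (h36 : 40 * (P + Q + S + m + a) + 9 * (S + m + a) ≤ 36 * κq)
    (h59 : 5 * (P + Q) + 9 * (m + a) ≤ 5 * κ) (hamp : 3 * (m + 2 * a) ≤ 2 * κ)
    (h18 : 18 * (P + Q + S + m + a) ≤ 10 * κ + 5 * κp)
    (hcase : (6 * (P + Q + S + m + a) ≤ 5 * κ ∧
        40 * (P + Q + S + m + a) + 9 * (S + m + a) ≤ 36 * κ ∧
        11 * (P + Q + S + m + a) + 5 * (m + a) ≤ 10 * κ) ∨
      (m = 0 ∧ a = 0 ∧ P + Q + S ≤ κ ∧ κq + 3 * ((P + Q + S) / 5 - κ / 6) ≤ κp))
    (hG : 2 * d * (S + (m + a)) ≤ G) (hf : 0 ≤ f)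
    (hft : f ≤ 2 * (P + Q + S + m + a) - κ) :
    s₀ f {P, Q, S} m a ≤ 4 / 3 * (P + Q + S + m + a) + (κp + f) / 3 + G := by
  have hP : 0 ≤ P := hS.trans hSP
  have hQ : 0 ≤ Q := hS.trans hSQ
  have hG0 : 0 ≤ G := le_trans (by positivity) hG
  obtain ⟨n, hn⟩ : ∃ n, n = P + Q + S + m + a := ⟨_, rfl⟩
  rw [← hn] at h56 h36 h18 hcase hft ⊢
  rcases le_or_gt f (2 * n - κq) with hfq | hfq
  · have := key1 R Rm hd (κ := κq) (by linarith) hS hSP hSQ hm ha h2 (by linarith)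
      (by linarith) (by linarith) (by linarith) hG hf (by linarith)
    rw [← hn] at this
    linarith
  -- one lump
  have hle := Rm.le f {P, Q, S} m a hf (ok3 hP hQ hS hm ha)
  have hGma : 2 * d * (m + a) ≤ G := le_trans
    (mul_le_mul_of_nonneg_left (by linarith) (by linarith)) hG
  have one : 2 * f + 3 * S ≤ n + κp →
      s₀ f {P, Q, S} m a ≤ 4 / 3 * n + (κp + f) / 3 + G := by
    intro h1
    have hcol := colX_pair R hd (κ := κp) hP hQ hm ha (by linarith) (by linarith)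
    have e : (S ::ₘ {P, Q} : Multiset ℝ) = {P, Q, S} := by
      show S ::ₘ P ::ₘ {Q} = P ::ₘ Q ::ₘ {S}
      rw [Multiset.cons_swap]
      congr 1
      exact Multiset.pair_comm S Q
    rcases le_total (f + S) ((P + Q + m + a + κp) / 2) with h | h
    · have := level_lump R (by linarith) hS hP hQ hm ha (by positivity) hcol hf h
      rw [e] at this
      linarith
    · have := level_lump' R hS hP hQ hm ha (by positivity) hcol hf h
      rw [e] at this
      linarith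
  rcases le_or_gt (4 * n) (3 * κ) with h43 | h43
  · exact one (by linarith)
  rcases lt_or_ge (5 * S) n with h5 | h5
  · exact one (by linarith)
  rcases le_or_gt (6 * n) (5 * κ) with h6 | h6
  · have h36' : 40 * n + 9 * (S + m + a) ≤ 36 * κ := by
      rcases hcase with h | h
      · exact h.2.1
      · obtain ⟨rfl, rfl, _⟩ := h
        linarith
    have h11' : 11 * n + 5 * (m + a) ≤ 10 * κ := by
      rcases hcase with h | h
      · exact h.2.2
      · obtain ⟨rfl, rfl, _⟩ := h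
        linarith
    have := flat1 R Rm hd hS hSP hSQ hm ha hn h6 h36' h11' (by linarith) h5 hG hf hft
    linarith
  · rcases hcase with h | h
    · linarith [h.1]
    · obtain ⟨rfl, rfl, h1, h1'⟩ := h
      have hn' : n = P + Q + S := by linarith
      have hG' : 2 * d * S ≤ G := by
        rw [add_zero, add_zero] at hG; exact hG
      have := flat2 R Rm hd hS hSP hSQ hn' (by linarith) (by linarith) h5 hG' hf hft
      rw [← hn'] at h1 h1'
      refine this.trans ?_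
      rcases le_total ((f + n - 3 / 2 * κ) / 3) 0 with h0 | h0
      · rw [max_eq_left h0]
        linarith
      · rw [max_eq_right h0]
        linarith

/-- the smallest of three lumps last -/
theorem sort3 (A B C : ℝ) : ∃ P Q S : ℝ, ({A, B, C} : Multiset ℝ) = {P, Q, S} ∧ S ≤ P ∧ S ≤ Q ∧
    (S = A ∨ S = B ∨ S = C) := by
  have e1 : ({A, B, C} : Multiset ℝ) = {B, C, A} := by
    show A ::ₘ B ::ₘ {C} = B ::ₘ C ::ₘ {A}
    rw [Multiset.cons_swap]
    congr 1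
    exact Multiset.pair_comm A C
  have e2 : ({A, B, C} : Multiset ℝ) = {A, C, B} := by
    show A ::ₘ B ::ₘ {C} = A ::ₘ C ::ₘ {B}
    congr 1
    exact Multiset.pair_comm B C
  rcases le_total A B with h1 | h1
  · rcases le_total A C with h2 | h2
    · exact ⟨B, C, A, e1, h1, h2, Or.inl rfl⟩
    · exact ⟨A, B, C, rfl, h2, h2.trans h1, Or.inr (Or.inr rfl)⟩
  · rcases le_total B C with h2 | h2
    · exact ⟨A, C, B, e2, h1, h2, Or.inr (Or.inl rfl)⟩
    · exact ⟨A, B, C, rfl, h2.trans h1, h2, Or.inr (Or.inr rfl)⟩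

/-- **T3F** : three big lumps with a loss `(κp - κ)/3` -/
theorem T3F (R : ExpRules (7 / 8 + d) r s) (Rm : ExpRem (7 / 8 + d) r s s₀) (hd : 0 ≤ d)
    {κ κq κp A B C m a : ℝ} (hκ : 0 ≤ κ) (hκq : κ ≤ κq) (hqp : κq ≤ κp) (hC : 0 ≤ C)
    (hCA : C ≤ A) (hCB : C ≤ B) (hm : 0 ≤ m) (ha : 0 ≤ a) (h2 : A + B + 2 * C ≤ κq)
    (h56 : 6 * (A + B + C + m + a) ≤ 5 * κq)
    (h36 : 40 * (A + B + C + m + a) + 9 * (C + m + a) ≤ 36 * κq)
    (h59 : 5 * (A + B) + 9 * (m + a) ≤ 5 * κ) (hamp : 3 * (m + 2 * a) ≤ 2 * κ)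
    (h18 : 18 * (A + B + C + m + a) ≤ 10 * κ + 5 * κp)
    (hcase : (6 * (A + B + C + m + a) ≤ 5 * κ ∧
        40 * (A + B + C + m + a) + 9 * (C + m + a) ≤ 36 * κ ∧
        11 * (A + B + C + m + a) + 5 * (m + a) ≤ 10 * κ) ∨
      (m = 0 ∧ a = 0 ∧ A + B + C ≤ κ ∧ κq + 3 * ((A + B + C) / 5 - κ / 6) ≤ κp)) :
    ∀ κ' : ℝ, 0 ≤ κ' → κ' ≤ κ →
      r κ' {A, B, C} m a + (κ - κ') / 3 ≤
        κ + (A + B + C + m + a) + (κp - κ) / 3 + 2 * d * (C + m + a) := by
  have hA : 0 ≤ A := hC.trans hCA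
  have hB : 0 ≤ B := hC.trans hCB
  have hF0 : 0 ≤ 2 * d * (C + m + a) := by positivity
  have hn1 : A + B + C + m + a ≤ κ + (κp - κ) / 3 := by
    rcases hcase with h | ⟨rfl, rfl, h, _⟩ <;> linarith [h]
  refine R.poisC κ {A, B, C} m a
    (κ + (A + B + C + m + a) + (κp - κ) / 3 + 2 * d * (C + m + a)) hκ
    (ok3 hA hB hC hm ha) (by rw [sum3]; linarith) (by rw [sum3]; linarith) ?_
  intro Y' m' a' i hY' hm0 hm1 ha0 ha1 hi hii
  obtain ⟨A', Z₁, rfl, hA0, hA1, hZ₁⟩ := Sh.of_cons (Y := {B, C}) (y := A) hY'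
  obtain ⟨B', C', rfl, hB0, hB1, hC0, hC1⟩ := hZ₁.pair
  have hs3 : (A' ::ₘ ({B', C'} : Multiset ℝ)).sum = A' + B' + C' := sum3 A' B' C'
  have hcons : (A' ::ₘ ({B', C'} : Multiset ℝ)) = {A', B', C'} := rfl
  rw [hs3] at hii ⊢
  rw [sum3, hcons]
  obtain ⟨P, Q, S, hPQS, hSP, hSQ, hSe⟩ := sort3 A' B' C'
  have hsum : A' + B' + C' = P + Q + S := by rw [← sum3, hPQS, sum3]
  have hSC : S ≤ C := by
    have h1 : S ≤ A' ∧ S ≤ B' ∧ S ≤ C' := by
      have hmem : ∀ y ∈ ({A', B', C'} : Multiset ℝ), S ≤ y := by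
        rw [hPQS]
        intro y hy
        simp only [Multiset.insert_eq_cons, Multiset.mem_cons, Multiset.mem_singleton] at hy
        rcases hy with rfl | rfl | rfl
        · exact hSP
        · exact hSQ
        · exact le_rfl
      exact ⟨hmem A' (by simp), hmem B' (by simp), hmem C' (by simp)⟩
    exact h1.2.2.trans hC1
  have hS0 : 0 ≤ S := by rcases hSe with h | h | h <;> rw [h] <;> assumption
  have hPQ : P + Q ≤ A + B := by
    rcases hSe with h | h | h <;> linarith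
  have hSw : 2 * d * (S + (m' + a')) ≤ 2 * d * (C + m + a) :=
    mul_le_mul_of_nonneg_left (by linarith) (by linarith)
  have hok : Ok {A', B', C'} m' a' := ok3 hA0 hB0 hC0 hm0 ha0
  have hcube := Rm.cube i {A', B', C'} m' a'
    (4 / 3 * (A' + B' + C' + m' + a') + (κp + i) / 3 + 2 * d * (C + m + a)) hi hok
    (fun u hu hu3 => by
      have h := key2 R Rm hd (κ := κ) (κq := κq) (κp := κp) (P := P) (Q := Q) (S := S)
        (m := m') (a := a') (G := 2 * d * (C + m + a)) (f := i - 3 * u) hκ hκq hqp hS0 hSP hSQ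
        hm0 ha0 (by linarith) (by linarith) (by linarith) (by linarith) (by linarith)
        (by linarith)
        (by
          rcases hcase with ⟨h1, h2, h3⟩ | ⟨h1, h2, h3, h4⟩
          · exact Or.inl ⟨by linarith, by linarith, by linarith⟩
          · exact Or.inr ⟨by linarith, by linarith, by linarith, by linarith⟩)
        hSw (by linarith) (by linarith)
      rw [hPQS, hsum]
      linarith)
  linarith

end Crest.Agent.R017.T3F59
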