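import Crest.Agent.R017.TEb_48
import Crest.Agent.R017.E1w_551
import Crest.Agent.R017.E3D_579
import Crest.Agent.R017.E5b_54
import Crest.Agent.R017.XCub_71

/-!
# Row 17, E4 (StrU) : the T-energy of the structured side (helper792)

* `PM q w` : the sequence `w` restricted to the `n` prime to `q`
* **`te_pairs`** : `∑_{y ∈ J, δ ∣ y.1} nm y.2^(-1/3) ‖om y‖² ‖TE α y e0‖²` from cube-free moments
  `VF` of the subsequences `m ↦ α (d e0 m)`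
* **`te_ball`** : `∑_{J ≤ L} ‖TE0 (α (e' ·)) 1 (c₀ J c³) e₀‖²` from cube-free moments
-/

set_option autoImplicit false
set_option linter.unusedVariables false
set_option linter.unusedSectionVars false

noncomputable section

open Finset MeasureTheory
open scoped ComplexConjugate Classical

namespace Crest.Agent.R017.TEL792

open Crest.Agent.R012 Crest.Agent.R012.Eis Crest.Agent.R012.MC Crest.Agent.R012.Gauss880
open Crest.Agent.R012.LS2 (S mem_S bl mem_bl)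
open Crest.Agent.R012.Weight600 (pw)
open Crest.Agent.R017.PX764 (Gh n6)
open Crest.Agent.R017.CM106 (CS FS TG)
open Crest.Agent.R017.C70
open Crest.Agent.R017.E1551
open Crest.Agent.R017.E2440 (TE)
open Crest.Agent.R017.Rough381 (VF VF_nonneg VF_mono)
open Crest.Agent.R017.End699 (prin0)
open Crest.Agent.R017.Prov71 (CubeFree)

/-! ### the averaged moment over any index set -/

lemma Wf_eq_Wb' (A : ℝ) (α : Eis → ℂ) (δ j e : Eis) :
    Wf A α δ j e = Wb A (sg α (δ * e)) (j * e) := by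
  unfold Wf Wb Vt sg
  refine integral_congr_ae (Filter.Eventually.of_forall fun s => ?_)
  simp only [mul_assoc]

/-- the averaged moment -/
lemma sum_Wb_gen {ι : Type*} {A J : ℝ} (hA : J + 1 < A) (hJ : 0 ≤ J) {Y : ℝ} (hY : 0 ≤ Y)
    {β : Eis → ℂ} (hβ : ∀ n, β n ≠ 0 → n ∈ S Y) (T : Finset ι) (r : ι → Eis) {Q : ℝ}
    (h : ∀ t, ∑ i ∈ T, ‖TG (tws β t) (r i)‖ ^ 2 ≤ Q * (1 + |t|) ^ J) :
    ∑ i ∈ T, Wb A β (r i) ≤ Q * ∫ t, jb (A - J) t := by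
  have hint : ∀ i ∈ T, Integrable fun t => jb A t * ‖Vt β (r i) t‖ ^ 2 := fun i _ => by
    have := integrable_Vt (A := A) (by linarith) hY hβ (r i) 1
    simpa using this
  unfold Wb
  rw [← integral_finsetSum _ hint, ← integral_const_mul]
  refine integral_mono (integrable_finsetSum _ hint)
    ((integrable_jb (by linarith : 1 < A - J)).const_mul Q) fun t => ?_
  show ∑ i ∈ T, jb A t * ‖Vt β (r i) t‖ ^ 2 ≤ Q * jb (A - J) t
  rw [← Finset.mul_sum]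
  have h1 := mul_le_mul_of_nonneg_left (h t) (jb_pos A t).le
  refine h1.trans (le_of_eq ?_)
  unfold jb
  have h2 : (0 : ℝ) < 1 + |t| := by positivity
  rw [show -(A - J) = -A + J by ring, Real.rpow_add h2]
  ring

lemma sg_supp {Y : ℝ} (hY : 0 ≤ Y) {α : Eis → ℂ} (hα : ∀ n, α n ≠ 0 → n ∈ S Y) {g : Eis}
    (hg : IsPrim g) : ∀ n, sg α g n ≠ 0 → n ∈ S Y := by
  intro n hn
  have h1 := hα _ hn
  have hgn := ((mem_S hY).1 h1).2.1
  have hn' : IsPrim n := hgn.of_mul_left hg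
  exact Dual2813.S_of_dvd hY h1 hn' (dvd_mul_left n g)

/-- a nonzero subsequence has a squarefree step -/
lemma sg_sqf {Y : ℝ} (hY : 0 ≤ Y) {α : Eis → ℂ} (hα : ∀ n, α n ≠ 0 → n ∈ S Y) {g : Eis}
    (hg : ¬ Squarefree g) : sg α g = fun _ => 0 := by
  funext n
  by_contra h
  have h1 := hα _ h
  exact hg (((mem_S hY).1 h1).2.2.of_mul_left)

/-! ### cube-free products -/

lemma CF_mul {a b : Eis} (ha : CF a) (hb : CF b) (h : IsCoprime a b) : CF (a * b) := by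
  refine ⟨mul_ne_zero ha.1 hb.1, fun p hp hd => ?_⟩
  have hd1 : p ∣ a * b := (dvd_pow_self p (by norm_num)).trans hd
  rcases hp.dvd_or_dvd hd1 with h1 | h1
  · have h2 : IsCoprime (p ^ 3) b := (h.of_isCoprime_of_dvd_left h1).pow_left
    exact ha.2 p hp (h2.dvd_of_dvd_mul_right hd)
  · have h2 : IsCoprime (p ^ 3) a := (h.symm.of_isCoprime_of_dvd_left h1).pow_left
    exact hb.2 p hp (h2.dvd_of_dvd_mul_left hd)

lemma CF_sqf {t : Eis} (ht0 : t ≠ 0) (ht : Squarefree t) : CF t := by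
  refine ⟨ht0, fun p hp hd => ?_⟩
  have h1 : p * p ∣ t := (Dvd.intro p (by ring)).trans hd
  exact hp.not_isUnit (ht p h1)

lemma TE_zero_e {α : Eis → ℂ} {x : Eis × Eis} {e : Eis} (h : ¬ IsCoprime x.2 e) :
    TE α x e = 0 := by
  unfold E2440.TE
  refine (tsum_congr fun m => ?_).trans tsum_zero
  refine if_neg fun h1 => h ?_
  exact h1.2.of_mul_right_right.of_isCoprime_of_dvd_right h1.1

/-! ### pairs -/

/-- the divisors `d` of the window -/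
def DS (V₁ : ℝ) (δ : Eis) : Finset Eis := (S (Real.sqrt V₁)).filter fun d => δ ∣ d

lemma mem_DS {V₁ : ℝ} {δ d : Eis} :
    d ∈ DS V₁ δ ↔ ((nm d : ℝ) ^ 2 ≤ V₁ ∧ IsPrim d ∧ Squarefree d) ∧ δ ∣ d := by
  unfold DS
  rw [Finset.mem_filter, mem_S (Real.sqrt_nonneg _)]
  constructor
  · rintro ⟨⟨h1, h2, h3⟩, h4⟩
    refine ⟨⟨?_, h2, h3⟩, h4⟩
    have h5 := nmpos h2.ne_zero
    exact (Real.le_sqrt' h5).1 h1
  · rintro ⟨⟨h1, h2, h3⟩, h4⟩
    refine ⟨⟨?_, h2, h3⟩, h4⟩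
    have h5 := nmpos h2.ne_zero
    exact (Real.le_sqrt' h5).2 h1

/-- **the T-energy of a window, child condition `δ ∣ d`**, any weight in `d` -/
theorem te_pairsW (R : ℝ) (hR : 0 ≤ R) (A : ℕ) (hA : 2 ≤ A) {J : ℝ} (hJ0 : 0 ≤ J)
    (hAJ : J + 1 < A) : ∃ C : ℝ, 0 ≤ C ∧ ∀ (Y X V₀ V₁ B : ℝ), 0 ≤ Y → 0 < X → 0 < V₀ → 0 ≤ B →
      ∀ α : Eis → ℂ, Adm Y X R α → ∀ Js : Finset (Eis × Eis), OKJ Js → ∀ om : Eis × Eis → ℂ,
      (∀ y ∈ Js, om y ≠ 0 → V₀ ≤ (nm (y.2 * y.1 ^ 2) : ℝ) ∧ (nm (y.2 * y.1 ^ 2) : ℝ) ≤ V₁) →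
      (∀ y ∈ Js, ‖om y‖ ≤ B) → ∀ W : Eis → ℝ, (∀ d, 0 ≤ W d) →
      ∀ (e0 δ : Eis), IsPrim e0 → ∀ Md : Eis → ℝ, (∀ d, 0 ≤ Md d) →
      (∀ d ∈ DS V₁ δ, ∀ t : ℝ, VF (V₁ * nm e0 / (nm d : ℝ) ^ 2) (tws (sg α (d * e0)) t) ≤
        Md d * (1 + |t|) ^ J) →
      ∑ y ∈ Js.filter (fun y => δ ∣ y.1),
        W y.1 * ((nm y.2 : ℝ) ^ (-(1 / 3) : ℝ) * (‖om y‖ ^ 2 * ‖TE α y e0‖ ^ 2)) ≤
        C * B ^ 2 * (X * V₀) ^ (-(1 / 3) : ℝ) * ∑ d ∈ DS V₁ δ, W d * ((nm d : ℝ) * Md d) := by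
  obtain ⟨C₀, hC₀, hTE⟩ := LBx48.norm_TE_sq_le R hR A hA
  set I := ∫ t, jb ((A : ℝ) - J) t with hI
  have hI0 : 0 ≤ I := integral_nonneg fun t => (jb_pos _ t).le
  refine ⟨C₀ * I, by positivity, ?_⟩
  intro Y X V₀ V₁ B hY hX hV₀ hB α hα Js hJs om hom homB W hW0 e0 δ he0 Md hMd hyp
  by_cases hsq : Squarefree e0
  swap
  · -- everything vanishes
    have hz : ∀ y ∈ Js.filter (fun y => δ ∣ y.1),
        W y.1 * ((nm y.2 : ℝ) ^ (-(1 / 3) : ℝ) * (‖om y‖ ^ 2 * ‖TE α y e0‖ ^ 2)) = 0 := by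
      intro y hy
      have : TE α y e0 = 0 := by
        unfold E2440.TE
        refine (tsum_congr fun m => ?_).trans tsum_zero
        split_ifs with h
        · have h0 : α (y.1 * m) = 0 := by
            by_contra h1
            have h2 := ((mem_S hY).1 (hα.sup _ h1)).2.2
            exact hsq ((h2.of_mul_right).squarefree_of_dvd h.1)
          rw [h0, zero_mul]
        · rfl
      rw [this]; simp
    rw [Finset.sum_eq_zero hz]
    have : 0 ≤ ∑ d ∈ DS V₁ δ, W d * ((nm d : ℝ) * Md d) :=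
      Finset.sum_nonneg fun d _ => mul_nonneg (hW0 d) (mul_nonneg (Nat.cast_nonneg _) (hMd d))
    positivity
  have hCF0 : CF e0 := CF_sqf he0.ne_zero hsq
  have he0n := nmpos he0.ne_zero
  -- the index set without zero terms
  set T := (Js.filter (fun y => δ ∣ y.1)).filter
    (fun y => om y ≠ 0 ∧ IsCoprime y.2 e0) with hT
  have hT' : ∀ y ∈ T, y ∈ Js ∧ δ ∣ y.1 ∧ om y ≠ 0 ∧ IsCoprime y.2 e0 := by
    intro y hy
    rw [hT, Finset.mem_filter, Finset.mem_filter] at hy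
    exact ⟨hy.1.1, hy.1.2, hy.2⟩
  have e1 : ∑ y ∈ Js.filter (fun y => δ ∣ y.1),
      W y.1 * ((nm y.2 : ℝ) ^ (-(1 / 3) : ℝ) * (‖om y‖ ^ 2 * ‖TE α y e0‖ ^ 2)) =
      ∑ y ∈ T, W y.1 * ((nm y.2 : ℝ) ^ (-(1 / 3) : ℝ) * (‖om y‖ ^ 2 * ‖TE α y e0‖ ^ 2)) := by
    symm
    refine Finset.sum_subset (Finset.filter_subset _ _) fun y hy hy' => ?_
    rw [hT, Finset.mem_filter, not_and] at hy'
    by_cases h0 : om y = 0
    · rw [h0]; simp
    · have h1 : ¬ IsCoprime y.2 e0 := fun h => hy' hy ⟨h0, h⟩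
      rw [TE_zero_e h1]; simp
  rw [e1]
  have hmap : ∀ y ∈ T, y.1 ∈ DS V₁ δ := by
    intro y hy
    obtain ⟨h1, h2, h3, h4⟩ := hT' y hy
    have hj := (E5b54.JC_cf (hJs.jc y h1)).1
    have hj1 := nm_ge_one hj
    rw [mem_DS]
    refine ⟨⟨?_, hJs.prim y h1, hJs.sqf y h1⟩, h2⟩
    have h5 := (hom y h1 h3).2
    rw [nm_mul, nm_pow] at h5
    push_cast at h5
    nlinarith [sq_nonneg (nm y.1 : ℝ)]
  -- pointwise
  have hpt : ∀ y ∈ T, (nm y.2 : ℝ) ^ (-(1 / 3) : ℝ) * (‖om y‖ ^ 2 * ‖TE α y e0‖ ^ 2) ≤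
      C₀ * B ^ 2 * (X * V₀) ^ (-(1 / 3) : ℝ) *
        ((nm y.1 : ℝ) * Wb A (sg α (y.1 * e0)) (y.2 * e0)) := by
    intro y hy
    obtain ⟨h1, h2, h3, h4⟩ := hT' y hy
    have hj := (E5b54.JC_cf (hJs.jc y h1)).1
    have hjn := nmpos hj
    have hd := hJs.prim y h1
    have hdn := nmpos hd.ne_zero
    have h5 := (hom y h1 h3).1
    rw [nm_mul, nm_pow] at h5
    push_cast at h5
    have h6 := hTE Y X hY hX α hα y.1 y.2 e0 hd he0
    rw [Wf_eq_Wb'] at h6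
    have hW := Wb_nonneg (A : ℝ) (sg α (y.1 * e0)) (y.2 * e0)
    have h7 : (nm y.2 : ℝ) ^ (-(1 / 3) : ℝ) * (X / nm y.1) ^ (-(1 / 3) : ℝ) ≤
        (X * V₀) ^ (-(1 / 3) : ℝ) * nm y.1 := by
      have hq : (nm y.1 : ℝ) = ((nm y.1 : ℝ) ^ 3) ^ (1 / 3 : ℝ) := by
        rw [← Real.rpow_natCast, ← Real.rpow_mul hdn.le]; norm_num
      have e2 : (X * V₀) ^ (-(1 / 3) : ℝ) * nm y.1 =
          (X * V₀ / (nm y.1 : ℝ) ^ 3) ^ (-(1 / 3) : ℝ) := by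
        have e2' : ((nm y.1 : ℝ) ^ 3) ^ (-(1 / 3) : ℝ) = (nm y.1 : ℝ)⁻¹ := by
          rw [Real.rpow_neg (by positivity), ← hq]
        rw [Real.div_rpow (by positivity) (by positivity), e2', div_inv_eq_mul]
      rw [e2, ← Real.mul_rpow (by positivity) (by positivity)]
      refine Real.rpow_le_rpow_of_nonpos (by positivity) ?_ (by norm_num)
      rw [div_le_iff₀ (by positivity)]
      have e3 : (nm y.2 : ℝ) * (X / nm y.1) * (nm y.1 : ℝ) ^ 3 =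
          X * ((nm y.2 : ℝ) * (nm y.1 : ℝ) ^ 2) := by
        field_simp
      rw [e3]
      exact mul_le_mul_of_nonneg_left h5 hX.le
    have h8 : ‖om y‖ ^ 2 ≤ B ^ 2 := pow_le_pow_left₀ (norm_nonneg _) (homB y h1) 2
    have hx : 0 ≤ (X / nm y.1 : ℝ) ^ (-(1 / 3) : ℝ) := by positivity
    calc (nm y.2 : ℝ) ^ (-(1 / 3) : ℝ) * (‖om y‖ ^ 2 * ‖TE α y e0‖ ^ 2) ≤
          (nm y.2 : ℝ) ^ (-(1 / 3) : ℝ) * (B ^ 2 * (C₀ * (X / nm y.1) ^ (-(1 / 3) : ℝ) *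
            Wb A (sg α (y.1 * e0)) (y.2 * e0))) := by
          refine mul_le_mul_of_nonneg_left ?_ (by positivity)
          exact mul_le_mul h8 h6 (by positivity) (by positivity)
      _ = C₀ * B ^ 2 * ((nm y.2 : ℝ) ^ (-(1 / 3) : ℝ) * (X / nm y.1) ^ (-(1 / 3) : ℝ)) *
            Wb A (sg α (y.1 * e0)) (y.2 * e0) := by ring
      _ ≤ C₀ * B ^ 2 * ((X * V₀) ^ (-(1 / 3) : ℝ) * nm y.1) *
            Wb A (sg α (y.1 * e0)) (y.2 * e0) := by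
          refine mul_le_mul_of_nonneg_right ?_ hW
          exact mul_le_mul_of_nonneg_left h7 (by positivity)
      _ = _ := by ring
  have hpt2 : ∀ y ∈ T, W y.1 * ((nm y.2 : ℝ) ^ (-(1 / 3) : ℝ) * (‖om y‖ ^ 2 * ‖TE α y e0‖ ^ 2)) ≤
      C₀ * B ^ 2 * (X * V₀) ^ (-(1 / 3) : ℝ) *
        (W y.1 * ((nm y.1 : ℝ) * Wb A (sg α (y.1 * e0)) (y.2 * e0))) := fun y hy =>
    (mul_le_mul_of_nonneg_left (hpt y hy) (hW0 y.1)).trans (le_of_eq (by ring))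
  refine (Finset.sum_le_sum hpt2).trans ?_
  rw [← Finset.mul_sum, ← Finset.sum_fiberwise_of_maps_to hmap]
  have hd : ∀ d ∈ DS V₁ δ, ∑ y ∈ T.filter (fun y => y.1 = d),
      W y.1 * ((nm y.1 : ℝ) * Wb A (sg α (y.1 * e0)) (y.2 * e0)) ≤
        I * (W d * ((nm d : ℝ) * Md d)) := by
    intro d hd
    obtain ⟨⟨hd1, hd2, hd3⟩, hd4⟩ := mem_DS.1 hd
    have hdn := nmpos hd2.ne_zero
    have hge : IsPrim (d * e0) := hd2.mul he0
    have h1 := sum_Wb_gen (A := (A : ℝ)) hAJ hJ0 hY (sg_supp hY hα.sup hge)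
      (T.filter (fun y => y.1 = d)) (fun y => y.2 * e0) (Q := Md d) (fun t => by
        refine le_trans ?_ (hyp d hd t)
        unfold VF
        have hinj : Set.InjOn (fun y : Eis × Eis => y.2 * e0)
            (T.filter (fun y => y.1 = d) : Set (Eis × Eis)) := by
          intro x hx y hy hxy
          have hx' := (Finset.mem_filter.mp hx).2
          have hy' := (Finset.mem_filter.mp hy).2
          exact Prod.ext (hx'.trans hy'.symm) (mul_right_cancel₀ he0.ne_zero hxy)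
        rw [← Finset.sum_image (f := fun r => ‖TG (tws (sg α (d * e0)) t) r‖ ^ 2) hinj]
        refine Finset.sum_le_sum_of_subset_of_nonneg ?_ fun _ _ _ => by positivity
        intro r hr
        obtain ⟨y, hy, rfl⟩ := Finset.mem_image.mp hr
        obtain ⟨hy1, rfl⟩ := Finset.mem_filter.mp hy
        obtain ⟨a1, a2, a3, a4⟩ := hT' y hy1
        have hcf := E5b54.JC_cf (hJs.jc y a1)
        have hcf2 := CF_mul hcf hCF0 a4
        have hV1 : (0 : ℝ) ≤ V₁ := (by positivity : (0 : ℝ) ≤ (nm y.1 : ℝ) ^ 2).trans hd1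
        rw [Finset.mem_filter, mem_bl (by positivity)]
        refine ⟨⟨hcf2.1, ?_⟩, hcf2⟩
        rw [nm_mul, le_div_iff₀ (by positivity)]
        have h5 := (hom y a1 a3).2
        rw [nm_mul, nm_pow] at h5
        push_cast at h5 ⊢
        calc (nm y.2 : ℝ) * nm e0 * (nm y.1 : ℝ) ^ 2 =
              ((nm y.2 : ℝ) * (nm y.1 : ℝ) ^ 2) * nm e0 := by ring
          _ ≤ _ := mul_le_mul_of_nonneg_right h5 he0n.le)
    have e2 : ∑ y ∈ T.filter (fun y => y.1 = d),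
        W y.1 * ((nm y.1 : ℝ) * Wb A (sg α (y.1 * e0)) (y.2 * e0)) =
        W d * ((nm d : ℝ) * ∑ y ∈ T.filter (fun y => y.1 = d),
          Wb A (sg α (d * e0)) (y.2 * e0)) := by
      rw [Finset.mul_sum, Finset.mul_sum]
      refine Finset.sum_congr rfl fun y hy => ?_
      rw [(Finset.mem_filter.mp hy).2]
    rw [e2]
    calc W d * ((nm d : ℝ) * ∑ y ∈ T.filter (fun y => y.1 = d),
          Wb A (sg α (d * e0)) (y.2 * e0)) ≤
          W d * ((nm d : ℝ) * (Md d * I)) :=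
          mul_le_mul_of_nonneg_left (mul_le_mul_of_nonneg_left h1 hdn.le) (hW0 d)
      _ = _ := by ring
  have h9 := Finset.sum_le_sum hd
  rw [← Finset.mul_sum] at h9
  calc C₀ * B ^ 2 * (X * V₀) ^ (-(1 / 3) : ℝ) * _ ≤
        C₀ * B ^ 2 * (X * V₀) ^ (-(1 / 3) : ℝ) * (I * ∑ d ∈ DS V₁ δ, W d * ((nm d : ℝ) * Md d)) :=
        mul_le_mul_of_nonneg_left h9 (by positivity)
    _ = _ := by ring

/-- **the T-energy of a window, child condition `δ ∣ d`** -/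
theorem te_pairs (R : ℝ) (hR : 0 ≤ R) (A : ℕ) (hA : 2 ≤ A) {J : ℝ} (hJ0 : 0 ≤ J)
    (hAJ : J + 1 < A) : ∃ C : ℝ, 0 ≤ C ∧ ∀ (Y X V₀ V₁ B : ℝ), 0 ≤ Y → 0 < X → 0 < V₀ → 0 ≤ B →
      ∀ α : Eis → ℂ, Adm Y X R α → ∀ Js : Finset (Eis × Eis), OKJ Js → ∀ om : Eis × Eis → ℂ,
      (∀ y ∈ Js, om y ≠ 0 → V₀ ≤ (nm (y.2 * y.1 ^ 2) : ℝ) ∧ (nm (y.2 * y.1 ^ 2) : ℝ) ≤ V₁) →
      (∀ y ∈ Js, ‖om y‖ ≤ B) →
      ∀ (e0 δ : Eis), IsPrim e0 → ∀ Md : Eis → ℝ, (∀ d, 0 ≤ Md d) →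
      (∀ d ∈ DS V₁ δ, ∀ t : ℝ, VF (V₁ * nm e0 / (nm d : ℝ) ^ 2) (tws (sg α (d * e0)) t) ≤
        Md d * (1 + |t|) ^ J) →
      ∑ y ∈ Js.filter (fun y => δ ∣ y.1),
        (nm y.2 : ℝ) ^ (-(1 / 3) : ℝ) * (‖om y‖ ^ 2 * ‖TE α y e0‖ ^ 2) ≤
        C * B ^ 2 * (X * V₀) ^ (-(1 / 3) : ℝ) * ∑ d ∈ DS V₁ δ, (nm d : ℝ) * Md d := by
  obtain ⟨C, hC, H⟩ := te_pairsW R hR A hA hJ0 hAJ
  refine ⟨C, hC, ?_⟩
  intro Y X V₀ V₁ B hY hX hV₀ hB α hα Js hJs om hom homB e0 δ he0 Md hMd hyp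
  have h := H Y X V₀ V₁ B hY hX hV₀ hB α hα Js hJs om hom homB (fun _ => 1)
    (fun _ => zero_le_one) e0 δ he0 Md hMd hyp
  simpa only [one_mul] using h

/-- the sum of `1 / nm d` over the multiples of `δ` -/
lemma sum_DS_le {V₁ : ℝ} (hV : 1 ≤ V₁) {δ : Eis} (hδ : IsPrim δ) :
    ∑ d ∈ DS V₁ δ, 1 / (nm d : ℝ) ≤ 100 * (1 + Real.log V₁) / nm δ := by
  have hδn := nmpos hδ.ne_zero
  have hs1 : 1 ≤ Real.sqrt V₁ := by
    rw [show (1 : ℝ) = Real.sqrt 1 by simp]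
    exact Real.sqrt_le_sqrt hV
  have hsub : DS V₁ δ ⊆ (S (Real.sqrt V₁)).image (fun k => δ * k) := by
    intro d hd
    obtain ⟨⟨h1, h2, h3⟩, k, hk⟩ := mem_DS.1 hd
    refine Finset.mem_image.mpr ⟨k, ?_, hk.symm⟩
    have hk1 : IsPrim k := (hk ▸ h2).of_mul_left hδ
    rw [mem_S (Real.sqrt_nonneg _)]
    refine ⟨?_, hk1, (hk ▸ h3).of_mul_right⟩
    have hkn := nmpos hk1.ne_zero
    rw [Real.le_sqrt' hkn]
    refine le_trans ?_ h1
    have : (nm k : ℝ) ≤ nm d := by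
      exact_mod_cast Div277.nm_le_of_dvd h2.ne_zero (hk ▸ dvd_mul_left k δ)
    exact pow_le_pow_left₀ hkn.le this 2
  refine (Finset.sum_le_sum_of_subset_of_nonneg hsub fun _ _ _ => by positivity).trans ?_
  rw [Finset.sum_image fun a _ b _ h => mul_left_cancel₀ hδ.ne_zero h]
  have e1 : ∀ k ∈ S (Real.sqrt V₁), 1 / (nm (δ * k) : ℝ) = (1 / nm δ) * (1 / (nm k : ℝ)) := by
    intro k _
    rw [nm_mul]
    push_cast
    rw [one_div_mul_one_div]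
  rw [Finset.sum_congr rfl e1, ← Finset.mul_sum]
  have h2 := sum_inv_S551 hs1
  have h3 : Real.log (Real.sqrt V₁) ≤ Real.log V₁ := by
    refine Real.log_le_log (by linarith) ?_
    rw [Real.sqrt_le_left (by linarith)]
    nlinarith
  calc (1 / nm δ : ℝ) * ∑ k ∈ S (Real.sqrt V₁), 1 / (nm k : ℝ) ≤
        (1 / nm δ) * (100 * (1 + Real.log V₁)) := by
        refine mul_le_mul_of_nonneg_left (h2.trans ?_) (by positivity)
        linarith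
    _ = _ := by ring

/-- **the T-energy, one number, weight `nm d ^ a`** : `Md = M / nm d ^ (2 + a)` -/
theorem te_pairs_oneW (R : ℝ) (hR : 0 ≤ R) (A : ℕ) (hA : 2 ≤ A) {J : ℝ} (hJ0 : 0 ≤ J)
    (hAJ : J + 1 < A) : ∃ C : ℝ, 0 ≤ C ∧ ∀ (Y X V₀ V₁ B M a : ℝ), 0 ≤ Y → 0 < X → 0 < V₀ →
      1 ≤ V₁ → 0 ≤ B → 0 ≤ M →
      ∀ α : Eis → ℂ, Adm Y X R α → ∀ Js : Finset (Eis × Eis), OKJ Js → ∀ om : Eis × Eis → ℂ,
      (∀ y ∈ Js, om y ≠ 0 → V₀ ≤ (nm (y.2 * y.1 ^ 2) : ℝ) ∧ (nm (y.2 * y.1 ^ 2) : ℝ) ≤ V₁) →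
      (∀ y ∈ Js, ‖om y‖ ≤ B) →
      ∀ (e0 δ : Eis), IsPrim e0 → IsPrim δ →
      (∀ d ∈ DS V₁ δ, ∀ t : ℝ, VF (V₁ * nm e0 / (nm d : ℝ) ^ 2) (tws (sg α (d * e0)) t) ≤
        M / (nm d : ℝ) ^ (2 + a) * (1 + |t|) ^ J) →
      ∑ y ∈ Js.filter (fun y => δ ∣ y.1), (nm y.1 : ℝ) ^ a *
        ((nm y.2 : ℝ) ^ (-(1 / 3) : ℝ) * (‖om y‖ ^ 2 * ‖TE α y e0‖ ^ 2)) ≤
        C * B ^ 2 * (1 + Real.log V₁) * (X * V₀) ^ (-(1 / 3) : ℝ) * M / nm δ := by
  obtain ⟨C, hC, H⟩ := te_pairsW R hR A hA hJ0 hAJ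
  refine ⟨C * 100, by positivity, ?_⟩
  intro Y X V₀ V₁ B M a hY hX hV₀ hV₁ hB hM α hα Js hJs om hom homB e0 δ he0 hδ hyp
  refine (H Y X V₀ V₁ B hY hX hV₀ hB α hα Js hJs om hom homB (fun d => (nm d : ℝ) ^ a)
    (fun d => by positivity) e0 δ he0
    (fun d => M / (nm d : ℝ) ^ (2 + a)) (fun d => by positivity) hyp).trans ?_
  have e1 : ∑ d ∈ DS V₁ δ, (nm d : ℝ) ^ a * ((nm d : ℝ) * (M / (nm d : ℝ) ^ (2 + a))) =
      M * ∑ d ∈ DS V₁ δ, 1 / (nm d : ℝ) := by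
    rw [Finset.mul_sum]
    refine Finset.sum_congr rfl fun d hd => ?_
    have hd := nmpos (mem_DS.1 hd).1.2.1.ne_zero
    have e2 : (nm d : ℝ) ^ (2 + a) = (nm d : ℝ) ^ 2 * (nm d : ℝ) ^ a := by
      rw [Real.rpow_add hd]; norm_num
    have h3 : (nm d : ℝ) ^ a ≠ 0 := (Real.rpow_pos_of_pos hd a).ne'
    rw [e2]
    field_simp
  rw [e1]
  have h1 := sum_DS_le hV₁ hδ
  calc C * B ^ 2 * (X * V₀) ^ (-(1 / 3) : ℝ) * (M * ∑ d ∈ DS V₁ δ, 1 / (nm d : ℝ)) ≤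
        C * B ^ 2 * (X * V₀) ^ (-(1 / 3) : ℝ) * (M * (100 * (1 + Real.log V₁) / nm δ)) := by
        gcongr
    _ = _ := by ring

/-- **the T-energy, one number** : `Md = M / nm d²` -/
theorem te_pairs_one (R : ℝ) (hR : 0 ≤ R) (A : ℕ) (hA : 2 ≤ A) {J : ℝ} (hJ0 : 0 ≤ J)
    (hAJ : J + 1 < A) : ∃ C : ℝ, 0 ≤ C ∧ ∀ (Y X V₀ V₁ B M : ℝ), 0 ≤ Y → 0 < X → 0 < V₀ → 1 ≤ V₁ →
      0 ≤ B → 0 ≤ M →
      ∀ α : Eis → ℂ, Adm Y X R α → ∀ Js : Finset (Eis × Eis), OKJ Js → ∀ om : Eis × Eis → ℂ,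
      (∀ y ∈ Js, om y ≠ 0 → V₀ ≤ (nm (y.2 * y.1 ^ 2) : ℝ) ∧ (nm (y.2 * y.1 ^ 2) : ℝ) ≤ V₁) →
      (∀ y ∈ Js, ‖om y‖ ≤ B) →
      ∀ (e0 δ : Eis), IsPrim e0 → IsPrim δ →
      (∀ d ∈ DS V₁ δ, ∀ t : ℝ, VF (V₁ * nm e0 / (nm d : ℝ) ^ 2) (tws (sg α (d * e0)) t) ≤
        M / (nm d : ℝ) ^ 2 * (1 + |t|) ^ J) →
      ∑ y ∈ Js.filter (fun y => δ ∣ y.1),
        (nm y.2 : ℝ) ^ (-(1 / 3) : ℝ) * (‖om y‖ ^ 2 * ‖TE α y e0‖ ^ 2) ≤
        C * B ^ 2 * (1 + Real.log V₁) * (X * V₀) ^ (-(1 / 3) : ℝ) * M / nm δ := by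
  obtain ⟨C, hC, H⟩ := te_pairs R hR A hA hJ0 hAJ
  refine ⟨C * 100, by positivity, ?_⟩
  intro Y X V₀ V₁ B M hY hX hV₀ hV₁ hB hM α hα Js hJs om hom homB e0 δ he0 hδ hyp
  refine (H Y X V₀ V₁ B hY hX hV₀ hB α hα Js hJs om hom homB e0 δ he0
    (fun d => M / (nm d : ℝ) ^ 2) (fun d => by positivity) hyp).trans ?_
  have e1 : ∑ d ∈ DS V₁ δ, (nm d : ℝ) * (M / (nm d : ℝ) ^ 2) =
      M * ∑ d ∈ DS V₁ δ, 1 / (nm d : ℝ) := by
    rw [Finset.mul_sum]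
    refine Finset.sum_congr rfl fun d hd => ?_
    have := nmpos (mem_DS.1 hd).1.2.1.ne_zero
    field_simp
  rw [e1]
  have h1 := sum_DS_le hV₁ hδ
  calc C * B ^ 2 * (X * V₀) ^ (-(1 / 3) : ℝ) * (M * ∑ d ∈ DS V₁ δ, 1 / (nm d : ℝ)) ≤
        C * B ^ 2 * (X * V₀) ^ (-(1 / 3) : ℝ) * (M * (100 * (1 + Real.log V₁) / nm δ)) := by
        gcongr
    _ = _ := by ring

/-! ### balls -/

/-- the sequence restricted to the `n` prime to `q` -/
def PM (q : Eis) (w : Eis → ℂ) : Eis → ℂ := fun n => w n * prin0 q n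

lemma TG_eq_KS (w : Eis → ℂ) (x : Eis) : TG w x = HP842.KS HP842.Kg w x := rfl

lemma prin0_mul_cube (c : Eis) (n : Eis) : prin0 (c ^ 3) n = prin0 c n := by
  unfold End699.prin0
  by_cases h : IsCoprime n c
  · rw [if_pos h, if_pos h.pow_right]
  · rw [if_neg h, if_neg fun h' => h ((IsCoprime.pow_right_iff (by norm_num)).1 h')]

lemma prin0_mul (a b n : Eis) : prin0 a n * prin0 b n = prin0 (a * b) n := by
  unfold End699.prin0
  by_cases h1 : IsCoprime n a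
  · by_cases h2 : IsCoprime n b
    · rw [if_pos h1, if_pos h2, if_pos (h1.mul_right h2), one_mul]
    · rw [if_neg h2, if_neg (show ¬ IsCoprime n (a * b) from fun h => h2 h.of_mul_right_right),
        mul_zero]
  · rw [if_neg h1, if_neg (show ¬ IsCoprime n (a * b) from fun h => h1 h.of_mul_right_left),
      zero_mul]

/-- a cube in the frequency -/
lemma TG_cube {w : Eis → ℂ} (hw : FS w) (x c : Eis) : TG w (x * c ^ 3) = TG (PM c w) x := by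
  unfold CM106.TG PM
  refine tsum_congr fun n => ?_
  by_cases h0 : w n = 0
  · simp [h0]
  · have hn := hw.prim n h0
    rw [Lbc298.sy_mul_cube' hn, map_mul]
    have : conj (prin0 c n) = prin0 c n := by
      unfold End699.prin0; split_ifs <;> simp
    rw [this]
    ring

lemma FS_PM {w : Eis → ℂ} (hw : FS w) (q : Eis) : FS (PM q w) where
  fin := hw.fin.subset fun n hn => left_ne_zero_of_mul hn
  prim := fun n hn => hw.prim n (left_ne_zero_of_mul hn)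

lemma PM_PM (a b : Eis) (w : Eis → ℂ) : PM b (PM a w) = PM (a * b) w := by
  funext n
  unfold PM
  rw [mul_assoc, prin0_mul]

/-- the complete family from the cube-free families -/
lemma full_le_VF {w : Eis → ℂ} (hw : FS w) {Z : ℝ} (hZ : 0 ≤ Z) :
    ∑ x ∈ bl Z, ‖TG w x‖ ^ 2 ≤
      ∑ s ∈ bl (Z ^ ((1 : ℝ) / 3)), VF (Z / (nm s : ℝ) ^ 3) (PM s w) := by
  have h1 := Lbc298.cube_le_f hZ (fun _ => True) (fun _ _ _ => trivial)
    (F := fun x => ‖TG w x‖ ^ 2) (G := fun m x => ‖TG (PM m w) x‖ ^ 2)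
    (fun m k => by positivity) (fun x hx _ => by
      refine le_of_eq ?_
      show ‖TG w x‖ ^ 2 = ‖TG (PM (Lbc298.dc x).m w) (Lbc298.red x)‖ ^ 2
      rw [← TG_cube hw, ← Lbc298.red_mul hx])
  have e0 : (bl Z).filter (fun _ => True) = bl Z := by simp
  rw [e0] at h1
  refine h1.trans (le_of_eq ?_)
  refine Finset.sum_congr rfl fun s _ => ?_
  unfold VF
  refine Finset.sum_congr ?_ fun _ _ => rfl
  ext k
  rw [Finset.mem_filter, Finset.mem_filter]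
  exact ⟨fun h => ⟨h.1, h.2.1⟩, fun h => ⟨h.1, h.2, trivial⟩⟩

lemma FS_of_S {Y : ℝ} (hY : 0 ≤ Y) {w : Eis → ℂ} (hw : ∀ n, w n ≠ 0 → n ∈ S Y) : FS w where
  fin := (S Y).finite_toSet.subset fun n hn => hw n hn
  prim := fun n hn => ((mem_S hY).1 (hw n hn)).2.1

/-- `TE0` is `TE` of the subsequence at the pair `(1, j)` -/
lemma TE0_eq (α : Eis → ℂ) (e j e₀ : Eis) :
    E3D579.TE0 (fun m => α (e * m)) 1 j e₀ = TE (sg α e) (1, j) e₀ := by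
  unfold E3D579.TE0 E2440.TE sg
  refine tsum_congr fun m => ?_
  simp only [one_mul]

lemma Adm_sg {Y X R : ℝ} (hY : 0 ≤ Y) (hX : 0 < X) {α : Eis → ℂ} (h : Adm Y X R α) {g : Eis}
    (hg : IsPrim g) : Adm Y (X / nm g) R (sg α g) where
  sup := sg_supp hY h.sup hg
  win := fun n hn => by
    have h1 := h.win _ hn
    have hn' : IsPrim n := ((mem_S hY).1 (sg_supp hY h.sup hg n hn)).2.1
    have a1 := nmpos hn'.ne_zero
    have a2 := nmpos hg.ne_zero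
    rw [nm_mul] at h1
    push_cast at h1
    rw [Real.log_mul a2.ne' a1.ne'] at h1
    rw [Real.log_div hX.ne' a2.ne']
    have e : Real.log (nm n) - (Real.log X - Real.log (nm g)) =
        Real.log (nm g) + Real.log (nm n) - Real.log X := by ring
    rw [e]
    exact h1

/-- **the T-moment of a sharp ball of frequencies** -/
theorem te_ball (R : ℝ) (hR : 0 ≤ R) (A : ℕ) (hA : 2 ≤ A) {J : ℝ} (hJ0 : 0 ≤ J)
    (hAJ : J + 1 < A) : ∃ C : ℝ, 0 ≤ C ∧ ∀ (Y X L M : ℝ), 0 ≤ Y → 0 < X → 0 ≤ L → 0 ≤ M →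
      ∀ α : Eis → ℂ, Adm Y X R α → ∀ (e e₀ c c₀ : Eis), IsPrim e → IsPrim e₀ → c ≠ 0 → c₀ ≠ 0 →
      (∀ s : Eis, s ≠ 0 → (nm s : ℝ) ^ 3 ≤ L * nm c₀ * nm e₀ → ∀ t : ℝ,
        VF (L * nm c₀ * nm e₀ / (nm s : ℝ) ^ 3) (PM (c * s) (tws (sg α (e * e₀)) t)) ≤
          M / nm s * (1 + |t|) ^ J) →
      ∑ j ∈ primBall ⌊L⌋₊, ‖E3D579.TE0 (fun m => α (e * m)) 1 (c₀ * (j * c ^ 3)) e₀‖ ^ 2 ≤
        C * (1 + Real.log (1 + L * nm c₀ * nm e₀)) * (X / nm e) ^ (-(1 / 3) : ℝ) * M := by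
  obtain ⟨C₀, hC₀, hTE⟩ := LBx48.norm_TE_sq_le R hR A hA
  set I := ∫ t, jb ((A : ℝ) - J) t with hI
  have hI0 : 0 ≤ I := integral_nonneg fun t => (jb_pos _ t).le
  refine ⟨C₀ * I * 100, by positivity, ?_⟩
  intro Y X L M hY hX hL hM α hα e e₀ c c₀ he he₀ hc hc₀ hyp
  set Z : ℝ := L * nm c₀ * nm e₀ with hZ
  have hen := nmpos he.ne_zero
  have he₀n := nmpos he₀.ne_zero
  have hc₀n := nmpos hc₀
  have hZ0 : 0 ≤ Z := by positivity
  have hX' : 0 < X / nm e := by positivity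
  have hα' := Adm_sg hY hX hα he
  have hge : IsPrim (e * e₀) := he.mul he₀
  set β := sg α (e * e₀) with hβ
  have hβS : ∀ n, β n ≠ 0 → n ∈ S Y := sg_supp hY hα.sup hge
  have hpt : ∀ j ∈ primBall ⌊L⌋₊,
      ‖E3D579.TE0 (fun m => α (e * m)) 1 (c₀ * (j * c ^ 3)) e₀‖ ^ 2 ≤
      C₀ * (X / nm e) ^ (-(1 / 3) : ℝ) * Wb A β (c₀ * (j * c ^ 3) * e₀) := by
    intro j _
    rw [TE0_eq]
    have h1 := hTE Y (X / nm e) hY hX' (sg α e) hα' 1 (c₀ * (j * c ^ 3)) e₀ isPrim_one he₀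
    rw [Wf_eq_Wb'] at h1
    have e1 : sg (sg α e) (1 * e₀) = β := by
      rw [hβ]; unfold sg; funext m; rw [one_mul, mul_assoc]
    rw [e1] at h1
    have e2 : X / nm e / (nm (1 : Eis) : ℝ) = X / nm e := by simp
    rw [e2] at h1
    exact h1
  refine (Finset.sum_le_sum hpt).trans ?_
  rw [← Finset.mul_sum]
  -- the averaged moment
  have h2 := sum_Wb_gen (A := (A : ℝ)) hAJ hJ0 hY hβS (primBall ⌊L⌋₊)
    (fun j => c₀ * (j * c ^ 3) * e₀) (Q := M * (100 * (1 + Real.log (1 + Z)))) (fun t => by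
      have hfs : FS (tws β t) := FS_of_S hY fun n hn => hβS n (left_ne_zero_of_mul hn)
      have e1 : ∀ j : Eis, TG (tws β t) (c₀ * (j * c ^ 3) * e₀) =
          TG (PM c (tws β t)) (c₀ * j * e₀) := by
        intro j
        rw [← TG_cube hfs]
        congr 1
        ring
      simp only [e1]
      have hfs2 := FS_PM hfs c
      -- injection into the ball
      have h3 : ∑ j ∈ primBall ⌊L⌋₊, ‖TG (PM c (tws β t)) (c₀ * j * e₀)‖ ^ 2 ≤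
          ∑ x ∈ bl Z, ‖TG (PM c (tws β t)) x‖ ^ 2 := by
        have hinj : Set.InjOn (fun j : Eis => c₀ * j * e₀) (primBall ⌊L⌋₊ : Set Eis) := by
          intro a _ b _ hab
          exact mul_left_cancel₀ hc₀ (mul_right_cancel₀ he₀.ne_zero hab)
        rw [← Finset.sum_image (f := fun x => ‖TG (PM c (tws β t)) x‖ ^ 2) hinj]
        refine Finset.sum_le_sum_of_subset_of_nonneg ?_ fun _ _ _ => by positivity
        intro x hx
        obtain ⟨j, hj, rfl⟩ := Finset.mem_image.mp hx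
        rw [mem_primBall] at hj
        rw [mem_bl hZ0]
        refine ⟨mul_ne_zero (mul_ne_zero hc₀ hj.2.ne_zero) he₀.ne_zero, ?_⟩
        have h4 : (nm j : ℝ) ≤ L := (Nat.cast_le.2 hj.1).trans (Nat.floor_le hL)
        rw [nm_mul, nm_mul]
        push_cast
        calc (nm c₀ : ℝ) * nm j * nm e₀ = nm j * nm c₀ * nm e₀ := by ring
          _ ≤ L * nm c₀ * nm e₀ := by gcongr
      refine h3.trans ((full_le_VF hfs2 hZ0).trans ?_)
      have ht : (0 : ℝ) ≤ (1 + |t|) ^ J := by positivity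
      have h5 : ∀ s ∈ bl (Z ^ ((1 : ℝ) / 3)),
          VF (Z / (nm s : ℝ) ^ 3) (PM s (PM c (tws β t))) ≤
            (M * (1 + |t|) ^ J) * (1 / (nm s : ℝ)) := by
        intro s hs
        rw [mem_bl (by positivity)] at hs
        have hsn := nmpos hs.1
        rw [PM_PM]
        refine (hyp s hs.1 ?_ t).trans (le_of_eq (by ring))
        have h6 := pow_le_pow_left₀ hsn.le hs.2 3
        have h7 : (Z ^ ((1 : ℝ) / 3)) ^ 3 = Z := by
          rw [← Real.rpow_natCast, ← Real.rpow_mul hZ0]; norm_num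
        rw [h7] at h6
        exact h6
      refine (Finset.sum_le_sum h5).trans ?_
      rw [← Finset.mul_sum]
      have h8 := Prov71.sum_inv_bl (Z ^ ((1 : ℝ) / 3))
      have h9 : Real.log (⌊Z ^ ((1 : ℝ) / 3)⌋₊ : ℝ) ≤ Real.log (1 + Z) := by
        by_cases h10 : (⌊Z ^ ((1 : ℝ) / 3)⌋₊ : ℝ) = 0
        · rw [h10, Real.log_zero]
          exact Real.log_nonneg (by linarith)
        · have h11 : (0 : ℝ) < (⌊Z ^ ((1 : ℝ) / 3)⌋₊ : ℝ) :=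
            lt_of_le_of_ne (Nat.cast_nonneg _) (Ne.symm h10)
          refine Real.log_le_log h11 ((Nat.floor_le (by positivity)).trans ?_)
          rcases le_total Z 1 with h12 | h12
          · have := Real.rpow_le_one hZ0 h12 (by norm_num : (0 : ℝ) ≤ 1 / 3)
            linarith
          · have := Real.rpow_le_rpow_of_exponent_le h12 (by norm_num : (1 : ℝ) / 3 ≤ 1)
            rw [Real.rpow_one] at this
            linarith
      calc M * (1 + |t|) ^ J * ∑ s ∈ bl (Z ^ ((1 : ℝ) / 3)), 1 / (nm s : ℝ) ≤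
            M * (1 + |t|) ^ J * (100 * (1 + Real.log (1 + Z))) := by
            refine mul_le_mul_of_nonneg_left (h8.trans ?_) (by positivity)
            linarith
        _ = _ := by ring)
  calc C₀ * (X / nm e) ^ (-(1 / 3) : ℝ) *
        ∑ j ∈ primBall ⌊L⌋₊, Wb A β (c₀ * (j * c ^ 3) * e₀) ≤
        C₀ * (X / nm e) ^ (-(1 / 3) : ℝ) * (M * (100 * (1 + Real.log (1 + Z))) * I) :=
        mul_le_mul_of_nonneg_left h2 (by positivity)
    _ = _ := by ring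

end Crest.Agent.R017.TEL792
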