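import Crest.Agent.R017.TEMb_792

/-!
# Row 17, E4 (StrU) : the T-energy at lists (helper792)

* `Adm_alb` : the window of `alb`
* **`tsd_num`** : `∑_{y ∈ J, δ ∣ y.1} nm y.2^(-1/3) ‖om y‖² ‖TE α y e0‖²`, `α = alb` of three lumps,
  as one number from a real hypothesis
* **`tt_num`** : `∑_{j ≤ L'} ‖TE0 (α (e ·)) 1 (c₀ (j c³)) e₀‖²` as one number
-/

set_option autoImplicit false
set_option linter.unusedVariables false
set_option linter.unusedSectionVars false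

noncomputable section

open Set

namespace Crest.Agent.R017.TEM792

open Crest.Agent.R012 Crest.Agent.R012.Eis
open Crest.Agent.R012.LS2 (S mem_S)
open Crest.Agent.R017.FE47 (PU cx)
open Crest.Agent.R017.XG702 (Pcs)
open Crest.Agent.R017.Prov71
open Crest.Agent.R017.B770
open Crest.Agent.R017.HP842 (pc Pc)
open Crest.Agent.R017.TM708
open Crest.Agent.R017.UBT973 (UBs)
open Crest.Agent.R017.E1551 (tws sg Adm)
open Crest.Agent.R017.Rough381 (VF)
open Crest.Agent.R017.TEL792 (PM DS mem_DS te_pairs_oneW te_ball)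
open Crest.Agent.R017.E5k54 (alb)
open Crest.Agent.R017.E2440 (TE)
open Crest.Agent.R017.C70 (OKJ)
open Crest.Agent.R017.End699 (prin0)

lemma alb_ne' {f : Fin 3 → Eis → ℂ} {β : Fin 3 → Eis} {n : Eis} (h : alb f β n ≠ 0) :
    Squarefree n ∧ ∃ a : Fin 3 → Eis, ∏ i, a i = n ∧ ∀ i, f i (β i * a i) ≠ 0 := by
  classical
  unfold E5k54.alb E554.sqc at h
  split_ifs at h with h1
  · obtain ⟨a, ha, hne⟩ := Finset.exists_ne_zero_of_sum_ne_zero h
    refine ⟨h1.1, a, (Finset.mem_filter.1 ha).2, fun i => ?_⟩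
    exact Finset.prod_ne_zero_iff.1 hne i (Finset.mem_univ i)
  · exact absurd rfl h

lemma pc_win {h : ℝ → ℝ} {R : ℝ} (hR : ∀ u, cx h u ≠ 0 → |u| ≤ R) {P : Pc} {b : Eis}
    (hb : pc h P b ≠ 0) : IsPrim b ∧ |Real.log (nm b) - Real.log P.Y| ≤ R := by
  classical
  unfold HP842.pc at hb
  split_ifs at hb with hp
  · refine ⟨hp, ?_⟩
    have h1 := right_ne_zero_of_mul hb
    unfold HSep813.gw at h1
    exact hR _ (right_ne_zero_of_mul h1)
  · exact absurd rfl hb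

/-- the centre of the window -/
def Xn (us : Fin 3 → Pq) (β : Fin 3 → Eis) : ℝ := Real.exp (∑ i, (us i).z) / nm (∏ i, β i)

lemma Xn_pos (us : Fin 3 → Pq) {β : Fin 3 → Eis} (hβ : ∀ i, IsPrim (β i)) : 0 < Xn us β := by
  have hβ0 : (∏ i, β i) ≠ 0 := Finset.prod_ne_zero_iff.2 fun i _ => (hβ i).ne_zero
  have : (0 : ℝ) < nm (∏ i, β i) := by exact_mod_cast nm_pos.2 hβ0
  unfold Xn
  positivity

lemma nm_pos_r {a : Eis} (ha : a ≠ 0) : (0 : ℝ) < nm a := by exact_mod_cast nm_pos.2 ha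

/-- **the window of `alb`** -/
theorem Adm_alb {h : ℝ → ℝ} {R : ℝ} (hR0 : 0 ≤ R) (hR : ∀ u, cx h u ≠ 0 → |u| ≤ R) (P : DPar)
    (us : Fin 3 → Pq) {β : Fin 3 → Eis} (hβ : ∀ i, IsPrim (β i)) :
    Adm (Xn us β * Real.exp (3 * R)) (Xn us β) (6 * R)
      (alb (fun i => pc h ((us i).pc P)) β) := by
  have hX := Xn_pos us hβ
  have key : ∀ n, alb (fun i => pc h ((us i).pc P)) β n ≠ 0 → IsPrim n ∧ Squarefree n ∧
      |Real.log (nm n) - Real.log (Xn us β)| ≤ 3 * R := by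
    intro n hn
    obtain ⟨hsq, a, rfl, ha⟩ := alb_ne' hn
    have h1 : ∀ i, IsPrim (a i) ∧ |Real.log (nm (β i)) + Real.log (nm (a i)) - (us i).z| ≤ R := by
      intro i
      obtain ⟨hp, hw⟩ := pc_win hR (ha i)
      have hai : IsPrim (a i) := hp.of_mul_left (hβ i)
      refine ⟨hai, ?_⟩
      rw [nm_mul, Pq.pc_Y, Real.log_exp] at hw
      push_cast at hw
      rwa [Real.log_mul (nm_pos_r (hβ i).ne_zero).ne' (nm_pos_r hai.ne_zero).ne'] at hw
    have hpr : IsPrim (∏ i, a i) := E554.isPrim_prod fun i _ => (h1 i).1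
    refine ⟨hpr, hsq, ?_⟩
    have e1 : Real.log (nm (∏ i, a i)) = ∑ i, Real.log (nm (a i)) := by
      rw [E554.nm_prod]
      push_cast
      rw [Real.log_prod]
      intro i _
      exact (nm_pos_r (h1 i).1.ne_zero).ne'
    have e2 : Real.log (Xn us β) = ∑ i, (us i).z - ∑ i, Real.log (nm (β i)) := by
      unfold Xn
      have hβ0 : (∏ i, β i) ≠ 0 := Finset.prod_ne_zero_iff.2 fun i _ => (hβ i).ne_zero
      rw [Real.log_div (Real.exp_pos _).ne' (nm_pos_r hβ0).ne', Real.log_exp, E554.nm_prod]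
      push_cast
      rw [Real.log_prod]
      intro i _
      exact (nm_pos_r (hβ i).ne_zero).ne'
    rw [e1, e2]
    simp only [Fin.sum_univ_three]
    have a0 := abs_le.1 (h1 0).2
    have a1 := abs_le.1 (h1 1).2
    have a2 := abs_le.1 (h1 2).2
    rw [abs_le]
    constructor <;> linarith [a0.1, a0.2, a1.1, a1.2, a2.1, a2.2]
  refine ⟨fun n hn => ?_, fun n hn => ?_⟩
  · obtain ⟨h1, h2, h3⟩ := key n hn
    rw [mem_S (by positivity)]
    refine ⟨?_, h1, h2⟩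
    have h4 := (abs_le.1 h3).2
    have h5 : Real.log (nm n) ≤ Real.log (Xn us β) + 3 * R := by linarith
    have h6 := Real.exp_le_exp.2 h5
    rwa [Real.exp_log (nm_pos_r h1.ne_zero), Real.exp_add, Real.exp_log hX] at h6
  · obtain ⟨h1, h2, h3⟩ := key n hn
    linarith

lemma PM_one (w : Eis → ℂ) : PM 1 w = w := by
  funext n
  unfold TEL792.PM End699.prin0
  rw [if_pos isCoprime_one_right, mul_one]

/-- constants and logarithms -/
lemma big (C ε K : ℝ) (hε : 0 < ε) (hC : 0 ≤ C) (hK : 0 ≤ K) : ∃ X₀ : ℝ, 1 < X₀ ∧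
    ∀ X : ℝ, X₀ ≤ X → C * (1 + K * Real.log X) ≤ X ^ ε := by
  obtain ⟨C₄, hC₄, hlg⟩ := PInv255.one_add_log_pow_le 1 (ε / 2) (by positivity)
  set D := C * (1 + K) * (|C₄| + 1) + 1 with hD
  have hD0 : 0 < D := by positivity
  refine ⟨max 2 (D ^ (2 / ε)), lt_of_lt_of_le (by norm_num) (le_max_left _ _), fun X hX => ?_⟩
  have hX2 : 2 ≤ X := (le_max_left _ _).trans hX
  have hX0 : 0 < X := by linarith
  have h1 := hlg X (by linarith)
  rw [pow_one] at h1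
  have h2 : D ≤ X ^ (ε / 2) := by
    have h3 : (D ^ (2 / ε)) ^ (ε / 2) ≤ X ^ (ε / 2) :=
      Real.rpow_le_rpow (by positivity) ((le_max_right _ _).trans hX) (by positivity)
    rw [← Real.rpow_mul hD0.le] at h3
    have e : 2 / ε * (ε / 2) = 1 := by field_simp
    rwa [e, Real.rpow_one] at h3
  have hl : 0 ≤ Real.log X := Real.log_nonneg (by linarith)
  have hp : 0 ≤ X ^ (ε / 2) := by positivity
  have h4 : 1 + K * Real.log X ≤ (1 + K) * (1 + Real.log X) := by nlinarith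
  have h5 : 1 + Real.log X ≤ (|C₄| + 1) * X ^ (ε / 2) := by
    refine h1.trans (mul_le_mul_of_nonneg_right ?_ hp)
    linarith [le_abs_self C₄]
  calc C * (1 + K * Real.log X) ≤ C * ((1 + K) * ((|C₄| + 1) * X ^ (ε / 2))) := by
        refine mul_le_mul_of_nonneg_left (h4.trans ?_) hC
        exact mul_le_mul_of_nonneg_left h5 (by linarith)
    _ = (C * (1 + K) * (|C₄| + 1)) * X ^ (ε / 2) := by ring
    _ ≤ D * X ^ (ε / 2) := mul_le_mul_of_nonneg_right (by linarith) hp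
    _ ≤ X ^ (ε / 2) * X ^ (ε / 2) := mul_le_mul_of_nonneg_right h2 hp
    _ = X ^ ε := by rw [← Real.rpow_add hX0]; congr 1; ring

lemma LD.mono {X K K' H : ℝ} {us : Fin 3 → Pq} {β : Fin 3 → Eis} (h : LD X K H us β)
    (hX : 1 ≤ X) (hK : K ≤ K') : LD X K' H us β where
  lump := h.lump
  z0 := h.z0
  zK := fun i => (h.zK i).trans (mul_le_mul_of_nonneg_right hK (Real.log_nonneg hX))
  dK := fun i => (h.dK i).trans (Real.rpow_le_rpow_of_exponent_le hX hK)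
  tH := h.tH
  bp := h.bp
  bK := fun i => (h.bK i).trans (Real.rpow_le_rpow_of_exponent_le hX hK)

variable {Λ : Type*} {π : Λ → DPar} {h : ℝ → ℝ}

open Classical in
/-- **the T-energy with child condition and weight `nm d ^ a`, one number** -/
theorem tsd_numW {c₀ : ℝ} (hpu : PU h c₀) (hVF : VFA h) (hP : ∀ lam, (π lam).OK)
    {E : (Fin 4 → ℝ) × (Kd → ℝ) → ℝ} (hE : Continuous E)
    (U : ∀ K : ℝ, UBs S3 Dq (TMF π h fun _ => 0) (fbT K) ∅ E) {ε : ℝ}
    (hε : 0 < ε) (K : ℝ) (hK : 1 ≤ K) (lam : Λ) : ∃ (M : ℕ) (X₀ : ℝ), 1 < X₀ ∧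
    ∀ X : ℝ, X₀ ≤ X → ∀ H : ℝ, 1 ≤ H → ∀ (us : Fin 3 → Pq) (β : Fin 3 → Eis),
      LD X K H us β → ∀ V₀ V₁ B : ℝ, 0 < V₀ → 1 ≤ V₁ → V₁ ≤ X ^ K → 0 ≤ B →
      ∀ Js : Finset (Eis × Eis), OKJ Js → ∀ om : Eis × Eis → ℂ,
      (∀ y ∈ Js, om y ≠ 0 → V₀ ≤ (nm (y.2 * y.1 ^ 2) : ℝ) ∧ (nm (y.2 * y.1 ^ 2) : ℝ) ≤ V₁) →
      (∀ y ∈ Js, ‖om y‖ ≤ B) → ∀ e0 δ : Eis, IsPrim e0 → IsPrim δ → (nm e0 : ℝ) ≤ X ^ K →
      ∀ a eT : ℝ, (∀ x : ℝ, Real.log (nm δ) / Real.log X ≤ x → 2 * x ≤ Real.log V₁ / Real.log X →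
        RH E (fun i => (us i).z / Real.log X)
          (Real.log V₁ / Real.log X + Real.log (nm e0) / Real.log X - 2 * x)
          (nL X us β - Real.log (nm e0) / Real.log X - x) (eT - (2 + a) * x)) →
      ∑ y ∈ Js.filter (fun y => δ ∣ y.1), (nm y.1 : ℝ) ^ a * ((nm y.2 : ℝ) ^ (-(1 / 3) : ℝ) *
        (‖om y‖ ^ 2 * ‖TE (alb (fun i => pc h ((us i).pc (π lam))) β) y e0‖ ^ 2)) ≤
        B ^ 2 * (H ^ M * X ^ (eT + ε)) * (Xn us β * V₀) ^ (-(1 / 3) : ℝ) / nm δ := by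
  obtain ⟨R₀, hR₀⟩ := bump_of_cs hpu.cs
  set R := max R₀ 0 with hRd
  have hR0 : 0 ≤ R := le_max_right _ _
  have hR : ∀ u, cx h u ≠ 0 → |u| ≤ R := fun u hu => (hR₀ u hu).trans (le_max_left _ _)
  obtain ⟨M, X₁, hX₁, H1⟩ := vf_num hVF hP hE U (show 0 < ε / 2 by positivity) (2 * K)
    (by linarith) lam
  obtain ⟨C, hC, H2⟩ := te_pairs_oneW (6 * R) (by positivity) (3 * M + 2) (by omega)
    (J := 3 * (M : ℝ)) (by positivity) (by push_cast; linarith)
  obtain ⟨X₂, hX₂, H3⟩ := big C (ε / 2) K (by positivity) hC (by linarith)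
  refine ⟨M, max X₁ X₂, lt_of_lt_of_le hX₁ (le_max_left _ _), ?_⟩
  intro X hX H hH us β hD V₀ V₁ B hV₀ hV₁ hV₁K hB Js hJs om hom homB e0 δ he0 hδ he0K a eT hRH
  have hXX : X₁ ≤ X := (le_max_left _ _).trans hX
  have hX1 : 1 < X := lt_of_lt_of_le hX₁ hXX
  have hX0 : 0 < X := by linarith
  set L := Real.log X with hL
  have hL0 : 0 < L := Real.log_pos hX1
  have he0n := nm_pos_r he0.ne_zero
  have he01 : (1 : ℝ) ≤ nm e0 := by exact_mod_cast nm_pos.2 he0.ne_zero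
  have hXn := Xn_pos us hD.bp
  have hlogV : Real.log V₁ ≤ K * L := by
    rw [hL, ← Real.log_rpow hX0]
    exact Real.log_le_log (by linarith) hV₁K
  have hloge : Real.log (nm e0) ≤ K * L := by
    rw [hL, ← Real.log_rpow hX0]
    exact Real.log_le_log he0n he0K
  have hKK : X ^ K * X ^ K = X ^ (2 * K) := by
    rw [← Real.rpow_add hX0]; congr 1; ring
  have hXK1 : 1 ≤ X ^ K := Real.one_le_rpow hX1.le (by linarith)
  have hyp : ∀ d ∈ DS V₁ δ, ∀ t : ℝ, VF (V₁ * nm e0 / (nm d : ℝ) ^ 2)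
      (tws (sg (alb (fun i => pc h ((us i).pc (π lam))) β) (d * e0)) t) ≤
      (H ^ M * X ^ (eT + ε / 2)) / (nm d : ℝ) ^ (2 + a) * (1 + |t|) ^ (3 * (M : ℝ)) := by
    intro d hd t
    obtain ⟨⟨hd1, hd2, hd3⟩, hd4⟩ := mem_DS.1 hd
    have hdn := nm_pos_r hd2.ne_zero
    have hdn1 : (1 : ℝ) ≤ nm d := by exact_mod_cast nm_pos.2 hd2.ne_zero
    set x := Real.log (nm d) / L with hx
    have hge : IsPrim (d * e0) := hd2.mul he0
    have hdK : (nm d : ℝ) ≤ X ^ K := by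
      have : (nm d : ℝ) ≤ (nm d : ℝ) ^ 2 := by nlinarith
      linarith
    have hgK : (nm (d * e0) : ℝ) ≤ X ^ (2 * K) := by
      rw [nm_mul, ← hKK]
      push_cast
      gcongr
    set k := Real.log (V₁ * nm e0 / (nm d : ℝ) ^ 2) with hk
    have hk1 : 1 ≤ V₁ * nm e0 / (nm d : ℝ) ^ 2 := by
      rw [le_div_iff₀ (by positivity), one_mul]
      exact hd1.trans (le_mul_of_one_le_right (by linarith) he01)
    have hk0 : 0 ≤ k := Real.log_nonneg hk1
    have hke : k = Real.log V₁ + Real.log (nm e0) - 2 * Real.log (nm d) := by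
      rw [hk, Real.log_div (by positivity) (by positivity), Real.log_mul (by positivity) he0n.ne',
        Real.log_pow]
      push_cast
      ring
    have hld : 0 ≤ Real.log (nm d) := Real.log_nonneg hdn1
    have hkK : k ≤ 2 * K * L := by rw [hke]; linarith
    have hδd : Real.log (nm δ) / L ≤ x := by
      rw [hx]
      refine div_le_div_of_nonneg_right (Real.log_le_log (nm_pos_r hδ.ne_zero) ?_) hL0.le
      exact_mod_cast Div277.nm_le_of_dvd hd2.ne_zero hd4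
    have hxV : 2 * x ≤ Real.log V₁ / L := by
      rw [hx, ← mul_div_assoc]
      refine div_le_div_of_nonneg_right ?_ hL0.le
      have := Real.log_le_log (by positivity) hd1
      rw [Real.log_pow] at this
      exact_mod_cast this
    have hR1 := hRH x hδd hxV
    have e1 : Real.log V₁ / L + Real.log (nm e0) / L - 2 * x = k / L := by
      rw [hke, hx]; ring
    have e2 : nL X us β - Real.log (nm e0) / L - x =
        nL X us β - Real.log (nm (d * e0)) / L := by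
      rw [nm_mul]
      push_cast
      rw [Real.log_mul hdn.ne' he0n.ne', hx]
      ring
    rw [e1, e2] at hR1
    have h4 := H1 X hXX H hH us β (hD.mono hX1.le (by linarith)) (d * e0) hge hgK 1 one_ne_zero
      (by simpa using Real.one_le_rpow hX1.le (by linarith : (0 : ℝ) ≤ 2 * K)) k hk0 hkK
      (eT - (2 + a) * x) hR1 t
    rw [PM_one, hk, Real.exp_log (by linarith)] at h4
    refine h4.trans (le_of_eq ?_)
    have e3 : X ^ (eT - (2 + a) * x + ε / 2) =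
        X ^ (eT + ε / 2) / (nm d : ℝ) ^ (2 + a) := by
      have e4 : eT - (2 + a) * x + ε / 2 = (eT + ε / 2) - (2 + a) * x := by ring
      rw [e4, Real.rpow_sub hX0]
      congr 1
      rw [Real.rpow_def_of_pos hX0, Real.rpow_def_of_pos hdn, hx]
      congr 1
      rw [← hL]
      field_simp
    rw [e3]
    ring
  have h5 := H2 (Xn us β * Real.exp (3 * R)) (Xn us β) V₀ V₁ B (H ^ M * X ^ (eT + ε / 2)) a
    (by positivity) hXn hV₀ hV₁ hB (by positivity) _ (Adm_alb hR0 hR (π lam) us hD.bp) Js hJs om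
    hom homB e0 δ he0 hδ hyp
  refine h5.trans ?_
  have hδn := nm_pos_r hδ.ne_zero
  have h6 : C * (1 + Real.log V₁) ≤ X ^ (ε / 2) := by
    refine le_trans ?_ (H3 X ((le_max_right _ _).trans hX))
    refine mul_le_mul_of_nonneg_left ?_ hC
    linarith
  have hq : 0 ≤ (Xn us β * V₀) ^ (-(1 / 3) : ℝ) := by positivity
  have hHM : (0 : ℝ) ≤ H ^ M := by positivity
  have e6 : X ^ (ε / 2) * X ^ (eT + ε / 2) = X ^ (eT + ε) := by
    rw [← Real.rpow_add hX0]; congr 1; ring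
  have hp : 0 ≤ X ^ (eT + ε / 2) := by positivity
  calc C * B ^ 2 * (1 + Real.log V₁) * (Xn us β * V₀) ^ (-(1 / 3) : ℝ) *
        (H ^ M * X ^ (eT + ε / 2)) / nm δ =
        (C * (1 + Real.log V₁)) * (B ^ 2 * (H ^ M * X ^ (eT + ε / 2)) *
          (Xn us β * V₀) ^ (-(1 / 3) : ℝ) / nm δ) := by ring
    _ ≤ X ^ (ε / 2) * (B ^ 2 * (H ^ M * X ^ (eT + ε / 2)) *
          (Xn us β * V₀) ^ (-(1 / 3) : ℝ) / nm δ) := by
        refine mul_le_mul_of_nonneg_right h6 ?_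
        positivity
    _ = B ^ 2 * (H ^ M * (X ^ (ε / 2) * X ^ (eT + ε / 2))) *
          (Xn us β * V₀) ^ (-(1 / 3) : ℝ) / nm δ := by ring
    _ = _ := by rw [e6]

open Classical in
/-- **the T-energy with child condition, one number** -/
theorem tsd_num {c₀ : ℝ} (hpu : PU h c₀) (hVF : VFA h) (hP : ∀ lam, (π lam).OK)
    {E : (Fin 4 → ℝ) × (Kd → ℝ) → ℝ} (hE : Continuous E)
    (U : ∀ K : ℝ, UBs S3 Dq (TMF π h fun _ => 0) (fbT K) ∅ E) {ε : ℝ}
    (hε : 0 < ε) (K : ℝ) (hK : 1 ≤ K) (lam : Λ) : ∃ (M : ℕ) (X₀ : ℝ), 1 < X₀ ∧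
    ∀ X : ℝ, X₀ ≤ X → ∀ H : ℝ, 1 ≤ H → ∀ (us : Fin 3 → Pq) (β : Fin 3 → Eis),
      LD X K H us β → ∀ V₀ V₁ B : ℝ, 0 < V₀ → 1 ≤ V₁ → V₁ ≤ X ^ K → 0 ≤ B →
      ∀ Js : Finset (Eis × Eis), OKJ Js → ∀ om : Eis × Eis → ℂ,
      (∀ y ∈ Js, om y ≠ 0 → V₀ ≤ (nm (y.2 * y.1 ^ 2) : ℝ) ∧ (nm (y.2 * y.1 ^ 2) : ℝ) ≤ V₁) →
      (∀ y ∈ Js, ‖om y‖ ≤ B) → ∀ e0 δ : Eis, IsPrim e0 → IsPrim δ → (nm e0 : ℝ) ≤ X ^ K →
      ∀ eT : ℝ, (∀ x : ℝ, Real.log (nm δ) / Real.log X ≤ x → 2 * x ≤ Real.log V₁ / Real.log X →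
        RH E (fun i => (us i).z / Real.log X)
          (Real.log V₁ / Real.log X + Real.log (nm e0) / Real.log X - 2 * x)
          (nL X us β - Real.log (nm e0) / Real.log X - x) (eT - 2 * x)) →
      ∑ y ∈ Js.filter (fun y => δ ∣ y.1), (nm y.2 : ℝ) ^ (-(1 / 3) : ℝ) *
        (‖om y‖ ^ 2 * ‖TE (alb (fun i => pc h ((us i).pc (π lam))) β) y e0‖ ^ 2) ≤
        B ^ 2 * (H ^ M * X ^ (eT + ε)) * (Xn us β * V₀) ^ (-(1 / 3) : ℝ) / nm δ := by
  obtain ⟨M, X₀, hX₀, H1⟩ := tsd_numW hpu hVF hP hE U hε K hK lam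
  refine ⟨M, X₀, hX₀, ?_⟩
  intro X hX H hH us β hD V₀ V₁ B hV₀ hV₁ hV₁K hB Js hJs om hom homB e0 δ he0 hδ he0K eT hRH
  have h := H1 X hX H hH us β hD V₀ V₁ B hV₀ hV₁ hV₁K hB Js hJs om hom homB e0 δ he0 hδ he0K 0 eT
    (fun x h1 h2 => by
      have := hRH x h1 h2
      rwa [add_zero])
  simpa only [Real.rpow_zero, one_mul] using h

/-- **the T-moment of a sharp ball of frequencies, one number** -/
theorem tt_num {c₁ : ℝ} (hpu : PU h c₁) (hVF : VFA h) (hP : ∀ lam, (π lam).OK)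
    {E : (Fin 4 → ℝ) × (Kd → ℝ) → ℝ} (hE : Continuous E)
    (U : ∀ K : ℝ, UBs S3 Dq (TMF π h fun _ => 0) (fbT K) ∅ E) {ε : ℝ}
    (hε : 0 < ε) (K : ℝ) (hK : 1 ≤ K) (lam : Λ) : ∃ (M : ℕ) (X₀ : ℝ), 1 < X₀ ∧
    ∀ X : ℝ, X₀ ≤ X → ∀ H : ℝ, 1 ≤ H → ∀ (us : Fin 3 → Pq) (β : Fin 3 → Eis),
      LD X K H us β → ∀ L' : ℝ, 0 ≤ L' → L' ≤ X ^ K → ∀ e e₀ c c₀ : Eis, IsPrim e → IsPrim e₀ →
      c ≠ 0 → c₀ ≠ 0 → (nm e : ℝ) ≤ X ^ K → (nm e₀ : ℝ) ≤ X ^ K → (nm c : ℝ) ≤ X ^ K →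
      (nm c₀ : ℝ) ≤ X ^ K →
      ∀ eT : ℝ, (∀ x : ℝ, 0 ≤ x → 3 * x ≤ Real.log (L' * nm c₀ * nm e₀) / Real.log X →
        RH E (fun i => (us i).z / Real.log X)
          (Real.log (L' * nm c₀ * nm e₀) / Real.log X - 3 * x)
          (nL X us β - Real.log (nm e) / Real.log X - Real.log (nm e₀) / Real.log X)
          (eT - x)) →
      ∑ j ∈ primBall ⌊L'⌋₊, ‖E3D579.TE0
        (fun m => alb (fun i => pc h ((us i).pc (π lam))) β (e * m)) 1 (c₀ * (j * c ^ 3)) e₀‖ ^ 2 ≤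
        H ^ M * X ^ (eT + ε) * (Xn us β / nm e) ^ (-(1 / 3) : ℝ) := by
  obtain ⟨R₀, hR₀⟩ := bump_of_cs hpu.cs
  set R := max R₀ 0 with hRd
  have hR0 : 0 ≤ R := le_max_right _ _
  have hR : ∀ u, cx h u ≠ 0 → |u| ≤ R := fun u hu => (hR₀ u hu).trans (le_max_left _ _)
  obtain ⟨M, X₁, hX₁, H1⟩ := vf_num hVF hP hE U (show 0 < ε / 2 by positivity) (4 * K)
    (by linarith) lam
  obtain ⟨C, hC, H2⟩ := te_ball (6 * R) (by positivity) (3 * M + 2) (by omega)
    (J := 3 * (M : ℝ)) (by positivity) (by push_cast; linarith)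
  obtain ⟨X₂, hX₂, H3⟩ := big C (ε / 2) (4 * K) (by positivity) hC (by linarith)
  refine ⟨M, max (max X₁ X₂) 2, lt_of_lt_of_le hX₁ ((le_max_left _ _).trans (le_max_left _ _)), ?_⟩
  intro X hX H hH us β hD L' hL'0 hL'K e e₀ c c₀ he he₀ hc hc₀ heK he₀K hcK hc₀K eT hRH
  have hXX : X₁ ≤ X := ((le_max_left _ _).trans (le_max_left _ _)).trans hX
  have hXX2 : X₂ ≤ X := ((le_max_right _ _).trans (le_max_left _ _)).trans hX
  have hX2 : 2 ≤ X := (le_max_right _ _).trans hX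
  have hX1 : 1 < X := by linarith
  have hX0 : 0 < X := by linarith
  set L := Real.log X with hL
  have hL0 : 0 < L := Real.log_pos hX1
  have hen := nm_pos_r he.ne_zero
  have he₀n := nm_pos_r he₀.ne_zero
  have hc₀n := nm_pos_r hc₀
  have he₀1 : (1 : ℝ) ≤ nm e₀ := by exact_mod_cast nm_pos.2 he₀.ne_zero
  have hc₀1 : (1 : ℝ) ≤ nm c₀ := by exact_mod_cast nm_pos.2 hc₀
  have hXn := Xn_pos us hD.bp
  have hXK1 : 1 ≤ X ^ K := Real.one_le_rpow hX1.le (by linarith)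
  by_cases hL1 : 1 ≤ L'
  swap
  · -- the ball is empty
    have h0 : ⌊L'⌋₊ = 0 := Nat.floor_eq_zero.2 (not_le.1 hL1)
    have h1 : primBall 0 = ∅ := by
      rw [Finset.eq_empty_iff_forall_notMem]
      intro j hj
      rw [mem_primBall] at hj
      have := nm_pos.2 hj.2.ne_zero
      omega
    rw [h0, h1, Finset.sum_empty]
    positivity
  set Z : ℝ := L' * nm c₀ * nm e₀ with hZ
  have hZ1 : 1 ≤ Z := by
    calc (1 : ℝ) = 1 * 1 * 1 := by norm_num
      _ ≤ L' * nm c₀ * nm e₀ := by gcongr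
  have hZK : Z ≤ X ^ (3 * K) := by
    have e1 : X ^ (3 * K) = X ^ K * X ^ K * X ^ K := by
      rw [← Real.rpow_add hX0, ← Real.rpow_add hX0]; congr 1; ring
    rw [e1, hZ]
    exact mul_le_mul (mul_le_mul hL'K hc₀K hc₀n.le (by positivity)) he₀K he₀n.le (by positivity)
  have hlogZ : Real.log Z ≤ 3 * K * L := by
    rw [hL, ← Real.log_rpow hX0]
    exact Real.log_le_log (by linarith) hZK
  have hyp : ∀ s : Eis, s ≠ 0 → (nm s : ℝ) ^ 3 ≤ L' * nm c₀ * nm e₀ → ∀ t : ℝ,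
      VF (L' * nm c₀ * nm e₀ / (nm s : ℝ) ^ 3) (PM (c * s)
        (tws (sg (alb (fun i => pc h ((us i).pc (π lam))) β) (e * e₀)) t)) ≤
        (H ^ M * X ^ (eT + ε / 2)) / nm s * (1 + |t|) ^ (3 * (M : ℝ)) := by
    intro s hs hs3 t
    rw [← hZ] at hs3 ⊢
    have hsn := nm_pos_r hs
    have hsn1 : (1 : ℝ) ≤ nm s := by exact_mod_cast nm_pos.2 hs
    set x := Real.log (nm s) / L with hx
    have hls : 0 ≤ Real.log (nm s) := Real.log_nonneg hsn1
    have hge : IsPrim (e * e₀) := he.mul he₀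
    have hsZ : (nm s : ℝ) ^ 3 ≤ X ^ (3 * K) := hs3.trans hZK
    have hsK : (nm s : ℝ) ≤ X ^ (3 * K) := by
      refine le_trans ?_ hsZ
      nlinarith [one_le_pow₀ hsn1 (n := 2)]
    have hgK : (nm (e * e₀) : ℝ) ≤ X ^ (4 * K) := by
      rw [nm_mul]
      push_cast
      have e1 : X ^ (4 * K) = X ^ K * X ^ K * (X ^ K * X ^ K) := by
        rw [← Real.rpow_add hX0, ← Real.rpow_add hX0]; congr 1; ring
      rw [e1]
      calc (nm e : ℝ) * nm e₀ ≤ X ^ K * X ^ K := by gcongr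
        _ = X ^ K * X ^ K * 1 := (mul_one _).symm
        _ ≤ _ := by
            refine mul_le_mul_of_nonneg_left ?_ (by positivity)
            nlinarith
    have hcs : (nm (c * s) : ℝ) ≤ X ^ (4 * K) := by
      rw [nm_mul]
      push_cast
      have e1 : X ^ (4 * K) = X ^ K * X ^ (3 * K) := by
        rw [← Real.rpow_add hX0]; congr 1; ring
      rw [e1]
      gcongr
    set k := Real.log (Z / (nm s : ℝ) ^ 3) with hk
    have hk1 : 1 ≤ Z / (nm s : ℝ) ^ 3 := by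
      rw [le_div_iff₀ (by positivity), one_mul]
      exact hs3
    have hk0 : 0 ≤ k := Real.log_nonneg hk1
    have hke : k = Real.log Z - 3 * Real.log (nm s) := by
      rw [hk, Real.log_div (by positivity) (by positivity), Real.log_pow]
      push_cast
      ring
    have hkK : k ≤ 4 * K * L := by
      rw [hke]
      have : 0 ≤ K * L := by positivity
      linarith
    have hx0 : 0 ≤ x := by positivity
    have hxZ : 3 * x ≤ Real.log Z / L := by
      rw [hx, ← mul_div_assoc]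
      refine div_le_div_of_nonneg_right ?_ hL0.le
      linarith
    have hR1 := hRH x hx0 hxZ
    have e1 : Real.log Z / L - 3 * x = k / L := by rw [hke, hx]; ring
    have e2 : nL X us β - Real.log (nm e) / L - Real.log (nm e₀) / L =
        nL X us β - Real.log (nm (e * e₀)) / L := by
      rw [nm_mul]
      push_cast
      rw [Real.log_mul hen.ne' he₀n.ne']
      ring
    rw [e1, e2] at hR1
    have h4 := H1 X hXX H hH us β (hD.mono hX1.le (by linarith)) (e * e₀) hge hgK (c * s)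
      (mul_ne_zero hc hs) hcs k hk0 hkK (eT - x) hR1 t
    rw [hk, Real.exp_log (by linarith)] at h4
    refine h4.trans (le_of_eq ?_)
    have e3 : X ^ (eT - x + ε / 2) = X ^ (eT + ε / 2) / (nm s : ℝ) := by
      have e4 : eT - x + ε / 2 = (eT + ε / 2) - x := by ring
      rw [e4, Real.rpow_sub hX0]
      congr 1
      rw [Real.rpow_def_of_pos hX0, hx]
      have e5 : Real.log X * (Real.log (nm s) / L) = Real.log (nm s) := by
        rw [← hL]; field_simp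
      rw [e5, Real.exp_log hsn]
    rw [e3]
    ring
  have h5 := H2 (Xn us β * Real.exp (3 * R)) (Xn us β) L' (H ^ M * X ^ (eT + ε / 2))
    (by positivity) hXn hL'0 (by positivity) _ (Adm_alb hR0 hR (π lam) us hD.bp) e e₀ c c₀ he he₀
    hc hc₀ hyp
  refine h5.trans ?_
  rw [← hZ]
  have h6 : C * (1 + Real.log (1 + Z)) ≤ X ^ (ε / 2) := by
    refine le_trans ?_ (H3 X hXX2)
    refine mul_le_mul_of_nonneg_left ?_ hC
    have h7 : Real.log (1 + Z) ≤ Real.log (X * X ^ (3 * K)) := by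
      refine Real.log_le_log (by linarith) ?_
      calc 1 + Z ≤ 2 * Z := by linarith
        _ ≤ X * X ^ (3 * K) := by gcongr
    rw [Real.log_mul hX0.ne' (by positivity), Real.log_rpow hX0] at h7
    have : L ≤ K * L := le_mul_of_one_le_left hL0.le hK
    linarith
  have hq : 0 ≤ (Xn us β / nm e) ^ (-(1 / 3) : ℝ) := by positivity
  have hHM : (0 : ℝ) ≤ H ^ M := by positivity
  have e6 : X ^ (ε / 2) * X ^ (eT + ε / 2) = X ^ (eT + ε) := by
    rw [← Real.rpow_add hX0]; congr 1; ring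
  have hp : 0 ≤ X ^ (eT + ε / 2) := by positivity
  calc C * (1 + Real.log (1 + Z)) * (Xn us β / nm e) ^ (-(1 / 3) : ℝ) *
        (H ^ M * X ^ (eT + ε / 2)) ≤
        X ^ (ε / 2) * (Xn us β / nm e) ^ (-(1 / 3) : ℝ) * (H ^ M * X ^ (eT + ε / 2)) := by
        gcongr
    _ = H ^ M * (X ^ (ε / 2) * X ^ (eT + ε / 2)) * (Xn us β / nm e) ^ (-(1 / 3) : ℝ) := by ring
    _ = _ := by rw [e6]

end Crest.Agent.R017.TEM792
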