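import Crest.Agent.R017.TMU_708
import Crest.Agent.R017.I1h_146

/-!
# Row 17, E4 (StrU) : the T-energy at lists (helper792), part a

* `proj3` : a nearby exact split of the total length
* `SN_ub` : 146's `SN` of a list of three lumps from `UBs` of 708's T-moment `TMF`
* `SN_child` : the same for the children of a list of three lumps, in the form of a claim
* `unif` : tolerance from continuity on the box
-/

set_option autoImplicit false
set_option linter.unusedVariables false
set_option linter.unusedSectionVars false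

noncomputable section

open Set

namespace Crest.Agent.R017.TEM792

open Crest.Agent.R012 Crest.Agent.R012.Eis
open Crest.Agent.R017.FE47 (PU)
open Crest.Agent.R017.XG702 (Pcs)
open Crest.Agent.R017.XT71 (mx le_mx one_le_mx)
open Crest.Agent.R017.Prov71
open Crest.Agent.R017.B770
open Crest.Agent.R017.TM708
open Crest.Agent.R017.I1146 (ChN LN cN SN)
open Crest.Agent.R017.UBT973 (UBs)

/-! ### the split -/

lemma le_sum3 {g : Fin 3 → ℝ} (h : ∀ i, 0 ≤ g i) (i : Fin 3) : g i ≤ g 0 + g 1 + g 2 := by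
  rw [← Fin.sum_univ_three]
  exact Finset.single_le_sum (fun j _ => h j) (Finset.mem_univ i)

lemma le_prod3 {g : Fin 3 → ℝ} (h : ∀ i, 1 ≤ g i) (i : Fin 3) : g i ≤ ∏ j, g j := by
  rw [← Finset.mul_prod_erase Finset.univ g (Finset.mem_univ i)]
  refine le_mul_of_one_le_right (by linarith [h i]) ?_
  exact Finset.prod_induction _ (fun x => 1 ≤ x)
    (fun a b ha hb => one_le_mul_of_one_le_of_one_le ha hb) le_rfl (fun j _ => h j)

/-- **exact split near an approximate one** -/
theorem proj3 {z z' : Fin 3 → ℝ} {s ρ : ℝ} (hρ : 0 ≤ ρ) (hz' : ∀ i, 0 ≤ z' i)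
    (h1 : ∀ i, z' i ≤ z i + ρ) (hz : ∀ i, 0 ≤ z i) (hs : |∑ i, z' i - s| ≤ ρ) (hs0 : 0 ≤ s)
    (hs1 : s ≤ ∑ i, z i) :
    ∃ y : Fin 3 → ℝ, (∀ i, 0 ≤ y i ∧ y i ≤ z i) ∧ ∑ i, y i = s ∧ ∀ i, |y i - z' i| ≤ 5 * ρ := by
  obtain ⟨a1, a2⟩ := abs_le.1 hs
  set m : Fin 3 → ℝ := fun i => min (z' i) (z i) with hm
  have m0 : ∀ i, 0 ≤ m i := fun i => le_min (hz' i) (hz i)
  have m1 : ∀ i, m i ≤ z i := fun i => min_le_right _ _
  have m2 : ∀ i, m i ≤ z' i := fun i => min_le_left _ _
  have m3 : ∀ i, z' i - ρ ≤ m i := fun i => le_min (by linarith) (by linarith [h1 i])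
  simp only [Fin.sum_univ_three] at a1 a2 hs1
  set S := m 0 + m 1 + m 2 with hS
  have hS0 : 0 ≤ S := by have := m0 0; have := m0 1; have := m0 2; linarith
  have hS1 : S ≤ s + ρ := by have := m2 0; have := m2 1; have := m2 2; linarith
  have hS2 : s - 4 * ρ ≤ S := by have := m3 0; have := m3 1; have := m3 2; linarith
  rcases le_total s S with h | h
  · -- scale down
    rcases hS0.eq_or_lt with h0 | h0
    · have hs' : s = 0 := le_antisymm (by linarith) hs0
      refine ⟨fun _ => 0, fun i => ⟨le_rfl, hz i⟩, by simp [hs'], fun i => ?_⟩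
      have k0 := m3 i
      have k1 : m i = 0 := le_antisymm (by have := le_sum3 m0 i; linarith) (m0 i)
      rw [abs_le]
      constructor <;> linarith [hz' i]
    · set θ := s / S with hθ
      have t0 : 0 ≤ θ := by positivity
      have t1 : θ ≤ 1 := (div_le_one h0).2 h
      have e : θ * S = s := by rw [hθ]; field_simp
      refine ⟨fun i => θ * m i, fun i => ⟨mul_nonneg t0 (m0 i), ?_⟩, ?_, fun i => ?_⟩
      · exact (mul_le_of_le_one_left (m0 i) t1).trans (m1 i)
      · rw [Fin.sum_univ_three, ← mul_add, ← mul_add]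
        exact e
      · have k1 : (1 - θ) * m i ≤ (1 - θ) * S := by
          exact mul_le_mul_of_nonneg_left (le_sum3 m0 i) (by linarith)
        have k2 : (1 - θ) * S = S - s := by rw [sub_mul, one_mul, e]
        have k3 : 0 ≤ (1 - θ) * m i := mul_nonneg (by linarith) (m0 i)
        have k4 := m3 i
        have k5 := m2 i
        rw [abs_le]
        constructor <;> nlinarith
  · -- scale up
    rcases h.eq_or_lt with h0 | h0
    · refine ⟨m, fun i => ⟨m0 i, m1 i⟩, ?_, fun i => ?_⟩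
      · rw [Fin.sum_univ_three]; exact h0
      · have k4 := m3 i
        have k5 := m2 i
        rw [abs_le]
        constructor <;> linarith
    · set Z := z 0 + z 1 + z 2 with hZ
      have hZS : S < Z := lt_of_lt_of_le h0 hs1
      set θ := (s - S) / (Z - S) with hθ
      have hd : 0 < Z - S := by linarith
      have t0 : 0 ≤ θ := div_nonneg (by linarith) hd.le
      have t1 : θ ≤ 1 := (div_le_one hd).2 (by linarith)
      have e : θ * (Z - S) = s - S := by rw [hθ]; field_simp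
      refine ⟨fun i => m i + θ * (z i - m i), fun i => ⟨?_, ?_⟩, ?_, fun i => ?_⟩
      · have := mul_nonneg t0 (sub_nonneg.2 (m1 i)); linarith [m0 i]
      · have := mul_le_of_le_one_left (sub_nonneg.2 (m1 i)) t1; linarith
      · rw [Fin.sum_univ_three]
        have : m 0 + θ * (z 0 - m 0) + (m 1 + θ * (z 1 - m 1)) + (m 2 + θ * (z 2 - m 2)) =
            S + θ * (Z - S) := by rw [hS, hZ]; ring
        rw [this, e]; ring
      · have k0 : 0 ≤ θ * (z i - m i) := mul_nonneg t0 (sub_nonneg.2 (m1 i))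
        have k1 : θ * (z i - m i) ≤ θ * (Z - S) := by
          refine mul_le_mul_of_nonneg_left ?_ t0
          have e0 := le_sum3 (g := fun i => z i - m i) (fun i => sub_nonneg.2 (m1 i)) i
          linarith
        rw [e] at k1
        have k4 := m3 i
        have k5 := m2 i
        rw [abs_le]
        constructor <;> linarith

/-! ### one list -/

variable {Λ : Type*} {π : Λ → DPar} {h : ℝ → ℝ}

/-- the exponent vector of a level and three lengths -/
def xv (v : ℝ) (y : Fin 3 → ℝ) : (Fin 4 → ℝ) × (Kd → ℝ) := (![v, y 0, y 1, y 2], fun _ => 0)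

/-- **the cube-free Gauss moment of three lumps from the uniform bound** -/
theorem SN_ub {f : (Fin 4 → ℝ) × (Kd → ℝ) → ℝ} {E : (Fin 4 → ℝ) × (Kd → ℝ) → ℝ}
    (U : UBs S3 Dq (TMF π h fun _ => 0) f ∅ E) {ε : ℝ} (hε : 0 < ε) :
    ∃ σ : ℝ, 0 < σ ∧ ∀ (lam : Λ) (B : ℝ), ∃ (M : ℕ) (X₀ : ℝ), 1 < X₀ ∧ ∀ X : ℝ, X₀ ≤ X →
      ∀ (q : Eis), q ≠ 0 → (nm q : ℝ) ≤ X ^ B → ∀ (l : ℝ) (p : Fin 3 → Pq),
      (∀ i, Dq.lump (p i) ∧ 0 ≤ (p i).z) → (∀ i, (nm (p i).d : ℝ) ≤ X ^ B) →
      f (xv (l / Real.log X) fun i => (p i).z / Real.log X) ≤ σ →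
      ∀ H : ℝ, 1 ≤ H → (∀ i, 1 + |(p i).t| ≤ H) →
        SN q (π lam) h l (List.ofFn p) ≤
          H ^ M * X ^ (E (xv (l / Real.log X) fun i => (p i).z / Real.log X) + ε) := by
  obtain ⟨σ, hσ, H0⟩ := U ε hε
  refine ⟨σ, hσ, fun lam B => ?_⟩
  obtain ⟨M, X₀, hX₀, H1⟩ := H0 lam 0 (max B 0)
  refine ⟨M, X₀, hX₀, fun X hX q hq hqB l p hp hpd hf H hH hpt => ?_⟩
  have hX1 : 1 < X := lt_of_lt_of_le hX₀ hX
  have hXB : X ^ B ≤ X ^ max B 0 := Real.rpow_le_rpow_of_exponent_le hX1.le (le_max_left _ _)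
  have hX1B : 1 ≤ X ^ max B 0 := Real.one_le_rpow hX1.le (le_max_right _ _)
  have hXσ : (1 : ℝ) ≤ X ^ σ := Real.one_le_rpow hX1.le hσ.le
  set a : T3 := ⟨l, p, q⟩ with ha
  have haok : a.ok := ⟨hp, hq⟩
  have e1 : S3.ev X a = ![l / Real.log X, (p 0).z / Real.log X, (p 1).z / Real.log X,
      (p 2).z / Real.log X] := rfl
  have e2 : Dq.mass X ([] : List Pq) = fun _ => 0 := by
    funext t; rfl
  have e3 : (S3.ev X a, Dq.mass X ([] : List Pq)) =
      xv (l / Real.log X) fun i => (p i).z / Real.log X := by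
    rw [e1, e2]; rfl
  have hmx1 : ∀ {g : Pq → ℝ} {Y : ℝ}, 1 ≤ Y → (∀ i, g (p i) ≤ Y) → mx g a.mk' ≤ Y := by
    intro g Y hY hg
    show mx g [p 0, p 1, p 2] ≤ Y
    simp only [XT71.mx, List.foldr_cons, List.foldr_nil]
    exact max_le (hg 0) (max_le (hg 1) (max_le (hg 2) hY))
  have key := H1 X hX a [] (by simp) (by simp) hXσ (le_refl _)
    (max_le (hqB.trans hXB) (hmx1 hX1B fun i => (hpd i).trans hXB)) (by simp)
    (by rw [e3]; exact hf) (by simp) H hH (hmx1 hH hpt) (by simp)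
  rw [e3] at key
  refine le_trans ?_ key
  have h4 := SF_le_TMF (π := π) (h := h) (fun _ => 0) lam haok 1 1 []
  rw [I1146.SN_eq] at h4
  have e5 : a.l + (fun _ : Λ => (0 : ℝ)) lam = l := by simp [ha]
  rw [e5] at h4
  have e6 : a.mk' ++ [] = List.ofFn p := by
    rw [List.append_nil]
    simp [T3.mk', ha, List.ofFn_succ]
  rw [e6] at h4
  exact h4

/-- children of three lumps -/
lemma child3 {r : ℝ} {us : Fin 3 → Pq} {ps' : List Pq}
    (h : List.Forall₂ (ChN r) ps' (List.ofFn us)) :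
    ∃ p : Fin 3 → Pq, ps' = List.ofFn p ∧ ∀ i, ChN r (p i) (us i) := by
  have e : List.ofFn us = [us 0, us 1, us 2] := by simp [List.ofFn_succ]
  rw [e] at h
  cases h with
  | cons h0 h =>
    cases h with
    | cons h1 h =>
      cases h with
      | cons h2 h =>
        cases h
        rename_i a b c
        refine ⟨![a, b, c], by simp [List.ofFn_succ], fun i => ?_⟩
        fin_cases i
        · exact h0
        · exact h1
        · exact h2

lemma LN_ofFn (p : Fin 3 → Pq) : LN (List.ofFn p) = ∑ i, (p i).z := by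
  unfold I1146.LN
  rw [List.map_ofFn, List.sum_ofFn]
  rfl

lemma cN_ofFn (p us : Fin 3 → Pq) :
    cN (List.ofFn p) (List.ofFn us) = ∏ i, (1 + |(p i).t - (us i).t|) := by
  unfold I1146.cN
  have e : ∀ us : Fin 3 → Pq, List.ofFn us = [us 0, us 1, us 2] := fun us => by
    simp [List.ofFn_succ]
  rw [e p, e us, Fin.prod_univ_three]
  simp [mul_assoc]

lemma le_cN (p us : Fin 3 → Pq) (i : Fin 3) :
    1 + |(p i).t - (us i).t| ≤ cN (List.ofFn p) (List.ofFn us) := by
  rw [cN_ofFn]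
  exact le_prod3 (g := fun j => 1 + |(p j).t - (us j).t|)
    (fun j => by linarith [abs_nonneg ((p j).t - (us j).t)]) i

lemma one_le_cN (p us : Fin 3 → Pq) : 1 ≤ cN (List.ofFn p) (List.ofFn us) :=
  (by linarith [abs_nonneg ((p 0).t - (us 0).t)] : (1 : ℝ) ≤ 1 + |(p 0).t - (us 0).t|).trans
    (le_cN p us 0)

/-- heights of the children -/
lemma height_child {H : ℝ} {p us : Fin 3 → Pq} (hH : 0 ≤ H) (i : Fin 3)
    (h : 1 + |(us i).t| ≤ H) : 1 + |(p i).t| ≤ H * cN (List.ofFn p) (List.ofFn us) := by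
  have h1 := le_cN p us i
  have h2 : 1 + |(p i).t| ≤ (1 + |(us i).t|) * (1 + |(p i).t - (us i).t|) := by
    have h3 : |(p i).t| ≤ |(us i).t| + |(p i).t - (us i).t| := by
      have := abs_add_le (us i).t ((p i).t - (us i).t)
      rwa [add_sub_cancel] at this
    nlinarith [abs_nonneg (us i).t, abs_nonneg ((p i).t - (us i).t)]
  refine h2.trans (mul_le_mul h h1 (by positivity) hH)

/-! ### tolerance -/

/-- **uniform continuity on the box** -/
theorem unif {E : (Fin 4 → ℝ) × (Kd → ℝ) → ℝ} (hE : Continuous E) (K : ℝ) {ε : ℝ} (hε : 0 < ε) :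
    ∃ η : ℝ, 0 < η ∧ ∀ (v v' : ℝ) (y y' : Fin 3 → ℝ), |v| ≤ K → |v'| ≤ K → (∀ i, |y i| ≤ K) →
      (∀ i, |y' i| ≤ K) → |v - v'| ≤ η → (∀ i, |y i - y' i| ≤ η) →
      E (xv v' y') ≤ E (xv v y) + ε := by
  have hc : Continuous fun q : ℝ × (Fin 3 → ℝ) => E (xv q.1 q.2) := by
    refine hE.comp ?_
    unfold xv
    refine Continuous.prodMk ?_ continuous_const
    refine continuous_pi fun i => ?_
    fin_cases i
    · exact continuous_fst
    · exact (continuous_apply 0).comp continuous_snd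
    · exact (continuous_apply 1).comp continuous_snd
    · exact (continuous_apply 2).comp continuous_snd
  have hK : IsCompact (Set.Icc (-K) K ×ˢ Set.pi Set.univ fun _ : Fin 3 => Set.Icc (-K) K) :=
    isCompact_Icc.prod (isCompact_univ_pi fun _ => isCompact_Icc)
  have hu := hK.uniformContinuousOn_of_continuous hc.continuousOn
  rw [Metric.uniformContinuousOn_iff] at hu
  obtain ⟨η, hη, H⟩ := hu ε hε
  refine ⟨η / 2, by positivity, ?_⟩
  intro v v' y y' hv hv' hy hy' h1 h2
  have hmem : ∀ {v : ℝ} {y : Fin 3 → ℝ}, |v| ≤ K → (∀ i, |y i| ≤ K) →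
      (v, y) ∈ (Set.Icc (-K) K ×ˢ Set.pi Set.univ fun _ : Fin 3 => Set.Icc (-K) K) := by
    intro v y hv hy
    exact ⟨abs_le.1 hv, fun i _ => abs_le.1 (hy i)⟩
  have h3 := H (v', y') (hmem hv' hy') (v, y) (hmem hv hy) (by
    rw [Prod.dist_eq]
    refine max_lt ?_ ?_
    · rw [Real.dist_eq, abs_sub_comm]; linarith
    · refine lt_of_le_of_lt ((dist_pi_le_iff (by positivity : (0 : ℝ) ≤ η / 2)).2 fun i => ?_)
        (by linarith)
      rw [Real.dist_eq, abs_sub_comm]
      exact h2 i)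
  rw [Real.dist_eq] at h3
  have := (abs_lt.1 h3).2
  linarith

end Crest.Agent.R017.TEM792
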