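import Crest.Agent.R017.TEMa_792
import Crest.Agent.R017.TEL_792
import Crest.Agent.R017.E5k_54

/-!
# Row 17, E4 (StrU) : the T-energy at lists (helper792), part b

* `VFA` : the statement of 436's `VF_alb` (three pieces, free extra modulus)
* **`vf_num`** : the cube-free moments of the subsequences of `alb` from a real hypothesis
-/

set_option autoImplicit false
set_option linter.unusedVariables false
set_option linter.unusedSectionVars false

noncomputable section

open Set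

namespace Crest.Agent.R017.TEM792

open Crest.Agent.R012 Crest.Agent.R012.Eis
open Crest.Agent.R017.FE47 (PU cx)
open Crest.Agent.R017.XG702 (Pcs)
open Crest.Agent.R017.Prov71
open Crest.Agent.R017.B770
open Crest.Agent.R017.HP842 (pc)
open Crest.Agent.R017.TM708
open Crest.Agent.R017.I1146 (ChN LN cN SN)
open Crest.Agent.R017.UBT973 (UBs)
open Crest.Agent.R017.E1551 (tws sg)
open Crest.Agent.R017.Rough381 (VF)
open Crest.Agent.R017.TEL792 (PM)
open Crest.Agent.R017.E5k54 (alb)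

/-- **the moments of the subsequences of `alb` from the claims of the children** -/
def VFA (h : ℝ → ℝ) : Prop :=
  ∀ (B₀ ε M : ℝ), 0 ≤ B₀ → 0 < ε → 0 ≤ M → ∃ C r : ℝ, 1 ≤ C ∧ 0 ≤ r ∧ ∀ X : ℝ, 3 ≤ X →
    ∀ P : DPar, P.OK → ∀ us : Fin 3 → Pq, (∀ i, 0 ≤ (us i).z ∧ (us i).z ≤ Real.log X) →
    ∀ β : Fin 3 → Eis, (∀ i, IsPrim (β i) ∧ (nm (β i) : ℝ) ≤ X ^ B₀) →
    ∀ g : Eis, IsPrim g → Squarefree g → (nm g : ℝ) ≤ X ^ B₀ → ∀ q : Eis, q ≠ 0 →
    ∀ k : ℝ, 0 ≤ k → k ≤ B₀ * Real.log X → ∀ t Bd : ℝ, 0 ≤ Bd →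
    (∀ (l : ℝ) (ps' : List Pq), 0 ≤ l → List.Forall₂ (ChN r) ps' (List.ofFn us) →
      |LN ps' - (∑ i, (us i).z - Real.log (nm (∏ i, β i)) - Real.log (nm g))| ≤ r →
      |l - k| ≤ r → SN ((∏ i, β i) * g * q) P h l ps' ≤ Bd * cN ps' (List.ofFn us) ^ M) →
    VF (Real.exp k) (PM q (tws (sg (alb (fun i => pc h ((us i).pc P)) β) g) t)) ≤
      C * X ^ ε * Bd * (1 + |t|) ^ (3 * M)

/-- the data of the three lumps -/
structure LD (X K H : ℝ) (us : Fin 3 → Pq) (β : Fin 3 → Eis) : Prop where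
  lump : ∀ i, Dq.lump (us i)
  z0 : ∀ i, 0 ≤ (us i).z
  zK : ∀ i, (us i).z ≤ K * Real.log X
  dK : ∀ i, (nm (us i).d : ℝ) ≤ X ^ K
  tH : ∀ i, 1 + |(us i).t| ≤ H
  bp : ∀ i, IsPrim (β i)
  bK : ∀ i, (nm (β i) : ℝ) ≤ X ^ K

/-- total length after the `β i`, units `log X` -/
def nL (X : ℝ) (us : Fin 3 → Pq) (β : Fin 3 → Eis) : ℝ :=
  (∑ i, (us i).z - Real.log (nm (∏ i, β i))) / Real.log X

/-- the real hypothesis : `E ≤ e` at the level `v` and total length `m`, all splits -/
def RH (E : (Fin 4 → ℝ) × (Kd → ℝ) → ℝ) (z : Fin 3 → ℝ) (v m e : ℝ) : Prop :=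
  ∀ y : Fin 3 → ℝ, (∀ i, 0 ≤ y i ∧ y i ≤ z i) → ∑ i, y i = max 0 m → E (xv v y) ≤ e

variable {Λ : Type*} {π : Λ → DPar} {h : ℝ → ℝ}

/-- **the cube-free moments of the subsequences, one number** -/
theorem vf_num (hVF : VFA h) (hP : ∀ lam, (π lam).OK) {E : (Fin 4 → ℝ) × (Kd → ℝ) → ℝ}
    (hE : Continuous E) (U : ∀ K : ℝ, UBs S3 Dq (TMF π h fun _ => 0) (fbT K) ∅ E) {ε : ℝ}
    (hε : 0 < ε) (K : ℝ) (hK : 1 ≤ K) (lam : Λ) : ∃ (M : ℕ) (X₀ : ℝ), 1 < X₀ ∧
    ∀ X : ℝ, X₀ ≤ X → ∀ H : ℝ, 1 ≤ H → ∀ (us : Fin 3 → Pq) (β : Fin 3 → Eis),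
      LD X K H us β → ∀ g : Eis, IsPrim g → (nm g : ℝ) ≤ X ^ K →
      ∀ q : Eis, q ≠ 0 → (nm q : ℝ) ≤ X ^ K → ∀ k : ℝ, 0 ≤ k → k ≤ K * Real.log X →
      ∀ e : ℝ, RH E (fun i => (us i).z / Real.log X) (k / Real.log X)
        (nL X us β - Real.log (nm g) / Real.log X) e →
      ∀ t : ℝ, VF (Real.exp k) (PM q (tws (sg (alb (fun i => pc h ((us i).pc (π lam))) β) g) t)) ≤
        H ^ M * X ^ (e + ε) * (1 + |t|) ^ (3 * (M : ℝ)) := by
  obtain ⟨σ, hσ, H0⟩ := SN_ub (U (2 * K + 2)) (show 0 < ε / 8 by positivity)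
  obtain ⟨M, X₁, hX₁, H1⟩ := H0 lam (5 * K)
  obtain ⟨η, hη, Hu⟩ := unif hE (2 * K + 2) (show 0 < ε / 8 by positivity)
  obtain ⟨C, r, hC, hr, H2⟩ := hVF 2 (ε / (4 * K)) M (by norm_num) (by positivity)
    (Nat.cast_nonneg _)
  -- large X
  set L₀ : ℝ := max (max 2 ((5 * r + 1) / η)) (max (r + 1) (4 / ε * Real.log C)) with hL₀
  refine ⟨M, max X₁ (Real.exp L₀), lt_of_lt_of_le hX₁ (le_max_left _ _), ?_⟩
  intro X hX H hH us β hD g hg hgK q hq hqK k hk hkK e hRH t
  have hXX : X₁ ≤ X := (le_max_left _ _).trans hX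
  have hX1 : 1 < X := lt_of_lt_of_le hX₁ hXX
  have hX0 : 0 < X := by linarith
  have hXe : Real.exp L₀ ≤ X := (le_max_right _ _).trans hX
  set L := Real.log X with hL
  have hLL : L₀ ≤ L := (Real.le_log_iff_exp_le hX0).2 hXe
  have l1 : 2 ≤ L := ((le_max_left _ _).trans (le_max_left _ _)).trans hLL
  have l2 : (5 * r + 1) / η ≤ L := ((le_max_right _ _).trans (le_max_left _ _)).trans hLL
  have l3 : r + 1 ≤ L := ((le_max_left _ _).trans (le_max_right _ _)).trans hLL
  have l4 : 4 / ε * Real.log C ≤ L := ((le_max_right _ _).trans (le_max_right _ _)).trans hLL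
  have hL0 : 0 < L := by linarith
  have hηL : 5 * (r / L) ≤ η := by
    rw [div_le_iff₀ hη] at l2
    rw [← mul_div_assoc, div_le_iff₀ hL0]
    nlinarith
  have hrL : r / L ≤ 1 := (div_le_one hL0).2 (by linarith)
  have hrL0 : 0 ≤ r / L := by positivity
  set X' := X ^ K with hX'
  have hX'1 : X ≤ X' := by
    calc X = X ^ (1 : ℝ) := (Real.rpow_one X).symm
      _ ≤ X ^ K := Real.rpow_le_rpow_of_exponent_le hX1.le hK
  have hlog' : Real.log X' = K * L := by rw [hX', Real.log_rpow hX0]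
  have hX3 : 3 ≤ X := by
    have h1 : Real.exp 2 ≤ X := by
      refine (Real.exp_le_exp.2 ?_).trans hXe
      exact (le_max_left _ _).trans (le_max_left _ _)
    have h2 : (3 : ℝ) ≤ Real.exp 2 := by
      have := Real.add_one_le_exp (2 : ℝ)
      linarith
    linarith
  have hX'0 : 0 < X' := by linarith
  have hX'2 : X' ≤ X' ^ (2 : ℝ) := by
    calc X' = X' ^ (1 : ℝ) := (Real.rpow_one _).symm
      _ ≤ X' ^ (2 : ℝ) := Real.rpow_le_rpow_of_exponent_le (by linarith) (by norm_num)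
  by_cases hgs : Squarefree g
  swap
  · -- the subsequence vanishes
    have hz : sg (alb (fun i => pc h ((us i).pc (π lam))) β) g = fun _ => 0 := by
      funext n
      by_contra hne
      have h1 : alb (fun i => pc h ((us i).pc (π lam))) β (g * n) ≠ 0 := hne
      unfold E5k54.alb E554.sqc at h1
      split_ifs at h1 with h2
      · exact hgs h2.1.of_mul_left
      · exact h1 rfl
    have e1 : VF (Real.exp k) (PM q (tws (sg (alb (fun i => pc h ((us i).pc (π lam))) β) g) t)) =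
        0 := by
      rw [hz]
      unfold Rough381.VF TEL792.PM E1551.tws CM106.TG
      simp
    rw [e1]
    positivity
  have key := H2 X' (by linarith) (π lam) (hP lam) us
    (fun i => ⟨hD.z0 i, by rw [hlog']; exact hD.zK i⟩) β
    (fun i => ⟨hD.bp i, (hD.bK i).trans hX'2⟩) g hg hgs (hgK.trans hX'2) q hq k hk
    (by rw [hlog']; nlinarith) t (H ^ M * X ^ (e + ε / 4)) (by positivity) ?_
  · refine key.trans ?_
    have e1 : X' ^ (ε / (4 * K)) = X ^ (ε / 4) := by
      rw [hX', ← Real.rpow_mul hX0.le]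
      congr 1
      field_simp
    have hC0 : 0 < C := by linarith
    have e2 : C ≤ X ^ (ε / 4) := by
      rw [Real.rpow_def_of_pos hX0, ← Real.log_le_iff_le_exp hC0]
      have : 4 / ε * Real.log C * (ε / 4) ≤ L * (ε / 4) :=
        mul_le_mul_of_nonneg_right l4 (by positivity)
      have e3 : 4 / ε * Real.log C * (ε / 4) = Real.log C := by field_simp
      rw [e3] at this
      exact this
    rw [e1]
    have e4 : X ^ (ε / 4) * X ^ (ε / 4) * X ^ (e + ε / 4) ≤ X ^ (e + ε) := by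
      rw [← Real.rpow_add hX0, ← Real.rpow_add hX0]
      exact Real.rpow_le_rpow_of_exponent_le hX1.le (by linarith)
    have hp : 0 ≤ X ^ (ε / 4) := by positivity
    have hp2 : 0 ≤ X ^ (e + ε / 4) := by positivity
    have hp3 : (0 : ℝ) ≤ H ^ M := by positivity
    have hp4 : (0 : ℝ) ≤ (1 + |t|) ^ (3 * (M : ℝ)) := by positivity
    calc C * X ^ (ε / 4) * (H ^ M * X ^ (e + ε / 4)) * (1 + |t|) ^ (3 * (M : ℝ)) ≤
          X ^ (ε / 4) * X ^ (ε / 4) * (H ^ M * X ^ (e + ε / 4)) * (1 + |t|) ^ (3 * (M : ℝ)) := by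
          gcongr
      _ = H ^ M * (X ^ (ε / 4) * X ^ (ε / 4) * X ^ (e + ε / 4)) * (1 + |t|) ^ (3 * (M : ℝ)) := by
          ring
      _ ≤ _ := by gcongr
  · intro l ps' hl hch hLN hlk
    obtain ⟨p, rfl, hp⟩ := child3 hch
    rw [LN_ofFn] at hLN
    have hpl : ∀ i, Dq.lump (p i) ∧ 0 ≤ (p i).z := by
      intro i
      obtain ⟨c1, c2, c3, c4, c5⟩ := hp i
      have := (Dq_lump (us i)).1 (hD.lump i)
      exact ⟨(Dq_lump (p i)).2 ⟨c1.trans this.1, c3 this.2⟩, c4⟩
    have hnβ : ∀ i, (1 : ℝ) ≤ nm (β i) := fun i => by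
      exact_mod_cast nm_pos.2 (hD.bp i).ne_zero
    have hg1 : (1 : ℝ) ≤ nm g := by exact_mod_cast nm_pos.2 hg.ne_zero
    have hβ0 : (∏ i, β i) ≠ 0 := Finset.prod_ne_zero_iff.2 fun i _ => (hD.bp i).ne_zero
    have hβ1 : (1 : ℝ) ≤ nm (∏ i, β i) := by exact_mod_cast nm_pos.2 hβ0
    -- size of the modulus
    have hmod : (nm ((∏ i, β i) * g * q) : ℝ) ≤ X ^ (5 * K) := by
      rw [nm_mul, nm_mul]
      push_cast
      have e1 : (nm (∏ i, β i) : ℝ) = nm (β 0) * nm (β 1) * nm (β 2) := by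
        rw [Fin.prod_univ_three, nm_mul, nm_mul]
        push_cast
        ring
      rw [e1]
      have e2 : X ^ (5 * K) = X ^ K * X ^ K * X ^ K * X ^ K * X ^ K := by
        rw [← Real.rpow_add hX0, ← Real.rpow_add hX0, ← Real.rpow_add hX0, ← Real.rpow_add hX0]
        congr 1; ring
      rw [e2]
      have := hD.bK 0
      have := hD.bK 1
      have := hD.bK 2
      gcongr
    -- the exponents
    have habs : |∑ i, (p i).z / L - max 0 (nL X us β - Real.log (nm g) / L)| ≤ r / L := by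
      have e1 : nL X us β - Real.log (nm g) / L =
          (∑ i, (us i).z - Real.log (nm (∏ i, β i)) - Real.log (nm g)) / L := by
        unfold nL
        rw [← hL]
        ring
      rw [e1]
      set s := (∑ i, (us i).z - Real.log (nm (∏ i, β i)) - Real.log (nm g)) with hs
      have e2 : ∑ i, (p i).z / L = (∑ i, (p i).z) / L := by rw [Finset.sum_div]
      rw [e2]
      have h0 : 0 ≤ (∑ i, (p i).z) / L :=
        div_nonneg (Finset.sum_nonneg fun i _ => (hpl i).2) hL0.le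
      obtain ⟨b1, b2⟩ := abs_le.1 hLN
      have b3 : (∑ i, (p i).z) / L - s / L ≤ r / L := by
        rw [← sub_div]; exact div_le_div_of_nonneg_right b2 hL0.le
      have b4 : -(r / L) ≤ (∑ i, (p i).z) / L - s / L := by
        rw [← sub_div, ← neg_div]; exact div_le_div_of_nonneg_right b1 hL0.le
      rw [abs_le]
      rcases le_total 0 (s / L) with h5 | h5
      · rw [max_eq_right h5]; exact ⟨b4, b3⟩
      · rw [max_eq_left h5]; constructor <;> linarith
    have hs1 : max 0 (nL X us β - Real.log (nm g) / L) ≤ ∑ i, (us i).z / L := by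
      have e2 : ∑ i, (us i).z / L = (∑ i, (us i).z) / L := by rw [Finset.sum_div]
      rw [e2]
      refine max_le (div_nonneg (Finset.sum_nonneg fun i _ => hD.z0 i) hL0.le) ?_
      unfold nL
      rw [← hL, ← sub_div]
      refine div_le_div_of_nonneg_right ?_ hL0.le
      have := Real.log_nonneg hβ1
      have := Real.log_nonneg hg1
      linarith
    obtain ⟨y, hy1, hy2, hy3⟩ := proj3 (z := fun i => (us i).z / L) (z' := fun i => (p i).z / L)
      hrL0 (fun i => div_nonneg (hpl i).2 hL0.le)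
      (fun i => by
        have := (hp i).2.2.2.2
        rw [← add_div]
        exact div_le_div_of_nonneg_right this hL0.le)
      (fun i => div_nonneg (hD.z0 i) hL0.le) habs (le_max_left _ _) hs1
    have hv : |k / L - l / L| ≤ η := by
      rw [← sub_div, abs_div, abs_of_pos hL0]
      have h5 : |k - l| ≤ r := by rw [abs_sub_comm]; exact hlk
      have h6 : |k - l| / L ≤ r / L := div_le_div_of_nonneg_right h5 hL0.le
      linarith
    have hkL : k / L ≤ K := by rw [div_le_iff₀ hL0]; exact hkK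
    have hkL0 : 0 ≤ k / L := by positivity
    have hlL0 : 0 ≤ l / L := by positivity
    have hlL : l / L ≤ K + 1 := by
      rw [div_le_iff₀ hL0]
      have h5 := (abs_le.1 hlk).2
      nlinarith
    have hzL : ∀ i, (us i).z / L ≤ K := fun i => by rw [div_le_iff₀ hL0]; exact hD.zK i
    have hpL : ∀ i, (p i).z / L ≤ K + 1 := fun i => by
      rw [div_le_iff₀ hL0]
      have h5 := (hp i).2.2.2.2
      have h6 := hD.zK i
      nlinarith
    have hpL0 : ∀ i, 0 ≤ (p i).z / L := fun i => div_nonneg (hpl i).2 hL0.le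
    have hE1 := Hu (k / L) (l / L) y (fun i => (p i).z / L)
      (by rw [abs_of_nonneg hkL0]; linarith) (by rw [abs_of_nonneg hlL0]; linarith)
      (fun i => by rw [abs_of_nonneg (hy1 i).1]; have := (hy1 i).2; have := hzL i; linarith)
      (fun i => by rw [abs_of_nonneg (hpL0 i)]; have := hpL i; linarith) hv
      (fun i => (hy3 i).trans hηL)
    have hE2 := hRH y hy1 hy2
    have hcN := one_le_cN p us
    have hSN := H1 X hXX ((∏ i, β i) * g * q)
      (mul_ne_zero (mul_ne_zero hβ0 hg.ne_zero) hq) hmod l p hpl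
      (fun i => by
        rw [(hp i).2.1]
        refine (hD.dK i).trans (Real.rpow_le_rpow_of_exponent_le hX1.le (by linarith)))
      (by
        rw [fbT_le]
        constructor
        · intro i
          have h0 := hpL0 0
          have h1 := hpL0 1
          have h2 := hpL0 2
          have h3 := hpL 0
          have h4 := hpL 1
          have h5 := hpL 2
          fin_cases i
          · show -σ ≤ l / L ∧ l / L ≤ 2 * K + 2 + σ
            constructor <;> linarith
          · show -σ ≤ (p 0).z / L ∧ (p 0).z / L ≤ 2 * K + 2 + σ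
            constructor <;> linarith
          · show -σ ≤ (p 1).z / L ∧ (p 1).z / L ≤ 2 * K + 2 + σ
            constructor <;> linarith
          · show -σ ≤ (p 2).z / L ∧ (p 2).z / L ≤ 2 * K + 2 + σ
            constructor <;> linarith
        · intro τ
          show -σ ≤ (0 : ℝ) ∧ (0 : ℝ) ≤ 2 * K + 2 + σ
          constructor <;> linarith)
      (H * cN (List.ofFn p) (List.ofFn us)) (by nlinarith)
      (fun i => height_child (by linarith) i (hD.tH i))
    refine hSN.trans ?_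
    have e5 : X ^ (E (xv (l / L) fun i => (p i).z / L) + ε / 8) ≤ X ^ (e + ε / 4) :=
      Real.rpow_le_rpow_of_exponent_le hX1.le (by linarith)
    have e6 : (H * cN (List.ofFn p) (List.ofFn us)) ^ M =
        H ^ M * cN (List.ofFn p) (List.ofFn us) ^ (M : ℝ) := by
      rw [mul_pow, Real.rpow_natCast]
    rw [e6]
    have h7 : (0 : ℝ) ≤ cN (List.ofFn p) (List.ofFn us) ^ (M : ℝ) := by positivity
    calc H ^ M * cN (List.ofFn p) (List.ofFn us) ^ (M : ℝ) *
          X ^ (E (xv (l / L) fun i => (p i).z / L) + ε / 8) ≤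
          H ^ M * cN (List.ofFn p) (List.ofFn us) ^ (M : ℝ) * X ^ (e + ε / 4) := by gcongr
      _ = _ := by ring

end Crest.Agent.R017.TEM792
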