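import Crest.Agent.R017.VFalb_436
import Crest.Agent.R017.TEM_792

/-!
# Row 17, E4, the T-energy at lists: `VFA` from 436's `VF_alb` (helper792)
-/

set_option autoImplicit false
set_option linter.unusedVariables false

noncomputable section

namespace Crest.Agent.R017.TEM792

open Crest.Agent.R012 Crest.Agent.R012.Eis
open Crest.Agent.R017.FE47 (PU)
open Crest.Agent.R017.Prov71
open Crest.Agent.R017.B770
open Crest.Agent.R017.HP842 (pc)
open Crest.Agent.R017.I1146 (ChN LN cN SN)
open Crest.Agent.R017.E1551 (tws sg)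
open Crest.Agent.R017.Rough381 (VF)
open Crest.Agent.R017.TEL792 (PM)
open Crest.Agent.R017.E5k54 (alb)

/-- **the moments of the subsequences of `alb` from the claims of the children** -/
theorem vfa_of {h : ℝ → ℝ} {c : ℝ} (hpu : PU h c) : VFA h := by
  intro B₀ ε M hB₀ hε hM
  obtain ⟨C, r, hC, hr, H⟩ := VFa436.VF_alb hpu 3 (B₀ := max 1 B₀)
    (zero_le_one.trans (le_max_left _ _)) hε hM
  refine ⟨C, r, hC, hr, fun X hX P hP us hus β hβ g hg hgs hgX q hq k hk hkX t Bd hBd HC => ?_⟩
  have hX1 : (1 : ℝ) ≤ X := by linarith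
  have hlog : 0 ≤ Real.log X := Real.log_nonneg hX1
  have h := H X hX1 P hP q 3 us le_rfl
    (fun i => (hus i).2.trans (by nlinarith [le_max_left 1 B₀])) β (fun i => (hβ i).1) g hg hgs
    (hgX.trans (Real.rpow_le_rpow_of_exponent_le hX1 (le_max_right _ _))) k t hk
    (hkX.trans (by nlinarith [le_max_right 1 B₀])) Bd hBd
    (fun l ps' hl hch hLN hlk => HC l ps' hl hch (by rwa [LN_ofFn] at hLN) hlk)
  refine (le_of_eq ?_).trans (h.trans (le_of_eq ?_))
  · rfl
  · norm_num
    ring

end Crest.Agent.R017.TEM792
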