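import Crest.Agent.R017.TEM_792

/-!
# Row 17, E4 (StrU), structured x-side : the T-functional of the cells as one number (helper792)

* `sum_inv_pb` : `∑_{c ≤ L} 1 / nm c`
* **`tss_gen`** : for an arbitrary `α`
* **`tss_num`** : for `alb` of three lumps, from a real hypothesis
-/

set_option autoImplicit false
set_option linter.unusedVariables false
set_option linter.unusedSectionVars false

noncomputable section

open Set

namespace Crest.Agent.R017.TEM792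

open Crest.Agent.R012 Crest.Agent.R012.Eis
open Crest.Agent.R012.LS2 (S mem_S bl mem_bl)
open Crest.Agent.R017.FE47 (PU cx)
open Crest.Agent.R017.XG702 (Pcs)
open Crest.Agent.R017.Prov71
open Crest.Agent.R017.B770
open Crest.Agent.R017.HP842 (pc Pc)
open Crest.Agent.R017.TM708
open Crest.Agent.R017.UBT973 (UBs)
open Crest.Agent.R017.E1551 (tws sg Adm)
open Crest.Agent.R017.Rough381 (VF)
open Crest.Agent.R017.TEL792 (PM te_ball)
open Crest.Agent.R017.E5k54 (alb)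

/-- the sum of the inverse norms -/
lemma sum_inv_pb {L : ℝ} (hL : 0 ≤ L) :
    ∑ c ∈ primBall ⌊L⌋₊, 1 / (nm c : ℝ) ≤ 100 * (1 + Real.log (1 + L)) := by
  have hsub : primBall ⌊L⌋₊ ⊆ bl L := by
    intro c hc
    obtain ⟨h1, h2⟩ := mem_primBall.mp hc
    rw [mem_bl hL]
    exact ⟨h2.ne_zero, (Nat.le_floor_iff hL).mp h1⟩
  refine (Finset.sum_le_sum_of_subset_of_nonneg hsub fun _ _ _ => by positivity).trans ?_
  refine (Prov71.sum_inv_bl L).trans ?_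
  have h1 : Real.log (⌊L⌋₊ : ℝ) ≤ Real.log (1 + L) := by
    by_cases h0 : (⌊L⌋₊ : ℝ) = 0
    · rw [h0, Real.log_zero]
      exact Real.log_nonneg (by linarith)
    · refine Real.log_le_log (lt_of_le_of_ne (Nat.cast_nonneg _) (Ne.symm h0)) ?_
      have := Nat.floor_le hL
      linarith
  linarith

/-- **the T-functional of the cells, arbitrary `α`** -/
theorem tss_gen (R : ℝ) (hR : 0 ≤ R) (A : ℕ) (hA : 2 ≤ A) {J : ℝ} (hJ0 : 0 ≤ J)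
    (hAJ : J + 1 < A) : ∃ C : ℝ, 0 ≤ C ∧ ∀ (Y X L M : ℝ), 0 ≤ Y → 0 < X → 0 ≤ L → 0 ≤ M →
      ∀ α : Eis → ℂ, Adm Y X R α → ∀ (Es : Finset Eis) (E : ℝ), 0 ≤ E →
      (∀ e ∈ Es, IsPrim e ∧ (nm e : ℝ) ≤ E) → ∀ (e₀ c₀ : Eis), IsPrim e₀ → c₀ ≠ 0 → ∀ ex : ℝ,
      (∀ e ∈ Es, ∀ c : Eis, IsPrim c → (nm c : ℝ) ≤ L → ∀ s : Eis, s ≠ 0 →
        (nm s : ℝ) ^ 3 ≤ L / (nm c : ℝ) ^ 3 * nm c₀ * nm e₀ → ∀ t : ℝ,
        VF (L / (nm c : ℝ) ^ 3 * nm c₀ * nm e₀ / (nm s : ℝ) ^ 3)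
          (PM (c * s) (tws (sg α (e * e₀)) t)) ≤
          M / ((nm e : ℝ) ^ (4 / 3 : ℝ) * (nm c : ℝ) ^ (1 - ex)) / nm s * (1 + |t|) ^ J) →
      ∑ c ∈ primBall ⌊L⌋₊, (nm c : ℝ) ^ (-ex) * ∑ e ∈ Es, ∑ j ∈ primBall ⌊L / (nm c : ℝ) ^ 3⌋₊,
        ‖E3D579.TE0 (fun m => α (e * m)) 1 (c₀ * (j * c ^ 3)) e₀‖ ^ 2 ≤
        C * (1 + Real.log (1 + L * nm c₀ * nm e₀)) * (1 + Real.log (1 + L)) *
          (1 + Real.log (1 + E)) * X ^ (-(1 / 3) : ℝ) * M := by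
  obtain ⟨C, hC, H⟩ := te_ball R hR A hA hJ0 hAJ
  refine ⟨C * 100 * 100, by positivity, ?_⟩
  intro Y X L M hY hX hL hM α hα Es E hE hEs e₀ c₀ he₀ hc₀ ex hyp
  have he₀n := nm_pos_r he₀.ne_zero
  have hc₀n := nm_pos_r hc₀
  set Z : ℝ := L * nm c₀ * nm e₀ with hZ
  have hZ0 : 0 ≤ Z := by positivity
  have hlZ : 0 ≤ Real.log (1 + Z) := Real.log_nonneg (by linarith)
  have hlL : 0 ≤ Real.log (1 + L) := Real.log_nonneg (by linarith)
  have hlE : 0 ≤ Real.log (1 + E) := Real.log_nonneg (by linarith)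
  have hone : ∀ c ∈ primBall ⌊L⌋₊, ∀ e ∈ Es,
      ∑ j ∈ primBall ⌊L / (nm c : ℝ) ^ 3⌋₊,
        ‖E3D579.TE0 (fun m => α (e * m)) 1 (c₀ * (j * c ^ 3)) e₀‖ ^ 2 ≤
      C * (1 + Real.log (1 + Z)) * X ^ (-(1 / 3) : ℝ) * M *
        ((nm c : ℝ) ^ ex * (1 / nm c)) * (1 / nm e) := by
    intro c hc e he
    obtain ⟨hc1, hc2⟩ := mem_primBall.mp hc
    have hcL : (nm c : ℝ) ≤ L := (Nat.le_floor_iff hL).mp hc1
    have hcn := nm_pos_r hc2.ne_zero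
    have hcn1 : (1 : ℝ) ≤ nm c := by exact_mod_cast nm_pos.2 hc2.ne_zero
    have hen := nm_pos_r (hEs e he).1.ne_zero
    have hL3 : 0 ≤ L / (nm c : ℝ) ^ 3 := by positivity
    have hM' : 0 ≤ M / ((nm e : ℝ) ^ (4 / 3 : ℝ) * (nm c : ℝ) ^ (1 - ex)) := by positivity
    have h1 := H Y X (L / (nm c : ℝ) ^ 3) (M / ((nm e : ℝ) ^ (4 / 3 : ℝ) * (nm c : ℝ) ^ (1 - ex)))
      hY hX hL3 hM' α hα e e₀ c c₀ (hEs e he).1 he₀ hc2.ne_zero hc₀ (hyp e he c hc2 hcL)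
    refine h1.trans ?_
    have h2 : L / (nm c : ℝ) ^ 3 * nm c₀ * nm e₀ ≤ Z := by
      rw [hZ]
      have : L / (nm c : ℝ) ^ 3 ≤ L := div_le_self hL (one_le_pow₀ hcn1)
      gcongr
    have h20 : 0 ≤ L / (nm c : ℝ) ^ 3 * nm c₀ * nm e₀ := by positivity
    have h3 : Real.log (1 + L / (nm c : ℝ) ^ 3 * nm c₀ * nm e₀) ≤ Real.log (1 + Z) :=
      Real.log_le_log (by linarith) (by linarith)
    have h4 : (X / nm e) ^ (-(1 / 3) : ℝ) = X ^ (-(1 / 3) : ℝ) * (nm e : ℝ) ^ (1 / 3 : ℝ) := by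
      rw [Real.div_rpow hX.le hen.le, Real.rpow_neg hen.le (1 / 3), div_inv_eq_mul]
    have h5 : (nm e : ℝ) ^ (1 / 3 : ℝ) / (nm e : ℝ) ^ (4 / 3 : ℝ) = 1 / nm e := by
      rw [← Real.rpow_sub hen, show (1 / 3 : ℝ) - 4 / 3 = -1 by norm_num, Real.rpow_neg_one,
        one_div]
    have h6 : 1 / (nm c : ℝ) ^ (1 - ex) = (nm c : ℝ) ^ ex * (1 / nm c) := by
      rw [Real.rpow_sub hcn, Real.rpow_one]
      field_simp
    calc C * (1 + Real.log (1 + L / (nm c : ℝ) ^ 3 * nm c₀ * nm e₀)) *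
          (X / nm e) ^ (-(1 / 3) : ℝ) * (M / ((nm e : ℝ) ^ (4 / 3 : ℝ) * (nm c : ℝ) ^ (1 - ex)))
        ≤ C * (1 + Real.log (1 + Z)) * (X / nm e) ^ (-(1 / 3) : ℝ) *
          (M / ((nm e : ℝ) ^ (4 / 3 : ℝ) * (nm c : ℝ) ^ (1 - ex))) := by gcongr
      _ = C * (1 + Real.log (1 + Z)) * X ^ (-(1 / 3) : ℝ) * M *
          (1 / (nm c : ℝ) ^ (1 - ex)) *
            ((nm e : ℝ) ^ (1 / 3 : ℝ) / (nm e : ℝ) ^ (4 / 3 : ℝ)) := by
          rw [h4]; field_simp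
      _ = _ := by rw [h5, h6]
  set Q := C * (1 + Real.log (1 + Z)) * X ^ (-(1 / 3) : ℝ) * M with hQ
  have hQ0 : 0 ≤ Q := by positivity
  have hE1 : ∑ e ∈ Es, 1 / (nm e : ℝ) ≤ 100 * (1 + Real.log (1 + E)) := by
    refine le_trans ?_ (sum_inv_pb hE)
    refine Finset.sum_le_sum_of_subset_of_nonneg (fun e he => ?_) fun _ _ _ => by positivity
    exact mem_primBall.mpr ⟨Nat.le_floor (hEs e he).2, (hEs e he).1⟩
  have hone2 : ∀ c ∈ primBall ⌊L⌋₊, (nm c : ℝ) ^ (-ex) * ∑ e ∈ Es,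
      ∑ j ∈ primBall ⌊L / (nm c : ℝ) ^ 3⌋₊,
        ‖E3D579.TE0 (fun m => α (e * m)) 1 (c₀ * (j * c ^ 3)) e₀‖ ^ 2 ≤
      Q * (100 * (1 + Real.log (1 + E))) * (1 / nm c) := by
    intro c hc
    have hcn := nm_pos_r (mem_primBall.mp hc).2.ne_zero
    calc (nm c : ℝ) ^ (-ex) * ∑ e ∈ Es, ∑ j ∈ primBall ⌊L / (nm c : ℝ) ^ 3⌋₊,
          ‖E3D579.TE0 (fun m => α (e * m)) 1 (c₀ * (j * c ^ 3)) e₀‖ ^ 2
        ≤ (nm c : ℝ) ^ (-ex) * ∑ e ∈ Es, Q * ((nm c : ℝ) ^ ex * (1 / nm c)) * (1 / nm e) := by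
          refine mul_le_mul_of_nonneg_left (Finset.sum_le_sum fun e he => hone c hc e he)
            (by positivity)
      _ = ((nm c : ℝ) ^ (-ex) * (nm c : ℝ) ^ ex) * (Q * (1 / nm c) * ∑ e ∈ Es, 1 / (nm e : ℝ)) := by
          rw [← Finset.mul_sum]; ring
      _ = Q * (1 / nm c) * ∑ e ∈ Es, 1 / (nm e : ℝ) := by
          rw [← Real.rpow_add hcn, neg_add_cancel, Real.rpow_zero, one_mul]
      _ ≤ Q * (1 / nm c) * (100 * (1 + Real.log (1 + E))) := by gcongr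
      _ = _ := by ring
  refine (Finset.sum_le_sum hone2).trans ?_
  rw [← Finset.mul_sum]
  calc Q * (100 * (1 + Real.log (1 + E))) * ∑ c ∈ primBall ⌊L⌋₊, 1 / (nm c : ℝ)
      ≤ Q * (100 * (1 + Real.log (1 + E))) * (100 * (1 + Real.log (1 + L))) := by
        gcongr
        exact sum_inv_pb hL
    _ = _ := by rw [hQ]; ring

variable {Λ : Type*} {π : Λ → DPar} {h : ℝ → ℝ}

/-- **the T-functional of the cells as one number** -/
theorem tss_num {c₁ : ℝ} (hpu : PU h c₁) (hVF : VFA h) (hP : ∀ lam, (π lam).OK)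
    {E : (Fin 4 → ℝ) × (Kd → ℝ) → ℝ} (hE : Continuous E)
    (U : ∀ K : ℝ, UBs S3 Dq (TMF π h fun _ => 0) (fbT K) ∅ E) {ε : ℝ}
    (hε : 0 < ε) (K : ℝ) (hK : 1 ≤ K) (lam : Λ) : ∃ (M : ℕ) (X₀ : ℝ), 1 < X₀ ∧
    ∀ X : ℝ, X₀ ≤ X → ∀ H : ℝ, 1 ≤ H → ∀ (us : Fin 3 → Pq) (β : Fin 3 → Eis),
      LD X K H us β → ∀ L' : ℝ, 0 ≤ L' → L' ≤ X ^ K → ∀ Es : Finset Eis,
      (∀ e ∈ Es, IsPrim e ∧ (nm e : ℝ) ≤ X ^ K) → ∀ e₀ c₀ : Eis, IsPrim e₀ →
      c₀ ≠ 0 → (nm e₀ : ℝ) ≤ X ^ K → (nm c₀ : ℝ) ≤ X ^ K →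
      ∀ ex tT : ℝ, (∀ e ∈ Es, ∀ w x : ℝ, 0 ≤ w → 0 ≤ x →
        3 * w + 3 * x ≤ Real.log (L' * nm c₀ * nm e₀) / Real.log X →
        RH E (fun i => (us i).z / Real.log X)
          (Real.log (L' * nm c₀ * nm e₀) / Real.log X - 3 * w - 3 * x)
          (nL X us β - Real.log (nm e) / Real.log X - Real.log (nm e₀) / Real.log X)
          (tT - x - 4 / 3 * (Real.log (nm e) / Real.log X) - (1 - ex) * w)) →
      ∑ c ∈ primBall ⌊L'⌋₊, (nm c : ℝ) ^ (-ex) * ∑ e ∈ Es,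
        ∑ j ∈ primBall ⌊L' / (nm c : ℝ) ^ 3⌋₊, ‖E3D579.TE0
          (fun m => alb (fun i => pc h ((us i).pc (π lam))) β (e * m)) 1 (c₀ * (j * c ^ 3)) e₀‖ ^ 2 ≤
        H ^ M * X ^ (tT + ε) * Xn us β ^ (-(1 / 3) : ℝ) := by
  obtain ⟨M, X₁, hX₁, H1⟩ := tt_num hpu hVF hP hE U (show 0 < ε / 3 by positivity) K hK lam
  obtain ⟨X₂, hX₂, H3⟩ := big 200 (ε / 3) K (by positivity) (by norm_num) (by linarith)
  refine ⟨M, max X₁ X₂, lt_of_lt_of_le hX₁ (le_max_left _ _), ?_⟩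
  intro X hX H hH us β hD L' hL'0 hL'K Es hEs e₀ c₀ he₀ hc₀ he₀K hc₀K ex tT hRH
  have hXX : X₁ ≤ X := (le_max_left _ _).trans hX
  have hX1 : 1 < X := lt_of_lt_of_le hX₁ hXX
  have hX0 : 0 < X := by linarith
  set L := Real.log X with hL
  have hL0 : 0 < L := Real.log_pos hX1
  have he₀n := nm_pos_r he₀.ne_zero
  have hc₀n := nm_pos_r hc₀
  have hXn := Xn_pos us hD.bp
  have hXK1 : 1 ≤ X ^ K := Real.one_le_rpow hX1.le (by linarith)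
  have hq : 0 ≤ Xn us β ^ (-(1 / 3) : ℝ) := by positivity
  by_cases hL1 : 1 ≤ L'
  swap
  · have h0 : ⌊L'⌋₊ = 0 := Nat.floor_eq_zero.2 (not_le.1 hL1)
    have h1 : primBall 0 = ∅ := by
      rw [Finset.eq_empty_iff_forall_notMem]
      intro j hj
      rw [mem_primBall] at hj
      have := nm_pos.2 hj.2.ne_zero
      omega
    rw [h0, h1, Finset.sum_empty]
    positivity
  have hlogK : ∀ y : ℝ, 0 ≤ y → y ≤ X ^ K → 100 * (1 + Real.log (1 + y)) ≤ X ^ (ε / 3) := by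
    intro y hy hyK
    refine le_trans ?_ (H3 X ((le_max_right _ _).trans hX))
    have h1 : Real.log (1 + y) ≤ Real.log (2 * X ^ K) :=
      Real.log_le_log (by linarith) (by linarith)
    rw [Real.log_mul (by norm_num) (by positivity), Real.log_rpow hX0, ← hL] at h1
    have h2 : Real.log 2 ≤ 1 := by
      have := Real.log_two_lt_d9
      linarith
    have h3 : 0 ≤ K * L := by positivity
    linarith
  have hone : ∀ c ∈ primBall ⌊L'⌋₊, ∀ e ∈ Es,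
      ∑ j ∈ primBall ⌊L' / (nm c : ℝ) ^ 3⌋₊,
        ‖E3D579.TE0 (fun m => alb (fun i => pc h ((us i).pc (π lam))) β (e * m)) 1
          (c₀ * (j * c ^ 3)) e₀‖ ^ 2 ≤
      H ^ M * X ^ (tT + ε / 3) * Xn us β ^ (-(1 / 3) : ℝ) *
        ((nm c : ℝ) ^ ex * (1 / nm c)) * (1 / nm e) := by
    intro c hc e he
    obtain ⟨hc1, hc2⟩ := mem_primBall.mp hc
    have hcL : (nm c : ℝ) ≤ L' := (Nat.le_floor_iff hL'0).mp hc1
    have hcn := nm_pos_r hc2.ne_zero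
    have hcn1 : (1 : ℝ) ≤ nm c := by exact_mod_cast nm_pos.2 hc2.ne_zero
    obtain ⟨hep, heK⟩ := hEs e he
    have hen := nm_pos_r hep.ne_zero
    set w := Real.log (nm c) / L with hw
    set y := Real.log (nm e) / L with hy
    have hw0 : 0 ≤ w := div_nonneg (Real.log_nonneg hcn1) hL0.le
    have hZe : Real.log (L' / (nm c : ℝ) ^ 3 * nm c₀ * nm e₀) / L =
        Real.log (L' * nm c₀ * nm e₀) / L - 3 * w := by
      have e1 : L' / (nm c : ℝ) ^ 3 * nm c₀ * nm e₀ = L' * nm c₀ * nm e₀ / (nm c : ℝ) ^ 3 := by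
        ring
      rw [e1, Real.log_div (by positivity) (by positivity), Real.log_pow, hw]
      push_cast
      ring
    have h1 := H1 X hXX H hH us β hD (L' / (nm c : ℝ) ^ 3) (by positivity)
      ((div_le_self hL'0 (one_le_pow₀ hcn1)).trans hL'K) e e₀ c c₀ hep he₀ hc2.ne_zero hc₀ heK
      he₀K (hcL.trans hL'K) hc₀K (tT - 4 / 3 * y - (1 - ex) * w) (fun x hx0 hx => by
        rw [hZe] at hx ⊢
        have h2 := hRH e he w x hw0 hx0 (by linarith)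
        have e2 : tT - 4 / 3 * y - (1 - ex) * w - x = tT - x - 4 / 3 * y - (1 - ex) * w := by ring
        rw [e2]
        exact h2)
    refine h1.trans (le_of_eq ?_)
    have h4 : (Xn us β / nm e) ^ (-(1 / 3) : ℝ) =
        Xn us β ^ (-(1 / 3) : ℝ) * (nm e : ℝ) ^ (1 / 3 : ℝ) := by
      rw [Real.div_rpow hXn.le hen.le, Real.rpow_neg hen.le (1 / 3), div_inv_eq_mul]
    have hpow : ∀ (z : ℝ) (u : Eis), u ≠ 0 → X ^ (z * (Real.log (nm u) / L)) = (nm u : ℝ) ^ z := by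
      intro z u hu
      have hun := nm_pos_r hu
      rw [Real.rpow_def_of_pos hX0, Real.rpow_def_of_pos hun, ← hL]
      congr 1
      field_simp
    have h5 : X ^ (tT - 4 / 3 * y - (1 - ex) * w + ε / 3) =
        X ^ (tT + ε / 3) * (nm e : ℝ) ^ (-(4 / 3) : ℝ) * (nm c : ℝ) ^ (ex - 1) := by
      rw [← hpow (-(4 / 3)) e hep.ne_zero, ← hpow (ex - 1) c hc2.ne_zero, ← Real.rpow_add hX0,
        ← Real.rpow_add hX0]
      congr 1
      rw [← hw, ← hy]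
      ring
    have h6 : (nm e : ℝ) ^ (-(4 / 3) : ℝ) * (nm e : ℝ) ^ (1 / 3 : ℝ) = 1 / nm e := by
      rw [← Real.rpow_add hen, show (-(4 / 3) : ℝ) + 1 / 3 = -1 by norm_num, Real.rpow_neg_one,
        one_div]
    have h7 : (nm c : ℝ) ^ (ex - 1) = (nm c : ℝ) ^ ex * (1 / nm c) := by
      rw [Real.rpow_sub hcn, Real.rpow_one]
      ring
    rw [h4, h5, ← h7, ← h6]
    ring
  set Q := H ^ M * X ^ (tT + ε / 3) * Xn us β ^ (-(1 / 3) : ℝ) with hQ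
  have hQ0 : 0 ≤ Q := by positivity
  have hE1 : ∑ e ∈ Es, 1 / (nm e : ℝ) ≤ X ^ (ε / 3) := by
    refine le_trans ?_ (hlogK (X ^ K) (by positivity) le_rfl)
    refine le_trans ?_ (sum_inv_pb (by positivity))
    refine Finset.sum_le_sum_of_subset_of_nonneg (fun e he => ?_) fun _ _ _ => by positivity
    exact mem_primBall.mpr ⟨Nat.le_floor (hEs e he).2, (hEs e he).1⟩
  have hone2 : ∀ c ∈ primBall ⌊L'⌋₊, (nm c : ℝ) ^ (-ex) * ∑ e ∈ Es,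
      ∑ j ∈ primBall ⌊L' / (nm c : ℝ) ^ 3⌋₊,
        ‖E3D579.TE0 (fun m => alb (fun i => pc h ((us i).pc (π lam))) β (e * m)) 1
          (c₀ * (j * c ^ 3)) e₀‖ ^ 2 ≤
      Q * X ^ (ε / 3) * (1 / nm c) := by
    intro c hc
    have hcn := nm_pos_r (mem_primBall.mp hc).2.ne_zero
    calc _ ≤ (nm c : ℝ) ^ (-ex) * ∑ e ∈ Es, Q * ((nm c : ℝ) ^ ex * (1 / nm c)) * (1 / nm e) := by
          refine mul_le_mul_of_nonneg_left (Finset.sum_le_sum fun e he => hone c hc e he)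
            (by positivity)
      _ = ((nm c : ℝ) ^ (-ex) * (nm c : ℝ) ^ ex) * (Q * (1 / nm c) * ∑ e ∈ Es, 1 / (nm e : ℝ)) := by
          rw [← Finset.mul_sum]; ring
      _ = Q * (1 / nm c) * ∑ e ∈ Es, 1 / (nm e : ℝ) := by
          rw [← Real.rpow_add hcn, neg_add_cancel, Real.rpow_zero, one_mul]
      _ ≤ Q * (1 / nm c) * X ^ (ε / 3) := by gcongr
      _ = _ := by ring
  refine (Finset.sum_le_sum hone2).trans ?_
  rw [← Finset.mul_sum]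
  have hL2 := (sum_inv_pb hL'0).trans (hlogK L' hL'0 hL'K)
  calc Q * X ^ (ε / 3) * ∑ c ∈ primBall ⌊L'⌋₊, 1 / (nm c : ℝ)
      ≤ Q * X ^ (ε / 3) * X ^ (ε / 3) := by gcongr
    _ = H ^ M * (X ^ (tT + ε / 3) * X ^ (ε / 3) * X ^ (ε / 3)) * Xn us β ^ (-(1 / 3) : ℝ) := by
        rw [hQ]; ring
    _ = _ := by
        rw [← Real.rpow_add hX0, ← Real.rpow_add hX0]
        congr 3
        ring

end Crest.Agent.R017.TEM792
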