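import Crest.Agent.R017.TEQ_792

/-!
# Row 17, T-numbers at shortened lists, II (helper792)

* `vn_f3d`, `vn_alXd` : `vn_f3`, `vn_alX` with two functions and small slopes
* `RHx`, `rf_of_rh` : exact real hypothesis
* **`cl_pt`**, **`vn_pt`**, **`vn_ptX`** : one closed form for all levels and lengths
* **`vn_gt`**, **`vn_gtX`** : the closed form depends on the level and the total length only
-/

set_option autoImplicit false
set_option linter.unusedVariables false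
set_option linter.unusedSectionVars false

noncomputable section

open scoped ComplexConjugate

namespace Crest.Agent.R017.TEX792

open Crest.Agent.R012 Crest.Agent.R012.Eis
open Crest.Agent.R012.LS2 (S mem_S bl mem_bl)
open Crest.Agent.R017.XG702 (Pcs)
open Crest.Agent.R017.XT71 (Sys mx le_mx)
open Crest.Agent.R017.CM106 (TG FS)
open Crest.Agent.R017.HP842 (Pc pc Ker ker_Kg Kg)
open Crest.Agent.R017.FE47 (PU cx)
open Crest.Agent.R017.Prov71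
open Crest.Agent.R017.B770
open Crest.Agent.R017.ER911
open Crest.Agent.R017.End699 (prin0)
open Crest.Agent.R017.E1551 (tws sg Adm)
open Crest.Agent.R017.Rough381 (VF)
open Crest.Agent.R017.TEL792 (PM FS_PM)
open Crest.Agent.R017.E5k54 (alb)
open Crest.Agent.R017.E5B71 (Pt)
open Crest.Agent.R017.I1146 (tw3 Dom dom_tw ds ChN LN cN)
open Crest.Agent.R017.I1K764 (SNK)
open Crest.Agent.R017.LegK545 (VK VK_Kg)
open Crest.Agent.R017.TEM792 (nm_pos_r VN Xn Xn_pos Adm_alb nL LD)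
open Crest.Agent.R017.ExP960 (BdX stz u3 u3' ph ph' norm_ph norm_ph' oc)
open Crest.Agent.R017.E4Df372 (alX f3')
open Crest.Agent.R017.Red848 (red Sh Exc exists_sh red_ok)
open Crest.Agent.R017.VFa436 (nm_prodF)
open Crest.Agent.R017.TM708
open Crest.Agent.R017.TK708 (Wd tmg_nearW tq tq_K AllT)
open Crest.Agent.R017.XS0298 (S0K)
open Crest.Agent.R017.PX764 (Dk)

/-! ### two functions -/

/-- **`VN` for the three twisted lumps (class N)** -/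
theorem vn_f3d {h : ℝ → ℝ} {c : ℝ} (hpu : PU h c) {ε : ℝ} (hε : 0 < ε) {δ : ℝ} (hδ : 0 < δ)
    (K : ℝ) (hK : 1 ≤ K) (M : ℕ) : ∃ r : ℝ, 0 ≤ r ∧ ∀ (P : DPar), P.OK → ∀ s : Eis,
    s ∈ FE47.SM P.n → ∃ X₀ : ℝ, 1 < X₀ ∧ ∀ X : ℝ, X₀ ≤ X → ∀ H : ℝ, 1 ≤ H → ∀ (us : Fin 3 → Pq) (β : Fin 3 → Eis),
      (∀ i, (us i).z ≤ K * Real.log X) → (∀ i, IsPrim (β i)) → ∀ F F' : ℝ → ℝ → ℝ,
      (∀ v σ γ, 0 ≤ v → 0 ≤ σ → σ ≤ δ → F (v + σ) γ ≤ F' v γ + σ) →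
      ClK Kg h P X H M r (K + 1) us β F →
      VN X H M K (alb (fun i => pc h (Pt P s (us i))) β) (fun v γ => F' v γ + ε) := by
  obtain ⟨r, X₁, hr, hX₁, H1⟩ := vk_cl ker_Kg hpu (show 0 < ε / 4 by positivity) (K + 1)
    (by linarith) M
  refine ⟨r, hr, fun P hP s hs => ?_⟩
  have hs0 : s ≠ 0 := hs.1
  have hsn := nm_pos_r hs0
  have hsn1 : (1 : ℝ) ≤ nm s := by exact_mod_cast nm_pos.2 hs0
  obtain ⟨X₂, hX₂, H2⟩ := const_le ((ds s).card : ℝ) (ε / 4) (by positivity)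
  obtain ⟨X₃, hX₃, H3⟩ := const_le ((nm s : ℝ) ^ 2) (min 1 (min δ (ε / 4)))
    (by positivity)
  refine ⟨max X₁ (max X₂ X₃), lt_of_lt_of_le hX₁ (le_max_left _ _), ?_⟩
  intro X hX H hH us β hz hβ F F' hF hcl g hg hgs hgK q hq hqK k hk hkK t
  have hXX1 : X₁ ≤ X := (le_max_left _ _).trans hX
  have hXX2 : X₂ ≤ X := ((le_max_left _ _).trans (le_max_right _ _)).trans hX
  have hXX3 : X₃ ≤ X := ((le_max_right _ _).trans (le_max_right _ _)).trans hX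
  have hX1 : 1 < X := lt_of_lt_of_le hX₁ hXX1
  have hX0 : 0 < X := by linarith
  set L := Real.log X with hL
  have hL0 : 0 < L := Real.log_pos hX1
  have hL' := H3 X hXX3
  have hls : 0 ≤ 2 * Real.log (nm s) := by
    have := Real.log_nonneg hsn1
    linarith
  have hls2 : 2 * Real.log (nm s) ≤ min 1 (min δ (ε / 4)) * L := by
    have h1 := Real.log_le_log (by positivity) hL'
    rw [Real.log_pow, Real.log_rpow hX0] at h1
    exact_mod_cast h1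
  have hls3 : 2 * Real.log (nm s) ≤ L := hls2.trans (by
    have := min_le_left 1 (min δ (ε / 4))
    nlinarith)
  have hls4 : 2 * Real.log (nm s) / L ≤ ε / 4 := by
    rw [div_le_iff₀ hL0]
    exact hls2.trans (mul_le_mul_of_nonneg_right ((min_le_right _ _).trans (min_le_right _ _))
      hL0.le)
  have hls5 : 2 * Real.log (nm s) / L ≤ δ := by
    rw [div_le_iff₀ hL0]
    exact hls2.trans (mul_le_mul_of_nonneg_right ((min_le_right _ _).trans (min_le_left _ _))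
      hL0.le)
  set al := alb (fun i => pc h ((us i).pc P)) β with hal
  have hprim : ∀ n, al n ≠ 0 → IsPrim n := fun n hn =>
    P1e54.alb_prim (fun i m hm => pc_prim' hm) hβ hn
  have hcop : ∀ n, al n ≠ 0 → IsCoprime s n := fun n hn =>
    (FE47.SM.coprime hs (alb_cop hP hn)).symm
  have e1 : alb (fun i => pc h (Pt P s (us i))) β =
      fun m => sy s (∏ i, β i) * tw3 s al m :=
    alb_tw (f := fun i => pc h ((us i).pc P)) (fun i m hm => pc_prim' hm)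
      (fun i m => pc_Pt h P s (us i) m) hβ
  rw [e1]
  have hβp : IsPrim (∏ i, β i) := HP842.isPrim_prod hβ
  have hV1 : 1 ≤ Real.exp k := Real.one_le_exp hk
  refine (vf_tw hs0 hprim hcop (Char766.norm_sy_le hβp) hg q t hV1).trans ?_
  set k' := k + 2 * Real.log (nm s) with hk'
  have e2 : Real.exp k * (nm s : ℝ) ^ 2 = Real.exp k' := by
    rw [hk', Real.exp_add]
    congr 1
    rw [two_mul, Real.exp_add, Real.exp_log hsn]
    ring
  rw [e2, ← VK_Kg]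
  have hup : X ^ K ≤ X ^ (K + 1) := Real.rpow_le_rpow_of_exponent_le hX1.le (by linarith)
  have h1 := H1 X hXX1 H hH P hP us β (fun i => (hz i).trans (by nlinarith)) hβ F hcl g hg hgs
    (hgK.trans hup) q hq (hqK.trans hup) k' (by positivity) (by rw [hk', ← hL]; nlinarith) t
  rw [← hal, ← hL] at h1
  set γ := Real.log (nm g) / L with hγ
  have h2 : F (k' / L) γ ≤ F' (k / L) γ + ε / 4 := by
    have h3 := hF (k / L) (2 * Real.log (nm s) / L) γ (by positivity) (by positivity) hls5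
    have e3 : k' / L = k / L + 2 * Real.log (nm s) / L := by rw [hk']; ring
    rw [e3]
    linarith
  have hD := H2 X hXX2
  have h4 : X ^ (F (k' / L) γ + ε / 4) ≤ X ^ (F' (k / L) γ + ε / 4 + ε / 4) :=
    Real.rpow_le_rpow_of_exponent_le hX1.le (by linarith)
  have hHM : (0 : ℝ) ≤ H ^ M := by positivity
  have ht : (0 : ℝ) ≤ (1 + |t|) ^ (3 * (M : ℝ)) := by positivity
  have h5 : VK Kg (Real.exp k') (PM q (tws (sg al g) t)) ≤
      H ^ M * X ^ (F' (k / L) γ + ε / 4 + ε / 4) * (1 + |t|) ^ (3 * (M : ℝ)) := by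
    refine h1.trans ?_
    gcongr
  calc ((ds s).card : ℝ) * VK Kg (Real.exp k') (PM q (tws (sg al g) t))
      ≤ X ^ (ε / 4) * (H ^ M * X ^ (F' (k / L) γ + ε / 4 + ε / 4) *
        (1 + |t|) ^ (3 * (M : ℝ))) :=
        mul_le_mul hD h5 (LegK545.VK_nonneg _ _ _) (by positivity)
    _ = H ^ M * (X ^ (ε / 4) * X ^ (F' (k / L) γ + ε / 4 + ε / 4)) *
        (1 + |t|) ^ (3 * (M : ℝ)) := by ring
    _ ≤ H ^ M * X ^ (F' (k / L) γ + ε) * (1 + |t|) ^ (3 * (M : ℝ)) := by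
        have h6 : X ^ (ε / 4) * X ^ (F' (k / L) γ + ε / 4 + ε / 4) ≤ X ^ (F' (k / L) γ + ε) := by
          rw [← Real.rpow_add hX0]
          exact Real.rpow_le_rpow_of_exponent_le hX1.le (by linarith)
        gcongr

/-- **`VN` of 372's `alX` (class E)** -/
theorem vn_alXd {h : ℝ → ℝ} {c : ℝ} (hpu : PU h c) {ε : ℝ} (hε : 0 < ε) {δ : ℝ} (hδ : 0 < δ)
    (K : ℝ) (hK : 1 ≤ K) (M : ℕ) (hM : 12 ≤ M) : ∃ r : ℝ, 0 ≤ r ∧ ∀ (P : DPar), P.OK →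
    Exc P → ∀ t : Eis, t ∈ FE47.SM P.n → ∃ X₀ : ℝ, 1 < X₀ ∧ ∀ X : ℝ, X₀ ≤ X → ∀ H : ℝ, 1 ≤ H →
      ∀ (a : BdX) (β : Fin 3 → Eis) (s₀ : ℝ), LDX X K H s₀ a β → ∀ F F' : ℝ → ℝ → ℝ,
      (∀ v σ γ, 0 ≤ v → 0 ≤ σ → σ ≤ δ → F (v + σ) γ ≤ F' v γ + σ) →
      ClK Dk h (red P) X H M r (K + 1) (u3 a) β F →
      ClK Dk h (red P) X H M r (K + 1) (u3' a) β F →
      VN X H M K (alX P h t a β) (fun v γ => max (F' v γ)
        (2 / 3 * v + 5 / 3 * (nL X (u3 a) β - γ) - max 0 (s₀ - γ)) + ε) := by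
  obtain ⟨r, X₁, hr, hX₁, H1⟩ := vf_xN hpu (show 0 < ε / 4 by positivity) (K + 1)
    (by linarith) M hM
  refine ⟨r, hr, fun P hP hE t ht => ?_⟩
  obtain ⟨k₀, hk₀⟩ := exists_sh hP.ψ hE
  set s : Eis := t * k₀ ^ 2 with hs
  have hs0 : s ≠ 0 := mul_ne_zero ht.1 (pow_ne_zero 2 hk₀.k0)
  have hscop : ∀ n : Eis, IsPrim n → IsCoprime n P.n → IsCoprime s n := fun n hn hnn =>
    ((FE47.SM.coprime ht hnn).mul_right (hk₀.cop hn hnn).pow_right).symm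
  have hsn := nm_pos_r hs0
  have hsn1 : (1 : ℝ) ≤ nm s := by exact_mod_cast nm_pos.2 hs0
  obtain ⟨X₂, hX₂, H2⟩ := const_le ((ds s).card : ℝ) (ε / 4) (by positivity)
  obtain ⟨X₃, hX₃, H3⟩ := const_le ((nm s : ℝ) ^ 2) (min 1 (min δ (ε / 4)))
    (by positivity)
  obtain ⟨X₄, hX₄, H4⟩ := const_le (nm P.n : ℝ) 1 one_pos
  refine ⟨max X₁ (max X₂ (max X₃ X₄)), lt_of_lt_of_le (by linarith) (le_max_left _ _), ?_⟩
  intro X hX H hH a β s₀ hL0' F F' hF hcl hcl' g hg hgs hgK q hq hqK k hk hkK τ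
  have hXX1 : X₁ ≤ X := (le_max_left _ _).trans hX
  have hXX2 : X₂ ≤ X := ((le_max_left _ _).trans (le_max_right _ _)).trans hX
  have hXX3 : X₃ ≤ X := ((le_max_left _ _).trans ((le_max_right _ _).trans
    (le_max_right _ _))).trans hX
  have hXX4 : X₄ ≤ X := ((le_max_right _ _).trans ((le_max_right _ _).trans
    (le_max_right _ _))).trans hX
  have hX1 : 1 < X := by linarith
  have hX0 : 0 < X := by linarith
  set L := Real.log X with hL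
  have hL0 : 0 < L := Real.log_pos hX1
  have hL' := H3 X hXX3
  have hls : 0 ≤ 2 * Real.log (nm s) := by
    have := Real.log_nonneg hsn1
    linarith
  have hls2 : 2 * Real.log (nm s) ≤ min 1 (min δ (ε / 4)) * L := by
    have h1 := Real.log_le_log (by positivity) hL'
    rw [Real.log_pow, Real.log_rpow hX0] at h1
    exact_mod_cast h1
  have hls3 : 2 * Real.log (nm s) ≤ L := hls2.trans (by
    have := min_le_left 1 (min δ (ε / 4))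
    nlinarith)
  have hls4 : 2 * Real.log (nm s) / L ≤ ε / 4 := by
    rw [div_le_iff₀ hL0]
    exact hls2.trans (mul_le_mul_of_nonneg_right ((min_le_right _ _).trans (min_le_right _ _))
      hL0.le)
  have hls5 : 2 * Real.log (nm s) / L ≤ δ := by
    rw [div_le_iff₀ hL0]
    exact hls2.trans (mul_le_mul_of_nonneg_right ((min_le_right _ _).trans (min_le_left _ _))
      hL0.le)
  have hnX : (nm P.n : ℝ) ≤ X := by
    have := H4 X hXX4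
    rwa [Real.rpow_one] at this
  have hPr : (red P).OK := red_ok hP hE
  set al := xN h (red P) a β with hal
  have hβ := hL0'.bp
  have hprim : ∀ n, al n ≠ 0 → IsPrim n := fun n hn => by
    rcases xN_ne hn with h1 | h1
    · exact alb_prim' hβ h1
    · exact alb_prim' hβ h1
  have hcop : ∀ n, al n ≠ 0 → IsCoprime s n := fun n hn => by
    refine hscop n (hprim n hn) ?_
    rcases xN_ne hn with h1 | h1
    · exact alb_cop hPr h1
    · exact alb_cop hPr h1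
  rw [alX_eq hP hk₀ h t hL0'.ok hβ, ← hs, ← hal]
  have hβp : IsPrim (∏ i, β i) := HP842.isPrim_prod hβ
  have hV1 : 1 ≤ Real.exp k := Real.one_le_exp hk
  have hc1 : ‖ph a * sy s (∏ i, β i)‖ ≤ 1 := by
    rw [norm_mul, norm_ph, one_mul]
    exact Char766.norm_sy_le hβp
  refine (vf_tw hs0 hprim hcop hc1 hg q τ hV1).trans ?_
  set k' := k + 2 * Real.log (nm s) with hk'
  have e2 : Real.exp k * (nm s : ℝ) ^ 2 = Real.exp k' := by
    rw [hk', Real.exp_add]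
    congr 1
    rw [two_mul, Real.exp_add, Real.exp_log hsn]
    ring
  rw [e2]
  have hup : X ^ K ≤ X ^ (K + 1) := Real.rpow_le_rpow_of_exponent_le hX1.le (by linarith)
  have hb3 : (nm (∏ i, β i) : ℝ) ≤ X ^ (4 * (K + 1)) := by
    rw [nm_prodF, Fin.prod_univ_three]
    have h1 := hL0'.bK
    calc (nm (β 0) : ℝ) * nm (β 1) * nm (β 2) ≤ X ^ K * X ^ K * X ^ K := by
          have h2 := h1 0
          have h3 := h1 1
          have h4 := h1 2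
          gcongr
      _ = X ^ (3 * K) := by
          rw [← Real.rpow_add hX0, ← Real.rpow_add hX0]
          ring_nf
      _ ≤ X ^ (4 * (K + 1)) := Real.rpow_le_rpow_of_exponent_le hX1.le (by linarith)
  have h1 := H1 X hXX1 (red P) hPr rfl rfl hnX a hL0'.ok
    (fun i => (hL0'.zK i).trans (by nlinarith)) (fun i => (hL0'.zK' i).trans (by nlinarith)) H hH
    hL0'.tH (fun i => (hL0'.dK i).trans hup) β hβ hb3 s₀ hL0'.sv F hcl hcl' g hg hgs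
    (hgK.trans hup) q hq (hqK.trans hup) k' (by positivity) (by rw [hk', ← hL]; nlinarith) τ
  rw [← hal, ← hL] at h1
  set γ := Real.log (nm g) / L with hγ
  set G : ℝ := max (F' (k / L) γ)
    (2 / 3 * (k / L) + 5 / 3 * (nL X (u3 a) β - γ) - max 0 (s₀ - γ)) with hG
  have e3 : k' / L = k / L + 2 * Real.log (nm s) / L := by rw [hk']; ring
  have hσ0 : 0 ≤ 2 * Real.log (nm s) / L := by positivity
  have h2 : max (F (k' / L) γ)
      (2 / 3 * (k' / L) + 5 / 3 * (nL X (u3 a) β - γ) - max 0 (s₀ - γ)) ≤ G + ε / 4 := by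
    refine max_le ?_ ?_
    · have h3 := hF (k / L) (2 * Real.log (nm s) / L) γ (by positivity) hσ0 hls5
      have h4 := le_max_left (F' (k / L) γ)
        (2 / 3 * (k / L) + 5 / 3 * (nL X (u3 a) β - γ) - max 0 (s₀ - γ))
      rw [e3]
      linarith
    · have h4 := le_max_right (F' (k / L) γ)
        (2 / 3 * (k / L) + 5 / 3 * (nL X (u3 a) β - γ) - max 0 (s₀ - γ))
      rw [e3]
      linarith
  have hD := H2 X hXX2
  have hHM : (0 : ℝ) ≤ H ^ M := by positivity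
  have htt : (0 : ℝ) ≤ (1 + |τ|) ^ (3 * (M : ℝ)) := by positivity
  have h5 : VF (Real.exp k') (PM q (tws (sg al g) τ)) ≤
      H ^ M * X ^ (G + ε / 4 + ε / 4) * (1 + |τ|) ^ (3 * (M : ℝ)) := by
    refine h1.trans ?_
    have h6 : X ^ (max (F (k' / L) γ)
        (2 / 3 * (k' / L) + 5 / 3 * (nL X (u3 a) β - γ) - max 0 (s₀ - γ)) + ε / 4) ≤
        X ^ (G + ε / 4 + ε / 4) :=
      Real.rpow_le_rpow_of_exponent_le hX1.le (by linarith)
    gcongr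
  have hVF0 : 0 ≤ VF (Real.exp k') (PM q (tws (sg al g) τ)) := by
    unfold Rough381.VF
    exact Finset.sum_nonneg fun _ _ => by positivity
  calc ((ds s).card : ℝ) * VF (Real.exp k') (PM q (tws (sg al g) τ))
      ≤ X ^ (ε / 4) * (H ^ M * X ^ (G + ε / 4 + ε / 4) * (1 + |τ|) ^ (3 * (M : ℝ))) :=
        mul_le_mul hD h5 hVF0 (by positivity)
    _ = H ^ M * (X ^ (ε / 4) * X ^ (G + ε / 4 + ε / 4)) * (1 + |τ|) ^ (3 * (M : ℝ)) := by ring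
    _ ≤ H ^ M * X ^ (G + ε) * (1 + |τ|) ^ (3 * (M : ℝ)) := by
        have h6 : X ^ (ε / 4) * X ^ (G + ε / 4 + ε / 4) ≤ X ^ (G + ε) := by
          rw [← Real.rpow_add hX0]
          exact Real.rpow_le_rpow_of_exponent_le hX1.le (by linarith)
        gcongr


/-! ### exact real hypothesis -/

/-- `G ≤ e` at the level `v` and all splits of the total length `m` -/
def RHx (G : (Fin 4 → ℝ) → ℝ) (y : Fin 3 → ℝ) (v m e : ℝ) : Prop :=
  ∀ z : Fin 3 → ℝ, (∀ i, 0 ≤ z i ∧ z i ≤ y i) → ∑ i, z i = max 0 m →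
    G ![v, z 0, z 1, z 2] ≤ e

/-- the box -/
def bx4 (K : ℝ) : Set (Fin 4 → ℝ) := Set.pi Set.univ fun _ => Set.Icc 0 K

lemma bx4_compact (K : ℝ) : IsCompact (bx4 K) := isCompact_univ_pi fun _ => isCompact_Icc

lemma mem_bx4 {K : ℝ} {q : Fin 4 → ℝ} : q ∈ bx4 K ↔ ∀ i, 0 ≤ q i ∧ q i ≤ K := by
  unfold bx4
  rw [Set.mem_univ_pi]
  exact Iff.rfl

lemma cont_ns (G : (Fin 4 → ℝ) → ℝ) (hG : Continuous G) (K : ℝ) {ε : ℝ} (hε : 0 < ε) :
    ∃ η : ℝ, 0 < η ∧ ∀ x y : Fin 4 → ℝ, x ∈ bx4 K → y ∈ bx4 K → (∀ i, |x i - y i| ≤ η) →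
      G x ≤ G y + ε := by
  have hu := (bx4_compact K).uniformContinuousOn_of_continuous hG.continuousOn
  rw [Metric.uniformContinuousOn_iff] at hu
  obtain ⟨η, hη, H⟩ := hu ε hε
  refine ⟨η / 2, by positivity, fun x y hx hy hxy => ?_⟩
  have h3 := H x hx y hy (by
    refine lt_of_le_of_lt ((dist_pi_le_iff (by positivity : (0 : ℝ) ≤ η / 2)).2 fun i => ?_)
      (by linarith)
    rw [Real.dist_eq]
    exact hxy i)
  rw [Real.dist_eq] at h3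
  have := (abs_lt.1 h3).2
  linarith

/-- **exact hypothesis ⟹ hypothesis with tolerance** -/
theorem rf_of_rh {G : (Fin 4 → ℝ) → ℝ} (hG : Continuous G) (K : ℝ) {ε : ℝ} (hε : 0 < ε) :
    ∃ σ₁ : ℝ, 0 < σ₁ ∧ ∀ σ : ℝ, 0 < σ → σ ≤ σ₁ → ∀ y : Fin 3 → ℝ, (∀ i, 0 ≤ y i ∧ y i ≤ K) →
      ∀ m : ℝ, m ≤ ∑ i, y i → ∀ F : ℝ → ℝ → ℝ,
      (∀ v γ : ℝ, 0 ≤ v → v ≤ K → 0 ≤ γ → γ ≤ K → RHx G y v (m - γ) (F v γ)) →
      RF (fun _ : Fin 1 => bx4 (K + 1)) (fun _ => G) σ K y m (fun v γ => F v γ + ε) := by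
  obtain ⟨η, hη, H⟩ := cont_ns G hG (K + 1) hε
  refine ⟨min 1 (η / 5), by positivity, fun σ hσ hσ1 y hy m hm F hF => ?_⟩
  have hs1 : σ ≤ 1 := hσ1.trans (min_le_left _ _)
  have hs5 : 5 * σ ≤ η := by
    have := hσ1.trans (min_le_right _ _)
    linarith
  intro v γ hv hvK hγ hγK x h0 h0' h1 h1' h2 h2' h3 h3' hsum
  have hxb : x ∈ bx4 (K + 1) := by
    rw [mem_bx4]
    have a1 := hy 0
    have a2 := hy 1
    have a3 := hy 2
    have a0 := abs_le.1 h0'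
    intro i
    fin_cases i
    · exact ⟨h0, by show x 0 ≤ _; linarith⟩
    · exact ⟨h1, by show x 1 ≤ _; linarith⟩
    · exact ⟨h2, by show x 2 ≤ _; linarith⟩
    · exact ⟨h3, by show x 3 ≤ _; linarith⟩
  have hy0 : 0 ≤ ∑ i, y i := Finset.sum_nonneg fun i _ => (hy i).1
  have hab := abs_le.1 hsum
  obtain ⟨z, hz1, hz2, hz3⟩ := TEM792.proj3 (z := y) (z' := ![x 1, x 2, x 3])
    (s := max 0 (m - γ)) hσ.le (by
      intro i
      fin_cases i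
      · exact h1
      · exact h2
      · exact h3) (by
      intro i
      fin_cases i
      · exact h1'
      · exact h2'
      · exact h3') (fun i => (hy i).1) (by
      rw [Fin.sum_univ_three]
      show |x 1 + x 2 + x 3 - max 0 (m - γ)| ≤ σ
      rcases le_total 0 (m - γ) with h | h
      · rw [max_eq_right h]
        exact hsum
      · rw [max_eq_left h, abs_le]
        constructor <;> linarith [hab.1, hab.2]) (le_max_left _ _) (max_le hy0 (by linarith))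
  refine ⟨0, ⟨x, hxb, by rw [dist_self]; exact hσ.le⟩, ?_⟩
  have hzb : (![v, z 0, z 1, z 2] : Fin 4 → ℝ) ∈ bx4 (K + 1) := by
    rw [mem_bx4]
    have b1 := hz1 0
    have b2 := hz1 1
    have b3 := hz1 2
    have a1 := hy 0
    have a2 := hy 1
    have a3 := hy 2
    intro i
    fin_cases i
    · exact ⟨hv, by show v ≤ _; linarith⟩
    · exact ⟨b1.1, by show z 0 ≤ _; linarith⟩
    · exact ⟨b2.1, by show z 1 ≤ _; linarith⟩
    · exact ⟨b3.1, by show z 2 ≤ _; linarith⟩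
  have key := H x ![v, z 0, z 1, z 2] hxb hzb (by
    have c1 := hz3 0
    have c2 := hz3 1
    have c3 := hz3 2
    intro i
    fin_cases i
    · exact h0'.trans (by linarith)
    · show |x 1 - z 0| ≤ η
      rw [abs_sub_comm]
      exact (c1.trans hs5)
    · show |x 2 - z 1| ≤ η
      rw [abs_sub_comm]
      exact (c2.trans hs5)
    · show |x 3 - z 2| ≤ η
      rw [abs_sub_comm]
      exact (c3.trans hs5))
  have h9 := hF v γ hv hvK hγ hγK z hz1 hz2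
  show G x ≤ F v γ + ε
  linarith

variable {Λ : Type*} {π : Λ → DPar} {h : ℝ → ℝ}

lemma LD_y {X K H : ℝ} (hX : 1 < X) {us : Fin 3 → Pq} {β : Fin 3 → Eis} (h : LD X K H us β)
    (i : Fin 3) : 0 ≤ (us i).z / Real.log X ∧ (us i).z / Real.log X ≤ K := by
  have hL := Real.log_pos hX
  exact ⟨div_nonneg (h.z0 i) hL.le, by rw [div_le_iff₀ hL]; exact h.zK i⟩

lemma LD_nL {X K H : ℝ} (hX : 1 < X) {us : Fin 3 → Pq} {β : Fin 3 → Eis} (h : LD X K H us β) :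
    nL X us β ≤ ∑ i, (us i).z / Real.log X := by
  have hL := Real.log_pos hX
  unfold TEM792.nL
  rw [← Finset.sum_div]
  have hβ0 : (∏ i, β i) ≠ 0 := Finset.prod_ne_zero_iff.2 fun i _ => (h.bp i).ne_zero
  have h1 : (1 : ℝ) ≤ nm (∏ i, β i) := by exact_mod_cast nm_pos.2 hβ0
  have h2 := Real.log_nonneg h1
  gcongr
  linarith

/-- **`ClK` from one closed form, all levels and lengths** -/
theorem cl_pt {Kn : Eis → Eis → ℂ} (hW : Wd fun lam => S0K Kn (π lam) h)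
    {G : (Fin 4 → ℝ) → ℝ} (hG : Continuous G)
    (H : ∀ q : Fin 4 → ℝ, (∀ i, 0 ≤ q i) →
      ex Dq (fun lam => S0K Kn (π lam) h) (q 0) {q 1, q 2, q 3} 0 0 ≤ G q)
    {ε : ℝ} (hε : 0 < ε) (K : ℝ) (hK : 1 ≤ K) (lam : Λ) : ∃ M₀ : ℕ, ∀ M : ℕ, M₀ ≤ M → ∀ r : ℝ,
      0 ≤ r → ∃ X₀ : ℝ, 1 < X₀ ∧ ∀ X : ℝ, X₀ ≤ X → ∀ H₀ : ℝ, 1 ≤ H₀ → ∀ (us : Fin 3 → Pq)
      (β : Fin 3 → Eis), LD X K H₀ us β → ∀ F : ℝ → ℝ → ℝ,
      (∀ v γ : ℝ, 0 ≤ v → v ≤ K → 0 ≤ γ → γ ≤ K →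
        RHx G (fun i => (us i).z / Real.log X) v (nL X us β - γ) (F v γ)) →
      ClK Kn h (π lam) X H₀ M r K us β (fun v γ => F v γ + ε) := by
  obtain ⟨σ₀, hσ₀, G1⟩ := cl_owns (n := 1) (D4 := fun _ => bx4 (K + 1)) (G := fun _ => G) hW
    (fun _ => bx4_compact _) (fun _ q hq j => ((mem_bx4.1 hq) j).1) (fun _ => hG)
    (fun _ q hq => H q fun i => ((mem_bx4.1 hq) i).1) (show 0 < ε / 2 by positivity)
  obtain ⟨σ₁, hσ₁, G2⟩ := rf_of_rh hG K (show 0 < ε / 2 by positivity)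
  obtain ⟨M₀, G3⟩ := G1 (min σ₀ σ₁) (lt_min hσ₀ hσ₁) (min_le_left _ _) lam K hK
  refine ⟨M₀, fun M hM r hr => ?_⟩
  obtain ⟨X₀, hX₀, G4⟩ := G3 M hM r hr
  refine ⟨X₀, hX₀, fun X hX H₀ hH₀ us β hLD F hF => ?_⟩
  have hX1 : 1 < X := by linarith
  have h1 := G4 X hX H₀ hH₀ us β hLD (fun v γ => F v γ + ε / 2)
    (G2 (min σ₀ σ₁) (lt_min hσ₀ hσ₁) (min_le_right _ _) _ (LD_y hX1 hLD) _ (LD_nL hX1 hLD) F hF)
  have e : (fun v γ => F v γ + ε) = fun v γ => F v γ + ε / 2 + ε / 2 := by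
    funext v γ
    ring
  rw [e]
  exact h1

/-- **`VN` of the twisted three lumps (class N), one closed form** -/
theorem vn_pt {c₀ : ℝ} (hpu : PU h c₀) (hP : ∀ lam, (π lam).OK)
    {G : (Fin 4 → ℝ) → ℝ} (hG : Continuous G)
    (H : ∀ q : Fin 4 → ℝ, (∀ i, 0 ≤ q i) →
      ex Dq (fun lam => S0p (π lam) h) (q 0) {q 1, q 2, q 3} 0 0 ≤ G q)
    {ε : ℝ} (hε : 0 < ε) {δ : ℝ} (hδ : 0 < δ) (K : ℝ) (hK : 1 ≤ K) (lam : Λ) : ∃ M₀ : ℕ,
      ∀ M : ℕ, M₀ ≤ M → ∀ s : Eis, s ∈ FE47.SM (π lam).n → ∃ X₀ : ℝ, 1 < X₀ ∧ ∀ X : ℝ, X₀ ≤ X →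
      ∀ H₀ : ℝ, 1 ≤ H₀ → ∀ (us : Fin 3 → Pq) (β : Fin 3 → Eis), LD X K H₀ us β →
      ∀ F F' : ℝ → ℝ → ℝ, (∀ v σ γ, 0 ≤ v → 0 ≤ σ → σ ≤ δ → F (v + σ) γ ≤ F' v γ + σ) →
      (∀ v γ : ℝ, 0 ≤ v → v ≤ K + 1 → 0 ≤ γ → γ ≤ K + 1 →
        RHx G (fun i => (us i).z / Real.log X) v (nL X us β - γ) (F v γ)) →
      VN X H₀ M K (alb (fun i => pc h (Pt (π lam) s (us i))) β) (fun v γ => F' v γ + ε) := by
  obtain ⟨M₀, G2⟩ := cl_pt (π := π) (h := h) (Kn := Kg) (TK708.wd_N hpu hP) hG H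
    (show 0 < ε / 2 by positivity) (K + 1) (by linarith) lam
  refine ⟨M₀, fun M hM s hs => ?_⟩
  obtain ⟨r, hr, G3⟩ := vn_f3d hpu (show 0 < ε / 2 by positivity) hδ K hK M
  obtain ⟨X₁, hX₁, G4⟩ := G3 (π lam) (hP lam) s hs
  obtain ⟨X₂, hX₂, G5⟩ := G2 M hM r hr
  refine ⟨max X₁ X₂, lt_of_lt_of_le hX₁ (le_max_left _ _), ?_⟩
  intro X hX H₀ hH₀ us β hLD F F' hFs hRF
  have hXX1 : X₁ ≤ X := (le_max_left _ _).trans hX
  have hXX2 : X₂ ≤ X := (le_max_right _ _).trans hX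
  have hX1 : 1 < X := by linarith
  have hcl := G5 X hXX2 H₀ hH₀ us β (LD_mono hX1 (by linarith) hLD) F hRF
  exact VN_le hX1 (by linarith) (G4 X hXX1 H₀ hH₀ us β hLD.zK hLD.bp (fun v γ => F v γ + ε / 2)
    (fun v γ => F' v γ + ε / 2) (fun v s γ h0 h1 h2 => by
    have := hFs v s γ h0 h1 h2
    linarith) hcl) fun v γ => by linarith

/-- **`VN` of `alX` (class E), one closed form** -/
theorem vn_ptX {c₀ : ℝ} (hpu : PU h c₀) (hP : ∀ lam, (π lam).OK) (hE : ∀ lam, Exc (π lam))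
    {G : (Fin 4 → ℝ) → ℝ} (hG : Continuous G)
    (H : ∀ q : Fin 4 → ℝ, (∀ i, 0 ≤ q i) →
      ex Dq (fun lam => S0K Dk (red (π lam)) h) (q 0) {q 1, q 2, q 3} 0 0 ≤ G q)
    {ε : ℝ} (hε : 0 < ε) {δ : ℝ} (hδ : 0 < δ) (K : ℝ) (hK : 1 ≤ K) (lam : Λ) : ∃ M₀ : ℕ,
      ∀ M : ℕ, M₀ ≤ M → ∀ t : Eis, t ∈ FE47.SM (π lam).n → ∃ X₀ : ℝ, 1 < X₀ ∧ ∀ X : ℝ, X₀ ≤ X →
      ∀ H₀ : ℝ, 1 ≤ H₀ → ∀ (a : BdX) (β : Fin 3 → Eis) (s₀ : ℝ), LDX X K H₀ s₀ a β →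
      ∀ F F' : ℝ → ℝ → ℝ, (∀ v σ γ, 0 ≤ v → 0 ≤ σ → σ ≤ δ → F (v + σ) γ ≤ F' v γ + σ) →
      (∀ v γ : ℝ, 0 ≤ v → v ≤ K + 1 → 0 ≤ γ → γ ≤ K + 1 →
        RHx G (fun i => (u3 a i).z / Real.log X) v (nL X (u3 a) β - γ) (F v γ) ∧
        RHx G (fun i => (u3' a i).z / Real.log X) v (nL X (u3 a) β - γ) (F v γ)) →
      VN X H₀ M K (alX (π lam) h t a β) (fun v γ => max (F' v γ)
        (2 / 3 * v + 5 / 3 * (nL X (u3 a) β - γ) - max 0 (s₀ - γ)) + ε) := by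
  have hPr : ∀ lam, (red (π lam)).OK := fun lam => red_ok (hP lam) (hE lam)
  obtain ⟨M₀, G2⟩ := cl_pt (π := fun lam => red (π lam)) (h := h) (Kn := Dk)
    (TK708.wd_E hpu hPr) hG H (show 0 < ε / 2 by positivity) (K + 1) (by linarith) lam
  refine ⟨max 12 M₀, fun M hM t ht => ?_⟩
  obtain ⟨r, hr, G3⟩ := vn_alXd hpu (show 0 < ε / 2 by positivity) hδ K hK M
    ((le_max_left _ _).trans hM)
  obtain ⟨X₁, hX₁, G4⟩ := G3 (π lam) (hP lam) (hE lam) t ht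
  obtain ⟨X₂, hX₂, G5⟩ := G2 M ((le_max_right _ _).trans hM) r hr
  refine ⟨max X₁ X₂, lt_of_lt_of_le hX₁ (le_max_left _ _), ?_⟩
  intro X hX H₀ hH₀ a β s₀ hLD F F' hFs hRF
  have hXX1 : X₁ ≤ X := (le_max_left _ _).trans hX
  have hXX2 : X₂ ≤ X := (le_max_right _ _).trans hX
  have hX1 : 1 < X := by linarith
  have enL : nL X (u3' a) β = nL X (u3 a) β := by
    unfold TEM792.nL
    rw [ExP960.sum_u3' hLD.ok, ExP960.sum_u3]
  have hcl := G5 X hXX2 H₀ hH₀ (u3 a) β (LD_mono hX1 (by linarith) hLD.ld) F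
    fun v γ h1 h2 h3 h4 => (hRF v γ h1 h2 h3 h4).1
  have hcl' := G5 X hXX2 H₀ hH₀ (u3' a) β (LD_mono hX1 (by linarith) hLD.ld') F
    fun v γ h1 h2 h3 h4 => by
      rw [enL]
      exact (hRF v γ h1 h2 h3 h4).2
  refine VN_le hX1 (by linarith) (G4 X hXX1 H₀ hH₀ a β s₀ hLD (fun v γ => F v γ + ε / 2)
    (fun v γ => F' v γ + ε / 2) (fun v s γ h0 h1 h2 => by
    have := hFs v s γ h0 h1 h2
    linarith) hcl hcl') fun v γ => ?_
  set bz : ℝ := 2 / 3 * v + 5 / 3 * (nL X (u3 a) β - γ) - max 0 (s₀ - γ) with hbz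
  have h2 := le_max_left (F' v γ) bz
  have h3 := le_max_right (F' v γ) bz
  have h1 : max (F' v γ + ε / 2) bz ≤ max (F' v γ) bz + ε / 2 :=
    max_le (by linarith) (by linarith)
  linarith

/-- **968's form, class N** : `G` depends on the level and the total length only -/
theorem vn_gt {c₀ : ℝ} (hpu : PU h c₀) (hP : ∀ lam, (π lam).OK)
    {g : ℝ → ℝ → ℝ} (hg : Continuous fun p : ℝ × ℝ => g p.1 p.2)
    (hgs : ∀ v σ n, 0 ≤ v → 0 ≤ n → 0 ≤ σ → g (v + σ) n ≤ g v n + σ)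
    (H : ∀ v z₁ z₂ z₃ : ℝ, 0 ≤ v → 0 ≤ z₁ → 0 ≤ z₂ → 0 ≤ z₃ →
      ex Dq (fun lam => S0p (π lam) h) v {z₁, z₂, z₃} 0 0 ≤ g v (z₁ + z₂ + z₃))
    {ε : ℝ} (hε : 0 < ε) (K : ℝ) (hK : 1 ≤ K) (lam : Λ) : ∃ M₀ : ℕ,
      ∀ M : ℕ, M₀ ≤ M → ∀ s : Eis, s ∈ FE47.SM (π lam).n → ∃ X₀ : ℝ, 1 < X₀ ∧ ∀ X : ℝ, X₀ ≤ X →
      ∀ H₀ : ℝ, 1 ≤ H₀ → ∀ (us : Fin 3 → Pq) (β : Fin 3 → Eis), LD X K H₀ us β →
      VN X H₀ M K (alb (fun i => pc h (Pt (π lam) s (us i))) β)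
        (fun v γ => g v (max 0 (nL X us β - γ)) + ε) := by
  obtain ⟨M₀, G1⟩ := vn_pt hpu hP (G := fun q => g (q 0) (q 1 + q 2 + q 3))
    (hg.comp (by fun_prop : Continuous fun q : Fin 4 → ℝ => (q 0, q 1 + q 2 + q 3)))
    (fun q hq => H _ _ _ _ (hq 0) (hq 1) (hq 2) (hq 3)) hε one_pos K hK lam
  refine ⟨M₀, fun M hM s hs => ?_⟩
  obtain ⟨X₀, hX₀, G2⟩ := G1 M hM s hs
  refine ⟨X₀, hX₀, fun X hX H₀ hH₀ us β hLD => ?_⟩
  refine G2 X hX H₀ hH₀ us β hLD (fun v γ => g v (max 0 (nL X us β - γ)))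
    (fun v γ => g v (max 0 (nL X us β - γ)))
    (fun v σ γ h0 h1 h2 => hgs v σ _ h0 (le_max_left _ _) h1) fun v γ h1 h2 h3 h4 z hz hs => ?_
  rw [Fin.sum_univ_three] at hs
  show g v (z 0 + z 1 + z 2) ≤ _
  rw [hs]

/-- **968's form, class E** -/
theorem vn_gtX {c₀ : ℝ} (hpu : PU h c₀) (hP : ∀ lam, (π lam).OK) (hE : ∀ lam, Exc (π lam))
    {g : ℝ → ℝ → ℝ} (hg : Continuous fun p : ℝ × ℝ => g p.1 p.2)
    (hgs : ∀ v σ n, 0 ≤ v → 0 ≤ n → 0 ≤ σ → g (v + σ) n ≤ g v n + σ)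
    (H : ∀ v z₁ z₂ z₃ : ℝ, 0 ≤ v → 0 ≤ z₁ → 0 ≤ z₂ → 0 ≤ z₃ →
      ex Dq (fun lam => S0K Dk (red (π lam)) h) v {z₁, z₂, z₃} 0 0 ≤ g v (z₁ + z₂ + z₃))
    {ε : ℝ} (hε : 0 < ε) (K : ℝ) (hK : 1 ≤ K) (lam : Λ) : ∃ M₀ : ℕ,
      ∀ M : ℕ, M₀ ≤ M → ∀ t : Eis, t ∈ FE47.SM (π lam).n → ∃ X₀ : ℝ, 1 < X₀ ∧ ∀ X : ℝ, X₀ ≤ X →
      ∀ H₀ : ℝ, 1 ≤ H₀ → ∀ (a : BdX) (β : Fin 3 → Eis) (s₀ : ℝ), LDX X K H₀ s₀ a β →
      VN X H₀ M K (alX (π lam) h t a β) (fun v γ => max (g v (max 0 (nL X (u3 a) β - γ)))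
        (2 / 3 * v + 5 / 3 * (nL X (u3 a) β - γ) - max 0 (s₀ - γ)) + ε) := by
  obtain ⟨M₀, G1⟩ := vn_ptX hpu hP hE (G := fun q => g (q 0) (q 1 + q 2 + q 3))
    (hg.comp (by fun_prop : Continuous fun q : Fin 4 → ℝ => (q 0, q 1 + q 2 + q 3)))
    (fun q hq => H _ _ _ _ (hq 0) (hq 1) (hq 2) (hq 3)) hε one_pos K hK lam
  refine ⟨M₀, fun M hM t ht => ?_⟩
  obtain ⟨X₀, hX₀, G2⟩ := G1 M hM t ht
  refine ⟨X₀, hX₀, fun X hX H₀ hH₀ a β s₀ hLD => ?_⟩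
  refine G2 X hX H₀ hH₀ a β s₀ hLD (fun v γ => g v (max 0 (nL X (u3 a) β - γ)))
    (fun v γ => g v (max 0 (nL X (u3 a) β - γ)))
    (fun v σ γ h0 h1 h2 => hgs v σ _ h0 (le_max_left _ _) h1) fun v γ h1 h2 h3 h4 =>
      ⟨fun z hz hs => ?_, fun z hz hs => ?_⟩
  all_goals
    rw [Fin.sum_univ_three] at hs
    show g v (z 0 + z 1 + z 2) ≤ _
    rw [hs]

end Crest.Agent.R017.TEX792
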