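import Crest.Agent.R017.TEN_792

/-!
# Row 17, E4 : T-moments of cube-free frequencies (helper792)

* `dvd_of_cube_dvd` : `s³ ∣ A j`, `j` cube-free ⟹ `s ∣ A`
* `card_ds_le`, `card_ds_rpow` : number of divisors
* `full_le_VFr` : restricted family of frequencies
* `te_ballJ`, **`ttJ`** : the T-moment of the cube-free frequencies of a ball
* **`tsdJ`**, **`tsrV`** : the functionals `TSD`, `TSR` as one number
-/

set_option autoImplicit false
set_option linter.unusedVariables false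
set_option linter.unusedSectionVars false

noncomputable section

open MeasureTheory
open scoped Classical

namespace Crest.Agent.R017.TES792

open Crest.Agent.R012 Crest.Agent.R012.Eis
open Crest.Agent.R012.LS2 (S mem_S bl mem_bl)
open Crest.Agent.R012.Div277 (tau tau_le_rpow dvs mem_dvs)
open Crest.Agent.R017.CM106 (TG FS)
open Crest.Agent.R017.C70 (CbF)
open Crest.Agent.R017.E1551 hiding tau
open Crest.Agent.R017.Prov71 (CubeFree)
open Crest.Agent.R017.Rough381 (VF)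
open Crest.Agent.R017.TEL792
open Crest.Agent.R017.TEM792

/-! ### divisibility -/

theorem dvd_of_cube_dvd {s A j : Eis} (hA : A ≠ 0) (hj0 : j ≠ 0) (hj : CbF j)
    (h : s ^ 3 ∣ A * j) : s ∣ A := by
  have hs0 : s ≠ 0 := by
    rintro rfl
    rw [zero_pow (by norm_num), zero_dvd_iff] at h
    exact mul_ne_zero hA hj0 h
  refine Char766.dvd_of_mult_le hs0 hA fun p hp => ?_
  by_contra hlt
  rw [not_le] at hlt
  have fA := Char766.finMult hp hA
  have fs := Char766.finMult hp hs0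
  set a := multiplicity p A with ha
  -- `p ^ (a + 1) ∣ s`
  have h1 : p ^ (a + 1) ∣ s := pow_dvd_of_le_multiplicity hlt
  obtain ⟨A', hA', hpA'⟩ := fA.exists_eq_pow_mul_and_not_dvd
  rw [← ha] at hA'
  have h2 : (p ^ (a + 1)) ^ 3 ∣ A * j := (pow_dvd_pow_of_dvd h1 3).trans h
  have h3 : p ^ a * (p ^ (2 * a + 3)) ∣ p ^ a * (A' * j) := by
    rw [← mul_assoc, ← hA']
    refine dvd_trans (dvd_of_eq ?_) h2
    ring
  have h4 : p ^ (2 * a + 3) ∣ A' * j :=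
    (mul_dvd_mul_iff_left (pow_ne_zero _ hp.ne_zero)).1 h3
  have h5 := hp.pow_dvd_of_dvd_mul_left _ hpA' h4
  exact hj p hp ((pow_dvd_pow p (by omega)).trans h5)

open Classical in
/-- all divisors -/
def dA (A : Eis) : Finset Eis := (bl (nm A : ℝ)).filter (fun s => s ∣ A)

lemma mem_dA {A s : Eis} (hA : A ≠ 0) : s ∈ dA A ↔ s ∣ A := by
  classical
  unfold dA
  rw [Finset.mem_filter, mem_bl (by positivity)]
  refine ⟨fun h => h.2, fun h => ⟨⟨ne_zero_of_dvd_ne_zero hA h, ?_⟩, h⟩⟩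
  exact_mod_cast Div277.nm_le_of_dvd hA h

lemma card_dA_le {A : Eis} (hA : A ≠ 0) :
    (dA A).card ≤ 6 * (Nat.log 2 (nm A) + 1) * tau A := by
  classical
  set T : Finset (Eis × ℕ × ℕ × Eis) := ({1, -1} : Finset Eis) ×ˢ (Finset.range 3 ×ˢ
    (Finset.range (Nat.log 2 (nm A) + 1) ×ˢ dvs A)) with hT
  have hsub : dA A ⊆ T.image fun x => x.1 * w ^ x.2.1 * lam ^ x.2.2.1 * x.2.2.2 := by
    intro s hs
    rw [mem_dA hA] at hs
    have hs0 : s ≠ 0 := ne_zero_of_dvd_ne_zero hA hs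
    obtain ⟨e, i, j, k, he, hi, hk, rfl⟩ := Char766.exists_unit_lam_prim hs0
    refine Finset.mem_image.2 ⟨(e, i, j, k), ?_, rfl⟩
    rw [hT, Finset.mem_product, Finset.mem_product, Finset.mem_product, mem_dvs hA]
    refine ⟨?_, Finset.mem_range.2 hi, Finset.mem_range.2 ?_, hk, ?_⟩
    · rcases he with rfl | rfl <;> simp
    · have h1 : lam ^ j ∣ A := (Dvd.intro_left (e * w ^ i) (by ring)).trans
        ((dvd_mul_right (e * w ^ i * lam ^ j) k).trans hs)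
      have h2 := Div277.nm_le_of_dvd hA h1
      rw [nm_pow, nm_lam] at h2
      have h3 : 2 ^ j ≤ nm A := (Nat.pow_le_pow_left (by norm_num) j).trans h2
      have h4 := Nat.le_log_of_pow_le (by norm_num) h3
      show j < Nat.log 2 (nm A) + 1
      omega
    · exact (dvd_mul_left k _).trans hs
  calc (dA A).card ≤ (T.image fun x => x.1 * w ^ x.2.1 * lam ^ x.2.2.1 * x.2.2.2).card :=
        Finset.card_le_card hsub
    _ ≤ T.card := Finset.card_image_le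
    _ = ({1, -1} : Finset Eis).card * (3 * ((Nat.log 2 (nm A) + 1) * tau A)) := by
        rw [hT, Finset.card_product, Finset.card_product, Finset.card_product,
          Finset.card_range, Finset.card_range]
        rfl
    _ ≤ 2 * (3 * ((Nat.log 2 (nm A) + 1) * tau A)) :=
        Nat.mul_le_mul_right _ Finset.card_le_two
    _ = _ := by ring

/-- the number of divisors -/
theorem card_dA_rpow {ε : ℝ} (hε : 0 < ε) : ∃ C : ℝ, 0 ≤ C ∧ ∀ A : Eis, A ≠ 0 →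
    ((dA A).card : ℝ) ≤ C * (nm A : ℝ) ^ ε := by
  obtain ⟨C, hC, H⟩ := tau_le_rpow (show 0 < ε / 2 by positivity)
  refine ⟨6 * (2 * (2 / ε) + 1) * C, by positivity, fun A hA => ?_⟩
  have h1 : (1 : ℝ) ≤ nm A := by exact_mod_cast nm_pos.2 hA
  have h0 : (0 : ℝ) < nm A := by linarith
  have h2 := H A hA
  have h3 : ((dA A).card : ℝ) ≤ 6 * ((Nat.log 2 (nm A) : ℝ) + 1) * tau A := by
    exact_mod_cast card_dA_le hA
  have h4 : (Nat.log 2 (nm A) : ℝ) ≤ 2 * Real.log (nm A) := by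
    have h5 : (2 : ℝ) ^ (Nat.log 2 (nm A)) ≤ nm A := by
      exact_mod_cast Nat.pow_log_le_self 2 (nm_pos.2 hA).ne'
    have h6 := Real.log_le_log (by positivity) h5
    rw [Real.log_pow] at h6
    have h7 : (1 / 2 : ℝ) ≤ Real.log 2 := by
      have := Real.log_two_gt_d9
      linarith
    have h8 : (0 : ℝ) ≤ Nat.log 2 (nm A) := Nat.cast_nonneg _
    nlinarith
  have h5 : Real.log (nm A) ≤ (nm A : ℝ) ^ (ε / 2) / (ε / 2) :=
    Real.log_le_rpow_div h0.le (by positivity)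
  have h6 : (1 : ℝ) ≤ (nm A : ℝ) ^ (ε / 2) := Real.one_le_rpow h1 (by positivity)
  have h7 : (Nat.log 2 (nm A) : ℝ) + 1 ≤ (2 * (2 / ε) + 1) * (nm A : ℝ) ^ (ε / 2) := by
    have e : (nm A : ℝ) ^ (ε / 2) / (ε / 2) = 2 / ε * (nm A : ℝ) ^ (ε / 2) := by
      field_simp
    rw [e] at h5
    nlinarith
  have h8 : (nm A : ℝ) ^ (ε / 2) * (nm A : ℝ) ^ (ε / 2) = (nm A : ℝ) ^ ε := by
    rw [← Real.rpow_add h0]
    congr 1
    ring
  have h9 : (0 : ℝ) ≤ tau A := Nat.cast_nonneg _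
  calc ((dA A).card : ℝ) ≤ 6 * ((Nat.log 2 (nm A) : ℝ) + 1) * tau A := h3
    _ ≤ 6 * ((2 * (2 / ε) + 1) * (nm A : ℝ) ^ (ε / 2)) * (C * (nm A : ℝ) ^ (ε / 2)) := by
        gcongr
    _ = 6 * (2 * (2 / ε) + 1) * C * ((nm A : ℝ) ^ (ε / 2) * (nm A : ℝ) ^ (ε / 2)) := by ring
    _ = _ := by rw [h8]

/-! ### restricted families -/

/-- a restricted family of frequencies from the cube-free families -/
theorem full_le_VFr {w : Eis → ℂ} (hw : FS w) {Z : ℝ} (hZ : 0 ≤ Z) (A D : Finset Eis)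
    (hA : ∀ x ∈ A, x ∈ bl Z ∧ ∀ s : Eis, s ^ 3 ∣ x → s ∈ D) {Bd : ℝ} (hB : 0 ≤ Bd)
    (H : ∀ s : Eis, s ≠ 0 → (nm s : ℝ) ^ 3 ≤ Z → VF (Z / (nm s : ℝ) ^ 3) (PM s w) ≤ Bd) :
    ∑ x ∈ A, ‖TG w x‖ ^ 2 ≤ D.card * Bd := by
  classical
  set F : Eis → ℝ := fun x => if x ∈ A then ‖TG w x‖ ^ 2 else 0 with hF
  set G : Eis → Eis → ℝ := fun m x => if m ∈ D then ‖TG (PM m w) x‖ ^ 2 else 0 with hG
  have h1 := Lbc298.cube_le_f hZ (fun _ => True) (fun _ _ _ => trivial) (F := F) (G := G)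
    (fun m k => by rw [hG]; dsimp only; split_ifs <;> positivity) (fun x hx _ => by
      rw [hF, hG]
      dsimp only
      by_cases hxA : x ∈ A
      · have hm : (Lbc298.dc x).m ∈ D := by
          refine (hA x hxA).2 _ ?_
          conv_rhs => rw [Lbc298.red_mul hx]
          exact dvd_mul_left _ _
        rw [if_pos hxA, if_pos hm, ← TG_cube hw, ← Lbc298.red_mul hx]
      · rw [if_neg hxA]
        split_ifs <;> positivity)
  have e0 : (bl Z).filter (fun _ => True) = bl Z := by simp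
  rw [e0] at h1
  have h2 : ∑ x ∈ bl Z, F x = ∑ x ∈ A, ‖TG w x‖ ^ 2 := by
    rw [hF]
    rw [← Finset.sum_filter]
    refine Finset.sum_congr ?_ fun _ _ => rfl
    ext x
    rw [Finset.mem_filter]
    exact ⟨fun h => h.2, fun h => ⟨(hA x h).1, h⟩⟩
  rw [h2] at h1
  refine h1.trans ?_
  calc ∑ m ∈ bl (Z ^ ((1 : ℝ) / 3)), ∑ k ∈ (bl (Z / (nm m : ℝ) ^ 3)).filter
        (fun k => Lbc298.CubeFree k ∧ True), G m k
      ≤ ∑ m ∈ bl (Z ^ ((1 : ℝ) / 3)), if m ∈ D then Bd else 0 := by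
        refine Finset.sum_le_sum fun m hm => ?_
        rw [mem_bl (by positivity)] at hm
        rw [hG]
        dsimp only
        by_cases hmD : m ∈ D
        · simp only [if_pos hmD]
          refine le_trans (le_of_eq ?_) (H m hm.1 ?_)
          · unfold Rough381.VF
            refine Finset.sum_congr ?_ fun _ _ => rfl
            ext k
            rw [Finset.mem_filter, Finset.mem_filter]
            exact ⟨fun h => ⟨h.1, h.2.1⟩, fun h => ⟨h.1, h.2, trivial⟩⟩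
          · have hsn : (0 : ℝ) ≤ nm m := Nat.cast_nonneg _
            have h6 := pow_le_pow_left₀ hsn hm.2 3
            have h7 : (Z ^ ((1 : ℝ) / 3)) ^ 3 = Z := by
              rw [← Real.rpow_natCast, ← Real.rpow_mul hZ]; norm_num
            rwa [h7] at h6
        · simp only [if_neg hmD, Finset.sum_const_zero]
          exact le_rfl
    _ = ∑ m ∈ (bl (Z ^ ((1 : ℝ) / 3))).filter (· ∈ D), Bd := by rw [Finset.sum_filter]
    _ = ((bl (Z ^ ((1 : ℝ) / 3))).filter (· ∈ D)).card * Bd := by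
        rw [Finset.sum_const, nsmul_eq_mul]
    _ ≤ D.card * Bd := by
        refine mul_le_mul_of_nonneg_right ?_ hB
        exact_mod_cast Finset.card_le_card fun x hx => (Finset.mem_filter.1 hx).2

/-- **the T-moment of the cube-free frequencies of a ball** -/
theorem te_ballJ (R : ℝ) (hR : 0 ≤ R) (A : ℕ) (hA : 2 ≤ A) {J : ℝ} (hJ0 : 0 ≤ J)
    (hAJ : J + 1 < A) : ∃ C : ℝ, 0 ≤ C ∧ ∀ (Y X L M : ℝ), 0 ≤ Y → 0 < X → 0 ≤ L → 0 ≤ M →
      ∀ α : Eis → ℂ, Adm Y X R α → ∀ (e e₀ c c₀ : Eis), IsPrim e → IsPrim e₀ → c ≠ 0 → c₀ ≠ 0 →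
      (∀ s : Eis, s ≠ 0 → (nm s : ℝ) ^ 3 ≤ L * nm c₀ * nm e₀ → ∀ t : ℝ,
        VF (L * nm c₀ * nm e₀ / (nm s : ℝ) ^ 3) (PM (c * s) (tws (sg α (e * e₀)) t)) ≤
          M * (1 + |t|) ^ J) →
      ∀ T : Finset Eis, (∀ j ∈ T, j ∈ primBall ⌊L⌋₊ ∧ CbF j) →
      ∑ j ∈ T, ‖E3D579.TE0 (fun m => α (e * m)) 1 (c₀ * (j * c ^ 3)) e₀‖ ^ 2 ≤
        C * (dA (c₀ * e₀)).card * (X / nm e) ^ (-(1 / 3) : ℝ) * M := by
  obtain ⟨C₀, hC₀, hTE⟩ := LBx48.norm_TE_sq_le R hR A hA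
  set I := ∫ t, jb ((A : ℝ) - J) t with hI
  have hI0 : 0 ≤ I := integral_nonneg fun t => (jb_pos _ t).le
  refine ⟨C₀ * I, by positivity, ?_⟩
  intro Y X L M hY hX hL hM α hα e e₀ c c₀ he he₀ hc hc₀ hyp T hT
  set Z : ℝ := L * nm c₀ * nm e₀ with hZ
  have hen := nmpos he.ne_zero
  have he₀n := nmpos he₀.ne_zero
  have hc₀n := nmpos hc₀
  have hZ0 : 0 ≤ Z := by positivity
  have hX' : 0 < X / nm e := by positivity
  have hα' := Adm_sg hY hX hα he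
  have hge : IsPrim (e * e₀) := he.mul he₀
  set β := sg α (e * e₀) with hβ
  have hβS : ∀ n, β n ≠ 0 → n ∈ S Y := sg_supp hY hα.sup hge
  have hpt : ∀ j ∈ T,
      ‖E3D579.TE0 (fun m => α (e * m)) 1 (c₀ * (j * c ^ 3)) e₀‖ ^ 2 ≤
      C₀ * (X / nm e) ^ (-(1 / 3) : ℝ) * Wb A β (c₀ * (j * c ^ 3) * e₀) := by
    intro j _
    rw [TE0_eq]
    have h1 := hTE Y (X / nm e) hY hX' (sg α e) hα' 1 (c₀ * (j * c ^ 3)) e₀ isPrim_one he₀
    rw [Wf_eq_Wb'] at h1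
    have e1 : sg (sg α e) (1 * e₀) = β := by
      rw [hβ]; unfold sg; funext m; rw [one_mul, mul_assoc]
    rw [e1] at h1
    have e2 : X / nm e / (nm (1 : Eis) : ℝ) = X / nm e := by simp
    rw [e2] at h1
    exact h1
  refine (Finset.sum_le_sum hpt).trans ?_
  rw [← Finset.mul_sum]
  -- the averaged moment
  have h2 := sum_Wb_gen (A := (A : ℝ)) hAJ hJ0 hY hβS T
    (fun j => c₀ * (j * c ^ 3) * e₀) (Q := M * (dA (c₀ * e₀)).card) (fun t => by
      have hfs : FS (tws β t) := FS_of_S hY fun n hn => hβS n (left_ne_zero_of_mul hn)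
      have e1 : ∀ j : Eis, TG (tws β t) (c₀ * (j * c ^ 3) * e₀) =
          TG (PM c (tws β t)) (c₀ * j * e₀) := by
        intro j
        rw [← TG_cube hfs]
        congr 1
        ring
      simp only [e1]
      have hfs2 := FS_PM hfs c
      have hinj : Set.InjOn (fun j : Eis => c₀ * j * e₀) (T : Set Eis) := by
        intro a _ b _ hab
        exact mul_left_cancel₀ hc₀ (mul_right_cancel₀ he₀.ne_zero hab)
      rw [← Finset.sum_image (f := fun x => ‖TG (PM c (tws β t)) x‖ ^ 2) hinj]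
      have ht : (0 : ℝ) ≤ (1 + |t|) ^ J := by positivity
      refine (full_le_VFr hfs2 hZ0 _ (dA (c₀ * e₀)) (fun x hx => ?_)
        (Bd := M * (1 + |t|) ^ J) (by positivity) fun s hs hs3 => ?_).trans (le_of_eq (by ring))
      · obtain ⟨j, hj, rfl⟩ := Finset.mem_image.mp hx
        obtain ⟨hj1, hj2⟩ := hT j hj
        rw [mem_primBall] at hj1
        have h4 : (nm j : ℝ) ≤ L := (Nat.cast_le.2 hj1.1).trans (Nat.floor_le hL)
        refine ⟨?_, fun s hs => ?_⟩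
        · rw [mem_bl hZ0]
          refine ⟨mul_ne_zero (mul_ne_zero hc₀ hj1.2.ne_zero) he₀.ne_zero, ?_⟩
          rw [nm_mul, nm_mul]
          push_cast
          calc (nm c₀ : ℝ) * nm j * nm e₀ = nm j * nm c₀ * nm e₀ := by ring
            _ ≤ L * nm c₀ * nm e₀ := by gcongr
        · rw [mem_dA (mul_ne_zero hc₀ he₀.ne_zero)]
          refine dvd_of_cube_dvd (mul_ne_zero hc₀ he₀.ne_zero) hj1.2.ne_zero hj2 ?_
          refine hs.trans (dvd_of_eq (by ring))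
      · rw [PM_PM]
        exact hyp s hs hs3 t)
  calc C₀ * (X / nm e) ^ (-(1 / 3) : ℝ) *
        ∑ j ∈ T, Wb A β (c₀ * (j * c ^ 3) * e₀) ≤
        C₀ * (X / nm e) ^ (-(1 / 3) : ℝ) * (M * (dA (c₀ * e₀)).card * I) :=
        mul_le_mul_of_nonneg_left h2 (by positivity)
    _ = _ := by ring

/-- **the T-moment of the cube-free frequencies of a ball, one number** -/
theorem ttJ (R : ℝ) (hR : 0 ≤ R) {ε : ℝ} (hε : 0 < ε) (K : ℝ) (hK : 1 ≤ K) (M : ℕ) :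
    ∃ X₀ : ℝ, 1 < X₀ ∧ ∀ X : ℝ, X₀ ≤ X → ∀ H : ℝ, 1 ≤ H → ∀ (Yw Xw : ℝ), 0 ≤ Yw → 0 < Xw →
      ∀ α : Eis → ℂ, Adm Yw Xw R α → ∀ F : ℝ → ℝ → ℝ, VN X H M (4 * K) α F →
      ∀ L' : ℝ, 0 ≤ L' → L' ≤ X ^ K → ∀ e e₀ c c₀ : Eis, IsPrim e → IsPrim e₀ →
      c ≠ 0 → c₀ ≠ 0 → (nm e : ℝ) ≤ X ^ K → (nm e₀ : ℝ) ≤ X ^ K → (nm c : ℝ) ≤ X ^ K →
      (nm c₀ : ℝ) ≤ X ^ K →
      ∀ eT : ℝ, (∀ x : ℝ, 0 ≤ x → 3 * x ≤ Real.log (L' * nm c₀ * nm e₀) / Real.log X →
        F (Real.log (L' * nm c₀ * nm e₀) / Real.log X - 3 * x)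
          (Real.log (nm e) / Real.log X + Real.log (nm e₀) / Real.log X) ≤ eT) →
      ∀ T : Finset Eis, (∀ j ∈ T, j ∈ primBall ⌊L'⌋₊ ∧ CbF j) →
      ∑ j ∈ T, ‖E3D579.TE0 (fun m => α (e * m)) 1 (c₀ * (j * c ^ 3)) e₀‖ ^ 2 ≤
        H ^ M * X ^ (eT + ε) * (Xw / nm e) ^ (-(1 / 3) : ℝ) := by
  obtain ⟨C, hC, H2⟩ := te_ballJ R hR (3 * M + 2) (by omega)
    (J := 3 * (M : ℝ)) (by positivity) (by push_cast; linarith)
  obtain ⟨C', hC', Hd⟩ := card_dA_rpow (show 0 < ε / (4 * K) by positivity)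
  obtain ⟨X₂, hX₂, H3⟩ := big (C * C') (ε / 2) 0 (by positivity) (by positivity) le_rfl
  refine ⟨max X₂ 2, lt_of_lt_of_le hX₂ (le_max_left _ _), ?_⟩
  intro X hX H hH Yw Xw hYw hXw α hα F hV L' hL'0 hL'K e e₀ c c₀ he he₀ hc hc₀ heK he₀K hcK hc₀K
    eT hRH T hT
  have hXX2 : X₂ ≤ X := (le_max_left _ _).trans hX
  have hX2 : 2 ≤ X := (le_max_right _ _).trans hX
  have hX1 : 1 < X := by linarith
  have hX0 : 0 < X := by linarith
  set L := Real.log X with hL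
  have hL0 : 0 < L := Real.log_pos hX1
  have hen := nm_pos_r he.ne_zero
  have he₀n := nm_pos_r he₀.ne_zero
  have hc₀n := nm_pos_r hc₀
  have he₀1 : (1 : ℝ) ≤ nm e₀ := by exact_mod_cast nm_pos.2 he₀.ne_zero
  have hc₀1 : (1 : ℝ) ≤ nm c₀ := by exact_mod_cast nm_pos.2 hc₀
  have hXK1 : 1 ≤ X ^ K := Real.one_le_rpow hX1.le (by linarith)
  by_cases hL1 : 1 ≤ L'
  swap
  · -- the ball is empty
    have h0 : ⌊L'⌋₊ = 0 := Nat.floor_eq_zero.2 (not_le.1 hL1)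
    have h1 : T = ∅ := by
      rw [Finset.eq_empty_iff_forall_notMem]
      intro j hj
      have hj' := (hT j hj).1
      rw [h0, mem_primBall] at hj'
      have := nm_pos.2 hj'.2.ne_zero
      omega
    rw [h1, Finset.sum_empty]
    positivity
  set Z : ℝ := L' * nm c₀ * nm e₀ with hZ
  have hZ1 : 1 ≤ Z := by
    calc (1 : ℝ) = 1 * 1 * 1 := by norm_num
      _ ≤ L' * nm c₀ * nm e₀ := by gcongr
  have hZK : Z ≤ X ^ (3 * K) := by
    have e1 : X ^ (3 * K) = X ^ K * X ^ K * X ^ K := by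
      rw [← Real.rpow_add hX0, ← Real.rpow_add hX0]; congr 1; ring
    rw [e1, hZ]
    exact mul_le_mul (mul_le_mul hL'K hc₀K hc₀n.le (by positivity)) he₀K he₀n.le (by positivity)
  have hlogZ : Real.log Z ≤ 3 * K * L := by
    rw [hL, ← Real.log_rpow hX0]
    exact Real.log_le_log (by linarith) hZK
  have hyp : ∀ s : Eis, s ≠ 0 → (nm s : ℝ) ^ 3 ≤ L' * nm c₀ * nm e₀ → ∀ t : ℝ,
      VF (L' * nm c₀ * nm e₀ / (nm s : ℝ) ^ 3) (PM (c * s) (tws (sg α (e * e₀)) t)) ≤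
        (H ^ M * X ^ eT) * (1 + |t|) ^ (3 * (M : ℝ)) := by
    intro s hs hs3 t
    rw [← hZ] at hs3 ⊢
    have hsn := nm_pos_r hs
    have hsn1 : (1 : ℝ) ≤ nm s := by exact_mod_cast nm_pos.2 hs
    set x := Real.log (nm s) / L with hx
    have hls : 0 ≤ Real.log (nm s) := Real.log_nonneg hsn1
    have hge : IsPrim (e * e₀) := he.mul he₀
    have hsZ : (nm s : ℝ) ^ 3 ≤ X ^ (3 * K) := hs3.trans hZK
    have hsK : (nm s : ℝ) ≤ X ^ (3 * K) := by
      refine le_trans ?_ hsZ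
      nlinarith [one_le_pow₀ hsn1 (n := 2)]
    have hgK : (nm (e * e₀) : ℝ) ≤ X ^ (4 * K) := by
      rw [nm_mul]
      push_cast
      have e1 : X ^ (4 * K) = X ^ K * X ^ K * (X ^ K * X ^ K) := by
        rw [← Real.rpow_add hX0, ← Real.rpow_add hX0]; congr 1; ring
      rw [e1]
      calc (nm e : ℝ) * nm e₀ ≤ X ^ K * X ^ K := by gcongr
        _ = X ^ K * X ^ K * 1 := (mul_one _).symm
        _ ≤ _ := by
            refine mul_le_mul_of_nonneg_left ?_ (by positivity)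
            nlinarith
    have hcs : (nm (c * s) : ℝ) ≤ X ^ (4 * K) := by
      rw [nm_mul]
      push_cast
      have e1 : X ^ (4 * K) = X ^ K * X ^ (3 * K) := by
        rw [← Real.rpow_add hX0]; congr 1; ring
      rw [e1]
      gcongr
    set k := Real.log (Z / (nm s : ℝ) ^ 3) with hk
    have hk1 : 1 ≤ Z / (nm s : ℝ) ^ 3 := by
      rw [le_div_iff₀ (by positivity), one_mul]
      exact hs3
    have hk0 : 0 ≤ k := Real.log_nonneg hk1
    have hke : k = Real.log Z - 3 * Real.log (nm s) := by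
      rw [hk, Real.log_div (by positivity) (by positivity), Real.log_pow]
      push_cast
      ring
    have hkK : k ≤ 4 * K * L := by
      rw [hke]
      have : 0 ≤ K * L := by positivity
      linarith
    have hx0 : 0 ≤ x := by positivity
    have hxZ : 3 * x ≤ Real.log Z / L := by
      rw [hx, ← mul_div_assoc]
      refine div_le_div_of_nonneg_right ?_ hL0.le
      linarith
    have hR1 := hRH x hx0 hxZ
    have e1 : Real.log Z / L - 3 * x = k / L := by rw [hke, hx]; ring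
    have e2 : Real.log (nm e) / L + Real.log (nm e₀) / L = Real.log (nm (e * e₀)) / L := by
      rw [nm_mul]
      push_cast
      rw [Real.log_mul hen.ne' he₀n.ne']
      ring
    rw [e1, e2] at hR1
    have h4 := hV.all hX0 (by linarith) hYw hα.sup hge hgK (mul_ne_zero hc hs) hcs hk0 hkK t
    rw [hk, Real.exp_log (by linarith)] at h4
    refine h4.trans ?_
    rw [← hk, ← hL]
    have h5 : X ^ F (k / L) (Real.log (nm (e * e₀)) / L) ≤ X ^ eT :=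
      Real.rpow_le_rpow_of_exponent_le hX1.le hR1
    have ht : (0 : ℝ) ≤ (1 + |t|) ^ (3 * (M : ℝ)) := by positivity
    have hHM : (0 : ℝ) ≤ H ^ M := by positivity
    gcongr
  have h5 := H2 Yw Xw L' (H ^ M * X ^ eT) hYw hXw hL'0 (by positivity) _ hα e e₀ c c₀ he he₀
    hc hc₀ hyp T hT
  refine h5.trans ?_
  have hA0 : c₀ * e₀ ≠ 0 := mul_ne_zero hc₀ he₀.ne_zero
  have h6 : C * (dA (c₀ * e₀)).card ≤ X ^ ε := by
    have h7 := Hd _ hA0
    have h8 : (nm (c₀ * e₀) : ℝ) ≤ X ^ (2 * K) := by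
      rw [nm_mul]
      push_cast
      have e1 : X ^ (2 * K) = X ^ K * X ^ K := by
        rw [← Real.rpow_add hX0]; congr 1; ring
      rw [e1]
      gcongr
    have h9 : (nm (c₀ * e₀) : ℝ) ^ (ε / (4 * K)) ≤ X ^ (ε / 2) := by
      refine (Real.rpow_le_rpow (by positivity) h8 (by positivity)).trans (le_of_eq ?_)
      rw [← Real.rpow_mul hX0.le]
      congr 1
      field_simp
      ring
    have h10 := H3 X hXX2
    rw [zero_mul, add_zero, mul_one] at h10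
    calc C * (dA (c₀ * e₀)).card ≤ C * (C' * (nm (c₀ * e₀) : ℝ) ^ (ε / (4 * K))) :=
          mul_le_mul_of_nonneg_left h7 hC
      _ ≤ C * (C' * X ^ (ε / 2)) := by gcongr
      _ = (C * C') * X ^ (ε / 2) := by ring
      _ ≤ X ^ (ε / 2) * X ^ (ε / 2) := by gcongr
      _ = X ^ ε := by
          rw [← Real.rpow_add hX0]; congr 1; ring
  have hq : 0 ≤ (Xw / nm e) ^ (-(1 / 3) : ℝ) := by positivity
  have hHM : (0 : ℝ) ≤ H ^ M := by positivity
  have e6 : X ^ ε * X ^ eT = X ^ (eT + ε) := by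
    rw [← Real.rpow_add hX0]; congr 1; ring
  calc C * (dA (c₀ * e₀)).card * (Xw / nm e) ^ (-(1 / 3) : ℝ) * (H ^ M * X ^ eT) ≤
        X ^ ε * (Xw / nm e) ^ (-(1 / 3) : ℝ) * (H ^ M * X ^ eT) := by
        gcongr
    _ = H ^ M * (X ^ ε * X ^ eT) * (Xw / nm e) ^ (-(1 / 3) : ℝ) := by ring
    _ = _ := by rw [e6]

/-- sums over a set of pairs `a y'` -/
lemma sum_pairs {Ys D : Finset Eis} {Yn : ℝ} (hY0 : 0 ≤ Yn) {fa fy : Eis → Eis}
    (hfa : ∀ y ∈ Ys, fa y ∈ D) (hfp : ∀ y ∈ Ys, IsPrim (fy y))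
    (hfy : ∀ y ∈ Ys, (nm (fy y) : ℝ) ≤ Yn) (hf : ∀ y ∈ Ys, y = fa y * fy y) :
    ∑ y ∈ Ys, 1 / (nm (fy y) : ℝ) ≤ D.card * (100 * (1 + Real.log (1 + Yn))) := by
  classical
  have h1 : ∑ y ∈ Ys, 1 / (nm (fy y) : ℝ) =
      ∑ p ∈ Ys.image (fun y => (fa y, fy y)), 1 / (nm p.2 : ℝ) := by
    rw [Finset.sum_image]
    intro a ha b hb hab
    have h2 := hf a ha
    have h3 := hf b hb
    simp only [Prod.mk.injEq] at hab
    rw [h2, h3, hab.1, hab.2]
  rw [h1]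
  have h2 : Ys.image (fun y => (fa y, fy y)) ⊆ D ×ˢ primBall ⌊Yn⌋₊ := by
    intro p hp
    obtain ⟨y, hy, rfl⟩ := Finset.mem_image.1 hp
    rw [Finset.mem_product, mem_primBall]
    exact ⟨hfa y hy, Nat.le_floor (hfy y hy), hfp y hy⟩
  refine (Finset.sum_le_sum_of_subset_of_nonneg h2 fun _ _ _ => by positivity).trans ?_
  rw [Finset.sum_product]
  simp only
  rw [Finset.sum_const, nsmul_eq_mul]
  exact mul_le_mul_of_nonneg_left (sum_inv_pb hY0) (Nat.cast_nonneg _)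

/-- **the restricted T-functional of the cells as one number** -/
theorem tsrV (R : ℝ) (hR : 0 ≤ R) {ε : ℝ} (hε : 0 < ε) (K : ℝ) (hK : 1 ≤ K) (M : ℕ) :
    ∃ X₀ : ℝ, 1 < X₀ ∧ ∀ X : ℝ, X₀ ≤ X → ∀ H : ℝ, 1 ≤ H → ∀ (Yw Xw : ℝ), 0 ≤ Yw → 0 < Xw →
      ∀ α : Eis → ℂ, Adm Yw Xw R α → ∀ F : ℝ → ℝ → ℝ, VN X H M (4 * K) α F →
      ∀ L' : ℝ, 0 ≤ L' → L' ≤ X ^ K → ∀ Es : Finset Eis,
      (∀ e ∈ Es, IsPrim e ∧ (nm e : ℝ) ≤ X ^ K) → ∀ (Ys D : Finset Eis) (Yn : ℝ),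
      1 ≤ Yn → Yn ≤ X ^ K → (D.card : ℝ) ≤ X ^ (ε / 8) →
      (∀ y ∈ Ys, ∃ a ∈ D, ∃ y' : Eis, IsPrim a ∧ IsPrim y' ∧ (nm y' : ℝ) ≤ Yn ∧ y = a * y') →
      ∀ e₀ c₀ : Eis, IsPrim e₀ →
      c₀ ≠ 0 → (nm e₀ : ℝ) ≤ X ^ K → (nm c₀ : ℝ) ≤ X ^ K →
      ∀ ex tT : ℝ, (∀ e ∈ Es, ∀ w z : ℝ, 0 ≤ w → 0 ≤ z →
        3 * w + 3 * z ≤ Real.log (L' * nm c₀ * nm e₀) / Real.log X →
        F (Real.log (L' * nm c₀ * nm e₀) / Real.log X - 3 * w - 3 * z)
          (Real.log (nm e) / Real.log X + Real.log (nm e₀) / Real.log X) ≤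
          tT - min z (Real.log Yn / Real.log X) - 4 / 3 * (Real.log (nm e) / Real.log X) -
            (1 - ex) * w) →
      ∑ c ∈ primBall ⌊L'⌋₊, (nm c : ℝ) ^ (-ex) * ∑ e ∈ Es, ∑ y ∈ Ys,
        ∑ j ∈ ((primBall ⌊L' / (nm c : ℝ) ^ 3 / (nm y : ℝ) ^ 3⌋₊).filter CbF),
          ‖E3D579.TE0 (fun m => α (e * m)) 1 (c₀ * (j * y ^ 3 * c ^ 3)) e₀‖ ^ 2 ≤
        H ^ M * X ^ (tT + ε) * Xw ^ (-(1 / 3) : ℝ) := by
  obtain ⟨X₁, hX₁, H1⟩ := ttJ R hR (show 0 < ε / 8 by positivity) K hK M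
  obtain ⟨X₂, hX₂, H3⟩ := big 200 (ε / 8) K (by positivity) (by norm_num) (by linarith)
  refine ⟨max X₁ X₂, lt_of_lt_of_le hX₁ (le_max_left _ _), ?_⟩
  intro X hX H hH Yw Xw hYw hXw α hα F hV L' hL'0 hL'K Es hEs Ys D Yn hYn hYnK hD hYs e₀ c₀ he₀
    hc₀ he₀K hc₀K ex tT hRH
  have hXX : X₁ ≤ X := (le_max_left _ _).trans hX
  have hX1 : 1 < X := lt_of_lt_of_le hX₁ hXX
  have hX0 : 0 < X := by linarith
  set L := Real.log X with hL
  have hL0 : 0 < L := Real.log_pos hX1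
  have he₀n := nm_pos_r he₀.ne_zero
  have hc₀n := nm_pos_r hc₀
  have hXK1 : 1 ≤ X ^ K := Real.one_le_rpow hX1.le (by linarith)
  have hq : 0 ≤ Xw ^ (-(1 / 3) : ℝ) := by positivity
  by_cases hL1 : 1 ≤ L'
  swap
  · have h0 : ⌊L'⌋₊ = 0 := Nat.floor_eq_zero.2 (not_le.1 hL1)
    have h1 : primBall 0 = ∅ := by
      rw [Finset.eq_empty_iff_forall_notMem]
      intro j hj
      rw [mem_primBall] at hj
      have := nm_pos.2 hj.2.ne_zero
      omega
    rw [h0, h1, Finset.sum_empty]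
    positivity
  have hlogK : ∀ y : ℝ, 0 ≤ y → y ≤ X ^ K → 100 * (1 + Real.log (1 + y)) ≤ X ^ (ε / 8) := by
    intro y hy hyK
    refine le_trans ?_ (H3 X ((le_max_right _ _).trans hX))
    have h1 : Real.log (1 + y) ≤ Real.log (2 * X ^ K) :=
      Real.log_le_log (by linarith) (by linarith)
    rw [Real.log_mul (by norm_num) (by positivity), Real.log_rpow hX0, ← hL] at h1
    have h2 : Real.log 2 ≤ 1 := by
      have := Real.log_two_lt_d9
      linarith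
    have h3 : 0 ≤ K * L := by positivity
    linarith
  choose! fa hfaD fy hfp hfyp hfyY hfe using hYs
  have hone : ∀ c ∈ primBall ⌊L'⌋₊, ∀ e ∈ Es, ∀ y ∈ Ys,
      ∑ j ∈ ((primBall ⌊L' / (nm c : ℝ) ^ 3 / (nm y : ℝ) ^ 3⌋₊).filter CbF),
        ‖E3D579.TE0 (fun m => α (e * m)) 1 (c₀ * (j * y ^ 3 * c ^ 3)) e₀‖ ^ 2 ≤
      H ^ M * X ^ (tT + ε / 8) * Xw ^ (-(1 / 3) : ℝ) *
        ((nm c : ℝ) ^ ex * (1 / nm c)) * (1 / nm e) * (1 / nm (fy y)) := by
    intro c hc e he y hy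
    obtain ⟨hc1, hc2⟩ := mem_primBall.mp hc
    have hcL : (nm c : ℝ) ≤ L' := (Nat.le_floor_iff hL'0).mp hc1
    have hcn := nm_pos_r hc2.ne_zero
    have hcn1 : (1 : ℝ) ≤ nm c := by exact_mod_cast nm_pos.2 hc2.ne_zero
    obtain ⟨hep, heK⟩ := hEs e he
    have hen := nm_pos_r hep.ne_zero
    have hap := hfp y hy
    have hyp' := hfyp y hy
    have hyp : IsPrim y := by
      rw [hfe y hy]
      exact hap.mul hyp'
    have hyn := nm_pos_r hyp.ne_zero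
    have hyn1 : (1 : ℝ) ≤ nm y := by exact_mod_cast nm_pos.2 hyp.ne_zero
    have hyn' := nm_pos_r hyp'.ne_zero
    have hyn1' : (1 : ℝ) ≤ nm (fy y) := by exact_mod_cast nm_pos.2 hyp'.ne_zero
    have hle' : (nm (fy y) : ℝ) ≤ nm y := by
      have h2 : (nm y : ℝ) = nm (fa y) * nm (fy y) := by
        conv_lhs => rw [hfe y hy]
        rw [nm_mul]
        push_cast
        ring
      have h3 : (1 : ℝ) ≤ nm (fa y) := by exact_mod_cast nm_pos.2 hap.ne_zero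
      rw [h2]
      nlinarith
    have hpos : 0 ≤ H ^ M * X ^ (tT + ε / 8) * Xw ^ (-(1 / 3) : ℝ) *
        ((nm c : ℝ) ^ ex * (1 / nm c)) * (1 / nm e) * (1 / nm (fy y)) := by positivity
    set L'' := L' / (nm c : ℝ) ^ 3 / (nm y : ℝ) ^ 3 with hL''
    have hL''0 : 0 ≤ L'' := by positivity
    by_cases hL''1 : 1 ≤ L''
    swap
    · have h0 : ⌊L''⌋₊ = 0 := Nat.floor_eq_zero.2 (not_le.1 hL''1)
      have h1 : primBall 0 = ∅ := by
        rw [Finset.eq_empty_iff_forall_notMem]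
        intro j hj
        rw [mem_primBall] at hj
        have := nm_pos.2 hj.2.ne_zero
        omega
      rw [h0, h1, Finset.filter_empty, Finset.sum_empty]
      exact hpos
    have hL''K : L'' ≤ X ^ K := by
      refine le_trans ?_ hL'K
      rw [hL'', div_div]
      exact div_le_self hL'0 (one_le_mul_of_one_le_of_one_le (one_le_pow₀ hcn1)
        (one_le_pow₀ hyn1))
    have hcyK : (nm (y * c) : ℝ) ≤ X ^ K := by
      have h1 : ((nm c : ℝ) * nm y) ^ 3 ≤ L' := by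
        rw [hL'', div_div, le_div_iff₀ (by positivity), one_mul] at hL''1
        rw [mul_pow]
        exact hL''1
      have h2 : (1 : ℝ) ≤ (nm c : ℝ) * nm y := one_le_mul_of_one_le_of_one_le hcn1 hyn1
      rw [nm_mul]
      push_cast
      calc (nm y : ℝ) * nm c = (nm c : ℝ) * nm y := mul_comm _ _
        _ ≤ ((nm c : ℝ) * nm y) ^ 3 := by
            nlinarith [one_le_pow₀ h2 (n := 2)]
        _ ≤ X ^ K := h1.trans hL'K
    set w := Real.log (nm c) / L with hw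
    set ye := Real.log (nm e) / L with hye
    set ly := Real.log (nm y) / L with hly
    set xy := Real.log (nm (fy y)) / L with hxy
    have hw0 : 0 ≤ w := div_nonneg (Real.log_nonneg hcn1) hL0.le
    have hly0 : 0 ≤ ly := div_nonneg (Real.log_nonneg hyn1) hL0.le
    have hxyl : xy ≤ ly := div_le_div_of_nonneg_right (Real.log_le_log hyn' hle') hL0.le
    have hxyj : xy ≤ Real.log Yn / L :=
      div_le_div_of_nonneg_right (Real.log_le_log hyn' (hfyY y hy)) hL0.le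
    have hZe : Real.log (L'' * nm c₀ * nm e₀) / L =
        Real.log (L' * nm c₀ * nm e₀) / L - 3 * w - 3 * ly := by
      have e1 : L'' * nm c₀ * nm e₀ = L' * nm c₀ * nm e₀ / ((nm c : ℝ) ^ 3 * (nm y : ℝ) ^ 3) := by
        rw [hL'']
        field_simp
      have e2 : Real.log ((nm c : ℝ) ^ 3 * (nm y : ℝ) ^ 3) =
          3 * Real.log (nm c) + 3 * Real.log (nm y) := by
        rw [Real.log_mul (by positivity) (by positivity), Real.log_pow, Real.log_pow]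
        push_cast
        ring
      rw [e1, Real.log_div (by positivity) (by positivity), e2, hw, hly]
      ring
    have h1 := H1 X hXX H hH Yw Xw hYw hXw α hα F hV L'' hL''0 hL''K e e₀ (y * c) c₀ hep he₀
      (hyp.mul hc2).ne_zero hc₀ heK he₀K hcyK hc₀K (tT - xy - 4 / 3 * ye - (1 - ex) * w)
      (fun x hx0 hx => by
        rw [hZe] at hx ⊢
        have h2 := hRH e he w (ly + x) hw0 (by linarith) (by linarith)
        have h3 : xy ≤ min (ly + x) (Real.log Yn / L) := le_min (by linarith) hxyj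
        have e5 : Real.log (L' * nm c₀ * nm e₀) / L - 3 * w - 3 * (ly + x) =
            Real.log (L' * nm c₀ * nm e₀) / L - 3 * w - 3 * ly - 3 * x := by ring
        rw [e5] at h2
        linarith) ((primBall ⌊L''⌋₊).filter CbF) (fun j hj => Finset.mem_filter.1 hj)
    have e9 : ∀ j : Eis, c₀ * (j * (y * c) ^ 3) = c₀ * (j * y ^ 3 * c ^ 3) := fun j => by ring
    simp only [e9] at h1
    refine h1.trans (le_of_eq ?_)
    have h4 : (Xw / nm e) ^ (-(1 / 3) : ℝ) = Xw ^ (-(1 / 3) : ℝ) * (nm e : ℝ) ^ (1 / 3 : ℝ) := by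
      rw [Real.div_rpow hXw.le hen.le, Real.rpow_neg hen.le (1 / 3), div_inv_eq_mul]
    have hpow : ∀ (z : ℝ) (u : Eis), u ≠ 0 → X ^ (z * (Real.log (nm u) / L)) = (nm u : ℝ) ^ z := by
      intro z u hu
      have hun := nm_pos_r hu
      rw [Real.rpow_def_of_pos hX0, Real.rpow_def_of_pos hun, ← hL]
      congr 1
      field_simp
    have h5 : X ^ (tT - xy - 4 / 3 * ye - (1 - ex) * w + ε / 8) =
        X ^ (tT + ε / 8) * (nm (fy y) : ℝ) ^ (-1 : ℝ) * (nm e : ℝ) ^ (-(4 / 3) : ℝ) *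
          (nm c : ℝ) ^ (ex - 1) := by
      rw [← hpow (-1) (fy y) hyp'.ne_zero, ← hpow (-(4 / 3)) e hep.ne_zero,
        ← hpow (ex - 1) c hc2.ne_zero, ← Real.rpow_add hX0, ← Real.rpow_add hX0,
        ← Real.rpow_add hX0]
      congr 1
      rw [← hw, ← hye, ← hxy]
      ring
    have h6 : (nm e : ℝ) ^ (-(4 / 3) : ℝ) * (nm e : ℝ) ^ (1 / 3 : ℝ) = 1 / nm e := by
      rw [← Real.rpow_add hen, show (-(4 / 3) : ℝ) + 1 / 3 = -1 by norm_num, Real.rpow_neg_one,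
        one_div]
    have h7 : (nm c : ℝ) ^ (ex - 1) = (nm c : ℝ) ^ ex * (1 / nm c) := by
      rw [Real.rpow_sub hcn, Real.rpow_one]
      ring
    have h8 : (nm (fy y) : ℝ) ^ (-1 : ℝ) = 1 / nm (fy y) := by
      rw [Real.rpow_neg_one, one_div]
    rw [h4, h5, ← h7, ← h6, ← h8]
    ring
  set Q := H ^ M * X ^ (tT + ε / 8) * Xw ^ (-(1 / 3) : ℝ) with hQ
  have hQ0 : 0 ≤ Q := by positivity
  have hp8 : 0 ≤ X ^ (ε / 8) := by positivity
  have hE1 : ∑ e ∈ Es, 1 / (nm e : ℝ) ≤ X ^ (ε / 8) := by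
    refine le_trans ?_ (hlogK (X ^ K) (by positivity) le_rfl)
    refine le_trans ?_ (sum_inv_pb (by positivity))
    refine Finset.sum_le_sum_of_subset_of_nonneg (fun e he => ?_) fun _ _ _ => by positivity
    exact mem_primBall.mpr ⟨Nat.le_floor (hEs e he).2, (hEs e he).1⟩
  have hY1 : ∑ y ∈ Ys, 1 / (nm (fy y) : ℝ) ≤ X ^ (ε / 8) * X ^ (ε / 8) := by
    refine (sum_pairs (by linarith) hfaD hfyp hfyY hfe).trans ?_
    have h2 := hlogK Yn (by linarith) hYnK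
    have h3 : 0 ≤ 100 * (1 + Real.log (1 + Yn)) := by
      have := Real.log_nonneg (show (1 : ℝ) ≤ 1 + Yn by linarith)
      positivity
    exact mul_le_mul hD h2 h3 hp8
  have hone2 : ∀ c ∈ primBall ⌊L'⌋₊, (nm c : ℝ) ^ (-ex) * ∑ e ∈ Es, ∑ y ∈ Ys,
      ∑ j ∈ ((primBall ⌊L' / (nm c : ℝ) ^ 3 / (nm y : ℝ) ^ 3⌋₊).filter CbF),
        ‖E3D579.TE0 (fun m => α (e * m)) 1 (c₀ * (j * y ^ 3 * c ^ 3)) e₀‖ ^ 2 ≤
      Q * X ^ (ε / 8) * X ^ (ε / 8) * X ^ (ε / 8) * (1 / nm c) := by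
    intro c hc
    have hcn := nm_pos_r (mem_primBall.mp hc).2.ne_zero
    calc _ ≤ (nm c : ℝ) ^ (-ex) * ∑ e ∈ Es, ∑ y ∈ Ys,
          Q * ((nm c : ℝ) ^ ex * (1 / nm c)) * (1 / nm e) * (1 / nm (fy y)) := by
          refine mul_le_mul_of_nonneg_left (Finset.sum_le_sum fun e he =>
            Finset.sum_le_sum fun y hy => hone c hc e he y hy) (by positivity)
      _ = (nm c : ℝ) ^ (-ex) * ((Q * ((nm c : ℝ) ^ ex * (1 / nm c))) *
            ((∑ e ∈ Es, 1 / (nm e : ℝ)) * ∑ y ∈ Ys, 1 / (nm (fy y) : ℝ))) := by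
          congr 1
          rw [Finset.sum_mul_sum, Finset.mul_sum]
          refine Finset.sum_congr rfl fun e _ => ?_
          rw [Finset.mul_sum]
          refine Finset.sum_congr rfl fun y _ => ?_
          ring
      _ = ((nm c : ℝ) ^ (-ex) * (nm c : ℝ) ^ ex) * (Q * (1 / nm c) *
            ((∑ e ∈ Es, 1 / (nm e : ℝ)) * ∑ y ∈ Ys, 1 / (nm (fy y) : ℝ))) := by ring
      _ = Q * (1 / nm c) * ((∑ e ∈ Es, 1 / (nm e : ℝ)) * ∑ y ∈ Ys, 1 / (nm (fy y) : ℝ)) := by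
          rw [← Real.rpow_add hcn, neg_add_cancel, Real.rpow_zero, one_mul]
      _ ≤ Q * (1 / nm c) * (X ^ (ε / 8) * (X ^ (ε / 8) * X ^ (ε / 8))) := by
          refine mul_le_mul_of_nonneg_left (mul_le_mul hE1 hY1
            (Finset.sum_nonneg fun _ _ => by positivity) hp8) (by positivity)
      _ = _ := by ring
  refine (Finset.sum_le_sum hone2).trans ?_
  rw [← Finset.mul_sum]
  have hL2 := (sum_inv_pb hL'0).trans (hlogK L' hL'0 hL'K)
  calc Q * X ^ (ε / 8) * X ^ (ε / 8) * X ^ (ε / 8) * ∑ c ∈ primBall ⌊L'⌋₊, 1 / (nm c : ℝ)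
      ≤ Q * X ^ (ε / 8) * X ^ (ε / 8) * X ^ (ε / 8) * X ^ (ε / 8) := by gcongr
    _ = H ^ M * (X ^ (tT + ε / 8) * X ^ (ε / 8) * X ^ (ε / 8) * X ^ (ε / 8) * X ^ (ε / 8)) *
          Xw ^ (-(1 / 3) : ℝ) := by
        rw [hQ]; ring
    _ ≤ H ^ M * X ^ (tT + ε) * Xw ^ (-(1 / 3) : ℝ) := by
        have h9 : X ^ (tT + ε / 8) * X ^ (ε / 8) * X ^ (ε / 8) * X ^ (ε / 8) * X ^ (ε / 8) ≤
            X ^ (tT + ε) := by
          rw [← Real.rpow_add hX0, ← Real.rpow_add hX0, ← Real.rpow_add hX0, ← Real.rpow_add hX0]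
          exact Real.rpow_le_rpow_of_exponent_le hX1.le (by linarith)
        gcongr

/-- **the cube-free T-functional as one number** -/
theorem tsdJ (R : ℝ) (hR : 0 ≤ R) {ε : ℝ} (hε : 0 < ε) (K : ℝ) (hK : 1 ≤ K) (M : ℕ) :
    ∃ X₀ : ℝ, 1 < X₀ ∧ ∀ X : ℝ, X₀ ≤ X → ∀ H : ℝ, 1 ≤ H → ∀ (Yw Xw : ℝ), 0 ≤ Yw → 0 < Xw →
      ∀ α : Eis → ℂ, Adm Yw Xw R α → ∀ F : ℝ → ℝ → ℝ, VN X H M (4 * K) α F →
      ∀ L' : ℝ, 0 ≤ L' → L' ≤ X ^ K → ∀ Es : Finset Eis,
      (∀ e ∈ Es, IsPrim e ∧ (nm e : ℝ) ≤ X ^ K) →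
      ∀ e₀ c₀ : Eis, IsPrim e₀ →
      c₀ ≠ 0 → (nm e₀ : ℝ) ≤ X ^ K → (nm c₀ : ℝ) ≤ X ^ K →
      ∀ tT : ℝ, (∀ e ∈ Es, ∀ z : ℝ, 0 ≤ z →
        3 * z ≤ Real.log (L' * nm c₀ * nm e₀) / Real.log X →
        F (Real.log (L' * nm c₀ * nm e₀) / Real.log X - 3 * z)
          (Real.log (nm e) / Real.log X + Real.log (nm e₀) / Real.log X) ≤
          tT - 4 / 3 * (Real.log (nm e) / Real.log X)) →
      ∑ e ∈ Es, ∑ j ∈ ((primBall ⌊L'⌋₊).filter CbF),
          ‖E3D579.TE0 (fun m => α (e * m)) 1 (c₀ * j) e₀‖ ^ 2 ≤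
        H ^ M * X ^ (tT + ε) * Xw ^ (-(1 / 3) : ℝ) := by
  obtain ⟨X₁, hX₁, H1⟩ := ttJ R hR (show 0 < ε / 2 by positivity) K hK M
  obtain ⟨X₂, hX₂, H3⟩ := big 200 (ε / 2) K (by positivity) (by norm_num) (by linarith)
  refine ⟨max X₁ X₂, lt_of_lt_of_le hX₁ (le_max_left _ _), ?_⟩
  intro X hX H hH Yw Xw hYw hXw α hα F hV L' hL'0 hL'K Es hEs e₀ c₀ he₀
    hc₀ he₀K hc₀K tT hRH
  have hXX : X₁ ≤ X := (le_max_left _ _).trans hX
  have hX1 : 1 < X := lt_of_lt_of_le hX₁ hXX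
  have hX0 : 0 < X := by linarith
  set L := Real.log X with hL
  have hL0 : 0 < L := Real.log_pos hX1
  have hXK1 : 1 ≤ X ^ K := Real.one_le_rpow hX1.le (by linarith)
  have hq : 0 ≤ Xw ^ (-(1 / 3) : ℝ) := by positivity
  have hE1 : ∑ e ∈ Es, 1 / (nm e : ℝ) ≤ X ^ (ε / 2) := by
    have h9 : 100 * (1 + Real.log (1 + X ^ K)) ≤ X ^ (ε / 2) := by
      refine le_trans ?_ (H3 X ((le_max_right _ _).trans hX))
      have h1 : Real.log (1 + X ^ K) ≤ Real.log (2 * X ^ K) :=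
        Real.log_le_log (by linarith) (by linarith)
      rw [Real.log_mul (by norm_num) (by positivity), Real.log_rpow hX0, ← hL] at h1
      have h2 : Real.log 2 ≤ 1 := by
        have := Real.log_two_lt_d9
        linarith
      have h3 : 0 ≤ K * L := by positivity
      linarith
    refine le_trans ?_ h9
    refine le_trans ?_ (sum_inv_pb (by positivity))
    refine Finset.sum_le_sum_of_subset_of_nonneg (fun e he => ?_) fun _ _ _ => by positivity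
    exact mem_primBall.mpr ⟨Nat.le_floor (hEs e he).2, (hEs e he).1⟩
  set Q := H ^ M * X ^ (tT + ε / 2) * Xw ^ (-(1 / 3) : ℝ) with hQ
  have hQ0 : 0 ≤ Q := by positivity
  have hone : ∀ e ∈ Es, ∑ j ∈ ((primBall ⌊L'⌋₊).filter CbF),
        ‖E3D579.TE0 (fun m => α (e * m)) 1 (c₀ * j) e₀‖ ^ 2 ≤ Q * (1 / nm e) := by
    intro e he
    obtain ⟨hep, heK⟩ := hEs e he
    have hen := nm_pos_r hep.ne_zero
    set ye := Real.log (nm e) / L with hye
    have h1 := H1 X hXX H hH Yw Xw hYw hXw α hα F hV L' hL'0 hL'K e e₀ 1 c₀ hep he₀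
      one_ne_zero hc₀ heK he₀K (by simpa using hXK1) hc₀K (tT - 4 / 3 * ye)
      (fun x hx0 hx => hRH e he x hx0 hx) ((primBall ⌊L'⌋₊).filter CbF)
      (fun j hj => Finset.mem_filter.1 hj)
    have e9 : ∀ j : Eis, c₀ * (j * 1 ^ 3) = c₀ * j := fun j => by ring
    simp only [e9] at h1
    refine h1.trans (le_of_eq ?_)
    have h4 : (Xw / nm e) ^ (-(1 / 3) : ℝ) = Xw ^ (-(1 / 3) : ℝ) * (nm e : ℝ) ^ (1 / 3 : ℝ) := by
      rw [Real.div_rpow hXw.le hen.le, Real.rpow_neg hen.le (1 / 3), div_inv_eq_mul]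
    have h5 : X ^ (tT - 4 / 3 * ye + ε / 2) =
        X ^ (tT + ε / 2) * (nm e : ℝ) ^ (-(4 / 3) : ℝ) := by
      have h7 : X ^ (-(4 / 3) * ye) = (nm e : ℝ) ^ (-(4 / 3) : ℝ) := by
        rw [Real.rpow_def_of_pos hX0, Real.rpow_def_of_pos hen, ← hL, hye]
        congr 1
        field_simp
      rw [← h7, ← Real.rpow_add hX0]
      congr 1
      ring
    have h6 : (nm e : ℝ) ^ (-(4 / 3) : ℝ) * (nm e : ℝ) ^ (1 / 3 : ℝ) = 1 / nm e := by
      rw [← Real.rpow_add hen, show (-(4 / 3) : ℝ) + 1 / 3 = -1 by norm_num, Real.rpow_neg_one,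
        one_div]
    rw [h4, h5, ← h6, hQ]
    ring
  refine (Finset.sum_le_sum hone).trans ?_
  rw [← Finset.mul_sum]
  calc Q * ∑ e ∈ Es, 1 / (nm e : ℝ) ≤ Q * X ^ (ε / 2) := by gcongr
    _ = H ^ M * (X ^ (tT + ε / 2) * X ^ (ε / 2)) * Xw ^ (-(1 / 3) : ℝ) := by
        rw [hQ]; ring
    _ = _ := by
        rw [← Real.rpow_add hX0]
        congr 3
        ring

end Crest.Agent.R017.TES792
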