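import Crest.Agent.R017.TER_792

/-!
# Row 17, T-numbers of the children of a parent, with a jump above the level (helper792)

* `TBn`, `FJ` : the closed forms
* **`cl_fe2`** : `ClK` from 708's flat claims at the parent `b` (any kernel)
* **`vn_fe2`**, **`vn_fe2X`** : `VN`, classes N and E
-/

set_option autoImplicit false
set_option linter.unusedVariables false
set_option linter.unusedSectionVars false

noncomputable section

open scoped ComplexConjugate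

namespace Crest.Agent.R017.TEX792

open Crest.Agent.R012 Crest.Agent.R012.Eis
open Crest.Agent.R012.LS2 (S mem_S bl mem_bl)
open Crest.Agent.R017.XG702 (Pcs)
open Crest.Agent.R017.XT71 (Sys mx le_mx)
open Crest.Agent.R017.CM106 (TG FS)
open Crest.Agent.R017.HP842 (Pc pc Ker ker_Kg Kg)
open Crest.Agent.R017.FE47 (PU cx)
open Crest.Agent.R017.Prov71
open Crest.Agent.R017.B770
open Crest.Agent.R017.ER911
open Crest.Agent.R017.End699 (prin0)
open Crest.Agent.R017.E5k54 (alb)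
open Crest.Agent.R017.E5B71 (Pt)
open Crest.Agent.R017.I1146 (ChN LN cN)
open Crest.Agent.R017.I1K764 (SNK)
open Crest.Agent.R017.TEM792 (nm_pos_r VN nL LD)
open Crest.Agent.R017.ExP960 (BdX u3 u3')
open Crest.Agent.R017.E4Df372 (alX)
open Crest.Agent.R017.Red848 (red Exc red_ok)
open Crest.Agent.R017.TM708
open Crest.Agent.R017.TK708
open Crest.Agent.R017.XS0298 (S0K)
open Crest.Agent.R017.PX764 (Dk)

/-! ### the closed forms -/

/-- Cauchy in a lump of length at most `u`, then TF -/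
def TBn (u v n : ℝ) : ℝ := max (v + n + u) (5 / 3 * n + v / 3)

/-- flat number with the free family below the level, `TBn` above -/
def FJ (κ top ℓ u v n : ℝ) : ℝ :=
  if v + n ≤ top then min (eH (max κ (v + n / 2)) v n + ℓ) (TBn u v n) else TBn u v n

lemma FJ_le_TB (κ top ℓ u v n : ℝ) : FJ κ top ℓ u v n ≤ TBn u v n := by
  unfold FJ
  split_ifs
  · exact min_le_right _ _
  · exact le_rfl

lemma eH_pert {K₁ K₂ v₁ v₂ n₁ n₂ a : ℝ} (ha : 0 ≤ a) (hK : K₁ ≤ K₂ + 3 / 2 * a) (hv : v₁ ≤ v₂ + a)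
    (hn : n₁ ≤ n₂ + a) : eH K₁ v₁ n₁ ≤ eH K₂ v₂ n₂ + 3 * a := by
  unfold eH eF
  refine max_le (max_le ?_ ?_) ?_
  · have h1 := le_max_left (2 * n₂) (4 / 3 * n₂ + (max K₂ (3 / 2 * v₂) + v₂) / 3)
    have h2 := le_max_left (max (2 * n₂) (4 / 3 * n₂ + (max K₂ (3 / 2 * v₂) + v₂) / 3)) (v₂ + n₂)
    linarith
  · have h1 := le_max_right (2 * n₂) (4 / 3 * n₂ + (max K₂ (3 / 2 * v₂) + v₂) / 3)
    have h2 := le_max_left (max (2 * n₂) (4 / 3 * n₂ + (max K₂ (3 / 2 * v₂) + v₂) / 3)) (v₂ + n₂)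
    have h3 : max K₁ (3 / 2 * v₁) ≤ max K₂ (3 / 2 * v₂) + 3 / 2 * a := by
      refine max_le ?_ ?_
      · have := le_max_left K₂ (3 / 2 * v₂)
        linarith
      · have := le_max_right K₂ (3 / 2 * v₂)
        linarith
    linarith
  · have h2 := le_max_right (max (2 * n₂) (4 / 3 * n₂ + (max K₂ (3 / 2 * v₂) + v₂) / 3)) (v₂ + n₂)
    linarith

lemma eH_slope {κ v σ n : ℝ} (hσ : 0 ≤ σ) :
    eH (max κ (v + σ + n / 2)) (v + σ) n ≤ eH (max κ (v + n / 2)) v n + σ := by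
  unfold eH eF
  set K₂ := max κ (v + n / 2) with hK₂
  have hK : max κ (v + σ + n / 2) ≤ K₂ + σ := by
    refine max_le ?_ ?_
    · have := le_max_left κ (v + n / 2)
      linarith
    · have := le_max_right κ (v + n / 2)
      linarith
  have h2 := le_max_left (max (2 * n) (4 / 3 * n + (max K₂ (3 / 2 * v) + v) / 3)) (v + n)
  refine max_le (max_le ?_ ?_) ?_
  · have h1 := le_max_left (2 * n) (4 / 3 * n + (max K₂ (3 / 2 * v) + v) / 3)
    linarith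
  · have h1 := le_max_right (2 * n) (4 / 3 * n + (max K₂ (3 / 2 * v) + v) / 3)
    have h3 : max (max κ (v + σ + n / 2)) (3 / 2 * (v + σ)) ≤ max K₂ (3 / 2 * v) + 3 / 2 * σ := by
      refine max_le ?_ ?_
      · have := le_max_left K₂ (3 / 2 * v)
        linarith
      · have := le_max_right K₂ (3 / 2 * v)
        linarith
    linarith
  · have h3 := le_max_right (max (2 * n) (4 / 3 * n + (max K₂ (3 / 2 * v) + v) / 3)) (v + n)
    linarith

lemma TB_slope {u v σ n : ℝ} (hσ : 0 ≤ σ) : TBn u (v + σ) n ≤ TBn u v n + σ := by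
  unfold TBn
  have h1 := le_max_left (v + n + u) (5 / 3 * n + v / 3)
  have h2 := le_max_right (v + n + u) (5 / 3 * n + v / 3)
  refine max_le ?_ ?_ <;> linarith

/-- the jump function has small slopes -/
lemma FJ_slope {κ top ℓ u v σ δ n : ℝ} (hσ : 0 ≤ σ) (hσδ : σ ≤ δ) :
    FJ κ (top + δ) ℓ u (v + σ) n ≤ FJ κ top ℓ u v n + σ := by
  by_cases h : v + n ≤ top
  · have e1 : FJ κ top ℓ u v n = min (eH (max κ (v + n / 2)) v n + ℓ) (TBn u v n) := by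
      unfold FJ
      rw [if_pos h]
    have e2 : FJ κ (top + δ) ℓ u (v + σ) n =
        min (eH (max κ (v + σ + n / 2)) (v + σ) n + ℓ) (TBn u (v + σ) n) := by
      unfold FJ
      rw [if_pos (by linarith)]
    rw [e1, e2, ← min_add_add_right]
    refine min_le_min ?_ (TB_slope hσ)
    have := eH_slope (κ := κ) (v := v) (n := n) hσ
    linarith
  · have e1 : FJ κ top ℓ u v n = TBn u v n := by
      unfold FJ
      rw [if_neg h]
    rw [e1]
    exact (FJ_le_TB _ _ _ _ _ _).trans (TB_slope hσ)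

lemma FJ_mono_top {κ top top' ℓ u v n : ℝ} (h : top ≤ top') :
    FJ κ top' ℓ u v n ≤ FJ κ top ℓ u v n := by
  by_cases h1 : v + n ≤ top
  · unfold FJ
    rw [if_pos h1, if_pos (h1.trans h)]
  · have e1 : FJ κ top ℓ u v n = TBn u v n := by
      unfold FJ
      rw [if_neg h1]
    rw [e1]
    exact FJ_le_TB _ _ _ _ _ _

lemma TB_hom {L : ℝ} (hL : 0 ≤ L) (u v n : ℝ) : TBn (L * u) (L * v) (L * n) = L * TBn u v n := by
  unfold TBn
  rw [mul_max_of_nonneg _ _ hL]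
  congr 1 <;> ring

/-- `tAll` of a pure list -/
lemma tAll_le_TB {d l z₁ z₂ z₃ u : ℝ} (i : Fin 3) (hz : ∀ j, 0 ≤ (![z₁, z₂, z₃] : Fin 3 → ℝ) j)
    (hi : (![z₁, z₂, z₃] : Fin 3 → ℝ) i ≤ u) :
    tAll d l z₁ z₂ z₃ 0 ≤ TBn u l (z₁ + z₂ + z₃) := by
  have h1 : 0 ≤ z₁ := hz 0
  have h2 : 0 ≤ z₂ := hz 1
  have h3 : 0 ≤ z₃ := hz 2
  have key := tAll_le_CT3 d l z₁ z₂ z₃ 0
  unfold tCT3 at key
  unfold TBn
  have g1 := le_max_left (l + (z₁ + z₂ + z₃) + u) (5 / 3 * (z₁ + z₂ + z₃) + l / 3)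
  have g2 := le_max_right (l + (z₁ + z₂ + z₃) + u) (5 / 3 * (z₁ + z₂ + z₃) + l / 3)
  fin_cases i
  · have hu : z₁ ≤ u := hi
    exact key.trans ((min_le_right _ _).trans ((min_le_left _ _).trans
      (tCT_le (by linarith) (by linarith))))
  · have hu : z₂ ≤ u := hi
    exact key.trans ((min_le_right _ _).trans ((min_le_right _ _).trans
      (tCT_le (by linarith) (by linarith))))
  · have hu : z₃ ≤ u := hi
    exact key.trans ((min_le_left _ _).trans (tCT_le (by linarith) (by linarith)))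

/-! ### the claims -/

variable {Λ : Type*} {π : Λ → DPar} {h : ℝ → ℝ} {d : ℝ} {Kf Tf : (Fin 5 → ℝ) → ℝ}

lemma ClK_mono {Kn : Eis → Eis → ℂ} {P : DPar} {X H : ℝ} {M : ℕ} {r K : ℝ} {us : Fin 3 → Pq}
    {β : Fin 3 → Eis} {F F' : ℝ → ℝ → ℝ} (hX : 1 < X) (hH : 0 ≤ H)
    (hc : ClK Kn h P X H M r K us β F) (hF : ∀ v γ, F v γ ≤ F' v γ) :
    ClK Kn h P X H M r K us β F' := by
  intro g hg hgs hgX q hq hqX k hk hkK l ps' hl hch hLN hlk
  refine (hc g hg hgs hgX q hq hqX k hk hkK l ps' hl hch hLN hlk).trans ?_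
  have h1 : X ^ F (k / Real.log X) (Real.log (nm g) / Real.log X) ≤
      X ^ F' (k / Real.log X) (Real.log (nm g) / Real.log X) :=
    Real.rpow_le_rpow_of_exponent_le hX.le (hF _ _)
  have h2 : (0 : ℝ) ≤ H ^ M := by positivity
  have h3 : (0 : ℝ) ≤ cN ps' (List.ofFn us) ^ (M : ℝ) :=
    Real.rpow_nonneg (by linarith [one_le_cN hch]) _
  gcongr

/-- the frame of a pure list -/
lemma pd_of {X K H₀ τ : ℝ} (hX : 1 < X) (hK : 1 ≤ K) (hH : 1 ≤ H₀) (hτ : 0 ≤ τ)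
    {us : Fin 3 → Pq} {β : Fin 3 → Eis} (hL : LD X K H₀ us β) {q : Eis} (hq : q ≠ 0)
    (hqX : (nm q : ℝ) ≤ X ^ (5 * K)) {b : Fin 5 → ℝ} (h4 : 0 ≤ b 4)
    (h1 : (us 0).z ≤ (b 1 + τ) * Real.log X) (h2 : (us 1).z ≤ (b 2 + τ) * Real.log X)
    (h3 : (us 2).z ≤ (b 3 + τ) * Real.log X) :
    PD X τ (5 * K) H₀ 0 b q us [] (b 0 * Real.log X) where
  q0 := hq
  qB := hqX
  H1 := hH
  lump := hL.lump
  us0 := hL.z0
  usB i := (hL.dK i).trans (Real.rpow_le_rpow_of_exponent_le hX.le (by linarith))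
  usH := hL.tH
  z1 := h1
  z2 := h2
  z3 := h3
  am := by simp
  len := le_rfl
  x := by
    have := Real.log_pos hX
    show I1146.LN ([] : List Pq) ≤ _
    unfold I1146.LN
    simp only [List.map_nil, List.sum_nil]
    positivity
  k := by
    rw [sub_self, abs_zero]
    have := Real.log_pos hX
    positivity

lemma nmβ {X K H₀ : ℝ} (hX : 1 < X) (hK : 1 ≤ K) {us : Fin 3 → Pq} {β : Fin 3 → Eis}
    (hL : LD X K H₀ us β) {q : Eis} (hqX : (nm q : ℝ) ≤ X ^ K) :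
    (nm ((∏ i, β i) * q) : ℝ) ≤ X ^ (5 * K) := by
  have hX0 : 0 < X := by linarith
  rw [nm_mul, Fin.prod_univ_three, nm_mul, nm_mul]
  push_cast
  have h0 := hL.bK 0
  have h1 := hL.bK 1
  have h2 := hL.bK 2
  calc (nm (β 0) : ℝ) * nm (β 1) * nm (β 2) * nm q
      ≤ X ^ K * X ^ K * X ^ K * X ^ K := by gcongr
    _ = X ^ (4 * K) := by
        rw [← Real.rpow_add hX0, ← Real.rpow_add hX0, ← Real.rpow_add hX0]
        ring_nf
    _ ≤ X ^ (5 * K) := Real.rpow_le_rpow_of_exponent_le hX.le (by linarith)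

/-- **`ClK` from the flat claims at the parent `b`, any kernel** -/
theorem cl_fe2 {Kn : Eis → Eis → ℂ} (hW : Wd fun lam => S0K Kn (π lam) h)
    (hA : AllT d (ex Dq fun lam => S0K Kn (π lam) h)) (hKf : Continuous Kf)
    (hTf : Continuous Tf) {D5 : Set (Fin 5 → ℝ)} (hD : IsCompact D5) {ℓ : (Fin 5 → ℝ) → ℝ}
    (hℓ : Continuous ℓ) (hFE : FE2G (ex Dq fun lam => S0K Kn (π lam) h) D5 Kf Tf ℓ) {ε : ℝ}
    (hε : 0 < ε) :
    ∃ σ : ℝ, 0 < σ ∧ ∀ (lam : Λ) (K : ℝ), 1 ≤ K → ∃ M₀ : ℕ, ∀ M : ℕ, M₀ ≤ M → ∀ r : ℝ, 0 ≤ r →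
      ∃ X₀ : ℝ, 1 < X₀ ∧ ∀ X : ℝ, X₀ ≤ X → ∀ H₀ : ℝ, 1 ≤ H₀ → ∀ (us : Fin 3 → Pq)
      (β : Fin 3 → Eis), LD X K H₀ us β → ∀ b ∈ D5, 0 ≤ b 4 →
      (us 0).z ≤ (b 1 + σ) * Real.log X → (us 1).z ≤ (b 2 + σ) * Real.log X →
      (us 2).z ≤ (b 3 + σ) * Real.log X → ∀ i : Fin 3,
      ClK Kn h (π lam) X H₀ M r K us β (fun v γ => FJ (Kf b)
        (Tf b + (b 1 + b 2 + b 3 + b 4) + σ) (ℓ b) ((us i).z / Real.log X) v
        (nL X us β - γ) + ε) := by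
  obtain ⟨σ₁, hσ₁, G1⟩ := child_leG hW hA hKf hTf hD hℓ hFE (show 0 < ε / 2 by positivity)
  refine ⟨σ₁ / 2, by positivity, fun lam K hK => ?_⟩
  obtain ⟨M₁, G1⟩ := G1 lam 0 (5 * K)
  obtain ⟨σ₂, hσ₂, G2⟩ := child_tAllG (B₁ := K + 1) hW hA (by linarith)
    (show 0 < ε / 2 by positivity)
  obtain ⟨M₂, G2⟩ := G2 lam 0 (5 * K)
  refine ⟨max M₁ M₂, fun M hM r hr => ?_⟩
  have hM1 : M₁ ≤ M := (le_max_left _ _).trans hM
  have hM2 : M₂ ≤ M := (le_max_right _ _).trans hM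
  obtain ⟨X₁, hX₁, G1⟩ := G1 r hr
  obtain ⟨X₂, hX₂, G2⟩ := G2 r hr
  set L₀ : ℝ := max (max (4 * r / σ₁) (8 * r / ε)) (max 1 r) with hL₀
  refine ⟨max (max X₁ X₂) (Real.exp L₀), lt_of_lt_of_le (lt_of_lt_of_le hX₁ (le_max_left _ _))
    (le_max_left _ _), ?_⟩
  intro X hX H₀ hH₀ us β hLD b hb hb4 hz1 hz2 hz3 i g hg hgs hgX q hq hqX k hk hkK l ps' hl hch
    hLN hlk
  have hXX1 : X₁ ≤ X := ((le_max_left _ _).trans (le_max_left _ _)).trans hX
  have hXX2 : X₂ ≤ X := ((le_max_right _ _).trans (le_max_left _ _)).trans hX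
  have hX1 : 1 < X := by linarith
  have hX0 : 0 < X := by linarith
  set L := Real.log X with hL
  have hL0 : 0 < L := Real.log_pos hX1
  have hLL : L₀ ≤ L := (Real.le_log_iff_exp_le hX0).2 ((le_max_right _ _).trans hX)
  have hr1 : 2 * r ≤ σ₁ / 2 * L := by
    have h1 : 4 * r / σ₁ ≤ L := ((le_max_left _ _).trans (le_max_left _ _)).trans hLL
    rw [div_le_iff₀ hσ₁] at h1
    linarith
  have hr2 : 4 * r ≤ ε / 2 * L := by
    have h1 : 8 * r / ε ≤ L := ((le_max_right _ _).trans (le_max_left _ _)).trans hLL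
    rw [div_le_iff₀ hε] at h1
    linarith
  have hr3 : r ≤ L := ((le_max_right _ _).trans (le_max_right _ _)).trans hLL
  have hβ0 : (∏ i, β i) ≠ 0 := Finset.prod_ne_zero_iff.2 fun i _ => (hLD.bp i).ne_zero
  have hQ0 : (∏ i, β i) * q ≠ 0 := mul_ne_zero hβ0 hq
  have hQX := nmβ hX1 hK hLD hqX
  have hgX5 : (nm g : ℝ) ≤ X ^ (5 * K) :=
    hgX.trans (Real.rpow_le_rpow_of_exponent_le hX1.le (by linarith))
  have e0 : List.ofFn us = [us 0, us 1, us 2] ++ [] := by simp [List.ofFn_succ]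
  have hcN : 1 ≤ cN ps' (List.ofFn us) := one_le_cN hch
  have eQ : (∏ i, β i) * g * q = (∏ i, β i) * q * g := by ring
  obtain ⟨a1, a2⟩ := abs_le.1 hLN
  obtain ⟨a3, a4⟩ := abs_le.1 hlk
  set v := k / L with hv
  set γ := Real.log (nm g) / L with hγ
  have hkv : k = L * v := by rw [hv]; field_simp
  set m := nL X us β - γ with hm
  have hLm : ∑ i, (us i).z - Real.log (nm (∏ i, β i)) - Real.log (nm g) = L * m := by
    rw [hm, hγ]
    unfold TEM792.nL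
    rw [← hL]
    field_simp
  rw [hLm] at a1 a2
  have hzL : ∀ j, (us j).z = L * ((us j).z / L) := fun j => by field_simp
  set u := (us i).z / L with hu
  -- the second function
  have key2 : ∃ z₁ z₂ z₃ w : ℝ, 0 ≤ z₁ ∧ 0 ≤ z₂ ∧ 0 ≤ z₃ ∧ 0 ≤ w ∧ z₁ ≤ (us 0).z + r ∧
        z₂ ≤ (us 1).z + r ∧ z₃ ≤ (us 2).z + r ∧ w ≤ LN ([] : List Pq) + (0 : ℕ) * r ∧
        z₁ + z₂ + z₃ + w = LN ps' ∧
        tq (fun lam => S0K Kn (π lam) h) lam ((∏ i, β i) * q * g) l ps' ≤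
          (cN ps' ([us 0, us 1, us 2] ++ []) * H₀) ^ M₂ *
          Real.exp (tAll d l z₁ z₂ z₃ w + ε / 2 * Real.log X) := by
    refine G2 X hXX2 ![0, (us 0).z / L, (us 1).z / L, (us 2).z / L, 0] (fun j => ?_)
      ((∏ i, β i) * q) us [] (0 * Real.log X) H₀ ?_ g hg hgX5 l ps' hl ?_ (by rw [← e0]; exact hch)
    · have hy := fun j => (LD_y hX1 hLD j).2
      fin_cases j
      · show (0 : ℝ) ≤ K + 1
        linarith
      · exact (hy 0).trans (by linarith)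
      · exact (hy 1).trans (by linarith)
      · exact (hy 2).trans (by linarith)
      · show (0 : ℝ) ≤ K + 1
        linarith
    · refine pd_of hX1 hK hH₀ (by positivity) hLD hQ0 hQX (b := ![0, (us 0).z / L, (us 1).z / L,
        (us 2).z / L, 0]) le_rfl ?_ ?_ ?_
      · show (us 0).z ≤ ((us 0).z / L + σ₂ / 2) * L
        rw [add_mul, div_mul_cancel₀ _ hL0.ne']
        have : 0 ≤ σ₂ / 2 * L := by positivity
        linarith
      · show (us 1).z ≤ ((us 1).z / L + σ₂ / 2) * L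
        rw [add_mul, div_mul_cancel₀ _ hL0.ne']
        have : 0 ≤ σ₂ / 2 * L := by positivity
        linarith
      · show (us 2).z ≤ ((us 2).z / L + σ₂ / 2) * L
        rw [add_mul, div_mul_cancel₀ _ hL0.ne']
        have : 0 ≤ σ₂ / 2 * L := by positivity
        linarith
    · rw [← hL]
      linarith
  have hTB : ∀ z₁ z₂ z₃ : ℝ, 0 ≤ z₁ → 0 ≤ z₂ → 0 ≤ z₃ → z₁ ≤ (us 0).z + r → z₂ ≤ (us 1).z + r →
      z₃ ≤ (us 2).z + r → z₁ + z₂ + z₃ = LN ps' →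
      tAll d l z₁ z₂ z₃ 0 ≤ L * TBn u v m + 3 * r := by
    intro z₁ z₂ z₃ h1 h2 h3 k1 k2 k3 hsum
    have h4 := tAll_le_TB (d := d) (l := l) (u := L * u + r) i
      (z₁ := z₁) (z₂ := z₂) (z₃ := z₃) (fun j => by
        fin_cases j
        · exact h1
        · exact h2
        · exact h3) (by
        have e9 : L * u = (us i).z := (hzL i).symm
        rw [e9]
        fin_cases i
        · exact k1
        · exact k2
        · exact k3)
    refine h4.trans ?_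
    rw [hsum, ← TB_hom hL0.le]
    unfold TBn
    have g1 := le_max_left (L * v + L * m + L * u) (5 / 3 * (L * m) + L * v / 3)
    have g2 := le_max_right (L * v + L * m + L * u) (5 / 3 * (L * m) + L * v / 3)
    refine max_le ?_ ?_
    · linarith
    · linarith
  have hfin : ∀ (M' : ℕ) (E G : ℝ), M' ≤ M → E ≤ L * G + 4 * r + ε / 2 * L →
      SNK Kn ((∏ i, β i) * g * q) (π lam) h l ps' ≤
        (cN ps' ([us 0, us 1, us 2] ++ []) * H₀) ^ M' * Real.exp E →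
      SNK Kn ((∏ i, β i) * g * q) (π lam) h l ps' ≤
        H₀ ^ M * X ^ (G + ε) * cN ps' (List.ofFn us) ^ (M : ℝ) := by
    intro M' E G hM' hE h1
    refine h1.trans ?_
    rw [← e0]
    have h2 : (cN ps' (List.ofFn us) * H₀) ^ M' ≤ (cN ps' (List.ofFn us) * H₀) ^ M :=
      pow_le_pow_right₀ (one_le_mul_of_one_le_of_one_le hcN hH₀) hM'
    have h3 : Real.exp E ≤ X ^ (G + ε) := by
      rw [Real.rpow_def_of_pos hX0, ← hL]
      refine Real.exp_le_exp.2 ?_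
      rw [mul_add]
      linarith
    calc (cN ps' (List.ofFn us) * H₀) ^ M' * Real.exp E
        ≤ (cN ps' (List.ofFn us) * H₀) ^ M * X ^ (G + ε) :=
          mul_le_mul h2 h3 (Real.exp_pos _).le (by positivity)
      _ = _ := by
          rw [mul_pow, Real.rpow_natCast]
          ring
  have etq : tq (fun lam => S0K Kn (π lam) h) lam ((∏ i, β i) * q * g) l ps' =
      SNK Kn ((∏ i, β i) * g * q) (π lam) h l ps' := by
    rw [eQ]
    exact tq_K Kn (mul_ne_zero hQ0 hg.ne_zero) lam l ps'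
  rw [etq] at key2
  obtain ⟨z₁, z₂, z₃, w, y1, y2, y3, y4, y5, y6, y7, y8, y9, y10⟩ := key2
  have hw0 : w = 0 := by
    have : LN ([] : List Pq) = 0 := by
      unfold I1146.LN
      simp
    rw [this] at y8
    push_cast at y8
    linarith
  rw [hw0, add_zero] at y9
  rw [hw0] at y10
  have hB2 := hfin M₂ _ (TBn u v m) hM2 (by
    rw [← hL]
    have := hTB z₁ z₂ z₃ y1 y2 y3 y5 y6 y7 y9
    linarith) y10
  by_cases htop : v + m ≤ Tf b + (b 1 + b 2 + b 3 + b 4) + σ₁ / 2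
  swap
  · have e1 : FJ (Kf b) (Tf b + (b 1 + b 2 + b 3 + b 4) + σ₁ / 2) (ℓ b) u v m = TBn u v m := by
      unfold FJ
      rw [if_neg htop]
    show _ ≤ H₀ ^ M * X ^ (FJ (Kf b) _ (ℓ b) u v m + ε) * _
    rw [e1]
    exact hB2
  · have key1 := G1 X hXX1 b hb ((∏ i, β i) * q) us [] (b 0 * Real.log X) H₀
      (pd_of hX1 hK hH₀ (by positivity) hLD hQ0 hQX hb4 hz1 hz2 hz3) g hg hgX5 l ps' hl
      (by rw [← e0]; exact hch) (by
        rw [← hL]
        have h1 : L * (v + m) ≤ L * (Tf b + (b 1 + b 2 + b 3 + b 4) + σ₁ / 2) :=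
          mul_le_mul_of_nonneg_left htop hL0.le
        nlinarith)
    rw [etq] at key1
    obtain ⟨x₁, x₂, x₃, w', x1, x2, x3, x4, x5, x6, x7, x8, x9, x10⟩ := key1
    have hw0' : w' = 0 := by
      have : LN ([] : List Pq) = 0 := by
        unfold I1146.LN
        simp
      rw [this] at x8
      push_cast at x8
      linarith
    rw [hw0', add_zero] at x9
    rw [hw0'] at x10
    have e1 : FJ (Kf b) (Tf b + (b 1 + b 2 + b 3 + b 4) + σ₁ / 2) (ℓ b) u v m =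
        min (eH (max (Kf b) (v + m / 2)) v m + ℓ b) (TBn u v m) := by
      unfold FJ
      rw [if_pos htop]
    show _ ≤ H₀ ^ M * X ^ (FJ (Kf b) _ (ℓ b) u v m + ε) * _
    rw [e1]
    rcases min_choice (eH (max (Kf b) (v + m / 2)) v m + ℓ b) (TBn u v m) with h9 | h9
    · rw [h9]
      refine hfin M₁ _ _ hM1 ?_ x10
      rw [← hL]
      have h10 : ∀ κ₁ : ℝ, κ₁ ≤ max (L * Kf b) (l + LN ps' / 2) →
          eH κ₁ l (LN ps') ≤ L * eH (max (Kf b) (v + m / 2)) v m + 3 * r := by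
        intro κ₁ hκ₁
        rw [← eH_hom hL0.le]
        refine eH_pert hr (hκ₁.trans ?_) (by linarith) (by linarith)
        have g1 := mul_le_mul_of_nonneg_left (le_max_left (Kf b) (v + m / 2)) hL0.le
        have g2 := mul_le_mul_of_nonneg_left (le_max_right (Kf b) (v + m / 2)) hL0.le
        refine max_le ?_ ?_ <;> linarith
      have h12 : ∀ κ₁ : ℝ, κ₁ ≤ max (L * Kf b) (l + LN ps' / 2) →
          min (eH κ₁ l (LN ps') + L * ℓ b) (tAll d l x₁ x₂ x₃ 0) + ε / 2 * L ≤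
            L * (eH (max (Kf b) (v + m / 2)) v m + ℓ b) + 4 * r + ε / 2 * L := by
        intro κ₁ hκ₁
        have g1 := h10 κ₁ hκ₁
        have g2 := min_le_left (eH κ₁ l (LN ps') + L * ℓ b) (tAll d l x₁ x₂ x₃ 0)
        linarith
      refine h12 _ ?_
      first
        | exact le_max_left _ _
        | (unfold kW; rw [add_zero])
    · rw [h9]
      exact hB2

/-- **`VN` of the twisted three lumps (class N) from the flat claims at the parent `b`** -/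
theorem vn_fe2 {c₀ : ℝ} (hpu : PU h c₀) (hP : ∀ lam, (π lam).OK)
    (hA : AllT d (ex Dq fun lam => S0p (π lam) h)) (hKf : Continuous Kf)
    (hTf : Continuous Tf) {D5 : Set (Fin 5 → ℝ)} (hD : IsCompact D5) {ℓ : (Fin 5 → ℝ) → ℝ}
    (hℓ : Continuous ℓ) (hFE : FE2G (ex Dq fun lam => S0p (π lam) h) D5 Kf Tf ℓ) {ε : ℝ}
    (hε : 0 < ε) :
    ∃ σ : ℝ, 0 < σ ∧ ∀ (lam : Λ) (K : ℝ), 1 ≤ K → ∃ M₀ : ℕ, ∀ M : ℕ, M₀ ≤ M → ∀ s : Eis,
      s ∈ FE47.SM (π lam).n → ∃ X₀ : ℝ, 1 < X₀ ∧ ∀ X : ℝ, X₀ ≤ X → ∀ H₀ : ℝ, 1 ≤ H₀ →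
      ∀ (us : Fin 3 → Pq) (β : Fin 3 → Eis), LD X K H₀ us β → ∀ b ∈ D5, 0 ≤ b 4 →
      (us 0).z ≤ (b 1 + σ) * Real.log X → (us 1).z ≤ (b 2 + σ) * Real.log X →
      (us 2).z ≤ (b 3 + σ) * Real.log X → ∀ i : Fin 3,
      VN X H₀ M K (alb (fun i => pc h (Pt (π lam) s (us i))) β) (fun v γ => FJ (Kf b)
        (Tf b + (b 1 + b 2 + b 3 + b 4) + σ) (ℓ b) ((us i).z / Real.log X) v
        (nL X us β - γ) + ε) := by
  obtain ⟨σ, hσ, G1⟩ := cl_fe2 (π := π) (h := h) (Kn := Kg) (TK708.wd_N hpu hP) hA hKf hTf hD hℓ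
    hFE (show 0 < ε / 2 by positivity)
  refine ⟨σ / 2, by positivity, fun lam K hK => ?_⟩
  obtain ⟨M₀, G2⟩ := G1 lam (K + 1) (by linarith)
  refine ⟨M₀, fun M hM s hs => ?_⟩
  obtain ⟨r, hr, G3⟩ := vn_f3d hpu (show 0 < ε / 2 by positivity) (show 0 < σ / 2 by positivity)
    K hK M
  obtain ⟨X₁, hX₁, G4⟩ := G3 (π lam) (hP lam) s hs
  obtain ⟨X₂, hX₂, G5⟩ := G2 M hM r hr
  refine ⟨max X₁ X₂, lt_of_lt_of_le hX₁ (le_max_left _ _), ?_⟩
  intro X hX H₀ hH₀ us β hLD b hb hb4 h1 h2 h3 i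
  have hXX1 : X₁ ≤ X := (le_max_left _ _).trans hX
  have hXX2 : X₂ ≤ X := (le_max_right _ _).trans hX
  have hX1 : 1 < X := by linarith
  have hL0 := Real.log_pos hX1
  have hup : ∀ {y c : ℝ}, y ≤ (c + σ / 2) * Real.log X → y ≤ (c + σ) * Real.log X := by
    intro y c h
    nlinarith
  have hcl := G5 X hXX2 H₀ hH₀ us β (LD_mono hX1 (by linarith) hLD) b hb hb4 (hup h1) (hup h2)
    (hup h3) i
  refine VN_le hX1 (by linarith) (G4 X hXX1 H₀ hH₀ us β hLD.zK hLD.bp _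
    (fun v γ => FJ (Kf b) (Tf b + (b 1 + b 2 + b 3 + b 4) + σ / 2) (ℓ b)
      ((us i).z / Real.log X) v (nL X us β - γ) + ε / 2) (fun v s γ h0 h1 h2 => ?_) hcl)
    fun v γ => by linarith
  have h9 := FJ_slope (κ := Kf b) (top := Tf b + (b 1 + b 2 + b 3 + b 4) + σ / 2) (ℓ := ℓ b)
    (u := (us i).z / Real.log X) (v := v) (n := nL X us β - γ) h1 h2
  have e : Tf b + (b 1 + b 2 + b 3 + b 4) + σ / 2 + σ / 2 =
      Tf b + (b 1 + b 2 + b 3 + b 4) + σ := by ring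
  rw [e] at h9
  linarith

/-- **`VN` of `alX` (class E) from the flat claims at the parents `b` (natural lumps) and `b'`
(replaced pair)** -/
theorem vn_fe2X {c₀ : ℝ} (hpu : PU h c₀) (hP : ∀ lam, (π lam).OK) (hE : ∀ lam, Exc (π lam))
    (hA : AllT d (ex Dq fun lam => S0K Dk (red (π lam)) h)) (hKf : Continuous Kf)
    (hTf : Continuous Tf) {D5 : Set (Fin 5 → ℝ)} (hD : IsCompact D5) {ℓ : (Fin 5 → ℝ) → ℝ}
    (hℓ : Continuous ℓ) (hFE : FE2G (ex Dq fun lam => S0K Dk (red (π lam)) h) D5 Kf Tf ℓ)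
    {ε : ℝ} (hε : 0 < ε) :
    ∃ σ : ℝ, 0 < σ ∧ ∀ (lam : Λ) (K : ℝ), 1 ≤ K → ∃ M₀ : ℕ, ∀ M : ℕ, M₀ ≤ M → ∀ t : Eis,
      t ∈ FE47.SM (π lam).n → ∃ X₀ : ℝ, 1 < X₀ ∧ ∀ X : ℝ, X₀ ≤ X → ∀ H₀ : ℝ, 1 ≤ H₀ →
      ∀ (a : BdX) (β : Fin 3 → Eis) (s₀ : ℝ), LDX X K H₀ s₀ a β →
      ∀ b ∈ D5, ∀ b' ∈ D5, 0 ≤ b 4 → 0 ≤ b' 4 →
      (∀ i : Fin 3, (u3 a i).z ≤ ((![b 1, b 2, b 3] : Fin 3 → ℝ) i + σ) * Real.log X) →
      (∀ i : Fin 3, (u3' a i).z ≤ ((![b' 1, b' 2, b' 3] : Fin 3 → ℝ) i + σ) * Real.log X) →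
      ∀ i i' : Fin 3,
      VN X H₀ M K (alX (π lam) h t a β) (fun v γ => max (max
        (FJ (Kf b) (Tf b + (b 1 + b 2 + b 3 + b 4) + σ) (ℓ b) ((u3 a i).z / Real.log X) v
          (nL X (u3 a) β - γ))
        (FJ (Kf b') (Tf b' + (b' 1 + b' 2 + b' 3 + b' 4) + σ) (ℓ b') ((u3' a i').z / Real.log X)
          v (nL X (u3 a) β - γ)))
        (2 / 3 * v + 5 / 3 * (nL X (u3 a) β - γ) - max 0 (s₀ - γ)) + ε) := by
  have hPr : ∀ lam, (red (π lam)).OK := fun lam => red_ok (hP lam) (hE lam)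
  obtain ⟨σ, hσ, G1⟩ := cl_fe2 (π := fun lam => red (π lam)) (h := h) (Kn := Dk)
    (TK708.wd_E hpu hPr) hA hKf hTf hD hℓ hFE (show 0 < ε / 2 by positivity)
  refine ⟨σ / 2, by positivity, fun lam K hK => ?_⟩
  obtain ⟨M₀, G2⟩ := G1 lam (K + 1) (by linarith)
  refine ⟨max 12 M₀, fun M hM t ht => ?_⟩
  obtain ⟨r, hr, G3⟩ := vn_alXd hpu (show 0 < ε / 2 by positivity) (show 0 < σ / 2 by positivity)
    K hK M ((le_max_left _ _).trans hM)
  obtain ⟨X₁, hX₁, G4⟩ := G3 (π lam) (hP lam) (hE lam) t ht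
  obtain ⟨X₂, hX₂, G5⟩ := G2 M ((le_max_right _ _).trans hM) r hr
  refine ⟨max X₁ X₂, lt_of_lt_of_le hX₁ (le_max_left _ _), ?_⟩
  intro X hX H₀ hH₀ a β s₀ hLD b hb b' hb' hb4 hb4' h1 h1' i i'
  have hXX1 : X₁ ≤ X := (le_max_left _ _).trans hX
  have hXX2 : X₂ ≤ X := (le_max_right _ _).trans hX
  have hX1 : 1 < X := by linarith
  have hL0 := Real.log_pos hX1
  have enL : nL X (u3' a) β = nL X (u3 a) β := by
    unfold TEM792.nL
    rw [ExP960.sum_u3' hLD.ok, ExP960.sum_u3]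
  have hup : ∀ {y c : ℝ}, y ≤ (c + σ / 2) * Real.log X → y ≤ (c + σ) * Real.log X := by
    intro y c h
    nlinarith
  have hcl := G5 X hXX2 H₀ hH₀ (u3 a) β (LD_mono hX1 (by linarith) hLD.ld) b hb hb4
    (hup (h1 0)) (hup (h1 1)) (hup (h1 2)) i
  have hcl' := G5 X hXX2 H₀ hH₀ (u3' a) β (LD_mono hX1 (by linarith) hLD.ld') b' hb' hb4'
    (hup (h1' 0)) (hup (h1' 1)) (hup (h1' 2)) i'
  rw [enL] at hcl'
  set m := nL X (u3 a) β with hm
  set F₁ : ℝ → ℝ → ℝ := fun v γ => FJ (Kf b) (Tf b + (b 1 + b 2 + b 3 + b 4) + σ) (ℓ b)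
    ((u3 a i).z / Real.log X) v (m - γ) with hF₁
  set F₂ : ℝ → ℝ → ℝ := fun v γ => FJ (Kf b') (Tf b' + (b' 1 + b' 2 + b' 3 + b' 4) + σ) (ℓ b')
    ((u3' a i').z / Real.log X) v (m - γ) with hF₂
  have c1 := ClK_mono (F' := fun v γ => max (F₁ v γ) (F₂ v γ) + ε / 2) hX1 (by linarith) hcl
    fun v γ => by
      have := le_max_left (F₁ v γ) (F₂ v γ)
      show F₁ v γ + ε / 2 ≤ _
      linarith
  have c2 := ClK_mono (F' := fun v γ => max (F₁ v γ) (F₂ v γ) + ε / 2) hX1 (by linarith) hcl'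
    fun v γ => by
      have := le_max_right (F₁ v γ) (F₂ v γ)
      show F₂ v γ + ε / 2 ≤ _
      linarith
  set E₁ : ℝ → ℝ → ℝ := fun v γ => FJ (Kf b) (Tf b + (b 1 + b 2 + b 3 + b 4) + σ / 2) (ℓ b)
    ((u3 a i).z / Real.log X) v (m - γ) with hE₁
  set E₂ : ℝ → ℝ → ℝ := fun v γ => FJ (Kf b') (Tf b' + (b' 1 + b' 2 + b' 3 + b' 4) + σ / 2)
    (ℓ b') ((u3' a i').z / Real.log X) v (m - γ) with hE₂
  refine VN_le hX1 (by linarith) (G4 X hXX1 H₀ hH₀ a β s₀ hLD _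
    (fun v γ => max (E₁ v γ) (E₂ v γ) + ε / 2) (fun v s γ h0 h1 h2 => ?_) c1 c2) fun v γ => ?_
  · have h9 := FJ_slope (κ := Kf b) (top := Tf b + (b 1 + b 2 + b 3 + b 4) + σ / 2) (ℓ := ℓ b)
      (u := (u3 a i).z / Real.log X) (v := v) (n := m - γ) h1 h2
    have h10 := FJ_slope (κ := Kf b') (top := Tf b' + (b' 1 + b' 2 + b' 3 + b' 4) + σ / 2)
      (ℓ := ℓ b') (u := (u3' a i').z / Real.log X) (v := v) (n := m - γ) h1 h2
    have e : Tf b + (b 1 + b 2 + b 3 + b 4) + σ / 2 + σ / 2 =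
        Tf b + (b 1 + b 2 + b 3 + b 4) + σ := by ring
    have e' : Tf b' + (b' 1 + b' 2 + b' 3 + b' 4) + σ / 2 + σ / 2 =
        Tf b' + (b' 1 + b' 2 + b' 3 + b' 4) + σ := by ring
    rw [e] at h9
    rw [e'] at h10
    have h11 := le_max_left (E₁ v γ) (E₂ v γ)
    have h12 := le_max_right (E₁ v γ) (E₂ v γ)
    have : max (F₁ (v + s) γ) (F₂ (v + s) γ) ≤ max (E₁ v γ) (E₂ v γ) + s :=
      max_le (h9.trans (by linarith)) (h10.trans (by linarith))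
    linarith
  · set bz : ℝ := 2 / 3 * v + 5 / 3 * (m - γ) - max 0 (s₀ - γ) with hbz
    set mm : ℝ := max (E₁ v γ) (E₂ v γ) with hmm
    have h2 := le_max_left mm bz
    have h3 := le_max_right mm bz
    have h4 : max (mm + ε / 2) bz ≤ max mm bz + ε / 2 := max_le (by linarith) (by linarith)
    show max (mm + ε / 2) bz + ε / 2 ≤ max mm bz + ε
    linarith

end Crest.Agent.R017.TEX792
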