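import Crest.Agent.R017.TEU_792

/-!
# Row 17 : the inputs of `vn_gq`, `vn_gqX` from the rules (helper792)
-/

set_option autoImplicit false

noncomputable section

namespace Crest.Agent.R017.TEX792

open Crest.Agent.R017.ER911 Crest.Agent.R017.SC777
open Crest.Agent.R017.TK708 (AllT allT_of)
open Crest.Agent.R017.FN708 (Far far3 short_le)
open Crest.Agent.R017.OwA90

variable {d : ℝ} {r s s₀ : EF}

/-- far lists -/
theorem farOwn_of (R : ExpRules (7 / 8 + d) r s) (Rm : ExpRGFz (7 / 8 + d) r s s₀) (hd : 0 ≤ d)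
    (hd8 : 8 * d ≤ 1) : FarOwn d s₀ := by
  intro K v A B C hf h2v
  have := far3 R Rm hd hd8 (m := 0) (a := 0) (by rw [zero_add]; exact hf) le_rfl le_rfl h2v
  have e : 2 * d * (C + 0 + 0) = 2 * d * C := by ring
  linarith

/-- short lists -/
theorem shOwn_of (R : ExpRules (7 / 8 + d) r s) (Rm : ExpRGFz (7 / 8 + d) r s s₀) :
    ShOwn s₀ := by
  intro v z₁ z₂ z₃ hv h1 h2 h3 hs
  have := short_le R Rm.toExpS0 (w := 0) hv h1 h2 h3 le_rfl (by linarith)
  linarith

/-- all levels -/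
theorem allT_own (R : ExpRules (7 / 8 + d) r s) (Rm : ExpRGFz (7 / 8 + d) r s s₀) (hd : 0 ≤ d)
    (hd8 : 8 * d ≤ 1) : AllT d s₀ := allT_of R Rm.toExpS0 hd (by linarith)

end Crest.Agent.R017.TEX792
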