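import Crest.Agent.R017.TEU_792

/-!
# Row 17, T-numbers of pure lists at their own family, two bounds (helper743)

The entry `200/61 z` of helper90's own family is only needed for near lists (`K < n + C`, `C` = the
smallest lump), hence `min (200/61 z) (n + u)` suffices (`u` = bound for the smallest lump).

* `K0u`, `Gu`, `own_gu` : every pure list
* **`vn_guX`** : `VN` of class E, separate bounds for the two lists
-/

set_option autoImplicit false
set_option linter.unusedVariables false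
set_option linter.unusedSectionVars false

noncomputable section

open scoped ComplexConjugate

namespace Crest.Agent.R017.TEX792

open Crest.Agent.R012 Crest.Agent.R012.Eis
open Crest.Agent.R017.FE47 (PU)
open Crest.Agent.R017.Prov71 hiding K0
open Crest.Agent.R017.B770
open Crest.Agent.R017.ER911 Crest.Agent.R017.SC777
open Crest.Agent.R017.HP842 (pc)
open Crest.Agent.R017.E5k54 (alb)
open Crest.Agent.R017.E5B71 (Pt)
open Crest.Agent.R017.TEM792 (VN nL LD)
open Crest.Agent.R017.ExP960 (BdX u3 u3')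
open Crest.Agent.R017.E4Df372 (alX)
open Crest.Agent.R017.Red848 (red Exc red_ok)
open Crest.Agent.R017.TM708
open Crest.Agent.R017.TK708 (AllT)
open Crest.Agent.R017.FN708 (Far far3 short_le)
open Crest.Agent.R017.OwA90
open Crest.Agent.R017.XS0298 (S0K)
open Crest.Agent.R017.PX764 (Dk)

/-- **own family**, `z` = bound for the lumps, `u` = bound for the smallest lump -/
def K0u (v n z u : ℝ) : ℝ :=
  max (5 / 4 * n) (max (v + n / 2) (max (3 / 2 * v) (min (200 / 61 * z) (n + min u (n / 3)))))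

/-- **the number of a pure list** -/
def Gu (d z u v n : ℝ) : ℝ :=
  min (max (max (2 * n) (v + n)) (4 / 3 * n + (v + K0u v n z u) / 3) + 2 / 3 * d * n)
    (max (v + n + min u (n / 3)) (5 / 3 * n + v / 3))

lemma K0u_a (v n z u : ℝ) : 5 / 4 * n ≤ K0u v n z u := le_max_left _ _
lemma K0u_b (v n z u : ℝ) : v + n / 2 ≤ K0u v n z u := (le_max_left _ _).trans (le_max_right _ _)
lemma K0u_c (v n z u : ℝ) : 3 / 2 * v ≤ K0u v n z u :=
  (le_max_left _ _).trans ((le_max_right _ _).trans (le_max_right _ _))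
lemma K0u_d (v n z u : ℝ) : min (200 / 61 * z) (n + min u (n / 3)) ≤ K0u v n z u :=
  (le_max_right _ _).trans ((le_max_right _ _).trans (le_max_right _ _))

lemma K0u_mono {v v' n n' z z' u u' : ℝ} (hv : v ≤ v') (hn : n ≤ n') (hz : z ≤ z')
    (hu : u ≤ u') : K0u v n z u ≤ K0u v' n' z' u' := by
  unfold K0u
  refine max_le_max (by linarith) (max_le_max (by linarith) (max_le_max (by linarith)
    (min_le_min (by linarith) ?_)))
  have : min u (n / 3) ≤ min u' (n' / 3) := min_le_min hu (by linarith)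
  linarith

lemma Gu_mono {d z z' u u' v n : ℝ} (hz : z ≤ z') (hu : u ≤ u') :
    Gu d z u v n ≤ Gu d z' u' v n := by
  unfold Gu
  have h := K0u_mono (le_refl v) (le_refl n) hz hu
  refine min_le_min ?_ (max_le_max (by linarith [min_le_min_right (n / 3) hu]) le_rfl)
  have : max (max (2 * n) (v + n)) (4 / 3 * n + (v + K0u v n z u) / 3) ≤
      max (max (2 * n) (v + n)) (4 / 3 * n + (v + K0u v n z' u') / 3) :=
    max_le_max le_rfl (by linarith)
  linarith

lemma Gu_slope {d z u v σ n : ℝ} (hσ : 0 ≤ σ) : Gu d z u (v + σ) n ≤ Gu d z u v n + σ := by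
  have hK : K0u (v + σ) n z u ≤ K0u v n z u + 3 / 2 * σ := by
    have h1 := K0u_a v n z u
    have h2 := K0u_b v n z u
    have h3 := K0u_c v n z u
    have h4 := K0u_d v n z u
    exact max_le (by linarith) (max_le (by linarith) (max_le (by linarith) (by linarith)))
  unfold Gu
  rw [min_add]
  refine min_le_min ?_ ?_
  · have h1 := le_max_left (max (2 * n) (v + n)) (4 / 3 * n + (v + K0u v n z u) / 3)
    have h2 := le_max_right (max (2 * n) (v + n)) (4 / 3 * n + (v + K0u v n z u) / 3)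
    have h3 := (le_max_left (2 * n) (v + n)).trans h1
    have h4 := (le_max_right (2 * n) (v + n)).trans h1
    have : max (max (2 * n) (v + σ + n)) (4 / 3 * n + (v + σ + K0u (v + σ) n z u) / 3) ≤
        max (max (2 * n) (v + n)) (4 / 3 * n + (v + K0u v n z u) / 3) + σ :=
      max_le (max_le (by linarith) (by linarith)) (by linarith)
    linarith
  · have h1 := le_max_left (v + n + min u (n / 3)) (5 / 3 * n + v / 3)
    have h2 := le_max_right (v + n + min u (n / 3)) (5 / 3 * n + v / 3)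
    exact max_le (by linarith) (by linarith)

lemma Gu_cont (d : ℝ) : Continuous fun q : Fin 4 → ℝ =>
    Gu d (mx3 q) (mn3 q) (q 0) (q 1 + q 2 + q 3) := by
  unfold Gu K0u mx3 mn3
  fun_prop

/-- sorted lists, main branch -/
theorem own_sorted_u {d : ℝ} {s₀ : EF} (hF : FarOwn d s₀) (hS : ShOwn s₀)
    (hN : NearOwn d s₀) (hd : 0 ≤ d) {v A B C z u : ℝ} (hv : 0 ≤ v) (hC : 0 ≤ C) (hCB : C ≤ B)
    (hBA : B ≤ A) (hz : A ≤ z) (hu : C ≤ u) : s₀ v {A, B, C} 0 0 ≤
      max (max (2 * (A + B + C)) (v + (A + B + C)))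
        (4 / 3 * (A + B + C) + (v + K0u v (A + B + C) z u) / 3) + 2 / 3 * d * (A + B + C) := by
  obtain ⟨n, hn⟩ : ∃ n, n = A + B + C := ⟨_, rfl⟩
  obtain ⟨K, hK⟩ : ∃ K, K = K0u v n z u := ⟨_, rfl⟩
  have k1 : 5 / 4 * n ≤ K := hK ▸ K0u_a v n z u
  have k2 : v + n / 2 ≤ K := hK ▸ K0u_b v n z u
  have k3 : 3 / 2 * v ≤ K := hK ▸ K0u_c v n z u
  have k4 : min (200 / 61 * z) (n + min u (n / 3)) ≤ K := hK ▸ K0u_d v n z u
  have hdn : 2 * d * C ≤ 2 / 3 * d * n := by
    have := mul_le_mul_of_nonneg_left (show C ≤ n / 3 by linarith) (show 0 ≤ 2 * d by linarith)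
    linarith
  rw [← hn]
  rw [← hK]
  have m1 := le_max_left (max (2 * n) (v + n)) (4 / 3 * n + (v + K) / 3)
  have m2 := le_max_right (max (2 * n) (v + n)) (4 / 3 * n + (v + K) / 3)
  have m3 := (le_max_left (2 * n) (v + n)).trans m1
  have m4 := (le_max_right (2 * n) (v + n)).trans m1
  have hdn0 : 0 ≤ 2 / 3 * d * n := by
    have : 0 ≤ n := by linarith
    positivity
  have hCu : C ≤ min u (n / 3) := le_min hu (by linarith)
  rcases le_total (2 * v) (n + K) with h2 | h2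
  · rcases le_or_gt (n + C) K with hf | hf
    · have hfar : Far K v (A + B + C) A B C 0 :=
        ⟨by linarith, hv, hC, by linarith, hCB, le_rfl, by linarith, by linarith, by ring,
          by linarith, by linarith, by linarith⟩
      have := hF K v A B C hfar (by linarith)
      rw [← hn] at this
      linarith
    · have k5 : 200 / 61 * z ≤ K := by
        rcases min_le_iff.1 k4 with h | h
        · exact h
        · linarith
      have := hN K v A B C (by linarith) hv hC hCB hBA (by linarith) (by linarith)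
        (by linarith) (by linarith)
      rw [← hn] at this
      have h3 : max (2 * n) (4 / 3 * n + (K + v) / 3) ≤
          max (max (2 * n) (v + n)) (4 / 3 * n + (v + K) / 3) :=
        max_le m3 (by rw [add_comm K v]; exact m2)
      linarith
  · have := hS v A B C hv (by linarith) (by linarith) hC (by linarith)
    rw [← hn] at this
    linarith

/-- **every pure list** -/
theorem own_gu {d : ℝ} {s₀ : EF} (hA : AllT d s₀) (hF : FarOwn d s₀) (hS : ShOwn s₀)
    (hN : NearOwn d s₀) (hd : 0 ≤ d) {q : Fin 4 → ℝ} (hq : ∀ i, 0 ≤ q i) :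
    s₀ (q 0) {q 1, q 2, q 3} 0 0 ≤ Gu d (mx3 q) (mn3 q) (q 0) (q 1 + q 2 + q 3) := by
  have p0 := hq 0
  have p1 := hq 1
  have p2 := hq 2
  have p3 := hq 3
  have x1 : q 1 ≤ mx3 q := le_max_left _ _
  have x2 : q 2 ≤ mx3 q := (le_max_left _ _).trans (le_max_right _ _)
  have x3 : q 3 ≤ mx3 q := (le_max_right _ _).trans (le_max_right _ _)
  refine le_min ?_ ((own_gq hA hF hS hN hd hq).trans (min_le_right _ _))
  have key : ∀ A B C : ℝ, ({A, B, C} : Multiset ℝ) = {q 1, q 2, q 3} →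
      A + B + C = q 1 + q 2 + q 3 → 0 ≤ C → C ≤ B → B ≤ A → A ≤ mx3 q → C ≤ mn3 q →
      s₀ (q 0) {q 1, q 2, q 3} 0 0 ≤ max (max (2 * (q 1 + q 2 + q 3)) (q 0 + (q 1 + q 2 + q 3)))
        (4 / 3 * (q 1 + q 2 + q 3) + (q 0 + K0u (q 0) (q 1 + q 2 + q 3) (mx3 q) (mn3 q)) / 3) +
          2 / 3 * d * (q 1 + q 2 + q 3) := by
    intro A B C he hs hC hCB hBA hz hu
    rw [← he, ← hs]
    exact own_sorted_u hF hS hN hd p0 hC hCB hBA hz hu
  have c12 : ∀ a b c : ℝ, ({a, b, c} : Multiset ℝ) = {b, a, c} := fun a b c => by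
    simp only [Multiset.insert_eq_cons]
    exact Multiset.cons_swap a b {c}
  have c23 : ∀ a b c : ℝ, ({a, b, c} : Multiset ℝ) = {a, c, b} := fun a b c => by
    simp only [Multiset.insert_eq_cons]
    rw [show (b ::ₘ ({c} : Multiset ℝ)) = c ::ₘ {b} from Multiset.cons_swap b c 0]
  obtain ⟨z₁, e1⟩ : ∃ z, z = q 1 := ⟨_, rfl⟩
  obtain ⟨z₂, e2⟩ : ∃ z, z = q 2 := ⟨_, rfl⟩
  obtain ⟨z₃, e3⟩ : ∃ z, z = q 3 := ⟨_, rfl⟩
  have mn : ∀ c : ℝ, c ≤ q 1 → c ≤ q 2 → c ≤ q 3 → c ≤ mn3 q := fun c h1 h2 h3 =>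
    le_min h1 (le_min h2 h3)
  rw [← e1, ← e2, ← e3] at key ⊢
  rw [← e1, ← e2, ← e3] at mn
  rw [← e1] at x1 p1
  rw [← e2] at x2 p2
  rw [← e3] at x3 p3
  rcases le_total z₁ z₂ with a | a
  · rcases le_total z₂ z₃ with b | b
    · exact key z₃ z₂ z₁ (by rw [c23 z₃ z₂ z₁, c12 z₃ z₁ z₂, c23 z₁ z₃ z₂]) (by ring) p1 a b x3
        (mn _ le_rfl a (a.trans b))
    · rcases le_total z₁ z₃ with c | c
      · exact key z₂ z₃ z₁ (by rw [c23 z₂ z₃ z₁, c12 z₂ z₁ z₃]) (by ring) p1 c b x2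
          (mn _ le_rfl a c)
      · exact key z₂ z₁ z₃ (c12 z₂ z₁ z₃) (by ring) p3 c a x2 (mn _ c b le_rfl)
  · rcases le_total z₁ z₃ with b | b
    · exact key z₃ z₁ z₂ (by rw [c12 z₃ z₁ z₂, c23 z₁ z₃ z₂]) (by ring) p2 a b x3
        (mn _ a le_rfl (a.trans b))
    · rcases le_total z₂ z₃ with c | c
      · exact key z₁ z₃ z₂ (c23 z₁ z₃ z₂) (by ring) p2 c b x1 (mn _ a le_rfl c)
      · exact key z₁ z₂ z₃ rfl rfl p3 c a x1 (mn _ b c le_rfl)

/-- the real hypothesis -/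
lemma rhx_gu {d z u v m : ℝ} {y : Fin 3 → ℝ} (hz : ∀ i, y i ≤ z) (hu : ∃ i, y i ≤ u) :
    RHx (fun q => Gu d (mx3 q) (mn3 q) (q 0) (q 1 + q 2 + q 3)) y v m
      (Gu d z u v (max 0 m)) := by
  intro x hx hs
  rw [Fin.sum_univ_three] at hs
  show Gu d (mx3 ![v, x 0, x 1, x 2]) (mn3 ![v, x 0, x 1, x 2]) v (x 0 + x 1 + x 2) ≤ _
  rw [hs]
  refine Gu_mono ?_ ?_
  · show max (x 0) (max (x 1) (x 2)) ≤ z
    exact max_le ((hx 0).2.trans (hz 0)) (max_le ((hx 1).2.trans (hz 1)) ((hx 2).2.trans (hz 2)))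
  · show min (x 0) (min (x 1) (x 2)) ≤ u
    obtain ⟨i, hi⟩ := hu
    have h1 : min (x 0) (min (x 1) (x 2)) ≤ x i := by
      fin_cases i
      · exact min_le_left _ _
      · exact (min_le_right _ _).trans (min_le_left _ _)
      · exact (min_le_right _ _).trans (min_le_right _ _)
    exact h1.trans ((hx i).2.trans hi)

lemma RHx_le {G : (Fin 4 → ℝ) → ℝ} {y : Fin 3 → ℝ} {v m e e' : ℝ} (h : RHx G y v m e)
    (he : e ≤ e') : RHx G y v m e' := fun x hx hs => (h x hx hs).trans he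

variable {Λ : Type*} {π : Λ → DPar} {h : ℝ → ℝ} {d : ℝ}

/-- **`VN` of `alX` (class E) at the own family**, separate bounds for the two lists -/
theorem vn_guX {c₀ : ℝ} (hpu : PU h c₀) (hP : ∀ lam, (π lam).OK) (hE : ∀ lam, Exc (π lam))
    (hA : AllT d (ex Dq fun lam => S0K Dk (red (π lam)) h))
    (hF : FarOwn d (ex Dq fun lam => S0K Dk (red (π lam)) h))
    (hS : ShOwn (ex Dq fun lam => S0K Dk (red (π lam)) h))
    (hN : NearOwn d (ex Dq fun lam => S0K Dk (red (π lam)) h)) (hd : 0 ≤ d)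
    {ε : ℝ} (hε : 0 < ε) (K : ℝ) (hK : 1 ≤ K) (lam : Λ) : ∃ M₀ : ℕ,
      ∀ M : ℕ, M₀ ≤ M → ∀ t : Eis, t ∈ FE47.SM (π lam).n → ∃ X₀ : ℝ, 1 < X₀ ∧ ∀ X : ℝ, X₀ ≤ X →
      ∀ H₀ : ℝ, 1 ≤ H₀ → ∀ (a : BdX) (β : Fin 3 → Eis) (s₀ : ℝ), LDX X K H₀ s₀ a β →
      ∀ z u z' u' : ℝ,
      (∀ i, (u3 a i).z / Real.log X ≤ z) → (∃ i, (u3 a i).z / Real.log X ≤ u) →
      (∀ i, (u3' a i).z / Real.log X ≤ z') → (∃ i, (u3' a i).z / Real.log X ≤ u') →
      VN X H₀ M K (alX (π lam) h t a β) (fun v γ => max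
        (max (Gu d z u v (max 0 (nL X (u3 a) β - γ))) (Gu d z' u' v (max 0 (nL X (u3 a) β - γ))))
        (2 / 3 * v + 5 / 3 * (nL X (u3 a) β - γ) - max 0 (s₀ - γ)) + ε) := by
  obtain ⟨M₀, G1⟩ := vn_ptX hpu hP hE (Gu_cont d) (fun q hq => own_gu hA hF hS hN hd hq) hε
    one_pos K hK lam
  refine ⟨M₀, fun M hM t ht => ?_⟩
  obtain ⟨X₀, hX₀, G2⟩ := G1 M hM t ht
  refine ⟨X₀, hX₀, fun X hX H₀ hH₀ a β s₀ hLD z u z' u' hz hu hz' hu' => ?_⟩
  refine G2 X hX H₀ hH₀ a β s₀ hLD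
    (fun v γ => max (Gu d z u v (max 0 (nL X (u3 a) β - γ)))
      (Gu d z' u' v (max 0 (nL X (u3 a) β - γ))))
    (fun v γ => max (Gu d z u v (max 0 (nL X (u3 a) β - γ)))
      (Gu d z' u' v (max 0 (nL X (u3 a) β - γ))))
    (fun v σ γ h0 h1 h2 => ?_) fun v γ h1 h2 h3 h4 =>
      ⟨RHx_le (rhx_gu hz hu) (le_max_left _ _), RHx_le (rhx_gu hz' hu') (le_max_right _ _)⟩
  show max (Gu d z u (v + σ) _) (Gu d z' u' (v + σ) _) ≤ max _ _ + σ
  refine max_le ((Gu_slope h1).trans ?_) ((Gu_slope h1).trans ?_)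
  · exact add_le_add (le_max_left _ _) le_rfl
  · exact add_le_add (le_max_right _ _) le_rfl

end Crest.Agent.R017.TEX792
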