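import Crest.Agent.R017.TEW_792
import Crest.Agent.R017.E4Uz_512
import Crest.Agent.R017.TEZ_743

/-!
# Row 17, E4 (StrUX) : the data of the difference in the frame of one level (helper792)

* **`ldx_of`** : `FrLX`, `BdX.ok`, `Bd.okP`, `Dt.OK`, `Sv` give `LDX` of the pair and `x.β`
* `sv_of` : the bias share;  `zX_top`, `zX_bot`, `zX_top'`, `zX_bot'`, `nLX_near`
-/

set_option autoImplicit false
set_option linter.unusedVariables false
set_option linter.unusedSectionVars false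

noncomputable section

open Finset

namespace Crest.Agent.R017.TEW792

open Crest.Agent.R012 Crest.Agent.R012.Eis
open Crest.Agent.R012.LS2 (S mem_S)
open Crest.Agent.R017.CM106 (CS FS)
open Crest.Agent.R017.FE47 (PU SM cx)
open Crest.Agent.R017.XT71 (Sys Win mx le_mx)
open Crest.Agent.R017.XG702 (Pcs)
open Crest.Agent.R017.Prov71 hiding K0
open Crest.Agent.R017.B770
open Crest.Agent.R017.E1551 (Adm)
open Crest.Agent.R017.E5B71
open Crest.Agent.R017.E5L770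
open Crest.Agent.R017.E5LX770 (SqLX)
open Crest.Agent.R017.ExP960 hiding alX
open Crest.Agent.R017.E4U164
open Crest.Agent.R017.E4Us512
open Crest.Agent.R017.E4Df372
open Crest.Agent.R017.TEM792 (VN nL LD)
open Crest.Agent.R017.VFa436 (T3_spec)
open Crest.Agent.R017.TEX792 (Sv LDX)

variable {A d b₀ δ δ' B X : ℝ} {N : ℕ} {a : BdX × ℕ} {ps : List Pq}
  {q : (Option IX5 → ℝ) × (Kd → ℝ)}

lemma sqX (H : FrLX A d b₀ δ δ' B X N a ps q) : Sq5 A d (prX (dn q.1)) q.2 := by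
  have hdom := H.dom
  unfold SqLX DomL at hdom
  exact hdom.1.1

lemma zrX (H : FrLX A d b₀ δ δ' B X N a ps q) : ZR b₀ (dn q.1) := by
  have hdom := H.dom
  unfold SqLX DomL at hdom
  exact hdom.1.2

theorem zX_near (H : FrLX A d b₀ δ δ' B X N a ps q) (j : Fin 5) :
    |(a.1.us j).z / Real.log X - cu (prX (dn q.1)) j| ≤ δ := H.win.ev (some (.inl (.inr j)))

theorem zX2_near (H : FrLX A d b₀ δ δ' B X N a ps q) :
    |a.1.zs 2 / Real.log X - q.1 (some (.inr 1))| ≤ δ := H.win.ev (some (.inr 1))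

/-- the other replaced length -/
theorem zX3_near (H : FrLX A d b₀ δ δ' B X N a ps q) (ha : a.1.ok) :
    |a.1.zs 3 / Real.log X -
      (cu (prX (dn q.1)) 2 + cu (prX (dn q.1)) 3 - q.1 (some (.inr 1)))| ≤ 3 * δ := by
  have h2 := abs_le.1 (zX_near H 2)
  have h3 := abs_le.1 (zX_near H 3)
  have h4 := abs_le.1 (zX2_near H)
  have e : a.1.zs 3 = (a.1.us 2).z + (a.1.us 3).z - a.1.zs 2 := by
    have := ha.s23
    linarith
  rw [e, sub_div, add_div, abs_le]
  constructor <;> linarith [h2.1, h2.2, h3.1, h3.2, h4.1, h4.2]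

/-- the natural list -/
theorem zX_top (H : FrLX A d b₀ δ δ' B X N a ps q) :
    ∀ i, (u3 a.1 i).z / Real.log X ≤ cu (prX (dn q.1)) 2 + δ := by
  obtain ⟨h1, h2, h3, h4⟩ := (sqX H).anti
  intro i
  fin_cases i
  · have := (abs_le.1 (zX_near H 2)).2
    show (a.1.us 2).z / Real.log X ≤ _
    linarith
  · have := (abs_le.1 (zX_near H 3)).2
    show (a.1.us 3).z / Real.log X ≤ _
    linarith
  · have := (abs_le.1 (zX_near H 4)).2
    show (a.1.us 4).z / Real.log X ≤ _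
    linarith

theorem zX_bot (H : FrLX A d b₀ δ δ' B X N a ps q) :
    ∃ i, (u3 a.1 i).z / Real.log X ≤ cu (prX (dn q.1)) 4 + δ := by
  refine ⟨2, ?_⟩
  have := (abs_le.1 (zX_near H 4)).2
  show (a.1.us 4).z / Real.log X ≤ _
  linarith

/-- the replaced list has a short lump -/
theorem zX_bot' (H : FrLX A d b₀ δ δ' B X N a ps q) :
    ∃ i, (u3' a.1 i).z / Real.log X ≤ b₀ + δ := by
  refine ⟨0, ?_⟩
  have h1 := (abs_le.1 (zX2_near H)).2
  have h2 := (zrX H 1).2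
  change q.1 (some (.inr 1)) ≤ b₀ at h2
  show a.1.zs 2 / Real.log X ≤ _
  linarith

lemma sum_u3X (a : BdX) : ∑ i, (u3 a i).z = a3 a.toBd := by
  rw [Fin.sum_univ_three]
  rfl

lemma a3X_near (H : FrLX A d b₀ δ δ' B X N a ps q) :
    |a3 a.1.toBd / Real.log X - cN (prX (dn q.1))| ≤ 3 * δ := by
  have h2 := abs_le.1 (zX_near H 2)
  have h3 := abs_le.1 (zX_near H 3)
  have h4 := abs_le.1 (zX_near H 4)
  unfold E5L770.a3 cN
  rw [abs_le, add_div, add_div]
  constructor <;> linarith [h2.1, h2.2, h3.1, h3.2, h4.1, h4.2]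

/-- the length of the three lumps after the `β i` -/
theorem nLX_near (H : FrLX A d b₀ δ δ' B X N a ps q) (β : Fin 3 → Eis) :
    |nL X (u3 a.1) β - (cN (prX (dn q.1)) - Real.log (nm (∏ i, β i)) / Real.log X)| ≤
      3 * δ := by
  unfold TEM792.nL
  rw [sum_u3X, sub_div]
  have := a3X_near H
  rw [show a3 a.1.toBd / Real.log X - Real.log (nm (∏ i, β i)) / Real.log X -
    (cN (prX (dn q.1)) - Real.log (nm (∏ i, β i)) / Real.log X) =
      a3 a.1.toBd / Real.log X - cN (prX (dn q.1)) by ring]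
  exact this

/-- **the bias share** : `m` below the four lengths -/
theorem sv_of (hX : 1 < X) (H : FrLX A d b₀ δ δ' B X N a ps q) (ha : a.1.ok) (hδ : 0 ≤ δ)
    {β : Fin 3 → Eis} (hβ : ∀ i, IsPrim (β i)) {m : ℝ} (m2 : m ≤ cu (prX (dn q.1)) 2)
    (m3 : m ≤ cu (prX (dn q.1)) 3) (mz : m ≤ q.1 (some (.inr 1)))
    (mr : m ≤ cu (prX (dn q.1)) 2 + cu (prX (dn q.1)) 3 - q.1 (some (.inr 1))) :
    Sv X (m - Real.log (nm (∏ i, β i)) / Real.log X - 3 * δ) a.1 β := by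
  have hL : 0 < Real.log X := Real.log_pos hX
  have hb : ∀ i, Real.log (nm (β i)) ≤ Real.log (nm (∏ i, β i)) := by
    intro i
    have h1 : nm (β i) ≤ nm (∏ i, β i) := Div277.nm_le_of_dvd
      (Finset.prod_ne_zero_iff.2 fun i _ => (hβ i).ne_zero)
      (Finset.dvd_prod_of_mem β (Finset.mem_univ i))
    refine Real.log_le_log ?_ (by exact_mod_cast h1)
    exact_mod_cast nm_pos.2 (hβ i).ne_zero
  have key : ∀ {z c : ℝ}, c - 3 * δ ≤ z / Real.log X → m ≤ c → ∀ i,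
      (m - Real.log (nm (∏ i, β i)) / Real.log X - 3 * δ) * Real.log X ≤
        z - Real.log (nm (β i)) := by
    intro z c h1 h2 i
    have h3 := hb i
    have e1 : z = z / Real.log X * Real.log X := by field_simp
    have e2 : (m - Real.log (nm (∏ i, β i)) / Real.log X - 3 * δ) * Real.log X =
        (m - 3 * δ) * Real.log X - Real.log (nm (∏ i, β i)) := by field_simp; ring
    have h4 : (m - 3 * δ) * Real.log X ≤ z / Real.log X * Real.log X :=
      mul_le_mul_of_nonneg_right (by linarith) hL.le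
    rw [e2]
    linarith
  have n2 := abs_le.1 (zX_near H 2)
  have n3 := abs_le.1 (zX_near H 3)
  have nz := abs_le.1 (zX2_near H)
  have nr := abs_le.1 (zX3_near H ha)
  exact ⟨key (by linarith [n2.1]) m2 0, key (by linarith [n3.1]) m3 1,
    key (by linarith [nz.1]) mz 0, key (by linarith [nr.1]) mr 1⟩

/-- **the data of the pair** : `LDX` at `K`, `H = X ^ δ'`, the level and `e₀` -/
theorem ldx_of {A : ℝ} (hA : 2 / 3 ≤ A) (d b₀ e0 r : ℝ) (N : ℕ) (B : ℝ) :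
    ∃ K X₀ : ℝ, 1 ≤ K ∧ 1 < X₀ ∧ ∀ X : ℝ, X₀ ≤ X → ∀ δ δ' : ℝ, δ ≤ 1 / 2 →
      ∀ (a : BdX × ℕ) (ps : List Pq) (q : (Option IX5 → ℝ) × (Kd → ℝ)),
      FrLX A d b₀ δ δ' B X N a ps q → a.1.ok → ∀ P : DPar, a.1.okP P →
      (2 * 2 ^ a.2 : ℝ) ≤ X ^ K ∧
      ∀ (Bf : ℝ → ℝ → ℝ → ℝ) (ε X' : ℝ) (x : Dt), x.OK P Bf e0 r ε X' a.1.toBd →
        (∀ s₀ : ℝ, Sv X s₀ a.1 x.β → LDX X K (X ^ δ') s₀ a.1 x.β) ∧ IsPrim x.e₀ ∧
        (nm x.e₀ : ℝ) ≤ X ^ K ∧ (nm (∏ i, x.β i) : ℝ) ≤ X ^ K ∧ IsPrim (∏ i, x.β i) := by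
  obtain ⟨B₁, hB₁, hBB⟩ : ∃ B₁ : ℝ, 4 ≤ B₁ ∧ B ≤ B₁ := ⟨max B 4, le_max_right _ _, le_max_left _ _⟩
  have hB0 : 0 ≤ B₁ := by linarith
  have he0B : 0 ≤ |e0| * B₁ := mul_nonneg (abs_nonneg e0) hB0
  obtain ⟨B', hB'⟩ : ∃ B' : ℝ, B' = 1 + B₁ + |e0| * B₁ := ⟨_, rfl⟩
  have hB'1 : 1 ≤ B' := by rw [hB']; linarith
  have hB'2 : B₁ ≤ B' := by rw [hB']; linarith
  have hB'3 : |e0| * B₁ ≤ B' := by rw [hB']; linarith
  have her := Real.exp_pos r
  refine ⟨12 * B' + 1, 100 + Real.exp r, by linarith, by linarith, ?_⟩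
  intro X hX δ δ' hδ a ps q hF ha P haP
  have hX100 : 100 ≤ X := by linarith
  have hX1' : 1 < X := by linarith
  have hX1 : 1 ≤ X := by linarith
  have hX0 : 0 < X := by linarith
  have hlog : 0 < Real.log X := Real.log_pos hX1'
  have hFX := fr_of_frLX hA hδ hX1' hF ha haP hBB hB₁
  have HY := hFX.fr.toY (e0 := e0) (r := r) hX100 (by linarith) hB'1 hB'2 hB'3
  have hmono : ∀ {y : ℝ}, y ≤ 12 * B' + 1 → X ^ y ≤ X ^ (12 * B' + 1) := fun h =>
    Real.rpow_le_rpow_of_exponent_le hX1 h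
  have hs1 : max (1 + |a.1.τ|) (mx Dq.s1 (List.ofFn a.1.us)) ≤ X ^ δ' := hF.win.s₁
  have hs2 : max (nm a.1.d₃ : ℝ) (mx Dq.s2 (List.ofFn a.1.us)) ≤ X ^ B := hF.win.s₂
  have hmem : ∀ j, a.1.us j ∈ List.ofFn a.1.us := fun j => by
    rw [List.mem_ofFn]; exact ⟨j, rfl⟩
  have h5 : ∀ (p : Pq → Prop), (∀ j, p (a.1.us j)) → ∀ i, p (u3 a.1 i) := by
    intro p hp i
    fin_cases i
    · exact hp 2
    · exact hp 3
    · exact hp 4
  have hBK : B₁ * Real.log X ≤ (12 * B' + 1) * Real.log X :=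
    mul_le_mul_of_nonneg_right (by linarith) hlog.le
  refine ⟨?_, ?_⟩
  · have h1 := HY.lv
    calc (2 * 2 ^ a.2 : ℝ) ≤ X * X ^ B' := mul_le_mul (by linarith) h1 (by positivity) hX0.le
      _ = X ^ (1 + B') := by rw [Real.rpow_add hX0, Real.rpow_one]
      _ ≤ _ := hmono (by linarith)
  · intro Bf ε X' x hx
    have hb := T3_spec hx.β
    have he₀ := (mem_S (Real.exp_pos _).le).mp hx.e₀
    have hY4 : ∀ i, (nm (x.β i) : ℝ) ≤ (X ^ B') ^ 4 := fun i => by
      refine le_trans ?_ (Y3_le HY)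
      exact_mod_cast (mem_primBall.mp (mem_PT (SSb54.mem_PTb.mp hx.β).1 i)).1
    have e4 : (X ^ B') ^ 4 = X ^ (4 * B') := by
      rw [← Real.rpow_natCast, ← Real.rpow_mul hX0.le]
      congr 1
      push_cast
      ring
    have e12 : (X ^ B') ^ 12 = X ^ (12 * B') := by
      rw [← Real.rpow_natCast, ← Real.rpow_mul hX0.le]
      congr 1
      push_cast
      ring
    refine ⟨fun s₀ hsv => ⟨ha, h5 (fun p => p.z ≤ (12 * B' + 1) * Real.log X) fun j => ?_, ?_,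
      h5 (fun p => 1 + |p.t| ≤ X ^ δ') fun j => ?_,
      h5 (fun p => (nm p.d : ℝ) ≤ X ^ (12 * B' + 1)) fun j => ?_, hb.1, fun i => ?_, hsv⟩,
      he₀.2.1, ?_, ?_, T3_prim _ hx.β⟩
    · exact (hFX.fr.u j).trans hBK
    · intro i
      fin_cases i
      · exact (hFX.zs 2).trans hBK
      · exact (hFX.zs 3).trans hBK
      · exact (hFX.fr.u 4).trans hBK
    · exact (le_mx (f := Dq.s1) (hmem j)).trans ((le_max_right _ _).trans hs1)
    · refine (le_mx (f := Dq.s2) (hmem j)).trans ((le_max_right _ _).trans (hs2.trans ?_))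
      exact hmono (by linarith)
    · refine (hY4 i).trans ?_
      rw [e4]
      exact hmono (by linarith)
    · exact (he₀.1.trans HY.e0l).trans (hmono (by linarith))
    · refine (nm_beta_le HY hx.β).trans ?_
      rw [e12]
      exact hmono (by linarith)

end Crest.Agent.R017.TEW792
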