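import Crest.Agent.R017.TEU_792
import Crest.Agent.R017.E4Uv_512
import Crest.Agent.R017.TSVd_436

/-!
# Row 17, E4 (StrU) : the data of the three lumps in the frame of one level (helper792)

* **`ld_of`** : `FrL`, `Bd.ok`, `Bd.okP`, `Dt.OK` give `LD` of `us3 a` and `x.β`
* `sum_u3`, `z_top`, `z_bot`, `nL_near` : the lengths against the configuration
* `adm_of`, `e0_of`, `lv_of` : `Adm` of `alb (f3 ..)`, `e₀` and the level
-/

set_option autoImplicit false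
set_option linter.unusedVariables false
set_option linter.unusedSectionVars false

noncomputable section

open Finset

namespace Crest.Agent.R017.TEW792

open Crest.Agent.R012 Crest.Agent.R012.Eis
open Crest.Agent.R012.LS2 (S mem_S)
open Crest.Agent.R017.CM106 (CS FS)
open Crest.Agent.R017.FE47 (PU SM cx)
open Crest.Agent.R017.XT71 (Sys Win mx le_mx)
open Crest.Agent.R017.XG702 (Pcs)
open Crest.Agent.R017.Prov71 hiding K0
open Crest.Agent.R017.B770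
open Crest.Agent.R017.E1551 (Adm)
open Crest.Agent.R017.E5B71
open Crest.Agent.R017.E5L770
open Crest.Agent.R017.E4U164
open Crest.Agent.R017.E4Us512
open Crest.Agent.R017.E5k54 (alb)
open Crest.Agent.R017.TEM792 (VN nL LD)
open Crest.Agent.R017.VFa436 (T3_spec)

variable {Λ : Type*}

/-- the lump bounds from the window -/
theorem z_near {A d δ δ' B X : ℝ} {N : ℕ} {a : Bd × ℕ} {ps : List Pq}
    {q : (Option (Fin 3 ⊕ Fin 5) → ℝ) × (Kd → ℝ)} (H : FrL A d δ δ' B X N a ps q) (j : Fin 5) :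
    |(a.1.us j).z / Real.log X - cu (dn q.1) j| ≤ δ := H.win.ev (some (.inr j))

/-- every lump is at most the third one -/
theorem z_top {A d δ δ' B X : ℝ} {N : ℕ} {a : Bd × ℕ} {ps : List Pq}
    {q : (Option (Fin 3 ⊕ Fin 5) → ℝ) × (Kd → ℝ)} (H : FrL A d δ δ' B X N a ps q) :
    ∀ i, ((![a.1.us 2, a.1.us 3, a.1.us 4] : Fin 3 → Pq) i).z / Real.log X ≤
      cu (dn q.1) 2 + δ := by
  have hSq : Sq5 A d (dn q.1) q.2 := by
    have hdom := H.dom
    unfold SqL DomL at hdom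
    exact hdom.1
  obtain ⟨h1, h2, h3, h4⟩ := hSq.anti
  intro i
  fin_cases i
  · have := (abs_le.1 (z_near H 2)).2
    show (a.1.us 2).z / Real.log X ≤ _
    linarith
  · have := (abs_le.1 (z_near H 3)).2
    show (a.1.us 3).z / Real.log X ≤ _
    linarith
  · have := (abs_le.1 (z_near H 4)).2
    show (a.1.us 4).z / Real.log X ≤ _
    linarith

/-- the last lump -/
theorem z_bot {A d δ δ' B X : ℝ} {N : ℕ} {a : Bd × ℕ} {ps : List Pq}
    {q : (Option (Fin 3 ⊕ Fin 5) → ℝ) × (Kd → ℝ)} (H : FrL A d δ δ' B X N a ps q) :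
    ∃ i, ((![a.1.us 2, a.1.us 3, a.1.us 4] : Fin 3 → Pq) i).z / Real.log X ≤
      cu (dn q.1) 4 + δ := by
  refine ⟨2, ?_⟩
  have := (abs_le.1 (z_near H 4)).2
  show (a.1.us 4).z / Real.log X ≤ _
  linarith

lemma sum_u3 (a : Bd) : ∑ i, ((![a.us 2, a.us 3, a.us 4] : Fin 3 → Pq) i).z = a3 a := by
  rw [Fin.sum_univ_three]
  rfl

lemma a3_near {A d δ δ' B X : ℝ} {N : ℕ} {a : Bd × ℕ} {ps : List Pq}
    {q : (Option (Fin 3 ⊕ Fin 5) → ℝ) × (Kd → ℝ)} (H : FrL A d δ δ' B X N a ps q) :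
    |a3 a.1 / Real.log X - cN (dn q.1)| ≤ 3 * δ := by
  have h2 := abs_le.1 (z_near H 2)
  have h3 := abs_le.1 (z_near H 3)
  have h4 := abs_le.1 (z_near H 4)
  unfold E5L770.a3 cN
  rw [abs_le, add_div, add_div]
  constructor <;> linarith [h2.1, h2.2, h3.1, h3.2, h4.1, h4.2]

/-- the length of the three lumps after the `β i` -/
theorem nL_near {A d δ δ' B X : ℝ} {N : ℕ} {a : Bd × ℕ} {ps : List Pq}
    {q : (Option (Fin 3 ⊕ Fin 5) → ℝ) × (Kd → ℝ)} (H : FrL A d δ δ' B X N a ps q)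
    (β : Fin 3 → Eis) :
    |nL X ![a.1.us 2, a.1.us 3, a.1.us 4] β -
      (cN (dn q.1) - Real.log (nm (∏ i, β i)) / Real.log X)| ≤ 3 * δ := by
  unfold TEM792.nL
  rw [sum_u3, sub_div]
  have := a3_near H
  rw [show a3 a.1 / Real.log X - Real.log (nm (∏ i, β i)) / Real.log X -
    (cN (dn q.1) - Real.log (nm (∏ i, β i)) / Real.log X) =
      a3 a.1 / Real.log X - cN (dn q.1) by ring]
  exact this

/-- the level of the frame -/
theorem lv_near {A d δ δ' B X : ℝ} {N : ℕ} {a : Bd × ℕ} {ps : List Pq}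
    {q : (Option (Fin 3 ⊕ Fin 5) → ℝ) × (Kd → ℝ)} (H : FrL A d δ δ' B X N a ps q) :
    |Real.log 2 * (a.2 : ℝ) / Real.log X - q.1 none| ≤ δ := H.win.ev none

/-- **the data of the three lumps** : `LD` at `K`, `H = X ^ δ'`, the level and `e₀` -/
theorem ld_of {A : ℝ} (hA : 2 / 3 ≤ A) (d e0 r : ℝ) (N : ℕ) (B : ℝ) :
    ∃ K X₀ : ℝ, 1 ≤ K ∧ 1 < X₀ ∧ ∀ X : ℝ, X₀ ≤ X → ∀ δ δ' : ℝ, δ ≤ 1 / 2 →
      ∀ (a : Bd × ℕ) (ps : List Pq) (q : (Option (Fin 3 ⊕ Fin 5) → ℝ) × (Kd → ℝ)),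
      FrL A d δ δ' B X N a ps q → a.1.ok → ∀ P : DPar, a.1.okP P →
      LD X K (X ^ δ') ![a.1.us 2, a.1.us 3, a.1.us 4] (fun _ => 1) ∧
      (2 * 2 ^ a.2 : ℝ) ≤ X ^ K ∧
      ∀ (Bf : ℝ → ℝ → ℝ → ℝ) (ε X' : ℝ) (x : Dt), x.OK P Bf e0 r ε X' a.1 →
        LD X K (X ^ δ') ![a.1.us 2, a.1.us 3, a.1.us 4] x.β ∧ IsPrim x.e₀ ∧
        (nm x.e₀ : ℝ) ≤ X ^ K ∧ (nm (∏ i, x.β i) : ℝ) ≤ X ^ K ∧ IsPrim (∏ i, x.β i) := by
  obtain ⟨B₁, hB₁, hBB⟩ : ∃ B₁ : ℝ, 3 ≤ B₁ ∧ B ≤ B₁ := ⟨max B 3, le_max_right _ _, le_max_left _ _⟩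
  have hB0 : 0 ≤ B₁ := by linarith
  have he0B : 0 ≤ |e0| * B₁ := mul_nonneg (abs_nonneg e0) hB0
  obtain ⟨B', hB'⟩ : ∃ B' : ℝ, B' = 1 + B₁ + |e0| * B₁ := ⟨_, rfl⟩
  have hB'1 : 1 ≤ B' := by rw [hB']; linarith
  have hB'2 : B₁ ≤ B' := by rw [hB']; linarith
  have hB'3 : |e0| * B₁ ≤ B' := by rw [hB']; linarith
  have her := Real.exp_pos r
  refine ⟨12 * B' + 1, 100 + Real.exp r, by linarith, by linarith, ?_⟩
  intro X hX δ δ' hδ a ps q hF ha P haP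
  have hX100 : 100 ≤ X := by linarith
  have hX1' : 1 < X := by linarith
  have hX1 : 1 ≤ X := by linarith
  have hX0 : 0 < X := by linarith
  have hlog : 0 < Real.log X := Real.log_pos hX1'
  have hFr := fr_of_frL hA hδ hX1' hF ha haP hBB hB₁
  have HY := hFr.toY (e0 := e0) (r := r) hX100 (by linarith) hB'1 hB'2 hB'3
  have hmono : ∀ {y : ℝ}, y ≤ 12 * B' + 1 → X ^ y ≤ X ^ (12 * B' + 1) := fun h =>
    Real.rpow_le_rpow_of_exponent_le hX1 h
  have hs1 : max (1 + |a.1.τ|) (mx Dq.s1 (List.ofFn a.1.us)) ≤ X ^ δ' := hF.win.s₁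
  have hs2 : max (nm a.1.d₃ : ℝ) (mx Dq.s2 (List.ofFn a.1.us)) ≤ X ^ B := hF.win.s₂
  have hmem : ∀ j, a.1.us j ∈ List.ofFn a.1.us := fun j => by
    rw [List.mem_ofFn]; exact ⟨j, rfl⟩
  have h5 : ∀ (p : Pq → Prop), (∀ j, p (a.1.us j)) →
      ∀ i, p ((![a.1.us 2, a.1.us 3, a.1.us 4] : Fin 3 → Pq) i) := by
    intro p hp i
    fin_cases i
    · exact hp 2
    · exact hp 3
    · exact hp 4
  have base : ∀ β : Fin 3 → Eis, (∀ i, IsPrim (β i)) →
      (∀ i, (nm (β i) : ℝ) ≤ X ^ (12 * B' + 1)) →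
      LD X (12 * B' + 1) (X ^ δ') ![a.1.us 2, a.1.us 3, a.1.us 4] β := by
    intro β hβ hβK
    refine ⟨h5 (fun p => Dq.lump p) fun j => (ha.1 j).1, h5 (fun p => 0 ≤ p.z) fun j => (ha.1 j).2,
      h5 (fun p => p.z ≤ (12 * B' + 1) * Real.log X) fun j => ?_,
      h5 (fun p => (nm p.d : ℝ) ≤ X ^ (12 * B' + 1)) fun j => ?_,
      h5 (fun p => 1 + |p.t| ≤ X ^ δ') fun j => ?_, hβ, hβK⟩
    · refine (hFr.u j).trans (mul_le_mul_of_nonneg_right (by linarith) hlog.le)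
    · refine (le_mx (f := Dq.s2) (hmem j)).trans ((le_max_right _ _).trans (hs2.trans ?_))
      exact hmono (by linarith)
    · exact (le_mx (f := Dq.s1) (hmem j)).trans ((le_max_right _ _).trans hs1)
  refine ⟨base _ (fun _ => isPrim_one) fun _ => ?_, ?_, ?_⟩
  · rw [nm_one, Nat.cast_one]
    exact Real.one_le_rpow hX1 (by linarith)
  · have h1 := HY.lv
    calc (2 * 2 ^ a.2 : ℝ) ≤ X * X ^ B' := mul_le_mul (by linarith) h1 (by positivity) hX0.le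
      _ = X ^ (1 + B') := by rw [Real.rpow_add hX0, Real.rpow_one]
      _ ≤ _ := hmono (by linarith)
  · intro Bf ε X' x hx
    have hb := T3_spec hx.β
    have he₀ := (mem_S (Real.exp_pos _).le).mp hx.e₀
    have hY4 : ∀ i, (nm (x.β i) : ℝ) ≤ (X ^ B') ^ 4 := fun i => by
      refine le_trans ?_ (Y3_le HY)
      exact_mod_cast (mem_primBall.mp (mem_PT (SSb54.mem_PTb.mp hx.β).1 i)).1
    have e4 : (X ^ B') ^ 4 = X ^ (4 * B') := by
      rw [← Real.rpow_natCast, ← Real.rpow_mul hX0.le]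
      congr 1
      push_cast
      ring
    have e12 : (X ^ B') ^ 12 = X ^ (12 * B') := by
      rw [← Real.rpow_natCast, ← Real.rpow_mul hX0.le]
      congr 1
      push_cast
      ring
    refine ⟨base _ hb.1 fun i => ?_, he₀.2.1, ?_, ?_, T3_prim _ hx.β⟩
    · refine (hY4 i).trans ?_
      rw [e4]
      exact hmono (by linarith)
    · exact (he₀.1.trans HY.e0l).trans (hmono (by linarith))
    · refine (nm_beta_le HY hx.β).trans ?_
      rw [e12]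
      exact hmono (by linarith)

end Crest.Agent.R017.TEW792
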