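import Crest.Agent.R017.TEZ_743

/-!
# Row 17, T-numbers of pure lists at their own family, class E (helper372)

helper743's `own_gu`, `vn_guX` with the near claim at loss `2/3 d n` (`NearW` = the text of
helper986's `NearOwnX`, which is what the field `NearAllX` of class E gives).

* `NearW`, `NearW.of_own`, `own_gq2`, `own_sorted_w`, `own_gw`, **`vn_gwX`**
-/

set_option autoImplicit false
set_option linter.unusedVariables false
set_option linter.unusedSectionVars false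

noncomputable section

open scoped ComplexConjugate

namespace Crest.Agent.R017.TEX792

open Crest.Agent.R012 Crest.Agent.R012.Eis
open Crest.Agent.R017.FE47 (PU)
open Crest.Agent.R017.Prov71 hiding K0
open Crest.Agent.R017.B770
open Crest.Agent.R017.ER911 Crest.Agent.R017.SC777
open Crest.Agent.R017.HP842 (pc)
open Crest.Agent.R017.E5k54 (alb)
open Crest.Agent.R017.E5B71 (Pt)
open Crest.Agent.R017.TEM792 (VN nL LD)
open Crest.Agent.R017.ExP960 (BdX u3 u3')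
open Crest.Agent.R017.E4Df372 (alX)
open Crest.Agent.R017.Red848 (red Exc red_ok)
open Crest.Agent.R017.TM708
open Crest.Agent.R017.TK708 (AllT)
open Crest.Agent.R017.FN708 (Far far3 short_le)
open Crest.Agent.R017.OwA90
open Crest.Agent.R017.XS0298 (S0K)
open Crest.Agent.R017.PX764 (Dk)

/-- **the near claim at the own family, loss `2/3 d n`** (the text of helper986's `NearOwnX`) -/
def NearW (d : ℝ) (s₀ : EF) : Prop :=
  ∀ K v z₁ z₂ z₃ : ℝ, 0 < K → 0 ≤ v → 0 ≤ z₃ → z₃ ≤ z₂ → z₂ ≤ z₁ →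
    K < z₁ + z₂ + 2 * z₃ → 5 * (z₁ + z₂ + z₃) ≤ 4 * K → v + (z₁ + z₂ + z₃) / 2 ≤ K →
    200 * z₁ ≤ 61 * K →
    s₀ v {z₁, z₂, z₃} 0 0 ≤ max (2 * (z₁ + z₂ + z₃)) (4 / 3 * (z₁ + z₂ + z₃) + (K + v) / 3) +
      2 / 3 * d * (z₁ + z₂ + z₃)

/-- class N -/
theorem NearW.of_own {d : ℝ} {s₀ : EF} (hd : 0 ≤ d) (hN : NearOwn d s₀) : NearW d s₀ := by
  intro K v z₁ z₂ z₃ hK hv h3 h32 h21 hn h5 hkv hz
  have h := hN K v z₁ z₂ z₃ hK hv h3 h32 h21 hn h5 hkv hz
  have : 2 * d * z₃ ≤ 2 / 3 * d * (z₁ + z₂ + z₃) := by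
    have := mul_le_mul_of_nonneg_left (show z₃ ≤ (z₁ + z₂ + z₃) / 3 by linarith)
      (show 0 ≤ 2 * d by linarith)
    linarith
  linarith

/-- the second entry of helper792's `Gq`, from `AllT` alone -/
theorem own_gq2 {d : ℝ} {s₀ : EF} (hA : AllT d s₀) {q : Fin 4 → ℝ} (hq : ∀ i, 0 ≤ q i) :
    s₀ (q 0) {q 1, q 2, q 3} 0 0 ≤
      max (q 0 + (q 1 + q 2 + q 3) + min (mn3 q) ((q 1 + q 2 + q 3) / 3))
        (5 / 3 * (q 1 + q 2 + q 3) + q 0 / 3) := by
  have h2 := (hA (q 0) (q 1) (q 2) (q 3) 0 0 (hq 0) (hq 1) (hq 2) (hq 3) le_rfl le_rfl).trans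
    (tAll_le_CT3 _ _ _ _ _ _)
  rw [add_zero] at h2
  unfold tCT3 at h2
  obtain ⟨n, hn⟩ : ∃ n, n = q 1 + q 2 + q 3 := ⟨_, rfl⟩
  rw [← hn]
  have m1 := le_max_left (q 0 + n + min (mn3 q) (n / 3)) (5 / 3 * n + q 0 / 3)
  have m2 := le_max_right (q 0 + n + min (mn3 q) (n / 3)) (5 / 3 * n + q 0 / 3)
  have p1 := hq 1
  have p2 := hq 2
  have p3 := hq 3
  have key : ∀ A B C : ℝ, A + B + C = n → 0 ≤ C → C ≤ mn3 q → C ≤ n / 3 →
      tCT (q 0) A B C 0 ≤ max (q 0 + n + min (mn3 q) (n / 3)) (5 / 3 * n + q 0 / 3) := by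
    intro A B C hs hC hCm hC3
    have : C ≤ min (mn3 q) (n / 3) := le_min hCm hC3
    exact tCT_le (by linarith) (by linarith)
  rcases le_total (q 1) (q 2) with a | a
  · rcases le_total (q 1) (q 3) with b | b
    · refine h2.trans ((min_le_right _ _).trans ((min_le_left _ _).trans
        (key (q 2) (q 3) (q 1) (by linarith) p1 (le_min le_rfl (le_min a b)) (by linarith))))
    · refine h2.trans ((min_le_left _ _).trans
        (key (q 1) (q 2) (q 3) (by linarith) p3 (le_min b (le_min (b.trans a) le_rfl))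
          (by linarith)))
  · rcases le_total (q 2) (q 3) with b | b
    · refine h2.trans ((min_le_right _ _).trans ((min_le_right _ _).trans
        (key (q 3) (q 1) (q 2) (by linarith) p2 (le_min a (le_min le_rfl b)) (by linarith))))
    · refine h2.trans ((min_le_left _ _).trans
        (key (q 1) (q 2) (q 3) (by linarith) p3 (le_min (b.trans a) (le_min b le_rfl))
          (by linarith)))

/-- sorted lists, main branch -/
theorem own_sorted_w {d : ℝ} {s₀ : EF} (hF : FarOwn d s₀) (hS : ShOwn s₀)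
    (hN : NearW d s₀) (hd : 0 ≤ d) {v A B C z u : ℝ} (hv : 0 ≤ v) (hC : 0 ≤ C) (hCB : C ≤ B)
    (hBA : B ≤ A) (hz : A ≤ z) (hu : C ≤ u) : s₀ v {A, B, C} 0 0 ≤
      max (max (2 * (A + B + C)) (v + (A + B + C)))
        (4 / 3 * (A + B + C) + (v + K0u v (A + B + C) z u) / 3) + 2 / 3 * d * (A + B + C) := by
  obtain ⟨n, hn⟩ : ∃ n, n = A + B + C := ⟨_, rfl⟩
  obtain ⟨K, hK⟩ : ∃ K, K = K0u v n z u := ⟨_, rfl⟩
  have k1 : 5 / 4 * n ≤ K := hK ▸ K0u_a v n z u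
  have k2 : v + n / 2 ≤ K := hK ▸ K0u_b v n z u
  have k3 : 3 / 2 * v ≤ K := hK ▸ K0u_c v n z u
  have k4 : min (200 / 61 * z) (n + min u (n / 3)) ≤ K := hK ▸ K0u_d v n z u
  have hdn : 2 * d * C ≤ 2 / 3 * d * n := by
    have := mul_le_mul_of_nonneg_left (show C ≤ n / 3 by linarith) (show 0 ≤ 2 * d by linarith)
    linarith
  rw [← hn]
  rw [← hK]
  have m1 := le_max_left (max (2 * n) (v + n)) (4 / 3 * n + (v + K) / 3)
  have m2 := le_max_right (max (2 * n) (v + n)) (4 / 3 * n + (v + K) / 3)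
  have m3 := (le_max_left (2 * n) (v + n)).trans m1
  have m4 := (le_max_right (2 * n) (v + n)).trans m1
  have hdn0 : 0 ≤ 2 / 3 * d * n := by
    have : 0 ≤ n := by linarith
    positivity
  have hCu : C ≤ min u (n / 3) := le_min hu (by linarith)
  rcases le_total (2 * v) (n + K) with h2 | h2
  · rcases le_or_gt (n + C) K with hf | hf
    · have hfar : Far K v (A + B + C) A B C 0 :=
        ⟨by linarith, hv, hC, by linarith, hCB, le_rfl, by linarith, by linarith, by ring,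
          by linarith, by linarith, by linarith⟩
      have := hF K v A B C hfar (by linarith)
      rw [← hn] at this
      linarith
    · have k5 : 200 / 61 * z ≤ K := by
        rcases min_le_iff.1 k4 with h | h
        · exact h
        · linarith
      have := hN K v A B C (by linarith) hv hC hCB hBA (by linarith) (by linarith)
        (by linarith) (by linarith)
      rw [← hn] at this
      have h3 : max (2 * n) (4 / 3 * n + (K + v) / 3) ≤
          max (max (2 * n) (v + n)) (4 / 3 * n + (v + K) / 3) :=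
        max_le m3 (by rw [add_comm K v]; exact m2)
      linarith
  · have := hS v A B C hv (by linarith) (by linarith) hC (by linarith)
    rw [← hn] at this
    linarith

/-- **every pure list** -/
theorem own_gw {d : ℝ} {s₀ : EF} (hA : AllT d s₀) (hF : FarOwn d s₀) (hS : ShOwn s₀)
    (hN : NearW d s₀) (hd : 0 ≤ d) {q : Fin 4 → ℝ} (hq : ∀ i, 0 ≤ q i) :
    s₀ (q 0) {q 1, q 2, q 3} 0 0 ≤ Gu d (mx3 q) (mn3 q) (q 0) (q 1 + q 2 + q 3) := by
  have p0 := hq 0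
  have p1 := hq 1
  have p2 := hq 2
  have p3 := hq 3
  have x1 : q 1 ≤ mx3 q := le_max_left _ _
  have x2 : q 2 ≤ mx3 q := (le_max_left _ _).trans (le_max_right _ _)
  have x3 : q 3 ≤ mx3 q := (le_max_right _ _).trans (le_max_right _ _)
  refine le_min ?_ (own_gq2 hA hq)
  have key : ∀ A B C : ℝ, ({A, B, C} : Multiset ℝ) = {q 1, q 2, q 3} →
      A + B + C = q 1 + q 2 + q 3 → 0 ≤ C → C ≤ B → B ≤ A → A ≤ mx3 q → C ≤ mn3 q →
      s₀ (q 0) {q 1, q 2, q 3} 0 0 ≤ max (max (2 * (q 1 + q 2 + q 3)) (q 0 + (q 1 + q 2 + q 3)))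
        (4 / 3 * (q 1 + q 2 + q 3) + (q 0 + K0u (q 0) (q 1 + q 2 + q 3) (mx3 q) (mn3 q)) / 3) +
          2 / 3 * d * (q 1 + q 2 + q 3) := by
    intro A B C he hs hC hCB hBA hz hu
    rw [← he, ← hs]
    exact own_sorted_w hF hS hN hd p0 hC hCB hBA hz hu
  have c12 : ∀ a b c : ℝ, ({a, b, c} : Multiset ℝ) = {b, a, c} := fun a b c => by
    simp only [Multiset.insert_eq_cons]
    exact Multiset.cons_swap a b {c}
  have c23 : ∀ a b c : ℝ, ({a, b, c} : Multiset ℝ) = {a, c, b} := fun a b c => by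
    simp only [Multiset.insert_eq_cons]
    rw [show (b ::ₘ ({c} : Multiset ℝ)) = c ::ₘ {b} from Multiset.cons_swap b c 0]
  obtain ⟨z₁, e1⟩ : ∃ z, z = q 1 := ⟨_, rfl⟩
  obtain ⟨z₂, e2⟩ : ∃ z, z = q 2 := ⟨_, rfl⟩
  obtain ⟨z₃, e3⟩ : ∃ z, z = q 3 := ⟨_, rfl⟩
  have mn : ∀ c : ℝ, c ≤ q 1 → c ≤ q 2 → c ≤ q 3 → c ≤ mn3 q := fun c h1 h2 h3 =>
    le_min h1 (le_min h2 h3)
  rw [← e1, ← e2, ← e3] at key ⊢
  rw [← e1, ← e2, ← e3] at mn
  rw [← e1] at x1 p1
  rw [← e2] at x2 p2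
  rw [← e3] at x3 p3
  rcases le_total z₁ z₂ with a | a
  · rcases le_total z₂ z₃ with b | b
    · exact key z₃ z₂ z₁ (by rw [c23 z₃ z₂ z₁, c12 z₃ z₁ z₂, c23 z₁ z₃ z₂]) (by ring) p1 a b x3
        (mn _ le_rfl a (a.trans b))
    · rcases le_total z₁ z₃ with c | c
      · exact key z₂ z₃ z₁ (by rw [c23 z₂ z₃ z₁, c12 z₂ z₁ z₃]) (by ring) p1 c b x2
          (mn _ le_rfl a c)
      · exact key z₂ z₁ z₃ (c12 z₂ z₁ z₃) (by ring) p3 c a x2 (mn _ c b le_rfl)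
  · rcases le_total z₁ z₃ with b | b
    · exact key z₃ z₁ z₂ (by rw [c12 z₃ z₁ z₂, c23 z₁ z₃ z₂]) (by ring) p2 a b x3
        (mn _ a le_rfl (a.trans b))
    · rcases le_total z₂ z₃ with c | c
      · exact key z₁ z₃ z₂ (c23 z₁ z₃ z₂) (by ring) p2 c b x1 (mn _ a le_rfl c)
      · exact key z₁ z₂ z₃ rfl rfl p3 c a x1 (mn _ b c le_rfl)

variable {Λ : Type*} {π : Λ → DPar} {h : ℝ → ℝ} {d : ℝ}

/-- **`VN` of `alX` (class E) at the own family**, separate bounds for the two lists -/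
theorem vn_gwX {c₀ : ℝ} (hpu : PU h c₀) (hP : ∀ lam, (π lam).OK) (hE : ∀ lam, Exc (π lam))
    (hA : AllT d (ex Dq fun lam => S0K Dk (red (π lam)) h))
    (hF : FarOwn d (ex Dq fun lam => S0K Dk (red (π lam)) h))
    (hS : ShOwn (ex Dq fun lam => S0K Dk (red (π lam)) h))
    (hN : NearW d (ex Dq fun lam => S0K Dk (red (π lam)) h)) (hd : 0 ≤ d)
    {ε : ℝ} (hε : 0 < ε) (K : ℝ) (hK : 1 ≤ K) (lam : Λ) : ∃ M₀ : ℕ,
      ∀ M : ℕ, M₀ ≤ M → ∀ t : Eis, t ∈ FE47.SM (π lam).n → ∃ X₀ : ℝ, 1 < X₀ ∧ ∀ X : ℝ, X₀ ≤ X →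
      ∀ H₀ : ℝ, 1 ≤ H₀ → ∀ (a : BdX) (β : Fin 3 → Eis) (s₀ : ℝ), LDX X K H₀ s₀ a β →
      ∀ z u z' u' : ℝ,
      (∀ i, (u3 a i).z / Real.log X ≤ z) → (∃ i, (u3 a i).z / Real.log X ≤ u) →
      (∀ i, (u3' a i).z / Real.log X ≤ z') → (∃ i, (u3' a i).z / Real.log X ≤ u') →
      VN X H₀ M K (alX (π lam) h t a β) (fun v γ => max
        (max (Gu d z u v (max 0 (nL X (u3 a) β - γ))) (Gu d z' u' v (max 0 (nL X (u3 a) β - γ))))
        (2 / 3 * v + 5 / 3 * (nL X (u3 a) β - γ) - max 0 (s₀ - γ)) + ε) := by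
  obtain ⟨M₀, G1⟩ := vn_ptX hpu hP hE (Gu_cont d) (fun q hq => own_gw hA hF hS hN hd hq) hε
    one_pos K hK lam
  refine ⟨M₀, fun M hM t ht => ?_⟩
  obtain ⟨X₀, hX₀, G2⟩ := G1 M hM t ht
  refine ⟨X₀, hX₀, fun X hX H₀ hH₀ a β s₀ hLD z u z' u' hz hu hz' hu' => ?_⟩
  refine G2 X hX H₀ hH₀ a β s₀ hLD
    (fun v γ => max (Gu d z u v (max 0 (nL X (u3 a) β - γ)))
      (Gu d z' u' v (max 0 (nL X (u3 a) β - γ))))
    (fun v γ => max (Gu d z u v (max 0 (nL X (u3 a) β - γ)))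
      (Gu d z' u' v (max 0 (nL X (u3 a) β - γ))))
    (fun v σ γ h0 h1 h2 => ?_) fun v γ h1 h2 h3 h4 =>
      ⟨RHx_le (rhx_gu hz hu) (le_max_left _ _), RHx_le (rhx_gu hz' hu') (le_max_right _ _)⟩
  show max (Gu d z u (v + σ) _) (Gu d z' u' (v + σ) _) ≤ max _ _ + σ
  refine max_le ((Gu_slope h1).trans ?_) ((Gu_slope h1).trans ?_)
  · exact add_le_add (le_max_left _ _) le_rfl
  · exact add_le_add (le_max_right _ _) le_rfl

end Crest.Agent.R017.TEX792
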