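import Crest.Agent.R017.TEZX_372

/-!
# Row 17, class E T-numbers: the near claim with the loss `2/3 d n` is in TEZX_372 (helper792)

The names of this file are those of helper372's TEZX_372 (`NearW`, `own_gq2`, `own_gw`, `vn_gwX`),
with the first names as aliases.
-/

namespace Crest.Agent.R017.TEX792

alias own_guW := own_gw

alias vn_guW := vn_gwX

end Crest.Agent.R017.TEX792
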