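import Crest.Agent.R017.GkF_521

/-!
# Row 17, class E, R8 (helper47): helper548's `TFr` for the differences

* **`tfr_X`** : the `T`-half at every datum, families `3/5 κ ≤ k ≤ 7/8 κ`
-/

set_option autoImplicit false
set_option linter.unusedVariables false

noncomputable section

open Finset
open scoped ComplexConjugate Classical

namespace Crest.Agent.R017.TFa47

open Crest.Agent.R012 Crest.Agent.R012.Eis Crest.Agent.R012.MC
open Crest.Agent.R017.FE47 (PU SM cx)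
open Crest.Agent.R017.XG702 (Pcs)
open Crest.Agent.R017.XT71 (Sys Win mx)
open Crest.Agent.R017.Prov71
open Crest.Agent.R017.B770
open Crest.Agent.R017.E5B71 Crest.Agent.R017.E5L770
open Crest.Agent.R017.E3Kc548 (LI mem_LI)
open Crest.Agent.R017.I1146 (LN)
open Crest.Agent.R017.Sup271 (NPm)
open Crest.Agent.R017.RnP571
open Crest.Agent.R017.P1l54 (ParOK)
open Crest.Agent.R017.TM708 (R5)
open Crest.Agent.R017.PX764 (Dk)
open Crest.Agent.R017.ExBox960 Crest.Agent.R017.ExP960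
open Crest.Agent.R017.P1X960
open Crest.Agent.R017.P10X764
open Crest.Agent.R017.E3Nx744 (CBA)
open Crest.Agent.R017.FrX579
open Crest.Agent.R017.ETd548 (BkX S8Xk)
open Crest.Agent.R017.ETk548 (DomKc)
open Crest.Agent.R017.ETm548
open Crest.Agent.R017.ETy71 (mV vN vR pQ bq Dz)
open Crest.Agent.R017.P1L7904 (GX hX Ch)
open Crest.Agent.R017.UbOr381 (DomHi)
open Crest.Agent.R017.LnY47 (hfG hfG_eq hfG_lip GXq tl_abs)
open Crest.Agent.R017.GkD521 (win_inl)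
open Crest.Agent.R017.GkE521 (WinK_mono)
open Crest.Agent.R017.GkF521 (ch_X)

variable {Λ : Type*} {π : Λ → DPar} {h : ℝ → ℝ}

set_option maxHeartbeats 1600000 in
/-- **the `T`-half of the differences** -/
theorem tfr_X {c₀ : ℝ} (hpu : PU h c₀) (hP : ∀ lam, (π lam).OK)
    (hex : ∀ lam, ¬ NPm (π lam).n (π lam).ψ (π lam).l₂ 1)
    {Rh : ℝ} (hRh0 : 0 ≤ Rh) (hRh : ∀ u, cx h u ≠ 0 → |u| ≤ Rh) {e0 : ℝ}
    (he0 : 0 ≤ e0) (he0' : e0 ≤ 1 / 64) {c β d : ℝ} (hc0 : 0 ≤ c) (hc1 : c ≤ 1)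
    (hβ : β = 17 / 100) {Par : Set (Fin 3 ⊕ Fin 5 → ℝ)} (hPar : ∀ p ∈ Par, ParOK p)
    {D5 : Set (Fin 5 → ℝ)} {ℓ Kf Tf : (Fin 5 → ℝ) → ℝ}
    (hDN : ∀ p : IX5 → ℝ, prX p ∈ Par → ZR β p → bN p ∈ D5)
    (hDR : ∀ p : IX5 → ℝ, prX p ∈ Par → ZR β p → bR p ∈ D5)
    (hR5 : ∀ p : IX5 → ℝ, prX p ∈ Par → ZR β p → R5 (bN p))
    (hKN : ∀ p : IX5 → ℝ, prX p ∈ Par → ZR β p →
      Kf (bN p) = max (cκ (prX p)) (5 / 4 * cN (prX p)))
    (hKR : ∀ p : IX5 → ℝ, prX p ∈ Par → ZR β p →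
      Kf (bR p) = max (cκ (prX p)) (5 / 4 * cN (prX p)))
    (hTN : ∀ (p : IX5 → ℝ) (v₀ v₁ v₂ b x' : ℝ), ChC c β Par p v₀ v₁ v₂ b x' →
      DifL p v₀ v₁ v₂ → tpW c p b ≤ Tf (bN p))
    (hTR : ∀ (p : IX5 → ℝ) (v₀ v₁ v₂ b x' : ℝ), ChC c β Par p v₀ v₁ v₂ b x' →
      DifL p v₀ v₁ v₂ → tpW c p b ≤ Tf (bR p))
    (hcb : CBA π h Dk Kf Tf D5 ℓ)
    (hDh : ∀ p ∈ Par, Dh (cκ p) (cu p 2) (cu p 3) (cu p 4) (cx' p) (d * cκ p))
    (hcd : ∀ p ∈ Par, 4 * (c * cκ p) ≤ d * cκ p)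
    {Dm : Set QK} (hDm : ∀ q ∈ Dm, q ∈ DomHi (3 / 5) (7 / 8) c β Par DifL)
    (hF : ∀ q ∈ Dm, lmX ℓ Kf Tf (bq q) ≤ 5 / 9 * (d * cκ (prX (bq q)))) :
    TFr (alX π h) (fun (lam : Λ × Eis) a qs => okCX (π lam.1) lam.2 a qs ∧ okD a) e0 c Dm 4
      (hfG d (fun q => mV (vN q)) (fun q => mV (vR q)) (fun q => lmX ℓ Kf Tf (bq q)) s0X)
      (GXq d) := by
  intro ε hε
  obtain ⟨t, ht, htε, ht1⟩ : ∃ t : ℝ, 0 < t ∧ 20 * t ≤ ε ∧ t ≤ 1 / 40000 :=
    ⟨min (ε / 20) (1 / 40000), by positivity,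
      by have := min_le_left (ε / 20) (1 / 40000 : ℝ); linarith, min_le_right _ _⟩
  obtain ⟨δ, hδ, HF⟩ := frX (e0 := e0) hpu hP hex hRh0 hRh he0 (by linarith) hc0 hc1 hPar hDN hDR
    hR5 hKN hKR hTN hTR hcb (ε := ε) hε (half_pos ht)
  refine ⟨min δ (t / 2), lt_min hδ (half_pos ht), fun lam N B => ?_⟩
  obtain ⟨B₁, J₁, R', -, -, hR', δ₁, hδ₁, X₁, hX₁, HF₁⟩ := HF lam N B 1 le_rfl
  refine ⟨R', hR', fun cw hcw => ?_⟩
  obtain ⟨B₂, J, R₂, hB₂, hJ, -, δ₂, hδ₂, X₂, hX₂, HF₂⟩ := HF lam N B cw hcw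
  refine ⟨B₂, J, hJ, min δ₁ δ₂, lt_min hδ₁ hδ₂,
    max (max X₁ X₂) (Real.exp ((4 + Real.log cw) / (t / 2))),
    lt_max_of_lt_left (lt_max_of_lt_left hX₁), ?_⟩
  intro X hX a qs q hW
  have hXX₁ : X₁ ≤ X := ((le_max_left _ _).trans (le_max_left _ _)).trans hX
  have hXX₂ : X₂ ≤ X := ((le_max_right _ _).trans (le_max_left _ _)).trans hX
  have hX1 : 1 < X := by linarith
  have hX0 : 0 < X := by linarith
  have hL : 0 < Real.log X := Real.log_pos hX1
  have hcl0 : 0 ≤ Real.log cw := Real.log_nonneg hcw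
  have h4c : 4 + Real.log cw ≤ t / 2 * Real.log X := by
    have h1 := (Real.le_log_iff_exp_le hX0).2 ((le_max_right _ _).trans hX)
    rw [div_le_iff₀ (half_pos ht)] at h1
    linarith
  have h4 : 4 ≤ t / 2 * Real.log X := by linarith
  have hcl : Real.log cw ≤ t * Real.log X := by
    have : 0 ≤ t / 2 * Real.log X := by positivity
    linarith
  obtain ⟨⟨hq8, hk0, hk78⟩, hk35⟩ := hDm q hW.dom
  have hpar : prX (bp fun i => q.1 (.inl i)) ∈ Par := hq8.1.par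
  have hPO := hPar _ hpar
  have hD := hDh _ hpar
  have hc := hcd _ hpar
  have hFq := hF q hW.dom
  have hκ := hPO.κ0
  have hκ1 := hPO.κ1
  have hN1 := hPO.N1
  have hx1 := hPO.x1
  have hW1 := WinK_mono hX1.le hW (min_le_left _ _) (min_le_left _ _)
  have hW2 := WinK_mono hX1.le hW (min_le_left _ _) (min_le_right _ _)
  have F₁ := HF₁ X hXX₁ a.1 qs hW1.len hW1.gl ((fun i => q.1 (.inl i)), q.2) hq8
    (win_inl hW1.win) hW1.ms hW1.gd hW1.nlp hW1.hok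
  have F₂ := HF₂ X hXX₂ a.1 qs hW2.len hW2.gl ((fun i => q.1 (.inl i)), q.2) hq8
    (win_inl hW2.win) hW2.ms hW2.gd hW2.nlp hW2.hok
  have hwk : |kB a / Real.log X - q.1 (.inr ())| ≤ t / 2 :=
    (hW.win.ev (.inr ())).trans (min_le_right _ _)
  have htL : t / 2 * Real.log X ≤ 1 / 80000 * Real.log X :=
    mul_le_mul_of_nonneg_right (by linarith) hL.le
  have htL0 : 0 ≤ t / 2 * Real.log X := by positivity
  have hkl := abs_le.1 F₁.kl
  have hκL : cκ (prX (bp fun i => q.1 (.inl i))) * Real.log X ≤ 1 * Real.log X :=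
    mul_le_mul_of_nonneg_right hκ1 hL.le
  have hκL0 : 8 / 9 * Real.log X ≤ cκ (prX (bp fun i => q.1 (.inl i))) * Real.log X :=
    mul_le_mul_of_nonneg_right hκ hL.le
  have hl : a.1.1.l ≤ (cκ (prX (bp fun i => q.1 (.inl i))) + t / 2) * Real.log X := by
    have h1 : a.1.1.l - cκ (prX (bp fun i => q.1 (.inl i))) * Real.log X ≤ t / 2 * Real.log X :=
      hkl.2
    linarith
  have hl0 : 0 ≤ a.1.1.l := by
    have h1 : -(t / 2 * Real.log X) ≤
        a.1.1.l - cκ (prX (bp fun i => q.1 (.inl i))) * Real.log X := hkl.1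
    linarith
  have hz := abs_le.1 F₁.zl
  have hA := abs_le.1 F₁.Al
  have hk5 : k5X a.1 ≤ (max (cκ (prX (bp fun i => q.1 (.inl i))))
      (5 / 4 * (cu (prX (bp fun i => q.1 (.inl i))) 2 + cu (prX (bp fun i => q.1 (.inl i))) 3 +
        cu (prX (bp fun i => q.1 (.inl i))) 4)) + t) * Real.log X := by
    have e1 : cN (prX (bp fun i => q.1 (.inl i))) = cu (prX (bp fun i => q.1 (.inl i))) 2 +
      cu (prX (bp fun i => q.1 (.inl i))) 3 + cu (prX (bp fun i => q.1 (.inl i))) 4 := rfl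
    rw [← e1]
    have m1 := mul_le_mul_of_nonneg_right (le_max_left (cκ (prX (bp fun i => q.1 (.inl i))))
      (5 / 4 * cN (prX (bp fun i => q.1 (.inl i))))) hL.le
    have m2 := mul_le_mul_of_nonneg_right (le_max_right (cκ (prX (bp fun i => q.1 (.inl i))))
      (5 / 4 * cN (prX (bp fun i => q.1 (.inl i))))) hL.le
    have h3 : a3 a.1.1.toBd - cN (prX (bp fun i => q.1 (.inl i))) * Real.log X ≤
      t / 2 * Real.log X := hA.2
    unfold k5X
    refine max_le ?_ ?_ <;> linarith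
  have hE : e0 * a.1.1.l ≤ (cκ (prX (bp fun i => q.1 (.inl i))) / 64 + t) * Real.log X := by
    have h0 : 0 ≤ (cκ (prX (bp fun i => q.1 (.inl i))) + t / 2) * Real.log X := by positivity
    calc e0 * a.1.1.l ≤
        e0 * ((cκ (prX (bp fun i => q.1 (.inl i))) + t / 2) * Real.log X) :=
          mul_le_mul_of_nonneg_left hl he0
      _ ≤ 1 / 64 * ((cκ (prX (bp fun i => q.1 (.inl i))) + t / 2) * Real.log X) :=
          mul_le_mul_of_nonneg_right he0' h0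
      _ ≤ _ := by linarith
  have hp : |LN (clN a.1 qs) / Real.log X - pQ q| ≤ t / 2 := by
    rw [show LN (clN a.1 qs) / Real.log X - pQ q =
      (LN (clN a.1 qs) - pQ q * Real.log X) / Real.log X by field_simp, abs_div,
      abs_of_pos hL, div_le_iff₀ hL]
    exact F₁.nl
  have hG : GX (cu (prX (bp fun i => q.1 (.inl i))) 2 + cu (prX (bp fun i => q.1 (.inl i))) 3 +
        cu (prX (bp fun i => q.1 (.inl i))) 4) (cκ (prX (bp fun i => q.1 (.inl i))))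
      (kB a / Real.log X) (LN (clN a.1 qs) / Real.log X) (mV (vN q)) (mV (vR q))
      (cx' (prX (bp fun i => q.1 (.inl i)))) (d * cκ (prX (bp fun i => q.1 (.inl i)))) +
      14 * t ≤ GXq d q + ε := by
    have h1 : GX (cu (prX (bp fun i => q.1 (.inl i))) 2 + cu (prX (bp fun i => q.1 (.inl i))) 3 +
        cu (prX (bp fun i => q.1 (.inl i))) 4) (cκ (prX (bp fun i => q.1 (.inl i))))
      (kB a / Real.log X) (LN (clN a.1 qs) / Real.log X) (mV (vN q)) (mV (vR q))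
      (cx' (prX (bp fun i => q.1 (.inl i)))) (d * cκ (prX (bp fun i => q.1 (.inl i)))) ≤
      GXq d q + 6 * (t / 2) :=
      LnY47.GX_lip (N := cN (prX (bq q))) (k := cκ (prX (bq q))) (uN := mV (vN q))
        (uR := mV (vR q)) (x := cx' (prX (bq q))) (D := d * cκ (prX (bq q))) hwk hp
    linarith
  have key : ∀ i ∈ LI (2 ^ a.2.1 / 4) (2 ^ (a.2.1 + 1)), ∀ g : ℝ, 0 ≤ g → _ :=
    fun i hi g hg => tl_abs (L := Real.log X) (um' := (a.1.2.1 2).z)
      (lm := lmX ℓ Kf Tf (bp fun i => q.1 (.inl i)) * Real.log X) (k5 := k5X a.1)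
      (z := a.1.1.z) (cl := Real.log cw) (E := e0 * a.1.1.l) (G := GXq d q + ε)
      (F := lmX ℓ Kf Tf (bq q))
      (h := hfG d (fun q => mV (vN q)) (fun q => mV (vR q)) (fun q => lmX ℓ Kf Tf (bq q)) s0X
        lam X a qs q i g) hL hD
      (ch_X (t := t) F₁ hX1 hβ hq8 hPO hD hc hk35 hk78 (half_pos ht) (by linarith) ht1 h4
        hwk hW.lvl hi) hFq hg
      (mul_le_mul_of_nonneg_right (le_add_of_nonneg_right ht.le) hL.le) hk5
      (hW.hok.1.1.1.2.1)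
      (by
        have h1 : a.1.1.z - cx' (prX (bp fun i => q.1 (.inl i))) * Real.log X ≤
          t / 2 * Real.log X := hz.2
        linarith) hcl hE hG rfl
  refine ⟨YcX Rh a.1 qs, ShXl (lmX ℓ Kf Tf (bp fun i => q.1 (.inl i)) * Real.log X) a.1 qs, ?_⟩
  exact {
    Y1 := F₁.Y1
    YX := F₂.YX
    l0 := hl0
    l2 := by linarith
    n0 := F₁.np
    n2 := by
      have h9 : (cN (prX (bp fun i => q.1 (.inl i))) + cx' (prX (bp fun i => q.1 (.inl i)))) *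
        Real.log X ≤ 4 / 3 * Real.log X := mul_le_mul_of_nonneg_right (by linarith) hL.le
      have h3 : LN (clN a.1 qs) ≤ (cN (prX (bp fun i => q.1 (.inl i))) +
        cx' (prX (bp fun i => q.1 (.inl i)))) * Real.log X + t / 2 * Real.log X := F₁.n1
      linarith
    k2 := by
      have h1 := (abs_le.1 hwk).2
      have h2 : kB a / Real.log X ≤ 2 := by linarith
      rwa [div_le_iff₀ hL] at h2
    yX := by
      have h1 : 1 * (2 : ℝ) ^ nw c a.1 ≤ X := F₁.yX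
      linarith
    adm := F₁.adm
    jb := F₂.jb
    lip := fun i x y => hfG_lip hX1 lam a qs q i x y
    sz := fun i hi g hg => (key i hi g hg).1
    ln := fun i hi g hg _ => (key i hi g hg).2.1
    le := fun i hi g hg _ => (key i hi g hg).2.2.1 }

end Crest.Agent.R017.TFa47
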