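import Crest.Agent.R017.TMU_708
import Crest.Agent.R017.XCub_71

/-!
# Row 17, R8 / P1 at list level: moments of three natural lumps (helper708), any functional

* `S3e n`   : base datum with `n` free real coordinates
* `TMG Φ c` : `Φ` of `{y₁,y₂,y₃} + ps`, everything prime to the modulus, level `a.l + c`
* `tmg_of`  : `UB` from an inequality for the exponent function on a compact set
* `tmgs_of` : `UBs`, constraint function = distance to the compact set
* `tmg_near`: the same, unfolded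
-/

set_option autoImplicit false
set_option linter.unusedSectionVars false

noncomputable section

open Set

namespace Crest.Agent.R017.TM708

open Crest.Agent.R012 Crest.Agent.R012.Eis
open Crest.Agent.R017.FE47 (PU)
open Crest.Agent.R017.CM106
open Crest.Agent.R017.XG702 (Pcs BG)
open Crest.Agent.R017.XT71 (Sys Win mx le_mx one_le_mx)
open Crest.Agent.R017.UM71 (BGB)
open Crest.Agent.R017.E5B71 (UB)
open Crest.Agent.R017.Prov71
open Crest.Agent.R017.B770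
open Crest.Agent.R017.ER911
open Crest.Agent.R017.HP842 (Pc pc)
open Crest.Agent.R017.UBT973 (UBs Wn)

variable {Λ : Type*} {π : Λ → DPar} {h : ℝ → ℝ} {Φ : Λ → ℝ → List Pq → ℝ} {n : ℕ}

/-- base datum with `n` free real coordinates (in units of `log X`) -/
def S3e (n : ℕ) : Sys ((Fin n → ℝ) × T3) (Fin n ⊕ Fin 4) where
  ev X a := Sum.elim (fun i => a.1 i / Real.log X) (S3.ev X a.2)
  g _ := 1
  n _ := 0
  s₁ a := S3.s₁ a.2
  s₂ a := S3.s₂ a.2

open Classical in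
/-- **`Φ` of `{y₁,y₂,y₃} + ps`, everything prime to `q`**, level `a.l + c lam` -/
def TMP (Φ : Λ → ℝ → List Pq → ℝ) (c : Λ → ℝ) (lam : Λ) (a : T3) (ps : List Pq) : ℝ :=
  if a.ok then Φ lam (a.l + c lam) ((a.mk' ++ ps).map (Pq.tw a.q)) else 0

/-- the same with free coordinates -/
def TMG (Φ : Λ → ℝ → List Pq → ℝ) (c : Λ → ℝ) (n : ℕ) (lam : Λ) (a : (Fin n → ℝ) × T3)
    (ps : List Pq) : ℝ := TMP Φ c lam a.2 ps

/-- **`BGB` from `BG`** -/
theorem bgb_TMP (c : Λ → ℝ) {p : Fin 4 → ℝ} {w : Kd → ℝ} {e : ℝ}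
    (H : BG Dq Φ (p 0) [p 1, p 2, p 3] w e) : BGB S3 Dq (TMP Φ c) p [] w e := by
  have H1 : BGB S3 Dq (UBR61.mkF (fun (_ : Λ) (a : T3) => a.ok) Φ
      (fun lam a => a.l + c lam) (fun _ a => a.mk')) p [] w e :=
    UBR61.bgb_of_bg (mk_ok c) (by simpa using H)
  intro ε hε
  obtain ⟨δ, hδ, K⟩ := H1 ε hε
  refine ⟨δ, hδ, fun lam N B => ?_⟩
  obtain ⟨δ', hδ', X₀, hX₀, K1⟩ := K lam N (|B| + |B|)
  refine ⟨δ', hδ', X₀, hX₀, fun X hX a us gs hw hn hg hG => ?_⟩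
  have hX1 : (1 : ℝ) < X := by linarith
  have hX0 : (0 : ℝ) < X := by linarith
  unfold TMP
  split_ifs with ha
  · have hus : us = [] := by
      unfold Pcs.Near at hn
      exact List.forall₂_nil_right_iff.1 hn
    subst hus
    have hq := ha.2
    have hB : X ^ B ≤ X ^ |B| := Real.rpow_le_rpow_of_exponent_le hX1.le (le_abs_self B)
    have hq2 : (nm a.q : ℝ) ≤ X ^ |B| := ((le_max_left _ _).trans hw.s₂).trans hB
    have hqn : (1 : ℝ) ≤ nm a.q := by exact_mod_cast nm_pos.2 hq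
    have hXB : (1 : ℝ) ≤ X ^ |B| := Real.one_le_rpow hX1.le (abs_nonneg B)
    have hadd : X ^ |B| * X ^ |B| = X ^ (|B| + |B|) := (Real.rpow_add hX0 _ _).symm
    have key := K1 X hX a.tw [] (gs.map (Pq.tw a.q)) ?_ (by simp [Pcs.Near])
      (tws_tw.gran hq hg) ?_
    · unfold UBR61.mkF at key
      rw [if_pos (tw_ok ha)] at key
      have key' : Φ lam (a.l + c lam) (a.mk'.map (Pq.tw a.q) ++ gs.map (Pq.tw a.q)) ≤
        X ^ (e + ε) := key
      rw [List.nil_append, List.map_append]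
      exact key'
    · have hlen : ∀ i, Dq.nl X ((a.us i).tw a.q) = Dq.nl X (a.us i) := fun i => by
        unfold Pcs.nl; rw [tws_tw.len _ _ hq]
      have e : S3.ev X a.tw = S3.ev X a := by
        show ![a.l / Real.log X, Dq.nl X ((a.us 0).tw a.q), Dq.nl X ((a.us 1).tw a.q),
          Dq.nl X ((a.us 2).tw a.q)] = _
        rw [hlen, hlen, hlen]
        rfl
      refine ⟨fun i => by rw [e]; exact hw.ev i, hw.g, hw.n, ?_, ?_⟩
      · show mx Dq.s1 a.tw.mk' ≤ _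
        rw [mk_tw, mx_map_s1 tws_tw hq]
        exact hw.s₁
      · show max ((nm (1 : Eis) : ℕ) : ℝ) (mx Dq.s2 a.tw.mk') ≤ _
        rw [mk_tw]
        have h1 : mx Dq.s2 a.mk' ≤ X ^ |B| := ((le_max_right _ _).trans hw.s₂).trans hB
        have h2 := mx_map_le tws_tw hq a.mk'
        have h3 : mx Dq.s2 a.mk' * nm a.q ≤ X ^ |B| * X ^ |B| :=
          mul_le_mul h1 hq2 (by linarith) (by linarith)
        refine max_le ?_ (by rw [← hadd]; exact h2.trans h3)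
        have : (nm (1 : Eis) : ℕ) = 1 := by simp
        rw [this, ← hadd]
        push_cast
        nlinarith
    · intro p' hp'
      rw [List.nil_append] at hp'
      obtain ⟨p₀, hp₀, rfl⟩ := List.mem_map.1 hp'
      obtain ⟨g1, g2, g3⟩ := hG p₀ (by simpa using hp₀)
      refine ⟨by rw [tws_tw.s1 _ _ hq]; exact g1, ?_, by rw [tws_tw.len _ _ hq]; exact g3⟩
      refine (tws_tw.s2 a.q p₀ hq).trans ?_
      rw [← hadd]
      exact mul_le_mul (g2.trans hB) hq2 (by linarith) (by linarith)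
  · exact Real.rpow_nonneg hX0.le _

/-- free coordinates are harmless -/
lemma bgb_lift {Ψ : Λ → T3 → List Pq → ℝ} {p : Fin n ⊕ Fin 4 → ℝ} {u : List ℝ} {w : Kd → ℝ}
    {e : ℝ} (H : BGB S3 Dq Ψ (fun i => p (.inr i)) u w e) :
    BGB (S3e n) Dq (fun lam a => Ψ lam a.2) p u w e := by
  intro ε hε
  obtain ⟨δ, hδ, K⟩ := H ε hε
  refine ⟨δ, hδ, fun lam N B => ?_⟩
  obtain ⟨δ', hδ', X₀, hX₀, K1⟩ := K lam N B
  exact ⟨δ', hδ', X₀, hX₀, fun X hX a us gs hw hn hg hG =>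
    K1 X hX a.2 us gs ⟨fun i => hw.ev (.inr i), hw.g, hw.n, hw.s₁, hw.s₂⟩ hn hg hG⟩

/-- **`UB` from an inequality for the exponents** -/
theorem tmg_of (hinv : Pinv Φ) (htr : Prov71.Triv Dq Φ) (c : Λ → ℝ)
    {Dom : Set ((Fin n ⊕ Fin 4 → ℝ) × (Kd → ℝ))} (hDom : IsCompact Dom)
    (hnn : ∀ q ∈ Dom, (∀ i, 0 ≤ q.1 (.inr i)) ∧ ∀ t, 0 ≤ q.2 t)
    {E : (Fin n ⊕ Fin 4 → ℝ) × (Kd → ℝ) → ℝ} (hE : Continuous E)
    (H : ∀ q ∈ Dom, ex Dq Φ (q.1 (.inr 0)) {q.1 (.inr 1), q.1 (.inr 2), q.1 (.inr 3)} (q.2 .mo)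
      (q.2 .am) ≤ E q) : UB (S3e n) Dq (TMG Φ c n) Dom ∅ E := by
  refine ub_gran hDom hE fun q hq => bgb_lift (Ψ := TMP Φ c) (bgb_TMP c ?_)
  have e2 : q.2 = wt (q.2 Kd.mo) (q.2 Kd.am) := by
    funext t
    cases t <;> rfl
  have h1 : ex Dq Φ (q.1 (.inr 0))
      ((([q.1 (.inr 1), q.1 (.inr 2), q.1 (.inr 3)] : List ℝ) : Multiset ℝ)) (q.2 .mo) (q.2 .am) ≤
        E q := H q hq
  have h3 := Prov71.BG_of_ex hinv htr ((hnn q hq).1 0)
    (u := [q.1 (.inr 1), q.1 (.inr 2), q.1 (.inr 3)]) ⟨by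
      intro y hy
      simp only [List.mem_cons, List.not_mem_nil, or_false] at hy
      rcases hy with rfl | rfl | rfl <;> exact (hnn q hq).1 _, (hnn q hq).2 _, (hnn q hq).2 _⟩ h1
  rw [← e2] at h3
  exact h3

/-- trivial bound -/
theorem tmg_triv {c₀ : ℝ} (hpu : PU h c₀) (hP : ∀ lam, (π lam).OK)
    (hle : ∀ lam l ps, Φ lam l ps ≤ Sp (π lam) h l ps) (c : Λ → ℝ)
    {f : (Fin n ⊕ Fin 4 → ℝ) × (Kd → ℝ) → ℝ} (hf : IsCompact {q | f q ≤ 1}) :
    UBT973.Triv (S3e n) Dq (TMG Φ c n) f ∅ := by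
  obtain ⟨C, hC, hb⟩ := UBT973.triv_Sp (h := h) hpu.cd.continuous hpu.cs
  refine UBT973.triv_of_exp hf
    (G := fun q => q.1 (.inr 0) + 2 * (q.1 (.inr 1) + q.1 (.inr 2) + q.1 (.inr 3)) +
      2 * (q.2 .mo + q.2 .am))
    (by fun_prop) fun lam N B => ?_
  refine ⟨100 * C ^ (2 * (3 + N)) * Real.exp |c lam|, 0, fun X hX b ps hw H hH _ _ => ?_⟩
  have hX1 : (1 : ℝ) < X := by linarith
  have hX0 : (0 : ℝ) < X := by linarith
  have hl : Real.log X ≠ 0 := (Real.log_pos hX1).ne'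
  rw [pow_zero, mul_one]
  unfold TMG TMP
  set a := b.2 with hab
  split_ifs with ha
  · refine (hle _ _ _).trans ((hb _ (hP lam) _ _).trans ?_)
    have hz : ∀ p : Pq, (p.tw a.q).z = p.z := fun p => by
      have := tws_tw.len a.q p ha.2
      simpa only [Dq_len] using this
    have e1 : (((a.mk' ++ ps).map (Pq.tw a.q)).map Pq.z).sum =
        (a.us 0).z + (a.us 1).z + (a.us 2).z + (ps.map fun p => p.z).sum := by
      rw [List.map_map]
      have : (Pq.z ∘ Pq.tw a.q) = fun p => p.z := funext hz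
      rw [this, List.map_append, List.sum_append]
      simp [T3.mk', add_assoc]
    have e2 := BadK271.sum_z_eq hX1 ps
    have e3 : ∀ i, (a.us i).z = Real.log X * Dq.nl X (a.us i) := fun i => by
      unfold Pcs.nl
      rw [Dq_len]
      field_simp
    rw [e1, e2, List.length_map, List.length_append]
    have h1 : C ^ (2 * (a.mk'.length + ps.length)) ≤ C ^ (2 * (3 + N)) := by
      refine pow_le_pow_right₀ hC ?_
      have := hw.len
      have h3 : a.mk'.length = 3 := rfl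
      omega
    have h2 : Real.exp (a.l + c lam + 2 * ((a.us 0).z + (a.us 1).z + (a.us 2).z +
        Real.log X * (Dq.mass X ps .mo + Dq.mass X ps .am))) ≤ Real.exp |c lam| *
        X ^ (S3.ev X a 0 + 2 * (S3.ev X a 1 + S3.ev X a 2 + S3.ev X a 3) +
          2 * (Dq.mass X ps .mo + Dq.mass X ps .am)) := by
      rw [Real.rpow_def_of_pos hX0, ← Real.exp_add]
      refine Real.exp_le_exp.2 ?_
      have f0 : S3.ev X a 0 = a.l / Real.log X := rfl
      have f1 : S3.ev X a 1 = Dq.nl X (a.us 0) := rfl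
      have f2 : S3.ev X a 2 = Dq.nl X (a.us 1) := rfl
      have f3 : S3.ev X a 3 = Dq.nl X (a.us 2) := rfl
      rw [f0, f1, f2, f3, e3 0, e3 1, e3 2]
      have g := le_abs_self (c lam)
      have g2 : Real.log X * (a.l / Real.log X) = a.l := by field_simp
      nlinarith
    calc 100 * C ^ (2 * (a.mk'.length + ps.length)) * Real.exp (a.l + c lam +
          2 * ((a.us 0).z + (a.us 1).z + (a.us 2).z +
            Real.log X * (Dq.mass X ps .mo + Dq.mass X ps .am)))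
        ≤ 100 * C ^ (2 * (3 + N)) * (Real.exp |c lam| *
          X ^ (S3.ev X a 0 + 2 * (S3.ev X a 1 + S3.ev X a 2 + S3.ev X a 3) +
            2 * (Dq.mass X ps .mo + Dq.mass X ps .am))) := by
          refine mul_le_mul (mul_le_mul_of_nonneg_left h1 (by norm_num)) h2 (Real.exp_pos _).le
            (by positivity)
      _ = 100 * C ^ (2 * (3 + N)) * Real.exp |c lam| * X ^ ((S3e n).ev X b (.inr 0) +
            2 * ((S3e n).ev X b (.inr 1) + (S3e n).ev X b (.inr 2) + (S3e n).ev X b (.inr 3)) +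
            2 * (Dq.mass X ps .mo + Dq.mass X ps .am)) := by
          rw [mul_assoc (100 * C ^ (2 * (3 + N)))]
          rfl
  · have := Real.rpow_nonneg hX0.le ((S3e n).ev X b (.inr 0) +
            2 * ((S3e n).ev X b (.inr 1) + (S3e n).ev X b (.inr 2) + (S3e n).ev X b (.inr 3)) +
            2 * (Dq.mass X ps .mo + Dq.mass X ps .am))
    have hC0 : 0 ≤ C := by linarith
    positivity

section dist

variable {Q : Type*} [PseudoMetricSpace Q]

lemma infDist_zero {Dom : Set Q} (hcl : IsClosed Dom) (hne : Dom.Nonempty) :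
    {q | Metric.infDist q Dom ≤ 0} = Dom := by
  ext q
  rw [Set.mem_ofPred_eq]
  constructor
  · intro h
    have h0 : Metric.infDist q Dom = 0 := le_antisymm h Metric.infDist_nonneg
    exact (hcl.mem_iff_infDist_zero hne).2 h0
  · intro h
    exact le_of_eq ((hcl.mem_iff_infDist_zero hne).1 h)

lemma infDist_one [ProperSpace Q] {Dom : Set Q} (hc : IsCompact Dom) (hne : Dom.Nonempty) :
    IsCompact {q | Metric.infDist q Dom ≤ 1} := by
  refine Metric.isCompact_of_isClosed_isBounded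
    (isClosed_le (Metric.continuous_infDist_pt Dom) continuous_const) ?_
  have h1 : {q | Metric.infDist q Dom ≤ 1} ⊆ Metric.cthickening 1 Dom := by
    intro q hq
    rw [Metric.mem_cthickening_iff,
      ← ENNReal.ofReal_toReal (Metric.infEDist_ne_top (x := q) hne)]
    exact ENNReal.ofReal_le_ofReal hq
  exact hc.isBounded.cthickening.subset h1

end dist

/-- **`UBs` from an inequality for the exponents**, constraint function = distance -/
theorem tmgs_of {c₀ : ℝ} (hpu : PU h c₀) (hP : ∀ lam, (π lam).OK)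
    (hle : ∀ lam l ps, Φ lam l ps ≤ Sp (π lam) h l ps) (hinv : Pinv Φ)
    (htr : Prov71.Triv Dq Φ) (c : Λ → ℝ) {Dom : Set ((Fin n ⊕ Fin 4 → ℝ) × (Kd → ℝ))}
    (hDom : IsCompact Dom) (hne : Dom.Nonempty)
    (hnn : ∀ q ∈ Dom, (∀ i, 0 ≤ q.1 (.inr i)) ∧ ∀ t, 0 ≤ q.2 t)
    {E : (Fin n ⊕ Fin 4 → ℝ) × (Kd → ℝ) → ℝ} (hE : Continuous E)
    (H : ∀ q ∈ Dom, ex Dq Φ (q.1 (.inr 0)) {q.1 (.inr 1), q.1 (.inr 2), q.1 (.inr 3)} (q.2 .mo)
      (q.2 .am) ≤ E q) :
    UBs (S3e n) Dq (TMG Φ c n) (fun q => Metric.infDist q Dom) ∅ E :=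
  UBT973.ubs_of_ub (Metric.continuous_infDist_pt Dom) (infDist_one hDom hne) hE
    (tmg_triv hpu hP hle c (infDist_one hDom hne)) (by
    rw [infDist_zero hDom.isClosed hne]
    exact tmg_of hinv htr c hDom hnn hE H)

/-- **the same, unfolded** : `a` = free coordinates, level, three marked lumps, modulus; `ps` =
granular amplifier pieces -/
theorem tmg_near {c₀ : ℝ} (hpu : PU h c₀) (hP : ∀ lam, (π lam).OK)
    (hle : ∀ lam l ps, Φ lam l ps ≤ Sp (π lam) h l ps) (hinv : Pinv Φ)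
    (htr : Prov71.Triv Dq Φ) (c : Λ → ℝ) {Dom : Set ((Fin n ⊕ Fin 4 → ℝ) × (Kd → ℝ))}
    (hDom : IsCompact Dom) (hne : Dom.Nonempty)
    (hnn : ∀ q ∈ Dom, (∀ i, 0 ≤ q.1 (.inr i)) ∧ ∀ t, 0 ≤ q.2 t)
    {E : (Fin n ⊕ Fin 4 → ℝ) × (Kd → ℝ) → ℝ} (hE : Continuous E)
    (H : ∀ q ∈ Dom, ex Dq Φ (q.1 (.inr 0)) {q.1 (.inr 1), q.1 (.inr 2), q.1 (.inr 3)} (q.2 .mo)
      (q.2 .am) ≤ E q) {ε : ℝ} (hε : 0 < ε) :
    ∃ σ : ℝ, 0 < σ ∧ ∀ (lam : Λ) (N : ℕ) (B : ℝ), ∃ (M : ℕ) (X₀ : ℝ), 1 < X₀ ∧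
      ∀ X : ℝ, X₀ ≤ X → ∀ (b : Fin n → ℝ) (a : T3) (ps : List Pq), a.ok → ps.length ≤ N →
      (∀ p ∈ ps, p.kd = .am ∧ Dq.nl X p ≤ σ) → S3.s₂ a ≤ X ^ B →
      (∀ p ∈ ps, (nm p.d : ℝ) ≤ X ^ B ∧ 0 ≤ p.z) →
      (∃ q ∈ Dom, dist ((S3e n).ev X (b, a), Dq.mass X ps) q ≤ σ) →
      ∀ K : ℝ, 1 ≤ K → S3.s₁ a ≤ K → (∀ p ∈ ps, 1 + |p.t| ≤ K) →
        Φ lam (a.l + c lam) ((a.mk' ++ ps).map (Pq.tw a.q)) ≤
          K ^ M * X ^ (E ((S3e n).ev X (b, a), Dq.mass X ps) + ε) := by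
  obtain ⟨σ, hσ, G⟩ := tmgs_of hpu hP hle hinv htr c hDom hne hnn hE H ε hε
  refine ⟨σ, hσ, fun lam N B => ?_⟩
  obtain ⟨M, X₀, hX₀, G1⟩ := G lam N B
  refine ⟨M, X₀, hX₀, fun X hX b a ps ha hN hg hs2 hp hd K hK hs1 hp1 => ?_⟩
  have hX1 : 1 < X := by linarith
  have key := G1 X hX (b, a) ps hN (fun p hp => Or.inr (hg p hp).2)
    (Real.one_le_rpow hX1.le hσ.le) (Nat.zero_le _) hs2 (fun p hp' => hp p hp') (by
      obtain ⟨q, hq, hqd⟩ := hd
      exact (Metric.infDist_le_dist_of_mem hq).trans hqd)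
    (fun p hp' hl => by
      have h1 := (hg p hp').1
      have h2 := hl.1
      rw [h1] at h2
      cases h2) K hK hs1 (fun p hp' => hp1 p hp')
  unfold TMG TMP at key
  rwa [if_pos ha] at key

end Crest.Agent.R017.TM708
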