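import Crest.Agent.R017.R8Tail_70

/-!
# Row 17, R8 / E4: T-moments of three natural lumps and a granular share (helper708), real part

`s v {y₁,y₂,y₃} m a` for every level `v ≥ 0`, `n = y₁ + y₂ + y₃ + (m + a)`, `w = m + a`:

* `tHB`  : large sieve
* `tCT`  : the third lump and the granular mass by Cauchy, the pair by TF
* `tCP`  : the third lump by Cauchy, the pair with the granular mass by P' and `side79a`
* `tP`   : P' (helper70's `gauss3`)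

all continuous in `(v, y, w)` and without side conditions.
-/

set_option autoImplicit false

noncomputable section

namespace Crest.Agent.R017.TM708

open Crest.Agent.R017.ER911 Crest.Agent.R017.SC777 Crest.Agent.R017.R8T70

variable {d : ℝ} {r s : EF}

/-- ideal value at the family `b`, moved down to the family `v` (slope `1/3`) and up (slope `1`) -/
def gv (v b n : ℝ) : ℝ := max v b + n - (max v b - v) / 3

/-- large sieve -/
def tHB (v n : ℝ) : ℝ := max (v + n) (max (2 * n + v / 3) (n + 2 / 3 * (v + n)))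

/-- Cauchy in the third lump and the granular mass, then TF -/
def tCT (v y₁ y₂ y₃ w : ℝ) : ℝ := (y₃ + w) + gv (v + (y₃ + w)) (y₁ + y₂) (y₁ + y₂)

/-- Cauchy in the third lump, then P' for the pair with the granular mass -/
def tCP (d v y₁ y₂ y₃ w : ℝ) : ℝ :=
  y₃ + gv (v + y₃) (y₁ + y₂ + w + (3 / 2 + 72 / 5 * d) * w) (y₁ + y₂ + w)

/-- P' for the whole side -/
def tP (d v y₁ y₂ y₃ w : ℝ) : ℝ :=
  gv v (y₁ + y₂ + y₃ + w + 3 / 4 * max y₃ (2 * w) + 24 / 5 * d * (max y₃ (2 * w) + w))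
    (y₁ + y₂ + y₃ + w)

theorem gv_of_le {v b n : ℝ} (h : b ≤ v) : gv v b n = v + n := by
  unfold gv; rw [max_eq_left h]; ring

theorem gv_of_ge {v b n : ℝ} (h : v ≤ b) : gv v b n = b + n - (b - v) / 3 := by
  unfold gv; rw [max_eq_right h]

theorem gv_eq (v b n : ℝ) : gv v b n = max (v + n) (n + (2 * b + v) / 3) := by
  rcases le_total b v with h | h
  · rw [gv_of_le h, max_eq_left (by linarith)]
  · rw [gv_of_ge h, max_eq_right (by linarith)]; ring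

/-- **TF on the Gauss side**, every family -/
theorem gauss2 (R : ExpRules (7 / 8 + d) r s) {y₁ y₂ v : ℝ} (h1 : 0 ≤ y₁) (h2 : 0 ≤ y₂)
    (hv : 0 ≤ v) : s v {y₁, y₂} 0 0 ≤ gv v (y₁ + y₂) (y₁ + y₂) := by
  obtain ⟨V, hV⟩ : ∃ V, V = max v (y₁ + y₂) := ⟨_, rfl⟩
  have hV1 : v ≤ V := by rw [hV]; exact le_max_left _ _
  have hV2 : y₁ + y₂ ≤ V := by rw [hV]; exact le_max_right _ _
  have hs : ∀ a b : ℝ, ({a, b} : Multiset ℝ).sum = a + b := fun a b => by simp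
  have := R.poisG V {y₁, y₂} 0 0 (V + (y₁ + y₂)) (by linarith) (ok_pair h1 h2 le_rfl le_rfl)
    (by rw [hs]; linarith) (by
      intro Y' m' a' i hYs hm0 hm1 ha0 ha1 hi hyi hii
      obtain ⟨a₁, a₂, rfl, q1, q1', q2, q2'⟩ := Sh.pair hYs
      have em : m' = 0 := le_antisymm hm1 hm0
      have ea : a' = 0 := le_antisymm ha1 ha0
      subst em; subst ea
      rw [hs] at hii
      rw [hs, hs]
      have := tf0 R hi q1 q2
      linarith) (by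
      intro Y' m' a' hYs hm0 hm1 ha0 ha1 hk
      obtain ⟨a₁, a₂, rfl, q1, q1', q2, q2'⟩ := Sh.pair hYs
      have em : m' = 0 := le_antisymm hm1 hm0
      have ea : a' = 0 := le_antisymm ha1 ha0
      subst em; subst ea
      rw [hs] at hk
      rw [hs, hs]
      linarith) v hv hV1
  unfold gv
  rw [← hV]
  linarith

/-- `tHB` -/
theorem s_tHB (R : ExpRules (7 / 8 + d) r s) {y₁ y₂ y₃ m a v : ℝ} (h1 : 0 ≤ y₁) (h2 : 0 ≤ y₂)
    (h3 : 0 ≤ y₃) (hm : 0 ≤ m) (ha : 0 ≤ a) (hv : 0 ≤ v) :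
    s v {y₁, y₂, y₃} m a ≤ tHB v (y₁ + y₂ + y₃ + (m + a)) := by
  have := R.hbG v {y₁, y₂, y₃} m a hv (ok_triple h1 h2 h3 hm ha)
  rw [sum_triple] at this
  unfold tHB
  have e : y₁ + y₂ + y₃ + m + a = y₁ + y₂ + y₃ + (m + a) := by ring
  rw [e] at this
  exact this

/-- Cauchy in the third lump -/
theorem s_cau3 (R : ExpRules (7 / 8 + d) r s) {y₁ y₂ y₃ m a v : ℝ} (h1 : 0 ≤ y₁) (h2 : 0 ≤ y₂)
    (h3 : 0 ≤ y₃) (hm : 0 ≤ m) (ha : 0 ≤ a) (hv : 0 ≤ v) :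
    s v {y₁, y₂, y₃} m a ≤ y₃ + s (v + y₃) {y₁, y₂} m a := by
  have := R.cauS v y₃ {y₁, y₂} m a hv h3 (ok_pair h1 h2 hm ha)
  rwa [cons_pair] at this

/-- `tCT` -/
theorem s_tCT (R : ExpRules (7 / 8 + d) r s) {y₁ y₂ y₃ m a v : ℝ} (h1 : 0 ≤ y₁) (h2 : 0 ≤ y₂)
    (h3 : 0 ≤ y₃) (hm : 0 ≤ m) (ha : 0 ≤ a) (hv : 0 ≤ v) :
    s v {y₁, y₂, y₃} m a ≤ tCT v y₁ y₂ y₃ (m + a) := by
  have e1 := s_cau3 R h1 h2 h3 hm ha hv
  have e2 := R.cau (v + y₃) {y₁, y₂} m a m a (by linarith) (ok_pair h1 h2 hm ha) hm le_rfl ha le_rfl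
  rw [sub_self, sub_self] at e2
  have e3 := gauss2 R h1 h2 (v := v + y₃ + (m + a)) (by linarith)
  unfold tCT
  have e4 : v + (y₃ + (m + a)) = v + y₃ + (m + a) := by ring
  rw [e4]
  linarith

/-- `tP` -/
theorem s_tP (R : ExpRules (7 / 8 + d) r s) (hd : 0 ≤ d) (hd1 : d ≤ 1 / 8) {y₁ y₂ y₃ m a v : ℝ}
    (h1 : 0 ≤ y₁) (h2 : 0 ≤ y₂) (h3 : 0 ≤ y₃) (hm : 0 ≤ m) (ha : 0 ≤ a) (hv : 0 ≤ v) :
    s v {y₁, y₂, y₃} m a ≤ tP d v y₁ y₂ y₃ (m + a) := by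
  obtain ⟨Yb, hYb⟩ : ∃ Yb, Yb = max y₃ (2 * (m + a)) := ⟨_, rfl⟩
  have hY1 : y₃ ≤ Yb := by rw [hYb]; exact le_max_left _ _
  have hY2 : 2 * (m + a) ≤ Yb := by rw [hYb]; exact le_max_right _ _
  obtain ⟨b, hb⟩ : ∃ b, b = y₁ + y₂ + y₃ + (m + a) + 3 / 4 * Yb + 24 / 5 * d * (Yb + (m + a)) :=
    ⟨_, rfl⟩
  have := gauss3 R hd hd1 (Yb := Yb) (wb := m + a) (v := max v b) h1 h2 h3 hm ha hY1 le_rfl hY2
    (by rw [← hb]; exact le_max_right _ _) v hv (le_max_left _ _)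
  unfold tP gv
  rw [← hYb, ← hb]
  linarith

/-- `tCP` -/
theorem s_tCP (R : ExpRules (7 / 8 + d) r s) (hd : 0 ≤ d) (hd1 : d ≤ 1 / 8) {y₁ y₂ y₃ m a v : ℝ}
    (h1 : 0 ≤ y₁) (h2 : 0 ≤ y₂) (h3 : 0 ≤ y₃) (hm : 0 ≤ m) (ha : 0 ≤ a) (hv : 0 ≤ v) :
    s v {y₁, y₂, y₃} m a ≤ tCP d v y₁ y₂ y₃ (m + a) := by
  have e1 := s_cau3 R h1 h2 h3 hm ha hv
  -- the pair with the granular mass, with a piece of length `0`
  obtain ⟨b, hb⟩ : ∃ b, b = y₁ + y₂ + (m + a) + (3 / 2 + 72 / 5 * d) * (m + a) := ⟨_, rfl⟩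
  have hs : ∀ a b : ℝ, ({a, b} : Multiset ℝ).sum = a + b := fun a b => by simp
  obtain ⟨V, hV⟩ : ∃ V, V = max (v + y₃) b := ⟨_, rfl⟩
  have hV1 : v + y₃ ≤ V := by rw [hV]; exact le_max_left _ _
  have hV2 : b ≤ V := by rw [hV]; exact le_max_right _ _
  have hw : 0 ≤ m + a := by linarith
  have hdw : 0 ≤ d * (m + a) := mul_nonneg hd hw
  have e2 := R.poisG V {y₁, y₂} m a (V + (y₁ + y₂ + (m + a))) (by linarith)
    (ok_pair h1 h2 hm ha) (by rw [hs]; linarith) (by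
      intro Y' m' a' i hYs hm0 hm1 ha0 ha1 hi hyi hii
      obtain ⟨a₁, a₂, rfl, q1, q1', q2, q2'⟩ := Sh.pair hYs
      rw [hs] at hii
      rw [hs, hs]
      have hi1 : a₁ ≤ i := hyi a₁ (by simp)
      have hi2 : a₂ ≤ i := hyi a₂ (by simp)
      have p1 : d * (m' + a') ≤ d * (m + a) := mul_le_mul_of_nonneg_left (by linarith) hd
      rcases le_total i (a₁ + a₂) with h | h
      · have e1 := sup_all R hi q1 q2 hm0 ha0 hi1 hi2
        linarith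
      · have e2 := side79a R hd (e := max 0 (max (m' + a' - 7 / 9 * (i - (a₁ + a₂)))
            ((12 * a' + 9 * m' + 4 * (a₁ + a₂) - 8 * i) / 12))) q1 q2 hm0 ha0 h (le_max_left _ _)
          ((le_max_left _ _).trans (le_max_right _ _))
          (by
            have : (12 * a' + 9 * m' + 4 * (a₁ + a₂) - 8 * i) / 12 ≤
              max 0 (max (m' + a' - 7 / 9 * (i - (a₁ + a₂)))
                ((12 * a' + 9 * m' + 4 * (a₁ + a₂) - 8 * i) / 12)) :=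
              (le_max_right _ _).trans (le_max_right _ _)
            linarith) hi le_rfl hi1 hi2
        have e3 : max 0 (max (m' + a' - 7 / 9 * (i - (a₁ + a₂)))
            ((12 * a' + 9 * m' + 4 * (a₁ + a₂) - 8 * i) / 12)) ≤
            4 / 3 * (2 / 3 * (V - (y₁ + y₂ + m + a)) + 2 / 3 * (2 * (y₁ + y₂ + m + a) - V - i)
              - 2 * d * (m + a)) := by
          refine max_le (by linarith) (max_le (by linarith) (by linarith))
        linarith) (by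
      intro Y' m' a' hYs hm0 hm1 ha0 ha1 hk
      obtain ⟨a₁, a₂, rfl, q1, q1', q2, q2'⟩ := Sh.pair hYs
      rw [hs] at hk
      rw [hs, hs]
      have p1 : d * m' ≤ 1 / 8 * m' := mul_le_mul_of_nonneg_right hd1 hm0
      linarith) (v + y₃) (by linarith) hV1
  unfold tCP gv
  rw [← hb, ← hV]
  linarith

/-! ### all closed forms together -/

theorem rot3 (y₁ y₂ y₃ : ℝ) : ({y₂, y₃, y₁} : Multiset ℝ) = {y₁, y₂, y₃} := by
  rw [← cons_pair y₂ y₃ y₁]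
  rfl

/-- Cauchy + TF, best choice of the third lump -/
def tCT3 (v y₁ y₂ y₃ w : ℝ) : ℝ :=
  min (tCT v y₁ y₂ y₃ w) (min (tCT v y₂ y₃ y₁ w) (tCT v y₃ y₁ y₂ w))

/-- Cauchy + P', best choice of the third lump -/
def tCP3 (d v y₁ y₂ y₃ w : ℝ) : ℝ :=
  min (tCP d v y₁ y₂ y₃ w) (min (tCP d v y₂ y₃ y₁ w) (tCP d v y₃ y₁ y₂ w))

/-- P', best choice of the third lump -/
def tP3 (d v y₁ y₂ y₃ w : ℝ) : ℝ :=
  min (tP d v y₁ y₂ y₃ w) (min (tP d v y₂ y₃ y₁ w) (tP d v y₃ y₁ y₂ w))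

/-- **the T-moment of `{y₁,y₂,y₃ | w}` at the level `v`** -/
def tAll (d v y₁ y₂ y₃ w : ℝ) : ℝ :=
  min (min (tHB v (y₁ + y₂ + y₃ + w)) (tCT3 v y₁ y₂ y₃ w))
    (min (tCP3 d v y₁ y₂ y₃ w) (tP3 d v y₁ y₂ y₃ w))

theorem s_tAll (R : ExpRules (7 / 8 + d) r s) (hd : 0 ≤ d) (hd1 : d ≤ 1 / 8)
    {y₁ y₂ y₃ m a v : ℝ} (h1 : 0 ≤ y₁) (h2 : 0 ≤ y₂) (h3 : 0 ≤ y₃) (hm : 0 ≤ m) (ha : 0 ≤ a)
    (hv : 0 ≤ v) : s v {y₁, y₂, y₃} m a ≤ tAll d v y₁ y₂ y₃ (m + a) := by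
  have e1 := rot3 y₁ y₂ y₃
  have e2 : ({y₃, y₁, y₂} : Multiset ℝ) = {y₁, y₂, y₃} := by rw [rot3 y₃ y₁ y₂ |>.symm]
  refine le_min (le_min (s_tHB R h1 h2 h3 hm ha hv) (le_min (s_tCT R h1 h2 h3 hm ha hv)
    (le_min ?_ ?_))) (le_min (le_min (s_tCP R hd hd1 h1 h2 h3 hm ha hv) (le_min ?_ ?_))
    (le_min (s_tP R hd hd1 h1 h2 h3 hm ha hv) (le_min ?_ ?_)))
  · have := s_tCT R h2 h3 h1 hm ha hv; rwa [e1] at this
  · have := s_tCT R h3 h1 h2 hm ha hv; rwa [e2] at this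
  · have := s_tCP R hd hd1 h2 h3 h1 hm ha hv; rwa [e1] at this
  · have := s_tCP R hd hd1 h3 h1 h2 hm ha hv; rwa [e2] at this
  · have := s_tP R hd hd1 h2 h3 h1 hm ha hv; rwa [e1] at this
  · have := s_tP R hd hd1 h3 h1 h2 hm ha hv; rwa [e2] at this

theorem tAll_le_HB (d v y₁ y₂ y₃ w : ℝ) : tAll d v y₁ y₂ y₃ w ≤ tHB v (y₁ + y₂ + y₃ + w) :=
  (min_le_left _ _).trans (min_le_left _ _)

theorem tAll_le_CT3 (d v y₁ y₂ y₃ w : ℝ) : tAll d v y₁ y₂ y₃ w ≤ tCT3 v y₁ y₂ y₃ w :=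
  (min_le_left _ _).trans (min_le_right _ _)

theorem tAll_le_CP3 (d v y₁ y₂ y₃ w : ℝ) : tAll d v y₁ y₂ y₃ w ≤ tCP3 d v y₁ y₂ y₃ w :=
  (min_le_right _ _).trans (min_le_left _ _)

theorem tAll_le_P3 (d v y₁ y₂ y₃ w : ℝ) : tAll d v y₁ y₂ y₃ w ≤ tP3 d v y₁ y₂ y₃ w :=
  (min_le_right _ _).trans (min_le_right _ _)

theorem gv_mono {v v' b n : ℝ} (h : v' ≤ v) : gv v' b n ≤ gv v b n - (v - v') / 3 := by
  rw [gv_eq, gv_eq]
  refine max_le ?_ ?_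
  · have := le_max_left (v + n) (n + (2 * b + v) / 3)
    linarith
  · have := le_max_right (v + n) (n + (2 * b + v) / 3)
    linarith

/-- the level may be lowered with slope `1/3` -/
theorem tAll_mono {d v v' y₁ y₂ y₃ w : ℝ} (h : v' ≤ v) :
    tAll d v' y₁ y₂ y₃ w ≤ tAll d v y₁ y₂ y₃ w - (v - v') / 3 := by
  have c : ∀ a b : ℝ, min a b - (v - v') / 3 = min (a - (v - v') / 3) (b - (v - v') / 3) :=
    fun a b => (min_sub_sub_right a b _).symm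
  have hHB : ∀ n : ℝ, tHB v' n ≤ tHB v n - (v - v') / 3 := by
    intro n
    unfold tHB
    have m1 := le_max_left (v + n) (max (2 * n + v / 3) (n + 2 / 3 * (v + n)))
    have m2 := (le_max_left (2 * n + v / 3) (n + 2 / 3 * (v + n))).trans
      (le_max_right (v + n) _)
    have m3 := (le_max_right (2 * n + v / 3) (n + 2 / 3 * (v + n))).trans
      (le_max_right (v + n) _)
    exact max_le (by linarith) (max_le (by linarith) (by linarith))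
  have hCT : ∀ y₁ y₂ y₃ : ℝ, tCT v' y₁ y₂ y₃ w ≤ tCT v y₁ y₂ y₃ w - (v - v') / 3 := by
    intro y₁ y₂ y₃
    unfold tCT
    have := gv_mono (v := v + (y₃ + w)) (v' := v' + (y₃ + w)) (b := y₁ + y₂) (n := y₁ + y₂)
      (by linarith)
    linarith
  have hCP : ∀ y₁ y₂ y₃ : ℝ, tCP d v' y₁ y₂ y₃ w ≤ tCP d v y₁ y₂ y₃ w - (v - v') / 3 := by
    intro y₁ y₂ y₃
    unfold tCP
    have := gv_mono (v := v + y₃) (v' := v' + y₃)
      (b := y₁ + y₂ + w + (3 / 2 + 72 / 5 * d) * w) (n := y₁ + y₂ + w) (by linarith)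
    linarith
  have hP : ∀ y₁ y₂ y₃ : ℝ, tP d v' y₁ y₂ y₃ w ≤ tP d v y₁ y₂ y₃ w - (v - v') / 3 := by
    intro y₁ y₂ y₃
    unfold tP
    exact gv_mono h
  unfold tAll tCT3 tCP3 tP3
  simp only [c]
  exact min_le_min (min_le_min (hHB _) (min_le_min (hCT _ _ _) (min_le_min (hCT _ _ _)
    (hCT _ _ _)))) (min_le_min (min_le_min (hCP _ _ _) (min_le_min (hCP _ _ _) (hCP _ _ _)))
    (min_le_min (hP _ _ _) (min_le_min (hP _ _ _) (hP _ _ _))))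

end Crest.Agent.R017.TM708
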