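import Crest.Agent.R017.TMn_968
import Crest.Agent.R017.TEN_792

/-!
# Row 17, R8 (helper968): the Gram sum by the large sieve from helper792's interface `VN`

* `tve` : the weighted second moment of `TE`, summed over the ball of the `e`
* `gramV` : 842's `gram_hb` at `T = TE α`, one real line
-/

set_option autoImplicit false

noncomputable section

open Finset
open scoped ComplexConjugate Classical

namespace Crest.Agent.R017.TMv968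

open Crest.Agent.R012 Crest.Agent.R012.Eis
open Crest.Agent.R012.LS2 (S mem_S)
open Crest.Agent.R017.CM106 (CS FS)
open Crest.Agent.R017.C70
open Crest.Agent.R017.E1551 (Adm)
open Crest.Agent.R017.E2440 (TE StE)
open Crest.Agent.R017.E3A164 (SteT)
open Crest.Agent.R017.TEM792 (VN tsdV sum_inv_pb big)
open Crest.Agent.R017.GHB842 (Qd Qd_nonneg gram_hb)
open Crest.Agent.R017.TM968 (qd SteT_TE)

lemma nm1 {z : Eis} (h : z ≠ 0) : (1 : ℝ) ≤ nm z := by exact_mod_cast nm_pos.mpr h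

/-- `X ^ (log a / log X) = a` -/
lemma rpow_log_div {X a : ℝ} (hX : 1 < X) (ha : 0 < a) : X ^ (Real.log a / Real.log X) = a := by
  have hX0 : 0 < X := by linarith
  have hL : Real.log X ≠ 0 := (Real.log_pos hX).ne'
  rw [Real.rpow_def_of_pos hX0, mul_div_cancel₀ _ hL, Real.exp_log ha]

/-- **the second moment summed over the ball of the `e`** -/
theorem tve (R : ℝ) (hR : 0 ≤ R) {ε : ℝ} (hε : 0 < ε) (K : ℝ) (hK : 1 ≤ K) (M : ℕ) :
    ∃ X₀ : ℝ, 1 < X₀ ∧ ∀ X : ℝ, X₀ ≤ X → ∀ H : ℝ, 1 ≤ H → ∀ (Yw Xw : ℝ), 0 ≤ Yw → 0 < Xw →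
      ∀ α : Eis → ℂ, Adm Yw Xw R α → ∀ F : ℝ → ℝ → ℝ, VN X H M (2 * K) α F →
      ∀ V₀ V₁ : ℝ, 0 < V₀ → 1 ≤ V₁ → V₁ ≤ X ^ K →
      ∀ Js : Finset (Eis × Eis), OKJ Js → ∀ om : Eis × Eis → ℂ,
      (∀ y ∈ Js, om y ≠ 0 → V₀ ≤ (nm (y.2 * y.1 ^ 2) : ℝ) ∧ (nm (y.2 * y.1 ^ 2) : ℝ) ≤ V₁) →
      (∀ y ∈ Js, ‖om y‖ ≤ 1) → ∀ E0 : ℝ, 1 ≤ E0 → E0 ≤ X ^ K →
      ∀ a E : ℝ, (∀ x b : ℝ, 0 ≤ x → 2 * x ≤ Real.log V₁ / Real.log X → 0 ≤ b →
        b ≤ Real.log E0 / Real.log X →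
        F (Real.log V₁ / Real.log X + b - 2 * x) (b + x) + (2 + a) * x + b ≤ E) →
      ∑ y ∈ Js, (nm y.1 : ℝ) ^ a * ((nm y.2 : ℝ) ^ (-(1 : ℝ) / 3) *
        (‖om y‖ ^ 2 * ∑ e ∈ S E0, ‖TE α y e‖ ^ 2)) ≤
        H ^ M * X ^ (E + ε) * (Xw * V₀) ^ (-(1 / 3) : ℝ) := by
  obtain ⟨X₁, hX₁, H₁⟩ := tsdV R hR (ε := ε / 2) (by positivity) K hK M
  obtain ⟨X₂, hX₂, H₂⟩ := big 200 (ε / 2) K (by positivity) (by norm_num) (by linarith)
  refine ⟨max X₁ X₂, lt_max_of_lt_left hX₁, ?_⟩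
  intro X hX H hH Yw Xw hYw hXw α hα F hV V₀ V₁ hV₀ hV₁ hV₁K Js hJs om hom homB E0 hE0 hE0K a E
    hF
  have hXX₁ : X₁ ≤ X := (le_max_left _ _).trans hX
  have hX1 : 1 < X := lt_of_lt_of_le hX₁ hXX₁
  have hX0 : 0 < X := by linarith
  have hL0 : 0 < Real.log X := Real.log_pos hX1
  have hE00 : 0 ≤ E0 := by linarith
  have hXV : 0 < (Xw * V₀) ^ (-(1 / 3) : ℝ) := Real.rpow_pos_of_pos (by positivity) _
  have hHM : 0 < H ^ M := by positivity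
  have e13 : (-(1 : ℝ) / 3) = (-(1 / 3) : ℝ) := by ring
  -- one `e`
  have one : ∀ e ∈ S E0, ∑ y ∈ Js, (nm y.1 : ℝ) ^ a * ((nm y.2 : ℝ) ^ (-(1 / 3) : ℝ) *
      (‖om y‖ ^ 2 * ‖TE α y e‖ ^ 2)) ≤
      H ^ M * X ^ (E + ε / 2) * (Xw * V₀) ^ (-(1 / 3) : ℝ) * (1 / (nm e : ℝ)) := by
    intro e he
    obtain ⟨h1, h2, h3⟩ := (mem_S hE00).1 he
    have hn1 := nm1 h2.ne_zero
    have hn0 : (0 : ℝ) < nm e := by linarith
    have h4 := H₁ X hXX₁ H hH Yw Xw hYw hXw α hα F hV V₀ V₁ 1 hV₀ hV₁ hV₁K zero_le_one Js hJs om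
      hom homB e 1 h2 isPrim_one (h1.trans hE0K) a (E - Real.log (nm e) / Real.log X)
      (fun x hx1 hx2 => by
        have h5 : 0 ≤ x := by
          refine le_trans (le_of_eq ?_) hx1
          rw [nm_one, Nat.cast_one, Real.log_one, zero_div]
        have h6 := hF x (Real.log (nm e) / Real.log X) h5 hx2
          (div_nonneg (Real.log_nonneg hn1) hL0.le)
          (div_le_div_of_nonneg_right (Real.log_le_log hn0 h1) hL0.le)
        linarith)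
    rw [Finset.filter_true_of_mem fun y _ => one_dvd y.1] at h4
    refine h4.trans (le_of_eq ?_)
    have h7 : X ^ (E - Real.log (nm e) / Real.log X + ε / 2) =
        X ^ (E + ε / 2) * (1 / (nm e : ℝ)) := by
      have h8 : E - Real.log (nm e) / Real.log X + ε / 2 =
          (E + ε / 2) - Real.log (nm e) / Real.log X := by ring
      rw [h8, Real.rpow_sub hX0, rpow_log_div hX1 hn0, one_div, div_eq_mul_inv]
    rw [h7, nm_one, Nat.cast_one]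
    ring
  have hsum : ∑ e ∈ S E0, 1 / (nm e : ℝ) ≤ X ^ (ε / 2) := by
    have hsub : S E0 ⊆ primBall ⌊E0⌋₊ := by
      intro e he
      obtain ⟨h1, h2, h3⟩ := (mem_S hE00).1 he
      exact mem_primBall.2 ⟨Nat.le_floor h1, h2⟩
    refine (Finset.sum_le_sum_of_subset_of_nonneg hsub fun _ _ _ => by positivity).trans ?_
    refine (sum_inv_pb hE00).trans ?_
    refine le_trans ?_ (H₂ X ((le_max_right _ _).trans hX))
    have h1 : Real.log (1 + E0) ≤ 1 + K * Real.log X := by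
      have h2 : Real.log (1 + E0) ≤ Real.log (2 * E0) := Real.log_le_log (by linarith) (by linarith)
      have h3 : Real.log (2 * E0) = Real.log 2 + Real.log E0 :=
        Real.log_mul (by norm_num) (by linarith)
      have h4 : Real.log E0 ≤ K * Real.log X := by
        rw [← Real.log_rpow hX0]
        exact Real.log_le_log (by linarith) hE0K
      have h5 := Real.log_two_lt_d9
      linarith
    have h2 : 0 ≤ K * Real.log X := by positivity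
    linarith
  calc ∑ y ∈ Js, (nm y.1 : ℝ) ^ a * ((nm y.2 : ℝ) ^ (-(1 : ℝ) / 3) *
        (‖om y‖ ^ 2 * ∑ e ∈ S E0, ‖TE α y e‖ ^ 2))
      = ∑ e ∈ S E0, ∑ y ∈ Js, (nm y.1 : ℝ) ^ a * ((nm y.2 : ℝ) ^ (-(1 / 3) : ℝ) *
        (‖om y‖ ^ 2 * ‖TE α y e‖ ^ 2)) := by
        rw [Finset.sum_comm]
        refine Finset.sum_congr rfl fun y _ => ?_
        rw [e13, Finset.mul_sum, Finset.mul_sum, Finset.mul_sum]
    _ ≤ ∑ e ∈ S E0, H ^ M * X ^ (E + ε / 2) * (Xw * V₀) ^ (-(1 / 3) : ℝ) * (1 / (nm e : ℝ)) :=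
        Finset.sum_le_sum one
    _ = H ^ M * X ^ (E + ε / 2) * (Xw * V₀) ^ (-(1 / 3) : ℝ) * ∑ e ∈ S E0, 1 / (nm e : ℝ) := by
        rw [Finset.mul_sum]
    _ ≤ H ^ M * X ^ (E + ε / 2) * (Xw * V₀) ^ (-(1 / 3) : ℝ) * X ^ (ε / 2) :=
        mul_le_mul_of_nonneg_left hsum (by positivity)
    _ = _ := by
        have h1 : X ^ (E + ε) = X ^ (E + ε / 2) * X ^ (ε / 2) := by
          rw [← Real.rpow_add hX0]; congr 1; ring
        rw [h1]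
        ring

/-- `d Q(d)` as three powers -/
lemma dQd {K V B d : ℝ} (hK : 0 ≤ K) (hV : 0 ≤ V) (hB : 0 ≤ B) (hd : 0 < d) :
    d * Qd K V B d = K * d ^ (1 : ℝ) + V * B * d ^ (-1 : ℝ) +
      (K * (V * B)) ^ ((2 : ℝ) / 3) * d ^ (-(1 / 3) : ℝ) := by
  unfold GHB842.Qd
  have h1 : (K * (V * B / d ^ 2)) ^ ((2 : ℝ) / 3) =
      (K * (V * B)) ^ ((2 : ℝ) / 3) * d ^ (-(4 / 3) : ℝ) := by
    rw [← mul_div_assoc, Real.div_rpow (by positivity) (by positivity), ← Real.rpow_natCast d 2,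
      ← Real.rpow_mul hd.le, div_eq_mul_inv, ← Real.rpow_neg hd.le]
    norm_num
  have h2 : d * d ^ (-(4 / 3) : ℝ) = d ^ (-(1 / 3) : ℝ) := by
    conv_lhs => rw [← Real.rpow_one d]
    rw [← Real.rpow_mul hd.le, ← Real.rpow_add hd]
    norm_num
  have h3 : d * (V * B / d ^ 2) = V * B * d ^ (-1 : ℝ) := by
    rw [Real.rpow_neg_one]
    field_simp
  rw [h1, Real.rpow_one]
  calc d * (K + V * B / d ^ 2 + (K * (V * B)) ^ ((2 : ℝ) / 3) * d ^ (-(4 / 3) : ℝ))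
      = K * d + d * (V * B / d ^ 2) +
        (K * (V * B)) ^ ((2 : ℝ) / 3) * (d * d ^ (-(4 / 3) : ℝ)) := by ring
    _ = _ := by rw [h2, h3]

set_option maxHeartbeats 1000000 in
/-- **the Gram sum by the large sieve at `T = TE α`, one real line** -/
theorem gramV (R : ℝ) (hR : 0 ≤ R) {ε : ℝ} (hε : 0 < ε) (K : ℝ) (hK : 1 ≤ K) (M : ℕ) {c₀ : ℝ}
    (hc₀ : 1 ≤ c₀) :
    ∃ X₀ : ℝ, 1 < X₀ ∧ ∀ X : ℝ, X₀ ≤ X → ∀ H : ℝ, 1 ≤ H → ∀ (Yw Xw : ℝ), 0 ≤ Yw → 0 < Xw →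
      ∀ α : Eis → ℂ, Adm Yw Xw R α → ∀ F : ℝ → ℝ → ℝ, VN X H M (2 * K) α F →
      ∀ (Kk V B Mb E0 : ℝ), 1 ≤ Kk → Kk ≤ X ^ K → 1 ≤ V → V ≤ X ^ K → 1 ≤ B → B ≤ X ^ K →
      0 ≤ Mb → 1 ≤ E0 → E0 ≤ X ^ K →
      ∀ (J : Finset (Eis × Eis)) (om : Eis × Eis → ℂ), OKJ J →
      (∀ x ∈ J, (nm (x.2 * x.1 ^ 2) : ℝ) ≤ V) →
      (∀ x ∈ J, om x ≠ 0 → V ≤ c₀ * nm (x.2 * x.1 ^ 2)) → (∀ x, ‖om x‖ ≤ 1) →
      ∀ (t : Eis) (b : Eis → ℂ), IsPrim t → (nm t : ℝ) ≤ X ^ K →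
      (∀ n, b n ≠ 0 → n ∈ primBall ⌊B⌋₊) →
      (∀ s, IsPrim s → ∑ d ∈ primBall ⌊B⌋₊, ‖b (s * d)‖ ^ 2 ≤ Mb / nm s) →
      ∀ E : ℝ, (∀ x b : ℝ, 0 ≤ x → 2 * x ≤ Real.log V / Real.log X → 0 ≤ b →
        b ≤ Real.log E0 / Real.log X →
        F (Real.log V / Real.log X + b - 2 * x) (b + x) + 3 * x + b +
          qd (Real.log Kk / Real.log X) (Real.log V / Real.log X) (Real.log B / Real.log X) x ≤
          E) →
      ∑ k ∈ (primBall ⌊Kk⌋₊).filter CbF, (nm k : ℝ) ^ ((1 : ℝ) / 3) *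
        (‖StE E0 J om α (k * t ^ 3)‖ ^ 2 * ‖CS b (k * t ^ 3)‖ ^ 2) ≤
        H ^ M * X ^ (E + ε) * (Mb * (Xw * V) ^ (-(1 / 3) : ℝ)) := by
  obtain ⟨X₁, hX₁, H₁⟩ := tve R hR (ε := ε / 3) (by positivity) K hK M
  obtain ⟨C₂, hC₂, H₂⟩ := gram_hb (ε := ε / (3 * K)) (by positivity)
  have hc0 : 0 < c₀ := by linarith
  obtain ⟨X₃, hX₃, H₃⟩ := big (3 * C₂ * c₀ ^ ((1 : ℝ) / 3)) (ε / 3) 0 (by positivity) (by positivity)
    le_rfl
  refine ⟨max X₁ X₃, lt_max_of_lt_left hX₁, ?_⟩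
  intro X hX H hH Yw Xw hYw hXw α hα F hV Kk V B Mb E0 hKk hKkX hV1 hVX hB hBX hMb hE0 hE0X J om hJ
    hJV hJl hom t b ht htX hb hMb' E hF
  have hXX₁ : X₁ ≤ X := (le_max_left _ _).trans hX
  have hX1 : 1 < X := lt_of_lt_of_le hX₁ hXX₁
  have hX0 : 0 < X := by linarith
  have hL0 : 0 < Real.log X := Real.log_pos hX1
  have hV0 : 0 < V := by linarith
  have hKk0 : 0 < Kk := by linarith
  have hB0 : 0 < B := by linarith
  have h1 := H₂ (X ^ K) Kk V B Mb hKk hV1 hB hKkX hVX hBX hMb J om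
    (fun d e j => TE α (d, j) e) E0 t b hJ
    (fun x hx => by
      have h2 := hJV x hx
      rw [nm_mul, nm_pow] at h2
      push_cast at h2
      exact h2) ht htX hb hMb'
  simp only [SteT_TE] at h1
  refine h1.trans ?_
  have hwin : ∀ y ∈ J, om y ≠ 0 → V / c₀ ≤ (nm (y.2 * y.1 ^ 2) : ℝ) ∧
      (nm (y.2 * y.1 ^ 2) : ℝ) ≤ V := by
    intro y hy h0
    refine ⟨?_, hJV y hy⟩
    rw [div_le_iff₀ hc0, mul_comm]
    exact hJl y hy h0
  set κ := Real.log Kk / Real.log X with hκ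
  set v := Real.log V / Real.log X with hv
  set β := Real.log B / Real.log X with hβ
  have cK : X ^ κ = Kk := rpow_log_div hX1 hKk0
  have cV : X ^ v = V := rpow_log_div hX1 hV0
  have cB : X ^ β = B := rpow_log_div hX1 hB0
  have g := fun (a E' : ℝ) => H₁ X hXX₁ H hH Yw Xw hYw hXw α hα F hV (V / c₀) V
    (by positivity) hV1 hVX J hJ om hwin (fun y _ => hom y) E0 hE0 hE0X a E'
  have g1 := g 1 (E - κ) (fun x b hx hx' hb0 hb1 => by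
    have h5 := hF x b hx hx' hb0 hb1
    have h6 : κ ≤ qd κ v β x := le_max_left _ _
    linarith)
  have g2 := g (-1) (E - (v + β)) (fun x b hx hx' hb0 hb1 => by
    have h5 := hF x b hx hx' hb0 hb1
    have h6 : v + β - 2 * x ≤ qd κ v β x := (le_max_left _ _).trans (le_max_right _ _)
    linarith)
  have g3 := g (-(1 / 3)) (E - 2 / 3 * (κ + (v + β))) (fun x b hx hx' hb0 hb1 => by
    have h5 := hF x b hx hx' hb0 hb1
    have h6 : 2 / 3 * (κ + (v + β - 2 * x)) ≤ qd κ v β x :=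
      (le_max_right _ _).trans (le_max_right _ _)
    linarith)
  set Sa : ℝ → ℝ := fun a => ∑ y ∈ J, (nm y.1 : ℝ) ^ a * ((nm y.2 : ℝ) ^ (-(1 : ℝ) / 3) *
    (‖om y‖ ^ 2 * ∑ e ∈ S E0, ‖TE α y e‖ ^ 2)) with hSa
  have g1' : Sa 1 ≤ _ := g1
  have g2' : Sa (-1) ≤ _ := g2
  have g3' : Sa (-(1 / 3)) ≤ _ := g3
  set G := (Xw * (V / c₀)) ^ (-(1 / 3) : ℝ) with hG
  have hG0 : 0 ≤ G := Real.rpow_nonneg (by positivity) _
  have hHM : 0 < H ^ M := by positivity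
  have hsp : ∑ x ∈ J, (nm x.1 : ℝ) * Qd Kk V B (nm x.1) *
      ((nm x.2 : ℝ) ^ (-(1 : ℝ) / 3) * (‖om x‖ ^ 2 * ∑ e ∈ S E0, ‖TE α (x.1, x.2) e‖ ^ 2)) =
      Kk * Sa 1 + V * B * Sa (-1) + (Kk * (V * B)) ^ ((2 : ℝ) / 3) * Sa (-(1 / 3)) := by
    rw [hSa]
    simp only
    rw [Finset.mul_sum, Finset.mul_sum, Finset.mul_sum, ← Finset.sum_add_distrib,
      ← Finset.sum_add_distrib]
    refine Finset.sum_congr rfl fun x hx => ?_
    have hx0 : (0 : ℝ) < nm x.1 := by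
      have := nm1 (hJ.prim x hx).ne_zero
      linarith
    rw [dQd hKk0.le hV0.le hB0.le hx0]
    ring
  have e1 : Kk * (H ^ M * X ^ (E - κ + ε / 3) * G) = H ^ M * X ^ (E + ε / 3) * G := by
    have h5 : X ^ (E + ε / 3) = X ^ κ * X ^ (E - κ + ε / 3) := by
      rw [← Real.rpow_add hX0]; congr 1; ring
    rw [h5, cK]
    ring
  have e2 : V * B * (H ^ M * X ^ (E - (v + β) + ε / 3) * G) = H ^ M * X ^ (E + ε / 3) * G := by
    have h5 : X ^ (E + ε / 3) = X ^ v * X ^ β * X ^ (E - (v + β) + ε / 3) := by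
      rw [← Real.rpow_add hX0, ← Real.rpow_add hX0]; congr 1; ring
    rw [h5, cV, cB]
    ring
  have e3 : (Kk * (V * B)) ^ ((2 : ℝ) / 3) *
      (H ^ M * X ^ (E - 2 / 3 * (κ + (v + β)) + ε / 3) * G) = H ^ M * X ^ (E + ε / 3) * G := by
    have h6 : (Kk * (V * B)) ^ ((2 : ℝ) / 3) = X ^ (2 / 3 * (κ + (v + β))) := by
      rw [← cK, ← cV, ← cB, ← Real.rpow_add hX0, ← Real.rpow_add hX0, ← Real.rpow_mul hX0.le]
      congr 1
      ring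
    have h5 : X ^ (E + ε / 3) = X ^ (2 / 3 * (κ + (v + β))) *
        X ^ (E - 2 / 3 * (κ + (v + β)) + ε / 3) := by
      rw [← Real.rpow_add hX0]; congr 1; ring
    rw [h5, h6]
    ring
  have hsum : ∑ x ∈ J, (nm x.1 : ℝ) * Qd Kk V B (nm x.1) *
      ((nm x.2 : ℝ) ^ (-(1 : ℝ) / 3) * (‖om x‖ ^ 2 * ∑ e ∈ S E0, ‖TE α (x.1, x.2) e‖ ^ 2)) ≤
      3 * (H ^ M * X ^ (E + ε / 3) * G) := by
    rw [hsp]
    have k1 := mul_le_mul_of_nonneg_left g1' hKk0.le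
    have k2 := mul_le_mul_of_nonneg_left g2' (mul_pos hV0 hB0).le
    have k3 := mul_le_mul_of_nonneg_left g3'
      (Real.rpow_nonneg (mul_pos hKk0 (mul_pos hV0 hB0)).le ((2 : ℝ) / 3))
    rw [e1] at k1
    rw [e2] at k2
    rw [e3] at k3
    linarith
  have hXe : (X ^ K) ^ (ε / (3 * K)) = X ^ (ε / 3) := by
    rw [← Real.rpow_mul hX0.le]
    congr 1
    rw [mul_div_assoc', mul_comm K ε, mul_comm (3 : ℝ) K, ← div_div,
      mul_div_cancel_right₀ _ (by linarith : K ≠ 0)]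
  have hG' : G = c₀ ^ ((1 : ℝ) / 3) * (Xw * V) ^ (-(1 / 3) : ℝ) := by
    rw [hG, ← mul_div_assoc, Real.div_rpow (by positivity) hc0.le, Real.rpow_neg hc0.le, div_inv_eq_mul]
    norm_num
    ring
  have h3 := H₃ X ((le_max_right _ _).trans hX)
  rw [zero_mul, add_zero, mul_one] at h3
  have hXV0 : 0 ≤ (Xw * V) ^ (-(1 / 3) : ℝ) := Real.rpow_nonneg (by positivity) _
  rw [hXe]
  calc C₂ * X ^ (ε / 3) * (Mb * ∑ x ∈ J, (nm x.1 : ℝ) * Qd Kk V B (nm x.1) *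
        ((nm x.2 : ℝ) ^ (-(1 : ℝ) / 3) * (‖om x‖ ^ 2 * ∑ e ∈ S E0, ‖TE α (x.1, x.2) e‖ ^ 2)))
      ≤ C₂ * X ^ (ε / 3) * (Mb * (3 * (H ^ M * X ^ (E + ε / 3) * G))) := by
        refine mul_le_mul_of_nonneg_left ?_ (by positivity)
        exact mul_le_mul_of_nonneg_left hsum hMb
    _ = (3 * C₂ * c₀ ^ ((1 : ℝ) / 3)) * (X ^ (ε / 3) * X ^ (E + ε / 3)) * (H ^ M * (Mb *
        (Xw * V) ^ (-(1 / 3) : ℝ))) := by
        rw [hG']
        ring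
    _ ≤ X ^ (ε / 3) * (X ^ (ε / 3) * X ^ (E + ε / 3)) * (H ^ M * (Mb *
        (Xw * V) ^ (-(1 / 3) : ℝ))) := by
        refine mul_le_mul_of_nonneg_right ?_ (by positivity)
        exact mul_le_mul_of_nonneg_right h3 (by positivity)
    _ = _ := by
        have h5 : X ^ (ε / 3) * (X ^ (ε / 3) * X ^ (E + ε / 3)) = X ^ (E + ε) := by
          rw [← Real.rpow_add hX0, ← Real.rpow_add hX0]; congr 1; ring
        rw [h5]
        ring

end Crest.Agent.R017.TMv968
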