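import Crest.Agent.R017.TMv_968
import Crest.Agent.R017.GH4b_90

/-!
# Row 17, R8 (helper968): the fourth moment of the structured function from `VN`

* `Gram4` : the text of helper90's `gram4` (large sieve, fourth moment, abstract `T`)
* `gram4V` : `gram4` at `T = TE α`, any `α` with helper792's `VN`, one real line
-/

set_option autoImplicit false

noncomputable section

open Finset
open scoped ComplexConjugate Classical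

namespace Crest.Agent.R017.TMw968

open Crest.Agent.R012 Crest.Agent.R012.Eis
open Crest.Agent.R012.LS2 (S mem_S)
open Crest.Agent.R017.CM106 (CS FS)
open Crest.Agent.R017.C70
open Crest.Agent.R017.E1551 (Adm)
open Crest.Agent.R017.E2440 (TE StE)
open Crest.Agent.R017.E3A164 (SteT)
open Crest.Agent.R017.TEM792 (VN tsdV sum_inv_pb big)
open Crest.Agent.R017.TM968 (qd SteT_TE)
open Crest.Agent.R017.TMv968 (nm1 rpow_log_div tve)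

/-- `K W^{2/3} + W² + (K W²)^{2/3}` -/
def Q4 (K W : ℝ) : ℝ := K * W ^ ((2 : ℝ) / 3) + W ^ 2 + (K * W ^ 2) ^ ((2 : ℝ) / 3)

/-- the text of `gram4` -/
def Gram4 : Prop := ∀ ε : ℝ, 0 < ε → ∃ C : ℝ, 0 < C ∧ ∀ X K V : ℝ,
    1 ≤ K → 1 ≤ V → K ≤ X → V ≤ X →
    ∀ (J : Finset (Eis × Eis)) (om : Eis × Eis → ℂ) (T : Eis → Eis → Eis → ℂ) (E0 : ℝ) (t : Eis),
      OKJ J → (∀ x ∈ J, (nm x.2 : ℝ) * (nm x.1 : ℝ) ^ 2 ≤ V) → IsPrim t → (nm t : ℝ) ≤ X →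
    ∑ k ∈ (primBall ⌊K⌋₊).filter CbF, (nm k : ℝ) ^ ((2 : ℝ) / 3) *
      ‖SteT J om E0 T (k * t ^ 3)‖ ^ 4 ≤
      C * X ^ ε * (∑ x ∈ J, (nm x.1 : ℝ) * (Q4 K (V / (nm x.1 : ℝ) ^ 2)) ^ ((1 : ℝ) / 2) *
        ((nm x.2 : ℝ) ^ (-(1 : ℝ) / 3) * (‖om x‖ ^ 2 * ∑ e ∈ S E0, ‖T x.1 e x.2‖ ^ 2))) ^ 2

/-- the exponent of the fourth moment (half of it) -/
def q4 (k v x : ℝ) : ℝ := max (k / 2 + (v - 2 * x) / 3) (max (v - 2 * x) ((k + 2 * (v - 2 * x)) / 3))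

lemma half_add {a b c : ℝ} (ha : 0 ≤ a) (hb : 0 ≤ b) (hc : 0 ≤ c) :
    (a + b + c) ^ ((1 : ℝ) / 2) ≤ a ^ ((1 : ℝ) / 2) + b ^ ((1 : ℝ) / 2) + c ^ ((1 : ℝ) / 2) := by
  have h1 : ∀ x y : ℝ, 0 ≤ x → 0 ≤ y →
      (x + y) ^ ((1 : ℝ) / 2) ≤ x ^ ((1 : ℝ) / 2) + y ^ ((1 : ℝ) / 2) := by
    intro x y hx hy
    rw [← Real.sqrt_eq_rpow, ← Real.sqrt_eq_rpow, ← Real.sqrt_eq_rpow]
    rw [Real.sqrt_le_left (by positivity)]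
    have e1 := Real.sq_sqrt hx
    have e2 := Real.sq_sqrt hy
    have e3 : 0 ≤ Real.sqrt x * Real.sqrt y := by positivity
    nlinarith
  have h2 := h1 (a + b) c (by positivity) hc
  have h3 := h1 a b ha hb
  linarith

/-- `d Q4(V/d²)^{1/2}` as three powers -/
lemma dQ4 {K V d : ℝ} (hK : 0 ≤ K) (hV : 0 ≤ V) (hd : 0 < d) :
    d * (Q4 K (V / d ^ 2)) ^ ((1 : ℝ) / 2) ≤
      K ^ ((1 : ℝ) / 2) * V ^ ((1 : ℝ) / 3) * d ^ ((1 : ℝ) / 3) + V * d ^ (-1 : ℝ) +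
      K ^ ((1 : ℝ) / 3) * V ^ ((2 : ℝ) / 3) * d ^ (-(1 / 3) : ℝ) := by
  have hW : 0 ≤ V / d ^ 2 := by positivity
  have hW3 : ∀ s : ℝ, (V / d ^ 2) ^ s = V ^ s * d ^ (-(2 * s)) := by
    intro s
    rw [Real.div_rpow hV (by positivity), ← Real.rpow_natCast d 2, ← Real.rpow_mul hd.le,
      div_eq_mul_inv, ← Real.rpow_neg hd.le]
    norm_num
  have e1 : (K * (V / d ^ 2) ^ ((2 : ℝ) / 3)) ^ ((1 : ℝ) / 2) =
      K ^ ((1 : ℝ) / 2) * (V / d ^ 2) ^ ((1 : ℝ) / 3) := by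
    rw [Real.mul_rpow hK (by positivity), ← Real.rpow_mul hW]
    norm_num
  have e2 : ((V / d ^ 2) ^ 2) ^ ((1 : ℝ) / 2) = V / d ^ 2 := by
    rw [← Real.sqrt_eq_rpow, Real.sqrt_sq hW]
  have e3 : ((K * (V / d ^ 2) ^ 2) ^ ((2 : ℝ) / 3)) ^ ((1 : ℝ) / 2) =
      K ^ ((1 : ℝ) / 3) * (V / d ^ 2) ^ ((2 : ℝ) / 3) := by
    rw [← Real.rpow_mul (by positivity), Real.mul_rpow hK (by positivity), ← Real.rpow_natCast,
      ← Real.rpow_mul hW]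
    norm_num
  have h1 := half_add (a := K * (V / d ^ 2) ^ ((2 : ℝ) / 3)) (b := (V / d ^ 2) ^ 2)
    (c := (K * (V / d ^ 2) ^ 2) ^ ((2 : ℝ) / 3)) (by positivity) (by positivity) (by positivity)
  rw [e1, e2, e3] at h1
  unfold Q4
  refine (mul_le_mul_of_nonneg_left h1 hd.le).trans (le_of_eq ?_)
  have f1 : d * d ^ (-(2 * ((1 : ℝ) / 3))) = d ^ ((1 : ℝ) / 3) := by
    conv_lhs => rw [← Real.rpow_one d]
    rw [← Real.rpow_mul hd.le, ← Real.rpow_add hd]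
    norm_num
  have f2 : d * d ^ (-(2 * ((2 : ℝ) / 3))) = d ^ (-(1 / 3) : ℝ) := by
    conv_lhs => rw [← Real.rpow_one d]
    rw [← Real.rpow_mul hd.le, ← Real.rpow_add hd]
    norm_num
  have f3 : d * (V / d ^ 2) = V * d ^ (-1 : ℝ) := by
    rw [Real.rpow_neg_one]
    field_simp
  rw [hW3, hW3]
  calc d * (K ^ ((1 : ℝ) / 2) * (V ^ ((1 : ℝ) / 3) * d ^ (-(2 * ((1 : ℝ) / 3)))) + V / d ^ 2 +
        K ^ ((1 : ℝ) / 3) * (V ^ ((2 : ℝ) / 3) * d ^ (-(2 * ((2 : ℝ) / 3)))))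
      = K ^ ((1 : ℝ) / 2) * V ^ ((1 : ℝ) / 3) * (d * d ^ (-(2 * ((1 : ℝ) / 3)))) +
        d * (V / d ^ 2) + K ^ ((1 : ℝ) / 3) * V ^ ((2 : ℝ) / 3) *
          (d * d ^ (-(2 * ((2 : ℝ) / 3)))) := by ring
    _ = _ := by rw [f1, f2, f3]

set_option maxHeartbeats 1000000 in
/-- **the fourth moment by the large sieve at `T = TE α`, one real line** -/
theorem gram4V_of (G4 : Gram4) (R : ℝ) (hR : 0 ≤ R) {ε : ℝ} (hε : 0 < ε) (K : ℝ) (hK : 1 ≤ K)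
    (M : ℕ) {c₀ : ℝ} (hc₀ : 1 ≤ c₀) :
    ∃ X₀ : ℝ, 1 < X₀ ∧ ∀ X : ℝ, X₀ ≤ X → ∀ H : ℝ, 1 ≤ H → ∀ (Yw Xw : ℝ), 0 ≤ Yw → 0 < Xw →
      ∀ α : Eis → ℂ, Adm Yw Xw R α → ∀ F : ℝ → ℝ → ℝ, VN X H M (2 * K) α F →
      ∀ (Kk V E0 : ℝ), 1 ≤ Kk → Kk ≤ X ^ K → 1 ≤ V → V ≤ X ^ K → 1 ≤ E0 → E0 ≤ X ^ K →
      ∀ (J : Finset (Eis × Eis)) (om : Eis × Eis → ℂ), OKJ J →
      (∀ x ∈ J, (nm (x.2 * x.1 ^ 2) : ℝ) ≤ V) →
      (∀ x ∈ J, om x ≠ 0 → V ≤ c₀ * nm (x.2 * x.1 ^ 2)) → (∀ x, ‖om x‖ ≤ 1) →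
      ∀ t : Eis, IsPrim t → (nm t : ℝ) ≤ X ^ K →
      ∀ E : ℝ, (∀ x b : ℝ, 0 ≤ x → 2 * x ≤ Real.log V / Real.log X → 0 ≤ b →
        b ≤ Real.log E0 / Real.log X →
        F (Real.log V / Real.log X + b - 2 * x) (b + x) + 3 * x + b +
          q4 (Real.log Kk / Real.log X) (Real.log V / Real.log X) x ≤ E) →
      ∑ k ∈ (primBall ⌊Kk⌋₊).filter CbF, (nm k : ℝ) ^ ((2 : ℝ) / 3) *
        ‖StE E0 J om α (k * t ^ 3)‖ ^ 4 ≤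
        (H ^ M * X ^ (E + ε) * (Xw * V) ^ (-(1 / 3) : ℝ)) ^ 2 := by
  obtain ⟨X₁, hX₁, H₁⟩ := tve R hR (ε := ε / 3) (by positivity) K hK M
  obtain ⟨C₂, hC₂, H₂⟩ := G4 (ε / (3 * K)) (by positivity)
  have hc0 : 0 < c₀ := by linarith
  obtain ⟨X₃, hX₃, H₃⟩ := big (C₂ * (3 * c₀ ^ ((1 : ℝ) / 3)) ^ 2) (ε / 3) 0 (by positivity)
    (by positivity) le_rfl
  refine ⟨max X₁ X₃, lt_max_of_lt_left hX₁, ?_⟩
  intro X hX H hH Yw Xw hYw hXw α hα F hV Kk V E0 hKk hKkX hV1 hVX hE0 hE0X J om hJ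
    hJV hJl hom t ht htX E hF
  have hXX₁ : X₁ ≤ X := (le_max_left _ _).trans hX
  have hX1 : 1 < X := lt_of_lt_of_le hX₁ hXX₁
  have hX0 : 0 < X := by linarith
  have hL0 : 0 < Real.log X := Real.log_pos hX1
  have hV0 : 0 < V := by linarith
  have hKk0 : 0 < Kk := by linarith
  have h1 := H₂ (X ^ K) Kk V hKk hV1 hKkX hVX J om (fun d e j => TE α (d, j) e) E0 t hJ
    (fun x hx => by
      have h2 := hJV x hx
      rw [nm_mul, nm_pow] at h2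
      push_cast at h2
      exact h2) ht htX
  simp only [SteT_TE] at h1
  refine h1.trans ?_
  have hwin : ∀ y ∈ J, om y ≠ 0 → V / c₀ ≤ (nm (y.2 * y.1 ^ 2) : ℝ) ∧
      (nm (y.2 * y.1 ^ 2) : ℝ) ≤ V := by
    intro y hy h0
    refine ⟨?_, hJV y hy⟩
    rw [div_le_iff₀ hc0, mul_comm]
    exact hJl y hy h0
  set κ := Real.log Kk / Real.log X with hκ
  set v := Real.log V / Real.log X with hv
  have cK : X ^ κ = Kk := rpow_log_div hX1 hKk0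
  have cV : X ^ v = V := rpow_log_div hX1 hV0
  have g := fun (a E' : ℝ) => H₁ X hXX₁ H hH Yw Xw hYw hXw α hα F hV (V / c₀) V
    (by positivity) hV1 hVX J hJ om hwin (fun y _ => hom y) E0 hE0 hE0X a E'
  have g1 := g (1 / 3) (E - (κ / 2 + v / 3)) (fun x b hx hx' hb0 hb1 => by
    have h5 := hF x b hx hx' hb0 hb1
    have h6 : κ / 2 + (v - 2 * x) / 3 ≤ q4 κ v x := le_max_left _ _
    linarith)
  have g2 := g (-1) (E - v) (fun x b hx hx' hb0 hb1 => by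
    have h5 := hF x b hx hx' hb0 hb1
    have h6 : v - 2 * x ≤ q4 κ v x := (le_max_left _ _).trans (le_max_right _ _)
    linarith)
  have g3 := g (-(1 / 3)) (E - (κ / 3 + 2 / 3 * v)) (fun x b hx hx' hb0 hb1 => by
    have h5 := hF x b hx hx' hb0 hb1
    have h6 : (κ + 2 * (v - 2 * x)) / 3 ≤ q4 κ v x := (le_max_right _ _).trans (le_max_right _ _)
    linarith)
  set Sa : ℝ → ℝ := fun a => ∑ y ∈ J, (nm y.1 : ℝ) ^ a * ((nm y.2 : ℝ) ^ (-(1 : ℝ) / 3) *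
    (‖om y‖ ^ 2 * ∑ e ∈ S E0, ‖TE α y e‖ ^ 2)) with hSa
  have g1' : Sa (1 / 3) ≤ _ := g1
  have g2' : Sa (-1) ≤ _ := g2
  have g3' : Sa (-(1 / 3)) ≤ _ := g3
  set G := (Xw * (V / c₀)) ^ (-(1 / 3) : ℝ) with hG
  have hG0 : 0 ≤ G := Real.rpow_nonneg (by positivity) _
  have hHM : 0 < H ^ M := by positivity
  have hsp : ∑ x ∈ J, (nm x.1 : ℝ) * (Q4 Kk (V / (nm x.1 : ℝ) ^ 2)) ^ ((1 : ℝ) / 2) *
      ((nm x.2 : ℝ) ^ (-(1 : ℝ) / 3) * (‖om x‖ ^ 2 * ∑ e ∈ S E0, ‖TE α (x.1, x.2) e‖ ^ 2)) ≤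
      Kk ^ ((1 : ℝ) / 2) * V ^ ((1 : ℝ) / 3) * Sa (1 / 3) + V * Sa (-1) +
        Kk ^ ((1 : ℝ) / 3) * V ^ ((2 : ℝ) / 3) * Sa (-(1 / 3)) := by
    rw [hSa]
    simp only
    rw [Finset.mul_sum, Finset.mul_sum, Finset.mul_sum, ← Finset.sum_add_distrib,
      ← Finset.sum_add_distrib]
    refine Finset.sum_le_sum fun x hx => ?_
    have hx0 : (0 : ℝ) < nm x.1 := by
      have := nm1 (hJ.prim x hx).ne_zero
      linarith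
    refine (mul_le_mul_of_nonneg_right (dQ4 hKk0.le hV0.le hx0) (by positivity)).trans
      (le_of_eq ?_)
    ring
  have e1 : Kk ^ ((1 : ℝ) / 2) * V ^ ((1 : ℝ) / 3) *
      (H ^ M * X ^ (E - (κ / 2 + v / 3) + ε / 3) * G) = H ^ M * X ^ (E + ε / 3) * G := by
    have h5 : X ^ (E + ε / 3) = X ^ (κ * (1 / 2)) * X ^ (v * (1 / 3)) *
        X ^ (E - (κ / 2 + v / 3) + ε / 3) := by
      rw [← Real.rpow_add hX0, ← Real.rpow_add hX0]; congr 1; ring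
    rw [h5, Real.rpow_mul hX0.le, Real.rpow_mul hX0.le, cK, cV]
    ring
  have e2 : V * (H ^ M * X ^ (E - v + ε / 3) * G) = H ^ M * X ^ (E + ε / 3) * G := by
    have h5 : X ^ (E + ε / 3) = X ^ v * X ^ (E - v + ε / 3) := by
      rw [← Real.rpow_add hX0]; congr 1; ring
    rw [h5, cV]
    ring
  have e3 : Kk ^ ((1 : ℝ) / 3) * V ^ ((2 : ℝ) / 3) *
      (H ^ M * X ^ (E - (κ / 3 + 2 / 3 * v) + ε / 3) * G) = H ^ M * X ^ (E + ε / 3) * G := by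
    have h5 : X ^ (E + ε / 3) = X ^ (κ * (1 / 3)) * X ^ (v * (2 / 3)) *
        X ^ (E - (κ / 3 + 2 / 3 * v) + ε / 3) := by
      rw [← Real.rpow_add hX0, ← Real.rpow_add hX0]; congr 1; ring
    rw [h5, Real.rpow_mul hX0.le, Real.rpow_mul hX0.le, cK, cV]
    ring
  have hsum : ∑ x ∈ J, (nm x.1 : ℝ) * (Q4 Kk (V / (nm x.1 : ℝ) ^ 2)) ^ ((1 : ℝ) / 2) *
      ((nm x.2 : ℝ) ^ (-(1 : ℝ) / 3) * (‖om x‖ ^ 2 * ∑ e ∈ S E0, ‖TE α (x.1, x.2) e‖ ^ 2)) ≤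
      3 * (H ^ M * X ^ (E + ε / 3) * G) := by
    refine hsp.trans ?_
    have k1 := mul_le_mul_of_nonneg_left g1'
      (show 0 ≤ Kk ^ ((1 : ℝ) / 2) * V ^ ((1 : ℝ) / 3) by positivity)
    have k2 := mul_le_mul_of_nonneg_left g2' hV0.le
    have k3 := mul_le_mul_of_nonneg_left g3'
      (show 0 ≤ Kk ^ ((1 : ℝ) / 3) * V ^ ((2 : ℝ) / 3) by positivity)
    rw [e1] at k1
    rw [e2] at k2
    rw [e3] at k3
    linarith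
  have hsum0 : 0 ≤ ∑ x ∈ J, (nm x.1 : ℝ) * (Q4 Kk (V / (nm x.1 : ℝ) ^ 2)) ^ ((1 : ℝ) / 2) *
      ((nm x.2 : ℝ) ^ (-(1 : ℝ) / 3) * (‖om x‖ ^ 2 * ∑ e ∈ S E0, ‖TE α (x.1, x.2) e‖ ^ 2)) := by
    refine Finset.sum_nonneg fun x _ => ?_
    have h7 : 0 ≤ Q4 Kk (V / (nm x.1 : ℝ) ^ 2) := by
      unfold Q4
      positivity
    positivity
  have hXe : (X ^ K) ^ (ε / (3 * K)) = X ^ (ε / 3) := by
    rw [← Real.rpow_mul hX0.le]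
    congr 1
    rw [mul_div_assoc', mul_comm K ε, mul_comm (3 : ℝ) K, ← div_div,
      mul_div_cancel_right₀ _ (by linarith : K ≠ 0)]
  have hG' : G = c₀ ^ ((1 : ℝ) / 3) * (Xw * V) ^ (-(1 / 3) : ℝ) := by
    rw [hG, ← mul_div_assoc, Real.div_rpow (by positivity) hc0.le, Real.rpow_neg hc0.le,
      div_inv_eq_mul]
    norm_num
    ring
  have h3 := H₃ X ((le_max_right _ _).trans hX)
  rw [zero_mul, add_zero, mul_one] at h3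
  have hXV0 : 0 ≤ (Xw * V) ^ (-(1 / 3) : ℝ) := Real.rpow_nonneg (by positivity) _
  rw [hXe]
  calc C₂ * X ^ (ε / 3) * (∑ x ∈ J, (nm x.1 : ℝ) *
        (Q4 Kk (V / (nm x.1 : ℝ) ^ 2)) ^ ((1 : ℝ) / 2) *
        ((nm x.2 : ℝ) ^ (-(1 : ℝ) / 3) * (‖om x‖ ^ 2 * ∑ e ∈ S E0, ‖TE α (x.1, x.2) e‖ ^ 2))) ^ 2
      ≤ C₂ * X ^ (ε / 3) * (3 * (H ^ M * X ^ (E + ε / 3) * G)) ^ 2 := by
        refine mul_le_mul_of_nonneg_left ?_ (by positivity)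
        exact pow_le_pow_left₀ hsum0 hsum 2
    _ = (C₂ * (3 * c₀ ^ ((1 : ℝ) / 3)) ^ 2) * (X ^ (ε / 3) * (X ^ (E + ε / 3)) ^ 2) * (H ^ M *
        (Xw * V) ^ (-(1 / 3) : ℝ)) ^ 2 := by
        rw [hG']
        ring
    _ ≤ X ^ (ε / 3) * (X ^ (ε / 3) * (X ^ (E + ε / 3)) ^ 2) * (H ^ M *
        (Xw * V) ^ (-(1 / 3) : ℝ)) ^ 2 := by
        refine mul_le_mul_of_nonneg_right ?_ (by positivity)
        exact mul_le_mul_of_nonneg_right h3 (by positivity)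
    _ ≤ (X ^ (E + ε)) ^ 2 * (H ^ M * (Xw * V) ^ (-(1 / 3) : ℝ)) ^ 2 := by
        refine mul_le_mul_of_nonneg_right ?_ (by positivity)
        rw [← Real.rpow_natCast (X ^ (E + ε / 3)), ← Real.rpow_natCast (X ^ (E + ε)),
          ← Real.rpow_mul hX0.le, ← Real.rpow_mul hX0.le, ← Real.rpow_add hX0,
          ← Real.rpow_add hX0]
        refine Real.rpow_le_rpow_of_exponent_le hX1.le ?_
        push_cast
        linarith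
    _ = _ := by ring

lemma gram4_lit : Gram4 := fun _ hε => GH490.gram4 hε

/-- **the fourth moment by the large sieve at `T = TE α`** -/
theorem gram4V (R : ℝ) (hR : 0 ≤ R) {ε : ℝ} (hε : 0 < ε) (K : ℝ) (hK : 1 ≤ K)
    (M : ℕ) {c₀ : ℝ} (hc₀ : 1 ≤ c₀) :
    ∃ X₀ : ℝ, 1 < X₀ ∧ ∀ X : ℝ, X₀ ≤ X → ∀ H : ℝ, 1 ≤ H → ∀ (Yw Xw : ℝ), 0 ≤ Yw → 0 < Xw →
      ∀ α : Eis → ℂ, Adm Yw Xw R α → ∀ F : ℝ → ℝ → ℝ, VN X H M (2 * K) α F →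
      ∀ (Kk V E0 : ℝ), 1 ≤ Kk → Kk ≤ X ^ K → 1 ≤ V → V ≤ X ^ K → 1 ≤ E0 → E0 ≤ X ^ K →
      ∀ (J : Finset (Eis × Eis)) (om : Eis × Eis → ℂ), OKJ J →
      (∀ x ∈ J, (nm (x.2 * x.1 ^ 2) : ℝ) ≤ V) →
      (∀ x ∈ J, om x ≠ 0 → V ≤ c₀ * nm (x.2 * x.1 ^ 2)) → (∀ x, ‖om x‖ ≤ 1) →
      ∀ t : Eis, IsPrim t → (nm t : ℝ) ≤ X ^ K →
      ∀ E : ℝ, (∀ x b : ℝ, 0 ≤ x → 2 * x ≤ Real.log V / Real.log X → 0 ≤ b →
        b ≤ Real.log E0 / Real.log X →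
        F (Real.log V / Real.log X + b - 2 * x) (b + x) + 3 * x + b +
          q4 (Real.log Kk / Real.log X) (Real.log V / Real.log X) x ≤ E) →
      ∑ k ∈ (primBall ⌊Kk⌋₊).filter CbF, (nm k : ℝ) ^ ((2 : ℝ) / 3) *
        ‖StE E0 J om α (k * t ^ 3)‖ ^ 4 ≤
        (H ^ M * X ^ (E + ε) * (Xw * V) ^ (-(1 / 3) : ℝ)) ^ 2 :=
  gram4V_of gram4_lit R hR hε K hK M hc₀

end Crest.Agent.R017.TMw968
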