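import Crest.Agent.R017.TMn_968
import Crest.Agent.R017.I1LE_764

/-!
# Row 17, class E, R8 (helper968): the side with the structured function of a difference

* `jbk_raw` : the joint blocks of a natural list against a kernel, raw form
* `jbx_raw` : the joint blocks of a sequence dominated by a difference `xN`
* `tmx_raw` : a weighted second moment of `TE` over the classes of one level
* `gramx_raw` : the Gram sum of one level by the large sieve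
-/

set_option autoImplicit false

noncomputable section

open Finset MeasureTheory
open scoped ComplexConjugate Classical

namespace Crest.Agent.R017.TMx968

open Crest.Agent.R012 Crest.Agent.R012.Eis
open Crest.Agent.R012.LS2 (S mem_S)
open Crest.Agent.R017.CM106 (CS FS TG)
open Crest.Agent.R017.C70
open Crest.Agent.R017.HP842 (Pc pc sqc alL Ker)
open Crest.Agent.R017.B770
open Crest.Agent.R017.FE47 (PU cx)
open Crest.Agent.R017.Prov71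
open Crest.Agent.R017.Leg381 (Pf alF natl alF_natl)
open Crest.Agent.R017.E1551
open Crest.Agent.R017.E2440 (TE StE)
open Crest.Agent.R017.RG64 (Ht one_le_Ht FS_alF)
open Crest.Agent.R017.PX764 (Dk)
open Crest.Agent.R017.LegK545 (JBK)
open Crest.Agent.R017.RX241 (Nb Nb_nonneg Md)
open Crest.Agent.R017.ExT764 (PBh num_L')
open Crest.Agent.R017.End699 (HC)
open Crest.Agent.R017.Sup271 (NPm)
open Crest.Agent.R017.I1146 (ChN LN cN SN Dom cN_nonneg Adm_list)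
open Crest.Agent.R017.I1K764 (SNK numJK rl xN xN_eq zN norm_zN LN_rl pbh_xN)
open Crest.Agent.R017.GHB842 (Qd Qd_nonneg)
open Crest.Agent.R017.TM968 (LN_nonneg' LN_le' tmom_core gram_core)

/-- **the joint blocks of a natural list against a kernel, raw form** -/
theorem jbk_raw {Kn : Eis → Eis → ℂ} (hKn : Ker Kn) {h : ℝ → ℝ} {c : ℝ} (hpu : PU h c) (N : ℕ)
    {R₁ : ℝ} (hR₁ : 0 ≤ R₁) {ε M c₀ ν : ℝ} (hε : 0 < ε) (hM : 0 ≤ M) (hc₀ : 1 ≤ c₀)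
    (hν : 1 ≤ ν) :
    ∃ C r : ℝ, 1 ≤ C ∧ 0 ≤ r ∧ ∀ X : ℝ, 3 ≤ X → ∀ (P : DPar), P.OK → ∀ (q : Eis) (ps : List Pq),
      ps.length ≤ N → (∀ p ∈ ps, 0 ≤ p.z ∧ p.z ≤ Real.log X) →
      ∀ (V F W : ℝ), 1 ≤ V → V ≤ X → 0 ≤ F → 0 ≤ W → ∀ g : Eis, IsPrim g → (nm g : ℝ) ^ 2 ≤ V →
      (nm g : ℝ) ≤ Real.exp (LN ps + N * R₁) →
      ∀ B V' t Y : ℝ, 1 ≤ B → B ≤ Real.exp (LN ps + N * R₁) → 1 ≤ V' →
      V' ≤ V / (nm g : ℝ) ^ 2 → V ≤ c₀ * (V' * (nm g : ℝ) ^ 2) → 0 ≤ Y →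
      (∀ (b l : ℝ) (ps' : List Pq), 0 ≤ b → 0 ≤ l →
        List.Forall₂ (ChN r) ps' ps → |LN ps' - (LN ps - Real.log (nm g) - b)| ≤ r →
        |l - (Real.log V - 2 * Real.log (nm g) + b)| ≤ r →
        W * SNK Kn (q * g) P h l ps' ≤ F * cN ps' ps ^ M) →
      W * JBK Kn Y (sqc q (alF 1 1 P h (natl ps))) (fun _ => True) g B (V' * ν) t ≤
        C * X ^ ε * F * (1 + |t|) ^ ((N : ℝ) * M) := by
  have hN0 : (0 : ℝ) ≤ N := Nat.cast_nonneg _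
  have hNR : 0 ≤ (N : ℝ) * R₁ := by positivity
  set B₀ : ℝ := N + N * R₁ + 1 with hB₀
  have hB₀1 : 1 ≤ B₀ := by linarith
  have hB₀0 : 0 < B₀ := by linarith
  obtain ⟨C₁, r₁, hC₁, hr₁, H₁⟩ := numJK hKn hpu N hB₀0.le hε hM
  have hlc : 0 ≤ Real.log c₀ := Real.log_nonneg hc₀
  have hlν : 0 ≤ Real.log ν := Real.log_nonneg hν
  have hc₀0 : 0 < c₀ := by linarith
  have hν0 : 0 < ν := by linarith
  have hνe : 1 ≤ ν ^ ε := Real.one_le_rpow hν hε.le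
  refine ⟨C₁ * ν ^ ε * Real.exp r₁, 2 * r₁ + Real.log c₀ + Real.log ν, ?_, by positivity, ?_⟩
  · have h1 : 1 ≤ C₁ * ν ^ ε := one_le_mul_of_one_le_of_one_le hC₁ hνe
    exact one_le_mul_of_one_le_of_one_le h1 (Real.one_le_exp hr₁)
  intro X hX P hP q ps hN hz V F W hV1 hVX hF hW g hg hgV hgY B V' t Y hB1 hBY hV1' hV2'
    hV3' hY0 H
  have hX1 : (1 : ℝ) ≤ X := by linarith
  have hX0 : 0 < X := by linarith
  have hV0 : 0 < V := by linarith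
  have hV'0 : 0 < V' := by linarith
  have hlX : 1 ≤ Real.log X := (Real.le_log_iff_exp_le hX0).2 (by
    linarith [Real.exp_one_lt_d9])
  set X₂ : ℝ := X * ν with hX₂
  have hXX₂ : X ≤ X₂ := le_mul_of_one_le_right hX0.le hν
  have hX₂0 : 0 < X₂ := by linarith
  have hlXX : Real.log X ≤ Real.log X₂ := Real.log_le_log hX0 hXX₂
  set n := LN ps with hn
  have hnX : n ≤ N * Real.log X := LN_le' (by linarith) hN hz
  have hYX : Real.exp (n + N * R₁) ≤ X₂ ^ B₀ := by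
    rw [Real.rpow_def_of_pos hX₂0]
    refine Real.exp_le_exp.2 ?_
    have h1 : (N : ℝ) * R₁ ≤ Real.log X * (N * R₁) := le_mul_of_one_le_left hNR hlX
    have h2 : Real.log X * B₀ ≤ Real.log X₂ * B₀ := mul_le_mul_of_nonneg_right hlXX hB₀0.le
    have h3 : Real.log X * B₀ = N * Real.log X + Real.log X * (N * R₁) + Real.log X := by
      rw [hB₀]; ring
    linarith
  have hg1 : (1 : ℝ) ≤ nm g := nm_ge_one hg.ne_zero
  have hg0 : (0 : ℝ) < nm g := by linarith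
  have ht1 : 0 ≤ (1 + |t|) ^ ((N : ℝ) * M) := by positivity
  rcases hW.eq_or_lt with h0 | hW0
  · rw [← h0, zero_mul]
    positivity
  set γ := Real.log (nm g) with hγ
  have hγ0 : 0 ≤ γ := Real.log_nonneg hg1
  have hl1 : Real.log V' ≤ Real.log V - 2 * γ := by
    have h1 := Real.log_le_log hV'0 hV2'
    rw [Real.log_div hV0.ne' (by positivity), Real.log_pow] at h1
    push_cast at h1
    exact h1
  have hl2 : Real.log V - Real.log c₀ - 2 * γ ≤ Real.log V' := by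
    have h1 := Real.log_le_log hV0 hV3'
    rw [Real.log_mul hc₀0.ne' (by positivity), Real.log_mul hV'0.ne' (by positivity),
      Real.log_pow] at h1
    push_cast at h1
    linarith
  have hlB : 0 ≤ Real.log B := Real.log_nonneg hB1
  have hV'V : V' ≤ V := hV2'.trans (div_le_self hV0.le (one_le_pow₀ hg1))
  have hVν : V' * ν ≤ X₂ := mul_le_mul_of_nonneg_right (hV'V.trans hVX) hν0.le
  have hVν1 : 1 ≤ V' * ν := one_le_mul_of_one_le_of_one_le hV1' hν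
  have hlVν : Real.log (V' * ν) = Real.log V' + Real.log ν := Real.log_mul hV'0.ne' hν0.ne'
  have key := H₁ X₂ (by linarith) P hP q ps hN
    (fun p hp => ⟨(hz p hp).1, (hz p hp).2.trans hlXX⟩) g hg (hgY.trans hYX) B (V' * ν) Y t
    (fun _ => True) hB1 (hBY.trans hYX) hVν1 hVν hY0 F (-Real.log W + r₁) hF (by
      intro l ps' hl hch h1 h2
      rw [hlVν] at h2
      have h1' := abs_le.1 h1
      have h2' := abs_le.1 h2
      have h3 := H (Real.log B) l ps' hlB hl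
        (hch.imp fun _ _ hc => ⟨hc.1, hc.2.1, hc.2.2.1, hc.2.2.2.1,
          hc.2.2.2.2.trans (by linarith)⟩) (h1.trans (by linarith)) (by
          rw [abs_le]
          constructor <;> linarith)
      have h4 : SNK Kn (q * g) P h l ps' ≤ F * cN ps' ps ^ M * W⁻¹ := by
        rw [← div_eq_mul_inv, le_div_iff₀ hW0, mul_comm]
        exact h3
      refine h4.trans ?_
      refine mul_le_mul_of_nonneg_left ?_
        (mul_nonneg hF (Real.rpow_nonneg (cN_nonneg _ _) _))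
      have h5 : W⁻¹ = Real.exp (-Real.log W) := by
        rw [Real.exp_neg, Real.exp_log hW0]
      rw [h5]
      refine Real.exp_le_exp.2 ?_
      linarith)
  have e2 : Real.exp (-Real.log W + r₁) = W⁻¹ * Real.exp r₁ := by
    rw [Real.exp_add, Real.exp_neg, Real.exp_log hW0]
  rw [e2, hX₂, Real.mul_rpow hX0.le hν0.le] at key
  calc W * JBK Kn Y (sqc q (alF 1 1 P h (natl ps))) (fun _ => True) g B (V' * ν) t
      ≤ W * (C₁ * (X ^ ε * ν ^ ε) * F * (1 + |t|) ^ ((N : ℝ) * M) *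
        (W⁻¹ * Real.exp r₁)) := mul_le_mul_of_nonneg_left key hW
    _ = (W * W⁻¹) * (C₁ * ν ^ ε * Real.exp r₁ * X ^ ε * F *
        (1 + |t|) ^ ((N : ℝ) * M)) := by ring
    _ = _ := by rw [mul_inv_cancel₀ hW0.ne', one_mul]

/-- the size of the bias at `g`, level `V` -/
def Bs (n s0 H V d : ℝ) : ℝ :=
  H ^ 6 * Real.exp (5 / 3 * n) * (V ^ ((2 : ℝ) / 3) * (d ^ 3)⁻¹ * min 1 (d * Real.exp (-s0)))

lemma Bs_nonneg {n s0 H V d : ℝ} (hH : 0 ≤ H) (hV : 0 ≤ V) (hd : 0 ≤ d) : 0 ≤ Bs n s0 H V d := by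
  unfold Bs
  have : 0 ≤ min 1 (d * Real.exp (-s0)) := le_min zero_le_one (by positivity)
  positivity

/-- the pieces of the two lists -/
lemma xlist {X : ℝ} {p1 p2 : Pq} {l : List Pq} {d : ℝ} (hz : ∀ p ∈ p1 :: p2 :: l, 0 ≤ p.z)
    (hLX : LN (p1 :: p2 :: l) ≤ Real.log X) (hd : 0 ≤ d) (hd' : d ≤ p1.z + p2.z) :
    (∀ p ∈ p1 :: p2 :: l, 0 ≤ p.z ∧ p.z ≤ Real.log X) ∧
      ∀ p ∈ rl p1 p2 l d, 0 ≤ p.z ∧ p.z ≤ Real.log X := by
  have z1 := hz p1 List.mem_cons_self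
  have z2 := hz p2 (List.mem_cons_of_mem _ List.mem_cons_self)
  have hzl : ∀ p ∈ l, 0 ≤ p.z := fun p hp => hz p (List.mem_cons_of_mem _
    (List.mem_cons_of_mem _ hp))
  have z3 : 0 ≤ LN l := I1K764.LN_nonneg hzl
  have e1 : LN (p1 :: p2 :: l) = p1.z + (p2.z + LN l) := by
    unfold LN
    simp only [List.map_cons, List.sum_cons]
  have hle : ∀ p ∈ l, p.z ≤ LN l := fun p hp => by
    unfold LN
    exact List.single_le_sum (fun x hx => by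
      obtain ⟨p', hp', rfl⟩ := List.mem_map.1 hx
      exact hzl p' hp') _ (List.mem_map.2 ⟨p, hp, rfl⟩)
  constructor
  · intro p hp
    refine ⟨hz p hp, ?_⟩
    rcases List.mem_cons.1 hp with rfl | hp
    · linarith
    rcases List.mem_cons.1 hp with rfl | hp
    · linarith
    · linarith [hle p hp]
  · intro p hp
    unfold rl at hp
    rcases List.mem_cons.1 hp with rfl | hp
    · exact ⟨by show 0 ≤ p1.z + p2.z - d; linarith, by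
        show p1.z + p2.z - d ≤ _; linarith⟩
    rcases List.mem_cons.1 hp with rfl | hp
    · exact ⟨hd, by show d ≤ _; linarith⟩
    · exact ⟨hzl p hp, by linarith [hle p hp]⟩

set_option maxHeartbeats 4000000 in
/-- **the joint blocks of a sequence dominated by a difference** -/
theorem jbx_raw {h : ℝ → ℝ} {c : ℝ} (hpu : PU h c) (N : ℕ) {R₁ : ℝ} (hR₁ : 0 ≤ R₁)
    {ε M c₀ ν Dd B₃ : ℝ} (hε : 0 < ε) (hM : 0 ≤ M) (hc₀ : 1 ≤ c₀) (hν : 1 ≤ ν) (hDd : 1 ≤ Dd) :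
    ∃ C r : ℝ, 1 ≤ C ∧ 0 ≤ r ∧ ∀ X : ℝ, 3 ≤ X → ∀ (P : DPar), P.OK → HC P.n P.ψ →
      (nm P.n : ℝ) ≤ X ^ B₃ → ¬ NPm P.n P.ψ P.l₂ 1 → ∀ q : Eis, q ≠ 0 → (nm q : ℝ) ≤ X ^ B₃ →
      ∀ (p1 p2 : Pq) (l : List Pq), p1.u = .one → p2.u = .one → p1.kd = .mo → p2.kd = .mo →
      (nm p1.d : ℝ) ≤ X ^ B₃ → (nm p2.d : ℝ) ≤ X ^ B₃ → (p1 :: p2 :: l).length ≤ N →
      (∀ p ∈ p1 :: p2 :: l, 0 ≤ p.z) → LN (p1 :: p2 :: l) ≤ Real.log X →
      ∀ d s0 : ℝ, 0 ≤ d → d ≤ p1.z + p2.z → s0 ≤ p1.z → s0 ≤ p2.z → s0 ≤ p1.z + p2.z - d →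
      s0 ≤ d → ∀ al : Eis → ℂ, Dom ν Dd (xN P h q p1 p2 l d) al →
      ∀ (V F F' Fb W : ℝ), 1 ≤ V → V ≤ X → 0 ≤ F → 0 ≤ F' → 0 ≤ W →
      ∀ g : Eis, IsPrim g → (nm g : ℝ) ^ 2 ≤ V →
      (nm g : ℝ) ≤ Real.exp (LN (p1 :: p2 :: l) + N * R₁) →
      ∀ B V' t Y : ℝ, 1 ≤ B → B ≤ Real.exp (LN (p1 :: p2 :: l) + N * R₁) → 1 ≤ V' →
      V' ≤ V / (nm g : ℝ) ^ 2 → V ≤ c₀ * (V' * (nm g : ℝ) ^ 2) → 0 ≤ Y →
      (∀ (b l' : ℝ) (ps' : List Pq), 0 ≤ b → 0 ≤ l' →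
        List.Forall₂ (ChN r) ps' (p1 :: p2 :: l) →
        |LN ps' - (LN (p1 :: p2 :: l) - Real.log (nm g) - b)| ≤ r →
        |l' - (Real.log V - 2 * Real.log (nm g) + b)| ≤ r →
        W * SNK Dk (q * g) P h l' ps' ≤ F * cN ps' (p1 :: p2 :: l) ^ M) →
      (∀ (b l' : ℝ) (ps' : List Pq), 0 ≤ b → 0 ≤ l' →
        List.Forall₂ (ChN r) ps' (rl p1 p2 l d) →
        |LN ps' - (LN (p1 :: p2 :: l) - Real.log (nm g) - b)| ≤ r →
        |l' - (Real.log V - 2 * Real.log (nm g) + b)| ≤ r →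
        W * SNK Dk (q * g) P h l' ps' ≤ F' * cN ps' (rl p1 p2 l d) ^ M) →
      W * Bs (LN (p1 :: p2 :: l)) s0 (Ht (natl (p1 :: p2 :: l))) V (nm g) ≤ Fb →
      W * JB Y al (fun _ => True) g B V' t ≤
        C * X ^ ε * (F + F' + Fb) * (1 + |t|) ^ (max ((N : ℝ) * M) 12) := by
  have hN0 : (0 : ℝ) ≤ N := Nat.cast_nonneg _
  have hNR : 0 ≤ (N : ℝ) * R₁ := by positivity
  set J : ℝ := max ((N : ℝ) * M) 12 with hJ
  have hJ1 : (N : ℝ) * M ≤ J := le_max_left _ _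
  have hJ12 : (12 : ℝ) ≤ J := le_max_right _ _
  set B₄ : ℝ := max (max 1 B₃) (2 * (2 + N * R₁)) with hB₄
  have hB41 : 1 ≤ B₄ := (le_max_left _ _).trans (le_max_left _ _)
  have hB43 : B₃ ≤ B₄ := (le_max_right _ _).trans (le_max_left _ _)
  have hB42 : 2 * (2 + N * R₁) ≤ B₄ := le_max_right _ _
  have hB40 : 0 < B₄ := by linarith
  obtain ⟨Ca, ra, hCa, hra, Ha⟩ := jbk_raw Dk848.ker_Dk hpu N hR₁ hε hM hc₀ hν
  obtain ⟨Cb, hCb, Hb⟩ := pbh_xN hpu N hB41 (ε := ε / 2) (by positivity)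
  obtain ⟨Cx, hCx, Hx⟩ := num_L' (ε := ε / (2 * B₄)) (by positivity)
  have hc₀0 : 0 < c₀ := by linarith
  have hν0 : 0 < ν := by linarith
  have hνe : 1 ≤ ν ^ ε := Real.one_le_rpow hν hε.le
  have hνn : 0 ≤ ν ^ ((2 : ℝ) / 3) := Real.rpow_nonneg hν0.le _
  refine ⟨Dd * (3 * Ca + Cx * ν ^ ε * Cb * ν ^ ((2 : ℝ) / 3)), ra, ?_, hra, ?_⟩
  · have h1 : 0 ≤ Cx * ν ^ ε * Cb * ν ^ ((2 : ℝ) / 3) := by positivity
    have h2 : 1 ≤ 3 * Ca + Cx * ν ^ ε * Cb * ν ^ ((2 : ℝ) / 3) := by linarith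
    exact one_le_mul_of_one_le_of_one_le hDd h2
  intro X hX P hP hψ hPn hnp q hq hqX p1 p2 l hu1 hu2 hk1 hk2 hd1 hd2 hlen hz hLX d s0 hd hd' h1 h2
    h3 h4 al hdom V F F' Fb W hV1 hVX hF hF' hW g hg hgV hgY B V' t Y hB1 hBY hV1' hV2' hV3' hY0
    H H' Hbs
  have hX1 : (1 : ℝ) ≤ X := by linarith
  have hX0 : 0 < X := by linarith
  have hV0 : 0 < V := by linarith
  have hV'0 : 0 < V' := by linarith
  have hlX : 1 ≤ Real.log X := (Real.le_log_iff_exp_le hX0).2 (by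
    linarith [Real.exp_one_lt_d9])
  obtain ⟨hz1, hz2⟩ := xlist hz hLX hd hd'
  set X₂ : ℝ := X * ν with hX₂
  have hXX₂ : X ≤ X₂ := le_mul_of_one_le_right hX0.le hν
  have hX₂0 : 0 < X₂ := by linarith
  have hX₂1 : 1 ≤ X₂ := by linarith
  have hlXX : Real.log X ≤ Real.log X₂ := Real.log_le_log hX0 hXX₂
  set n := LN (p1 :: p2 :: l) with hn
  set Hh := Ht (natl (p1 :: p2 :: l)) with hHh
  have hH1 : 1 ≤ Hh := one_le_Ht _
  have hYX : Real.exp (n + N * R₁) ≤ X₂ ^ (1 + N * R₁) := by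
    rw [Real.rpow_def_of_pos hX₂0]
    refine Real.exp_le_exp.2 ?_
    have h5 : (N : ℝ) * R₁ ≤ Real.log X * (N * R₁) := le_mul_of_one_le_left hNR hlX
    have h6 : Real.log X * (1 + N * R₁) ≤ Real.log X₂ * (1 + N * R₁) :=
      mul_le_mul_of_nonneg_right hlXX (by linarith)
    linarith
  have hg1 : (1 : ℝ) ≤ nm g := nm_ge_one hg.ne_zero
  have hg0 : (0 : ℝ) < nm g := by linarith
  have hT1 : (1 : ℝ) ≤ 1 + |t| := by linarith [abs_nonneg t]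
  have hpw : (1 + |t|) ^ ((N : ℝ) * M) ≤ (1 + |t|) ^ J :=
    Real.rpow_le_rpow_of_exponent_le hT1 hJ1
  have ht1 : 0 ≤ (1 + |t|) ^ J := by positivity
  have hV'V : V' ≤ V := hV2'.trans (div_le_self hV0.le (one_le_pow₀ hg1))
  have hVνX : V' * ν ≤ X₂ := mul_le_mul_of_nonneg_right (hV'V.trans hVX) hν0.le
  have hVν1 : 1 ≤ V' * ν := one_le_mul_of_one_le_of_one_le hV1' hν
  have hVν0 : 0 < V' * ν := by linarith
  have hX4 : ∀ a : ℝ, a ≤ B₄ → X₂ ^ a ≤ X₂ ^ B₄ := fun a ha =>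
    Real.rpow_le_rpow_of_exponent_le hX₂1 ha
  have hX3 : X ^ B₃ ≤ X₂ ^ B₄ := by
    have h5 : X ^ B₃ ≤ X ^ B₄ := Real.rpow_le_rpow_of_exponent_le hX1 hB43
    exact h5.trans (Real.rpow_le_rpow hX0.le hXX₂ hB40.le)
  have hlen' : l.length ≤ N := by
    simp only [List.length_cons] at hlen
    omega
  -- the bias
  have hpb := Hb X₂ (by linarith) P hP hψ (hPn.trans hX3) hnp q hq (hqX.trans hX3) p1 p2 l hu1 hu2
    hk1 hk2 (hd1.trans hX3) (hd2.trans hX3) hlen' hz (hLX.trans hlXX) d s0 h1 h2 h3 h4 J hJ12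
    (X₂ ^ B₄) le_rfl
  set Eb : ℝ := Cb * X₂ ^ (ε / 2) * Hh ^ 6 * Real.exp (5 / 3 * n) with hEb
  have hEb0 : 0 ≤ Eb := by positivity
  set D2 : ℝ := min (Real.exp (-s0)) (nm g : ℝ)⁻¹ with hD2
  have hD20 : 0 ≤ D2 := le_min (Real.exp_pos _).le (by positivity)
  have hbump := bump_of_cs hpu.cs
  have hFα : FS (sqc q (alF 1 1 P h (natl (p1 :: p2 :: l)))) :=
    HP842.FS.sqc (FS_alF hbump hP 1 1 _) q
  have hFβ : FS (sqc q (alF 1 1 P h (natl (rl p1 p2 l d)))) :=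
    HP842.FS.sqc (FS_alF hbump hP 1 1 _) q
  have hB0 : 0 < B := by linarith
  have hPx : V' * ν * B ≤ X₂ ^ B₄ := by
    calc V' * ν * B ≤ X₂ * X₂ ^ (1 + N * R₁) :=
          mul_le_mul hVνX (hBY.trans hYX) hB0.le hX₂0.le
      _ = X₂ ^ (1 + (1 + N * R₁)) := by
          rw [Real.rpow_add hX₂0 1 (1 + N * R₁), Real.rpow_one]
      _ ≤ _ := hX4 _ (by linarith)
  have hmain := Hx (sqc q (alF 1 1 P h (natl (p1 :: p2 :: l))))
    (sqc q (alF 1 1 P h (natl (rl p1 p2 l d)))) (xN P h q p1 p2 l d) (zN p1 p2 d)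
    (norm_zN _ _ _).le hFα hFβ (xN_eq P h q p1 p2 l d) Eb D2 1 1 (V' * ν * (nm g : ℝ) ^ 2) Y
    (X₂ ^ B₄) J hEb0 hD20 one_pos one_pos (by positivity) hY0 (fun _ => True) g hg B (V' * ν) t
    hB1 hVν1 hPx (by
      rw [le_div_iff₀ (by positivity)]
      linarith [mul_pos hVν0 (pow_pos hg0 2)])
    (fun U hU hU1 hU2 _ j hj hjV => by
      obtain ⟨hUY, hUp, -⟩ := (mem_S hY0).1 hU
      have hU1' : (1 : ℝ) ≤ nm U := nm_ge_one hUp.ne_zero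
      have hU0 : (0 : ℝ) < nm U := by linarith
      have h5 := hpb (g * U) (hg.mul hUp) (by
        rw [nm_mul]
        push_cast
        calc (nm g : ℝ) * nm U ≤ X₂ ^ (1 + N * R₁) * X₂ ^ (1 + N * R₁) :=
              mul_le_mul (hgY.trans hYX) (hU2.trans (hBY.trans hYX)) hU0.le (by positivity)
          _ = X₂ ^ ((1 + N * R₁) + (1 + N * R₁)) := (Real.rpow_add hX₂0 _ _).symm
          _ ≤ _ := hX4 _ (by linarith)) j hj (hjV.trans hPx) t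
      refine h5.trans ?_
      refine mul_le_mul_of_nonneg_right ?_ ht1
      refine mul_le_mul_of_nonneg_left ?_ (by positivity)
      refine le_min (min_le_left _ _) ?_
      rw [hD2, mul_min_of_nonneg _ _ (Nat.cast_nonneg _)]
      refine le_min (min_le_right _ _) ((min_le_left _ _).trans ?_)
      rw [nm_mul]
      push_cast
      rw [mul_comm (nm g : ℝ), mul_assoc, mul_inv_cancel₀ hg0.ne', mul_one]
      exact hU1')
  -- the number of the bias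
  have e3 : Cx * (X₂ ^ B₄) ^ (ε / (2 * B₄)) * Nb Eb D2 1 1 (V' * ν * (nm g : ℝ) ^ 2) /
      (nm g : ℝ) ^ 2 * yv 1 1 g (V' * ν) * (1 + |t|) ^ J ≤
      Cx * ν ^ ε * Cb * ν ^ ((2 : ℝ) / 3) * X ^ ε *
        Bs n s0 Hh V (nm g) * (1 + |t|) ^ J := by
    refine mul_le_mul_of_nonneg_right ?_ ht1
    have f1 : (X₂ ^ B₄) ^ (ε / (2 * B₄)) = X₂ ^ (ε / 2) := by
      rw [← Real.rpow_mul hX₂0.le]
      congr 1
      rw [mul_div_assoc', mul_comm B₄ ε, mul_comm (2 : ℝ) B₄, ← div_div,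
        mul_div_cancel_right₀ _ hB40.ne']
    have f2 : Nb Eb D2 1 1 (V' * ν * (nm g : ℝ) ^ 2) / (nm g : ℝ) ^ 2 * yv 1 1 g (V' * ν) =
        Eb * D2 * ((V' * ν) ^ ((2 : ℝ) / 3) * (nm g : ℝ) ^ (-(2 : ℝ) / 3)) := by
      unfold RX241.Nb E1551.yv
      rw [div_one, one_mul, Real.one_rpow, mul_one]
      have g1 : (V' * ν * (nm g : ℝ) ^ 2) ^ (1 / 3 : ℝ) =
          (V' * ν) ^ (1 / 3 : ℝ) * (nm g : ℝ) ^ ((2 : ℝ) / 3) := by
        rw [Real.mul_rpow hVν0.le (by positivity), ← Real.rpow_natCast (nm g : ℝ) 2,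
          ← Real.rpow_mul hg0.le]
        norm_num
      have g2 : (1 / (nm g : ℝ)) ^ (-(2 / 3) : ℝ) = (nm g : ℝ) ^ ((2 : ℝ) / 3) := by
        rw [one_div, Real.inv_rpow hg0.le, ← Real.rpow_neg hg0.le]
        norm_num
      have g3 : (V' * ν) ^ ((2 : ℝ) / 3) = (V' * ν) ^ (1 / 3 : ℝ) * (V' * ν) ^ (1 / 3 : ℝ) := by
        rw [← Real.rpow_add hVν0]; norm_num
      have g4 : (nm g : ℝ) ^ (-(2 : ℝ) / 3) * (nm g : ℝ) ^ 2 =
          (nm g : ℝ) ^ ((2 : ℝ) / 3) * (nm g : ℝ) ^ ((2 : ℝ) / 3) := by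
        rw [← Real.rpow_natCast (nm g : ℝ) 2, ← Real.rpow_add hg0, ← Real.rpow_add hg0]
        norm_num
      rw [g1, g2, g3, div_mul_eq_mul_div, div_eq_iff (by positivity)]
      linear_combination (-(Eb * D2 * (V' * ν) ^ (1 / 3 : ℝ) * (V' * ν) ^ (1 / 3 : ℝ))) * g4
    have f3 : (V' * ν) ^ ((2 : ℝ) / 3) * (nm g : ℝ) ^ (-(2 : ℝ) / 3) * D2 ≤
        ν ^ ((2 : ℝ) / 3) * (V ^ ((2 : ℝ) / 3) * ((nm g : ℝ) ^ 3)⁻¹ *
          min 1 ((nm g : ℝ) * Real.exp (-s0))) := by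
      have g1 : V' ^ ((2 : ℝ) / 3) ≤ V ^ ((2 : ℝ) / 3) * (nm g : ℝ) ^ (-(4 : ℝ) / 3) := by
        have g2 : V' ^ ((2 : ℝ) / 3) ≤ (V / (nm g : ℝ) ^ 2) ^ ((2 : ℝ) / 3) :=
          Real.rpow_le_rpow hV'0.le hV2' (by norm_num)
        refine g2.trans (le_of_eq ?_)
        rw [Real.div_rpow hV0.le (by positivity), ← Real.rpow_natCast (nm g : ℝ) 2,
          ← Real.rpow_mul hg0.le, div_eq_mul_inv, ← Real.rpow_neg hg0.le]
        norm_num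
      have g3 : (nm g : ℝ) ^ (-(4 : ℝ) / 3) * (nm g : ℝ) ^ (-(2 : ℝ) / 3) * D2 =
          ((nm g : ℝ) ^ 3)⁻¹ * min 1 ((nm g : ℝ) * Real.exp (-s0)) := by
        have g5 : (nm g : ℝ) ^ (-(4 : ℝ) / 3) * (nm g : ℝ) ^ (-(2 : ℝ) / 3) =
            ((nm g : ℝ) ^ 2)⁻¹ := by
          rw [← Real.rpow_add hg0, ← Real.rpow_natCast (nm g : ℝ) 2, ← Real.rpow_neg hg0.le]
          norm_num
        have g6 : D2 = (nm g : ℝ)⁻¹ * min 1 ((nm g : ℝ) * Real.exp (-s0)) := by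
          rw [hD2, mul_min_of_nonneg _ _ (inv_pos.2 hg0).le, mul_one, ← mul_assoc,
            inv_mul_cancel₀ hg0.ne', one_mul, min_comm]
        rw [g5, g6]
        field_simp
      rw [Real.mul_rpow hV'0.le hν0.le]
      have g7 : 0 ≤ (nm g : ℝ) ^ (-(2 : ℝ) / 3) := by positivity
      calc V' ^ ((2 : ℝ) / 3) * ν ^ ((2 : ℝ) / 3) * (nm g : ℝ) ^ (-(2 : ℝ) / 3) * D2
          ≤ V ^ ((2 : ℝ) / 3) * (nm g : ℝ) ^ (-(4 : ℝ) / 3) * ν ^ ((2 : ℝ) / 3) *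
            (nm g : ℝ) ^ (-(2 : ℝ) / 3) * D2 := by gcongr
        _ = ν ^ ((2 : ℝ) / 3) * (V ^ ((2 : ℝ) / 3) *
            ((nm g : ℝ) ^ (-(4 : ℝ) / 3) * (nm g : ℝ) ^ (-(2 : ℝ) / 3) * D2)) := by ring
        _ = _ := by rw [g3, mul_assoc (V ^ ((2 : ℝ) / 3))]
    have f4 : X₂ ^ (ε / 2) * X₂ ^ (ε / 2) = X ^ ε * ν ^ ε := by
      rw [← Real.rpow_add hX₂0, hX₂, Real.mul_rpow hX0.le hν0.le]
      norm_num
    rw [f1]
    calc Cx * X₂ ^ (ε / 2) * Nb Eb D2 1 1 (V' * ν * (nm g : ℝ) ^ 2) / (nm g : ℝ) ^ 2 *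
          yv 1 1 g (V' * ν)
        = Cx * X₂ ^ (ε / 2) * (Nb Eb D2 1 1 (V' * ν * (nm g : ℝ) ^ 2) / (nm g : ℝ) ^ 2 *
          yv 1 1 g (V' * ν)) := by ring
      _ = Cx * X₂ ^ (ε / 2) * Eb * ((V' * ν) ^ ((2 : ℝ) / 3) *
          (nm g : ℝ) ^ (-(2 : ℝ) / 3) * D2) := by rw [f2]; ring
      _ ≤ Cx * X₂ ^ (ε / 2) * Eb * (ν ^ ((2 : ℝ) / 3) * (V ^ ((2 : ℝ) / 3) *
          ((nm g : ℝ) ^ 3)⁻¹ * min 1 ((nm g : ℝ) * Real.exp (-s0)))) :=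
          mul_le_mul_of_nonneg_left f3 (by positivity)
      _ = Cx * (X₂ ^ (ε / 2) * X₂ ^ (ε / 2)) * Cb * ν ^ ((2 : ℝ) / 3) *
          Bs n s0 Hh V (nm g) := by
          rw [hEb]; unfold Bs; ring
      _ = _ := by rw [f4]; ring
  -- the two lists
  have k1 := Ha X hX P hP q (p1 :: p2 :: l) hlen hz1 V F W hV1 hVX hF hW g hg hgV hgY B V' t Y hB1
    hBY hV1' hV2' hV3' hY0 H
  have k2 := Ha X hX P hP q (rl p1 p2 l d) (by unfold rl; simpa using hlen) hz2 V F' W hV1 hVX hF'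
    hW g hg hgV (by rw [LN_rl]; exact hgY) B V' t Y hB1 (by rw [LN_rl]; exact hBY) hV1' hV2' hV3'
    hY0 (by rw [LN_rl]; exact H')
  have hBs0 : 0 ≤ Bs n s0 Hh V (nm g) := Bs_nonneg (by linarith) hV0.le hg0.le
  have hFb : 0 ≤ Fb := (mul_nonneg hW hBs0).trans Hbs
  have hXe : 0 ≤ X ^ ε := Real.rpow_nonneg hX0.le _
  have h6 := hdom.jb Y (fun _ => True) g B V' t hg hY0 hV1'
  set Ta := JBK Dk Y (sqc q (alF 1 1 P h (natl (p1 :: p2 :: l)))) (fun _ => True) g B (V' * ν) t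
    with hTa
  set Tb := JBK Dk Y (sqc q (alF 1 1 P h (natl (rl p1 p2 l d)))) (fun _ => True) g B (V' * ν) t
    with hTb
  set cx' : ℝ := Cx * ν ^ ε * Cb * ν ^ ((2 : ℝ) / 3) with hcx
  have hcx0 : 0 ≤ cx' := by positivity
  have k1' : W * Ta ≤ Ca * X ^ ε * F * (1 + |t|) ^ J :=
    k1.trans (mul_le_mul_of_nonneg_left hpw (by positivity))
  have k2' : W * Tb ≤ Ca * X ^ ε * F' * (1 + |t|) ^ J :=
    k2.trans (mul_le_mul_of_nonneg_left hpw (by positivity))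
  have k3 : W * (cx' * X ^ ε * Bs n s0 Hh V (nm g) * (1 + |t|) ^ J) ≤
      cx' * X ^ ε * Fb * (1 + |t|) ^ J := by
    calc W * (cx' * X ^ ε * Bs n s0 Hh V (nm g) * (1 + |t|) ^ J)
        = cx' * X ^ ε * (1 + |t|) ^ J * (W * Bs n s0 Hh V (nm g)) := by ring
      _ ≤ cx' * X ^ ε * (1 + |t|) ^ J * Fb :=
          mul_le_mul_of_nonneg_left Hbs (by positivity)
      _ = _ := by ring
  calc W * JB Y al (fun _ => True) g B V' t
      ≤ W * (Dd * (3 * Ta + 3 * Tb + cx' * X ^ ε * Bs n s0 Hh V (nm g) * (1 + |t|) ^ J)) := by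
        refine mul_le_mul_of_nonneg_left (h6.trans ?_) hW
        exact mul_le_mul_of_nonneg_left (hmain.trans (by linarith)) (by linarith)
    _ = Dd * (3 * (W * Ta) + 3 * (W * Tb) +
        W * (cx' * X ^ ε * Bs n s0 Hh V (nm g) * (1 + |t|) ^ J)) := by ring
    _ ≤ Dd * (3 * (Ca * X ^ ε * F * (1 + |t|) ^ J) + 3 * (Ca * X ^ ε * F' * (1 + |t|) ^ J) +
        cx' * X ^ ε * Fb * (1 + |t|) ^ J) := by
        refine mul_le_mul_of_nonneg_left ?_ (by linarith)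
        linarith
    _ ≤ _ := by
        have h7 : 0 ≤ X ^ ε * (1 + |t|) ^ J := by positivity
        have h8 : 3 * (Ca * X ^ ε * F * (1 + |t|) ^ J) + 3 * (Ca * X ^ ε * F' * (1 + |t|) ^ J) +
            cx' * X ^ ε * Fb * (1 + |t|) ^ J ≤
            (3 * Ca + cx') * X ^ ε * (F + F' + Fb) * (1 + |t|) ^ J := by
          have h9 : 0 ≤ (3 * Ca * Fb + cx' * (F + F')) * (X ^ ε * (1 + |t|) ^ J) := by
            positivity
          have h10 : (3 * Ca + cx') * X ^ ε * (F + F' + Fb) * (1 + |t|) ^ J =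
              (3 * (Ca * X ^ ε * F * (1 + |t|) ^ J) + 3 * (Ca * X ^ ε * F' * (1 + |t|) ^ J) +
              cx' * X ^ ε * Fb * (1 + |t|) ^ J) +
              (3 * Ca * Fb + cx' * (F + F')) * (X ^ ε * (1 + |t|) ^ J) := by ring
          linarith
        calc _ ≤ Dd * ((3 * Ca + cx') * X ^ ε * (F + F' + Fb) * (1 + |t|) ^ J) :=
              mul_le_mul_of_nonneg_left h8 (by linarith)
          _ = _ := by ring

/-- the window of a sequence dominated by a difference -/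
lemma Adm_x {h : ℝ → ℝ} {R₁ : ℝ} (hR₁ : 0 ≤ R₁) (hR : ∀ u, cx h u ≠ 0 → |u| ≤ R₁) {N : ℕ}
    {P : DPar} {q : Eis} {p1 p2 : Pq} {l : List Pq} (hN : (p1 :: p2 :: l).length ≤ N) {d : ℝ}
    {ν Dd : ℝ} {al : Eis → ℂ} (hdom : Dom ν Dd (xN P h q p1 p2 l d) al) :
    Adm (Real.exp (LN (p1 :: p2 :: l) + N * R₁)) (Real.exp (LN (p1 :: p2 :: l)))
      (2 * (N * R₁)) al := by
  have h1 := Adm_list hR₁ hR P q hN (le_refl (Real.exp (LN (p1 :: p2 :: l) + N * R₁)))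
  have h2 := Adm_list hR₁ hR P q (ps := rl p1 p2 l d) (N := N) (by unfold rl; simpa using hN)
    (le_refl (Real.exp (LN (rl p1 p2 l d) + N * R₁)))
  rw [LN_rl] at h2
  have hne : ∀ m, al m ≠ 0 → sqc q (alF 1 1 P h (natl (p1 :: p2 :: l))) m ≠ 0 ∨
      sqc q (alF 1 1 P h (natl (rl p1 p2 l d))) m ≠ 0 := by
    intro m hm
    by_contra h0
    push Not at h0
    apply hm
    have h3 := hdom.le m
    rw [xN_eq, h0.1, h0.2, mul_zero, sub_zero, norm_zero] at h3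
    exact norm_le_zero_iff.1 h3
  exact ⟨fun m hm => (hne m hm).elim (h1.sup m) (h2.sup m),
    fun m hm => (hne m hm).elim (h1.win m) (h2.win m)⟩

set_option maxHeartbeats 1000000 in
/-- **the T-moment of one level, differences, raw form** -/
theorem tmx_raw {h : ℝ → ℝ} {c : ℝ} (hpu : PU h c) (N : ℕ) {R₁ : ℝ} (hR₁ : 0 ≤ R₁)
    (hR : ∀ u, cx h u ≠ 0 → |u| ≤ R₁) {ε M c₀ ν Dd B₃ : ℝ} (hε : 0 < ε) (hM : 0 ≤ M)
    (hc₀ : 1 ≤ c₀) (hν : 1 ≤ ν) (hDd : 1 ≤ Dd) :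
    ∃ C r : ℝ, 1 ≤ C ∧ 0 ≤ r ∧ ∀ X : ℝ, 3 ≤ X → ∀ (P : DPar), P.OK → HC P.n P.ψ →
      (nm P.n : ℝ) ≤ X ^ B₃ → ¬ NPm P.n P.ψ P.l₂ 1 → ∀ q : Eis, q ≠ 0 → (nm q : ℝ) ≤ X ^ B₃ →
      ∀ (p1 p2 : Pq) (l : List Pq), p1.u = .one → p2.u = .one → p1.kd = .mo → p2.kd = .mo →
      (nm p1.d : ℝ) ≤ X ^ B₃ → (nm p2.d : ℝ) ≤ X ^ B₃ → (p1 :: p2 :: l).length ≤ N →
      (∀ p ∈ p1 :: p2 :: l, 0 ≤ p.z) → LN (p1 :: p2 :: l) ≤ Real.log X →
      ∀ d s0 : ℝ, 0 ≤ d → d ≤ p1.z + p2.z → s0 ≤ p1.z → s0 ≤ p2.z → s0 ≤ p1.z + p2.z - d →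
      s0 ≤ d → ∀ al : Eis → ℂ, Dom ν Dd (xN P h q p1 p2 l d) al →
      ∀ (V E0 F F' Fb : ℝ) (w : ℝ → ℝ), 1 ≤ V → V ≤ X → 0 ≤ F → 0 ≤ F' → 0 ≤ Fb →
      (∀ d, 1 ≤ d → 0 ≤ w d) →
      ∀ (J : Finset (Eis × Eis)) (om : Eis × Eis → ℂ), OKJ J →
      (∀ x ∈ J, (nm (x.2 * x.1 ^ 2) : ℝ) ≤ V) →
      (∀ x ∈ J, om x ≠ 0 → V ≤ c₀ * nm (x.2 * x.1 ^ 2)) → (∀ x, ‖om x‖ ≤ 1) →
      (∀ g : Eis, IsPrim g → (nm g : ℝ) ^ 2 ≤ V → ∀ (b l' : ℝ) (ps' : List Pq), 0 ≤ b → 0 ≤ l' →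
        List.Forall₂ (ChN r) ps' (p1 :: p2 :: l) →
        |LN ps' - (LN (p1 :: p2 :: l) - Real.log (nm g) - b)| ≤ r →
        |l' - (Real.log V - 2 * Real.log (nm g) + b)| ≤ r →
        w (nm g) * (nm g : ℝ) ^ 2 * SNK Dk (q * g) P h l' ps' ≤
          F * cN ps' (p1 :: p2 :: l) ^ M) →
      (∀ g : Eis, IsPrim g → (nm g : ℝ) ^ 2 ≤ V → ∀ (b l' : ℝ) (ps' : List Pq), 0 ≤ b → 0 ≤ l' →
        List.Forall₂ (ChN r) ps' (rl p1 p2 l d) →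
        |LN ps' - (LN (p1 :: p2 :: l) - Real.log (nm g) - b)| ≤ r →
        |l' - (Real.log V - 2 * Real.log (nm g) + b)| ≤ r →
        w (nm g) * (nm g : ℝ) ^ 2 * SNK Dk (q * g) P h l' ps' ≤
          F' * cN ps' (rl p1 p2 l d) ^ M) →
      (∀ g : Eis, IsPrim g → (nm g : ℝ) ^ 2 ≤ V → w (nm g) * (nm g : ℝ) ^ 2 *
        Bs (LN (p1 :: p2 :: l)) s0 (Ht (natl (p1 :: p2 :: l))) V (nm g) ≤ Fb) →
      ∑ x ∈ J, w (nm x.1) * ((nm x.2 : ℝ) ^ (-(1 : ℝ) / 3) * (‖om x‖ ^ 2 *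
        ∑ e ∈ S E0, ‖TE al x e‖ ^ 2)) ≤
        C * X ^ ε * (F + F' + Fb) *
          Real.exp (-(LN (p1 :: p2 :: l)) / 3 - Real.log V / 3) := by
  have hN0 : (0 : ℝ) ≤ N := Nat.cast_nonneg _
  have hNR : 0 ≤ (N : ℝ) * R₁ := by positivity
  set B₀ : ℝ := 1 + N * R₁ with hB₀
  have hB₀1 : 1 ≤ B₀ := by linarith
  obtain ⟨C₁, r, hC₁, hr, H₁⟩ := jbx_raw hpu N hR₁ (ε := ε / 2) (B₃ := B₃) (by positivity) hM hc₀
    hν hDd
  obtain ⟨C₂, hC₂, H₂⟩ := tmom_core (ε := ε / 2) (J₀ := max ((N : ℝ) * M) 12) (c₀ := c₀)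
    (R := 2 * (N * R₁)) (a₁ := B₀) (by positivity) (by positivity) hc₀ (by positivity) hB₀1
  refine ⟨C₂ * C₁ + 1, r, ?_, hr, ?_⟩
  · have : 0 ≤ C₂ * C₁ := by positivity
    linarith
  intro X hX P hP hψ hPn hnp q hq hqX p1 p2 l hu1 hu2 hk1 hk2 hd1 hd2 hlen hz hLX d s0 hd hd' h1 h2
    h3 h4 al hdom V E0 F F' Fb w hV1 hVX hF hF' hFb hw J om hJ hJV hJl hom H H' Hb
  have hX1 : (1 : ℝ) ≤ X := by linarith
  have hX0 : 0 < X := by linarith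
  have hlX : 1 ≤ Real.log X := (Real.le_log_iff_exp_le hX0).2 (by
    linarith [Real.exp_one_lt_d9])
  have hn0 : 0 ≤ LN (p1 :: p2 :: l) := I1K764.LN_nonneg hz
  set n := LN (p1 :: p2 :: l) with hn
  have hYX : Real.exp (n + N * R₁) ≤ X ^ B₀ := by
    rw [Real.rpow_def_of_pos hX0]
    refine Real.exp_le_exp.2 ?_
    have h5 : (N : ℝ) * R₁ ≤ Real.log X * (N * R₁) := le_mul_of_one_le_left hNR hlX
    have h6 : Real.log X * B₀ = Real.log X + Real.log X * (N * R₁) := by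
      rw [hB₀]; ring
    linarith
  have hY1 : 1 ≤ Real.exp (n + N * R₁) := Real.one_le_exp (by positivity)
  have hVX' : V ≤ X ^ B₀ := by
    calc V ≤ X := hVX
      _ = X ^ (1 : ℝ) := (Real.rpow_one X).symm
      _ ≤ _ := Real.rpow_le_rpow_of_exponent_le hX1 hB₀1
  have hXe : X ^ (ε / 2) * X ^ (ε / 2) = X ^ ε := by
    rw [← Real.rpow_add hX0]; congr 1; ring
  have hFF : 0 ≤ F + F' + Fb := by positivity
  have hG0 : 0 ≤ C₁ * X ^ (ε / 2) * (F + F' + Fb) := by positivity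
  have key := H₂ X hX1 (Real.exp (n + N * R₁)) n al hY1 hYX
    (Adm_x hR₁ hR hlen hdom) V E0 (C₁ * X ^ (ε / 2) * (F + F' + Fb)) w hV1 hVX' hG0 hw J om hJ
    hJV hJl hom
    (fun δ hδ hδV B V' hB1 hB2 hV1' hV2' hV3' t => by
      have hδ' := (mem_S (by linarith : (0 : ℝ) ≤ Real.exp (n + N * R₁))).1 hδ
      have hδ1 : (1 : ℝ) ≤ nm δ := nm_ge_one hδ'.2.1.ne_zero
      exact H₁ X hX P hP hψ hPn hnp q hq hqX p1 p2 l hu1 hu2 hk1 hk2 hd1 hd2 hlen hz hLX d s0 hd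
        hd' h1 h2 h3 h4 al hdom V F F' Fb (w (nm δ) * (nm δ : ℝ) ^ 2) hV1 hVX hF hF'
        (mul_nonneg (hw _ hδ1) (by positivity)) δ hδ'.2.1 hδV hδ'.1 B V' t _ hB1 hB2 hV1' hV2'
        hV3' (by linarith) (H δ hδ'.2.1 hδV) (H' δ hδ'.2.1 hδV) (Hb δ hδ'.2.1 hδV))
  refine key.trans ?_
  calc C₂ * X ^ (ε / 2) * (C₁ * X ^ (ε / 2) * (F + F' + Fb)) * Real.exp (-n / 3 - Real.log V / 3)
      = C₂ * C₁ * ((X ^ (ε / 2) * X ^ (ε / 2)) * (F + F' + Fb) *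
        Real.exp (-n / 3 - Real.log V / 3)) := by ring
    _ = C₂ * C₁ * (X ^ ε * (F + F' + Fb) * Real.exp (-n / 3 - Real.log V / 3)) := by rw [hXe]
    _ ≤ (C₂ * C₁ + 1) * (X ^ ε * (F + F' + Fb) * Real.exp (-n / 3 - Real.log V / 3)) :=
        mul_le_mul_of_nonneg_right (by linarith) (by positivity)
    _ = _ := by ring

set_option maxHeartbeats 1000000 in
/-- **the Gram sum of one level by the large sieve, differences, raw form** -/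
theorem gramx_raw {h : ℝ → ℝ} {c : ℝ} (hpu : PU h c) (N : ℕ) {R₁ : ℝ} (hR₁ : 0 ≤ R₁)
    (hR : ∀ u, cx h u ≠ 0 → |u| ≤ R₁) {ε M c₀ ν Dd B₃ : ℝ} (hε : 0 < ε) (hM : 0 ≤ M)
    (hc₀ : 1 ≤ c₀) (hν : 1 ≤ ν) (hDd : 1 ≤ Dd) :
    ∃ C r : ℝ, 1 ≤ C ∧ 0 ≤ r ∧ ∀ X : ℝ, 3 ≤ X → ∀ (P : DPar), P.OK → HC P.n P.ψ →
      (nm P.n : ℝ) ≤ X ^ B₃ → ¬ NPm P.n P.ψ P.l₂ 1 → ∀ q : Eis, q ≠ 0 → (nm q : ℝ) ≤ X ^ B₃ →
      ∀ (p1 p2 : Pq) (l : List Pq), p1.u = .one → p2.u = .one → p1.kd = .mo → p2.kd = .mo →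
      (nm p1.d : ℝ) ≤ X ^ B₃ → (nm p2.d : ℝ) ≤ X ^ B₃ → (p1 :: p2 :: l).length ≤ N →
      (∀ p ∈ p1 :: p2 :: l, 0 ≤ p.z) → LN (p1 :: p2 :: l) ≤ Real.log X →
      ∀ d s0 : ℝ, 0 ≤ d → d ≤ p1.z + p2.z → s0 ≤ p1.z → s0 ≤ p2.z → s0 ≤ p1.z + p2.z - d →
      s0 ≤ d → ∀ al : Eis → ℂ, Dom ν Dd (xN P h q p1 p2 l d) al →
      ∀ (K V B Mb E0 F F' Fb : ℝ), 1 ≤ K → K ≤ X → 1 ≤ V → V ≤ X → 1 ≤ B → B ≤ X → 0 ≤ Mb →
      0 ≤ F → 0 ≤ F' → 0 ≤ Fb →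
      ∀ (J : Finset (Eis × Eis)) (om : Eis × Eis → ℂ), OKJ J →
      (∀ x ∈ J, (nm (x.2 * x.1 ^ 2) : ℝ) ≤ V) →
      (∀ x ∈ J, om x ≠ 0 → V ≤ c₀ * nm (x.2 * x.1 ^ 2)) → (∀ x, ‖om x‖ ≤ 1) →
      ∀ (t : Eis) (b : Eis → ℂ), IsPrim t → (nm t : ℝ) ≤ X →
      (∀ n, b n ≠ 0 → n ∈ primBall ⌊B⌋₊) →
      (∀ s, IsPrim s → ∑ d ∈ primBall ⌊B⌋₊, ‖b (s * d)‖ ^ 2 ≤ Mb / nm s) →
      (∀ g : Eis, IsPrim g → (nm g : ℝ) ^ 2 ≤ V → ∀ (b l' : ℝ) (ps' : List Pq), 0 ≤ b → 0 ≤ l' →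
        List.Forall₂ (ChN r) ps' (p1 :: p2 :: l) →
        |LN ps' - (LN (p1 :: p2 :: l) - Real.log (nm g) - b)| ≤ r →
        |l' - (Real.log V - 2 * Real.log (nm g) + b)| ≤ r →
        (nm g : ℝ) ^ 3 * Qd K V B (nm g) * SNK Dk (q * g) P h l' ps' ≤
          F * cN ps' (p1 :: p2 :: l) ^ M) →
      (∀ g : Eis, IsPrim g → (nm g : ℝ) ^ 2 ≤ V → ∀ (b l' : ℝ) (ps' : List Pq), 0 ≤ b → 0 ≤ l' →
        List.Forall₂ (ChN r) ps' (rl p1 p2 l d) →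
        |LN ps' - (LN (p1 :: p2 :: l) - Real.log (nm g) - b)| ≤ r →
        |l' - (Real.log V - 2 * Real.log (nm g) + b)| ≤ r →
        (nm g : ℝ) ^ 3 * Qd K V B (nm g) * SNK Dk (q * g) P h l' ps' ≤
          F' * cN ps' (rl p1 p2 l d) ^ M) →
      (∀ g : Eis, IsPrim g → (nm g : ℝ) ^ 2 ≤ V → (nm g : ℝ) ^ 3 * Qd K V B (nm g) *
        Bs (LN (p1 :: p2 :: l)) s0 (Ht (natl (p1 :: p2 :: l))) V (nm g) ≤ Fb) →
      ∑ k ∈ (primBall ⌊K⌋₊).filter CbF, (nm k : ℝ) ^ ((1 : ℝ) / 3) *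
        (‖StE E0 J om al (k * t ^ 3)‖ ^ 2 * ‖CS b (k * t ^ 3)‖ ^ 2) ≤
        C * X ^ ε * (Mb * (F + F' + Fb) *
          Real.exp (-(LN (p1 :: p2 :: l)) / 3 - Real.log V / 3)) := by
  have hN0 : (0 : ℝ) ≤ N := Nat.cast_nonneg _
  have hNR : 0 ≤ (N : ℝ) * R₁ := by positivity
  set B₀ : ℝ := 1 + N * R₁ with hB₀
  have hB₀1 : 1 ≤ B₀ := by linarith
  obtain ⟨C₁, r, hC₁, hr, H₁⟩ := jbx_raw hpu N hR₁ (ε := ε / 2) (B₃ := B₃) (by positivity) hM hc₀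
    hν hDd
  obtain ⟨C₂, hC₂, H₂⟩ := gram_core (ε := ε / 2) (J₀ := max ((N : ℝ) * M) 12) (c₀ := c₀)
    (R := 2 * (N * R₁)) (a₁ := B₀) (by positivity) (by positivity) hc₀ (by positivity) hB₀1
  refine ⟨C₂ * C₁ + 1, r, ?_, hr, ?_⟩
  · have : 0 ≤ C₂ * C₁ := by positivity
    linarith
  intro X hX P hP hψ hPn hnp q hq hqX p1 p2 l hu1 hu2 hk1 hk2 hd1 hd2 hlen hz hLX d s0 hd hd' h1 h2
    h3 h4 al hdom K V B Mb E0 F F' Fb hK hKX hV1 hVX hB hBX hMb hF hF' hFb J om hJ hJV hJl hom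
    t b ht htX hb hMb' H H' Hb
  have hX1 : (1 : ℝ) ≤ X := by linarith
  have hX0 : 0 < X := by linarith
  have hlX : 1 ≤ Real.log X := (Real.le_log_iff_exp_le hX0).2 (by
    linarith [Real.exp_one_lt_d9])
  have hn0 : 0 ≤ LN (p1 :: p2 :: l) := I1K764.LN_nonneg hz
  set n := LN (p1 :: p2 :: l) with hn
  have hYX : Real.exp (n + N * R₁) ≤ X ^ B₀ := by
    rw [Real.rpow_def_of_pos hX0]
    refine Real.exp_le_exp.2 ?_
    have h5 : (N : ℝ) * R₁ ≤ Real.log X * (N * R₁) := le_mul_of_one_le_left hNR hlX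
    have h6 : Real.log X * B₀ = Real.log X + Real.log X * (N * R₁) := by
      rw [hB₀]; ring
    linarith
  have hY1 : 1 ≤ Real.exp (n + N * R₁) := Real.one_le_exp (by positivity)
  have hXe : X ^ (ε / 2) * X ^ (ε / 2) = X ^ ε := by
    rw [← Real.rpow_add hX0]; congr 1; ring
  have hFF : 0 ≤ F + F' + Fb := by positivity
  have hG0 : 0 ≤ C₁ * X ^ (ε / 2) * (F + F' + Fb) := by positivity
  have key := H₂ X hX1 (Real.exp (n + N * R₁)) n al hY1 hYX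
    (Adm_x hR₁ hR hlen hdom) K V B Mb E0 (C₁ * X ^ (ε / 2) * (F + F' + Fb)) hK hKX hV1 hVX hB hBX
    hMb hG0 J om hJ hJV hJl hom t b ht htX hb hMb'
    (fun δ hδ hδV B' V' hB1 hB2 hV1' hV2' hV3' t => by
      have hδ' := (mem_S (by linarith : (0 : ℝ) ≤ Real.exp (n + N * R₁))).1 hδ
      have hδ1 : (1 : ℝ) ≤ nm δ := nm_ge_one hδ'.2.1.ne_zero
      exact H₁ X hX P hP hψ hPn hnp q hq hqX p1 p2 l hu1 hu2 hk1 hk2 hd1 hd2 hlen hz hLX d s0 hd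
        hd' h1 h2 h3 h4 al hdom V F F' Fb ((nm δ : ℝ) ^ 3 * Qd K V B (nm δ)) hV1 hVX hF hF'
        (mul_nonneg (by positivity)
          (Qd_nonneg (by linarith) (by linarith) (by linarith) (by linarith)))
        δ hδ'.2.1 hδV hδ'.1 B' V' t _ hB1 hB2 hV1' hV2'
        hV3' (by linarith) (H δ hδ'.2.1 hδV) (H' δ hδ'.2.1 hδV) (Hb δ hδ'.2.1 hδV))
  refine key.trans ?_
  calc C₂ * X ^ (ε / 2) * (Mb * (C₁ * X ^ (ε / 2) * (F + F' + Fb)) *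
        Real.exp (-n / 3 - Real.log V / 3))
      = C₂ * C₁ * ((X ^ (ε / 2) * X ^ (ε / 2)) * (Mb * (F + F' + Fb) *
        Real.exp (-n / 3 - Real.log V / 3))) := by ring
    _ = C₂ * C₁ * (X ^ ε * (Mb * (F + F' + Fb) * Real.exp (-n / 3 - Real.log V / 3))) := by
        rw [hXe]
    _ ≤ (C₂ * C₁ + 1) * (X ^ ε * (Mb * (F + F' + Fb) * Real.exp (-n / 3 - Real.log V / 3))) :=
        mul_le_mul_of_nonneg_right (by linarith) (by positivity)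
    _ = _ := by ring

end Crest.Agent.R017.TMx968
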