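import Crest.Agent.R017.Two6_939
import Crest.Agent.R017.FY1_813
import Crest.Agent.R017.CM1_106

/-!
# Row 17: two-factor sides, squarefree → natural (1): the exact identity (helper411)

`S2_eq` : the bilinear sum over `(d, e)` with `d e` squarefree and prime to `q` is a finite
combination (coefficients `mj q j`, independent of the lengths and of the heights) of products of
natural smooth sums of lengths `Z₁ / N(a₁)`, `Z₂ / N(a₂)`, `a₁ = g s₁² r₁`, `a₂ = g s₂² r₂`.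
-/

set_option autoImplicit false

noncomputable section

open Complex MeasureTheory Filter Topology
open scoped ContDiff ComplexConjugate

namespace Crest.Agent.R017.TPE411

open Crest.Agent.R012 Crest.Agent.R012.Eis Crest.Agent.R012.Gauss880
open Crest.Agent.R012.Weight600 (osc norm_osc)
open Crest.Agent.R012.PSer47 Crest.Agent.R012.Div277 Crest.Agent.R012.Mob705
open Crest.Agent.R017.End699 Crest.Agent.R017.FE47 Crest.Agent.R017.Two939
open Crest.Agent.R017.FY813 (FS nm_sq)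

/-- all primary elements in the support of the weight at the scale `κ` have norm `≤ N` -/
def SupN (w : ℝ → ℂ) (κ : ℝ) (N : ℕ) : Prop :=
  ∀ κ' : ℝ, κ' ≤ κ → ∀ b : Eis, IsPrim b → w (Real.log (nm b) - κ') ≠ 0 → nm b ≤ N

lemma supN_of {w : ℝ → ℂ} {R : ℝ} (hR : ∀ u, w u ≠ 0 → |u| ≤ R) {κ : ℝ} {N : ℕ}
    (hN : Real.exp (κ + R) < N + 1) : SupN w κ N := by
  intro κ' hκ b hb h
  have h3 := (abs_le.mp (hR _ h)).2
  have h4 : Real.log (nm b) ≤ κ + R := by linarith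
  have h5 : (nm b : ℝ) ≤ Real.exp (κ + R) := by
    rwa [← Real.log_le_iff_le_exp (by have := one_le_nm hb; linarith)]
  have h6 : (nm b : ℝ) < N + 1 := lt_of_le_of_lt h5 hN
  have h7 : nm b < N + 1 := by exact_mod_cast h6
  omega

lemma SupN.mono {w : ℝ → ℂ} {κ κ' : ℝ} {N : ℕ} (h : SupN w κ N) (hκ : κ' ≤ κ) : SupN w κ' N :=
  fun k hk b hb h0 => h k (hk.trans hκ) b hb h0

/-- the summand of a smooth sum -/
def tm (w : ℝ → ℂ) (Ξ : Eis → ℂ) (κ t : ℝ) (b : Eis) : ℂ :=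
  End699.ext Ξ b * (osc t (Real.log (nm b)) * w (Real.log (nm b) - κ))

lemma PS_eq_tm (w : ℝ → ℂ) (Ξ : Eis → ℂ) (κ t : ℝ) : PS w Ξ κ t = ∑' b, tm w Ξ κ t b := rfl

lemma tm_prim {w : ℝ → ℂ} {Ξ : Eis → ℂ} {κ t : ℝ} {b : Eis} (hb : ¬ IsPrim b) :
    tm w Ξ κ t b = 0 := by
  unfold tm
  simp [End699.ext, hb]

lemma tm_zero {w : ℝ → ℂ} {Ξ : Eis → ℂ} {κ : ℝ} {N : ℕ} (hN : SupN w κ N) (t : ℝ) {b : Eis}
    (hb : b ∉ primBall N) : tm w Ξ κ t b = 0 := by
  by_cases hp : IsPrim b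
  · unfold tm
    by_cases h0 : w (Real.log (nm b) - κ) = 0
    · rw [h0]; simp
    · exact absurd (mem_primBall.mpr ⟨hN κ le_rfl b hp h0, hp⟩) hb
  · exact tm_prim hp

lemma tm_mul {w : ℝ → ℂ} {Ξ : Eis → ℂ} (hΞ : IsChar Ξ) (κ t : ℝ) {g : Eis} (hg : IsPrim g)
    (b : Eis) : tm w Ξ κ t (g * b) =
      (Ξ g * osc t (Real.log (nm g))) * tm w Ξ (κ - Real.log (nm g)) t b := by
  unfold tm
  by_cases hb : IsPrim b
  · have hpb : IsPrim (g * b) := hg.mul hb
    have hp1 := one_le_nm hg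
    have hb1 := one_le_nm hb
    simp only [End699.ext, if_pos hb, if_pos hpb]
    have e1 : Real.log (nm (g * b)) = Real.log (nm g) + Real.log (nm b) := by
      rw [nm_mul]; push_cast
      rw [Real.log_mul (by linarith) (by linarith)]
    have e2 : Real.log (nm g) + Real.log (nm b) - κ =
        Real.log (nm b) - (κ - Real.log (nm g)) := by ring
    rw [e1, hΞ.mul g b hg hb, Weight600.osc_add_right, e2]
    ring
  · have hpb : ¬ IsPrim (g * b) := fun h => hb ((P355.isPrim_mul_iff hg).mp h)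
    simp [End699.ext, hb, hpb]

open Classical in
/-- explicit form of 813's `FS_eq` -/
theorem FS_eqN {w : ℝ → ℂ} {Ξ : Eis → ℂ} (hΞ : IsChar Ξ) {κ : ℝ} {N : ℕ} (hN : SupN w κ N)
    (t : ℝ) : FS w Ξ κ t = ∑ d ∈ primBall N, (muE d : ℂ) * (Ξ (d ^ 2) *
      osc t (Real.log (nm (d ^ 2))) * PS w Ξ (κ - Real.log (nm (d ^ 2))) t) := by
  have hNb : ∀ b : Eis, IsPrim b → w (Real.log (nm b) - κ) ≠ 0 → b ∈ primBall N := fun b hb h =>
    mem_primBall.mpr ⟨hN κ le_rfl b hb h, hb⟩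
  have e1 : ∀ b : Eis, End699.ext (fun b => if Squarefree b then Ξ b else 0) b *
      (osc t (Real.log (nm b)) * w (Real.log (nm b) - κ)) =
      ∑ d ∈ primBall N, (muE d : ℂ) * (if d ^ 2 ∣ b then End699.ext Ξ b *
        (osc t (Real.log (nm b)) * w (Real.log (nm b) - κ)) else 0) := by
    intro b
    by_cases hb : IsPrim b
    · by_cases h0 : w (Real.log (nm b) - κ) = 0
      · rw [h0]; simp
      · have hbN := hNb b hb h0
        have h := sum_muE_sq hb
        have hsub : ∑ d ∈ dvs b, (if d ^ 2 ∣ b then muE d else 0) =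
            ∑ d ∈ primBall N, (if d ^ 2 ∣ b then muE d else 0) := by
          refine Finset.sum_subset ?_ ?_
          · intro d hd
            have h1 := isPrim_of_mem_dvs hd
            have h2 := dvd_of_mem_dvs hd
            rw [mem_primBall] at hbN ⊢
            exact ⟨(nm_le_of_dvd hb.ne_zero h2).trans hbN.1, h1⟩
          · intro d hd hnd
            rw [if_neg]
            intro h2
            apply hnd
            rw [mem_primBall] at hd
            rw [mem_dvs hb.ne_zero]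
            exact ⟨hd.2, (dvd_pow_self d two_ne_zero).trans h2⟩
        rw [hsub] at h
        have h' : (∑ d ∈ primBall N, (muE d : ℂ) * (if d ^ 2 ∣ b then (1 : ℂ) else 0)) =
            if Squarefree b then 1 else 0 := by
          have h2 := congrArg (fun z : ℤ => (z : ℂ)) h
          simp only [Int.cast_sum] at h2
          have h3 : ((if Squarefree b then (1 : ℤ) else 0 : ℤ) : ℂ) =
              if Squarefree b then 1 else 0 := by split_ifs <;> simp
          rw [← h3, ← h2]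
          refine Finset.sum_congr rfl fun d _ => ?_
          split_ifs <;> simp
        have e2 : ∑ d ∈ primBall N, (muE d : ℂ) * (if d ^ 2 ∣ b then End699.ext Ξ b *
          (osc t (Real.log (nm b)) * w (Real.log (nm b) - κ)) else 0) =
          (∑ d ∈ primBall N, (muE d : ℂ) * (if d ^ 2 ∣ b then (1 : ℂ) else 0)) * (End699.ext Ξ b *
          (osc t (Real.log (nm b)) * w (Real.log (nm b) - κ))) := by
          rw [Finset.sum_mul]
          refine Finset.sum_congr rfl fun d _ => ?_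
          split_ifs <;> ring
        rw [e2, h']
        simp only [End699.ext, if_pos hb]
        split_ifs <;> ring
    · simp [End699.ext, hb]
  unfold FS PS
  rw [tsum_congr e1, Summable.tsum_finsetSum]
  · refine Finset.sum_congr rfl fun d hd => ?_
    have hdp : IsPrim d := (mem_primBall.mp hd).2
    have hd2 : IsPrim (d ^ 2) := by rw [sq]; exact hdp.mul hdp
    rw [tsum_mul_left, FE47.tsum_dvd hΞ hd2]
    rfl
  · intro d _
    refine Summable.mul_left _ ?_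
    refine summable_of_ne_finset_zero (s := primBall N) fun b hb => ?_
    by_cases hp : IsPrim b
    · by_cases h0 : w (Real.log (nm b) - κ) = 0
      · rw [h0]; simp
      · exact absurd (hNb b hp h0) hb
    · simp [End699.ext, hp]

/-- removal of a coprimality condition -/
lemma PS_prin0 {w : ℝ → ℂ} (hw : HasCompactSupport w) {Ξ : Eis → ℂ} (hΞ : IsChar Ξ) {m : Eis}
    (hm : m ≠ 0) (κ t : ℝ) :
    PS w (fun b => Ξ b * prin0 m b) κ t =
      ∑ d ∈ dvs m, (muE d : ℂ) * (Ξ d * osc t (Real.log (nm d)) *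
        PS w Ξ (κ - Real.log (nm d)) t) := by
  rw [← PS_cop hw hΞ hm]
  refine PS_congr (fun b _ => ?_) _ _
  unfold prin0
  split_ifs <;> simp

/-! ### the pair sum -/

/-- squarefree and prime to `q` -/
def Cq (q d : Eis) : Prop := Squarefree d ∧ IsCoprime d q

lemma cq_mul {q d e : Eis} : Cq q (d * e) ↔ Cq q d ∧ Cq q e ∧ IsCoprime d e := by
  unfold Cq
  rw [squarefree_mul_iff, isRelPrime_iff_isCoprime, IsCoprime.mul_left_iff]
  tauto

open Classical in
lemma sum_mu_pair {N : ℕ} {d e : Eis} (hd : d ∈ primBall N) (he : IsPrim e) :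
    ∑ g ∈ primBall N, (if g ∣ d ∧ g ∣ e then (muE g : ℂ) else 0) =
      if IsCoprime d e then 1 else 0 := by
  have hdp : IsPrim d := (mem_primBall.mp hd).2
  have h := sum_muE_coprime he hdp.ne_zero
  have h1 : ∑ g ∈ primBall N, (if g ∣ d ∧ g ∣ e then muE g else 0) =
      ∑ g ∈ dvs d, (if g ∣ e then muE g else 0) := by
    symm
    rw [← Finset.sum_filter, ← Finset.sum_filter]
    refine Finset.sum_congr ?_ fun _ _ => rfl
    ext g
    rw [Finset.mem_filter, Finset.mem_filter, mem_dvs hdp.ne_zero, mem_primBall]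
    constructor
    · rintro ⟨⟨h1, h2⟩, h3⟩
      exact ⟨⟨(nm_le_of_dvd hdp.ne_zero h2).trans (mem_primBall.mp hd).1, h1⟩, h2, h3⟩
    · rintro ⟨⟨h1, h2⟩, h3, h4⟩
      exact ⟨⟨h2, h3⟩, h4⟩
  rw [h] at h1
  have h2 := congrArg (fun z : ℤ => (z : ℂ)) h1
  simp only [Int.cast_sum] at h2
  have h3 : ((if IsCoprime e d then (1 : ℤ) else 0 : ℤ) : ℂ) =
      if IsCoprime d e then 1 else 0 := by
    by_cases hc : IsCoprime d e
    · rw [if_pos hc, if_pos hc.symm]; simp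
    · rw [if_neg hc, if_neg (fun h' => hc h'.symm)]; simp
  rw [← h3, ← h2]
  refine Finset.sum_congr rfl fun g _ => ?_
  split_ifs <;> simp

open Classical in
lemma pair_g {N : ℕ} (q : Eis) {X Y : Eis → ℂ} (hX : ∀ d, d ∉ primBall N → X d = 0)
    (hY : ∀ d, d ∉ primBall N → Y d = 0) :
    ∑' p : Eis × Eis, (if Cq q (p.1 * p.2) then X p.1 * Y p.2 else 0) =
      ∑ g ∈ primBall N, (muE g : ℂ) *
        ((∑ d ∈ primBall N, if g ∣ d ∧ Cq q d then X d else 0) *
          (∑ e ∈ primBall N, if g ∣ e ∧ Cq q e then Y e else 0)) := by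
  rw [tsum_eq_sum (s := primBall N ×ˢ primBall N)]
  swap
  · intro p hp
    rw [Finset.mem_product, not_and_or] at hp
    rcases hp with hp | hp
    · rw [hX _ hp]; simp
    · rw [hY _ hp]; simp
  rw [Finset.sum_product]
  have e1 : ∀ g ∈ primBall N, (muE g : ℂ) *
        ((∑ d ∈ primBall N, if g ∣ d ∧ Cq q d then X d else 0) *
          (∑ e ∈ primBall N, if g ∣ e ∧ Cq q e then Y e else 0)) =
      ∑ d ∈ primBall N, ∑ e ∈ primBall N, (if g ∣ d ∧ g ∣ e then (muE g : ℂ) else 0) *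
        (if Cq q d ∧ Cq q e then X d * Y e else 0) := by
    intro g _
    rw [Finset.sum_mul_sum, Finset.mul_sum]
    refine Finset.sum_congr rfl fun d _ => ?_
    rw [Finset.mul_sum]
    refine Finset.sum_congr rfl fun e _ => ?_
    by_cases h1 : g ∣ d <;> by_cases h2 : g ∣ e <;> by_cases h3 : Cq q d <;>
      by_cases h4 : Cq q e <;> simp [h1, h2, h3, h4]
  rw [Finset.sum_congr rfl e1]
  conv_rhs => rw [Finset.sum_comm]
  refine Finset.sum_congr rfl fun d hd => ?_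
  conv_rhs => rw [Finset.sum_comm]
  refine Finset.sum_congr rfl fun e he => ?_
  rw [← Finset.sum_mul, sum_mu_pair hd (mem_primBall.mp he).2]
  by_cases h1 : Cq q d <;> by_cases h2 : Cq q e <;> by_cases h3 : IsCoprime d e <;>
    simp [cq_mul, h1, h2, h3]

open Classical in
lemma sum_g {w : ℝ → ℂ} {Ξ : Eis → ℂ} (hΞ : IsChar Ξ) {κ : ℝ} {N : ℕ} (hN : SupN w κ N)
    (t : ℝ) (q : Eis) {g : Eis} (hg : IsPrim g) (hs : Squarefree g) :
    ∑ d ∈ primBall N, (if g ∣ d ∧ Cq q d then tm w Ξ κ t d else 0) =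
      if IsCoprime g q then Ξ g * osc t (Real.log (nm g)) *
        FS w (fun b => Ξ b * prin0 (q * g) b) (κ - Real.log (nm g)) t else 0 := by
  have e0 : ∑ d ∈ primBall N, (if g ∣ d ∧ Cq q d then tm w Ξ κ t d else 0) =
      ∑' d, (if g ∣ d ∧ Cq q d then tm w Ξ κ t d else 0) := by
    symm
    apply tsum_eq_sum
    intro d hd
    rw [tm_zero hN t hd, ite_self]
  rw [e0]
  have hinj : Function.Injective (fun y : Eis => g * y) := mul_right_injective₀ hg.ne_zero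
  have hsup : Function.support (fun d => if g ∣ d ∧ Cq q d then tm w Ξ κ t d else 0) ⊆
      Set.range (fun y : Eis => g * y) := by
    intro d hd
    by_cases h : g ∣ d
    · obtain ⟨y, rfl⟩ := h
      exact ⟨y, rfl⟩
    · exfalso; apply hd; simp [h]
  rw [← hinj.tsum_eq hsup]
  have hcq : ∀ y : Eis, Cq q (g * y) ↔ IsCoprime g q ∧ (Squarefree y ∧ IsCoprime y (q * g)) := by
    intro y
    rw [cq_mul]
    unfold Cq
    rw [IsCoprime.mul_right_iff]
    constructor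
    · rintro ⟨⟨_, h2⟩, ⟨h3, h4⟩, h5⟩
      exact ⟨h2, h3, h4, h5.symm⟩
    · rintro ⟨h2, h3, h4, h5⟩
      exact ⟨⟨hs, h2⟩, ⟨h3, h4⟩, h5.symm⟩
  by_cases hc : IsCoprime g q
  · rw [if_pos hc]
    unfold FS PS
    rw [← tsum_mul_left]
    refine tsum_congr fun y => ?_
    simp only [dvd_mul_right, true_and, hcq, hc]
    rw [tm_mul hΞ κ t hg]
    unfold tm
    by_cases hy : IsPrim y
    · simp only [End699.ext, if_pos hy]
      unfold prin0
      by_cases h1 : Squarefree y <;> by_cases h2 : IsCoprime y (q * g) <;> simp [h1, h2]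
    · simp [End699.ext, hy]
  · rw [if_neg hc]
    simp only [hcq, hc, false_and, and_false, if_false, tsum_zero]

/-! ### the index set -/

/-- the indices `(g, (s₁, r₁), (s₂, r₂))` -/
def JJ (q : Eis) (N : ℕ) : Finset (Σ _ : Eis, (Eis × Eis) × (Eis × Eis)) :=
  (primBall N).sigma fun g => (primBall N ×ˢ dvs (q * g)) ×ˢ (primBall N ×ˢ dvs (q * g))

open Classical in
/-- the coefficients -/
def mj (q : Eis) (j : Σ _ : Eis, (Eis × Eis) × (Eis × Eis)) : ℂ :=
  (if IsCoprime j.1 q then (muE j.1 : ℂ) else 0) *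
    (((muE j.2.1.1 : ℂ) * prin0 (q * j.1) (j.2.1.1 ^ 2) * (muE j.2.1.2 : ℂ)) *
      ((muE j.2.2.1 : ℂ) * prin0 (q * j.1) (j.2.2.1 ^ 2) * (muE j.2.2.2 : ℂ)))

/-- `a₁ = g s₁² r₁` -/
def A1 (j : Σ _ : Eis, (Eis × Eis) × (Eis × Eis)) : Eis := j.1 * (j.2.1.1 ^ 2 * j.2.1.2)

/-- `a₂ = g s₂² r₂` -/
def A2 (j : Σ _ : Eis, (Eis × Eis) × (Eis × Eis)) : Eis := j.1 * (j.2.2.1 ^ 2 * j.2.2.2)

lemma mem_JJ {q : Eis} {N : ℕ} {j : Σ _ : Eis, (Eis × Eis) × (Eis × Eis)} :
    j ∈ JJ q N → IsPrim j.1 ∧ (IsPrim j.2.1.1 ∧ IsPrim j.2.1.2) ∧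
      (IsPrim j.2.2.1 ∧ IsPrim j.2.2.2) := by
  intro h
  unfold JJ at h
  rw [Finset.mem_sigma, Finset.mem_product, Finset.mem_product, Finset.mem_product,
    mem_primBall, mem_primBall, mem_primBall] at h
  exact ⟨h.1.2, ⟨h.2.1.1.2, isPrim_of_mem_dvs h.2.1.2⟩, ⟨h.2.2.1.2, isPrim_of_mem_dvs h.2.2.2⟩⟩

/-- the shifted factor -/
def fac (w : ℝ → ℂ) (Ξ : Eis → ℂ) (κ t : ℝ) (a : Eis) : ℂ :=
  Ξ a * osc t (Real.log (nm a)) * PS w Ξ (κ - Real.log (nm a)) t

lemma norm_mu_le (d : Eis) : ‖(muE d : ℂ)‖ ≤ 1 := by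
  rw [Complex.norm_intCast]
  have h3 := abs_muE d
  have h4 : |muE d| ≤ 1 := by rw [h3]; split_ifs <;> norm_num
  exact_mod_cast h4

lemma norm_prin0_le (m b : Eis) : ‖prin0 m b‖ ≤ 1 := by
  unfold prin0
  split_ifs <;> simp

lemma mul_le_one' {a b : ℝ} (ha : a ≤ 1) (hb0 : 0 ≤ b) (hb : b ≤ 1) : a * b ≤ 1 := by
  nlinarith

open Classical in
lemma norm_mj_le (q : Eis) (j : Σ _ : Eis, (Eis × Eis) × (Eis × Eis)) : ‖mj q j‖ ≤ 1 := by
  unfold mj
  have h1 : ‖(if IsCoprime j.1 q then (muE j.1 : ℂ) else 0)‖ ≤ 1 := by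
    split_ifs
    · exact norm_mu_le _
    · simp
  have a1 := norm_mu_le j.2.1.1
  have a2 := norm_mu_le j.2.1.2
  have a3 := norm_mu_le j.2.2.1
  have a4 := norm_mu_le j.2.2.2
  have b1 := norm_prin0_le (q * j.1) (j.2.1.1 ^ 2)
  have b2 := norm_prin0_le (q * j.1) (j.2.2.1 ^ 2)
  have c1 : ‖(muE j.2.1.1 : ℂ) * prin0 (q * j.1) (j.2.1.1 ^ 2) * (muE j.2.1.2 : ℂ)‖ ≤ 1 := by
    rw [norm_mul, norm_mul]
    exact mul_le_one' (mul_le_one' a1 (norm_nonneg _) b1) (norm_nonneg _) a2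
  have c2 : ‖(muE j.2.2.1 : ℂ) * prin0 (q * j.1) (j.2.2.1 ^ 2) * (muE j.2.2.2 : ℂ)‖ ≤ 1 := by
    rw [norm_mul, norm_mul]
    exact mul_le_one' (mul_le_one' a3 (norm_nonneg _) b2) (norm_nonneg _) a4
  rw [norm_mul, norm_mul]
  exact mul_le_one' h1 (by positivity) (mul_le_one' c1 (norm_nonneg _) c2)

lemma log_nm_mul {a b : Eis} (ha : IsPrim a) (hb : IsPrim b) :
    Real.log (nm (a * b)) = Real.log (nm a) + Real.log (nm b) := by
  have h1 := one_le_nm ha
  have h2 := one_le_nm hb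
  rw [nm_mul]; push_cast
  rw [Real.log_mul (by linarith) (by linarith)]

/-- `FS` with a coprimality condition in terms of natural smooth sums -/
lemma FS_prin0 {w : ℝ → ℂ} (hw : HasCompactSupport w) {Ξ : Eis → ℂ} (hΞ : IsChar Ξ) {m : Eis}
    (hm : m ≠ 0) {κ : ℝ} {N : ℕ} (hN : SupN w κ N) (t : ℝ) :
    FS w (fun b => Ξ b * prin0 m b) κ t = ∑ p ∈ primBall N ×ˢ dvs m,
      ((muE p.1 : ℂ) * prin0 m (p.1 ^ 2) * (muE p.2 : ℂ)) *
        (Ξ (p.1 ^ 2 * p.2) * osc t (Real.log (nm (p.1 ^ 2 * p.2))) *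
          PS w Ξ (κ - Real.log (nm (p.1 ^ 2 * p.2))) t) := by
  rw [FS_eqN (hΞ.mul' (isChar_prin0 m)) hN, Finset.sum_product]
  refine Finset.sum_congr rfl fun s hs => ?_
  have hsp : IsPrim s := (mem_primBall.mp hs).2
  have hs2 : IsPrim (s ^ 2) := by rw [sq]; exact hsp.mul hsp
  rw [PS_prin0 hw hΞ hm, Finset.mul_sum, Finset.mul_sum]
  refine Finset.sum_congr rfl fun r hr => ?_
  have hrp := isPrim_of_mem_dvs hr
  rw [hΞ.mul _ _ hs2 hrp, log_nm_mul hs2 hrp, Weight600.osc_add_right]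
  have e1 : κ - Real.log (nm (s ^ 2)) - Real.log (nm r) =
      κ - (Real.log (nm (s ^ 2)) + Real.log (nm r)) := by ring
  rw [e1]
  ring

open Classical in
/-- **the exact identity** -/
theorem S2_eq {w : ℝ → ℂ} (hw : HasCompactSupport w) {Ξ : Eis → ℂ} (hΞ : IsChar Ξ) {q : Eis}
    (hq : q ≠ 0) {κ₁ κ₂ : ℝ} {N : ℕ} (h1 : SupN w κ₁ N) (h2 : SupN w κ₂ N) (t₁ t₂ : ℝ) :
    ∑' p : Eis × Eis, (if Cq q (p.1 * p.2) then tm w Ξ κ₁ t₁ p.1 * tm w Ξ κ₂ t₂ p.2 else 0) =
      ∑ j ∈ JJ q N, mj q j * (fac w Ξ κ₁ t₁ (A1 j) * fac w Ξ κ₂ t₂ (A2 j)) := by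
  rw [pair_g q (fun d hd => tm_zero h1 t₁ hd) (fun d hd => tm_zero h2 t₂ hd)]
  unfold JJ
  rw [Finset.sum_sigma]
  refine Finset.sum_congr rfl fun g hg => ?_
  have hgp : IsPrim g := (mem_primBall.mp hg).2
  by_cases hs : Squarefree g
  swap
  · have h0 : muE g = 0 := by
      have h3 := abs_muE g
      rw [if_neg hs, abs_eq_zero] at h3
      exact h3
    rw [h0]
    simp [mj, h0]
  rw [sum_g hΞ h1 t₁ q hgp hs, sum_g hΞ h2 t₂ q hgp hs]
  by_cases hc : IsCoprime g q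
  swap
  · rw [if_neg hc, if_neg hc]
    simp [mj, hc]
  have hqg : q * g ≠ 0 := mul_ne_zero hq hgp.ne_zero
  have hl := log_nm_nonneg hgp
  rw [if_pos hc, if_pos hc,
    FS_prin0 hw hΞ hqg (h1.mono (by linarith)) t₁,
    FS_prin0 hw hΞ hqg (h2.mono (by linarith)) t₂,
    Finset.mul_sum, Finset.mul_sum, Finset.sum_mul_sum, Finset.mul_sum]
  rw [Finset.sum_product (s := primBall N ×ˢ dvs (q * g)) (t := primBall N ×ˢ dvs (q * g))]
  refine Finset.sum_congr rfl fun p1 hp1 => ?_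
  rw [Finset.mul_sum]
  refine Finset.sum_congr rfl fun p2 hp2 => ?_
  rw [Finset.mem_product, mem_primBall] at hp1 hp2
  have hs1 : IsPrim (p1.1 ^ 2) := by rw [sq]; exact hp1.1.2.mul hp1.1.2
  have hs2 : IsPrim (p2.1 ^ 2) := by rw [sq]; exact hp2.1.2.mul hp2.1.2
  have hr1 : IsPrim (p1.1 ^ 2 * p1.2) := hs1.mul (isPrim_of_mem_dvs hp1.2)
  have hr2 : IsPrim (p2.1 ^ 2 * p2.2) := hs2.mul (isPrim_of_mem_dvs hp2.2)
  unfold mj fac A1 A2
  simp only [if_pos hc]
  rw [hΞ.mul _ _ hgp hr1, hΞ.mul _ _ hgp hr2, log_nm_mul hgp hr1, log_nm_mul hgp hr2,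
    Weight600.osc_add_right, Weight600.osc_add_right]
  have e1 : κ₁ - Real.log (nm g) - Real.log (nm (p1.1 ^ 2 * p1.2)) =
      κ₁ - (Real.log (nm g) + Real.log (nm (p1.1 ^ 2 * p1.2))) := by ring
  have e2 : κ₂ - Real.log (nm g) - Real.log (nm (p2.1 ^ 2 * p2.2)) =
      κ₂ - (Real.log (nm g) + Real.log (nm (p2.1 ^ 2 * p2.2))) := by ring
  rw [e1, e2]
  ring

end Crest.Agent.R017.TPE411
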