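import Crest.Agent.R017.TPEa_411
import Crest.Agent.R017.TPDefs_320

/-!
# Row 17: two-factor sides, squarefree → natural (2): separation of the scales (helper411)

* `CS_sq_eq` : `CS (sq q (w2 ..)) k` through natural smooth sums (`S2_eq`)
* `P_sep_sq` : change of the scale of a natural smooth sum
* `PP_le`    : second moment of a product of two smooth sums at arbitrary scales `Y₁, Y₂ > 0`
-/

set_option autoImplicit false

noncomputable section

open Complex MeasureTheory Filter Topology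
open scoped ContDiff ComplexConjugate

namespace Crest.Agent.R017.TPE411

open Crest.Agent.R012 Crest.Agent.R012.Eis Crest.Agent.R012.Gauss880 Crest.Agent.R012.LS2
open Crest.Agent.R012.Weight600 (osc norm_osc ker)
open Crest.Agent.R012.PSer47 Crest.Agent.R012.Div277 Crest.Agent.R012.Mob705
open Crest.Agent.R017.End699 Crest.Agent.R017.FE47 Crest.Agent.R017.Two939
open Crest.Agent.R017.CM106 (CS)
open Crest.Agent.R017.TP320 (w2 VC)

/-! ### the bridge -/

lemma isChar_sy (k : Eis) : IsChar (fun b => sy k b) where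
  one := Sym645.sy_one_right _
  mul a b ha hb := syG.mul_right k a b ha hb
  norm a ha := by
    by_cases h : IsCoprime k a
    · right
      have h1 := syG.cube k a ha h
      have h2 : ‖sy k a‖ ^ 3 = 1 := by rw [← norm_pow, h1, norm_one]
      exact (pow_eq_one_iff_of_nonneg (norm_nonneg _) (by norm_num)).mp h2
    · left
      exact (syG.eq_zero k a ha).mpr h

lemma isChar_XK {M : Eis} {χ : Eis → ℂ} (hχ : HC M χ) (l : ℤ) (k : Eis) :
    IsChar (XK χ (sy k) l) := (hχ.char.mul' (isChar_sy k)).mul' (ang_isChar l)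

lemma cfa_sy {h : ℝ → ℝ} {χ : Eis → ℂ} (l : ℤ) (Y t : ℝ) (k b : Eis) :
    cfa h χ l Y t b * sy k b = tm (cx h) (XK χ (sy k) l) (Real.log Y) t b := by
  unfold cfa tm XK
  by_cases hb : IsPrim b
  · simp only [End699.ext, if_pos hb]; ring
  · simp [End699.ext, hb]

lemma FS_cfa {h : ℝ → ℝ} (hh : HasCompactSupport h) (χ : Eis → ℂ) (l : ℤ) (Y t : ℝ) :
    CM106.FS (cfa h χ l Y t) where
  fin := by
    obtain ⟨N, hN⟩ := cfa_support hh χ l Y
    exact (Finset.finite_toSet (primBall N)).subset fun b hb => hN t b hb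
  prim m hm := by
    by_contra h0
    exact hm (cfa_prim h0)

open Classical in
lemma CS_sq_pair {h : ℝ → ℝ} (hh : HasCompactSupport h) (χ : Eis → ℂ) (l : ℤ) (q k : Eis)
    (Z1 Z2 t1 t2 : ℝ) :
    CS (TP320.sq q (w2 h χ l Z1 Z2 t1 t2)) k =
      ∑' p : Eis × Eis, (if Cq q (p.1 * p.2) then
        tm (cx h) (XK χ (sy k) l) (Real.log Z1) t1 p.1 *
          tm (cx h) (XK χ (sy k) l) (Real.log Z2) t2 p.2 else 0) := by
  unfold CS
  have e1 : ∀ m : Eis, TP320.sq q (w2 h χ l Z1 Z2 t1 t2) m * sy k m =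
      w2 h χ l Z1 Z2 t1 t2 m * (if IsPrim m ∧ Cq q m then sy k m else 0) := by
    intro m
    unfold TP320.sq Cq
    split_ifs <;> ring
  rw [tsum_congr e1]
  unfold w2
  rw [TP320.tsum_conv (FS_cfa hh χ l Z1 t1) (FS_cfa hh χ l Z2 t2)]
  refine tsum_congr fun p => ?_
  by_cases h1 : IsPrim p.1
  swap
  · rw [cfa_prim h1, tm_prim h1]; simp
  by_cases h2 : IsPrim p.2
  swap
  · rw [cfa_prim h2, tm_prim h2]; simp
  rw [← cfa_sy, ← cfa_sy]
  by_cases hc : Cq q (p.1 * p.2)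
  · rw [if_pos hc, if_pos ⟨h1.mul h2, hc⟩, syG.mul_right k _ _ h1 h2]
    ring
  · rw [if_neg hc, if_neg (fun h => hc h.2), mul_zero]

/-- **the exact identity** for the two-piece sequence -/
theorem CS_sq_eq {h : ℝ → ℝ} (hh : HasCompactSupport h) {M : Eis} {χ : Eis → ℂ} (hχ : HC M χ)
    (l : ℤ) {q : Eis} (hq : q ≠ 0) {Z1 Z2 : ℝ} {N : ℕ} (h1 : SupN (cx h) (Real.log Z1) N)
    (h2 : SupN (cx h) (Real.log Z2) N) (t1 t2 : ℝ) (k : Eis) :
    CS (TP320.sq q (w2 h χ l Z1 Z2 t1 t2)) k =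
      ∑ j ∈ JJ q N, mj q j * (fac (cx h) (XK χ (sy k) l) (Real.log Z1) t1 (A1 j) *
        fac (cx h) (XK χ (sy k) l) (Real.log Z2) t2 (A2 j)) := by
  classical
  rw [CS_sq_pair hh]
  exact S2_eq (cs_cx hh) (isChar_XK hχ l k) hq h1 h2 t1 t2

lemma norm_fac_le {h : ℝ → ℝ} {M : Eis} {χ : Eis → ℂ} (hχ : HC M χ) (l : ℤ) (k : Eis) {Z : ℝ}
    (hZ : 0 < Z) (t : ℝ) {a : Eis} (ha : IsPrim a) :
    ‖fac (cx h) (XK χ (sy k) l) (Real.log Z) t a‖ ≤ ‖P h χ l k (Z / nm a) t‖ := by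
  unfold fac P
  have h1 := (isChar_XK hχ l k).norm_le ha
  have h2 := one_le_nm ha
  rw [norm_mul, norm_mul, norm_osc, mul_one, Real.log_div hZ.ne' (by linarith)]
  exact mul_le_of_le_one_left (norm_nonneg _) h1

/-! ### change of scale for the natural sums -/

lemma P_eq_cfa (h : ℝ → ℝ) (χ : Eis → ℂ) (l : ℤ) (k : Eis) (Y t : ℝ) :
    P h χ l k Y t = ∑' b, cfa h χ l Y t b * sy k b := by
  unfold P
  rw [PS_eq_tm]
  exact tsum_congr fun b => (cfa_sy l Y t k b).symm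

lemma continuous_P {h : ℝ → ℝ} (hh : HasCompactSupport h) (χ : Eis → ℂ) (l : ℤ) (k : Eis)
    (Y : ℝ) : Continuous fun t => P h χ l k Y t := continuous_PS (cs_cx hh) _ _

lemma norm_P_bdd {h : ℝ → ℝ} {c : ℝ} (hpu : PU h c) {M : Eis} {χ : Eis → ℂ} (hχ : HC M χ) (l : ℤ)
    (k : Eis) {Y : ℝ} (hY : 0 < Y) : ∃ C : ℝ, 0 ≤ C ∧ ∀ t, ‖P h χ l k Y t‖ ≤ C := by
  obtain ⟨C, hC, hb⟩ := norm_P_le hpu
  exact ⟨C * Y, by positivity, fun t => hb M χ hχ l k Y t hY⟩

/-- the natural side: change of the scale -/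
lemma P_sep {h : ℝ → ℝ} {c : ℝ} (hpu : PU h c) (χ : Eis → ℂ) (l : ℤ) {R : ℝ}
    (hR : ∀ u, cx h u ≠ 0 → |u| ≤ R) {Y : ℝ} (S : Finset ℕ)
    (hS : ∀ n : ℕ, |c * n - Real.log Y| ≤ 2 * R → n ∈ S) (k : Eis) (t : ℝ) :
    P h χ l k Y t = ∑ n ∈ S, ∫ u : ℝ, (ker (cx h) u * osc u (-Real.log Y)) *
      P h χ l k (Real.exp (c * n)) (t + u) := by
  classical
  obtain ⟨N0, hN0⟩ := cfa_support hpu.cs χ l Y
  have hex : ∀ n : ℕ, ∃ N : ℕ, ∀ (t : ℝ) (b : Eis),
      cfa h χ l (Real.exp (c * n)) t b ≠ 0 → b ∈ primBall N := fun n =>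
    cfa_support hpu.cs χ l (Real.exp (c * n))
  choose Nn hNn using hex
  set N := max N0 (S.sup Nn) with hNd
  have hmono : ∀ {a : ℕ}, a ≤ N → ∀ b : Eis, b ∈ primBall a → b ∈ primBall N := by
    intro a ha b hb
    rw [mem_primBall] at hb ⊢
    exact ⟨hb.1.trans ha, hb.2⟩
  have e0 : P h χ l k Y t = ∑ b ∈ primBall N, cfa h χ l Y t b * sy k b := by
    rw [P_eq_cfa, tsum_eq_sum]
    intro b hb
    by_contra h0
    exact hb (hmono (le_max_left _ _) b (hN0 t b (left_ne_zero_of_mul h0)))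
  have en : ∀ n ∈ S, ∀ t, P h χ l k (Real.exp (c * n)) t =
      ∑ b ∈ primBall N, cfa h χ l (Real.exp (c * n)) t b * sy k b := by
    intro n hn t
    rw [P_eq_cfa, tsum_eq_sum]
    intro b hb
    by_contra h0
    exact hb (hmono ((Finset.le_sup hn).trans (le_max_right _ _)) b
      (hNn n t b (left_ne_zero_of_mul h0)))
  have hki := Weight600.ker_integrable (cd_cx hpu.cd) (cs_cx hpu.cs)
  have hint : ∀ n : ℕ, ∀ b : Eis, Integrable (fun u : ℝ =>
      (ker (cx h) u * osc u (-Real.log Y)) * (cfa h χ l (Real.exp (c * n)) (t + u) b * sy k b)) := by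
    intro n b
    refine (integrable_mul_osc hki _).mul_bdd (c := ‖cfa h χ l (Real.exp (c * n)) 0 b * sy k b‖)
      (((continuous_cfa h χ l (Real.exp (c * n)) b).comp
        (continuous_const.add continuous_id)).mul continuous_const).aestronglyMeasurable
      (Eventually.of_forall fun u => le_of_eq ?_)
    unfold cfa
    simp only [norm_mul, norm_osc]
  rw [e0]
  have e1 : ∀ n ∈ S, ∫ u : ℝ, (ker (cx h) u * osc u (-Real.log Y)) *
      P h χ l k (Real.exp (c * n)) (t + u) = ∑ b ∈ primBall N,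
      ∫ u : ℝ, (ker (cx h) u * osc u (-Real.log Y)) *
        (cfa h χ l (Real.exp (c * n)) (t + u) b * sy k b) := by
    intro n hn
    rw [← integral_finsetSum _ fun b _ => hint n b]
    congr 1
    funext u
    rw [en n hn, Finset.mul_sum]
  rw [Finset.sum_congr rfl e1, Finset.sum_comm]
  refine Finset.sum_congr rfl fun b _ => ?_
  rw [cfa_sep hpu χ l hR S hS t b, Finset.sum_mul]
  refine Finset.sum_congr rfl fun n _ => ?_
  rw [← integral_mul_const]
  congr 1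
  funext u
  ring

/-- square form -/
lemma P_sep_sq {h : ℝ → ℝ} {c : ℝ} (hpu : PU h c) {M : Eis} {χ : Eis → ℂ} (hχ : HC M χ) (l : ℤ)
    {R : ℝ} (hR : ∀ u, cx h u ≠ 0 → |u| ≤ R) {Y : ℝ} (S : Finset ℕ)
    (hS : ∀ n : ℕ, |c * n - Real.log Y| ≤ 2 * R → n ∈ S) (k : Eis) (t : ℝ) :
    ‖P h χ l k Y t‖ ^ 2 ≤ (S.card : ℝ) * (∫ u, ‖ker (cx h) u‖) *
      ∑ n ∈ S, ∫ u : ℝ, ‖ker (cx h) u‖ * ‖P h χ l k (Real.exp (c * n)) (t + u)‖ ^ 2 := by
  have hki := Weight600.ker_integrable (cd_cx hpu.cd) (cs_cx hpu.cs)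
  have hI : 0 ≤ ∫ u, ‖ker (cx h) u‖ := integral_nonneg fun _ => norm_nonneg _
  rw [P_sep hpu χ l hR S hS k t]
  refine (CR2.norm_sum_sq_le_card S _).trans ?_
  rw [mul_assoc]
  have hcard0 : (0 : ℝ) ≤ (S.card : ℝ) := Nat.cast_nonneg _
  refine mul_le_mul_of_nonneg_left ?_ hcard0
  rw [Finset.mul_sum]
  refine Finset.sum_le_sum fun n _ => ?_
  obtain ⟨C, hC0, hC⟩ := norm_P_bdd hpu hχ l k (Real.exp_pos (c * n))
  have hcont : Continuous fun u => P h χ l k (Real.exp (c * n)) (t + u) :=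
    (continuous_P hpu.cs χ l k (Real.exp (c * n))).comp (continuous_const.add continuous_id)
  have i1 : Integrable (fun u : ℝ => ‖ker (cx h) u‖ *
      ‖P h χ l k (Real.exp (c * n)) (t + u)‖) :=
    hki.norm.mul_bdd (c := C) hcont.norm.aestronglyMeasurable
      (Eventually.of_forall fun u => by rw [norm_norm]; exact hC _)
  have i2 : Integrable (fun u : ℝ => ‖ker (cx h) u‖ *
      ‖P h χ l k (Real.exp (c * n)) (t + u)‖ ^ 2) :=
    hki.norm.mul_bdd (c := C ^ 2) (hcont.norm.pow 2).aestronglyMeasurable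
      (Eventually.of_forall fun u => by
        rw [norm_pow, norm_norm]
        have := hC (t + u)
        gcongr)
  have h1 : ‖∫ u : ℝ, (ker (cx h) u * osc u (-Real.log Y)) *
      P h χ l k (Real.exp (c * n)) (t + u)‖ ≤
      ∫ u : ℝ, ‖ker (cx h) u‖ * ‖P h χ l k (Real.exp (c * n)) (t + u)‖ := by
    refine (norm_integral_le_integral_norm _).trans (le_of_eq ?_)
    congr 1
    funext u
    rw [norm_mul, norm_mul, norm_osc, mul_one]
  have h2 : 0 ≤ ∫ u : ℝ, ‖ker (cx h) u‖ * ‖P h χ l k (Real.exp (c * n)) (t + u)‖ :=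
    integral_nonneg fun _ => by positivity
  refine (pow_le_pow_left₀ (norm_nonneg _) h1 2).trans ?_
  refine sq_le_of_forall h2 hI fun θ hθ => ?_
  rw [← integral_const_mul, ← integral_const_mul, ← integral_const_mul, ← integral_add
    (hki.norm.const_mul _) (i2.const_mul _)]
  apply integral_mono (i1.const_mul _) ((hki.norm.const_mul _).add (i2.const_mul _))
  intro u
  simp only [Pi.add_apply]
  set x := ‖P h χ l k (Real.exp (c * n)) (t + u)‖
  have h3 : 2 * x ≤ θ + θ⁻¹ * x ^ 2 := by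
    have h4 : 0 ≤ θ⁻¹ * (θ - x) ^ 2 := by positivity
    have h5 : θ⁻¹ * (θ - x) ^ 2 = θ - 2 * x + θ⁻¹ * x ^ 2 := by field_simp; ring
    linarith
  nlinarith [mul_le_mul_of_nonneg_left h3 (norm_nonneg (ker (cx h) u))]

/-! ### products of two natural sums -/

lemma scales {c R : ℝ} (hc : 0 < c) (hR : 0 ≤ R) (κ : ℝ) : ∃ S : Finset ℕ,
    (∀ n : ℕ, |c * n - κ| ≤ 2 * R → n ∈ S) ∧ (∀ n ∈ S, |c * n - κ| ≤ 2 * R) ∧
      (S.card : ℝ) ≤ 4 * R / c + 1 := by
  classical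
  refine ⟨(Finset.range (⌈(κ + 2 * R) / c⌉₊ + 1)).filter (fun n : ℕ => |c * n - κ| ≤ 2 * R),
    ?_, ?_, ?_⟩
  · intro n hn
    rw [Finset.mem_filter, Finset.mem_range]
    refine ⟨?_, hn⟩
    have h1 := (abs_le.mp hn).2
    have h2 : (n : ℝ) ≤ (κ + 2 * R) / c := by
      rw [le_div_iff₀ hc]; linarith
    have h3 : (n : ℝ) ≤ ⌈(κ + 2 * R) / c⌉₊ := h2.trans (Nat.le_ceil _)
    have h4 : n ≤ ⌈(κ + 2 * R) / c⌉₊ := by exact_mod_cast h3
    omega
  · intro n hn
    rw [Finset.mem_filter] at hn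
    exact hn.2
  · set S := (Finset.range (⌈(κ + 2 * R) / c⌉₊ + 1)).filter (fun n : ℕ => |c * n - κ| ≤ 2 * R)
      with hSd
    have hS' : ∀ n ∈ S, |c * n - κ| ≤ 2 * R := by
      intro n hn
      rw [hSd, Finset.mem_filter] at hn
      exact hn.2
    rcases S.eq_empty_or_nonempty with he | hne
    · rw [he]; simp; positivity
    · set a := S.min' hne with ha
      set b := S.max' hne with hb
      have ha' := S.min'_mem hne
      have hb' := S.max'_mem hne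
      have hsub : S ⊆ Finset.Icc a b := fun n hn =>
        Finset.mem_Icc.mpr ⟨S.min'_le n hn, S.le_max' n hn⟩
      have h1 : (S.card : ℝ) ≤ (b : ℝ) - a + 1 := by
        have h2 := Finset.card_le_card hsub
        rw [Nat.card_Icc] at h2
        have hab : a ≤ b := S.min'_le b hb'
        have h3 : (S.card : ℝ) ≤ ((b + 1 - a : ℕ) : ℝ) := by exact_mod_cast h2
        rw [Nat.cast_sub (by omega)] at h3
        push_cast at h3
        linarith
      have h4 := (abs_le.mp (hS' _ ha')).1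
      have h5 := (abs_le.mp (hS' _ hb')).2
      have h6 : c * ((b : ℝ) - a) ≤ 4 * R := by
        have : c * ((b : ℝ) - a) = (c * b - κ) - (c * a - κ) := by ring
        rw [this]; linarith
      have h7 : (b : ℝ) - a ≤ 4 * R / c := by
        rw [le_div_iff₀ hc]; linarith
      linarith

lemma integrable_ker_rpow {h : ℝ → ℝ} {c : ℝ} (hpu : PU h c) (Mx : ℝ) :
    Integrable (fun t : ℝ => ‖ker (cx h) t‖ * (1 + |t|) ^ Mx) := by
  obtain ⟨C, hC, hd⟩ := Weight600.ker_decay (cd_cx hpu.cd) (cs_cx hpu.cs) (⌈Mx⌉₊ + 2)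
  have hk : Continuous (ker (cx h)) :=
    Weight600.continuous_ker ((cd_cx hpu.cd).continuous.integrable_of_hasCompactSupport
      (cs_cx hpu.cs))
  have hi2 : Integrable (fun t : ℝ => C * (1 + t ^ 2)⁻¹) :=
    integrable_inv_one_add_sq.const_mul C
  refine hi2.mono' ?_ ?_
  · refine (hk.norm.mul ?_).aestronglyMeasurable
    refine Continuous.rpow_const (continuous_const.add continuous_abs) fun t => Or.inl ?_
    positivity
  · refine Filter.Eventually.of_forall fun t => ?_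
    have h0 : (1 : ℝ) ≤ 1 + |t| := by linarith [abs_nonneg t]
    rw [Real.norm_of_nonneg (by positivity)]
    have h3 := hd t
    have h4 : (0 : ℝ) < 1 + t ^ 2 := by positivity
    rw [← div_eq_mul_inv, le_div_iff₀ h4]
    refine le_trans ?_ h3
    have h5 : 1 + t ^ 2 ≤ (1 + |t|) ^ 2 := by
      rw [add_sq, sq_abs]; nlinarith [abs_nonneg t]
    have h6 : (1 + |t|) ^ Mx ≤ (1 + |t|) ^ ⌈Mx⌉₊ := by
      rw [← Real.rpow_natCast]
      exact Real.rpow_le_rpow_of_exponent_le h0 (Nat.le_ceil _)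
    rw [pow_add, mul_assoc]
    have h7 : 0 ≤ (1 + |t|) ^ Mx := by positivity
    have h8 : (1 + |t|) ^ Mx * (1 + t ^ 2) ≤ (1 + |t|) ^ ⌈Mx⌉₊ * (1 + |t|) ^ 2 := by
      apply mul_le_mul h6 h5 (by positivity) (by positivity)
    exact mul_le_mul_of_nonneg_left h8 (norm_nonneg _)

theorem PP_le {h : ℝ → ℝ} {c : ℝ} (hpu : PU h c) (Mx : ℝ) : ∃ E C : ℝ, 1 ≤ E ∧ 0 ≤ C ∧
    ∀ (M : Eis) (χ : Eis → ℂ), HC M χ → ∀ (l : ℤ) (K t1 t2 A Y1 Y2 : ℝ), 0 ≤ K → 0 < Y1 →
      0 < Y2 → 0 ≤ A →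
      (∀ Z1 Z2 s1 s2 : ℝ, 1 ≤ Z1 → Z1 ≤ E * Y1 → 1 ≤ Z2 → Z2 ≤ E * Y2 →
        ∑ k ∈ bl K, ‖P h χ l k Z1 (t1 + s1)‖ ^ 2 * ‖P h χ l k Z2 (t2 + s2)‖ ^ 2 ≤
          A * ((1 + |s1|) * (1 + |s2|)) ^ Mx * (K * Z1 * Z2)) →
      ∑ k ∈ bl K, ‖P h χ l k Y1 t1‖ ^ 2 * ‖P h χ l k Y2 t2‖ ^ 2 ≤ C * A * (K * Y1 * Y2) := by
  obtain ⟨R, hR0, hR⟩ := exists_R (cs_cx hpu.cs)
  have hc := hpu.cpos
  have hki := Weight600.ker_integrable (cd_cx hpu.cd) (cs_cx hpu.cs)
  set I0 := ∫ u, ‖ker (cx h) u‖ with hI0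
  have hI0n : 0 ≤ I0 := integral_nonneg fun _ => norm_nonneg _
  set IM := ∫ u : ℝ, ‖ker (cx h) u‖ * (1 + |u|) ^ Mx with hIM
  have hIMn : 0 ≤ IM := integral_nonneg fun _ => by positivity
  have hkM := integrable_ker_rpow hpu Mx
  set W : ℝ := 4 * R / c + 1 with hW
  have hW0 : 0 ≤ W := by positivity
  refine ⟨Real.exp (2 * R), (W * I0) * (W * I0) * (W * W) * (IM * IM) *
    (Real.exp (2 * R) * Real.exp (2 * R)), Real.one_le_exp (by positivity), by positivity, ?_⟩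
  intro M χ hχ l K t1 t2 A Y1 Y2 hK hY1 hY2 hA hyp
  obtain ⟨S1, hS1, hS1', hc1⟩ := scales hc hR0 (Real.log Y1)
  obtain ⟨S2, hS2, hS2', hc2⟩ := scales hc hR0 (Real.log Y2)
  have hsz : ∀ {Y : ℝ}, 0 < Y → ∀ n : ℕ, |c * n - Real.log Y| ≤ 2 * R →
      1 ≤ Real.exp (c * n) ∧ Real.exp (c * n) ≤ Real.exp (2 * R) * Y := by
    intro Y hY n hn
    refine ⟨Real.one_le_exp (by positivity), ?_⟩
    have h1 := (abs_le.mp hn).2
    calc Real.exp (c * n) ≤ Real.exp (2 * R + Real.log Y) := Real.exp_le_exp.mpr (by linarith)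
      _ = _ := by rw [Real.exp_add, Real.exp_log hY]
  set J1 : Eis → ℕ → ℝ := fun k n => ∫ u : ℝ, ‖ker (cx h) u‖ *
    ‖P h χ l k (Real.exp (c * n)) (t1 + u)‖ ^ 2 with hJ1
  set J2 : Eis → ℕ → ℝ := fun k n => ∫ u : ℝ, ‖ker (cx h) u‖ *
    ‖P h χ l k (Real.exp (c * n)) (t2 + u)‖ ^ 2 with hJ2
  have hint : ∀ (k : Eis) (n : ℕ) (t : ℝ), Integrable (fun u : ℝ => ‖ker (cx h) u‖ *
      ‖P h χ l k (Real.exp (c * n)) (t + u)‖ ^ 2) := by
    intro k n t
    obtain ⟨C, hC0, hC⟩ := norm_P_bdd hpu hχ l k (Real.exp_pos (c * n))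
    have hcont : Continuous fun u => P h χ l k (Real.exp (c * n)) (t + u) :=
      (continuous_P hpu.cs χ l k (Real.exp (c * n))).comp (continuous_const.add continuous_id)
    exact hki.norm.mul_bdd (c := C ^ 2) (hcont.norm.pow 2).aestronglyMeasurable
      (Eventually.of_forall fun u => by
        rw [norm_pow, norm_norm]
        have := hC (t + u)
        gcongr)
  have hJ1n : ∀ k n, 0 ≤ J1 k n := fun k n => integral_nonneg fun _ => by positivity
  have hJ2n : ∀ k n, 0 ≤ J2 k n := fun k n => integral_nonneg fun _ => by positivity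
  -- pointwise
  have hpt : ∀ k : Eis, ‖P h χ l k Y1 t1‖ ^ 2 * ‖P h χ l k Y2 t2‖ ^ 2 ≤
      (W * I0) * (W * I0) * ∑ n1 ∈ S1, ∑ n2 ∈ S2, J1 k n1 * J2 k n2 := by
    intro k
    have a1 := P_sep_sq hpu hχ l hR S1 hS1 k t1
    have a2 := P_sep_sq hpu hχ l hR S2 hS2 k t2
    have b1 : ‖P h χ l k Y1 t1‖ ^ 2 ≤ (W * I0) * ∑ n ∈ S1, J1 k n := by
      refine a1.trans ?_
      have : 0 ≤ ∑ n ∈ S1, J1 k n := Finset.sum_nonneg fun n _ => hJ1n k n
      exact mul_le_mul_of_nonneg_right (mul_le_mul_of_nonneg_right hc1 hI0n) this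
    have b2 : ‖P h χ l k Y2 t2‖ ^ 2 ≤ (W * I0) * ∑ n ∈ S2, J2 k n := by
      refine a2.trans ?_
      have : 0 ≤ ∑ n ∈ S2, J2 k n := Finset.sum_nonneg fun n _ => hJ2n k n
      exact mul_le_mul_of_nonneg_right (mul_le_mul_of_nonneg_right hc2 hI0n) this
    calc ‖P h χ l k Y1 t1‖ ^ 2 * ‖P h χ l k Y2 t2‖ ^ 2
        ≤ ((W * I0) * ∑ n ∈ S1, J1 k n) * ((W * I0) * ∑ n ∈ S2, J2 k n) :=
          mul_le_mul b1 b2 (by positivity) ((by positivity : (0 : ℝ) ≤ _).trans b1)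
      _ = (W * I0) * (W * I0) * ((∑ n ∈ S1, J1 k n) * ∑ n ∈ S2, J2 k n) := by ring
      _ = _ := by rw [Finset.sum_mul_sum]
  -- one pair of scales
  have hpair : ∀ n1 ∈ S1, ∀ n2 ∈ S2, ∑ k ∈ bl K, J1 k n1 * J2 k n2 ≤
      (IM * IM) * (A * (K * Real.exp (c * n1) * Real.exp (c * n2))) := by
    intro n1 hn1 n2 hn2
    obtain ⟨p1, p2⟩ := hsz hY1 n1 (hS1' n1 hn1)
    obtain ⟨p3, p4⟩ := hsz hY2 n2 (hS2' n2 hn2)
    set B : ℝ := A * (K * Real.exp (c * n1) * Real.exp (c * n2)) with hB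
    have hB0 : 0 ≤ B := by positivity
    -- inner integral
    have hin : ∀ u : ℝ, ∑ k ∈ bl K, ‖P h χ l k (Real.exp (c * n1)) (t1 + u)‖ ^ 2 * J2 k n2 ≤
        (1 + |u|) ^ Mx * (IM * B) := by
      intro u
      have e1 : ∑ k ∈ bl K, ‖P h χ l k (Real.exp (c * n1)) (t1 + u)‖ ^ 2 * J2 k n2 =
          ∫ v : ℝ, ‖ker (cx h) v‖ * ∑ k ∈ bl K, ‖P h χ l k (Real.exp (c * n1)) (t1 + u)‖ ^ 2 *
            ‖P h χ l k (Real.exp (c * n2)) (t2 + v)‖ ^ 2 := by
        have e2 : ∀ k ∈ bl K, ‖P h χ l k (Real.exp (c * n1)) (t1 + u)‖ ^ 2 * J2 k n2 =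
            ∫ v : ℝ, ‖P h χ l k (Real.exp (c * n1)) (t1 + u)‖ ^ 2 * (‖ker (cx h) v‖ *
              ‖P h χ l k (Real.exp (c * n2)) (t2 + v)‖ ^ 2) := by
          intro k _
          rw [integral_const_mul]
        rw [Finset.sum_congr rfl e2, ← integral_finsetSum _ fun k _ => (hint k n2 t2).const_mul _]
        congr 1
        funext v
        rw [Finset.mul_sum]
        refine Finset.sum_congr rfl fun k _ => ?_
        ring
      rw [e1]
      have e3 : (1 + |u|) ^ Mx * (IM * B) = ∫ v : ℝ, (‖ker (cx h) v‖ * (1 + |v|) ^ Mx) *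
          ((1 + |u|) ^ Mx * B) := by
        rw [integral_mul_const]; ring
      rw [e3]
      apply integral_mono
      · have hh : Integrable (fun v : ℝ => ∑ k ∈ bl K,
            ‖P h χ l k (Real.exp (c * n1)) (t1 + u)‖ ^ 2 * (‖ker (cx h) v‖ *
              ‖P h χ l k (Real.exp (c * n2)) (t2 + v)‖ ^ 2)) :=
          integrable_finsetSum _ fun k _ => (hint k n2 t2).const_mul _
        refine hh.congr (Eventually.of_forall fun v => ?_)
        simp only
        rw [Finset.mul_sum]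
        refine Finset.sum_congr rfl fun k _ => ?_
        ring
      · exact hkM.mul_const _
      · intro v
        simp only
        have h3 := hyp _ _ u v p1 p2 p3 p4
        rw [Real.mul_rpow (by positivity) (by positivity)] at h3
        calc ‖ker (cx h) v‖ * ∑ k ∈ bl K, ‖P h χ l k (Real.exp (c * n1)) (t1 + u)‖ ^ 2 *
              ‖P h χ l k (Real.exp (c * n2)) (t2 + v)‖ ^ 2
            ≤ ‖ker (cx h) v‖ * (A * ((1 + |u|) ^ Mx * (1 + |v|) ^ Mx) *
              (K * Real.exp (c * n1) * Real.exp (c * n2))) :=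
              mul_le_mul_of_nonneg_left h3 (norm_nonneg _)
          _ = _ := by rw [hB]; ring
    have e1 : ∑ k ∈ bl K, J1 k n1 * J2 k n2 = ∫ u : ℝ, ‖ker (cx h) u‖ *
        ∑ k ∈ bl K, ‖P h χ l k (Real.exp (c * n1)) (t1 + u)‖ ^ 2 * J2 k n2 := by
      have e2 : ∀ k ∈ bl K, J1 k n1 * J2 k n2 = ∫ u : ℝ, (‖ker (cx h) u‖ *
          ‖P h χ l k (Real.exp (c * n1)) (t1 + u)‖ ^ 2) * J2 k n2 := by
        intro k _
        rw [integral_mul_const]
      rw [Finset.sum_congr rfl e2, ← integral_finsetSum _ fun k _ => (hint k n1 t1).mul_const _]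
      congr 1
      funext u
      rw [Finset.mul_sum]
      refine Finset.sum_congr rfl fun k _ => ?_
      ring
    rw [e1]
    have e3 : (IM * IM) * B = ∫ u : ℝ, (‖ker (cx h) u‖ * (1 + |u|) ^ Mx) * (IM * B) := by
      rw [integral_mul_const]; ring
    rw [e3]
    apply integral_mono
    · have hh : Integrable (fun u : ℝ => ∑ k ∈ bl K, (‖ker (cx h) u‖ *
          ‖P h χ l k (Real.exp (c * n1)) (t1 + u)‖ ^ 2) * J2 k n2) :=
        integrable_finsetSum _ fun k _ => (hint k n1 t1).mul_const _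
      refine hh.congr (Eventually.of_forall fun u => ?_)
      simp only
      rw [Finset.mul_sum]
      refine Finset.sum_congr rfl fun k _ => ?_
      ring
    · exact hkM.mul_const _
    · intro u
      simp only
      rw [mul_assoc]
      exact mul_le_mul_of_nonneg_left (hin u) (norm_nonneg _)
  calc ∑ k ∈ bl K, ‖P h χ l k Y1 t1‖ ^ 2 * ‖P h χ l k Y2 t2‖ ^ 2
      ≤ ∑ k ∈ bl K, (W * I0) * (W * I0) * ∑ n1 ∈ S1, ∑ n2 ∈ S2, J1 k n1 * J2 k n2 :=
        Finset.sum_le_sum fun k _ => hpt k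
    _ = (W * I0) * (W * I0) * ∑ n1 ∈ S1, ∑ n2 ∈ S2, ∑ k ∈ bl K, J1 k n1 * J2 k n2 := by
        rw [← Finset.mul_sum]
        congr 1
        rw [Finset.sum_comm]
        refine Finset.sum_congr rfl fun n1 _ => ?_
        rw [Finset.sum_comm]
    _ ≤ (W * I0) * (W * I0) * ∑ _n1 ∈ S1, ∑ _n2 ∈ S2, (IM * IM) *
          (A * (K * (Real.exp (2 * R) * Y1) * (Real.exp (2 * R) * Y2))) := by
        refine mul_le_mul_of_nonneg_left ?_ (by positivity)
        refine Finset.sum_le_sum fun n1 hn1 => Finset.sum_le_sum fun n2 hn2 => ?_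
        obtain ⟨_, p2⟩ := hsz hY1 n1 (hS1' n1 hn1)
        obtain ⟨_, p4⟩ := hsz hY2 n2 (hS2' n2 hn2)
        refine (hpair n1 hn1 n2 hn2).trans ?_
        gcongr
    _ = (W * I0) * (W * I0) * ((S1.card : ℝ) * S2.card) * ((IM * IM) *
          (A * (K * (Real.exp (2 * R) * Y1) * (Real.exp (2 * R) * Y2)))) := by
        rw [Finset.sum_const, Finset.sum_const, nsmul_eq_mul, nsmul_eq_mul]; ring
    _ ≤ (W * I0) * (W * I0) * (W * W) * ((IM * IM) *
          (A * (K * (Real.exp (2 * R) * Y1) * (Real.exp (2 * R) * Y2)))) := by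
        gcongr
    _ = _ := by ring

end Crest.Agent.R017.TPE411
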