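import Crest.Agent.R017.Two7_939
import Crest.Agent.R012.TypeI6_941

/-!
# Row 17: coprimality on the Gauss side (1) (helper939)
-/

set_option autoImplicit false

noncomputable section

open Complex MeasureTheory Filter Topology
open scoped ContDiff

namespace Crest.Agent.R017.Two939

open Crest.Agent.R012 Crest.Agent.R012.Eis Crest.Agent.R012.LS2 Crest.Agent.R012.Gauss880
open Crest.Agent.R012.Weight600 (osc norm_osc ker)
open Crest.Agent.R012.PSer47 Crest.Agent.R012.Div277 Crest.Agent.R012.Mob705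
open Crest.Agent.R017.End699 Crest.Agent.R017.FE47

/-- merging one multiplier -/
lemma sum_mul_le {L a : ℝ} (hL : 0 ≤ L) {p : Eis} (hp : p ≠ 0) (hpa : (nm p : ℝ) ≤ a) {f : Eis → ℝ}
    (hf : ∀ k, 0 ≤ f k) : ∑ k ∈ bl L, f (k * p) ≤ ∑ k ∈ bl (L * a), f k := by
  classical
  have ha : 0 ≤ a := le_trans (Nat.cast_nonneg _) hpa
  have hinj : Set.InjOn (fun k => k * p) (bl L : Set Eis) := fun a _ b _ hab =>
    mul_right_cancel₀ hp hab
  rw [← Finset.sum_image (f := f) hinj]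
  refine Finset.sum_le_sum_of_subset_of_nonneg ?_ fun k _ _ => hf k
  intro q hq
  rw [Finset.mem_image] at hq
  obtain ⟨k, hk, rfl⟩ := hq
  rw [mem_bl hL] at hk
  rw [mem_bl (by positivity)]
  refine ⟨mul_ne_zero hk.1 hp, ?_⟩
  rw [nm_mul]
  push_cast
  exact mul_le_mul hk.2 hpa (Nat.cast_nonneg _) hL

/-- coprimality to a squarefree product -/
lemma sum_TG_prod {h : ℝ → ℝ} (hh : HasCompactSupport h) {M : Eis} {χ : Eis → ℂ} (hχ : HC M χ)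
    (l : ℤ) (t1 t2 Bd : ℝ) (S : Finset Eis) (hS : PPSet S) :
    ∀ L Y1 Y2 : ℝ, 0 < L → 0 < Y1 → 0 < Y2 →
    (∀ a1 a2 : Eis, IsPrim a1 → IsPrim a2 → a1 * a2 ∣ ∏ p ∈ S, p →
      U2 h χ l (L * nm (a1 * a2)) (Y1 / nm a1) (Y2 / nm a2) t1 t2 ≤ Bd) →
    ∑ k ∈ bl L, ‖TG h χ l (k * (∏ p ∈ S, p) ^ 3) Y1 Y2 t1 t2‖ ^ 2 ≤ 9 ^ S.card * Bd := by
  classical
  induction S using Finset.induction_on with
  | empty =>
    intro L Y1 Y2 hL hY1 hY2 hB
    have := hB 1 1 isPrim_one isPrim_one (by simp)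
    simpa [U2] using this
  | insert p S hpS ih =>
    intro L Y1 Y2 hL hY1 hY2 hB
    have hS' : PPSet S := hS.subset (Finset.subset_insert _ _)
    have hpp : Mob705.IsPP p := hS p (Finset.mem_insert_self _ _)
    have hp := hpp.isPrim
    have hp1 := one_le_nm hp
    have hp0 : (0 : ℝ) < nm p := by linarith
    rw [Finset.prod_insert hpS, Finset.card_insert_of_notMem hpS]
    rw [Finset.prod_insert hpS] at hB
    set Q := ∏ q ∈ S, q with hQ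
    have i1 := ih hS' L Y1 Y2 hL hY1 hY2 fun a1 a2 h1 h2 hd => hB a1 a2 h1 h2 (hd.mul_left p)
    have i2 := ih hS' (L * nm p) (Y1 / nm p) Y2 (by positivity) (by positivity) hY2
      fun a1 a2 h1 h2 hd => by
        have := hB (p * a1) a2 (hp.mul h1) h2 (by
          rw [mul_assoc]; exact mul_dvd_mul_left p hd)
        rw [show p * a1 * a2 = p * (a1 * a2) by ring, nm_mul p (a1 * a2), nm_mul p a1] at this
        push_cast at this
        rwa [div_div, mul_assoc L]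
    have i3 := ih hS' (L * nm p) Y1 (Y2 / nm p) (by positivity) hY1 (by positivity)
      fun a1 a2 h1 h2 hd => by
        have := hB a1 (p * a2) h1 (hp.mul h2) (by
          rw [show a1 * (p * a2) = p * (a1 * a2) by ring]; exact mul_dvd_mul_left p hd)
        rw [show a1 * (p * a2) = p * (a1 * a2) by ring, nm_mul p (a1 * a2), nm_mul p a2] at this
        push_cast at this
        rwa [div_div, mul_assoc L]
    have hpt : ∀ k : Eis, ‖TG h χ l (k * (p * Q) ^ 3) Y1 Y2 t1 t2‖ ^ 2 ≤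
        3 * (‖TG h χ l (k * Q ^ 3) Y1 Y2 t1 t2‖ ^ 2 +
          ‖TG h χ l (k * p * Q ^ 3) (Y1 / nm p) Y2 t1 t2‖ ^ 2 +
          ‖TG h χ l (k * p * Q ^ 3) Y1 (Y2 / nm p) t1 t2‖ ^ 2) := by
      intro k
      obtain ⟨c1, c2, hc1, hc2, heq⟩ := TG_prime hh hχ l (k * Q ^ 3) hY1 hY2 t1 t2 hp hpp.prime
      have e1 : k * (p * Q) ^ 3 = k * Q ^ 3 * p ^ 3 := by ring
      have e2 : k * p * Q ^ 3 = k * Q ^ 3 * p := by ring
      rw [e1, e2]
      have e3 : TG h χ l (k * Q ^ 3 * p ^ 3) Y1 Y2 t1 t2 = TG h χ l (k * Q ^ 3) Y1 Y2 t1 t2 -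
          c1 * TG h χ l (k * Q ^ 3 * p) (Y1 / nm p) Y2 t1 t2 -
          c2 * TG h χ l (k * Q ^ 3 * p) Y1 (Y2 / nm p) t1 t2 := by rw [heq]; ring
      have hn : ‖TG h χ l (k * Q ^ 3 * p ^ 3) Y1 Y2 t1 t2‖ ≤ ‖TG h χ l (k * Q ^ 3) Y1 Y2 t1 t2‖ +
          ‖TG h χ l (k * Q ^ 3 * p) (Y1 / nm p) Y2 t1 t2‖ +
          ‖TG h χ l (k * Q ^ 3 * p) Y1 (Y2 / nm p) t1 t2‖ := by
        rw [e3]
        refine (norm_sub_le _ _).trans ?_
        refine add_le_add ((norm_sub_le _ _).trans (add_le_add le_rfl ?_)) ?_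
        · rw [norm_mul]
          exact mul_le_of_le_one_left (norm_nonneg _) hc1
        · rw [norm_mul]
          exact mul_le_of_le_one_left (norm_nonneg _) hc2
      set x := ‖TG h χ l (k * Q ^ 3) Y1 Y2 t1 t2‖
      set y := ‖TG h χ l (k * Q ^ 3 * p) (Y1 / nm p) Y2 t1 t2‖
      set z := ‖TG h χ l (k * Q ^ 3 * p) Y1 (Y2 / nm p) t1 t2‖
      have h1 : ‖TG h χ l (k * Q ^ 3 * p ^ 3) Y1 Y2 t1 t2‖ ^ 2 ≤ (x + y + z) ^ 2 := by gcongr
      nlinarith [sq_nonneg (x - y), sq_nonneg (y - z), sq_nonneg (x - z)]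
    have m2 := sum_mul_le hL.le hp.ne_zero (le_refl (nm p : ℝ))
      (f := fun k => ‖TG h χ l (k * Q ^ 3) (Y1 / nm p) Y2 t1 t2‖ ^ 2) fun k => by positivity
    have m3 := sum_mul_le hL.le hp.ne_zero (le_refl (nm p : ℝ))
      (f := fun k => ‖TG h χ l (k * Q ^ 3) Y1 (Y2 / nm p) t1 t2‖ ^ 2) fun k => by positivity
    calc ∑ k ∈ bl L, ‖TG h χ l (k * (p * Q) ^ 3) Y1 Y2 t1 t2‖ ^ 2
        ≤ ∑ k ∈ bl L, 3 * (‖TG h χ l (k * Q ^ 3) Y1 Y2 t1 t2‖ ^ 2 +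
          ‖TG h χ l (k * p * Q ^ 3) (Y1 / nm p) Y2 t1 t2‖ ^ 2 +
          ‖TG h χ l (k * p * Q ^ 3) Y1 (Y2 / nm p) t1 t2‖ ^ 2) :=
          Finset.sum_le_sum fun k _ => hpt k
      _ = 3 * (∑ k ∈ bl L, ‖TG h χ l (k * Q ^ 3) Y1 Y2 t1 t2‖ ^ 2 +
          ∑ k ∈ bl L, ‖TG h χ l (k * p * Q ^ 3) (Y1 / nm p) Y2 t1 t2‖ ^ 2 +
          ∑ k ∈ bl L, ‖TG h χ l (k * p * Q ^ 3) Y1 (Y2 / nm p) t1 t2‖ ^ 2) := by
          simp_rw [← Finset.mul_sum, Finset.sum_add_distrib]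
      _ ≤ 3 * (9 ^ S.card * Bd + 9 ^ S.card * Bd + 9 ^ S.card * Bd) := by
          have m2' := m2.trans i2
          have m3' := m3.trans i3
          linarith
      _ = 9 ^ (S.card + 1) * Bd := by ring

/-- the cube of `q` only sees the primes of `q` -/
lemma sy_cube_pp {k q n : Eis} (hq : q ≠ 0) (hn : IsPrim n) :
    sy (k * q ^ 3) n = sy (k * (∏ p ∈ pp q, p) ^ 3) n := by
  by_cases hc : IsCoprime n q
  · have hc' : IsCoprime n (∏ p ∈ pp q, p) := by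
      rw [isCoprime_iff_pp hn] at hc ⊢
      intro p hp hpn hpd
      have h1 := ((ppSet_pp q).dvd_prod hp).mp hpd
      exact hc p hp hpn (dvd_of_mem_pp h1)
    rw [Char766.sy_mul_left hn, Char766.sy_cube_left hn hc.symm, Char766.sy_mul_left hn,
      Char766.sy_cube_left hn hc'.symm]
  · have hc' : ¬ IsCoprime n (∏ p ∈ pp q, p) := by
      intro h
      apply hc
      rw [isCoprime_iff_pp hn] at h ⊢
      intro p hp hpn hpd
      refine h p hp hpn (((ppSet_pp q).dvd_prod hp).mpr ?_)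
      rw [mem_pp hq]
      exact ⟨hp, hpd⟩
    have z : ∀ x : Eis, ¬ IsCoprime n x → sy (k * x ^ 3) n = 0 := by
      intro x hx
      apply Char766.sy_eq_zero hn
      intro h
      exact hx (h.of_mul_left_right.of_isCoprime_of_dvd_left (dvd_pow_self x three_ne_zero)).symm
    rw [z q hc, z _ hc']

lemma TG_cube_pp (h : ℝ → ℝ) (χ : Eis → ℂ) (l : ℤ) {k q : Eis} (hq : q ≠ 0) (Y1 Y2 t1 t2 : ℝ) :
    TG h χ l (k * q ^ 3) Y1 Y2 t1 t2 = TG h χ l (k * (∏ p ∈ pp q, p) ^ 3) Y1 Y2 t1 t2 := by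
  unfold TG
  refine tsum_congr fun p => ?_
  by_cases h1 : IsPrim p.1
  swap
  · rw [cfa_prim h1]; ring
  by_cases h2 : IsPrim p.2
  swap
  · rw [cfa_prim h2]; ring
  rw [sy_cube_pp hq (h1.mul h2)]

/-- the scales of the grid near `Y` -/
lemma exists_scales {c R : ℝ} (hc : 0 < c) (hR : 0 ≤ R) (Y : ℝ) (hY : 0 < Y) :
    ∃ S : Finset ℕ, (∀ n : ℕ, |c * n - Real.log Y| ≤ 2 * R → n ∈ S) ∧
      (S.card : ℝ) ≤ 4 * R / c + 1 ∧
      (∀ n ∈ S, Real.exp (c * n) ≤ Real.exp (2 * R) * Y) := by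
  classical
  set κ := Real.log Y with hκ
  set S : Finset ℕ := (Finset.range (⌈(κ + 2 * R) / c⌉₊ + 1)).filter
    (fun n : ℕ => |c * n - κ| ≤ 2 * R) with hS
  have hS' : ∀ n ∈ S, |c * n - κ| ≤ 2 * R := by
    intro n hn
    rw [hS, Finset.mem_filter] at hn
    exact hn.2
  refine ⟨S, ?_, ?_, ?_⟩
  · intro n hn
    rw [hS, Finset.mem_filter, Finset.mem_range]
    refine ⟨?_, hn⟩
    have h1 := (abs_le.mp hn).2
    have h2 : (n : ℝ) ≤ (κ + 2 * R) / c := by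
      rw [le_div_iff₀ hc]; linarith
    have h3 : (n : ℝ) ≤ ⌈(κ + 2 * R) / c⌉₊ := h2.trans (Nat.le_ceil _)
    have h4 : n ≤ ⌈(κ + 2 * R) / c⌉₊ := by exact_mod_cast h3
    omega
  · rcases S.eq_empty_or_nonempty with he | hne
    · rw [he]; simp; positivity
    · set a := S.min' hne with ha
      set b := S.max' hne with hb
      have ha' := S.min'_mem hne
      have hb' := S.max'_mem hne
      have hsub : S ⊆ Finset.Icc a b := fun n hn =>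
        Finset.mem_Icc.mpr ⟨S.min'_le n hn, S.le_max' n hn⟩
      have h1 : (S.card : ℝ) ≤ (b : ℝ) - a + 1 := by
        have h2 := Finset.card_le_card hsub
        rw [Nat.card_Icc] at h2
        have hab : a ≤ b := S.min'_le b hb'
        have h3 : (S.card : ℝ) ≤ ((b + 1 - a : ℕ) : ℝ) := by exact_mod_cast h2
        rw [Nat.cast_sub (by omega)] at h3
        push_cast at h3
        linarith
      have h4 := (abs_le.mp (hS' _ ha')).1
      have h5 := (abs_le.mp (hS' _ hb')).2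
      have h6 : c * ((b : ℝ) - a) ≤ 4 * R := by
        have : c * ((b : ℝ) - a) = (c * b - κ) - (c * a - κ) := by ring
        rw [this]; linarith
      have h7 : (b : ℝ) - a ≤ 4 * R / c := by
        rw [le_div_iff₀ hc]; linarith
      linarith
  · intro n hn
    have h1 := (abs_le.mp (hS' n hn)).2
    have h2 : Y = Real.exp κ := by rw [hκ, Real.exp_log hY]
    rw [h2, ← Real.exp_add]
    apply Real.exp_le_exp.mpr
    linarith

/-- change of scale in the first variable, mean-square form -/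
lemma U2_sep {h : ℝ → ℝ} {c : ℝ} (hpu : PU h c) (χ : Eis → ℂ) (l : ℤ) {Mx : ℝ} (hM : 0 ≤ Mx) :
    ∃ C : ℝ, 1 ≤ C ∧ ∀ L Y1 Y2 t1 t2 B : ℝ, 0 < L → 0 < Y1 → 0 ≤ B →
      (∀ Z s : ℝ, 1 ≤ Z → Z ≤ C * Y1 → U2 h χ l L Z Y2 (t1 + s) t2 ≤ B * Z * (1 + |s|) ^ Mx) →
      U2 h χ l L Y1 Y2 t1 t2 ≤ C * B * Y1 := by
  classical
  obtain ⟨R, hR0, hR⟩ := exists_R (cs_cx hpu.cs)
  have hki := Weight600.ker_integrable (cd_cx hpu.cd) (cs_cx hpu.cs)
  set K : ℕ := ⌈Mx⌉₊ + 2 with hK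
  obtain ⟨Ck, hCk, hdec⟩ := Weight600.ker_decay (cd_cx hpu.cd) (cs_cx hpu.cs) K
  set I0 := ∫ u, ‖ker (cx h) u‖ with hI0
  have hI0n : 0 ≤ I0 := integral_nonneg fun _ => norm_nonneg _
  set I2 := ∫ s : ℝ, ((1 + |s|) ^ 2)⁻¹ with hI2
  have hI2n : 0 ≤ I2 := integral_nonneg fun _ => by positivity
  have hc := hpu.cpos
  set W : ℝ := 4 * R / c + 1 with hW
  have hW0 : 0 ≤ W := by positivity
  set C := Real.exp (2 * R) + W * I0 * (W * (Ck * I2 * Real.exp (2 * R))) with hC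
  have hCe : Real.exp (2 * R) ≤ C := by
    have : 0 ≤ W * I0 * (W * (Ck * I2 * Real.exp (2 * R))) := by positivity
    linarith
  refine ⟨C, (Real.one_le_exp (by positivity)).trans hCe, ?_⟩
  intro L Y1 Y2 t1 t2 B hL hY1 hB hH
  obtain ⟨S, hS1, hS2, hS3⟩ := exists_scales hc hR0 Y1 hY1
  have hint : ∀ (n : ℕ) (k : Eis), Integrable (fun u : ℝ => ‖ker (cx h) u‖ *
      ‖TG h χ l k (Real.exp (c * n)) Y2 (t1 + u) t2‖ ^ 2) := by
    intro n k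
    obtain ⟨C, hC⟩ := norm_TG_bdd hpu.cs χ l k (Real.exp (c * n)) Y2
    have hcont : Continuous fun u => TG h χ l k (Real.exp (c * n)) Y2 (t1 + u) t2 :=
      (continuous_TG1 hpu.cs χ l k (Real.exp (c * n)) Y2 t2).comp
        (continuous_const.add continuous_id)
    exact hki.norm.mul_bdd (c := C ^ 2) (hcont.norm.pow 2).aestronglyMeasurable
      (Eventually.of_forall fun u => by
        rw [norm_pow, norm_norm]
        have := hC (t1 + u) t2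
        gcongr)
  have hscale : ∀ n ∈ S, ∑ k ∈ bl L, ∫ u : ℝ, ‖ker (cx h) u‖ *
        ‖TG h χ l k (Real.exp (c * n)) Y2 (t1 + u) t2‖ ^ 2 ≤
      (Ck * I2 * Real.exp (2 * R)) * B * Y1 := by
    intro n hn
    have hZ1 : 1 ≤ Real.exp (c * n) := Real.one_le_exp (mul_nonneg hc.le (Nat.cast_nonneg _))
    have hZ0 := Real.exp_pos (c * n)
    have hZle := hS3 n hn
    rw [← integral_finsetSum _ fun k _ => hint n k]
    have h1 : ∫ u : ℝ, ∑ k ∈ bl L, ‖ker (cx h) u‖ *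
        ‖TG h χ l k (Real.exp (c * n)) Y2 (t1 + u) t2‖ ^ 2 ≤
        ∫ u : ℝ, (Ck * (B * Real.exp (c * n))) * ((1 + |u|) ^ 2)⁻¹ := by
      apply integral_mono (integrable_finsetSum _ fun k _ => hint n k)
        ((integrable_wt le_rfl).const_mul _)
      intro u
      have hu1 : 1 ≤ 1 + |u| := by linarith [abs_nonneg u]
      have hu0 : 0 < 1 + |u| := by linarith
      beta_reduce
      rw [← Finset.mul_sum]
      have h3 := hH (Real.exp (c * n)) u hZ1 (hZle.trans (by gcongr))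
      have h4 := hdec u
      have h5 : ‖ker (cx h) u‖ ≤ Ck * ((1 + |u|) ^ K)⁻¹ := by
        rw [← div_eq_mul_inv, le_div_iff₀ (by positivity)]
        exact h4
      have h6 : ((1 + |u|) ^ K)⁻¹ * (1 + |u|) ^ Mx ≤ ((1 + |u|) ^ 2)⁻¹ := by
        rw [← Real.rpow_natCast (1 + |u|) K, ← Real.rpow_neg hu0.le, ← Real.rpow_add hu0,
          ← Real.rpow_natCast (1 + |u|) 2, ← Real.rpow_neg hu0.le]
        apply Real.rpow_le_rpow_of_exponent_le hu1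
        have := Nat.le_ceil Mx
        rw [hK]
        push_cast
        linarith
      have h0 : 0 ≤ ∑ k ∈ bl L, ‖TG h χ l k (Real.exp (c * n)) Y2 (t1 + u) t2‖ ^ 2 :=
        Finset.sum_nonneg fun k _ => by positivity
      calc ‖ker (cx h) u‖ * ∑ k ∈ bl L, ‖TG h χ l k (Real.exp (c * n)) Y2 (t1 + u) t2‖ ^ 2
          ≤ (Ck * ((1 + |u|) ^ K)⁻¹) * (B * Real.exp (c * n) * (1 + |u|) ^ Mx) := by
            unfold U2 at h3
            gcongr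
        _ = (Ck * (B * Real.exp (c * n))) * (((1 + |u|) ^ K)⁻¹ * (1 + |u|) ^ Mx) := by
            ring
        _ ≤ _ := by gcongr
    calc ∫ u : ℝ, ∑ k ∈ bl L, ‖ker (cx h) u‖ *
        ‖TG h χ l k (Real.exp (c * n)) Y2 (t1 + u) t2‖ ^ 2
        ≤ ∫ u : ℝ, (Ck * (B * Real.exp (c * n))) * ((1 + |u|) ^ 2)⁻¹ := h1
      _ = (Ck * (B * Real.exp (c * n))) * I2 := by rw [integral_const_mul]
      _ ≤ (Ck * (B * (Real.exp (2 * R) * Y1))) * I2 := by gcongr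
      _ = _ := by ring
  calc U2 h χ l L Y1 Y2 t1 t2 ≤ ∑ k ∈ bl L, W * I0 * ∑ n ∈ S, ∫ u : ℝ, ‖ker (cx h) u‖ *
        ‖TG h χ l k (Real.exp (c * n)) Y2 (t1 + u) t2‖ ^ 2 := by
        unfold U2
        refine Finset.sum_le_sum fun k _ => ?_
        refine (TG_sep_sq hpu χ l hR S hS1 k Y2 t1 t2).trans ?_
        have : 0 ≤ ∑ n ∈ S, ∫ u : ℝ, ‖ker (cx h) u‖ *
            ‖TG h χ l k (Real.exp (c * n)) Y2 (t1 + u) t2‖ ^ 2 :=
          Finset.sum_nonneg fun n _ => integral_nonneg fun u => by positivity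
        gcongr
    _ = W * I0 * ∑ n ∈ S, ∑ k ∈ bl L, ∫ u : ℝ, ‖ker (cx h) u‖ *
        ‖TG h χ l k (Real.exp (c * n)) Y2 (t1 + u) t2‖ ^ 2 := by
        rw [← Finset.mul_sum, Finset.sum_comm]
    _ ≤ W * I0 * ∑ n ∈ S, (Ck * I2 * Real.exp (2 * R)) * B * Y1 := by
        gcongr with n hn
        exact hscale n hn
    _ = W * I0 * ((S.card : ℝ) * ((Ck * I2 * Real.exp (2 * R)) * B * Y1)) := by
        rw [Finset.sum_const, nsmul_eq_mul]
    _ ≤ W * I0 * (W * ((Ck * I2 * Real.exp (2 * R)) * B * Y1)) := by gcongr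
    _ = (W * I0 * (W * (Ck * I2 * Real.exp (2 * R)))) * B * Y1 := by ring
    _ ≤ C * B * Y1 := by
        gcongr
        rw [hC]
        linarith [Real.exp_pos (2 * R)]

lemma U2_symm (h : ℝ → ℝ) (χ : Eis → ℂ) (l : ℤ) (L Y1 Y2 t1 t2 : ℝ) :
    U2 h χ l L Y1 Y2 t1 t2 = U2 h χ l L Y2 Y1 t2 t1 := by
  unfold U2
  exact Finset.sum_congr rfl fun k _ => by rw [TG_symm]

/-- change of both scales -/
lemma U2_sep2 {h : ℝ → ℝ} {c : ℝ} (hpu : PU h c) (χ : Eis → ℂ) (l : ℤ) {Mx : ℝ} (hM : 0 ≤ Mx) :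
    ∃ C : ℝ, 1 ≤ C ∧ ∀ L Y1 Y2 t1 t2 B : ℝ, 0 < L → 0 < Y1 → 0 < Y2 → 0 ≤ B →
      (∀ Z1 Z2 s1 s2 : ℝ, 1 ≤ Z1 → Z1 ≤ C * Y1 → 1 ≤ Z2 → Z2 ≤ C * Y2 →
        T2 h χ l L Z1 Z2 (t1 + s1) (t2 + s2) ≤ B * ((1 + |s1|) * (1 + |s2|)) ^ Mx) →
      U2 h χ l L Y1 Y2 t1 t2 ≤ C ^ 2 * B * (L * Y1 * Y2) := by
  obtain ⟨C, hC1, hC⟩ := U2_sep hpu χ l hM
  refine ⟨C, hC1, fun L Y1 Y2 t1 t2 B hL hY1 hY2 hB hH => ?_⟩
  have hC0 : 0 ≤ C := by linarith
  have h1 : ∀ Z s : ℝ, 1 ≤ Z → Z ≤ C * Y1 →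
      U2 h χ l L Z Y2 (t1 + s) t2 ≤ (C * B * L * Y2) * Z * (1 + |s|) ^ Mx := by
    intro Z1 s1 hZ1 hZ1'
    have hs1 : 0 < 1 + |s1| := by positivity
    have hZ10 : 0 < Z1 := by linarith
    rw [U2_symm]
    have := hC L Y2 Z1 t2 (t1 + s1) (B * L * Z1 * (1 + |s1|) ^ Mx) hL hY2 (by positivity) ?_
    · calc U2 h χ l L Y2 Z1 t2 (t1 + s1) ≤ C * (B * L * Z1 * (1 + |s1|) ^ Mx) * Y2 := this
        _ = _ := by ring
    · intro Z2 s2 hZ2 hZ2'
      have hs2 : 0 < 1 + |s2| := by positivity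
      have hZ20 : 0 < Z2 := by linarith
      rw [U2_symm, U2_eq h χ l hL hZ10 hZ20]
      have h3 := hH Z1 Z2 s1 s2 hZ1 hZ1' hZ2 hZ2'
      calc L * Z1 * Z2 * T2 h χ l L Z1 Z2 (t1 + s1) (t2 + s2)
          ≤ L * Z1 * Z2 * (B * ((1 + |s1|) * (1 + |s2|)) ^ Mx) := by gcongr
        _ = _ := by rw [Real.mul_rpow hs1.le hs2.le]; ring
  have := hC L Y1 Y2 t1 t2 (C * B * L * Y2) hL hY1 (by positivity) h1
  calc U2 h χ l L Y1 Y2 t1 t2 ≤ C * (C * B * L * Y2) * Y1 := this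
    _ = _ := by ring

/-- **coprimality on the Gauss side** -/
theorem coprimeG {h : ℝ → ℝ} {c : ℝ} (hpu : PU h c) {M : Eis} {χ : Eis → ℂ} (hχ : HC M χ) (l : ℤ) :
    ∀ ε Mx : ℝ, 0 < ε → 0 ≤ Mx → ∃ C : ℝ, 0 < C ∧ ∀ L Z1 Z2 t1 t2 A : ℝ,
      0 < L → 0 < Z1 → 0 < Z2 → 0 ≤ A → ∀ q : Eis, q ≠ 0 →
      (∀ a Z1' Z2' s1 s2 : ℝ, 1 ≤ a → a ≤ nm q → 1 ≤ Z1' → Z1' ≤ C * Z1 → 1 ≤ Z2' →
        Z2' ≤ C * Z2 → Z1' * Z2' * a ≤ C * (Z1 * Z2) →
        T2 h χ l (L * a) Z1' Z2' (t1 + s1) (t2 + s2) ≤ A * ((1 + |s1|) * (1 + |s2|)) ^ Mx) →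
      ∑ k ∈ bl L, ‖TG h χ l (k * q ^ 3) Z1 Z2 t1 t2‖ ^ 2 ≤
        C * (nm q : ℝ) ^ ε * (A * (L * Z1 * Z2)) := by
  intro ε Mx hε hMx
  obtain ⟨C1, hC1, hsep⟩ := U2_sep2 hpu χ l hMx
  obtain ⟨Ct, hCt, htau⟩ := tau_le_rpow (ε := ε / 4) (by positivity)
  refine ⟨C1 ^ 2 * Ct ^ 4 + C1 ^ 2, by positivity, ?_⟩
  intro L Z1 Z2 t1 t2 A hL hZ1 hZ2 hA q hq hH
  set C := C1 ^ 2 * Ct ^ 4 + C1 ^ 2 with hC
  have hCC : C1 ^ 2 ≤ C := by
    have : 0 ≤ C1 ^ 2 * Ct ^ 4 := by positivity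
    linarith
  have hC1C : C1 ≤ C := by nlinarith
  have hC0 : 0 ≤ C := by positivity
  have hdq : ∀ a : Eis, a ∣ ∏ p ∈ pp q, p → a ∣ q := fun a ha =>
    ha.trans ((ppSet_pp q).prod_dvd.mpr fun p hp => dvd_of_mem_pp hp)
  have hmain := sum_TG_prod hpu.cs hχ l t1 t2 (C1 ^ 2 * A * (L * Z1 * Z2)) (pp q) (ppSet_pp q)
    L Z1 Z2 hL hZ1 hZ2 (fun a1 a2 h1 h2 hd => by
      have hn1 := one_le_nm h1
      have hn2 := one_le_nm h2
      have hn10 : (0 : ℝ) < nm a1 := by linarith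
      have hn20 : (0 : ℝ) < nm a2 := by linarith
      have e12 : ((nm (a1 * a2) : ℕ) : ℝ) = (nm a1 : ℝ) * nm a2 := by
        rw [nm_mul]; push_cast; ring
      have haq : ((nm (a1 * a2) : ℕ) : ℝ) ≤ nm q := by
        exact_mod_cast nm_le_of_dvd hq (hdq _ hd)
      have h3 := hsep (L * nm (a1 * a2)) (Z1 / nm a1) (Z2 / nm a2) t1 t2 A (by
        rw [e12]; positivity) (by positivity) (by positivity) hA ?_
      · refine h3.trans (le_of_eq ?_)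
        rw [e12]
        field_simp
      · intro W1 W2 s1 s2 hW1 hW1' hW2 hW2'
        have hW10 : 0 < W1 := by linarith
        have hW20 : 0 < W2 := by linarith
        refine hH _ W1 W2 s1 s2 ?_ haq hW1 ?_ hW2 ?_ ?_
        · rw [e12]; nlinarith
        · refine hW1'.trans ?_
          have : Z1 / nm a1 ≤ Z1 := div_le_self hZ1.le hn1
          gcongr
        · refine hW2'.trans ?_
          have : Z2 / nm a2 ≤ Z2 := div_le_self hZ2.le hn2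
          gcongr
        · rw [e12]
          calc W1 * W2 * ((nm a1 : ℝ) * nm a2)
              ≤ (C1 * (Z1 / nm a1)) * (C1 * (Z2 / nm a2)) * ((nm a1 : ℝ) * nm a2) := by gcongr
            _ = C1 ^ 2 * (Z1 * Z2) := by field_simp
            _ ≤ C * (Z1 * Z2) := by gcongr)
  have h9 : (9 : ℝ) ^ (pp q).card ≤ Ct ^ 4 * (nm q : ℝ) ^ ε := by
    have h2 := TypeI941.two_pow_card_pp_le hq
    have h3 := htau q hq
    have hnq : (0 : ℝ) ≤ nm q := Nat.cast_nonneg _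
    calc (9 : ℝ) ^ (pp q).card ≤ 16 ^ (pp q).card := by gcongr; norm_num
      _ = ((2 : ℝ) ^ (pp q).card) ^ 4 := by
          rw [← pow_mul, mul_comm, pow_mul]; norm_num
      _ ≤ (Ct * (nm q : ℝ) ^ (ε / 4)) ^ 4 := by
          have := h2.trans h3
          gcongr
      _ = Ct ^ 4 * (nm q : ℝ) ^ ε := by
          rw [mul_pow, ← Real.rpow_natCast ((nm q : ℝ) ^ (ε / 4)), ← Real.rpow_mul hnq]
          congr 2
          push_cast
          ring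
  calc ∑ k ∈ bl L, ‖TG h χ l (k * q ^ 3) Z1 Z2 t1 t2‖ ^ 2
      = ∑ k ∈ bl L, ‖TG h χ l (k * (∏ p ∈ pp q, p) ^ 3) Z1 Z2 t1 t2‖ ^ 2 :=
        Finset.sum_congr rfl fun k _ => by rw [TG_cube_pp h χ l hq]
    _ ≤ 9 ^ (pp q).card * (C1 ^ 2 * A * (L * Z1 * Z2)) := hmain
    _ ≤ (Ct ^ 4 * (nm q : ℝ) ^ ε) * (C1 ^ 2 * A * (L * Z1 * Z2)) := by gcongr
    _ = (C1 ^ 2 * Ct ^ 4) * (nm q : ℝ) ^ ε * (A * (L * Z1 * Z2)) := by ring
    _ ≤ _ := by
        gcongr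
        have : 0 ≤ C1 ^ 2 := by positivity
        linarith

end Crest.Agent.R017.Two939
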