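import Crest.Agent.R017.TPDefs_320
import Crest.Agent.R017.TPF1_939

/-!
# Row 17: coprimality on the Gauss side (2), the bridge (helper939)

* `TG_sq`    : `CM106.TG (sq q (w2 ..)) k = Two939.TG .. (k * q ^ 3) ..`
* `bridgeG`  : `VG L (sq 1 (w2 ..)) = L * Y1 * Y2 * T2 ..`
* `coprimeVG` : leaf (F)
-/

set_option autoImplicit false

noncomputable section

open Complex
open scoped ComplexConjugate

namespace Crest.Agent.R017.TP320

open Crest.Agent.R012 Crest.Agent.R012.Eis Crest.Agent.R012.LS2 Crest.Agent.R012.Gauss880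
open Crest.Agent.R012.Div277
open Crest.Agent.R017.Two939 (cfa cfa_support cfa_prim T2)
open Crest.Agent.R017.CM106 (CS TG FS)
open Crest.Agent.R017.End699 Crest.Agent.R017.FE47

lemma fs_cfa {h : ℝ → ℝ} (hh : HasCompactSupport h) (χ : Eis → ℂ) (l : ℤ) (Y t : ℝ) :
    FS (cfa h χ l Y t) where
  fin := by
    obtain ⟨N, hN⟩ := cfa_support hh χ l Y
    exact (primBall N).finite_toSet.subset fun b hb => hN t b hb
  prim := fun m hm => by
    by_contra h0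
    exact hm (cfa_prim h0)

lemma isPrim_of_conv {a b : Eis → ℂ} (hb : ∀ x, b x ≠ 0 → IsPrim x) {n : Eis}
    (h : conv a b n ≠ 0) : IsPrim n := by
  unfold conv at h
  obtain ⟨d, hd, h1⟩ := Finset.exists_ne_zero_of_sum_ne_zero h
  have h2 := hb _ (right_ne_zero_of_mul h1)
  rw [← mul_div_of_mem hd]
  exact (isPrim_of_mem_dvs hd).mul h2

/-- **bridge**: the squarefree coprime two-piece sequence on the Gauss side -/
lemma TG_sq {h : ℝ → ℝ} (hh : HasCompactSupport h) (χ : Eis → ℂ) (l : ℤ) (q : Eis)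
    (Z1 Z2 t1 t2 : ℝ) (k : Eis) : TG (sq q (w2 h χ l Z1 Z2 t1 t2)) k =
      Two939.TG h χ l (k * q ^ 3) Z1 Z2 t1 t2 := by
  have hF1 := fs_cfa hh χ l Z1 t1
  have hF2 := fs_cfa hh χ l Z2 t2
  have h1 := tsum_conv hF1 hF2 (fun n => G n * conj (sy (k * q ^ 3) n))
  unfold Two939.TG
  rw [← h1]
  unfold TG sq w2
  refine tsum_congr fun n => ?_
  by_cases hc0 : conv (cfa h χ l Z1 t1) (cfa h χ l Z2 t2) n = 0
  · rw [hc0]; simp
  have hn := isPrim_of_conv hF2.prim hc0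
  by_cases hs : Squarefree n
  · by_cases hq : IsCoprime n q
    · rw [if_pos ⟨hn, hs, hq⟩, Char766.sy_mul_left hn, Char766.sy_cube_left hn hq.symm, mul_one]
    · rw [if_neg (fun h => hq h.2.2)]
      have : sy (k * q ^ 3) n = 0 := by
        apply Char766.sy_eq_zero hn
        intro h
        exact hq (h.of_mul_left_right.of_isCoprime_of_dvd_left (dvd_pow_self q three_ne_zero)).symm
      rw [this]; simp
  · rw [if_neg (fun h => hs h.2.1), G_eq_zero syG hn hs]; simp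

/-- leaf (G) -/
lemma bridgeG {h : ℝ → ℝ} (hh : HasCompactSupport h) (χ : Eis → ℂ) (l : ℤ) {L Y1 Y2 : ℝ}
    (hL : 0 < L) (h1 : 0 < Y1) (h2 : 0 < Y2) (t1 t2 : ℝ) :
    VG L (sq 1 (w2 h χ l Y1 Y2 t1 t2)) = L * Y1 * Y2 * T2 h χ l L Y1 Y2 t1 t2 := by
  rw [← Two939.U2_eq h χ l hL h1 h2]
  unfold VG Two939.U2
  refine Finset.sum_congr rfl fun k _ => ?_
  rw [TG_sq hh, one_pow, mul_one]

/-- **leaf (F): coprimality on the Gauss side** -/
theorem coprimeVG {h : ℝ → ℝ} {c : ℝ} (hpu : PU h c) {M : Eis} {χ : Eis → ℂ} (hχ : HC M χ)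
    (l : ℤ) : ∀ ε Mx : ℝ, 0 < ε → 0 ≤ Mx → ∃ C : ℝ, 0 < C ∧ ∀ L Z1 Z2 t1 t2 A : ℝ,
      0 < L → 0 < Z1 → 0 < Z2 → 0 ≤ A → ∀ q : Eis, q ≠ 0 →
      (∀ a Z1' Z2' s1 s2 : ℝ, 1 ≤ a → a ≤ nm q → 1 ≤ Z1' → Z1' ≤ C * Z1 → 1 ≤ Z2' →
        Z2' ≤ C * Z2 → Z1' * Z2' * a ≤ C * (Z1 * Z2) →
        T2 h χ l (L * a) Z1' Z2' (t1 + s1) (t2 + s2) ≤ A * ((1 + |s1|) * (1 + |s2|)) ^ Mx) →
      VG L (sq q (w2 h χ l Z1 Z2 t1 t2)) ≤ C * (nm q : ℝ) ^ ε * (A * (L * Z1 * Z2)) := by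
  intro ε Mx hε hMx
  obtain ⟨C, hC, hm⟩ := Two939.coprimeG hpu hχ l ε Mx hε hMx
  refine ⟨C, hC, fun L Z1 Z2 t1 t2 A hL h1 h2 hA q hq hH => ?_⟩
  refine le_trans (le_of_eq ?_) (hm L Z1 Z2 t1 t2 A hL h1 h2 hA q hq hH)
  unfold VG
  exact Finset.sum_congr rfl fun k _ => by rw [TG_sq hpu.cs]

end Crest.Agent.R017.TP320
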