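import Crest.Agent.R017.TPMul_320

/-!
# Row 17, side-level rule (P): products of closed families are closed (helper320)
-/

set_option autoImplicit false

noncomputable section

open Complex
open scoped ComplexConjugate

namespace Crest.Agent.R017.TP320

open Crest.Agent.R012 Crest.Agent.R012.Eis Crest.Agent.R012.LS2 Crest.Agent.R012.Gauss880
open Crest.Agent.R012.Div277

lemma log_nm_nonneg' {b : Eis} (hb : IsPrim b) : 0 ≤ Real.log (nm b) := Real.log_nonneg (one_le_nm' hb)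

lemma log_nm_dvs {a a1 : Eis} (ha : IsPrim a) (h : a1 ∈ dvs a) :
    Real.log (nm a1) + Real.log (nm (a / a1)) = Real.log (nm a) := by
  have h1 := mul_div_of_mem h
  have h2 := one_le_nm' (isPrim_of_mem_dvs h)
  have h3 := one_le_nm' (quot_prim ha h)
  conv_rhs => rw [← h1, nm_mul]
  push_cast
  rw [Real.log_mul (by linarith) (by linarith)]

/-- facts on the members of `QS T` -/
lemma QS_facts {T : Finset (Eis × Eis)} (hT : ∀ p ∈ T, IsPrim p.1 ∧ IsPrim p.2 ∧ IsCoprime p.1 p.2)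
    {u : Quad} (hu : u ∈ QS T) : (u.1.1 * u.2.1, u.1.2 * u.2.2) ∈ T ∧ IsPrim u.1.1 ∧ IsPrim u.1.2 ∧
      IsPrim u.2.1 ∧ IsPrim u.2.2 ∧ IsCoprime u.1.1 u.1.2 ∧ IsCoprime u.2.1 u.2.2 ∧
      Real.log (nm u.1.1) + Real.log (nm u.2.1) = Real.log (nm (u.1.1 * u.2.1)) := by
  obtain ⟨p, hp, h1, h2, h3, h4⟩ := mem_QS.1 hu
  obtain ⟨q1, q2, q3⟩ := hT p hp
  have m1 : u.1.1 * u.2.1 = p.1 := by rw [h3]; exact mul_div_of_mem h1
  have m2 : u.1.2 * u.2.2 = p.2 := by rw [h4]; exact mul_div_of_mem h2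
  have k1 : IsPrim u.2.1 := by rw [h3]; exact quot_prim q1 h1
  have k2 : IsPrim u.2.2 := by rw [h4]; exact quot_prim q2 h2
  have k3 : u.2.1 ∈ dvs p.1 := (mem_dvs q1.ne_zero).2 ⟨k1, ⟨u.1.1, by rw [← m1]; ring⟩⟩
  have k4 : u.2.2 ∈ dvs p.2 := (mem_dvs q2.ne_zero).2 ⟨k2, ⟨u.1.2, by rw [← m2]; ring⟩⟩
  refine ⟨?_, isPrim_of_mem_dvs h1, isPrim_of_mem_dvs h2, k1, k2, cop_dvs q3 h1 h2,
    cop_dvs q3 k3 k4, ?_⟩
  · rw [m1, m2]; exact hp
  · rw [m1]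
    have := log_nm_dvs q1 h1
    rw [h3]; exact this

open Classical in
/-- reassembling -/
lemma sum_class {ι : Type} [Fintype ι] {T : Finset (Eis × Eis)}
    (_hT : ∀ p ∈ T, IsPrim p.1 ∧ IsPrim p.2 ∧ IsCoprime p.1 p.2)
    (P : Eis → Eis → Prop) (κ1 κ2 w1 w2 : Eis → ℂ) (v : Eis → Eis → EuclideanSpace ℂ ι) :
    ∑ u ∈ (QS T).filter (fun u => P u.1.1 u.2.1),
      ((κ1 u.1.1 * w1 u.1.2) * (κ2 u.2.1 * w2 u.2.2)) • v (u.1.1 * u.2.1) (u.1.2 * u.2.2) =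
    ∑ p ∈ T, ((∑ a1 ∈ dvs p.1, if P a1 (p.1 / a1) then κ1 a1 * κ2 (p.1 / a1) else 0) *
      conv w1 w2 p.2) • v p.1 p.2 := by
  rw [Finset.sum_filter, sum_QS]
  refine Finset.sum_congr rfl fun p hp => ?_
  unfold conv
  rw [Finset.sum_mul_sum, Finset.sum_smul]
  refine Finset.sum_congr rfl fun a1 h1 => ?_
  rw [Finset.sum_smul]
  refine Finset.sum_congr rfl fun b1 h2 => ?_
  simp only
  rw [mul_div_of_mem h1, mul_div_of_mem h2]
  by_cases hP : P a1 (p.1 / a1)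
  · rw [if_pos hP, if_pos hP]
    congr 1
    ring
  · rw [if_neg hP, if_neg hP]
    simp

/-- opening -/
lemma sum_open {ι : Type} [Fintype ι] {T : Finset (Eis × Eis)}
    (hT : ∀ p ∈ T, IsPrim p.1 ∧ IsPrim p.2 ∧ IsCoprime p.1 p.2)
    (s0 τ : ℝ) (w1 w2 : Eis → ℂ) (v : Eis → Eis → EuclideanSpace ℂ ι) :
    ∑ p ∈ T, (conv w1 w2 (p.1 * p.2) * tw s0 τ p.2) • v p.1 p.2 =
    ∑ u ∈ QS T, ((w1 (u.1.1 * u.1.2) * tw s0 τ u.1.2) * (w2 (u.2.1 * u.2.2) * tw s0 τ u.2.2)) •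
      v (u.1.1 * u.2.1) (u.1.2 * u.2.2) := by
  rw [sum_QS]
  refine Finset.sum_congr rfl fun p hp => ?_
  obtain ⟨q1, q2, q3⟩ := hT p hp
  rw [conv_mul_cop w1 w2 q1 q2 q3, Finset.sum_mul, Finset.sum_smul]
  refine Finset.sum_congr rfl fun a1 h1 => ?_
  rw [Finset.sum_mul, Finset.sum_smul]
  refine Finset.sum_congr rfl fun b1 h2 => ?_
  simp only
  rw [mul_div_of_mem h1, mul_div_of_mem h2]
  congr 1
  have : tw s0 τ p.2 = tw s0 τ b1 * tw s0 τ (p.2 / b1) := by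
    rw [← tw_mul, mul_div_of_mem h2]
  rw [this]
  ring

open Classical in
lemma class_bound {J₁ J₂ : Type} {Φ : Fam J₁} {Ψ : Fam J₂} {R1 A1 R2 A2 : ℝ} (h1 : Φ.Ok R1 A1)
    (h2 : Ψ.Ok R2 A2) {ε s0 C1 C2 Cτ : ℝ} (hε : 0 < ε) (hC1 : 1 ≤ C1) (hC2 : 1 ≤ C2)
    (hCτ : 1 ≤ Cτ) (hτ : ∀ n : Eis, n ≠ 0 → (tau n : ℝ) ≤ Cτ * (nm n : ℝ) ^ ε)
    (hs1 : SplitAt Φ R1 A1 ε s0 C1) (hs2 : SplitAt Ψ R2 A2 ε s0 C2)
    (j : J₁ × J₂) (α τ : ℝ) {ι : Type} [Fintype ι] (T : Finset (Eis × Eis))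
    (v : Eis → Eis → EuclideanSpace ℂ ι) (M : ℝ) (hM : 0 ≤ M)
    (hT : ∀ p ∈ T, IsPrim p.1 ∧ IsPrim p.2 ∧ IsCoprime p.1 p.2 ∧
      α ≤ Real.log (nm p.1) ∧ Real.log (nm p.1) ≤ α + 1)
    (hb : ∀ κ : Eis → ℂ, (∀ a, ‖κ a‖ ≤ 1) → ∀ j', (Φ.mul Ψ).good j' →
      (Φ.mul Ψ).dom (R1 + R2 + 1) j' j → (Φ.mul Ψ).len j' ≤ (Φ.mul Ψ).len j - α + (R1 + R2 + 1) →
      (Φ.mul Ψ).len j - α - (R1 + R2 + 1) - 1 ≤ (Φ.mul Ψ).len j' →
      ‖∑ p ∈ T, (κ p.1 * (Φ.mul Ψ).w j' p.2) • v p.1 p.2‖ ≤ M * (Φ.mul Ψ).ht j')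
    (P : Eis → Eis → Prop) (i : ℕ) (α2 : ℝ) (hi : (i : ℝ) ≤ |α| + 1) (hα1 : α - 1 ≤ i + α2)
    (hα2 : i + α2 ≤ α)
    (hP : ∀ u ∈ QS T, P u.1.1 u.2.1 → (i : ℝ) ≤ Real.log (nm u.1.1) ∧
      Real.log (nm u.1.1) ≤ i + 1 ∧ α2 ≤ Real.log (nm u.2.1) ∧ Real.log (nm u.2.1) ≤ α2 + 1) :
    ‖∑ u ∈ (QS T).filter (fun u => P u.1.1 u.2.1), ((Φ.w j.1 (u.1.1 * u.1.2) * tw s0 τ u.1.2) *
      (Ψ.w j.2 (u.2.1 * u.2.2) * tw s0 τ u.2.2)) • v (u.1.1 * u.2.1) (u.1.2 * u.2.2)‖ ≤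
    (C1 * C2 * Cτ * Real.exp (ε * (4 * |α| + 4)) * Real.exp |s0|) *
      Real.exp (-s0 * ((Φ.mul Ψ).len j - α)) * (1 + |τ|) ^ (A1 + A2) * M * (Φ.mul Ψ).ht j := by
  have hT3 : ∀ p ∈ T, IsPrim p.1 ∧ IsPrim p.2 ∧ IsCoprime p.1 p.2 := fun p hp =>
    ⟨(hT p hp).1, (hT p hp).2.1, (hT p hp).2.2.1⟩
  set D := Cτ * Real.exp (ε * (|α| + 1)) with hD
  have hD0 : 0 < D := by positivity
  have hht1 : ∀ j, 0 ≤ Φ.ht j := fun j => zero_le_one.trans (h1.ht1 j)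
  have hht2 : ∀ j, 0 ≤ Ψ.ht j := fun j => zero_le_one.trans (h2.ht1 j)
  have key := split_two hs1 hs2 (by linarith) (by linarith) hht1 hht2 j.1 j.2 (i : ℝ) α2 τ
    ((QS T).filter (fun u => P u.1.1 u.2.1)) (fun u => v (u.1.1 * u.2.1) (u.1.2 * u.2.2))
    (D * M) (by positivity) ?_ ?_ ?_
  · refine key.trans ?_
    have e0 : (Φ.mul Ψ).len j = Φ.len j.1 + Ψ.len j.2 := rfl
    have e1 : (Φ.mul Ψ).ht j = Φ.ht j.1 * Ψ.ht j.2 := rfl
    rw [e0, e1]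
    have b1 : Real.exp (ε * |(i : ℝ)|) ≤ Real.exp (ε * (|α| + 1)) := by
      apply Real.exp_le_exp.2
      rw [abs_of_nonneg (Nat.cast_nonneg i)]
      gcongr
    have b2 : Real.exp (ε * |α2|) ≤ Real.exp (ε * (2 * |α| + 2)) := by
      apply Real.exp_le_exp.2
      have hi0 : (0 : ℝ) ≤ i := Nat.cast_nonneg i
      have := abs_nonneg α
      have h3 : |α2| ≤ 2 * |α| + 2 := by
        rw [abs_le]
        constructor
        · have := neg_abs_le α; linarith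
        · have := le_abs_self α; linarith
      gcongr
    have b3 : Real.exp (-s0 * (Φ.len j.1 - i)) * Real.exp (-s0 * (Ψ.len j.2 - α2)) ≤
        Real.exp |s0| * Real.exp (-s0 * (Φ.len j.1 + Ψ.len j.2 - α)) := by
      rw [← Real.exp_add, ← Real.exp_add]
      apply Real.exp_le_exp.2
      have h3 : -s0 * (Φ.len j.1 - i) + -s0 * (Ψ.len j.2 - α2) =
          -s0 * (α - (i + α2)) + -s0 * (Φ.len j.1 + Ψ.len j.2 - α) := by ring
      rw [h3]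
      have h4 : -s0 * (α - (i + α2)) ≤ |s0| := by
        have h5 : |(-s0) * (α - (i + α2))| ≤ |s0| * 1 := by
          rw [abs_mul, abs_neg]
          gcongr
          rw [abs_le]; constructor <;> linarith
        linarith [le_abs_self ((-s0) * (α - (i + α2)))]
      linarith
    have b4 : (1 + |τ|) ^ A1 * (1 + |τ|) ^ A2 = (1 + |τ|) ^ (A1 + A2) := by
      rw [← Real.rpow_add (by positivity)]
    have hh1 := hht1 j.1
    have hh2 := hht2 j.2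
    calc C1 * Real.exp (ε * |(i : ℝ)|) * Real.exp (-s0 * (Φ.len j.1 - i)) * (1 + |τ|) ^ A1 *
        (C2 * Real.exp (ε * |α2|) * Real.exp (-s0 * (Ψ.len j.2 - α2)) * (1 + |τ|) ^ A2 * (D * M) *
          Ψ.ht j.2) * Φ.ht j.1
        = (C1 * C2) * (Real.exp (ε * |(i : ℝ)|) * Real.exp (ε * |α2|) * D) *
          (Real.exp (-s0 * (Φ.len j.1 - i)) * Real.exp (-s0 * (Ψ.len j.2 - α2))) *
          ((1 + |τ|) ^ A1 * (1 + |τ|) ^ A2) * M * (Φ.ht j.1 * Ψ.ht j.2) := by ring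
      _ ≤ (C1 * C2) * (Real.exp (ε * (|α| + 1)) * Real.exp (ε * (2 * |α| + 2)) * D) *
          (Real.exp |s0| * Real.exp (-s0 * (Φ.len j.1 + Ψ.len j.2 - α))) *
          ((1 + |τ|) ^ A1 * (1 + |τ|) ^ A2) * M * (Φ.ht j.1 * Ψ.ht j.2) := by
          gcongr
      _ = _ := by
          rw [b4, hD]
          have : Real.exp (ε * (4 * |α| + 4)) = Real.exp (ε * (|α| + 1)) *
              Real.exp (ε * (2 * |α| + 2)) * Real.exp (ε * (|α| + 1)) := by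
            rw [← Real.exp_add, ← Real.exp_add]; congr 1; ring
          rw [this]
          ring
  · intro u hu
    rw [Finset.mem_filter] at hu
    obtain ⟨f1, f2, f3, f4, f5, f6, f7, f8⟩ := QS_facts hT3 hu.1
    obtain ⟨g1, g2, g3, g4⟩ := hP u hu.1 hu.2
    exact ⟨f2, f3, f6, g1, g2⟩
  · intro u hu
    rw [Finset.mem_filter] at hu
    obtain ⟨f1, f2, f3, f4, f5, f6, f7, f8⟩ := QS_facts hT3 hu.1
    obtain ⟨g1, g2, g3, g4⟩ := hP u hu.1 hu.2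
    exact ⟨f4, f5, f7, g3, g4⟩
  · intro κ1 κ2 hκ1 hκ2 j1' j2' hg1 hg2 hd1 hd2 hl1 hl2 hm1 hm2
    rw [sum_class hT3 P κ1 κ2 (Φ.w j1') (Ψ.w j2') v]
    set κ : Eis → ℂ := fun a => if IsPrim a ∧ Real.log (nm a) ≤ α + 1 then
      (D : ℂ)⁻¹ * ∑ a1 ∈ dvs a, (if P a1 (a / a1) then κ1 a1 * κ2 (a / a1) else 0) else 0 with hκ
    have hκ1' : ∀ a, ‖κ a‖ ≤ 1 := by
      intro a
      simp only [hκ]
      by_cases ha : IsPrim a ∧ Real.log (nm a) ≤ α + 1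
      · rw [if_pos ha, norm_mul, norm_inv, Complex.norm_real, Real.norm_of_nonneg hD0.le]
        rw [inv_mul_le_iff₀ hD0, mul_one]
        have t1 : ‖∑ a1 ∈ dvs a, (if P a1 (a / a1) then κ1 a1 * κ2 (a / a1) else 0)‖ ≤
            (tau a : ℝ) := by
          refine (norm_sum_le _ _).trans ?_
          calc ∑ a1 ∈ dvs a, ‖(if P a1 (a / a1) then κ1 a1 * κ2 (a / a1) else 0)‖
              ≤ ∑ a1 ∈ dvs a, (1 : ℝ) := by
                refine Finset.sum_le_sum fun a1 _ => ?_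
                split_ifs
                · rw [norm_mul]
                  calc ‖κ1 a1‖ * ‖κ2 (a / a1)‖ ≤ 1 * 1 :=
                        mul_le_mul (hκ1 _) (hκ2 _) (norm_nonneg _) zero_le_one
                    _ = 1 := one_mul _
                · simp
            _ = tau a := by rw [Finset.sum_const, nsmul_eq_mul, mul_one]; rfl
        refine t1.trans ((hτ a ha.1.ne_zero).trans ?_)
        rw [hD]
        apply mul_le_mul_of_nonneg_left _ (by linarith)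
        have hn := one_le_nm' ha.1
        rw [Real.rpow_def_of_pos (by linarith)]
        apply Real.exp_le_exp.2
        rw [mul_comm]
        have := le_abs_self α
        apply mul_le_mul_of_nonneg_left _ hε.le
        linarith [ha.2]
      · rw [if_neg ha]; simp
    have e1 : ∑ p ∈ T, ((∑ a1 ∈ dvs p.1, if P a1 (p.1 / a1) then κ1 a1 * κ2 (p.1 / a1) else 0) *
        conv (Φ.w j1') (Ψ.w j2') p.2) • v p.1 p.2 =
        (D : ℂ) • ∑ p ∈ T, (κ p.1 * (Φ.mul Ψ).w (j1', j2') p.2) • v p.1 p.2 := by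
      rw [Finset.smul_sum]
      refine Finset.sum_congr rfl fun p hp => ?_
      rw [smul_smul]
      congr 1
      have hp1 : IsPrim p.1 ∧ Real.log (nm p.1) ≤ α + 1 := ⟨(hT p hp).1, (hT p hp).2.2.2.2⟩
      simp only [hκ]
      rw [if_pos hp1]
      have e2 : (Φ.mul Ψ).w (j1', j2') p.2 = conv (Φ.w j1') (Ψ.w j2') p.2 := rfl
      rw [e2]
      have hDc : (D : ℂ) ≠ 0 := by exact_mod_cast hD0.ne'
      field_simp
    rw [e1, norm_smul, Complex.norm_real, Real.norm_of_nonneg hD0.le]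
    have hb' := hb κ hκ1' (j1', j2') ⟨hg1, hg2⟩
      ⟨h1.dom_mono _ _ _ _ (by have := h2.R0; linarith) hd1,
       h2.dom_mono _ _ _ _ (by have := h1.R0; linarith) hd2⟩ (by
        have e3 : (Φ.mul Ψ).len (j1', j2') = Φ.len j1' + Ψ.len j2' := rfl
        have e4 : (Φ.mul Ψ).len j = Φ.len j.1 + Ψ.len j.2 := rfl
        rw [e3, e4]
        linarith) (by
        have e3 : (Φ.mul Ψ).len (j1', j2') = Φ.len j1' + Ψ.len j2' := rfl
        have e4 : (Φ.mul Ψ).len j = Φ.len j.1 + Ψ.len j.2 := rfl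
        rw [e3, e4]
        linarith)
    have e5 : (Φ.mul Ψ).ht (j1', j2') = Φ.ht j1' * Ψ.ht j2' := rfl
    rw [e5] at hb'
    calc D * ‖∑ p ∈ T, (κ p.1 * (Φ.mul Ψ).w (j1', j2') p.2) • v p.1 p.2‖
        ≤ D * (M * (Φ.ht j1' * Ψ.ht j2')) := by gcongr
      _ = _ := by ring

theorem split_mul {J₁ J₂ : Type} {Φ : Fam J₁} {Ψ : Fam J₂} {R1 A1 R2 A2 : ℝ} (h1 : Φ.Ok R1 A1)
    (h2 : Ψ.Ok R2 A2) {ε : ℝ} (s0 : ℝ) (hε : 0 < ε) :
    ∃ C : ℝ, 1 ≤ C ∧ SplitAt (Φ.mul Ψ) (R1 + R2 + 1) (A1 + A2) ε s0 C := by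
  classical
  have hε8 : 0 < ε / 8 := by positivity
  obtain ⟨C1, hC1, hs1⟩ := h1.split (ε / 8) s0 hε8
  obtain ⟨C2, hC2, hs2⟩ := h2.split (ε / 8) s0 hε8
  obtain ⟨Cτ, hCτ, hτ⟩ := tau_le_rpow hε8
  set B : ℝ := C1 * C2 * Cτ * Real.exp (ε / 8 * 4) * Real.exp |s0| with hB
  have hB1 : 1 ≤ B := by
    rw [hB]
    have e1 : 1 ≤ Real.exp (ε / 8 * 4) := Real.one_le_exp (by positivity)
    have e2 : 1 ≤ Real.exp |s0| := Real.one_le_exp (abs_nonneg _)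
    calc (1 : ℝ) = 1 * 1 * 1 * 1 * 1 := by norm_num
      _ ≤ _ := by gcongr
  have hcl : ∀ α : ℝ, 2 * (|α| + 2) ≤ (16 / ε + 4) * Real.exp (ε / 8 * |α|) := by
    intro α
    have h3 : ε / 8 * |α| ≤ Real.exp (ε / 8 * |α|) := by
      have := Real.add_one_le_exp (ε / 8 * |α|)
      linarith
    have h4 : 1 ≤ Real.exp (ε / 8 * |α|) := Real.one_le_exp (by positivity)
    have h5 : |α| ≤ 8 / ε * Real.exp (ε / 8 * |α|) := by
      have : |α| = 8 / ε * (ε / 8 * |α|) := by field_simp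
      calc |α| = 8 / ε * (ε / 8 * |α|) := this
        _ ≤ _ := by gcongr
    have h6 : 16 / ε = 2 * (8 / ε) := by ring
    rw [h6]
    nlinarith
  refine ⟨(16 / ε + 4) * B, ?_, ?_⟩
  · have : 0 < 16 / ε := by positivity
    nlinarith
  intro j α τ ι _ T v M hM hT hb
  have hT3 : ∀ p ∈ T, IsPrim p.1 ∧ IsPrim p.2 ∧ IsCoprime p.1 p.2 := fun p hp =>
    ⟨(hT p hp).1, (hT p hp).2.1, (hT p hp).2.2.1⟩
  have hht : 0 ≤ (Φ.mul Ψ).ht j := by
    have e1 : (Φ.mul Ψ).ht j = Φ.ht j.1 * Ψ.ht j.2 := rfl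
    rw [e1]
    exact mul_nonneg (zero_le_one.trans (h1.ht1 _)) (zero_le_one.trans (h2.ht1 _))
  set F : Quad → EuclideanSpace ℂ ι := fun u =>
    ((Φ.w j.1 (u.1.1 * u.1.2) * tw s0 τ u.1.2) * (Ψ.w j.2 (u.2.1 * u.2.2) * tw s0 τ u.2.2)) •
      v (u.1.1 * u.2.1) (u.1.2 * u.2.2) with hF
  have hopen : ∑ p ∈ T, ((Φ.mul Ψ).w j (p.1 * p.2) * tw s0 τ p.2) • v p.1 p.2 =
      ∑ u ∈ QS T, F u := sum_open hT3 s0 τ (Φ.w j.1) (Ψ.w j.2) v
  rw [hopen]
  set N := ⌊α + 1⌋₊ with hN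
  -- the logarithms
  have hlog : ∀ u ∈ QS T, 0 ≤ Real.log (nm u.1.1) ∧ 0 ≤ Real.log (nm u.2.1) ∧
      α ≤ Real.log (nm u.1.1) + Real.log (nm u.2.1) ∧
      Real.log (nm u.1.1) + Real.log (nm u.2.1) ≤ α + 1 := by
    intro u hu
    obtain ⟨f1, f2, f3, f4, f5, f6, f7, f8⟩ := QS_facts hT3 hu
    have := hT _ f1
    refine ⟨log_nm_nonneg' f2, log_nm_nonneg' f4, ?_, ?_⟩
    · rw [f8]; exact this.2.2.2.1
    · rw [f8]; exact this.2.2.2.2
  have hmaps : ∀ u ∈ QS T, ⌊Real.log (nm u.1.1)⌋₊ ∈ Finset.range (N + 1) := by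
    intro u hu
    obtain ⟨g1, g2, g3, g4⟩ := hlog u hu
    rw [Finset.mem_range, Nat.lt_succ_iff]
    exact Nat.floor_le_floor (by linarith)
  rw [← Finset.sum_fiberwise_of_maps_to hmaps]
  set Bd : ℝ := (C1 * C2 * Cτ * Real.exp (ε / 8 * (4 * |α| + 4)) * Real.exp |s0|) *
      Real.exp (-s0 * ((Φ.mul Ψ).len j - α)) * (1 + |τ|) ^ (A1 + A2) * M * (Φ.mul Ψ).ht j with hBd
  have hBd0 : 0 ≤ Bd := by rw [hBd]; positivity
  have hcls : ∀ i ∈ Finset.range (N + 1),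
      ‖∑ u ∈ (QS T).filter (fun u => ⌊Real.log (nm u.1.1)⌋₊ = i), F u‖ ≤ 2 * Bd := by
    intro i hi
    rcases (QS T).eq_empty_or_nonempty with hemp | ⟨u0, hu0⟩
    · rw [hemp]; simp; exact hBd0
    have hα1 : 0 ≤ α + 1 := by
      obtain ⟨g1, g2, g3, g4⟩ := hlog u0 hu0
      linarith
    have hi' : (i : ℝ) ≤ |α| + 1 := by
      rw [Finset.mem_range, Nat.lt_succ_iff, hN] at hi
      have : (i : ℝ) ≤ α + 1 := (Nat.cast_le.2 hi).trans (Nat.floor_le hα1)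
      linarith [le_abs_self α]
    have e0 : ∑ u ∈ (QS T).filter (fun u => ⌊Real.log (nm u.1.1)⌋₊ = i), F u =
        ∑ u ∈ (QS T).filter (fun u => ⌊Real.log (nm u.1.1)⌋₊ = i ∧
          Real.log (nm u.2.1) ≤ α - i), F u +
        ∑ u ∈ (QS T).filter (fun u => ⌊Real.log (nm u.1.1)⌋₊ = i ∧
          ¬ Real.log (nm u.2.1) ≤ α - i), F u := by
      rw [← Finset.sum_filter_add_sum_filter_not
        ((QS T).filter (fun u => ⌊Real.log (nm u.1.1)⌋₊ = i))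
        (fun u => Real.log (nm u.2.1) ≤ α - i), Finset.filter_filter, Finset.filter_filter]
    have c1 := class_bound h1 h2 hε8 hC1 hC2 hCτ hτ hs1 hs2 j α τ T v M hM hT hb
      (fun a1 a2 => ⌊Real.log (nm a1)⌋₊ = i ∧ Real.log (nm a2) ≤ α - i) i (α - i - 1) hi'
      (by linarith) (by linarith) (by
        intro u hu hP
        obtain ⟨g1, g2, g3, g4⟩ := hlog u hu
        obtain ⟨p1, p2⟩ := hP
        have k1 : (i : ℝ) ≤ Real.log (nm u.1.1) := by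
          rw [← p1]; exact Nat.floor_le g1
        have k2 : Real.log (nm u.1.1) < i + 1 := by
          rw [← p1]; exact Nat.lt_floor_add_one _
        refine ⟨k1, k2.le, by linarith, by linarith⟩)
    have c2 := class_bound h1 h2 hε8 hC1 hC2 hCτ hτ hs1 hs2 j α τ T v M hM hT hb
      (fun a1 a2 => ⌊Real.log (nm a1)⌋₊ = i ∧ ¬ Real.log (nm a2) ≤ α - i) i (α - i) hi'
      (by linarith) (by linarith) (by
        intro u hu hP
        obtain ⟨g1, g2, g3, g4⟩ := hlog u hu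
        obtain ⟨p1, p2⟩ := hP
        have k1 : (i : ℝ) ≤ Real.log (nm u.1.1) := by
          rw [← p1]; exact Nat.floor_le g1
        have k2 : Real.log (nm u.1.1) < i + 1 := by
          rw [← p1]; exact Nat.lt_floor_add_one _
        rw [not_le] at p2
        refine ⟨k1, k2.le, by linarith, by linarith⟩)
    rw [e0]
    refine (norm_add_le _ _).trans ?_
    rw [two_mul]
    rw [hBd]
    refine add_le_add ?_ ?_
    · refine le_trans (le_of_eq ?_) c1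
      congr 2
      ext u
      simp only [Finset.mem_filter]
    · refine le_trans (le_of_eq ?_) c2
      congr 2
      ext u
      simp only [Finset.mem_filter]
  refine (norm_sum_le _ _).trans ((Finset.sum_le_sum hcls).trans ?_)
  rw [Finset.sum_const, Finset.card_range, nsmul_eq_mul]
  rcases (QS T).eq_empty_or_nonempty with hemp | ⟨u0, hu0⟩
  · -- trivial case: still bound
    have hN' : ((N : ℕ) : ℝ) ≤ |α| + 1 := by
      rcases le_or_gt 0 (α + 1) with h | h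
      · rw [hN]
        exact (Nat.floor_le h).trans (by linarith [le_abs_self α])
      · rw [hN, Nat.floor_of_nonpos h.le]
        simp; positivity
    have h3 := hcl α
    push_cast
    have h4 : (((N : ℕ) : ℝ) + 1) * (2 * Bd) ≤ (16 / ε + 4) * Real.exp (ε / 8 * |α|) * Bd := by
      have : (((N : ℕ) : ℝ) + 1) * 2 ≤ (16 / ε + 4) * Real.exp (ε / 8 * |α|) := by linarith
      nlinarith
    refine h4.trans ?_
    rw [hBd, hB]
    have e5 : Real.exp (ε / 8 * |α|) * Real.exp (ε / 8 * (4 * |α| + 4)) ≤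
        Real.exp (ε / 8 * 4) * Real.exp (ε * |α|) := by
      rw [← Real.exp_add, ← Real.exp_add]
      apply Real.exp_le_exp.2
      have := abs_nonneg α
      nlinarith
    calc (16 / ε + 4) * Real.exp (ε / 8 * |α|) * ((C1 * C2 * Cτ *
          Real.exp (ε / 8 * (4 * |α| + 4)) * Real.exp |s0|) *
          Real.exp (-s0 * ((Φ.mul Ψ).len j - α)) * (1 + |τ|) ^ (A1 + A2) * M * (Φ.mul Ψ).ht j)
        = (16 / ε + 4) * (C1 * C2 * Cτ) * (Real.exp (ε / 8 * |α|) *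
          Real.exp (ε / 8 * (4 * |α| + 4))) * Real.exp |s0| *
          Real.exp (-s0 * ((Φ.mul Ψ).len j - α)) * (1 + |τ|) ^ (A1 + A2) * M * (Φ.mul Ψ).ht j := by
          ring
      _ ≤ (16 / ε + 4) * (C1 * C2 * Cτ) * (Real.exp (ε / 8 * 4) * Real.exp (ε * |α|)) *
          Real.exp |s0| *
          Real.exp (-s0 * ((Φ.mul Ψ).len j - α)) * (1 + |τ|) ^ (A1 + A2) * M * (Φ.mul Ψ).ht j := by
          gcongr
      _ = _ := by ring
  · have hN' : ((N : ℕ) : ℝ) ≤ |α| + 1 := by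
      rcases le_or_gt 0 (α + 1) with h | h
      · rw [hN]
        exact (Nat.floor_le h).trans (by linarith [le_abs_self α])
      · rw [hN, Nat.floor_of_nonpos h.le]
        simp; positivity
    have h3 := hcl α
    push_cast
    have h4 : (((N : ℕ) : ℝ) + 1) * (2 * Bd) ≤ (16 / ε + 4) * Real.exp (ε / 8 * |α|) * Bd := by
      have : (((N : ℕ) : ℝ) + 1) * 2 ≤ (16 / ε + 4) * Real.exp (ε / 8 * |α|) := by linarith
      nlinarith
    refine h4.trans ?_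
    rw [hBd, hB]
    have e5 : Real.exp (ε / 8 * |α|) * Real.exp (ε / 8 * (4 * |α| + 4)) ≤
        Real.exp (ε / 8 * 4) * Real.exp (ε * |α|) := by
      rw [← Real.exp_add, ← Real.exp_add]
      apply Real.exp_le_exp.2
      have := abs_nonneg α
      nlinarith
    calc (16 / ε + 4) * Real.exp (ε / 8 * |α|) * ((C1 * C2 * Cτ *
          Real.exp (ε / 8 * (4 * |α| + 4)) * Real.exp |s0|) *
          Real.exp (-s0 * ((Φ.mul Ψ).len j - α)) * (1 + |τ|) ^ (A1 + A2) * M * (Φ.mul Ψ).ht j)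
        = (16 / ε + 4) * (C1 * C2 * Cτ) * (Real.exp (ε / 8 * |α|) *
          Real.exp (ε / 8 * (4 * |α| + 4))) * Real.exp |s0| *
          Real.exp (-s0 * ((Φ.mul Ψ).len j - α)) * (1 + |τ|) ^ (A1 + A2) * M * (Φ.mul Ψ).ht j := by
          ring
      _ ≤ (16 / ε + 4) * (C1 * C2 * Cτ) * (Real.exp (ε / 8 * 4) * Real.exp (ε * |α|)) *
          Real.exp |s0| *
          Real.exp (-s0 * ((Φ.mul Ψ).len j - α)) * (1 + |τ|) ^ (A1 + A2) * M * (Φ.mul Ψ).ht j := by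
          gcongr
      _ = _ := by ring

lemma conv_ne_zero {w1 w2 : Eis → ℂ} {n : Eis} (h : conv w1 w2 n ≠ 0) :
    ∃ d ∈ dvs n, w1 d ≠ 0 ∧ w2 (n / d) ≠ 0 := by
  unfold conv at h
  obtain ⟨d, hd, h0⟩ := Finset.exists_ne_zero_of_sum_ne_zero h
  exact ⟨d, hd, left_ne_zero_of_mul h0, right_ne_zero_of_mul h0⟩

/-- **products of closed families are closed** -/
theorem mul_ok {J₁ J₂ : Type} {Φ : Fam J₁} {Ψ : Fam J₂} {R1 A1 R2 A2 : ℝ} (h1 : Φ.Ok R1 A1)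
    (h2 : Ψ.Ok R2 A2) : (Φ.mul Ψ).Ok (R1 + R2 + 1) (A1 + A2) where
  R0 := by have := h1.R0; have := h2.R0; linarith
  A0 := by have := h1.A0; have := h2.A0; linarith
  ht1 j := by
    have e1 : (Φ.mul Ψ).ht j = Φ.ht j.1 * Ψ.ht j.2 := rfl
    rw [e1]
    have := h1.ht1 j.1
    have := h2.ht1 j.2
    nlinarith
  prim j n hn := by
    obtain ⟨d, hd, ha, hb⟩ := conv_ne_zero hn
    have := (h1.prim _ _ ha).mul (h2.prim _ _ hb)
    rwa [mul_div_of_mem hd] at this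
  supp j n hn := by
    obtain ⟨d, hd, ha, hb⟩ := conv_ne_zero hn
    have hp := (h1.prim _ _ ha).mul (h2.prim _ _ hb)
    rw [mul_div_of_mem hd] at hp
    have e1 := log_nm_dvs hp hd
    have s1 := h1.supp _ _ ha
    have s2 := h2.supp _ _ hb
    have e2 : (Φ.mul Ψ).len j = Φ.len j.1 + Ψ.len j.2 := rfl
    rw [e2, ← e1]
    rw [abs_le] at s1 s2 ⊢
    constructor <;> linarith [s1.1, s1.2, s2.1, s2.2]
  bd ε hε := by
    have hε2 : 0 < ε / 2 := by positivity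
    obtain ⟨C1, hC1, b1⟩ := h1.bd (ε / 2) hε2
    obtain ⟨C2, hC2, b2⟩ := h2.bd (ε / 2) hε2
    obtain ⟨Cτ, hCτ, hτ⟩ := tau_le_rpow hε2
    refine ⟨C1 * C2 * Cτ, ?_, fun j n => ?_⟩
    · calc (1 : ℝ) = 1 * 1 * 1 := by norm_num
        _ ≤ _ := by gcongr
    by_cases h0 : (Φ.mul Ψ).w j n = 0
    · rw [h0, norm_zero]; positivity
    obtain ⟨d0, hd0, ha0, hb0⟩ := conv_ne_zero h0
    have hp := (h1.prim _ _ ha0).mul (h2.prim _ _ hb0)
    rw [mul_div_of_mem hd0] at hp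
    have hn1 := one_le_nm' hp
    have e1 : ‖(Φ.mul Ψ).w j n‖ ≤ ∑ d ∈ dvs n, C1 * C2 * (nm n : ℝ) ^ (ε / 2) := by
      refine (norm_sum_le _ _).trans (Finset.sum_le_sum fun d hd => ?_)
      rw [norm_mul]
      have hd1 := one_le_nm' (isPrim_of_mem_dvs hd)
      have hd2 := one_le_nm' (quot_prim hp hd)
      have hm : (nm n : ℝ) = nm d * nm (n / d) := by
        conv_lhs => rw [← mul_div_of_mem hd, nm_mul]
        push_cast; rfl
      calc ‖Φ.w j.1 d‖ * ‖Ψ.w j.2 (n / d)‖ ≤ (C1 * (nm d : ℝ) ^ (ε / 2)) *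
            (C2 * (nm (n / d) : ℝ) ^ (ε / 2)) :=
            mul_le_mul (b1 _ _) (b2 _ _) (norm_nonneg _) (by positivity)
        _ = C1 * C2 * (nm n : ℝ) ^ (ε / 2) := by
            rw [hm, Real.mul_rpow (by positivity) (by positivity)]; ring
    rw [Finset.sum_const, nsmul_eq_mul] at e1
    have e2 := hτ n hp.ne_zero
    calc ‖(Φ.mul Ψ).w j n‖ ≤ ((dvs n).card : ℝ) * (C1 * C2 * (nm n : ℝ) ^ (ε / 2)) := e1
      _ ≤ (Cτ * (nm n : ℝ) ^ (ε / 2)) * (C1 * C2 * (nm n : ℝ) ^ (ε / 2)) := by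
          apply mul_le_mul_of_nonneg_right e2 (by positivity)
      _ = C1 * C2 * Cτ * ((nm n : ℝ) ^ (ε / 2) * (nm n : ℝ) ^ (ε / 2)) := by ring
      _ = _ := by
          rw [← Real.rpow_add (by linarith)]
          congr 2
          ring
  dom_refl j := ⟨h1.dom_refl _, h2.dom_refl _⟩
  dom_mono r r' j j' hr h := ⟨h1.dom_mono _ _ _ _ hr h.1, h2.dom_mono _ _ _ _ hr h.2⟩
  dom_trans r r' j j' j'' h h' := ⟨h1.dom_trans _ _ _ _ _ h.1 h'.1, h2.dom_trans _ _ _ _ _ h.2 h'.2⟩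
  split ε s0 hε := split_mul h1 h2 s0 hε

end Crest.Agent.R017.TP320
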