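import Crest.Agent.R017.TPFam_320

/-!
# Row 17, side-level rule (P): products of closed families are closed (helper320)
-/

set_option autoImplicit false

noncomputable section

open Complex
open scoped ComplexConjugate

namespace Crest.Agent.R017.TP320

open Crest.Agent.R012 Crest.Agent.R012.Eis Crest.Agent.R012.LS2 Crest.Agent.R012.Gauss880
open Crest.Agent.R012.Div277

/-! ### the two-step freezing argument -/

lemma fib1 {X Y E : Type} [DecidableEq X] [AddCommGroup E] [Module ℂ E] (V : Finset (X × Y))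
    (f : X → ℂ) (g : X × Y → E) :
    ∑ u ∈ V, f u.1 • g u = ∑ x ∈ V.image Prod.fst, f x • ∑ u ∈ V.filter (fun u => u.1 = x), g u := by
  rw [← Finset.sum_fiberwise_of_maps_to (g := Prod.fst) (t := V.image Prod.fst)
    (fun u hu => Finset.mem_image_of_mem _ hu)]
  refine Finset.sum_congr rfl fun x _ => ?_
  rw [Finset.smul_sum]
  refine Finset.sum_congr rfl fun u hu => ?_
  rw [(Finset.mem_filter.1 hu).2]

lemma fib2 {X Y E : Type} [DecidableEq Y] [AddCommGroup E] [Module ℂ E] (V : Finset (X × Y))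
    (f : Y → ℂ) (g : X × Y → E) :
    ∑ u ∈ V, f u.2 • g u = ∑ y ∈ V.image Prod.snd, f y • ∑ u ∈ V.filter (fun u => u.2 = y), g u := by
  rw [← Finset.sum_fiberwise_of_maps_to (g := Prod.snd) (t := V.image Prod.snd)
    (fun u hu => Finset.mem_image_of_mem _ hu)]
  refine Finset.sum_congr rfl fun x _ => ?_
  rw [Finset.smul_sum]
  refine Finset.sum_congr rfl fun u hu => ?_
  rw [(Finset.mem_filter.1 hu).2]

abbrev Quad := (Eis × Eis) × (Eis × Eis)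

lemma split_two {J₁ J₂ : Type} {Φ : Fam J₁} {Ψ : Fam J₂} {R1 A1 R2 A2 ε s0 C1 C2 : ℝ}
    (hΦ : SplitAt Φ R1 A1 ε s0 C1) (hΨ : SplitAt Ψ R2 A2 ε s0 C2) (hC1 : 0 ≤ C1) (hC2 : 0 ≤ C2)
    (ht1 : ∀ j, 0 ≤ Φ.ht j) (ht2 : ∀ j, 0 ≤ Ψ.ht j)
    (j1 : J₁) (j2 : J₂) (α1 α2 τ : ℝ) {ι : Type} [Fintype ι] (V : Finset Quad)
    (v : Quad → EuclideanSpace ℂ ι) (M : ℝ) (hM : 0 ≤ M)
    (hV1 : ∀ u ∈ V, IsPrim u.1.1 ∧ IsPrim u.1.2 ∧ IsCoprime u.1.1 u.1.2 ∧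
      α1 ≤ Real.log (nm u.1.1) ∧ Real.log (nm u.1.1) ≤ α1 + 1)
    (hV2 : ∀ u ∈ V, IsPrim u.2.1 ∧ IsPrim u.2.2 ∧ IsCoprime u.2.1 u.2.2 ∧
      α2 ≤ Real.log (nm u.2.1) ∧ Real.log (nm u.2.1) ≤ α2 + 1)
    (hb : ∀ κ1 κ2 : Eis → ℂ, (∀ a, ‖κ1 a‖ ≤ 1) → (∀ a, ‖κ2 a‖ ≤ 1) → ∀ j1' j2', Φ.good j1' →
      Ψ.good j2' → Φ.dom R1 j1' j1 → Ψ.dom R2 j2' j2 → Φ.len j1' ≤ Φ.len j1 - α1 + R1 →
      Ψ.len j2' ≤ Ψ.len j2 - α2 + R2 → Φ.len j1 - α1 - R1 - 1 ≤ Φ.len j1' →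
      Ψ.len j2 - α2 - R2 - 1 ≤ Ψ.len j2' →
      ‖∑ u ∈ V, ((κ1 u.1.1 * Φ.w j1' u.1.2) * (κ2 u.2.1 * Ψ.w j2' u.2.2)) • v u‖ ≤
        M * Φ.ht j1' * Ψ.ht j2') :
    ‖∑ u ∈ V, ((Φ.w j1 (u.1.1 * u.1.2) * tw s0 τ u.1.2) *
      (Ψ.w j2 (u.2.1 * u.2.2) * tw s0 τ u.2.2)) • v u‖ ≤
      C1 * Real.exp (ε * |α1|) * Real.exp (-s0 * (Φ.len j1 - α1)) * (1 + |τ|) ^ A1 *
        (C2 * Real.exp (ε * |α2|) * Real.exp (-s0 * (Ψ.len j2 - α2)) * (1 + |τ|) ^ A2 * M *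
          Ψ.ht j2) * Φ.ht j1 := by
  classical
  -- first variable
  have e1 : ∑ u ∈ V, ((Φ.w j1 (u.1.1 * u.1.2) * tw s0 τ u.1.2) *
      (Ψ.w j2 (u.2.1 * u.2.2) * tw s0 τ u.2.2)) • v u =
      ∑ x ∈ V.image Prod.fst, (Φ.w j1 (x.1 * x.2) * tw s0 τ x.2) •
        (fun a b => ∑ u ∈ V.filter (fun u => u.1 = (a, b)),
          (Ψ.w j2 (u.2.1 * u.2.2) * tw s0 τ u.2.2) • v u) x.1 x.2 := by
    rw [← fib1 V (fun x => Φ.w j1 (x.1 * x.2) * tw s0 τ x.2)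
      (fun u => (Ψ.w j2 (u.2.1 * u.2.2) * tw s0 τ u.2.2) • v u)]
    refine Finset.sum_congr rfl fun u _ => ?_
    rw [smul_smul]
  rw [e1]
  have hM1 : 0 ≤ C2 * Real.exp (ε * |α2|) * Real.exp (-s0 * (Ψ.len j2 - α2)) * (1 + |τ|) ^ A2 * M *
      Ψ.ht j2 := by
    have := ht2 j2
    positivity
  have hT1 : ∀ p ∈ V.image Prod.fst, IsPrim p.1 ∧ IsPrim p.2 ∧ IsCoprime p.1 p.2 ∧
      α1 ≤ Real.log (nm p.1) ∧ Real.log (nm p.1) ≤ α1 + 1 := by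
    intro p hp
    obtain ⟨u, hu, rfl⟩ := Finset.mem_image.1 hp
    exact hV1 u hu
  refine hΦ j1 α1 τ ι (V.image Prod.fst)
    (fun a b => ∑ u ∈ V.filter (fun u => u.1 = (a, b)),
          (Ψ.w j2 (u.2.1 * u.2.2) * tw s0 τ u.2.2) • v u)
    (C2 * Real.exp (ε * |α2|) * Real.exp (-s0 * (Ψ.len j2 - α2)) * (1 + |τ|) ^ A2 * M *
      Ψ.ht j2) hM1 hT1 ?_
  intro κ1 hκ1 j1' hg1 hd1 hl1 hm1
  have e2 : ∑ x ∈ V.image Prod.fst, (κ1 x.1 * Φ.w j1' x.2) •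
        (fun a b => ∑ u ∈ V.filter (fun u => u.1 = (a, b)),
          (Ψ.w j2 (u.2.1 * u.2.2) * tw s0 τ u.2.2) • v u) x.1 x.2 =
      ∑ y ∈ V.image Prod.snd, (Ψ.w j2 (y.1 * y.2) * tw s0 τ y.2) •
        (fun a b => ∑ u ∈ V.filter (fun u => u.2 = (a, b)),
          (κ1 u.1.1 * Φ.w j1' u.1.2) • v u) y.1 y.2 := by
    rw [← fib2 V (fun x => Ψ.w j2 (x.1 * x.2) * tw s0 τ x.2)
      (fun u => (κ1 u.1.1 * Φ.w j1' u.1.2) • v u)]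
    rw [← fib1 V (fun x => κ1 x.1 * Φ.w j1' x.2)
      (fun u => (Ψ.w j2 (u.2.1 * u.2.2) * tw s0 τ u.2.2) • v u)]
    refine Finset.sum_congr rfl fun u _ => ?_
    rw [smul_smul, smul_smul, mul_comm]
  rw [e2]
  have key := hΨ j2 α2 τ ι (V.image Prod.snd)
    (fun a b => ∑ u ∈ V.filter (fun u => u.2 = (a, b)), (κ1 u.1.1 * Φ.w j1' u.1.2) • v u)
    (M * Φ.ht j1') (mul_nonneg hM (ht1 _)) ?_ ?_
  · refine key.trans (le_of_eq ?_)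
    ring
  · intro p hp
    obtain ⟨u, hu, rfl⟩ := Finset.mem_image.1 hp
    exact hV2 u hu
  intro κ2 hκ2 j2' hg2 hd2 hl2 hm2
  have e3 : ∑ y ∈ V.image Prod.snd, (κ2 y.1 * Ψ.w j2' y.2) •
        (fun a b => ∑ u ∈ V.filter (fun u => u.2 = (a, b)),
          (κ1 u.1.1 * Φ.w j1' u.1.2) • v u) y.1 y.2 =
      ∑ u ∈ V, ((κ1 u.1.1 * Φ.w j1' u.1.2) * (κ2 u.2.1 * Ψ.w j2' u.2.2)) • v u := by
    rw [← fib2 V (fun x => κ2 x.1 * Ψ.w j2' x.2) (fun u => (κ1 u.1.1 * Φ.w j1' u.1.2) • v u)]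
    refine Finset.sum_congr rfl fun u _ => ?_
    rw [smul_smul, mul_comm]
  rw [e3]
  exact hb κ1 κ2 hκ1 hκ2 j1' j2' hg1 hg2 hd1 hd2 hl1 hl2 hm1 hm2

/-! ### quadruples -/

open Classical in
/-- all factorizations -/
def QS (T : Finset (Eis × Eis)) : Finset Quad :=
  T.biUnion fun p => ((dvs p.1) ×ˢ (dvs p.2)).image fun x => ((x.1, x.2), (p.1 / x.1, p.2 / x.2))

lemma mem_QS {T : Finset (Eis × Eis)} {u : Quad} : u ∈ QS T ↔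
    ∃ p ∈ T, u.1.1 ∈ dvs p.1 ∧ u.1.2 ∈ dvs p.2 ∧ u.2.1 = p.1 / u.1.1 ∧ u.2.2 = p.2 / u.1.2 := by
  classical
  unfold QS
  simp only [Finset.mem_biUnion, Finset.mem_image, Finset.mem_product]
  constructor
  · rintro ⟨p, hp, x, hx, rfl⟩
    exact ⟨p, hp, hx.1, hx.2, rfl, rfl⟩
  · rintro ⟨p, hp, h1, h2, h3, h4⟩
    refine ⟨p, hp, u.1, ⟨h1, h2⟩, ?_⟩
    rw [← h3, ← h4]

lemma sum_QS {E : Type} [AddCommMonoid E] (T : Finset (Eis × Eis)) (F : Quad → E) :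
    ∑ u ∈ QS T, F u = ∑ p ∈ T, ∑ a1 ∈ dvs p.1, ∑ b1 ∈ dvs p.2,
      F ((a1, b1), (p.1 / a1, p.2 / b1)) := by
  classical
  unfold QS
  rw [Finset.sum_biUnion]
  · refine Finset.sum_congr rfl fun p _ => ?_
    rw [Finset.sum_image]
    · rw [Finset.sum_product]
    · intro x _ y _ hxy
      have h1 : (x.1, x.2) = (y.1, y.2) := (Prod.ext_iff.1 hxy).1
      exact h1
  · intro p _ p' _ hne
    rw [Function.onFun, Finset.disjoint_left]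
    intro u hu hu'
    rw [Finset.mem_image] at hu hu'
    obtain ⟨x, hx, rfl⟩ := hu
    obtain ⟨y, hy, hxy⟩ := hu'
    rw [Finset.mem_product] at hx hy
    have h1 : (y.1, y.2) = (x.1, x.2) := (Prod.ext_iff.1 hxy).1
    have h2 : (p'.1 / y.1, p'.2 / y.2) = (p.1 / x.1, p.2 / x.2) := (Prod.ext_iff.1 hxy).2
    have h3 : y = x := h1
    subst h3
    apply hne
    have h4 := (Prod.ext_iff.1 h2).1
    have h5 := (Prod.ext_iff.1 h2).2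
    simp only at h4 h5
    refine Prod.ext ?_ ?_
    · rw [← mul_div_of_mem hx.1, ← mul_div_of_mem hy.1, h4]
    · rw [← mul_div_of_mem hx.2, ← mul_div_of_mem hy.2, h5]

end Crest.Agent.R017.TP320
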