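import Crest.Agent.R017.WCls_571

/-!
# Row 17, side-level rule (P): the universal piece is a closed family (helper571)

* `Typ V`  : coefficient types with a splitting rule on coprime products
* `UP χ W T om0 μ` : the universal piece; index `(z, s, th, om, v)`,
  `w j n = [n primary] χ_th(n) u_v(n) nm(n)^{is} W_om(log nm n - z)`
* `up_ok` : `UP` is a closed family, with constants depending only on the class of the cut-offs
-/

set_option autoImplicit false

noncomputable section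

open Complex MeasureTheory
open scoped ComplexConjugate ContDiff

namespace Crest.Agent.R017.TPOk571

open Crest.Agent.R012 Crest.Agent.R012.Eis Crest.Agent.R012.LS2 Crest.Agent.R012.Gauss880
open Crest.Agent.R012.Div277 Crest.Agent.R012.Weight600
open Crest.Agent.R012.PSer47 Crest.Agent.R017.End699 Crest.Agent.R017.FE47
open Crest.Agent.R017.TP320

/-- coefficient types -/
structure Typ (V : Type) [Fintype V] where
  u : V → Eis → ℂ
  k : V → V → Eis → ℂ
  rel : V → V → Prop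
  refl : ∀ v, rel v v
  trans : ∀ v v' v'', rel v' v → rel v'' v' → rel v'' v
  k_rel : ∀ v v' a, k v v' a ≠ 0 → rel v' v
  u_le : ∀ ε : ℝ, 0 < ε → ∃ C : ℝ, 1 ≤ C ∧ ∀ v n, IsPrim n → ‖u v n‖ ≤ C * (nm n : ℝ) ^ ε
  k_le : ∀ ε : ℝ, 0 < ε → ∃ C : ℝ, 1 ≤ C ∧ ∀ v v' n, IsPrim n →
    ‖k v v' n‖ ≤ C * (nm n : ℝ) ^ ε
  mul : ∀ v a b, IsPrim a → IsPrim b → IsCoprime a b →
    u v (a * b) = ∑ v' : V, k v v' a * u v' b

/-- the index of the universal piece: log-length, height, character, cut-off, type -/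
structure Ix (Θ Ω V : Type) where
  z : ℝ
  s : ℝ
  th : Θ
  om : Ω
  v : V

variable {Θ Ω V : Type} [Fintype V]

/-- **the universal piece** -/
def UP (χ : Θ → Eis → ℂ) (W : Ω → ℝ → ℂ) (T : Typ V) (om0 : Ω) (μ : ℝ) : Fam (Ix Θ Ω V) where
  w j n := (End699.ext (χ j.th) n * T.u j.v n) *
    (osc j.s (Real.log (nm n)) * W j.om (Real.log (nm n) - j.z))
  len j := j.z
  ht j := (1 + |j.s|) ^ μ
  good j := 0 ≤ j.z ∧ j.om = om0
  dom r j' j := j'.z ≤ j.z + r ∧ j'.th = j.th ∧ T.rel j'.v j.v ∧ (j'.om = j.om ∨ j'.om = om0)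

lemma ext_prim {χ : Eis → ℂ} {n : Eis} (hn : IsPrim n) : End699.ext χ n = χ n := by
  unfold End699.ext; rw [if_pos hn]

lemma ext_not_prim {χ : Eis → ℂ} {n : Eis} (hn : ¬ IsPrim n) : End699.ext χ n = 0 := by
  unfold End699.ext; rw [if_neg hn]

lemma log_nm_mul {a b : Eis} (ha : IsPrim a) (hb : IsPrim b) :
    Real.log (nm (a * b)) = Real.log (nm a) + Real.log (nm b) := by
  have h1 := one_le_nm' ha
  have h2 := one_le_nm' hb
  rw [nm_mul, Nat.cast_mul, Real.log_mul (by linarith) (by linarith)]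

/-- the partition of unity against a cut-off -/
lemma pu_sum {h : ℝ → ℝ} {c : ℝ} (hpu : PU h c) {R : ℝ} (hR : ∀ u, h u ≠ 0 → |u| ≤ R)
    {W : ℝ → ℂ} (hW : ∀ u, W u ≠ 0 → |u| ≤ R) {x z' y : ℝ} (hx : 0 ≤ x) (h1 : y - 1 ≤ z')
    (h2 : z' ≤ y) (S : Finset ℕ) (hS : ∀ n : ℕ, |c * n - y| ≤ 2 * R + 1 → n ∈ S) :
    (∑ n ∈ S, (h (x - c * n) : ℂ)) * W (x - z') = W (x - z') := by
  by_cases h0 : W (x - z') = 0
  · rw [h0, mul_zero]
  have hone := hpu.one x hx
  have h3 : ∑' n : ℕ, h (x - c * n) = ∑ n ∈ S, h (x - c * n) := by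
    apply tsum_eq_sum
    intro n hn
    by_contra h4
    apply hn
    apply hS
    have ha' := hR _ h4
    have hb' := hW _ h0
    rw [abs_le] at ha' hb' ⊢
    constructor <;> linarith [ha'.1, ha'.2, hb'.1, hb'.2]
  rw [hone] at h3
  have h5 : (∑ n ∈ S, (h (x - c * n) : ℂ)) = 1 := by
    have := congrArg (fun r : ℝ => (r : ℂ)) h3
    simp only [Complex.ofReal_one, Complex.ofReal_sum] at this
    exact this.symm
  rw [h5, one_mul]

/-- the expansion of the universal piece at coprime products -/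
lemma up_expand {χ : Θ → Eis → ℂ} (hχ : ∀ θ, IsChar (χ θ)) {W : Ω → ℝ → ℂ} (T : Typ V) {om0 : Ω}
    {h : ℝ → ℝ} {c : ℝ} (hpu : PU h c) (h0 : W om0 = cx h) {R : ℝ} {D : ℕ → ℝ}
    (hW : ∀ om, Cls R D (W om)) (μ s0 τ α : ℝ) (j : Ix Θ Ω V) {a b : Eis}
    (ha : IsPrim a) (hb : IsPrim b) (hab : IsCoprime a b)
    (h1 : α ≤ Real.log (nm a)) (h2 : Real.log (nm a) ≤ α + 1)
    (S : Finset ℕ) (hS : ∀ n : ℕ, |c * n - (j.z - α)| ≤ 2 * R + 1 → n ∈ S) :
    (UP χ W T om0 μ).w j (a * b) * tw s0 τ b = ∑ n ∈ S, ∑ v' : V,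
      ∫ u : ℝ, ker (tws (W j.om) s0) u *
      (((χ j.th a * T.k j.v v' a * osc j.s (Real.log (nm a))) *
        ((Real.exp (-s0 * (j.z - Real.log (nm a))) : ℂ) * osc u (-(j.z - Real.log (nm a))))) *
        (UP χ W T om0 μ).w ⟨c * n, j.s + τ + u, j.th, om0, v'⟩ b) := by
  have hR : ∀ u, h u ≠ 0 → |u| ≤ R := fun u hu => (hW om0).supp u (by
    rw [h0]; unfold cx; exact_mod_cast hu)
  set x := Real.log (nm b) with hx
  set z' := j.z - Real.log (nm a) with hz'
  have hx0 : 0 ≤ x := log_nm_nonneg' hb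
  have hgs : HasCompactSupport (tws (W j.om) s0) := (hW j.om).cs.mul_right
  have hinv := inversion_smooth (w := tws (W j.om) s0) ((hW j.om).cd.mul (cd_ef s0)) hgs (x - z')
  have hpus := pu_sum hpu hR (hW j.om).supp hx0 (y := j.z - α) (z' := z') (by rw [hz']; linarith)
    (by rw [hz']; linarith) S hS
  have key : ∀ (n : ℕ) (v' : V), ∫ u : ℝ, ker (tws (W j.om) s0) u *
      (((χ j.th a * T.k j.v v' a * osc j.s (Real.log (nm a))) *
        ((Real.exp (-s0 * z') : ℂ) * osc u (-z'))) *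
        (UP χ W T om0 μ).w ⟨c * n, j.s + τ + u, j.th, om0, v'⟩ b) =
      (χ j.th a * T.k j.v v' a * osc j.s (Real.log (nm a))) * (Real.exp (-s0 * z') : ℂ) *
        ((χ j.th b * T.u v' b) * (osc (j.s + τ) x * (h (x - c * n) : ℂ))) *
          tws (W j.om) s0 (x - z') := by
    intro n v'
    have e2 : ∀ u : ℝ, ker (tws (W j.om) s0) u *
      (((χ j.th a * T.k j.v v' a * osc j.s (Real.log (nm a))) *
        ((Real.exp (-s0 * z') : ℂ) * osc u (-z'))) *
        (UP χ W T om0 μ).w ⟨c * n, j.s + τ + u, j.th, om0, v'⟩ b) =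
        ((χ j.th a * T.k j.v v' a * osc j.s (Real.log (nm a))) * (Real.exp (-s0 * z') : ℂ) *
        ((χ j.th b * T.u v' b) * (osc (j.s + τ) x * (h (x - c * n) : ℂ)))) *
          (ker (tws (W j.om) s0) u * osc u (x - z')) := by
      intro u
      have e3 : (UP χ W T om0 μ).w ⟨c * n, j.s + τ + u, j.th, om0, v'⟩ b =
          (End699.ext (χ j.th) b * T.u v' b) * (osc (j.s + τ + u) x * W om0 (x - c * n)) := rfl
      rw [e3, ext_prim hb, h0, osc_add_left (j.s + τ) u]
      have e4 : osc u (x - z') = osc u x * osc u (-z') := by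
        rw [← osc_add_right]; rfl
      rw [e4]
      unfold cx
      ring
    simp_rw [e2]
    rw [integral_const_mul]
    congr 1
  rw [Finset.sum_congr rfl fun n _ => Finset.sum_congr rfl fun v' _ => key n v']
  have e5 : (UP χ W T om0 μ).w j (a * b) = (χ j.th a * χ j.th b * ∑ v' : V, T.k j.v v' a * T.u v' b) *
      ((osc j.s (Real.log (nm a)) * osc j.s x) * W j.om (x - z')) := by
    have e6 : (UP χ W T om0 μ).w j (a * b) = (End699.ext (χ j.th) (a * b) * T.u j.v (a * b)) *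
      (osc j.s (Real.log (nm (a * b))) * W j.om (Real.log (nm (a * b)) - j.z)) := rfl
    rw [e6, ext_prim (ha.mul hb), (hχ j.th).mul a b ha hb, T.mul j.v a b ha hb hab,
      log_nm_mul ha hb, osc_add_right]
    have e7 : Real.log (nm a) + Real.log (nm b) - j.z = x - z' := by rw [hz', hx]; ring
    rw [e7]
  have e8 : ∑ n ∈ S, ∑ v' : V, (χ j.th a * T.k j.v v' a * osc j.s (Real.log (nm a))) *
        (Real.exp (-s0 * z') : ℂ) *
        ((χ j.th b * T.u v' b) * (osc (j.s + τ) x * (h (x - c * n) : ℂ))) *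
          tws (W j.om) s0 (x - z') =
      (χ j.th a * χ j.th b * (∑ v' : V, T.k j.v v' a * T.u v' b)) *
        ((osc j.s (Real.log (nm a)) * (osc (j.s + τ) x)) * ((Real.exp (-s0 * z') : ℂ) * ef s0 (x - z')) *
        ((∑ n ∈ S, (h (x - c * n) : ℂ)) * W j.om (x - z'))) := by
    simp only [Finset.mul_sum, Finset.sum_mul]
    refine Finset.sum_congr rfl fun n _ => Finset.sum_congr rfl fun v' _ => ?_
    unfold tws
    ring
  rw [e8, hpus, e5, tw_eq s0 τ hb, ← hx]
  have e9 : (Real.exp (-s0 * z') : ℂ) * ef s0 (x - z') = (Real.exp (-s0 * x) : ℂ) := by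
    unfold ef
    rw [← Complex.ofReal_mul, ← Real.exp_add]
    congr 2
    ring
  rw [e9, osc_add_left]
  ring

lemma norm_up_indep (χ : Θ → Eis → ℂ) (W : Ω → ℝ → ℂ) (T : Typ V) (om0 : Ω) (μ z s : ℝ) (th : Θ)
    (om : Ω) (v : V) (b : Eis) : ‖(UP χ W T om0 μ).w ⟨z, s, th, om, v⟩ b‖ =
      ‖(UP χ W T om0 μ).w ⟨z, 0, th, om, v⟩ b‖ := by
  unfold UP
  simp only [norm_mul, norm_osc]

lemma continuous_up (χ : Θ → Eis → ℂ) (W : Ω → ℝ → ℂ) (T : Typ V) (om0 : Ω) (μ z : ℝ) (th : Θ)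
    (om : Ω) (v : V) (b : Eis) : Continuous fun s : ℝ => (UP χ W T om0 μ).w ⟨z, s, th, om, v⟩ b := by
  have e : (fun s : ℝ => (UP χ W T om0 μ).w ⟨z, s, th, om, v⟩ b) =
      fun s : ℝ => (End699.ext (χ th) b * T.u v b) *
        (osc s (Real.log (nm b)) * W om (Real.log (nm b) - z)) := rfl
  rw [e]
  exact continuous_const.mul ((continuous_osc_left _).mul continuous_const)

open Classical in
/-- **the splitting property of the universal piece** -/
theorem split_up {χ : Θ → Eis → ℂ} (hχ : ∀ θ, IsChar (χ θ)) {W : Ω → ℝ → ℂ} (T : Typ V) {om0 : Ω}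
    {h : ℝ → ℝ} {c : ℝ} (hpu : PU h c) (h0 : W om0 = cx h) {R : ℝ} (hR0 : 0 ≤ R) {D : ℕ → ℝ}
    (hW : ∀ om, Cls R D (W om)) {μ : ℝ} (hμ : 0 ≤ μ) {ε : ℝ} (s0 : ℝ) (hε : 0 < ε) :
    ∃ C : ℝ, 1 ≤ C ∧ SplitAt (UP χ W T om0 μ) (2 * R + 2) μ ε s0 C := by
  obtain ⟨I, hI0, hI⟩ := int_unif hR0 D s0 μ
  obtain ⟨Ck, hCk, hk⟩ := T.k_le ε hε
  have hcpos := hpu.cpos
  set CS : ℝ := 2 * (2 * R + 1) / c + 1 with hCS
  have hCS0 : 0 ≤ CS := by positivity
  set nV : ℝ := (Fintype.card V : ℝ) with hnV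
  have hnV0 : 0 ≤ nV := Nat.cast_nonneg _
  refine ⟨CS * nV * I * Real.exp |s0| * (Ck * Real.exp ε) + 1, by
    have : 0 ≤ CS * nV * I * Real.exp |s0| * (Ck * Real.exp ε) := by positivity
    linarith, ?_⟩
  intro j α τ ι _ T' v M hM hT hb
  rcases T'.eq_empty_or_nonempty with hemp | ⟨p0, hp0⟩
  · rw [hemp, Finset.sum_empty, norm_zero]
    have : 0 ≤ (UP χ W T om0 μ).ht j := by
      have e : (UP χ W T om0 μ).ht j = (1 + |j.s|) ^ μ := rfl
      rw [e]; positivity
    positivity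
  set z := j.z with hz
  set s := j.s with hs
  set N := ⌈(|z - α| + 2 * R + 1) / c⌉₊ with hN
  set S : Finset ℕ := (Finset.range (N + 1)).filter (fun n => |c * n - (z - α)| ≤ 2 * R + 1) with hS
  have hSm : ∀ n : ℕ, |c * n - (z - α)| ≤ 2 * R + 1 → n ∈ S := by
    intro n hn
    rw [hS, Finset.mem_filter, Finset.mem_range, Nat.lt_succ_iff]
    refine ⟨?_, hn⟩
    have h1 : (n : ℝ) ≤ (|z - α| + 2 * R + 1) / c := by
      rw [le_div_iff₀ hcpos]
      rw [abs_le] at hn
      have := le_abs_self (z - α)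
      linarith [hn.2]
    exact_mod_cast h1.trans (Nat.le_ceil _)
  have hScard : (S.card : ℝ) ≤ CS := by
    apply card_grid hcpos (by linarith) S (x := z - α)
    intro n hn
    exact (Finset.mem_filter.1 hn).2
  set K : ℝ := Ck * Real.exp (ε * (|α| + 1)) with hK
  have hK0 : 0 < K := by positivity
  set E : ℝ := Real.exp (-s0 * (z - α)) * Real.exp |s0| * K with hE
  have hE0 : 0 < E := by positivity
  -- the coefficient
  set κ : V → ℝ → Eis → ℂ := fun v' u a =>
    if α ≤ Real.log (nm a) ∧ Real.log (nm a) ≤ α + 1 ∧ IsPrim a then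
      (E : ℂ)⁻¹ * ((χ j.th a * T.k j.v v' a * osc s (Real.log (nm a))) *
        ((Real.exp (-s0 * (z - Real.log (nm a))) : ℂ) * osc u (-(z - Real.log (nm a))))) else 0
    with hκ
  have hκ1 : ∀ v' u a, ‖κ v' u a‖ ≤ 1 := by
    intro v' u a
    simp only [hκ]
    split_ifs with hc
    · rw [norm_mul, norm_inv, Complex.norm_real, Real.norm_of_nonneg hE0.le, inv_mul_le_iff₀ hE0,
        mul_one]
      simp only [norm_mul, norm_osc, Complex.norm_real, mul_one, Real.norm_of_nonneg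
        (Real.exp_pos _).le]
      have b1 : ‖χ j.th a‖ ≤ 1 := (hχ j.th).norm_le hc.2.2
      have hn := one_le_nm' hc.2.2
      have b2 : ‖T.k j.v v' a‖ ≤ K := by
        refine (hk j.v v' a hc.2.2).trans ?_
        rw [hK, Real.rpow_def_of_pos (by linarith)]
        have h3 : Real.log (nm a) * ε ≤ ε * (|α| + 1) := by
          rw [mul_comm]
          apply mul_le_mul_of_nonneg_left _ hε.le
          linarith [hc.2.1, le_abs_self α]
        have := Real.exp_le_exp.2 h3
        gcongr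
      have b3 : Real.exp (-s0 * (z - Real.log (nm a))) ≤ Real.exp (-s0 * (z - α)) * Real.exp |s0| := by
        rw [← Real.exp_add]
        apply Real.exp_le_exp.2
        have h5 : |(-s0) * (α - Real.log (nm a))| ≤ |s0| * 1 := by
          rw [abs_mul, abs_neg]
          gcongr
          rw [abs_le]; constructor <;> linarith [hc.1, hc.2.1]
        have h6 := le_abs_self ((-s0) * (α - Real.log (nm a)))
        have h7 : -s0 * (z - Real.log (nm a)) = -s0 * (z - α) + (-s0) * (α - Real.log (nm a)) := by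
          ring
        rw [h7]
        linarith
      calc ‖χ j.th a‖ * ‖T.k j.v v' a‖ * Real.exp (-s0 * (z - Real.log (nm a)))
          ≤ 1 * K * (Real.exp (-s0 * (z - α)) * Real.exp |s0|) := by gcongr
        _ = E := by rw [hE]; ring
    · simp
  have hWj := hW j.om
  have hg : ContDiff ℝ ∞ (tws (W j.om) s0) := hWj.cd.mul (cd_ef s0)
  have hgs : HasCompactSupport (tws (W j.om) s0) := hWj.cs.mul_right
  have hki : Integrable (ker (tws (W j.om) s0)) := ker_integrable hg hgs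
  -- the vector valued integrand
  set Fv : ℕ → V → ℝ → EuclideanSpace ℂ ι := fun n v' u =>
    ∑ p ∈ T', (κ v' u p.1 * (UP χ W T om0 μ).w ⟨c * n, s + τ + u, j.th, om0, v'⟩ p.2) • v p.1 p.2
    with hFv
  have hterm : ∀ (n : ℕ) (v' : V) (p : Eis × Eis), Integrable (fun u : ℝ =>
      ker (tws (W j.om) s0) u *
      (((χ j.th p.1 * T.k j.v v' p.1 * osc s (Real.log (nm p.1))) *
        ((Real.exp (-s0 * (z - Real.log (nm p.1))) : ℂ) * osc u (-(z - Real.log (nm p.1))))) *
        (UP χ W T om0 μ).w ⟨c * n, s + τ + u, j.th, om0, v'⟩ p.2)) := by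
    intro n v' p
    refine hki.mul_bdd (c := ‖(χ j.th p.1 * T.k j.v v' p.1 * osc s (Real.log (nm p.1))) *
        (Real.exp (-s0 * (z - Real.log (nm p.1))) : ℂ)‖ *
          ‖(UP χ W T om0 μ).w ⟨c * n, 0, j.th, om0, v'⟩ p.2‖)
      ?_ (Filter.Eventually.of_forall fun u => ?_)
    · apply Continuous.aestronglyMeasurable
      refine Continuous.mul ?_ ((continuous_up χ W T om0 μ _ _ _ _ p.2).comp
        (continuous_const.add continuous_id))
      exact continuous_const.mul (continuous_const.mul (continuous_osc_left _))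
    · rw [norm_mul, norm_up_indep]
      apply le_of_eq
      simp only [norm_mul, norm_osc, mul_one]
  have hexp : ∑ p ∈ T', ((UP χ W T om0 μ).w j (p.1 * p.2) * tw s0 τ p.2) • v p.1 p.2 =
      ∑ n ∈ S, ∑ v' : V, ∫ u : ℝ, (ker (tws (W j.om) s0) u * E) • Fv n v' u := by
    have e1 : ∀ p ∈ T', ((UP χ W T om0 μ).w j (p.1 * p.2) * tw s0 τ p.2) • v p.1 p.2 =
        ∑ n ∈ S, ∑ v' : V, ∫ u : ℝ, (ker (tws (W j.om) s0) u *
      (((χ j.th p.1 * T.k j.v v' p.1 * osc s (Real.log (nm p.1))) *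
        ((Real.exp (-s0 * (z - Real.log (nm p.1))) : ℂ) * osc u (-(z - Real.log (nm p.1))))) *
        (UP χ W T om0 μ).w ⟨c * n, s + τ + u, j.th, om0, v'⟩ p.2)) • v p.1 p.2 := by
      intro p hp
      obtain ⟨q1, q2, q3, q4, q5⟩ := hT p hp
      rw [up_expand hχ T hpu h0 hW μ s0 τ α j q1 q2 q3 q4 q5 S hSm, Finset.sum_smul]
      refine Finset.sum_congr rfl fun n _ => ?_
      rw [Finset.sum_smul]
      refine Finset.sum_congr rfl fun v' _ => ?_
      rw [integral_smul_const]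
    rw [Finset.sum_congr rfl e1, Finset.sum_comm]
    refine Finset.sum_congr rfl fun n _ => ?_
    rw [Finset.sum_comm]
    refine Finset.sum_congr rfl fun v' _ => ?_
    rw [← integral_finsetSum _ fun p _ => (hterm n v' p).smul_const _]
    congr 1
    funext u
    rw [hFv]
    simp only
    rw [Finset.smul_sum]
    refine Finset.sum_congr rfl fun p hp => ?_
    obtain ⟨q1, q2, q3, q4, q5⟩ := hT p hp
    rw [smul_smul]
    congr 1
    simp only [hκ]
    rw [if_pos ⟨q4, q5, q1⟩]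
    have hEc : (E : ℂ) ≠ 0 := by exact_mod_cast hE0.ne'
    field_simp
  rw [hexp]
  have hbound : ∀ n ∈ S, ∀ v' : V, ‖∫ u : ℝ, (ker (tws (W j.om) s0) u * E) • Fv n v' u‖ ≤
      I * (E * ((1 + |τ|) ^ μ * M * (1 + |s|) ^ μ)) := by
    intro n hn v'
    by_cases hrel : T.rel v' j.v
    swap
    · have h3 : ∀ u, Fv n v' u = 0 := by
        intro u
        rw [hFv]
        refine Finset.sum_eq_zero fun p _ => ?_
        have h4 : κ v' u p.1 = 0 := by
          have h5 : T.k j.v v' p.1 = 0 := by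
            by_contra h6
            exact hrel (T.k_rel _ _ _ h6)
          simp only [hκ]
          split_ifs
          · rw [h5]; ring
          · rfl
        rw [h4, zero_mul, zero_smul]
      have h4 : ∫ u : ℝ, (ker (tws (W j.om) s0) u * E) • Fv n v' u = 0 := by
        simp only [h3, smul_zero, integral_zero]
      rw [h4, norm_zero]
      positivity
    refine le_trans ?_ (mul_le_mul_of_nonneg_right (hI _ hWj)
      (by positivity : 0 ≤ E * ((1 + |τ|) ^ μ * M * (1 + |s|) ^ μ)))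
    rw [← integral_mul_const]
    apply norm_integral_le_of_norm_le
    · exact (ker_int_pow hg hgs μ).mul_const _
    refine Filter.Eventually.of_forall fun u => ?_
    rw [norm_smul, norm_mul, Complex.norm_real, Real.norm_of_nonneg hE0.le]
    have hnS := (Finset.mem_filter.1 hn).2
    rw [abs_le] at hnS
    have h1 := hb (κ v' u) (hκ1 v' u) ⟨c * n, s + τ + u, j.th, om0, v'⟩ (by
        refine ⟨?_, rfl⟩
        show 0 ≤ c * (n : ℝ)
        positivity) (by
        refine ⟨?_, rfl, hrel, Or.inr rfl⟩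
        show c * (n : ℝ) ≤ j.z + (2 * R + 2)
        have hα : -1 ≤ α := by
          have h1 := (hT p0 hp0).2.2.2.2
          have h2 := log_nm_nonneg' (hT p0 hp0).1
          linarith
        rw [← hz]
        linarith [hnS.2]) (by
        show c * (n : ℝ) ≤ j.z - α + (2 * R + 2)
        rw [← hz]
        linarith [hnS.2]) (by
        show j.z - α - (2 * R + 2) - 1 ≤ c * (n : ℝ)
        rw [← hz]
        linarith [hnS.1])
    have e3 : (UP χ W T om0 μ).ht ⟨c * n, s + τ + u, j.th, om0, v'⟩ = (1 + |s + τ + u|) ^ μ := rfl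
    rw [e3] at h1
    have h2 : (1 + |s + τ + u|) ^ μ ≤ (1 + |s|) ^ μ * (1 + |τ|) ^ μ * (1 + |u|) ^ μ := by
      have h3 := Two320.pow_add_abs (s + τ) u μ hμ
      have h4 := Two320.pow_add_abs s τ μ hμ
      calc (1 + |s + τ + u|) ^ μ ≤ (1 + |s + τ|) ^ μ * (1 + |u|) ^ μ := h3
        _ ≤ _ := by gcongr
    calc ‖ker (tws (W j.om) s0) u‖ * E * ‖Fv n v' u‖
        ≤ ‖ker (tws (W j.om) s0) u‖ * E *
          (M * ((1 + |s|) ^ μ * (1 + |τ|) ^ μ * (1 + |u|) ^ μ)) := by
          gcongr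
          exact h1.trans (mul_le_mul_of_nonneg_left h2 hM)
      _ = _ := by ring
  have hbound2 : ∀ n ∈ S, ‖∑ v' : V, ∫ u : ℝ, (ker (tws (W j.om) s0) u * E) • Fv n v' u‖ ≤
      nV * (I * (E * ((1 + |τ|) ^ μ * M * (1 + |s|) ^ μ))) := by
    intro n hn
    refine (norm_sum_le _ _).trans ((Finset.sum_le_sum fun v' _ => hbound n hn v').trans ?_)
    rw [Finset.sum_const, nsmul_eq_mul, Finset.card_univ]
  refine (norm_sum_le _ _).trans ((Finset.sum_le_sum hbound2).trans ?_)
  rw [Finset.sum_const, nsmul_eq_mul]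
  have e5 : (UP χ W T om0 μ).ht j = (1 + |s|) ^ μ := rfl
  have e6 : (UP χ W T om0 μ).len j = z := rfl
  rw [e5, e6]
  have h7 : Real.exp (ε * (|α| + 1)) = Real.exp ε * Real.exp (ε * |α|) := by
    rw [← Real.exp_add]; congr 1; ring
  calc (S.card : ℝ) * (nV * (I * (E * ((1 + |τ|) ^ μ * M * (1 + |s|) ^ μ))))
      ≤ CS * (nV * (I * (E * ((1 + |τ|) ^ μ * M * (1 + |s|) ^ μ)))) := by gcongr
    _ = (CS * nV * I * Real.exp |s0| * (Ck * Real.exp ε)) * Real.exp (ε * |α|) *
        Real.exp (-s0 * (z - α)) * (1 + |τ|) ^ μ * M * (1 + |s|) ^ μ := by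
        rw [hE, hK, h7]; ring
    _ ≤ (CS * nV * I * Real.exp |s0| * (Ck * Real.exp ε) + 1) * Real.exp (ε * |α|) *
        Real.exp (-s0 * (z - α)) * (1 + |τ|) ^ μ * M * (1 + |s|) ^ μ := by
        gcongr
        linarith

/-- **the universal piece is a closed family** -/
theorem up_ok {χ : Θ → Eis → ℂ} (hχ : ∀ θ, IsChar (χ θ)) {W : Ω → ℝ → ℂ} (T : Typ V) {om0 : Ω}
    {h : ℝ → ℝ} {c : ℝ} (hpu : PU h c) (h0 : W om0 = cx h) {R : ℝ} (hR0 : 0 ≤ R) {D : ℕ → ℝ}
    (hW : ∀ om, Cls R D (W om)) {μ : ℝ} (hμ : 0 ≤ μ) :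
    (UP χ W T om0 μ).Ok (2 * R + 2) μ where
  R0 := by linarith
  A0 := hμ
  ht1 j := by
    have e : (UP χ W T om0 μ).ht j = (1 + |j.s|) ^ μ := rfl
    rw [e]
    exact Real.one_le_rpow (by linarith [abs_nonneg j.s]) hμ
  prim j n hn := by
    by_contra h1
    apply hn
    have e : (UP χ W T om0 μ).w j n = (End699.ext (χ j.th) n * T.u j.v n) *
      (osc j.s (Real.log (nm n)) * W j.om (Real.log (nm n) - j.z)) := rfl
    rw [e, ext_not_prim h1]; ring
  supp j n hn := by
    have e' : (UP χ W T om0 μ).len j = j.z := rfl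
    have e : (UP χ W T om0 μ).w j n = (End699.ext (χ j.th) n * T.u j.v n) *
      (osc j.s (Real.log (nm n)) * W j.om (Real.log (nm n) - j.z)) := rfl
    rw [e] at hn
    have h1 := right_ne_zero_of_mul (right_ne_zero_of_mul hn)
    have := (hW j.om).supp _ h1
    rw [e']
    linarith
  bd ε hε := by
    obtain ⟨C, hC, hu⟩ := T.u_le ε hε
    refine ⟨C * (max (D 0) 1), ?_, fun j n => ?_⟩
    · have := le_max_right (D 0) 1
      nlinarith
    have e : (UP χ W T om0 μ).w j n = (End699.ext (χ j.th) n * T.u j.v n) *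
      (osc j.s (Real.log (nm n)) * W j.om (Real.log (nm n) - j.z)) := rfl
    rw [e]
    by_cases hn : IsPrim n
    · rw [ext_prim hn]
      simp only [norm_mul, norm_osc, one_mul]
      have b1 : ‖χ j.th n‖ ≤ 1 := (hχ j.th).norm_le hn
      have b2 := hu j.v n hn
      have b3 : ‖W j.om (Real.log (nm n) - j.z)‖ ≤ max (D 0) 1 :=
        ((hW j.om).bd0 _).trans (le_max_left _ _)
      calc ‖χ j.th n‖ * ‖T.u j.v n‖ * ‖W j.om (Real.log (nm n) - j.z)‖
          ≤ 1 * (C * (nm n : ℝ) ^ ε) * max (D 0) 1 := by gcongr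
        _ = _ := by ring
    · rw [ext_not_prim hn]
      simp only [zero_mul, norm_zero]
      positivity
  dom_refl j := ⟨by linarith, rfl, T.refl _, Or.inl rfl⟩
  dom_mono r r' j j' hr h := ⟨by have := h.1; linarith, h.2⟩
  dom_trans r r' j j' j'' h h' := ⟨by have := h.1; have := h'.1; linarith, h'.2.1.trans h.2.1,
    T.trans _ _ _ h.2.2.1 h'.2.2.1, by
      rcases h'.2.2.2 with h1 | h1
      · rcases h.2.2.2 with h2 | h2
        · exact Or.inl (h1.trans h2)
        · exact Or.inr (h1.trans h2)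
      · exact Or.inr h1⟩
  split ε s0 hε := split_up hχ T hpu h0 hR0 hW hμ s0 hε

end Crest.Agent.R017.TPOk571
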