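import Crest.Agent.R017.TPMul2_320
import Crest.Agent.R017.PM1_106

/-!
# Row 17, side-level rule (P): preliminaries (helper320)

* `VE Z w`    : the smoothed second moment `∑ exp (-nm n / Z) ‖CS w n‖²`
* `split_sq`  : the splitting property for finite square sums
* `VE_sub_le` : the forms of the subsequences `sub (sq q (w j)) g`
-/

set_option autoImplicit false

noncomputable section

open Complex MeasureTheory
open scoped ComplexConjugate

namespace Crest.Agent.R017.TP320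

open Crest.Agent.R012 Crest.Agent.R012.Eis Crest.Agent.R012.LS2 Crest.Agent.R012.Gauss880
open Crest.Agent.R012.Div277 Crest.Agent.R012.CR2
open Crest.Agent.R017.PA842 (V Supp)
open Crest.Agent.R017.CM106 (CS TG FS)

/-- smoothed second moment -/
def VE (Z : ℝ) (w : Eis → ℂ) : ℝ := ∑' n : Eis, Real.exp (-(nm n : ℝ) / Z) * ‖CS w n‖ ^ 2

lemma VE_nonneg (Z : ℝ) (w : Eis → ℂ) : 0 ≤ VE Z w := tsum_nonneg fun _ => by positivity

lemma CS_eq_sum {w : Eis → ℂ} {X : ℝ} (hw : Supp w X) (n : Eis) :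
    CS w n = ∑ h ∈ S X, w h * sy n h := by
  unfold CS
  apply tsum_eq_sum
  intro h hh
  by_contra h0
  exact hh (hw h (left_ne_zero_of_mul h0))

lemma V_eq_VE {w : Eis → ℂ} {X : ℝ} (Z : ℝ) (hw : Supp w X) : V X Z w = VE Z w := by
  unfold V VE
  refine tsum_congr fun n => ?_
  rw [CS_eq_sum hw]

lemma summable_VE {w : Eis → ℂ} {X Z : ℝ} (hX : 0 ≤ X) (hZ : 0 < Z) (hw : Supp w X) :
    Summable fun n : Eis => Real.exp (-(nm n : ℝ) / Z) * ‖CS w n‖ ^ 2 := by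
  have := PA842.summable_V hX hZ w
  refine this.congr fun n => ?_
  rw [CS_eq_sum hw]

lemma VC_le_VE {w : Eis → ℂ} {X K : ℝ} (hX : 0 ≤ X) (hK : 0 < K) (hw : Supp w X) :
    VC K w ≤ Real.exp 1 * VE K w := by
  unfold VC VE
  rw [← tsum_mul_left]
  have hs := (summable_VE hX hK hw).mul_left (Real.exp 1)
  refine le_trans ?_ (hs.sum_le_tsum (bl K) (fun n _ => by positivity))
  refine Finset.sum_le_sum fun n hn => ?_
  rw [mem_bl hK.le] at hn
  have h1 : 1 ≤ Real.exp 1 * Real.exp (-(nm n : ℝ) / K) := by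
    rw [← Real.exp_add]
    apply Real.one_le_exp
    have : (nm n : ℝ) / K ≤ 1 := by rw [div_le_one hK]; exact hn.2
    rw [neg_div]
    linarith
  calc ‖CS w n‖ ^ 2 = 1 * ‖CS w n‖ ^ 2 := (one_mul _).symm
    _ ≤ (Real.exp 1 * Real.exp (-(nm n : ℝ) / K)) * ‖CS w n‖ ^ 2 := by gcongr
    _ = _ := by ring

/-! ### the splitting property for square sums -/

lemma split_sq {J : Type} {Φ : Fam J} {R A ε s0 C : ℝ} (h : SplitAt Φ R A ε s0 C)
    (hht : ∀ j, 0 ≤ Φ.ht j) (j : J) (α τ : ℝ) {I0 : Type} (I : Finset I0)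
    (T : Finset (Eis × Eis)) (u : I0 → Eis → Eis → ℂ) {B : ℝ} (hB : 0 ≤ B)
    (hT : ∀ p ∈ T, IsPrim p.1 ∧ IsPrim p.2 ∧ IsCoprime p.1 p.2 ∧
      α ≤ Real.log (nm p.1) ∧ Real.log (nm p.1) ≤ α + 1)
    (hb : ∀ κ : Eis → ℂ, (∀ a, ‖κ a‖ ≤ 1) → ∀ j', Φ.good j' → Φ.dom R j' j →
      Φ.len j' ≤ Φ.len j - α + R → Φ.len j - α - R - 1 ≤ Φ.len j' →
      ∑ i ∈ I, ‖∑ p ∈ T, (κ p.1 * Φ.w j' p.2) * u i p.1 p.2‖ ^ 2 ≤ B * (Φ.ht j') ^ 2) :
    ∑ i ∈ I, ‖∑ p ∈ T, (Φ.w j (p.1 * p.2) * tw s0 τ p.2) * u i p.1 p.2‖ ^ 2 ≤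
      (C * Real.exp (ε * |α|) * Real.exp (-s0 * (Φ.len j - α)) * (1 + |τ|) ^ A) ^ 2 * B *
        (Φ.ht j) ^ 2 := by
  classical
  set v : Eis → Eis → EuclideanSpace ℂ ↥I := fun a b => WithLp.toLp 2 (fun i => u i.1 a b) with hv
  have hnorm : ∀ x : Eis × Eis → ℂ, ‖∑ p ∈ T, x p • v p.1 p.2‖ ^ 2 =
      ∑ i ∈ I, ‖∑ p ∈ T, x p * u i p.1 p.2‖ ^ 2 := by
    intro x
    rw [EuclideanSpace.norm_sq_eq, ← Finset.sum_coe_sort I]
    refine Finset.sum_congr rfl fun i _ => ?_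
    congr 2
    have : (∑ p ∈ T, x p • v p.1 p.2).ofLp i = ∑ p ∈ T, (x p • v p.1 p.2).ofLp i := by
      rw [WithLp.ofLp_sum, Finset.sum_apply]
    rw [this]
    refine Finset.sum_congr rfl fun p _ => ?_
    simp [hv]
  have key := h j α τ ↥I T v (Real.sqrt B) (Real.sqrt_nonneg _) hT ?_
  · rw [← hnorm (fun p => Φ.w j (p.1 * p.2) * tw s0 τ p.2)]
    have h2 := pow_le_pow_left₀ (norm_nonneg _) key 2
    refine h2.trans (le_of_eq ?_)
    have h3 : Real.sqrt B ^ 2 = B := Real.sq_sqrt hB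
    calc _ = (C * Real.exp (ε * |α|) * Real.exp (-s0 * (Φ.len j - α)) * (1 + |τ|) ^ A) ^ 2 *
          (Real.sqrt B ^ 2) * (Φ.ht j) ^ 2 := by ring
      _ = _ := by rw [h3]
  · intro κ hκ j' hg hd hl hm
    have h1 := hb κ hκ j' hg hd hl hm
    rw [← hnorm (fun p => κ p.1 * Φ.w j' p.2)] at h1
    have h2 : ‖∑ p ∈ T, (κ p.1 * Φ.w j' p.2) • v p.1 p.2‖ ≤ Real.sqrt (B * (Φ.ht j') ^ 2) :=
      Real.le_sqrt_of_sq_le h1
    rw [Real.sqrt_mul hB, Real.sqrt_sq (hht j')] at h2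
    exact h2

/-! ### supports -/

lemma supp_sq {J : Type} {Φ : Fam J} {R A : ℝ} (hΦ : Φ.Ok R A) (q : Eis) (j : J) {X : ℝ}
    (hX : Real.exp (Φ.len j + R) ≤ X) : Supp (sq q (Φ.w j)) X := by
  intro n hn
  have hX0 : 0 ≤ X := (Real.exp_pos _).le.trans hX
  unfold sq at hn
  split_ifs at hn with hc
  · rw [mem_S hX0]
    refine ⟨?_, hc.1, hc.2.1⟩
    have h1 := (abs_le.1 (hΦ.supp j n hn)).2
    have h2 : 0 < (nm n : ℝ) := by linarith [one_le_nm' hc.1]
    calc (nm n : ℝ) = Real.exp (Real.log (nm n)) := (Real.exp_log h2).symm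
      _ ≤ Real.exp (Φ.len j + R) := Real.exp_le_exp.2 (by linarith)
      _ ≤ X := hX
  · exact absurd rfl hn

open Classical in
lemma sq_mul_eq {q : Eis} (w : Eis → ℂ) {g k : Eis} (hg : IsPrim g) (hk : IsPrim k)
    (hc : IsCoprime g k) : sq q w (g * k) =
      if Squarefree g ∧ IsCoprime g q ∧ Squarefree k ∧ IsCoprime k q then w (g * k) else 0 := by
  unfold sq
  by_cases h : Squarefree g ∧ IsCoprime g q ∧ Squarefree k ∧ IsCoprime k q
  · rw [if_pos h, if_pos]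
    exact ⟨hg.mul hk, (squarefree_mul_iff.2 ⟨hc.isRelPrime, h.1, h.2.2.1⟩),
      h.2.1.mul_left h.2.2.2⟩
  · rw [if_neg h, if_neg]
    rintro ⟨_, h2, h3⟩
    apply h
    have h4 := squarefree_mul_iff.1 h2
    exact ⟨h4.2.1, h3.of_mul_left_left, h4.2.2, h3.of_mul_left_right⟩

lemma sq_mul_not_cop {q : Eis} (w : Eis → ℂ) {g k : Eis} (hc : ¬ IsCoprime g k) :
    sq q w (g * k) = 0 := by
  unfold sq
  rw [if_neg]
  rintro ⟨_, h2, _⟩
  exact hc ((squarefree_mul_iff.1 h2).1.isCoprime)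

lemma tw_zero (b : Eis) : tw 0 0 b = 1 := by
  unfold tw
  simp

lemma Supp.mono' {w : Eis → ℂ} {X X' : ℝ} (hX : 0 ≤ X) (h : X ≤ X') (hw : Supp w X) : Supp w X' := by
  intro n hn
  have h1 := hw n hn
  rw [mem_S hX] at h1
  rw [mem_S (hX.trans h)]
  exact ⟨h1.1.trans h, h1.2⟩

lemma exp_half_sq (x Z : ℝ) : Real.exp (-x / (2 * Z)) ^ 2 = Real.exp (-x / Z) := by
  rw [← Real.exp_nat_mul]
  congr 1
  push_cast
  by_cases hZ : Z = 0
  · simp [hZ]
  · field_simp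

/-- the forms of the subsequences -/
theorem VE_sub_le {J : Type} {Φ : Fam J} {R A : ℝ} (hΦ : Φ.Ok R A) {ε C : ℝ}
    (hs : SplitAt Φ R A ε 0 C) (j : J) (q : Eis) {g : Eis} (hg : IsPrim g)
    {Z B : ℝ} (hZ : 0 < Z) (hB : 0 ≤ B)
    (hb : ∀ j', Φ.good j' → Φ.dom R j' j → Φ.len j' ≤ Φ.len j - Real.log (nm g) + R →
      Φ.len j - Real.log (nm g) - R - 1 ≤ Φ.len j' →
      VE Z (sq (q * g) (Φ.w j')) ≤ B * (Φ.ht j') ^ 2) :
    VE Z (CM106.sub (sq q (Φ.w j)) g) ≤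
      (C * Real.exp (ε * |Real.log (nm g)|)) ^ 2 * B * (Φ.ht j) ^ 2 := by
  classical
  have hht : ∀ j, 0 ≤ Φ.ht j := fun j => zero_le_one.trans (hΦ.ht1 j)
  set X' : ℝ := Real.exp (Φ.len j + 2 * R) with hX'
  have hX'0 : 0 ≤ X' := (Real.exp_pos _).le
  have hlg := log_nm_nonneg' hg
  have hR0 := hΦ.R0
  have hsupp0 : Supp (sq q (Φ.w j)) (Real.exp (Φ.len j + R)) := supp_sq hΦ q j le_rfl
  have hsub : Supp (CM106.sub (sq q (Φ.w j)) g) X' := by
    have h1 := PA842.supp_sub (Real.exp_pos _).le hsupp0 hg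
    have hn := one_le_nm' hg
    refine Supp.mono' (by positivity) ?_ h1
    calc Real.exp (Φ.len j + R) / nm g ≤ Real.exp (Φ.len j + R) :=
          div_le_self (Real.exp_pos _).le hn
      _ ≤ X' := Real.exp_le_exp.2 (by linarith)
  set T : Finset (Eis × Eis) := (({g} : Finset Eis) ×ˢ S X').filter (fun p => IsCoprime p.1 p.2)
    with hT
  set cd : Eis → Eis → Prop := fun a k => Squarefree a ∧ IsCoprime a q ∧ Squarefree k ∧
    IsCoprime k q with hcd
  set u : Eis → Eis → Eis → ℂ := fun n a k =>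
    (Real.exp (-(nm n : ℝ) / (2 * Z)) : ℂ) * (if cd a k then sy n k else 0) with hu
  have hTm : ∀ p ∈ T, IsPrim p.1 ∧ IsPrim p.2 ∧ IsCoprime p.1 p.2 ∧
      Real.log (nm g) ≤ Real.log (nm p.1) ∧ Real.log (nm p.1) ≤ Real.log (nm g) + 1 := by
    intro p hp
    rw [hT, Finset.mem_filter, Finset.mem_product, Finset.mem_singleton, mem_S hX'0] at hp
    obtain ⟨⟨h1, h2⟩, h3⟩ := hp
    rw [h1] at h3 ⊢
    exact ⟨hg, h2.2.1, h3, le_rfl, by linarith⟩
  have hsumT : ∀ F : Eis × Eis → ℂ, ∑ p ∈ T, F p =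
      ∑ k ∈ (S X').filter (fun k => IsCoprime g k), F (g, k) := by
    intro F
    rw [hT, Finset.sum_filter, Finset.sum_product, Finset.sum_singleton, Finset.sum_filter]
  unfold VE
  apply Real.tsum_le_of_sum_le (fun n => by positivity)
  intro F
  have key := split_sq hs hht j (Real.log (nm g)) 0 F T u hB hTm ?_
  · have e0 : (C * Real.exp (ε * |Real.log (nm g)|) *
        Real.exp (-0 * (Φ.len j - Real.log (nm g))) * (1 + |(0 : ℝ)|) ^ A) ^ 2 * B * (Φ.ht j) ^ 2 =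
        (C * Real.exp (ε * |Real.log (nm g)|)) ^ 2 * B * (Φ.ht j) ^ 2 := by
      simp
    rw [e0] at key
    refine le_trans (le_of_eq ?_) key
    refine Finset.sum_congr rfl fun n _ => ?_
    rw [hsumT]
    have e1 : ∑ k ∈ (S X').filter (fun k => IsCoprime g k),
        Φ.w j (g * k) * tw 0 0 k * u n g k =
        (Real.exp (-(nm n : ℝ) / (2 * Z)) : ℂ) * CS (CM106.sub (sq q (Φ.w j)) g) n := by
      rw [CS_eq_sum hsub, Finset.sum_filter, Finset.mul_sum]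
      refine Finset.sum_congr rfl fun k hk => ?_
      rw [mem_S hX'0] at hk
      by_cases hc : IsCoprime g k
      · rw [if_pos hc, tw_zero]
        have e2 : CM106.sub (sq q (Φ.w j)) g k = sq q (Φ.w j) (g * k) := rfl
        rw [e2, sq_mul_eq _ hg hk.2.1 hc, hu]
        simp only [hcd]
        split_ifs
        · ring
        · ring
      · rw [if_neg hc]
        have e2 : CM106.sub (sq q (Φ.w j)) g k = sq q (Φ.w j) (g * k) := rfl
        rw [e2, sq_mul_not_cop _ hc]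
        ring
    simp only at e1 ⊢
    rw [e1, norm_mul, mul_pow, Complex.norm_real, Real.norm_of_nonneg (Real.exp_pos _).le,
      exp_half_sq]
  · intro κ hκ j' hg' hd' hl' hm'
    have h1 := hb j' hg' hd' hl' hm'
    have hsupp : Supp (sq (q * g) (Φ.w j')) X' :=
      supp_sq hΦ (q * g) j' (Real.exp_le_exp.2 (by linarith))
    refine le_trans ?_ h1
    unfold VE
    refine le_trans ?_ ((summable_VE hX'0 hZ hsupp).sum_le_tsum F (fun n _ => by positivity))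
    refine Finset.sum_le_sum fun n _ => ?_
    rw [hsumT]
    have e1 : ∑ k ∈ (S X').filter (fun k => IsCoprime g k), κ g * Φ.w j' k * u n g k =
        (κ g * (if Squarefree g ∧ IsCoprime g q then 1 else 0)) *
          ((Real.exp (-(nm n : ℝ) / (2 * Z)) : ℂ) * CS (sq (q * g) (Φ.w j')) n) := by
      rw [CS_eq_sum hsupp, Finset.sum_filter, Finset.mul_sum, Finset.mul_sum]
      refine Finset.sum_congr rfl fun k hk => ?_
      rw [mem_S hX'0] at hk
      simp only [hu, hcd, sq]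
      by_cases hc : IsCoprime g k
      · rw [if_pos hc]
        by_cases h3 : Squarefree g ∧ IsCoprime g q
        · rw [if_pos h3]
          by_cases h4 : IsCoprime k q
          · rw [if_pos ⟨h3.1, h3.2, hk.2.2, h4⟩, if_pos ⟨hk.2.1, hk.2.2, h4.mul_right hc.symm⟩]
            ring
          · rw [if_neg (fun h => h4 h.2.2.2), if_neg (fun h => h4 h.2.2.of_mul_right_left)]
            ring
        · rw [if_neg h3, if_neg (fun h => h3 ⟨h.1, h.2.1⟩)]
          ring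
      · have h6 : ¬ (IsPrim k ∧ Squarefree k ∧ IsCoprime k (q * g)) :=
          fun h => hc h.2.2.of_mul_right_right.symm
        rw [if_neg hc, if_neg h6]
        ring
    simp only at e1 ⊢
    have h7 : ‖(Real.exp (-(nm n : ℝ) / (2 * Z)) : ℂ) * CS (sq (q * g) (Φ.w j')) n‖ ^ 2 =
        Real.exp (-(nm n : ℝ) / Z) * ‖CS (sq (q * g) (Φ.w j')) n‖ ^ 2 := by
      rw [norm_mul, mul_pow, Complex.norm_real, Real.norm_of_nonneg (Real.exp_pos _).le,
        exp_half_sq]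
    rw [e1, norm_mul, mul_pow, h7]
    have h5 : ‖κ g * (if Squarefree g ∧ IsCoprime g q then 1 else 0)‖ ≤ 1 := by
      split_ifs
      · rw [mul_one]; exact hκ g
      · simp
    calc ‖κ g * (if Squarefree g ∧ IsCoprime g q then 1 else 0)‖ ^ 2 *
        (Real.exp (-(nm n : ℝ) / Z) * ‖CS (sq (q * g) (Φ.w j')) n‖ ^ 2)
        ≤ 1 ^ 2 * (Real.exp (-(nm n : ℝ) / Z) * ‖CS (sq (q * g) (Φ.w j')) n‖ ^ 2) := by
          gcongr
      _ = _ := by ring

end Crest.Agent.R017.TP320
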