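import Crest.Agent.R017.TPP2_320
import Crest.Agent.R012.GF_569

/-!
# Row 17, side-level rule (P): one step for a general sequence (helper320)
-/

set_option autoImplicit false

noncomputable section

open Complex MeasureTheory
open scoped ComplexConjugate

namespace Crest.Agent.R017.TP320

open Crest.Agent.R012 Crest.Agent.R012.Eis Crest.Agent.R012.LS2 Crest.Agent.R012.Gauss880
open Crest.Agent.R012.Div277 Crest.Agent.R012.CR2
open Crest.Agent.R017.PA842 (V Supp)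
open Crest.Agent.R017.PM106 (DIM one_stepM integrable_DIM DIM_nonneg DIM_mono)
open Crest.Agent.R017.CM106 (CS TG FS sub)

lemma S_sub_bl {X : ℝ} (hX : 0 ≤ X) : S X ⊆ bl X := by
  intro n hn
  rw [mem_S hX] at hn
  rw [mem_bl hX]
  exact ⟨hn.2.1.ne_zero, hn.1⟩

lemma card_S_le {X : ℝ} (hX : 0 ≤ X) : ((S X).card : ℝ) ≤ 16 * X :=
  le_trans (by exact_mod_cast Finset.card_le_card (S_sub_bl hX)) (card_bl_le hX)

/-- harmonic sum -/
lemma harm_le {δ : ℝ} (hδ : 0 < δ) : ∃ C : ℝ, 1 ≤ C ∧ ∀ X : ℝ, 1 ≤ X →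
    ∑ k ∈ S X, (1 / (nm k : ℝ)) ≤ C * X ^ δ := by
  refine ⟨100 * (1 + 1 / δ), by
    have : 0 < 1 / δ := by positivity
    nlinarith, fun X hX => ?_⟩
  have hX0 : 0 ≤ X := by linarith
  have h1 : S X ⊆ primBall ⌊X⌋₊ := by
    intro n hn
    rw [mem_S hX0] at hn
    rw [mem_primBall]
    exact ⟨Nat.le_floor hn.1, hn.2.1⟩
  have h2 : ∑ k ∈ S X, (1 / (nm k : ℝ)) ≤ ∑ k ∈ primBall ⌊X⌋₊, (1 / (nm k : ℝ)) :=
    Finset.sum_le_sum_of_subset_of_nonneg h1 fun _ _ _ => by positivity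
  refine h2.trans ((sum_inv_primBall_le ⌊X⌋₊).trans ?_)
  have h3 : Real.log (⌊X⌋₊ : ℝ) ≤ Real.log X := by
    have h4 : 1 ≤ ⌊X⌋₊ := Nat.le_floor (by exact_mod_cast hX)
    apply Real.log_le_log (by exact_mod_cast h4) (Nat.floor_le hX0)
  have h4 : Real.log X ≤ X ^ δ / δ := Real.log_le_rpow_div hX0 hδ
  have h5 : 1 ≤ X ^ δ := Real.one_le_rpow hX hδ.le
  calc 100 * (1 + Real.log (⌊X⌋₊ : ℝ)) ≤ 100 * (X ^ δ + X ^ δ / δ) := by linarith
    _ = 100 * (1 + 1 / δ) * X ^ δ := by ring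

set_option maxHeartbeats 1000000

open Classical in
/-- one step for a general sequence -/
theorem step_gen {δ : ℝ} (hδ : 0 < δ) (hδ1 : δ ≤ 1 / 2) {M : ℕ} (hM : 1 ≤ M) :
    ∃ C : ℝ, 1 ≤ C ∧ ∀ X K Y B0 : ℝ, 1 ≤ X → 1 ≤ K → 0 ≤ B0 → ∀ w : Eis → ℂ, Supp w X →
    (∀ h, ‖w h‖ ≤ B0 * (nm h : ℝ) ^ δ) →
    VE K w ≤ C * K * (X * X ^ (2 * δ)) * B0 ^ 2 +
      C * X ^ (3 * δ) * ∑ d ∈ (S X).filter (fun d => (nm d : ℝ) ≤ Y),
        ∑ e ∈ (S X).filter (· ∣ d), ∑ f ∈ S X, K / nm f * DIM M δ w X d e f (Lde X K δ d e) +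
      ∑ g ∈ (S X).filter (fun g => Y < (nm g : ℝ)), (tau g : ℝ) * VE K (sub w g) := by
  obtain ⟨C, hC, h⟩ := one_stepM hδ hδ1 hδ hM
  refine ⟨16 * C, by linarith, fun X K Y B0 hX hK hB0 w hw hwb => ?_⟩
  have hX0 : 0 ≤ X := by linarith
  have h1 := h X K Y hX hK w hw
  rw [V_eq_VE K hw] at h1
  have h2 : ∀ g ∈ (S X).filter (fun g => Y < (nm g : ℝ)),
      (tau g : ℝ) * V (X / nm g) K (PA842.sub w g) = (tau g : ℝ) * VE K (sub w g) := by
    intro g hg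
    have hg' := (mem_S hX0).1 (Finset.mem_filter.1 hg).1
    congr 1
    have : PA842.sub w g = sub w g := rfl
    rw [← this]
    exact V_eq_VE K (PA842.supp_sub hX0 hw hg'.2.1)
  have h3 : ∑ h ∈ S X, ‖w h‖ ^ 2 ≤ 16 * (X * X ^ (2 * δ)) * B0 ^ 2 := by
    calc ∑ h ∈ S X, ‖w h‖ ^ 2 ≤ ∑ h ∈ S X, (B0 * X ^ δ) ^ 2 := by
          refine Finset.sum_le_sum fun n hn => ?_
          have hn' := (mem_S hX0).1 hn
          have : (nm n : ℝ) ^ δ ≤ X ^ δ := Real.rpow_le_rpow (Nat.cast_nonneg _) hn'.1 hδ.le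
          have h4 : ‖w n‖ ≤ B0 * X ^ δ := (hwb n).trans (mul_le_mul_of_nonneg_left this hB0)
          gcongr
      _ = (S X).card * (B0 * X ^ δ) ^ 2 := by rw [Finset.sum_const, nsmul_eq_mul]
      _ ≤ (16 * X) * (B0 * X ^ δ) ^ 2 := by
          gcongr
          exact card_S_le hX0
      _ = 16 * (X * X ^ (2 * δ)) * B0 ^ 2 := by
          have : X ^ (2 * δ) = (X ^ δ) ^ 2 := by
            rw [← Real.rpow_natCast, ← Real.rpow_mul hX0]
            congr 1; push_cast; ring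
          rw [this]; ring
  have hDI0 : 0 ≤ ∑ d ∈ (S X).filter (fun d => (nm d : ℝ) ≤ Y),
        ∑ e ∈ (S X).filter (· ∣ d), ∑ f ∈ S X, K / nm f * DIM M δ w X d e f (Lde X K δ d e) :=
    Finset.sum_nonneg fun d _ => Finset.sum_nonneg fun e _ => Finset.sum_nonneg fun f _ =>
      mul_nonneg (by positivity) (DIM_nonneg _ _ _ _ _ _ _ _)
  refine h1.trans ?_
  refine add_le_add (add_le_add ?_ ?_) ?_
  · calc C * K * ∑ h ∈ S X, ‖w h‖ ^ 2 ≤ C * K * (16 * (X * X ^ (2 * δ)) * B0 ^ 2) := by gcongr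
      _ = _ := by ring
  · have hXp : 0 ≤ X ^ (3 * δ) := by positivity
    have h4 : C * X ^ (3 * δ) ≤ 16 * C * X ^ (3 * δ) := by nlinarith
    exact mul_le_mul_of_nonneg_right h4 hDI0
  · exact le_of_eq (Finset.sum_congr rfl h2)

/-- the trivial bound for the dual terms -/
theorem dual_trivial {δ : ℝ} (hδ : 0 < δ) {M : ℕ} (hM : 1 ≤ M) :
    ∃ C : ℝ, 1 ≤ C ∧ ∀ X K Y B0 : ℝ, 1 ≤ X → 1 ≤ K → 1 ≤ Y → 0 ≤ B0 → ∀ w : Eis → ℂ, Supp w X →
    (∀ h, ‖w h‖ ≤ B0 * (nm h : ℝ) ^ δ) →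
    ∀ (D : Finset Eis) (De : Eis → Finset Eis), (∀ d ∈ D, IsPrim d ∧ (nm d : ℝ) ≤ Y) →
      (∀ d ∈ D, ∀ e ∈ De d, IsPrim e ∧ (nm e : ℝ) ≤ nm d) →
    ∑ d ∈ D, ∑ e ∈ De d, ∑ f ∈ S X, K / nm f * DIM M δ w X d e f (Lde X K δ d e) ≤
      C * (X * K) ^ δ * X ^ (6 * δ) * Y ^ 3 * B0 ^ 2 * (K * X + X ^ 3) := by
  obtain ⟨Ch, hCh, hh⟩ := harm_le hδ
  set I0 : ℝ := ∫ t : ℝ, ((1 + t ^ 2) ^ M)⁻¹ with hI0
  have hI00 : 0 ≤ I0 := integral_nonneg fun t => by positivity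
  refine ⟨65536 * (I0 + 1) * Ch ^ 2, by
    have : 1 ≤ Ch ^ 2 := by nlinarith
    nlinarith, fun X K Y B0 hX hK hY hB0 w hw hwb D De hD hDe => ?_⟩
  have hX0 : 0 ≤ X := by linarith
  have hK0 : 0 ≤ K := by linarith
  set H : ℝ := ∑ k ∈ S X, (1 / (nm k : ℝ)) with hH
  have hH0 : 0 ≤ H := Finset.sum_nonneg fun _ _ => by positivity
  have hH1 : H ≤ Ch * X ^ δ := hh X hX
  have hXd : 0 < X ^ δ := Real.rpow_pos_of_pos (by linarith) _
  -- `Xi`
  have hXi : ∀ d f : Eis, IsPrim d → IsPrim f → Xi w X d f δ ≤ B0 ^ 2 * (X ^ δ) ^ 4 * H := by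
    intro d f hd hf
    unfold Xi
    rw [hH, Finset.mul_sum]
    refine Finset.sum_le_sum fun k hk => ?_
    have hk' := (mem_S hX0).1 hk
    have hk1 := one_le_nm' hk'.2.1
    have hw1 : ‖w (d * f * k)‖ ≤ B0 * X ^ δ := by
      by_cases h0 : w (d * f * k) = 0
      · rw [h0, norm_zero]; positivity
      · have h1 := (mem_S hX0).1 (hw _ h0)
        exact (hwb _).trans (mul_le_mul_of_nonneg_left
          (Real.rpow_le_rpow (Nat.cast_nonneg _) h1.1 hδ.le) hB0)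
    have h2 : (nm k : ℝ) ^ (2 * δ - 1) ≤ (X ^ δ) ^ 2 * (1 / (nm k : ℝ)) := by
      rw [Real.rpow_sub (by linarith), Real.rpow_one, mul_one_div]
      gcongr
      calc (nm k : ℝ) ^ (2 * δ) ≤ X ^ (2 * δ) :=
            Real.rpow_le_rpow (Nat.cast_nonneg _) hk'.1 (by positivity)
        _ = (X ^ δ) ^ 2 := by
            rw [← Real.rpow_natCast, ← Real.rpow_mul hX0]
            congr 1; push_cast; ring
    calc ‖w (d * f * k)‖ ^ 2 * (nm k : ℝ) ^ (2 * δ - 1)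
        ≤ (B0 * X ^ δ) ^ 2 * ((X ^ δ) ^ 2 * (1 / (nm k : ℝ))) := by gcongr
      _ = _ := by ring
  -- one term
  set E : ℝ := I0 * 256 * (B0 ^ 2 * (X ^ δ) ^ 4 * H) * X with hE
  have hE0 : 0 ≤ E := by positivity
  have hterm : ∀ d ∈ D, ∀ e ∈ De d, ∀ f ∈ S X,
      K / nm f * DIM M δ w X d e f (Lde X K δ d e) ≤
        K * Lde X K δ d e * E * (1 / (nm f : ℝ)) := by
    intro d hd e he f hf
    have hd' := hD d hd
    have hf' := (mem_S hX0).1 hf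
    have hd1 := one_le_nm' hd'.1
    have hf1 := one_le_nm' hf'.2.1
    have hL0 : 0 ≤ Lde X K δ d e := PA842.Lde_nonneg hX0 hK0 _ _ _
    have h1 : DIM M δ w X d e f (Lde X K δ d e) ≤
        I0 * (16 * Lde X K δ d e * (16 * X * (B0 ^ 2 * (X ^ δ) ^ 4 * H))) := by
      unfold PM106.DIM
      rw [hI0, ← integral_mul_const]
      refine integral_mono (integrable_DIM hM δ hX0 w d e f _)
        ((PM106.integrable_kerM hM).mul_const _) (fun t => ?_)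
      refine mul_le_mul_of_nonneg_left ?_ (by positivity)
      calc ∑ l ∈ bl (Lde X K δ d e), ‖dsum w X d e f l (δ + t * Complex.I)‖ ^ 2
          ≤ ∑ l ∈ bl (Lde X K δ d e), 16 * X * (B0 ^ 2 * (X ^ δ) ^ 4 * H) := by
            refine Finset.sum_le_sum fun l _ => ?_
            refine (dsum_trivial Sym645.syFacts GF569.gFacts hX0 hw hd'.1.ne_zero hf'.2.1.ne_zero δ t).trans ?_
            have h2 : X / (nm d * nm f) ≤ X := div_le_self hX0 (by nlinarith)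
            have h3 := hXi d f hd'.1 hf'.2.1
            have h4 := Xi_nonneg w X d f δ
            exact mul_le_mul (by linarith) h3 h4 (by linarith)
        _ = (bl (Lde X K δ d e)).card * (16 * X * (B0 ^ 2 * (X ^ δ) ^ 4 * H)) := by
            rw [Finset.sum_const, nsmul_eq_mul]
        _ ≤ 16 * Lde X K δ d e * (16 * X * (B0 ^ 2 * (X ^ δ) ^ 4 * H)) :=
            mul_le_mul_of_nonneg_right (card_bl_le hL0) (by positivity)
    calc K / nm f * DIM M δ w X d e f (Lde X K δ d e)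
        ≤ K / nm f * (I0 * (16 * Lde X K δ d e * (16 * X * (B0 ^ 2 * (X ^ δ) ^ 4 * H)))) := by
          gcongr
      _ = _ := by rw [hE]; ring
  -- the length
  have hL : ∀ d ∈ D, ∀ e ∈ De d, K * Lde X K δ d e ≤ (X * K) ^ δ * (K + Y * X ^ 2) := by
    intro d hd e he
    have hd' := hD d hd
    have he' := hDe d hd e he
    have hd1 := one_le_nm' hd'.1
    have he1 := one_le_nm' he'.1
    unfold Lde
    have h1 : (nm e : ℝ) * X ^ 2 / ((nm d : ℝ) ^ 2 * K) ≤ Y * X ^ 2 / K := by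
      rw [div_le_div_iff₀ (by positivity) (by linarith)]
      have : (nm e : ℝ) ≤ Y * (nm d : ℝ) ^ 2 := by
        calc (nm e : ℝ) ≤ Y := he'.2.trans hd'.2
          _ ≤ Y * (nm d : ℝ) ^ 2 := by nlinarith [pow_two_nonneg ((nm d : ℝ) - 1)]
      calc (nm e : ℝ) * X ^ 2 * K ≤ (Y * (nm d : ℝ) ^ 2) * X ^ 2 * K := by gcongr
        _ = _ := by ring
    calc K * ((X * K) ^ δ * (1 + (nm e : ℝ) * X ^ 2 / ((nm d : ℝ) ^ 2 * K)))
        ≤ K * ((X * K) ^ δ * (1 + Y * X ^ 2 / K)) := by gcongr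
      _ = _ := by field_simp
  have hfin : ∀ d ∈ D, ∀ e ∈ De d, ∑ f ∈ S X, K / nm f * DIM M δ w X d e f (Lde X K δ d e) ≤
      (X * K) ^ δ * (K + Y * X ^ 2) * E * H := by
    intro d hd e he
    refine (Finset.sum_le_sum (hterm d hd e he)).trans ?_
    rw [← Finset.mul_sum]
    have := hL d hd e he
    gcongr
  have hcardD : (D.card : ℝ) ≤ 16 * Y := by
    have : D ⊆ bl Y := fun d hd => (mem_bl (by linarith)).2 ⟨(hD d hd).1.ne_zero, (hD d hd).2⟩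
    exact le_trans (by exact_mod_cast Finset.card_le_card this) (card_bl_le (by linarith))
  have hcardE : ∀ d ∈ D, ((De d).card : ℝ) ≤ 16 * Y := by
    intro d hd
    have : De d ⊆ bl Y := fun e he => (mem_bl (by linarith)).2 ⟨(hDe d hd e he).1.ne_zero,
      (hDe d hd e he).2.trans (hD d hd).2⟩
    exact le_trans (by exact_mod_cast Finset.card_le_card this) (card_bl_le (by linarith))
  set Q : ℝ := (X * K) ^ δ * (K + Y * X ^ 2) * E * H with hQ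
  have hQ0 : 0 ≤ Q := by positivity
  calc ∑ d ∈ D, ∑ e ∈ De d, ∑ f ∈ S X, K / nm f * DIM M δ w X d e f (Lde X K δ d e)
      ≤ ∑ d ∈ D, ∑ e ∈ De d, Q := Finset.sum_le_sum fun d hd => Finset.sum_le_sum (hfin d hd)
    _ ≤ ∑ d ∈ D, 16 * Y * Q := by
        refine Finset.sum_le_sum fun d hd => ?_
        rw [Finset.sum_const, nsmul_eq_mul]
        exact mul_le_mul_of_nonneg_right (hcardE d hd) hQ0
    _ = D.card * (16 * Y * Q) := by rw [Finset.sum_const, nsmul_eq_mul]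
    _ ≤ (16 * Y) * (16 * Y * Q) := by gcongr
    _ = 65536 * I0 * (X * K) ^ δ * (X ^ δ) ^ 4 * H ^ 2 * Y ^ 2 * B0 ^ 2 *
          (K * X + Y * X ^ 3) := by rw [hQ, hE]; ring
    _ ≤ 65536 * (I0 + 1) * (X * K) ^ δ * (X ^ δ) ^ 4 * (Ch * X ^ δ) ^ 2 * Y ^ 2 * B0 ^ 2 *
          (Y * (K * X + X ^ 3)) := by
        gcongr
        · linarith
        · have : 0 ≤ K * X := by positivity
          nlinarith
    _ = 65536 * (I0 + 1) * Ch ^ 2 * (X * K) ^ δ * ((X ^ δ) ^ 6) * Y ^ 3 * B0 ^ 2 *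
          (K * X + X ^ 3) := by ring
    _ = _ := by
        have : X ^ (6 * δ) = (X ^ δ) ^ 6 := by
          rw [← Real.rpow_natCast, ← Real.rpow_mul hX0]
          congr 1; push_cast; ring
        rw [this]

end Crest.Agent.R017.TP320
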