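import Crest.Agent.R017.TPP4_320

/-!
# Row 17, side-level rule (P): one step, character side (helper320)
-/

set_option autoImplicit false

noncomputable section

open Complex MeasureTheory
open scoped ComplexConjugate

namespace Crest.Agent.R017.TP320

open Crest.Agent.R012 Crest.Agent.R012.Eis Crest.Agent.R012.LS2 Crest.Agent.R012.Gauss880
open Crest.Agent.R012.Div277 Crest.Agent.R012.CR2
open Crest.Agent.R017.PA842 (V Supp)
open Crest.Agent.R017.PM106 (DIM one_stepM integrable_DIM DIM_nonneg DIM_mono)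
open Crest.Agent.R017.CM106 (CS TG FS sub)

lemma nm_sq3_sq (e : Eis) : ((nm ((e * sq3) ^ 2) : ℕ) : ℝ) = 9 * (nm e : ℝ) ^ 2 := by
  rw [nm_pow, nm_mul, CR2.nm_sq3]
  push_cast
  ring

/-- the scales of one step -/
structure Scal (δ r R X0 K n1 X W c : ℝ) : Prop where
  hX0 : 3 ≤ X0
  hK1 : 1 ≤ K
  hKX : K ≤ Real.exp r * X0
  hW : W = X0 ^ δ
  hnX : Real.exp n1 ≤ Real.exp r * X0
  hX : X = Real.exp (n1 + R)
  hX1 : 1 ≤ X
  hc : c = Real.exp (r + R)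

lemma Scal.facts {δ r R X0 K n1 X W c : ℝ} (hδ : 0 < δ) (hδ1 : δ ≤ 1) (hr : 0 ≤ r) (hR : 0 ≤ R)
    (h : Scal δ r R X0 K n1 X W c) : 1 ≤ W ∧ 1 ≤ c ∧ X ≤ c * X0 ∧ X ^ δ ≤ c * W ∧ K ^ δ ≤ c * W ∧
      Real.log X + 1 ≤ (1 + 1 / δ) * (c * W) ∧ X = Real.exp R * Real.exp n1 := by
  obtain ⟨h1, h2, h3, h4, h5, h6, h7, h8⟩ := h
  have hX0 : 0 ≤ X0 := by linarith
  have hW1 : 1 ≤ W := by rw [h4]; exact Real.one_le_rpow (by linarith) hδ.le
  have hc1 : 1 ≤ c := by rw [h8]; exact Real.one_le_exp (by linarith)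
  have hX : X = Real.exp R * Real.exp n1 := by rw [h6, Real.exp_add]; ring
  have hXc : X ≤ c * X0 := by
    rw [hX, h8, Real.exp_add]
    calc Real.exp R * Real.exp n1 ≤ Real.exp R * (Real.exp r * X0) := by gcongr
      _ = _ := by ring
  have hcX : (c * X0) ^ δ ≤ c * W := by
    calc (c * X0) ^ δ = c ^ δ * X0 ^ δ := Real.mul_rpow (by linarith) hX0
      _ ≤ c * W := by
          rw [h4]
          have : c ^ δ ≤ c ^ (1 : ℝ) := Real.rpow_le_rpow_of_exponent_le hc1 hδ1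
          rw [Real.rpow_one] at this
          gcongr
  have hXd : X ^ δ ≤ c * W := (Real.rpow_le_rpow (by linarith) hXc hδ.le).trans hcX
  refine ⟨hW1, hc1, hXc, hXd, ?_, ?_, hX⟩
  · refine le_trans (Real.rpow_le_rpow (by linarith) ?_ hδ.le) hcX
    refine h3.trans ?_
    have : Real.exp r ≤ c := by rw [h8]; exact Real.exp_le_exp.2 (by linarith)
    gcongr
  · have h9 : Real.log X ≤ X ^ δ / δ := Real.log_le_rpow_div (by linarith) hδ
    have h10 : 1 ≤ X ^ δ := Real.one_le_rpow h7 hδ.le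
    calc Real.log X + 1 ≤ (1 + 1 / δ) * X ^ δ := by
          have : (1 + 1 / δ) * X ^ δ = X ^ δ + X ^ δ / δ := by ring
          rw [this]; linarith
      _ ≤ _ := by gcongr

/-- the pairs `(d, e)` -/
lemma card_de {Y : ℝ} (hY : 1 ≤ Y) (Q : ℝ) (hQ : 0 ≤ Q) (D : Finset Eis)
    (De : Eis → Finset Eis) (hD : ∀ d ∈ D, IsPrim d ∧ (nm d : ℝ) ≤ Y)
    (hDe : ∀ d ∈ D, ∀ e ∈ De d, IsPrim e ∧ (nm e : ℝ) ≤ nm d) (F : Eis → Eis → ℝ)
    (hF : ∀ d ∈ D, ∀ e ∈ De d, F d e ≤ Q) :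
    ∑ d ∈ D, ∑ e ∈ De d, F d e ≤ 256 * Y ^ 2 * Q := by
  have hcardD : (D.card : ℝ) ≤ 16 * Y := by
    have : D ⊆ bl Y := fun d hd => (mem_bl (by linarith)).2 ⟨(hD d hd).1.ne_zero, (hD d hd).2⟩
    exact le_trans (by exact_mod_cast Finset.card_le_card this) (card_bl_le (by linarith))
  have hcardE : ∀ d ∈ D, ((De d).card : ℝ) ≤ 16 * Y := by
    intro d hd
    have : De d ⊆ bl Y := fun e he => (mem_bl (by linarith)).2 ⟨(hDe d hd e he).1.ne_zero,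
      (hDe d hd e he).2.trans (hD d hd).2⟩
    exact le_trans (by exact_mod_cast Finset.card_le_card this) (card_bl_le (by linarith))
  calc ∑ d ∈ D, ∑ e ∈ De d, F d e
      ≤ ∑ d ∈ D, ∑ e ∈ De d, Q := Finset.sum_le_sum fun d hd => Finset.sum_le_sum (hF d hd)
    _ ≤ ∑ d ∈ D, 16 * Y * Q := by
        refine Finset.sum_le_sum fun d hd => ?_
        rw [Finset.sum_const, nsmul_eq_mul]
        exact mul_le_mul_of_nonneg_right (hcardE d hd) hQ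
    _ = D.card * (16 * Y * Q) := by rw [Finset.sum_const, nsmul_eq_mul]
    _ ≤ (16 * Y) * (16 * Y * Q) := by gcongr
    _ = _ := by ring

/-- length of the dual sums -/
lemma Lde_le {δ r R X0 K n1 X W c : ℝ} (hδ : 0 < δ) (hδ1 : δ ≤ 1) (hr : 0 ≤ r) (hR : 0 ≤ R)
    (h : Scal δ r R X0 K n1 X W c) (hKn : K ≤ Real.exp (2 * n1)) {d e : Eis} (hd : IsPrim d)
    (hed : (nm e : ℝ) ≤ nm d) :
    Lde X K δ d e ≤ c ^ 2 * W ^ 2 * (1 + Real.exp (2 * R)) * (Real.exp (2 * n1) / K) := by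
  obtain ⟨f1, f2, f3, f4, f5, f6, f7⟩ := h.facts hδ hδ1 hr hR
  have hK1 := h.hK1
  have hX1 := h.hX1
  have hd1 := one_le_nm' hd
  unfold Lde
  have h1 : (X * K) ^ δ ≤ c ^ 2 * W ^ 2 := by
    rw [Real.mul_rpow (by linarith) (by linarith)]
    calc X ^ δ * K ^ δ ≤ (c * W) * (c * W) := by gcongr
      _ = _ := by ring
  have h2 : (nm e : ℝ) * X ^ 2 / ((nm d : ℝ) ^ 2 * K) ≤ X ^ 2 / K := by
    rw [div_le_div_iff₀ (by positivity) (by linarith)]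
    have : (nm e : ℝ) ≤ (nm d : ℝ) ^ 2 := by nlinarith
    calc (nm e : ℝ) * X ^ 2 * K ≤ (nm d : ℝ) ^ 2 * X ^ 2 * K := by gcongr
      _ = _ := by ring
  have h3 : X ^ 2 = Real.exp (2 * R) * Real.exp (2 * n1) := by
    rw [f7, two_mul, two_mul, Real.exp_add, Real.exp_add]; ring
  have h4 : 1 ≤ Real.exp (2 * n1) / K := by rw [le_div_iff₀ (by linarith)]; linarith
  have h5 : 1 + (nm e : ℝ) * X ^ 2 / ((nm d : ℝ) ^ 2 * K) ≤
      (1 + Real.exp (2 * R)) * (Real.exp (2 * n1) / K) := by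
    calc 1 + (nm e : ℝ) * X ^ 2 / ((nm d : ℝ) ^ 2 * K) ≤ Real.exp (2 * n1) / K + X ^ 2 / K :=
          add_le_add h4 h2
      _ = _ := by rw [h3]; ring
  calc (X * K) ^ δ * (1 + (nm e : ℝ) * X ^ 2 / ((nm d : ℝ) ^ 2 * K))
      ≤ (c ^ 2 * W ^ 2) * ((1 + Real.exp (2 * R)) * (Real.exp (2 * n1) / K)) := by gcongr
    _ = _ := by ring

/-- the divisor bound in the relevant range -/
lemma Dm_le {δ r R X0 K n1 X W c Cτ : ℝ} (hδ : 0 < δ) (hδ1 : δ ≤ 1) (hr : 0 ≤ r) (hR : 0 ≤ R)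
    (h : Scal δ r R X0 K n1 X W c) (hKn : K ≤ Real.exp (2 * n1)) (hCτ : 1 ≤ Cτ)
    (hτ : ∀ n : Eis, n ≠ 0 → (tau n : ℝ) ≤ Cτ * (nm n : ℝ) ^ δ) {d e : Eis} (hd : IsPrim d)
    (hed : (nm e : ℝ) ≤ nm d) {s : Eis} (hs0 : s ≠ 0)
    (hs : (nm s : ℝ) ≤ Lde X K δ d e * (Real.exp 1 * X)) :
    (tau s : ℝ) ≤ Cτ * (c ^ 2 * (1 + Real.exp (2 * R)) * Real.exp 1 * c * c ^ 2) * W ^ 5 := by
  obtain ⟨f1, f2, f3, f4, f5, f6, f7⟩ := h.facts hδ hδ1 hr hR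
  have hL := Lde_le hδ hδ1 hr hR h hKn hd hed
  have hK1 := h.hK1
  have hX1 := h.hX1
  have hX0 := h.hX0
  have hW := h.hW
  have h3 : Real.exp (2 * n1) / K ≤ X ^ 2 := by
    have : Real.exp (2 * n1) ≤ X ^ 2 := by
      rw [f7, two_mul, Real.exp_add, mul_pow]
      have : 1 ≤ Real.exp R ^ 2 := one_le_pow₀ (Real.one_le_exp hR)
      nlinarith [Real.exp_pos n1, sq_nonneg (Real.exp n1)]
    calc Real.exp (2 * n1) / K ≤ Real.exp (2 * n1) := div_le_self (Real.exp_pos _).le hK1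
      _ ≤ _ := this
  have h4 : (nm s : ℝ) ≤ (c ^ 2 * (1 + Real.exp (2 * R)) * Real.exp 1 * c * c ^ 2) *
      (X0 ^ 2 * X0 ^ 3) := by
    have hWX : W ≤ X0 := by
      rw [hW]
      calc X0 ^ δ ≤ X0 ^ (1 : ℝ) := Real.rpow_le_rpow_of_exponent_le (by linarith) hδ1
        _ = X0 := Real.rpow_one _
    calc (nm s : ℝ) ≤ Lde X K δ d e * (Real.exp 1 * X) := hs
      _ ≤ (c ^ 2 * W ^ 2 * (1 + Real.exp (2 * R)) * (Real.exp (2 * n1) / K)) * (Real.exp 1 * X) := by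
          gcongr
      _ ≤ (c ^ 2 * X0 ^ 2 * (1 + Real.exp (2 * R)) * ((c * X0) ^ 2)) * (Real.exp 1 * (c * X0)) := by
          have : Real.exp (2 * n1) / K ≤ (c * X0) ^ 2 := h3.trans (by gcongr)
          gcongr
      _ = _ := by ring
  set c5 : ℝ := c ^ 2 * (1 + Real.exp (2 * R)) * Real.exp 1 * c * c ^ 2 with hc5
  have hc51 : 1 ≤ c5 := by
    have e1 : 1 ≤ Real.exp 1 := Real.one_le_exp (by norm_num)
    have e2 : 1 ≤ 1 + Real.exp (2 * R) := by linarith [Real.exp_pos (2 * R)]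
    rw [hc5]
    calc (1 : ℝ) = 1 ^ 2 * 1 * 1 * 1 * 1 ^ 2 := by norm_num
      _ ≤ _ := by gcongr
  calc (tau s : ℝ) ≤ Cτ * (nm s : ℝ) ^ δ := hτ s hs0
    _ ≤ Cτ * (c5 * (X0 ^ 2 * X0 ^ 3)) ^ δ := by gcongr
    _ = Cτ * (c5 ^ δ * W ^ 5) := by
        rw [Real.mul_rpow (by linarith) (by positivity), hW, ← pow_add,
          ← Real.rpow_natCast (X0 ^ δ), ← Real.rpow_natCast X0, ← Real.rpow_mul (by linarith),
          ← Real.rpow_mul (by linarith), mul_comm δ]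
    _ ≤ Cτ * (c5 * W ^ 5) := by
        have : c5 ^ δ ≤ c5 ^ (1 : ℝ) := Real.rpow_le_rpow_of_exponent_le hc51 hδ1
        rw [Real.rpow_one] at this
        gcongr
    _ = _ := by ring

end Crest.Agent.R017.TP320
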