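import Crest.Agent.R017.TPP5_320
import Crest.Agent.R017.PI1_106

/-!
# Row 17, side-level rule (P): the dual terms of one common divisor (helper320)
-/

set_option autoImplicit false

noncomputable section

open Complex MeasureTheory
open scoped ComplexConjugate

namespace Crest.Agent.R017.TP320

open Crest.Agent.R012 Crest.Agent.R012.Eis Crest.Agent.R012.LS2 Crest.Agent.R012.Gauss880
open Crest.Agent.R012.Div277 Crest.Agent.R012.CR2
open Crest.Agent.R017.PA842 (V Supp)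
open Crest.Agent.R017.PM106 (DIM one_stepM integrable_DIM DIM_nonneg DIM_mono)
open Crest.Agent.R017.PI106 (DD DD_nonneg iterM)
open Crest.Agent.R017.CM106 (CS TG FS sub)

set_option maxHeartbeats 1000000

/-- the dual sums of a subsequence -/
lemma dsum_sub {w : Eis → ℂ} {X : ℝ} (hX : 0 ≤ X) (hw : Supp w X) {g d e f l : Eis}
    (hg : IsPrim g) (hd : IsPrim d) (hf : IsPrim f) (s : ℂ) :
    dsum (PA842.sub w g) (X / nm g) d e f l s = dsum w X (g * d) e f l s := by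
  unfold dsum
  have hg1 := one_le_nm' hg
  have hX' : 0 ≤ X / nm g := by positivity
  have hsub : S (X / nm g) ⊆ S X := by
    intro k hk
    rw [mem_S hX'] at hk
    rw [mem_S hX]
    exact ⟨hk.1.trans (div_le_self hX hg1), hk.2⟩
  rw [← Finset.sum_subset hsub]
  · refine Finset.sum_congr rfl fun k _ => ?_
    have : PA842.sub w g (d * f * k) = w (g * d * f * k) := by
      unfold PA842.sub
      congr 1
      ring
    rw [this]
  · intro k hk hk'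
    rw [mem_S hX] at hk
    have h4 : w (g * d * f * k) = 0 := by
      by_contra h0
      apply hk'
      have h5 := (mem_S hX).1 (hw _ h0)
      rw [mem_S hX']
      refine ⟨?_, hk.2⟩
      rw [le_div_iff₀ (by linarith)]
      have h6 : ((nm (g * d * f * k) : ℕ) : ℝ) = nm g * nm d * nm f * nm k := by
        rw [nm_mul, nm_mul, nm_mul]; push_cast; ring
      have h7 := h5.1
      rw [h6] at h7
      have hd1 := one_le_nm' hd
      have hf1 := one_le_nm' hf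
      have hk0 : (0 : ℝ) ≤ nm k := Nat.cast_nonneg _
      calc (nm k : ℝ) * nm g = nm g * 1 * 1 * nm k := by ring
        _ ≤ nm g * nm d * nm f * nm k := by gcongr
        _ ≤ X := h7
    rw [h4]; ring

lemma DIM_sub {w : Eis → ℂ} {X : ℝ} (hX : 0 ≤ X) (hw : Supp w X) {g d e f : Eis}
    (hg : IsPrim g) (hd : IsPrim d) (hf : IsPrim f) (M : ℕ) (σ L : ℝ) :
    DIM M σ (PA842.sub w g) (X / nm g) d e f L = DIM M σ w X (g * d) e f L := by
  unfold PM106.DIM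
  congr 1
  funext t
  congr 1
  refine Finset.sum_congr rfl fun l _ => ?_
  rw [dsum_sub hX hw hg hd hf]

/-- the scales -/
structure Sc2 (δ R X0 K X : ℝ) : Prop where
  hX0 : 3 ≤ X0
  hK1 : 1 ≤ K
  hKX : K ≤ X0
  hX1 : 1 ≤ X
  hXX : X ≤ Real.exp R * X0

lemma Sc2.facts {δ R X0 K X : ℝ} (hδ : 0 < δ) (hδ1 : δ ≤ 1) (hR : 0 ≤ R)
    (h : Sc2 δ R X0 K X) : 1 ≤ X0 ^ δ ∧ 1 ≤ Real.exp R ∧ X ^ δ ≤ Real.exp R * X0 ^ δ ∧
      K ^ δ ≤ X0 ^ δ ∧ Real.log X + 1 ≤ (1 + 1 / δ) * (Real.exp R * X0 ^ δ) := by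
  obtain ⟨h1, h2, h3, h4, h5⟩ := h
  have hc1 : 1 ≤ Real.exp R := Real.one_le_exp hR
  have hX : X ^ δ ≤ Real.exp R * X0 ^ δ := by
    calc X ^ δ ≤ (Real.exp R * X0) ^ δ := Real.rpow_le_rpow (by linarith) h5 hδ.le
      _ = Real.exp R ^ δ * X0 ^ δ := Real.mul_rpow (by linarith) (by linarith)
      _ ≤ Real.exp R * X0 ^ δ := by
          have : Real.exp R ^ δ ≤ Real.exp R ^ (1 : ℝ) :=
            Real.rpow_le_rpow_of_exponent_le hc1 hδ1
          rw [Real.rpow_one] at this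
          gcongr
  refine ⟨Real.one_le_rpow (by linarith) hδ.le, hc1, hX,
    Real.rpow_le_rpow (by linarith) h3 hδ.le, ?_⟩
  have h9 : Real.log X ≤ X ^ δ / δ := Real.log_le_rpow_div (by linarith) hδ
  have h10 : 1 ≤ X ^ δ := Real.one_le_rpow h4 hδ.le
  calc Real.log X + 1 ≤ (1 + 1 / δ) * X ^ δ := by
        have : (1 + 1 / δ) * X ^ δ = X ^ δ + X ^ δ / δ := by ring
        rw [this]; linarith
    _ ≤ _ := by gcongr

/-- the length of the dual sums -/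
lemma Lde_le2 {δ X K X' : ℝ} (hδ : 0 < δ) (hK1 : 1 ≤ K)
    (hX' : 1 ≤ X') (hXX : X' ≤ X) (hKX : K ≤ X' ^ 2) {d e : Eis} (hd : IsPrim d)
    (hed : (nm e : ℝ) ≤ nm d) :
    Lde X' K δ d e ≤ X ^ δ * K ^ δ * (2 * (X' ^ 2 / K)) := by
  have hd1 := one_le_nm' hd
  unfold Lde
  have h1 : (X' * K) ^ δ ≤ X ^ δ * K ^ δ := by
    rw [Real.mul_rpow (by linarith) (by linarith)]
    have : X' ^ δ ≤ X ^ δ := Real.rpow_le_rpow (by linarith) hXX hδ.le
    gcongr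
  have h2 : (nm e : ℝ) * X' ^ 2 / ((nm d : ℝ) ^ 2 * K) ≤ X' ^ 2 / K := by
    rw [div_le_div_iff₀ (by positivity) (by linarith)]
    have : (nm e : ℝ) ≤ (nm d : ℝ) ^ 2 := by nlinarith
    calc (nm e : ℝ) * X' ^ 2 * K ≤ (nm d : ℝ) ^ 2 * X' ^ 2 * K := by gcongr
      _ = _ := by ring
  have h4 : 1 ≤ X' ^ 2 / K := by rw [le_div_iff₀ (by linarith)]; linarith
  have h5 : 1 + (nm e : ℝ) * X' ^ 2 / ((nm d : ℝ) ^ 2 * K) ≤ 2 * (X' ^ 2 / K) := by linarith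
  have h6 : 0 ≤ X ^ δ * K ^ δ := by
    have : 0 ≤ X := by linarith
    positivity
  exact mul_le_mul h1 h5 (by positivity) h6

/-- the diagonal -/
lemma diag_le {δ : ℝ} (hδ : 0 < δ) {X B0 : ℝ} (hX : 1 ≤ X) (hB0 : 0 ≤ B0) {w : Eis → ℂ}
    (hwb : ∀ h, ‖w h‖ ≤ B0 * (nm h : ℝ) ^ δ) :
    ∑ h ∈ S X, ‖w h‖ ^ 2 ≤ 16 * (X * (X ^ δ) ^ 2) * B0 ^ 2 := by
  have hX0 : 0 ≤ X := by linarith
  calc ∑ h ∈ S X, ‖w h‖ ^ 2 ≤ ∑ h ∈ S X, (B0 * X ^ δ) ^ 2 := by
        refine Finset.sum_le_sum fun n hn => ?_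
        have hn' := (mem_S hX0).1 hn
        have : (nm n : ℝ) ^ δ ≤ X ^ δ := Real.rpow_le_rpow (Nat.cast_nonneg _) hn'.1 hδ.le
        have h4 : ‖w n‖ ≤ B0 * X ^ δ := (hwb n).trans (mul_le_mul_of_nonneg_left this hB0)
        gcongr
    _ = (S X).card * (B0 * X ^ δ) ^ 2 := by rw [Finset.sum_const, nsmul_eq_mul]
    _ ≤ (16 * X) * (B0 * X ^ δ) ^ 2 := by
        gcongr
        exact card_S_le hX0
    _ = _ := by ring

lemma mem_de {X Y : ℝ} (hX : 0 ≤ X) {d : Eis}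
    [DecidablePred fun d : Eis => (nm d : ℝ) ≤ Y]
    (hd : d ∈ (S X).filter (fun d => (nm d : ℝ) ≤ Y)) :
    IsPrim d ∧ (nm d : ℝ) ≤ Y ∧ (nm d : ℝ) ≤ X := by
  rw [Finset.mem_filter, mem_S hX] at hd
  exact ⟨hd.1.2.1, hd.2, hd.1.1⟩

end Crest.Agent.R017.TP320
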