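import Crest.Agent.R017.TPP7_320

/-!
# Row 17, side-level rule (P): the dual terms of one common divisor, bounds (helper320)
-/

set_option autoImplicit false

noncomputable section

open Complex MeasureTheory
open scoped ComplexConjugate

namespace Crest.Agent.R017.TP320

open Crest.Agent.R012 Crest.Agent.R012.Eis Crest.Agent.R012.LS2 Crest.Agent.R012.Gauss880
open Crest.Agent.R012.Div277 Crest.Agent.R012.CR2
open Crest.Agent.R017.PA842 (V Supp)
open Crest.Agent.R017.PM106 (DIM one_stepM integrable_DIM DIM_nonneg DIM_mono)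
open Crest.Agent.R017.PI106 (DD DD_nonneg iterM)
open Crest.Agent.R017.CM106 (CS TG FS sub)

set_option maxHeartbeats 1000000

/-- the hypothesis of (P), Gauss side -/
def HypG {J : Type} (Φ : Fam J) (C r ε X0 K a : ℝ) (j : J) (q : Eis) : Prop :=
  ∀ (j' : J) (q' : Eis) (n1 φ : ℝ), Φ.good j' → Φ.dom r j' j → 0 ≤ φ → n1 ≤ Φ.len j + r →
    Φ.len j' ≤ n1 - φ + r → n1 - φ - r - ε * Real.log X0 ≤ Φ.len j' →
    IsPrim q' → q ∣ q' → (nm q' : ℝ) ≤ C * nm q * X0 ^ 2 → K ≤ C * Real.exp (2 * n1) →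
    VG (C * X0 ^ ε * Real.exp (φ + 2 * n1) / K) (sq q' (Φ.w j')) ≤
      a * Real.exp (φ + n1 + Φ.len j') * (Φ.ht j') ^ 2

/-- one common divisor, long dual sums -/
lemma DD_main {J : Type} {Φ : Fam J} {R A : ℝ} (hΦ : Φ.Ok R A) {δ ε Cs Cτ : ℝ} (hδ : 0 < δ)
    (hδ1 : δ ≤ 1 / 2) (hδε : 4 * δ ≤ ε) {M : ℕ} (hM1 : 1 ≤ M) (hM : A + 1 ≤ M) (hCs : 0 ≤ Cs)
    (hs : SplitAt Φ R A δ (1 / 2 - δ) Cs) (hCτ : 1 ≤ Cτ)
    (hτ : ∀ n : Eis, n ≠ 0 → (tau n : ℝ) ≤ Cτ * (nm n : ℝ) ^ δ) (j : J) {q : Eis}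
    (hq : IsPrim q) {X0 K X a : ℝ} (hS : Sc2 δ R X0 K X) (hX : X = Real.exp (Φ.len j + R))
    (ha : 0 ≤ a) {CG r : ℝ} (hr : 3 * R + 1 ≤ r) (hCG : 18 * Real.exp (1 + 3 * R) ≤ CG)
    (HG : HypG Φ CG r ε X0 K a j q) {g : Eis} (hg : g ∈ S X) (hKg : K ≤ (X / nm g) ^ 2) :
    DD M δ (X / nm g) K (X ^ δ) δ (PA842.sub (sq q (Φ.w j)) g) ≤
      256 * (X ^ δ) ^ 2 * (K * a * (X / nm g) * (Cs ^ 2 * Real.exp R * IM M A) *
        (Cτ * (2 * Real.exp (1 + 4 * R)) * (X0 ^ δ) ^ 4) * Real.exp (2 * δ * Φ.len j) *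
        (Real.log X + 1) * (Φ.ht j) ^ 2) := by
  classical
  obtain ⟨f1, f2, f3, f4, f5⟩ := hS.facts hδ (by linarith) hΦ.R0
  have hR := hΦ.R0
  have hK1 := hS.hK1
  have hX1 := hS.hX1
  have hX0 := hS.hX0
  have hXn : 0 ≤ X := by linarith
  have hg' := (mem_S hXn).1 hg
  have hgp := hg'.2.1
  have hg1 := one_le_nm' hgp
  have hgX := hg'.1
  set X' : ℝ := X / nm g with hX'
  have hX'1 : 1 ≤ X' := by rw [hX', le_div_iff₀ (by linarith)]; linarith
  have hX'X : X' ≤ X := div_le_self hXn hg1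
  have hX'n : 0 ≤ X' := by linarith
  set Y : ℝ := X ^ δ with hY
  have hY1 : 1 ≤ Y := Real.one_le_rpow hX1 hδ.le
  set W : ℝ := X0 ^ δ with hW
  have hsupp : Supp (sq q (Φ.w j)) X := supp_sq hΦ q j (by rw [hX])
  have hIM := IM_nonneg M A
  have hlogX : 0 ≤ Real.log X := Real.log_nonneg hX1
  -- the parameter
  set n1 : ℝ := Real.log X' with hn1
  have hexpn : Real.exp n1 = X' := Real.exp_log (by linarith)
  have hn1' : n1 = Φ.len j + R - Real.log (nm g) := by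
    rw [hn1, hX', Real.log_div (by linarith) (by linarith), hX, Real.log_exp]
  have hexp2 : Real.exp (2 * n1) = X' ^ 2 := by
    rw [two_mul, Real.exp_add, hexpn]; ring
  have hlg := log_nm_nonneg' hgp
  have hlogX0 : 0 ≤ Real.log X0 := Real.log_nonneg (by linarith)
  have hlogXX : Real.log X ≤ R + Real.log X0 := by
    have : Real.log X ≤ Real.log (Real.exp R * X0) := Real.log_le_log (by linarith) hS.hXX
    rwa [Real.log_mul (Real.exp_pos _).ne' (by linarith), Real.log_exp] at this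
  set Q : ℝ := K * a * X' * (Cs ^ 2 * Real.exp R * IM M A) *
        (Cτ * (2 * Real.exp (1 + 4 * R)) * W ^ 4) * Real.exp (2 * δ * Φ.len j) *
        (Real.log X + 1) * (Φ.ht j) ^ 2 with hQ
  have hQ0 : 0 ≤ Q := by
    have h1 : 0 ≤ Cs ^ 2 * Real.exp R * IM M A := mul_nonneg (by positivity) hIM
    have h2 : 0 ≤ K * a * X' := by positivity
    have h3 : 0 ≤ Real.log X + 1 := by linarith
    rw [hQ]; positivity
  unfold PI106.DD
  refine card_de hY1 Q hQ0 _ _ (fun d hd => ?_) (fun d hd e he => ?_) _ ?_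
  · have := mem_de hX'n hd
    exact ⟨this.1, this.2.1⟩
  · have h1 := mem_de hX'n hd
    rw [Finset.mem_filter, mem_S hX'n] at he
    exact ⟨he.1.2.1, by exact_mod_cast nm_le_of_dvd h1.1.ne_zero he.2⟩
  intro d hd e he
  have hd' := mem_de hX'n hd
  have hdp := hd'.1
  have he' : IsPrim e ∧ (nm e : ℝ) ≤ nm d := by
    rw [Finset.mem_filter, mem_S hX'n] at he
    exact ⟨he.1.2.1, by exact_mod_cast nm_le_of_dvd hdp.ne_zero he.2⟩
  have hep := he'.1
  have hd1 := one_le_nm' hdp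
  have he1 := one_le_nm' hep
  have hld := log_nm_nonneg' hdp
  have hL0 : 0 ≤ Lde X' K δ d e := PA842.Lde_nonneg hX'n (by linarith) _ _ _
  have hLb := Lde_le2 hδ hK1 hX'1 hX'X hKg hdp he'.2
  -- transfer to the full sequence
  have hstep : ∑ f ∈ S X', K / nm f * DIM M δ (PA842.sub (sq q (Φ.w j)) g) X' d e f
        (Lde X' K δ d e) ≤
      ∑ f ∈ S X, K / nm f * DIM M δ (sq q (Φ.w j)) X (g * d) e f (Lde X' K δ d e) := by
    have h1 : ∑ f ∈ S X', K / nm f * DIM M δ (PA842.sub (sq q (Φ.w j)) g) X' d e f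
        (Lde X' K δ d e) =
        ∑ f ∈ S X', K / nm f * DIM M δ (sq q (Φ.w j)) X (g * d) e f (Lde X' K δ d e) := by
      refine Finset.sum_congr rfl fun f hf => ?_
      rw [DIM_sub hXn hsupp hgp hdp ((mem_S hX'n).1 hf).2.1]
    rw [h1]
    refine Finset.sum_le_sum_of_subset_of_nonneg ?_ fun f _ _ =>
      mul_nonneg (by positivity) (DIM_nonneg _ _ _ _ _ _ _ _)
    intro k hk
    rw [mem_S hX'n] at hk
    rw [mem_S hXn]
    exact ⟨hk.1.trans hX'X, hk.2⟩
  refine hstep.trans ?_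
  have hmain := dual_main_C hΦ hδ hM1 hM hCs hs j q (hgp.mul hdp) hep (L := Lde X' K δ d e) hL0
    (Dm := Cτ * (2 * Real.exp (1 + 4 * R)) * W ^ 4) (by positivity) (by linarith : 0 ≤ K) ha hX1
    (le_of_eq hX.symm) (n1 := n1) ?_ ?_
  · rw [hexpn] at hmain
    exact hmain
  · -- the divisor function
    intro s hs0 hsn
    have hKX := hS.hKX
    have h1 : (nm s : ℝ) ≤ 2 * Real.exp (1 + 4 * R) * X0 ^ 4 := by
      have hYX : Y ≤ X := by
        rw [hY]
        calc X ^ δ ≤ X ^ (1 : ℝ) := Real.rpow_le_rpow_of_exponent_le hX1 (by linarith)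
          _ = X := Real.rpow_one _
      have hKd : K ^ δ ≤ K := by
        calc K ^ δ ≤ K ^ (1 : ℝ) := Real.rpow_le_rpow_of_exponent_le hK1 (by linarith)
          _ = K := Real.rpow_one _
      calc (nm s : ℝ) ≤ Lde X' K δ d e * (Real.exp 1 * X) := hsn
        _ ≤ (Y * K ^ δ * (2 * (X' ^ 2 / K))) * (Real.exp 1 * X) := by gcongr
        _ ≤ (X * K * (2 * (X ^ 2 / K))) * (Real.exp 1 * X) := by gcongr
        _ = 2 * Real.exp 1 * X ^ 4 := by field_simp
        _ ≤ 2 * Real.exp 1 * (Real.exp R * X0) ^ 4 := by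
            have := hS.hXX
            gcongr
        _ = _ := by
            rw [mul_pow, ← Real.exp_nat_mul, Real.exp_add]; push_cast; ring
    set c5 : ℝ := 2 * Real.exp (1 + 4 * R) with hc5
    have hc51 : 1 ≤ c5 := by
      have : 1 ≤ Real.exp (1 + 4 * R) := Real.one_le_exp (by linarith)
      linarith
    calc (tau s : ℝ) ≤ Cτ * (nm s : ℝ) ^ δ := hτ s hs0
      _ ≤ Cτ * (c5 * X0 ^ 4) ^ δ := by gcongr
      _ = Cτ * (c5 ^ δ * W ^ 4) := by
          rw [Real.mul_rpow (by linarith) (by positivity), hW,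
            ← Real.rpow_natCast (X0 ^ δ), ← Real.rpow_natCast X0, ← Real.rpow_mul (by linarith),
            ← Real.rpow_mul (by linarith), mul_comm δ]
      _ ≤ Cτ * (c5 * W ^ 4) := by
          have : c5 ^ δ ≤ c5 ^ (1 : ℝ) := Real.rpow_le_rpow_of_exponent_le hc51 (by linarith)
          rw [Real.rpow_one] at this
          gcongr
      _ = _ := by ring
  · -- the hypothesis
    intro i hi j' hgood hdm hl hm
    have hlgd : Real.log (nm (g * d)) = Real.log (nm g) + Real.log (nm d) := by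
      rw [nm_mul]; push_cast; rw [Real.log_mul (by linarith) (by linarith)]
    rw [hlgd] at hl hm
    have hdlog : Real.log (nm d) ≤ δ * Real.log X := by
      have h1 : Real.log (nm d) ≤ Real.log (X ^ δ) := Real.log_le_log (by linarith) hd'.2.1
      rwa [Real.log_rpow (by linarith)] at h1
    have hi0 : (0 : ℝ) ≤ i := Nat.cast_nonneg i
    have key := HG j' (q * (g * d)) n1 i hgood (hΦ.dom_mono _ _ _ _ (by linarith) hdm) hi0
      (by rw [hn1']; linarith) (by rw [hn1']; linarith) (by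
        rw [hn1']
        have h2 : δ * Real.log X ≤ δ * (R + Real.log X0) := by gcongr
        have h3 : δ * R ≤ R := by nlinarith
        have h4 : δ * Real.log X0 ≤ ε * Real.log X0 := by
          apply mul_le_mul_of_nonneg_right _ hlogX0
          linarith
        nlinarith) (hq.mul (hgp.mul hdp)) (dvd_mul_right _ _) (by
        have h2 : ((nm (q * (g * d)) : ℕ) : ℝ) = nm q * (nm g * nm d) := by
          rw [nm_mul, nm_mul]; push_cast; ring
        rw [h2]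
        have h3 : (nm g : ℝ) * nm d ≤ (Real.exp R * X0) * (Real.exp R * X0) := by
          have h4 := hS.hXX
          have h5 : (nm d : ℝ) ≤ Real.exp R * X0 := (hd'.2.2.trans hX'X).trans h4
          have h6 : (nm g : ℝ) ≤ Real.exp R * X0 := hgX.trans h4
          exact mul_le_mul h6 h5 (by linarith) (by positivity)
        have h4 : Real.exp R * Real.exp R ≤ CG := by
          refine le_trans ?_ hCG
          rw [← Real.exp_add]
          have h5 : Real.exp (R + R) ≤ Real.exp (1 + 3 * R) := Real.exp_le_exp.2 (by linarith)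
          have h6 := Real.exp_pos (1 + 3 * R)
          linarith
        calc (nm q : ℝ) * (nm g * nm d) ≤ nm q * ((Real.exp R * X0) * (Real.exp R * X0)) := by
              gcongr
          _ = (Real.exp R * Real.exp R) * nm q * X0 ^ 2 := by ring
          _ ≤ CG * nm q * X0 ^ 2 := by gcongr) (by
        rw [hexp2]
        have h4 : 1 ≤ CG := by
          refine le_trans ?_ hCG
          have := Real.one_le_exp (x := 1 + 3 * R) (by linarith)
          linarith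
        nlinarith [sq_nonneg X'])
    refine le_trans (VG_mono (by positivity) ?_ _) key
    rw [nm_sq3_sq]
    have he2 : (nm e : ℝ) ≤ Y := he'.2.trans hd'.2.1
    have hCG0 : 0 ≤ CG := by
      refine le_trans ?_ hCG
      positivity
    have hW4 : W ^ 4 ≤ X0 ^ ε := by
      rw [hW, ← Real.rpow_natCast, ← Real.rpow_mul (by linarith)]
      apply Real.rpow_le_rpow_of_exponent_le (by linarith)
      push_cast; linarith
    calc Lde X' K δ d e * Real.exp ((i : ℝ) + 1) * (9 * (nm e : ℝ) ^ 2)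
        ≤ (Y * K ^ δ * (2 * (X' ^ 2 / K))) * Real.exp ((i : ℝ) + 1) * (9 * Y ^ 2) := by gcongr
      _ ≤ ((Real.exp R * W) * W * (2 * (X' ^ 2 / K))) * Real.exp ((i : ℝ) + 1) *
          (9 * (Real.exp R * W) ^ 2) := by gcongr
      _ = (18 * Real.exp (1 + 3 * R)) * W ^ 4 * Real.exp (i + 2 * n1) / K := by
          have e1 : Real.exp (1 + 3 * R) = Real.exp 1 * Real.exp R ^ 3 := by
            rw [Real.exp_add, ← Real.exp_nat_mul]; push_cast; rfl
          rw [Real.exp_add (i : ℝ) 1, Real.exp_add (i : ℝ) (2 * n1), hexp2, e1]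
          ring
      _ ≤ CG * X0 ^ ε * Real.exp (i + 2 * n1) / K := by gcongr

/-- one common divisor, short dual sums -/
lemma DD_triv {J : Type} {Φ : Fam J} {R A : ℝ} (hΦ : Φ.Ok R A) {δ Cb C2 : ℝ} (hδ : 0 < δ)
    (hδ1 : δ ≤ 1 / 2) {M : ℕ}
    (hCb : 0 ≤ Cb) (hC2 : 0 ≤ C2) (hbd : ∀ j n, ‖Φ.w j n‖ ≤ Cb * (nm n : ℝ) ^ δ)
    (htriv : ∀ X K Y B0 : ℝ, 1 ≤ X → 1 ≤ K → 1 ≤ Y → 0 ≤ B0 → ∀ w : Eis → ℂ, Supp w X →
      (∀ h, ‖w h‖ ≤ B0 * (nm h : ℝ) ^ δ) →
      ∀ (D : Finset Eis) (De : Eis → Finset Eis), (∀ d ∈ D, IsPrim d ∧ (nm d : ℝ) ≤ Y) →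
        (∀ d ∈ D, ∀ e ∈ De d, IsPrim e ∧ (nm e : ℝ) ≤ nm d) →
      ∑ d ∈ D, ∑ e ∈ De d, ∑ f ∈ S X, K / nm f * DIM M δ w X d e f (Lde X K δ d e) ≤
        C2 * (X * K) ^ δ * X ^ (6 * δ) * Y ^ 3 * B0 ^ 2 * (K * X + X ^ 3))
    (j : J) (q : Eis) {X0 K X : ℝ} (hS : Sc2 δ R X0 K X) (hX : X = Real.exp (Φ.len j + R))
    {g : Eis} (hg : g ∈ S X) (hKg : (X / nm g) ^ 2 ≤ K) :
    DD M δ (X / nm g) K (X ^ δ) δ (PA842.sub (sq q (Φ.w j)) g) ≤
      2 * C2 * Cb ^ 2 * (Real.exp R) ^ 12 * (X0 ^ δ) ^ 13 * K * (X / nm g) := by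
  classical
  obtain ⟨f1, f2, f3, f4, f5⟩ := hS.facts hδ (by linarith) hΦ.R0
  have hK1 := hS.hK1
  have hX1 := hS.hX1
  have hXn : 0 ≤ X := by linarith
  have hg' := (mem_S hXn).1 hg
  have hgp := hg'.2.1
  have hg1 := one_le_nm' hgp
  set X' : ℝ := X / nm g with hX'
  have hX'1 : 1 ≤ X' := by rw [hX', le_div_iff₀ (by linarith)]; linarith [hg'.1]
  have hX'X : X' ≤ X := div_le_self hXn hg1
  have hX'n : 0 ≤ X' := by linarith
  set Y : ℝ := X ^ δ with hY
  have hY1 : 1 ≤ Y := Real.one_le_rpow hX1 hδ.le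
  have hsupp : Supp (sq q (Φ.w j)) X := supp_sq hΦ q j (by rw [hX])
  have hwb : ∀ h, ‖PA842.sub (sq q (Φ.w j)) g h‖ ≤ (Cb * Y) * (nm h : ℝ) ^ δ := by
    intro h
    unfold PA842.sub sq
    split_ifs
    · refine (hbd j _).trans ?_
      rw [nm_mul, Nat.cast_mul, Real.mul_rpow (Nat.cast_nonneg _) (Nat.cast_nonneg _), mul_assoc]
      have : (nm g : ℝ) ^ δ ≤ Y := Real.rpow_le_rpow (by linarith) hg'.1 hδ.le
      gcongr
    · rw [norm_zero]; positivity
  have h1 := htriv X' K Y (Cb * Y) hX'1 hK1 hY1 (by positivity) _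
    (PA842.supp_sub hXn hsupp hgp) hwb
    ((S X').filter (fun d => (nm d : ℝ) ≤ Y)) (fun d => (S X').filter (· ∣ d))
    (fun d hd => ⟨(mem_de hX'n hd).1, (mem_de hX'n hd).2.1⟩) (by
      intro d hd e he
      have h1 := mem_de hX'n hd
      rw [Finset.mem_filter, mem_S hX'n] at he
      exact ⟨he.1.2.1, by exact_mod_cast nm_le_of_dvd h1.1.ne_zero he.2⟩)
  have h2 : DD M δ X' K Y δ (PA842.sub (sq q (Φ.w j)) g) =
      ∑ d ∈ (S X').filter (fun d => (nm d : ℝ) ≤ Y), ∑ e ∈ (S X').filter (· ∣ d), ∑ f ∈ S X',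
        K / nm f * DIM M δ (PA842.sub (sq q (Φ.w j)) g) X' d e f (Lde X' K δ d e) := by
    unfold PI106.DD
    refine Finset.sum_congr (by congr) fun d _ => ?_
    exact Finset.sum_congr (by congr) fun e _ => rfl
  rw [h2]
  refine h1.trans ?_
  have h3 : (X' * K) ^ δ ≤ Y * K ^ δ := by
    rw [Real.mul_rpow (by linarith) (by linarith)]
    have : X' ^ δ ≤ X ^ δ := Real.rpow_le_rpow (by linarith) hX'X hδ.le
    gcongr
  have h4 : X' ^ (6 * δ) ≤ Y ^ 6 := by
    have e1 : Y ^ 6 = X ^ (6 * δ) := by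
      rw [hY, ← Real.rpow_natCast, ← Real.rpow_mul hXn]; congr 1; push_cast; ring
    rw [e1]
    exact Real.rpow_le_rpow hX'n hX'X (by positivity)
  have h5 : K * X' + X' ^ 3 ≤ 2 * (K * X') := by
    have : X' ^ 3 = X' ^ 2 * X' := by ring
    rw [this]
    nlinarith
  set W : ℝ := X0 ^ δ with hW
  have hX'p : 0 ≤ (X' * K) ^ δ := by positivity
  calc C2 * (X' * K) ^ δ * X' ^ (6 * δ) * Y ^ 3 * (Cb * Y) ^ 2 * (K * X' + X' ^ 3)
      ≤ C2 * (Y * K ^ δ) * Y ^ 6 * Y ^ 3 * (Cb * Y) ^ 2 * (2 * (K * X')) := by gcongr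
    _ = 2 * C2 * Cb ^ 2 * (Y ^ 12 * K ^ δ) * K * X' := by ring
    _ ≤ 2 * C2 * Cb ^ 2 * ((Real.exp R * W) ^ 12 * W) * K * X' := by gcongr
    _ = _ := by ring

end Crest.Agent.R017.TP320
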