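import Crest.Agent.R017.TPMul2_320

/-!
# Row 17, side-level rule (P): one smooth piece is a closed family (helper320)
-/

set_option autoImplicit false

noncomputable section

open Complex MeasureTheory
open scoped ComplexConjugate ContDiff

namespace Crest.Agent.R017.TP320

open Crest.Agent.R012 Crest.Agent.R012.Eis Crest.Agent.R012.LS2 Crest.Agent.R012.Gauss880
open Crest.Agent.R012.Div277 Crest.Agent.R012.Weight600
open Crest.Agent.R012.PSer47 Crest.Agent.R017.End699 Crest.Agent.R017.FE47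
open Crest.Agent.R017.Two939 (cfa cfa_mul cfa_prim)

/-- one smooth piece; the index is `(log-length, shift, base height)` -/
def pc (h : ℝ → ℝ) (χ : Eis → ℂ) (l : ℤ) (μ : ℝ) : Fam (ℝ × ℝ × ℝ) where
  w j := cfa h χ l (Real.exp j.1) (j.2.2 + j.2.1)
  len j := j.1
  ht j := (1 + |j.2.1|) ^ μ
  good j := 0 ≤ j.1
  dom r j' j := j'.1 ≤ j.1 + r ∧ j'.2.2 = j.2.2

lemma ker_int_pow {w : ℝ → ℂ} (h1 : ContDiff ℝ ∞ w) (h2 : HasCompactSupport w) (μ : ℝ) :
    Integrable fun u => ‖ker w u‖ * (1 + |u|) ^ μ := by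
  obtain ⟨C, hC, hb⟩ := ker_decay h1 h2 (⌈μ⌉₊ + 2)
  have hi : Integrable (fun u : ℝ => C * (1 + ‖u‖) ^ (-(2 : ℝ))) :=
    (integrable_one_add_norm (by simp)).const_mul _
  refine hi.mono' ?_ ?_
  · have hk := continuous_ker (h1.continuous.integrable_of_hasCompactSupport h2)
    have : Continuous fun u : ℝ => (1 + |u|) ^ μ := by
      apply Continuous.rpow_const (by fun_prop)
      intro x
      left
      positivity
    exact (hk.norm.mul this).aestronglyMeasurable
  · refine Filter.Eventually.of_forall fun u => ?_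
    rw [Real.norm_of_nonneg (by positivity), Real.norm_eq_abs]
    have h3 : (1 + |u|) ^ μ ≤ (1 + |u|) ^ ((⌈μ⌉₊ : ℕ) : ℝ) :=
      Real.rpow_le_rpow_of_exponent_le (by linarith [abs_nonneg u]) (Nat.le_ceil μ)
    have h4 : (1 + |u|) ^ (-(2 : ℝ)) = ((1 + |u|) ^ 2)⁻¹ := by
      rw [Real.rpow_neg (by positivity)]
      norm_cast
    rw [h4, ← div_eq_mul_inv, le_div_iff₀ (by positivity)]
    have h5 := hb u
    rw [pow_add] at h5
    rw [Real.rpow_natCast] at h3
    calc ‖ker w u‖ * (1 + |u|) ^ μ * (1 + |u|) ^ 2 ≤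
          ‖ker w u‖ * (1 + |u|) ^ ⌈μ⌉₊ * (1 + |u|) ^ 2 := by gcongr
      _ = ‖ker w u‖ * ((1 + |u|) ^ ⌈μ⌉₊ * (1 + |u|) ^ 2) := by ring
      _ ≤ C := h5

lemma card_grid {c x ρ : ℝ} (hc : 0 < c) (hρ : 0 ≤ ρ) (S : Finset ℕ)
    (hS : ∀ n ∈ S, |c * n - x| ≤ ρ) : (S.card : ℝ) ≤ 2 * ρ / c + 1 := by
  rcases S.eq_empty_or_nonempty with rfl | hne
  · simp; positivity
  set a := S.min' hne
  set b := S.max' hne
  have hsub : S ⊆ Finset.Icc a b := fun n hn => Finset.mem_Icc.2 ⟨S.min'_le n hn, S.le_max' n hn⟩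
  have h2 := Finset.card_le_card hsub
  rw [Nat.card_Icc] at h2
  have hab : a ≤ b := S.min'_le_max' hne
  have ha := hS a (S.min'_mem hne)
  have hb := hS b (S.max'_mem hne)
  rw [abs_le] at ha hb
  have h3 : (S.card : ℝ) ≤ ((b + 1 - a : ℕ) : ℝ) := by exact_mod_cast h2
  have h4 : ((b + 1 - a : ℕ) : ℝ) = (b : ℝ) - a + 1 := by
    rw [Nat.cast_sub (by omega)]; push_cast; ring
  have h5 : (b : ℝ) - a ≤ 2 * ρ / c := by
    rw [le_div_iff₀ hc]
    nlinarith [ha.1, hb.2]
  rw [h4] at h3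
  linarith

lemma tw_eq (s0 τ : ℝ) {b : Eis} (hb : IsPrim b) : tw s0 τ b =
    (Real.exp (-s0 * Real.log (nm b)) : ℂ) * osc τ (Real.log (nm b)) := by
  unfold tw osc
  have hn := one_le_nm' hb
  have h1 : (nm b : ℂ) = ((nm b : ℝ) : ℂ) := by push_cast; rfl
  have h2 : (nm b : ℂ) ≠ 0 := by
    rw [h1]; exact_mod_cast (by linarith : (nm b : ℝ) ≠ 0)
  rw [Complex.cpow_def_of_ne_zero h2, h1, ← Complex.ofReal_log (by linarith), Complex.ofReal_exp,
    ← Complex.exp_add]
  congr 1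
  push_cast
  ring

/-- the twisted cut-off -/
def gs (h : ℝ → ℝ) (s0 x : ℝ) : ℂ := cx h x * (Real.exp (-s0 * x) : ℂ)

lemma cd_gs {h : ℝ → ℝ} (hh : ContDiff ℝ ∞ h) (s0 : ℝ) : ContDiff ℝ ∞ (gs h s0) := by
  unfold gs
  apply (cd_cx hh).mul
  have : ContDiff ℝ ∞ fun x : ℝ => Real.exp (-s0 * x) := by fun_prop
  exact Complex.ofRealCLM.contDiff.comp this

lemma cs_gs {h : ℝ → ℝ} (hh : HasCompactSupport h) (s0 : ℝ) : HasCompactSupport (gs h s0) :=
  (cs_cx hh).mul_right

open Classical in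
/-- the grid expansion -/
lemma cfa_expand {h : ℝ → ℝ} {c : ℝ} (hpu : PU h c) {Mo : Eis} {χ : Eis → ℂ} (hχ : HC Mo χ)
    (l : ℤ) {R : ℝ} (hR : ∀ u, cx h u ≠ 0 → |u| ≤ R) (s0 z α t τ : ℝ) {a b : Eis}
    (ha : IsPrim a) (hb : IsPrim b) (h1 : α ≤ Real.log (nm a)) (h2 : Real.log (nm a) ≤ α + 1)
    (S : Finset ℕ) (hS : ∀ n : ℕ, |c * n - (z - α)| ≤ 2 * R + 1 → n ∈ S) :
    cfa h χ l (Real.exp z) t (a * b) * tw s0 τ b = ∑ n ∈ S, ∫ u : ℝ, ker (gs h s0) u *
      (((χ a * ang l a * osc t (Real.log (nm a))) *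
        ((Real.exp (-s0 * (z - Real.log (nm a))) : ℂ) * osc u (-(z - Real.log (nm a))))) *
        cfa h χ l (Real.exp (c * n)) (t + τ + u) b) := by
  set x := Real.log (nm b) with hx
  set z' := z - Real.log (nm a) with hz'
  have hx0 : 0 ≤ x := log_nm_nonneg' hb
  have hna := one_le_nm' ha
  have hR' : ∀ u, h u ≠ 0 → |u| ≤ R := fun u hu => hR u (by
    unfold cx
    exact_mod_cast hu)
  have hone := hpu.one x hx0
  have hz1 : z - α - 1 ≤ z' := by rw [hz']; linarith
  have hz2 : z' ≤ z - α := by rw [hz']; linarith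
  have h3 : h (x - z') = ∑ n ∈ S, h (x - c * n) * h (x - z') := by
    have h4 : ∑' n : ℕ, h (x - c * n) * h (x - z') = ∑ n ∈ S, h (x - c * n) * h (x - z') := by
      apply tsum_eq_sum
      intro n hn
      by_contra h0
      apply hn
      apply hS
      have ha' := hR' _ (left_ne_zero_of_mul h0)
      have hb' := hR' _ (right_ne_zero_of_mul h0)
      rw [abs_le] at ha' hb' ⊢
      constructor <;> linarith [ha'.1, ha'.2, hb'.1, hb'.2]
    rw [← h4, tsum_mul_right, hone, one_mul]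
  have hinv := inversion_smooth (cd_gs hpu.cd s0) (cs_gs hpu.cs s0) (x - z')
  have e1 : Real.log (Real.exp z / nm a) = z' := by
    rw [Real.log_div (Real.exp_pos z).ne' (by linarith), Real.log_exp]
  rw [cfa_mul hχ l ha (Real.exp_pos z)]
  have key : ∀ n : ℕ, ∫ u : ℝ, ker (gs h s0) u *
      (((χ a * ang l a * osc t (Real.log (nm a))) *
        ((Real.exp (-s0 * z') : ℂ) * osc u (-z'))) *
        cfa h χ l (Real.exp (c * n)) (t + τ + u) b) =
      (χ a * ang l a * osc t (Real.log (nm a))) * (Real.exp (-s0 * z') : ℂ) *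
        (End699.ext χ b * ang l b * (osc (t + τ) x * (h (x - c * n) : ℂ))) * gs h s0 (x - z') := by
    intro n
    have e2 : ∀ u : ℝ, ker (gs h s0) u *
      (((χ a * ang l a * osc t (Real.log (nm a))) *
        ((Real.exp (-s0 * z') : ℂ) * osc u (-z'))) *
        cfa h χ l (Real.exp (c * n)) (t + τ + u) b) =
        ((χ a * ang l a * osc t (Real.log (nm a))) * (Real.exp (-s0 * z') : ℂ) *
        (End699.ext χ b * ang l b * (osc (t + τ) x * (h (x - c * n) : ℂ)))) *
          (ker (gs h s0) u * osc u (x - z')) := by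
      intro u
      unfold cfa cx
      rw [Real.log_exp, osc_add_left (t + τ) u, ← hx]
      have e3 : osc u (x - z') = osc u x * osc u (-z') := by
        rw [← osc_add_right]; rfl
      rw [e3]
      ring
    simp_rw [e2]
    rw [integral_const_mul, hinv]
  rw [Finset.sum_congr rfl fun n _ => key n]
  unfold cfa
  rw [e1, ← hx, tw_eq s0 τ hb, ← hx]
  have e4 : ∑ n ∈ S, (χ a * ang l a * osc t (Real.log (nm a))) * (Real.exp (-s0 * z') : ℂ) *
        (End699.ext χ b * ang l b * (osc (t + τ) x * (h (x - c * n) : ℂ))) * gs h s0 (x - z') =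
      (χ a * ang l a * osc t (Real.log (nm a))) * (End699.ext χ b * ang l b * osc (t + τ) x) *
        ((Real.exp (-s0 * z') : ℂ) * (Real.exp (-s0 * (x - z')) : ℂ)) *
        ((∑ n ∈ S, h (x - c * n) * h (x - z') : ℝ) : ℂ) := by
    push_cast
    rw [Finset.mul_sum]
    refine Finset.sum_congr rfl fun n _ => ?_
    unfold gs cx
    push_cast
    ring
  rw [e4, ← h3, ← Complex.ofReal_mul, ← Real.exp_add, osc_add_left]
  have e5 : -s0 * z' + -s0 * (x - z') = -s0 * x := by ring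
  rw [e5]
  unfold cx
  ring

lemma continuous_cfa' (h : ℝ → ℝ) (χ : Eis → ℂ) (l : ℤ) (Y : ℝ) (b : Eis) :
    Continuous fun t => cfa h χ l Y t b := by
  unfold cfa
  exact continuous_const.mul ((continuous_osc_left _).mul continuous_const)

lemma norm_cfa_indep (h : ℝ → ℝ) (χ : Eis → ℂ) (l : ℤ) (Y t : ℝ) (b : Eis) :
    ‖cfa h χ l Y t b‖ = ‖cfa h χ l Y 0 b‖ := by
  unfold cfa
  simp only [norm_mul, norm_osc]

open Classical in
theorem split_pc {h : ℝ → ℝ} {c : ℝ} (hpu : PU h c) {Mo : Eis} {χ : Eis → ℂ} (hχ : HC Mo χ)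
    (l : ℤ) {R : ℝ} (hR0 : 0 ≤ R) (hR : ∀ u, cx h u ≠ 0 → |u| ≤ R) {μ : ℝ} (hμ : 0 ≤ μ)
    {ε : ℝ} (s0 : ℝ) (hε : 0 < ε) :
    ∃ C : ℝ, 1 ≤ C ∧ SplitAt (pc h χ l μ) (2 * R + 2) μ ε s0 C := by
  set I : ℝ := ∫ u, ‖ker (gs h s0) u‖ * (1 + |u|) ^ μ with hI
  have hI0 : 0 ≤ I := integral_nonneg fun u => by positivity
  have hcpos := hpu.cpos
  set CS : ℝ := 2 * (2 * R + 1) / c + 1 with hCS
  have hCS0 : 0 ≤ CS := by positivity
  refine ⟨CS * I * Real.exp |s0| + 1, by
    have : 0 ≤ CS * I * Real.exp |s0| := by positivity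
    linarith, ?_⟩
  intro j α τ ι _ T v M hM hT hb
  rcases T.eq_empty_or_nonempty with hemp | ⟨p0, hp0⟩
  · rw [hemp, Finset.sum_empty, norm_zero]
    have : 0 ≤ (pc h χ l μ).ht j := by
      have e : (pc h χ l μ).ht j = (1 + |j.2.1|) ^ μ := rfl
      rw [e]; positivity
    positivity
  have hα : -1 ≤ α := by
    have h1 := (hT p0 hp0).2.2.2.2
    have h2 := log_nm_nonneg' (hT p0 hp0).1
    linarith
  set z := j.1 with hz
  set s := j.2.1 with hs
  set t0 := j.2.2 with ht0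
  set t := t0 + s with ht
  set N := ⌈(|z - α| + 2 * R + 1) / c⌉₊ with hN
  set S : Finset ℕ := (Finset.range (N + 1)).filter (fun n => |c * n - (z - α)| ≤ 2 * R + 1) with hS
  have hSm : ∀ n : ℕ, |c * n - (z - α)| ≤ 2 * R + 1 → n ∈ S := by
    intro n hn
    rw [hS, Finset.mem_filter, Finset.mem_range, Nat.lt_succ_iff]
    refine ⟨?_, hn⟩
    have h1 : (n : ℝ) ≤ (|z - α| + 2 * R + 1) / c := by
      rw [le_div_iff₀ hcpos]
      rw [abs_le] at hn
      have := le_abs_self (z - α)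
      linarith [hn.2]
    exact_mod_cast h1.trans (Nat.le_ceil _)
  have hScard : (S.card : ℝ) ≤ CS := by
    apply card_grid hcpos (by linarith) S (x := z - α)
    intro n hn
    exact (Finset.mem_filter.1 hn).2
  set E : ℝ := Real.exp (-s0 * (z - α)) * Real.exp |s0| with hE
  have hE0 : 0 < E := by positivity
  -- the coefficient
  set κ : ℝ → Eis → ℂ := fun u a => if α ≤ Real.log (nm a) ∧ Real.log (nm a) ≤ α + 1 ∧ IsPrim a then
      (E : ℂ)⁻¹ * ((χ a * ang l a * osc t (Real.log (nm a))) *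
        ((Real.exp (-s0 * (z - Real.log (nm a))) : ℂ) * osc u (-(z - Real.log (nm a))))) else 0
    with hκ
  have hκ1 : ∀ u a, ‖κ u a‖ ≤ 1 := by
    intro u a
    simp only [hκ]
    split_ifs with hc
    · rw [norm_mul, norm_inv, Complex.norm_real, Real.norm_of_nonneg hE0.le, inv_mul_le_iff₀ hE0,
        mul_one]
      simp only [norm_mul, norm_osc, Complex.norm_real, mul_one, Real.norm_of_nonneg
        (Real.exp_pos _).le]
      have b1 : ‖χ a‖ ≤ 1 := hχ.char.norm_le hc.2.2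
      have b2 : ‖ang l a‖ ≤ 1 := (ang_isChar l).norm_le hc.2.2
      have b3 : Real.exp (-s0 * (z - Real.log (nm a))) ≤ E := by
        rw [hE, ← Real.exp_add]
        apply Real.exp_le_exp.2
        have h5 : |(-s0) * (α - Real.log (nm a))| ≤ |s0| * 1 := by
          rw [abs_mul, abs_neg]
          gcongr
          rw [abs_le]; constructor <;> linarith [hc.1, hc.2.1]
        have h6 := le_abs_self ((-s0) * (α - Real.log (nm a)))
        have h7 : -s0 * (z - Real.log (nm a)) = -s0 * (z - α) + (-s0) * (α - Real.log (nm a)) := by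
          ring
        rw [h7]
        linarith
      calc ‖χ a‖ * ‖ang l a‖ * Real.exp (-s0 * (z - Real.log (nm a)))
          ≤ 1 * 1 * E := by gcongr
        _ = E := by ring
    · simp
  have hg := cd_gs hpu.cd s0
  have hgs := cs_gs hpu.cs s0
  have hki : Integrable (ker (gs h s0)) := ker_integrable hg hgs
  -- the vector valued integrand
  set Fv : ℕ → ℝ → EuclideanSpace ℂ ι := fun n u =>
    ∑ p ∈ T, (κ u p.1 * cfa h χ l (Real.exp (c * n)) (t + τ + u) p.2) • v p.1 p.2 with hFv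
  have hterm : ∀ (n : ℕ) (p : Eis × Eis), Integrable (fun u : ℝ => ker (gs h s0) u *
      (((χ p.1 * ang l p.1 * osc t (Real.log (nm p.1))) *
        ((Real.exp (-s0 * (z - Real.log (nm p.1))) : ℂ) * osc u (-(z - Real.log (nm p.1))))) *
        cfa h χ l (Real.exp (c * n)) (t + τ + u) p.2)) := by
    intro n p
    refine hki.mul_bdd (c := ‖(χ p.1 * ang l p.1 * osc t (Real.log (nm p.1))) *
        (Real.exp (-s0 * (z - Real.log (nm p.1))) : ℂ)‖ * ‖cfa h χ l (Real.exp (c * n)) 0 p.2‖)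
      ?_ (Filter.Eventually.of_forall fun u => ?_)
    · apply Continuous.aestronglyMeasurable
      refine Continuous.mul ?_ ((continuous_cfa' h χ l _ p.2).comp
        (continuous_const.add continuous_id))
      exact continuous_const.mul (continuous_const.mul (continuous_osc_left _))
    · rw [norm_mul, norm_cfa_indep]
      apply le_of_eq
      simp only [norm_mul, norm_osc, mul_one]
  have hexp : ∑ p ∈ T, ((pc h χ l μ).w j (p.1 * p.2) * tw s0 τ p.2) • v p.1 p.2 =
      ∑ n ∈ S, ∫ u : ℝ, (ker (gs h s0) u * E) • Fv n u := by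
    have e1 : ∀ p ∈ T, ((pc h χ l μ).w j (p.1 * p.2) * tw s0 τ p.2) • v p.1 p.2 =
        ∑ n ∈ S, ∫ u : ℝ, (ker (gs h s0) u *
      (((χ p.1 * ang l p.1 * osc t (Real.log (nm p.1))) *
        ((Real.exp (-s0 * (z - Real.log (nm p.1))) : ℂ) * osc u (-(z - Real.log (nm p.1))))) *
        cfa h χ l (Real.exp (c * n)) (t + τ + u) p.2)) • v p.1 p.2 := by
      intro p hp
      obtain ⟨q1, q2, q3, q4, q5⟩ := hT p hp
      have e2 : (pc h χ l μ).w j (p.1 * p.2) = cfa h χ l (Real.exp z) t (p.1 * p.2) := rfl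
      rw [e2, cfa_expand hpu hχ l hR s0 z α t τ q1 q2 q4 q5 S hSm, Finset.sum_smul]
      refine Finset.sum_congr rfl fun n _ => ?_
      rw [integral_smul_const]
    rw [Finset.sum_congr rfl e1, Finset.sum_comm]
    refine Finset.sum_congr rfl fun n _ => ?_
    rw [← integral_finsetSum _ fun p _ => (hterm n p).smul_const _]
    congr 1
    funext u
    rw [hFv]
    simp only
    rw [Finset.smul_sum]
    refine Finset.sum_congr rfl fun p hp => ?_
    obtain ⟨q1, q2, q3, q4, q5⟩ := hT p hp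
    rw [smul_smul]
    congr 1
    simp only [hκ]
    rw [if_pos ⟨q4, q5, q1⟩]
    have hEc : (E : ℂ) ≠ 0 := by exact_mod_cast hE0.ne'
    field_simp
  rw [hexp]
  have hbound : ∀ n ∈ S, ‖∫ u : ℝ, (ker (gs h s0) u * E) • Fv n u‖ ≤
      I * (E * ((1 + |τ|) ^ μ * M * (1 + |s|) ^ μ)) := by
    intro n hn
    rw [hI, ← integral_mul_const]
    apply norm_integral_le_of_norm_le
    · exact (ker_int_pow hg hgs μ).mul_const _
    refine Filter.Eventually.of_forall fun u => ?_
    rw [norm_smul, norm_mul, Complex.norm_real, Real.norm_of_nonneg hE0.le]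
    have hnS := (Finset.mem_filter.1 hn).2
    rw [abs_le] at hnS
    have h1 := hb (κ u) (hκ1 u) (c * n, s + τ + u, t0) (by
        have e : (pc h χ l μ).good (c * n, s + τ + u, t0) = (0 ≤ c * (n : ℝ)) := rfl
        rw [e]; positivity) (by
        refine ⟨?_, rfl⟩
        simp only
        rw [← hz]
        linarith [hnS.2]) (by
        have e : (pc h χ l μ).len (c * n, s + τ + u, t0) = c * n := rfl
        have e' : (pc h χ l μ).len j = z := rfl
        rw [e, e']
        linarith [hnS.2]) (by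
        have e : (pc h χ l μ).len (c * n, s + τ + u, t0) = c * n := rfl
        have e' : (pc h χ l μ).len j = z := rfl
        rw [e, e']
        linarith [hnS.1])
    have e3 : (pc h χ l μ).ht (c * n, s + τ + u, t0) = (1 + |s + τ + u|) ^ μ := rfl
    have e4 : ∀ b, (pc h χ l μ).w (c * n, s + τ + u, t0) b =
        cfa h χ l (Real.exp (c * n)) (t + τ + u) b := by
      intro b
      have : t + τ + u = t0 + (s + τ + u) := by rw [ht]; ring
      rw [this]
      rfl
    simp_rw [e4] at h1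
    rw [e3] at h1
    have h2 : (1 + |s + τ + u|) ^ μ ≤ (1 + |s|) ^ μ * (1 + |τ|) ^ μ * (1 + |u|) ^ μ := by
      have h3 := Two320.pow_add_abs (s + τ) u μ hμ
      have h4 := Two320.pow_add_abs s τ μ hμ
      calc (1 + |s + τ + u|) ^ μ ≤ (1 + |s + τ|) ^ μ * (1 + |u|) ^ μ := h3
        _ ≤ _ := by gcongr
    calc ‖ker (gs h s0) u‖ * E * ‖Fv n u‖
        ≤ ‖ker (gs h s0) u‖ * E * (M * ((1 + |s|) ^ μ * (1 + |τ|) ^ μ * (1 + |u|) ^ μ)) := by
          gcongr
          exact h1.trans (mul_le_mul_of_nonneg_left h2 hM)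
      _ = _ := by ring
  refine (norm_sum_le _ _).trans ((Finset.sum_le_sum hbound).trans ?_)
  rw [Finset.sum_const, nsmul_eq_mul]
  have e5 : (pc h χ l μ).ht j = (1 + |s|) ^ μ := rfl
  have e6 : (pc h χ l μ).len j = z := rfl
  rw [e5, e6]
  have h7 : 1 ≤ Real.exp (ε * |α|) := Real.one_le_exp (by positivity)
  calc (S.card : ℝ) * (I * (E * ((1 + |τ|) ^ μ * M * (1 + |s|) ^ μ)))
      ≤ CS * (I * (E * ((1 + |τ|) ^ μ * M * (1 + |s|) ^ μ))) := by gcongr
    _ = (CS * I * Real.exp |s0|) * 1 * Real.exp (-s0 * (z - α)) * (1 + |τ|) ^ μ * M *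
        (1 + |s|) ^ μ := by rw [hE]; ring
    _ ≤ (CS * I * Real.exp |s0| + 1) * Real.exp (ε * |α|) * Real.exp (-s0 * (z - α)) *
        (1 + |τ|) ^ μ * M * (1 + |s|) ^ μ := by
        gcongr
        linarith

/-- **one smooth piece is a closed family** -/
theorem pc_ok {h : ℝ → ℝ} {c : ℝ} (hpu : PU h c) {Mo : Eis} {χ : Eis → ℂ} (hχ : HC Mo χ)
    (l : ℤ) {R : ℝ} (hR0 : 0 ≤ R) (hR : ∀ u, cx h u ≠ 0 → |u| ≤ R) {μ : ℝ} (hμ : 0 ≤ μ) :
    (pc h χ l μ).Ok (2 * R + 2) μ where
  R0 := by linarith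
  A0 := hμ
  ht1 j := by
    have e : (pc h χ l μ).ht j = (1 + |j.2.1|) ^ μ := rfl
    rw [e]
    exact Real.one_le_rpow (by linarith [abs_nonneg j.2.1]) hμ
  prim j n hn := by
    by_contra h0
    exact hn (cfa_prim h0)
  supp j n hn := by
    have e : (pc h χ l μ).w j n = cfa h χ l (Real.exp j.1) (j.2.2 + j.2.1) n := rfl
    have e' : (pc h χ l μ).len j = j.1 := rfl
    rw [e] at hn
    unfold cfa at hn
    have h1 := right_ne_zero_of_mul (right_ne_zero_of_mul hn)
    rw [Real.log_exp] at h1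
    have := hR _ h1
    rw [e']
    linarith
  bd ε hε := by
    obtain ⟨C, hC⟩ := hpu.cs.exists_bound_of_continuous hpu.cd.continuous
    refine ⟨max C 1, le_max_right _ _, fun j n => ?_⟩
    have e : (pc h χ l μ).w j n = cfa h χ l (Real.exp j.1) (j.2.2 + j.2.1) n := rfl
    rw [e]
    by_cases hn : IsPrim n
    · have h1 := one_le_nm' hn
      unfold cfa
      simp only [norm_mul, norm_osc, one_mul, End699.ext, if_pos hn]
      have b1 : ‖χ n‖ ≤ 1 := hχ.char.norm_le hn
      have b2 : ‖ang l n‖ ≤ 1 := (ang_isChar l).norm_le hn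
      have b3 : ‖cx h (Real.log (nm n) - Real.log (Real.exp j.1))‖ ≤ C := by
        unfold cx
        rw [Complex.norm_real]
        exact hC _
      have b4 : (1 : ℝ) ≤ (nm n : ℝ) ^ ε := Real.one_le_rpow h1 hε.le
      have b5 : 0 ≤ C := (norm_nonneg _).trans b3
      calc ‖χ n‖ * ‖ang l n‖ * ‖cx h (Real.log (nm n) - Real.log (Real.exp j.1))‖
          ≤ 1 * 1 * C := by gcongr
        _ ≤ max C 1 * 1 := by
            have := le_max_left C 1
            linarith
        _ ≤ _ := by gcongr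
    · rw [cfa_prim hn, norm_zero]; positivity
  dom_refl j := ⟨by linarith, rfl⟩
  dom_mono r r' j j' hr h := ⟨by have := h.1; linarith, h.2⟩
  dom_trans r r' j j' j'' h h' := ⟨by have := h.1; have := h'.1; linarith, h'.2.trans h.2⟩
  split ε s0 hε := split_pc hpu hχ l hR0 hR hμ s0 hε

end Crest.Agent.R017.TP320
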