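import Crest.Agent.R017.TPOk_571
import Crest.Agent.R017.HP3_842
import Crest.Agent.R017.EndO_699

/-!
# Row 17: the standard coefficient types, the standard pieces (helper571)

* `tU : Typ UT` : the types `one, mu, sq, pr, del` of helper842
* `Typ.ofMul`, `Typ.ofPP` : multiplicative functions, functions supported on prime powers
* `UA` : the family of ALL characters, ALL base heights, ALL cut-offs of a class, all types; `ua_ok`
* `Ok.comap` : transport of closedness
* `FP` : the family of the typed pieces `HP842.pc h P`; `fp_ok`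
* `cfa_eq_pc` : the pieces of helper939
-/

set_option autoImplicit false

noncomputable section

open Complex MeasureTheory
open scoped ComplexConjugate ContDiff

namespace Crest.Agent.R017.TPOk571

open Crest.Agent.R012 Crest.Agent.R012.Eis Crest.Agent.R012.LS2 Crest.Agent.R012.Gauss880
open Crest.Agent.R012.Div277 Crest.Agent.R012.Weight600 Crest.Agent.R012.Mob705
open Crest.Agent.R012.PSer47 Crest.Agent.R017.End699 Crest.Agent.R017.FE47
open Crest.Agent.R017.TP320 Crest.Agent.R017.CM106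
open Crest.Agent.R017.Two939 (cfa)
open Crest.Agent.R017.HP842 (UT uv Pc norm_uv_le)
open Crest.Agent.R017.HSep813 (gw)

/-! ### types -/

instance : Fintype UT := ⟨{.one, .mu, .sq, .pr, .del}, fun x => by cases x <;> decide⟩

/-- splitting coefficients -/
def kU : UT → UT → Eis → ℂ
  | .one, .one, a => uv .one a
  | .mu, .mu, a => uv .mu a
  | .sq, .sq, a => uv .sq a
  | .pr, .pr, a => uv .del a
  | .pr, .del, a => uv .pr a
  | .del, .del, a => uv .del a
  | _, _, _ => 0

/-- `v'` arises from `v` -/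
def relU (v' v : UT) : Prop := v' = v ∨ (v = .pr ∧ v' = .del)

lemma norm_kU_le (v v' : UT) (n : Eis) : ‖kU v v' n‖ ≤ 1 := by
  cases v <;> cases v' <;> simp only [kU] <;> first | exact norm_uv_le _ _ | simp

lemma sum_UT {A : Type*} [AddCommMonoid A] (f : UT → A) :
    ∑ v : UT, f v = f .one + (f .mu + (f .sq + (f .pr + f .del))) := by
  have e : (Finset.univ : Finset UT) = {.one, .mu, .sq, .pr, .del} := rfl
  rw [e, Finset.sum_insert (by decide), Finset.sum_insert (by decide), Finset.sum_insert (by decide),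
    Finset.sum_insert (by decide), Finset.sum_singleton]

lemma mul_eq_one_prim {a b : Eis} (ha : IsPrim a) (hb : IsPrim b) :
    a * b = 1 ↔ a = 1 ∧ b = 1 := HP842.mul_eq_one ha hb

lemma prime_mul_prim {a b : Eis} (ha : IsPrim a) (hb : IsPrim b) :
    Prime (a * b) ↔ (a = 1 ∧ Prime b) ∨ (Prime a ∧ b = 1) := by
  constructor
  · intro h
    rcases h.irreducible.isUnit_or_isUnit rfl with h1 | h1
    · have := isPrim_eq_one_of_isUnit ha h1
      subst this
      rw [one_mul] at h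
      exact Or.inl ⟨rfl, h⟩
    · have := isPrim_eq_one_of_isUnit hb h1
      subst this
      rw [mul_one] at h
      exact Or.inr ⟨h, rfl⟩
  · rintro (⟨rfl, h⟩ | ⟨h, rfl⟩)
    · rwa [one_mul]
    · rwa [mul_one]

lemma uv_sq_eq (n : Eis) : uv .sq n = ((muE n ^ 2 : ℤ) : ℂ) := by
  rw [muE_sq]
  simp only [uv]
  split_ifs <;> simp

theorem uv_mul (v : UT) (a b : Eis) (ha : IsPrim a) (hb : IsPrim b) (hab : IsCoprime a b) :
    uv v (a * b) = ∑ v' : UT, kU v v' a * uv v' b := by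
  classical
  rw [sum_UT]
  cases v
  · simp [kU, uv]
  · simp only [kU, zero_mul, zero_add, add_zero]
    simp only [uv]
    rw [muE_mul ha.ne_zero hb.ne_zero hab]
    push_cast; ring
  · simp only [kU, zero_mul, zero_add, add_zero]
    rw [uv_sq_eq, uv_sq_eq, uv_sq_eq, muE_mul ha.ne_zero hb.ne_zero hab]
    push_cast; ring
  · simp only [kU, zero_mul, zero_add]
    simp only [uv]
    by_cases h : Prime (a * b)
    · rw [if_pos h]
      rcases (prime_mul_prim ha hb).1 h with ⟨rfl, h2⟩ | ⟨h2, rfl⟩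
      · rw [if_pos rfl, if_pos h2, if_neg not_prime_one]; simp
      · rw [if_pos h2, if_pos rfl, if_neg not_prime_one]; simp
    · rw [if_neg h]
      have h1 := mt (prime_mul_prim ha hb).2 h
      push Not at h1
      by_cases ha1 : a = 1
      · rw [if_pos ha1, if_neg (h1.1 ha1), mul_zero, zero_add, ha1, if_neg not_prime_one, zero_mul]
      · rw [if_neg ha1, zero_mul, zero_add]
        by_cases ha2 : Prime a
        · rw [if_neg (h1.2 ha2), mul_zero]
        · rw [if_neg ha2, zero_mul]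
  · simp only [kU, zero_mul, zero_add]
    simp only [uv]
    by_cases h : a * b = 1
    · obtain ⟨h1, h2⟩ := (mul_eq_one_prim ha hb).1 h
      rw [if_pos h, if_pos h1, if_pos h2, one_mul]
    · rw [if_neg h]
      by_cases ha1 : a = 1
      · have hb1 : b ≠ 1 := fun hb1 => h ((mul_eq_one_prim ha hb).2 ⟨ha1, hb1⟩)
        rw [if_neg hb1, mul_zero]
      · rw [if_neg ha1, zero_mul]

lemma one_le_rpow_nm {n : Eis} (hn : IsPrim n) {ε : ℝ} (hε : 0 < ε) : (1 : ℝ) ≤ (nm n : ℝ) ^ ε :=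
  Real.one_le_rpow (one_le_nm' hn) hε.le

/-- **the standard types** -/
def tU : Typ UT where
  u := uv
  k := kU
  rel := relU
  refl _ := Or.inl rfl
  trans v v' v'' h h' := by
    rcases h' with rfl | ⟨h1, h2⟩
    · exact h
    · rcases h with rfl | ⟨h3, h4⟩
      · exact Or.inr ⟨h1, h2⟩
      · exfalso; rw [h1] at h4; exact absurd h4 (by decide)
  k_rel v v' a h := by
    cases v <;> cases v' <;> simp only [kU, ne_eq, not_true_eq_false] at h <;>
      first | exact Or.inl rfl | exact Or.inr ⟨rfl, rfl⟩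
  u_le ε hε := ⟨1, le_rfl, fun v n hn => by
    rw [one_mul]; exact (norm_uv_le v n).trans (one_le_rpow_nm hn hε)⟩
  k_le ε hε := ⟨1, le_rfl, fun v v' n hn => by
    rw [one_mul]; exact (norm_kU_le v v' n).trans (one_le_rpow_nm hn hε)⟩
  mul := uv_mul

/-- multiplicative functions -/
def Typ.ofMul (f : Eis → ℂ)
    (hf : ∀ a b, IsPrim a → IsPrim b → IsCoprime a b → f (a * b) = f a * f b)
    (hb : ∀ ε : ℝ, 0 < ε → ∃ C : ℝ, 1 ≤ C ∧ ∀ n, IsPrim n → ‖f n‖ ≤ C * (nm n : ℝ) ^ ε) :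
    Typ Unit where
  u _ := f
  k _ _ := f
  rel _ _ := True
  refl _ := trivial
  trans _ _ _ _ _ := trivial
  k_rel _ _ _ _ := trivial
  u_le ε hε := by
    obtain ⟨C, h1, h2⟩ := hb ε hε
    exact ⟨C, h1, fun _ n hn => h2 n hn⟩
  k_le ε hε := by
    obtain ⟨C, h1, h2⟩ := hb ε hε
    exact ⟨C, h1, fun _ _ n hn => h2 n hn⟩
  mul _ a b h1 h2 h3 := by
    rw [Finset.univ_unique, Finset.sum_singleton]
    exact hf a b h1 h2 h3

open Classical in
/-- functions supported on prime powers (`Λ`, `Λ/log`, ...): `true` = the function, `false` = unit -/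
def Typ.ofPP (g : Eis → ℂ) (h1 : g 1 = 0)
    (hg : ∀ a b, IsPrim a → IsPrim b → IsCoprime a b → a ≠ 1 → b ≠ 1 → g (a * b) = 0)
    (hb : ∀ ε : ℝ, 0 < ε → ∃ C : ℝ, 1 ≤ C ∧ ∀ n, IsPrim n → ‖g n‖ ≤ C * (nm n : ℝ) ^ ε) :
    Typ Bool where
  u v n := if v then g n else (if n = 1 then 1 else 0)
  k v v' a := if v then (if v' then (if a = 1 then 1 else 0) else g a) else
    (if v' then 0 else (if a = 1 then 1 else 0))
  rel v' v := v' = v ∨ (v = true ∧ v' = false)
  refl _ := Or.inl rfl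
  trans v v' v'' h h' := by
    cases v <;> cases v' <;> cases v'' <;> simp_all
  k_rel v v' a h := by
    cases v <;> cases v' <;> simp_all
  u_le ε hε := by
    obtain ⟨C, h1, h2⟩ := hb ε hε
    refine ⟨C, h1, fun v n hn => ?_⟩
    have h3 := one_le_rpow_nm hn hε
    have h4 : (1 : ℝ) ≤ C * (nm n : ℝ) ^ ε := by nlinarith
    cases v
    · simp only [Bool.false_eq_true, if_false]
      split_ifs
      · simpa using h4
      · simp only [norm_zero]; linarith
    · simpa using h2 n hn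
  k_le ε hε := by
    obtain ⟨C, h1, h2⟩ := hb ε hε
    refine ⟨C, h1, fun v v' n hn => ?_⟩
    have h3 := one_le_rpow_nm hn hε
    have h4 : (1 : ℝ) ≤ C * (nm n : ℝ) ^ ε := by nlinarith
    have h5 : ‖(if n = 1 then (1 : ℂ) else 0)‖ ≤ C * (nm n : ℝ) ^ ε := by
      split_ifs
      · simpa using h4
      · simp only [norm_zero]; linarith
    cases v <;> cases v'
    · simpa only [Bool.false_eq_true, if_false] using h5
    · simp only [Bool.false_eq_true, if_false, if_true, norm_zero]; linarith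
    · simpa using h2 n hn
    · simpa only [if_true] using h5
  mul v a b ha hb' hab := by
    rw [Fintype.sum_bool]
    cases v
    · simp only [Bool.false_eq_true, if_false, if_true, zero_mul, zero_add]
      by_cases h : a * b = 1
      · obtain ⟨h1, h2⟩ := (mul_eq_one_prim ha hb').1 h
        rw [if_pos h, if_pos h1, if_pos h2, one_mul]
      · rw [if_neg h]
        by_cases ha1 : a = 1
        · have hb1 : b ≠ 1 := fun hb1 => h ((mul_eq_one_prim ha hb').2 ⟨ha1, hb1⟩)
          rw [if_neg hb1, mul_zero]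
        · rw [if_neg ha1, zero_mul]
    · simp only [Bool.false_eq_true, if_false, if_true]
      by_cases ha1 : a = 1
      · subst ha1
        rw [if_pos rfl, one_mul, one_mul, h1, zero_mul, add_zero]
      · by_cases hb1 : b = 1
        · subst hb1
          rw [if_neg ha1, if_pos rfl, mul_one, zero_mul, zero_add, mul_one]
        · rw [if_neg ha1, if_neg hb1, hg a b ha hb' hab ha1 hb1, zero_mul, mul_zero, add_zero]

/-! ### the family of all characters, base heights and cut-offs of a class -/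

/-- all characters on the primary elements -/
abbrev AC := {χ : Eis → ℂ // IsChar χ}

/-- all cut-offs of a class -/
abbrev AW (R : ℝ) (D : ℕ → ℝ) := {W : ℝ → ℂ // Cls R D W}

/-- the character `n ↦ nm(n)^{it}` -/
lemma isChar_osc (t : ℝ) : IsChar fun n => osc t (Real.log (nm n)) where
  one := by simp [osc]
  mul a b ha hb := by rw [log_nm_mul ha hb, osc_add_right]
  norm a _ := Or.inr (norm_osc _ _)

/-- the characters with a base height -/
def chh (θ : ℝ × AC) (n : Eis) : ℂ := θ.2.1 n * osc θ.1 (Real.log (nm n))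

lemma isChar_chh (θ : ℝ × AC) : IsChar (chh θ) := θ.2.2.mul' (isChar_osc θ.1)

/-- the universal family: index `(z, s, (t0, ψ), W, u)` -/
def UA {h : ℝ → ℝ} {R : ℝ} {D : ℕ → ℝ} (hD : Cls R D (cx h)) (μ : ℝ) :
    Fam (Ix (ℝ × AC) (AW R D) UT) :=
  UP chh (fun om : AW R D => om.1) tU ⟨cx h, hD⟩ μ

/-- **the universal family is closed** -/
theorem ua_ok {h : ℝ → ℝ} {c : ℝ} (hpu : PU h c) {R : ℝ} (hR0 : 0 ≤ R) {D : ℕ → ℝ}
    (hD : Cls R D (cx h)) {μ : ℝ} (hμ : 0 ≤ μ) : (UA hD μ).Ok (2 * R + 2) μ :=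
  up_ok (χ := chh) (W := fun om : AW R D => om.1) (om0 := ⟨cx h, hD⟩)
    isChar_chh tU hpu rfl hR0 (fun om => om.2) hμ

/-! ### transport -/

/-- **transport of closedness** along a map of indices which lifts the good shortenings -/
theorem Ok.comap {J J' : Type} {Φ : Fam J} {Ψ : Fam J'} (f : J' → J)
    (hw : ∀ j n, Ψ.w j n = Φ.w (f j) n) (hlen : ∀ j, Ψ.len j = Φ.len (f j))
    (hht : ∀ j, Ψ.ht j = Φ.ht (f j)) {R A : ℝ} (hΦ : Φ.Ok R A)
    (hlift : ∀ j j₀, Φ.good j₀ → Φ.dom R j₀ (f j) → ∃ j', f j' = j₀ ∧ Ψ.good j' ∧ Ψ.dom R j' j)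
    (hrefl : ∀ j, Ψ.dom 0 j j) (hmono : ∀ r r' j j', r ≤ r' → Ψ.dom r j' j → Ψ.dom r' j' j)
    (htrans : ∀ r r' j j' j'', Ψ.dom r j' j → Ψ.dom r' j'' j' → Ψ.dom (r + r') j'' j) :
    Ψ.Ok R A where
  R0 := hΦ.R0
  A0 := hΦ.A0
  ht1 j := by rw [hht]; exact hΦ.ht1 _
  prim j n hn := hΦ.prim (f j) n (by rw [← hw]; exact hn)
  supp j n hn := by rw [hlen]; exact hΦ.supp (f j) n (by rw [← hw]; exact hn)
  bd ε hε := by
    obtain ⟨C, h1, h2⟩ := hΦ.bd ε hε
    exact ⟨C, h1, fun j n => by rw [hw]; exact h2 _ _⟩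
  dom_refl := hrefl
  dom_mono := hmono
  dom_trans := htrans
  split ε s0 hε := by
    obtain ⟨C, h1, h2⟩ := hΦ.split ε s0 hε
    refine ⟨C, h1, ?_⟩
    intro j α τ ι _ T v M hM hT hb
    have := h2 (f j) α τ ι T v M hM hT ?_
    · rw [hlen, hht]
      simp only [hw]
      exact this
    · intro κ hκ j₀ hg hd hl hm
      obtain ⟨j', e, hg', hd'⟩ := hlift j j₀ hg hd
      subst e
      have h3 := hb κ hκ j' hg' hd' (by rw [hlen, hlen]; exact hl) (by rw [hlen, hlen]; exact hm)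
      rw [hht] at h3
      simp only [hw] at h3
      exact h3

/-! ### the typed pieces of helper842 -/

/-- indices of the typed pieces -/
structure IP where
  u : UT
  ψ : AC
  z : ℝ
  s : ℝ
  t0 : ℝ

/-- the piece of an index -/
def IP.pc (j : IP) : Pc := ⟨j.u, j.ψ.1, Real.exp j.z, j.t0 + j.s⟩

lemma IP.pc_OK (j : IP) : j.pc.OK := ⟨j.ψ.2, Real.exp_pos _⟩

/-- every admissible piece is the piece of an index (`z = log Y`, any splitting `t = t0 + s`) -/
lemma exists_IP (P : Pc) (hP : P.OK) (t0 : ℝ) :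
    (⟨P.u, ⟨P.ψ, hP.ch⟩, Real.log P.Y, P.t - t0, t0⟩ : IP).pc = P := by
  obtain ⟨u, ψ, Y, t⟩ := P
  unfold IP.pc
  simp only [Pc.mk.injEq, true_and]
  exact ⟨Real.exp_log hP.Y0, by ring⟩

/-- **the family of the typed pieces** -/
def FP (h : ℝ → ℝ) (μ : ℝ) : Fam IP where
  w j := HP842.pc h j.pc
  len j := j.z
  ht j := (1 + |j.s|) ^ μ
  good j := 0 ≤ j.z
  dom r j' j := j'.z ≤ j.z + r ∧ j'.t0 = j.t0 ∧ j'.ψ = j.ψ ∧ relU j'.u j.u

/-- **the family of the typed pieces is closed** -/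
theorem fp_ok {h : ℝ → ℝ} {c : ℝ} (hpu : PU h c) {R : ℝ} (hR0 : 0 ≤ R)
    (hR : ∀ u, cx h u ≠ 0 → |u| ≤ R) {μ : ℝ} (hμ : 0 ≤ μ) : (FP h μ).Ok (2 * R + 2) μ := by
  obtain ⟨D, hD⟩ := cls_single (h := cx h) (Complex.ofRealCLM.contDiff.comp hpu.cd) hR
  refine Ok.comap (Φ := UA hD μ) (fun j : IP => ⟨j.z, j.s, (j.t0, j.ψ), ⟨cx h, hD⟩, j.u⟩)
    ?_ (fun _ => rfl) (fun _ => rfl) (ua_ok hpu hR0 hD hμ) ?_ ?_ ?_ ?_
  · intro j n
    have e : (UA hD μ).w ⟨j.z, j.s, (j.t0, j.ψ), ⟨cx h, hD⟩, j.u⟩ n =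
        (End699.ext (chh (j.t0, j.ψ)) n * uv j.u n) *
        (osc j.s (Real.log (nm n)) * cx h (Real.log (nm n) - j.z)) := rfl
    have e' : (FP h μ).w j n = HP842.pc h j.pc n := rfl
    rw [e, e']
    unfold HP842.pc
    by_cases hn : IsPrim n
    · rw [if_pos hn, ext_prim hn]
      unfold gw IP.pc chh
      simp only
      rw [Real.log_exp, osc_add_left]
      ring
    · rw [if_neg hn, ext_not_prim hn]; ring
  · rintro j ⟨z, s, ⟨t0, ψ⟩, om, v⟩ hg hd
    refine ⟨⟨v, ψ, z, s, t0⟩, ?_, hg.1, hd.1, ?_, ?_, hd.2.2.1⟩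
    · have : om = ⟨cx h, hD⟩ := hg.2
      rw [this]
    · exact congrArg Prod.fst hd.2.1
    · exact congrArg Prod.snd hd.2.1
  · intro j
    exact ⟨by linarith, rfl, rfl, Or.inl rfl⟩
  · intro r r' j j' hr h
    exact ⟨by have := h.1; linarith, h.2⟩
  · intro r r' j j' j'' h h'
    exact ⟨by have := h.1; have := h'.1; linarith, h'.2.1.trans h.2.1, h'.2.2.1.trans h.2.2.1,
      tU.trans _ _ _ h.2.2.2 h'.2.2.2⟩

/-- the pieces of helper939 -/
lemma cfa_eq_pc (h : ℝ → ℝ) (χ : Eis → ℂ) (l : ℤ) (Y t : ℝ) (n : Eis) :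
    cfa h χ l Y t n = HP842.pc h ⟨.one, fun n => χ n * ang l n, Y, t⟩ n := by
  unfold cfa HP842.pc gw
  by_cases hn : IsPrim n
  · rw [ext_prim hn, if_pos hn]; simp only [uv]; ring
  · rw [ext_not_prim hn, if_neg hn]; ring

end Crest.Agent.R017.TPOk571
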