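import Crest.Agent.R017.GrZ3_404
import Crest.Agent.R017.HBc_408

/-!
# Row 17, R8/P1: the mismatch at a difference, bias of the children discharged (helper791)

Adapted from 404's `GrZ3_404` / `GrZ4_404` (the tuple divides the modulus).

* `Md_Ae_x2`, `coreB_xd2` : 404's `Md_Ae_x`, `coreB_xd` with the premise `a i ∣ D * (cc g D * U)`
* **`coreB_xb`** : `CoreB` at a difference from the claims alone (408's `hbc` inside)
-/

set_option autoImplicit false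

noncomputable section

open Finset MeasureTheory
open scoped ComplexConjugate Classical

namespace Crest.Agent.R017.TPX791

open Crest.Agent.R012 Crest.Agent.R012.Eis
open Crest.Agent.R012.Div277 (tau dvs mem_dvs tau_le_rpow)
open Crest.Agent.R012.LS2 (S mem_S bl mem_bl)
open Crest.Agent.R012.Weight600 (osc norm_osc pw norm_pw)
open Crest.Agent.R017.CM106 (CS TG FS)
open Crest.Agent.R017.HP842 (Pc pc al cv Tu mem_Tu sc' scS sqc Th card_Tu_le Ker KS Kg ker_Kg KS_Kg)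
open Crest.Agent.R017.Rough381 (sh shS sh_OK VF nm_prodI)
open Crest.Agent.R017.Leg381 (Th_ne_zero FS_alW)
open Crest.Agent.R017.LegK545 (VK VK_Kg)
open Crest.Agent.R017.FE47 (PU cx)
open Crest.Agent.R017.Prov71 (CubeFree)
open Crest.Agent.R017.StA828 Crest.Agent.R017.StC828 Crest.Agent.R017.StF828
open Crest.Agent.R017.StB828 (one_le_nmR)
open Crest.Agent.R017.GrC828 Crest.Agent.R017.GrT828 Crest.Agent.R017.StG828
open Crest.Agent.R017.StJ319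
open Crest.Agent.R017.E3D579 (TE0)
open Crest.Agent.R017.E1551 (Adm)
open Crest.Agent.R017.DgA829 (lc)
open Crest.Agent.R017.E3Z548 (TN JV JVc mem_JV FH FH_nonneg LVn)
open Crest.Agent.R017.E3N146 (cLS cTT)
open Crest.Agent.R017.PX764 (Dk th md pC_pos)
open Crest.Agent.R017.RX241 (Md TG_sq_le)
open Crest.Agent.R017.GrG404 Crest.Agent.R017.GrK404
open Crest.Agent.R017.End699 (prin0)
open Crest.Agent.R017.ExT764 (Shf shY zeP)

/-- **the bias of the coefficient at a difference** -/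
lemma Md_Ae_x2 {h : ℝ → ℝ} {R : ℝ} (hR0 : 0 ≤ R) (hR : ∀ u, cx h u ≠ 0 → |u| ≤ R) {N : ℕ}
    {ι κ : Type} [Fintype ι] [Fintype κ] [DecidableEq ι] [DecidableEq κ]
    (hcard : Fintype.card ι + Fintype.card κ ≤ N) {s1 : ι → Pc} {s2 s3 : κ → Pc}
    (h1 : ∀ i, (s1 i).OK) (h2 : ∀ j, (s2 j).OK) (h3 : ∀ j, (s3 j).OK) (hs : SameT s2 s3) {Z : ℝ}
    (hZ : 0 ≤ Z) (hsup : ∀ n, sqc 1 (al h s1) n ≠ 0 → (nm n : ℝ) ≤ Z) {ζ : ℂ} {x : Eis → ℂ}
    (hx : ∀ n, x n = sqc 1 (al h s2) n - ζ * sqc 1 (al h s3) n) {E0 : ℝ} {c : Fin 5} {s : ℝ}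
    {g D Q e : Eis} (hg : IsPrim g) (hD : IsPrim D) (hQ : IsPrim Q) (he : IsPrim e) (heQ : e ∣ Q)
    (hgQ : g ∣ D * Q) (τ : ℝ) (r : Eis) {Eb : ℝ} (hEb : 0 ≤ Eb)
    (hb : ∀ a : ι ⊕ κ → Eis, (∀ i, IsPrim (a i)) → ∏ i, a i = g * (D * Q) →
      (∀ i, a i ∣ D * Q) → Squarefree (D * Q) → ∀ θ : ℝ, |θ| ≤ |s| →
      ‖Md (cdf h ζ τ θ s1 s2 s3 (D * Q) a) r‖ ^ 2 ≤ Eb) :
    ‖Md (fun m => Ae Z E0 (sqc 1 (al h s1)) x g c s e D (Q * m) * pw τ (nm m)) r‖ ^ 2 ≤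
      (((Tu ι g).card : ℝ) * ((Tu κ g).card * (Tu (ι ⊕ κ) (D * Q / g)).card)) ^ 2 * Eb := by
  obtain ⟨θ, hθs, hWok⟩ := wok5 E0 Z g c s
  set W := Wb (gt5 E0 Z g c) (q5 g c) s with hW
  obtain ⟨Y, hY, ha⟩ := afW_adm hR0 hR h1 h2 hcard W hZ hg hD e
  obtain ⟨Y', hY', ha'⟩ := afW_adm hR0 hR h1 h3 hcard W hZ hg hD e
  have f1 : FS (fun m => Ae Z E0 (sqc 1 (al h s1)) (sqc 1 (al h s2)) g c s e D (Q * m) *
      pw τ (nm m)) := FS_seq hY ha.sup hQ τ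
  have f2 : FS (fun m => Ae Z E0 (sqc 1 (al h s1)) (sqc 1 (al h s3)) g c s e D (Q * m) *
      pw τ (nm m)) := FS_seq hY' ha'.sup hQ τ
  have e1 : Md (fun m => Ae Z E0 (sqc 1 (al h s1)) x g c s e D (Q * m) * pw τ (nm m)) r =
      KS Km (fun m => Ae Z E0 (sqc 1 (al h s1)) (sqc 1 (al h s2)) g c s e D (Q * m) *
        pw τ (nm m)) r -
      ζ * KS Km (fun m => Ae Z E0 (sqc 1 (al h s1)) (sqc 1 (al h s3)) g c s e D (Q * m) *
        pw τ (nm m)) r := by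
    rw [Md_eq]
    refine RX241.KS_sub Km f1 f2 (fun n => ?_) r
    rw [Ae_sub Z E0 _ hx]
    ring
  have e2 := KS_afW Km hR h1 h2 hWok hZ hsup hg hD hQ he heQ hgQ τ r
  have e3 := KS_afW Km hR h1 h3 hWok hZ hsup hg hD hQ he heQ hgQ τ r
  have e2' : KS Km (fun m => Ae Z E0 (sqc 1 (al h s1)) (sqc 1 (al h s2)) g c s e D (Q * m) *
      pw τ (nm m)) r = _ := e2
  have e3' : KS Km (fun m => Ae Z E0 (sqc 1 (al h s1)) (sqc 1 (al h s3)) g c s e D (Q * m) *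
      pw τ (nm m)) r = _ := e3
  rw [e1, e2', e3']
  have e4 : ∀ (p : ι → Eis) (q : κ → Eis) (z : ι ⊕ κ → Eis), p ∈ Tu ι g → q ∈ Tu κ g →
      z ∈ Tu (ι ⊕ κ) (D * Q / g) →
      kf (W e D) s1 s2 p q z * (if Squarefree (D * Q) then KS Km (sqc (D * Q)
        (al h (shS (fun i => ht τ (fam θ s1 s2 i)) (fun i => Sum.elim p q i * z i)))) r else 0) -
      ζ * (kf (W e D) s1 s3 p q z * (if Squarefree (D * Q) then KS Km (sqc (D * Q)
        (al h (shS (fun i => ht τ (fam θ s1 s3 i)) (fun i => Sum.elim p q i * z i)))) r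
          else 0)) =
      kf (W e D) s1 s2 p q z * (if Squarefree (D * Q) then
        Md (cdf h ζ τ θ s1 s2 s3 (D * Q) (fun i => Sum.elim p q i * z i)) r else 0) := by
    intro p q z hp hq hz
    rw [kf_same hs]
    have hpr : ∀ i, IsPrim (Sum.elim p q i * z i) := by
      intro i
      refine IsPrim.mul ?_ (((mem_Tu).1 hz).1 i)
      rcases i with i | i
      · exact ((mem_Tu).1 hp).1 i
      · exact ((mem_Tu).1 hq).1 i
    split_ifs with hsq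
    · have g1 : FS (sqc (D * Q) (al h (shS (fun i => ht τ (fam θ s1 s2 i))
          (fun i => Sum.elim p q i * z i)))) :=
        FS_sqcal hR (fun i => sh_OK (ht_OK (fam_OK h1 h2 i)) (hpr i)) _
      have g2 : FS (sqc (D * Q) (al h (shS (fun i => ht τ (fam θ s1 s3 i))
          (fun i => Sum.elim p q i * z i)))) :=
        FS_sqcal hR (fun i => sh_OK (ht_OK (fam_OK h1 h3 i)) (hpr i)) _
      have g3 : Md (cdf h ζ τ θ s1 s2 s3 (D * Q) (fun i => Sum.elim p q i * z i)) r =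
          KS Km (sqc (D * Q) (al h (shS (fun i => ht τ (fam θ s1 s2 i))
            (fun i => Sum.elim p q i * z i)))) r -
          ζ * KS Km (sqc (D * Q) (al h (shS (fun i => ht τ (fam θ s1 s3 i))
            (fun i => Sum.elim p q i * z i)))) r := by
        rw [Md_eq]
        exact RX241.KS_sub Km g1 g2 (fun n => rfl) r
      rw [g3]
      ring
    · ring
  have e5 : (∑ p ∈ Tu ι g, ∑ q ∈ Tu κ g, ∑ z ∈ Tu (ι ⊕ κ) (D * Q / g),
      kf (W e D) s1 s2 p q z * (if Squarefree (D * Q) then KS Km (sqc (D * Q)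
        (al h (shS (fun i => ht τ (fam θ s1 s2 i)) (fun i => Sum.elim p q i * z i)))) r else 0)) -
      ζ * (∑ p ∈ Tu ι g, ∑ q ∈ Tu κ g, ∑ z ∈ Tu (ι ⊕ κ) (D * Q / g),
      kf (W e D) s1 s3 p q z * (if Squarefree (D * Q) then KS Km (sqc (D * Q)
        (al h (shS (fun i => ht τ (fam θ s1 s3 i)) (fun i => Sum.elim p q i * z i)))) r
          else 0)) =
      ∑ p ∈ Tu ι g, ∑ q ∈ Tu κ g, ∑ z ∈ Tu (ι ⊕ κ) (D * Q / g),
      kf (W e D) s1 s2 p q z * (if Squarefree (D * Q) then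
        Md (cdf h ζ τ θ s1 s2 s3 (D * Q) (fun i => Sum.elim p q i * z i)) r else 0) := by
    rw [mul_sum, ← sum_sub_distrib]
    refine sum_congr rfl fun p hp => ?_
    rw [mul_sum, ← sum_sub_distrib]
    refine sum_congr rfl fun q hq => ?_
    rw [mul_sum, ← sum_sub_distrib]
    exact sum_congr rfl fun z hz => e4 p q z hp hq hz
  rw [e5]
  -- the bound of one term
  have hrt : ∀ p ∈ Tu ι g, ∀ q ∈ Tu κ g, ∀ z ∈ Tu (ι ⊕ κ) (D * Q / g),
      ‖kf (W e D) s1 s2 p q z * (if Squarefree (D * Q) then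
        Md (cdf h ζ τ θ s1 s2 s3 (D * Q) (fun i => Sum.elim p q i * z i)) r else 0)‖ ≤
      Real.sqrt Eb := by
    intro p hp q hq z hz
    obtain ⟨p1, p2⟩ := (mem_Tu).1 hp
    obtain ⟨q1, q2⟩ := (mem_Tu).1 hq
    obtain ⟨z1, z2⟩ := (mem_Tu).1 hz
    have hk : ‖kf (W e D) s1 s2 p q z‖ ≤ 1 :=
      norm_kf_le (fun a => hWok.le _ _ _) h1 h2 p1 q1 z1
    rw [norm_mul]
    refine (mul_le_of_le_one_left (norm_nonneg _) hk).trans ?_
    split_ifs with hsq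
    · refine Real.le_sqrt_of_sq_le (hb _ (fun i => ?_) ?_ ?_ hsq θ hθs)
      · refine IsPrim.mul ?_ (z1 i)
        rcases i with i | i
        · exact p1 i
        · exact q1 i
      · rw [Finset.prod_mul_distrib, z2, Fintype.prod_sum_type]
        simp only [Sum.elim_inl, Sum.elim_inr]
        rw [p2, q2, mul_assoc]
        congr 1
        exact EuclideanDomain.mul_div_cancel' hg.ne_zero hgQ
      · intro i
        have hz : z i ∣ D * Q / g := by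
          rw [← z2]; exact Finset.dvd_prod_of_mem z (Finset.mem_univ i)
        have hpq : Sum.elim p q i ∣ g := by
          rcases i with i | i
          · rw [Sum.elim_inl, ← p2]; exact Finset.dvd_prod_of_mem p (Finset.mem_univ i)
          · rw [Sum.elim_inr, ← q2]; exact Finset.dvd_prod_of_mem q (Finset.mem_univ i)
        have h5 := mul_dvd_mul hpq hz
        rwa [EuclideanDomain.mul_div_cancel' hg.ne_zero hgQ] at h5
    · rw [norm_zero]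
      exact Real.sqrt_nonneg _
  have hn : ‖∑ p ∈ Tu ι g, ∑ q ∈ Tu κ g, ∑ z ∈ Tu (ι ⊕ κ) (D * Q / g),
      kf (W e D) s1 s2 p q z * (if Squarefree (D * Q) then
        Md (cdf h ζ τ θ s1 s2 s3 (D * Q) (fun i => Sum.elim p q i * z i)) r else 0)‖ ≤
      ((Tu ι g).card : ℝ) * ((Tu κ g).card * (Tu (ι ⊕ κ) (D * Q / g)).card) *
        Real.sqrt Eb := by
    calc _ ≤ ∑ p ∈ Tu ι g, ∑ q ∈ Tu κ g, ∑ z ∈ Tu (ι ⊕ κ) (D * Q / g), Real.sqrt Eb := by
          refine (norm_sum_le _ _).trans (sum_le_sum fun p hp => ?_)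
          refine (norm_sum_le _ _).trans (sum_le_sum fun q hq => ?_)
          exact (norm_sum_le _ _).trans (sum_le_sum fun z hz => hrt p hp q hq z hz)
      _ = _ := by
          simp only [sum_const, nsmul_eq_mul]
          ring
  refine (pow_le_pow_left₀ (norm_nonneg _) hn 2).trans (le_of_eq ?_)
  rw [mul_pow, Real.sq_sqrt hEb]

set_option maxHeartbeats 1000000 in
/-- **`CoreB` at a difference from the claims of the lists and the biases of the child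
differences** -/
theorem coreB_xd2 {h : ℝ → ℝ} {c₀ : ℝ} (hpu : PU h c₀) {R : ℝ}
    (hR0 : 0 ≤ R) (hR : ∀ u, cx h u ≠ 0 → |u| ≤ R) (N : ℕ) {B₀ : ℝ} (hB₀ : 0 ≤ B₀) {ε : ℝ}
    (hε : 0 < ε) {M : ℝ} (hM : 0 ≤ M) {J : ℝ} (hJ : (N : ℝ) * M ≤ J) :
    ∃ C r : ℝ, 1 ≤ C ∧ 0 ≤ r ∧ ∀ X : ℝ, 3 ≤ X →
    ∀ (ι κ : Type) [Fintype ι] [Fintype κ] [DecidableEq ι] [DecidableEq κ],
    Fintype.card ι + Fintype.card κ ≤ N → ∀ (s1 : ι → Pc) (s2 s3 : κ → Pc),
    (∀ i, (s1 i).OK) → (∀ j, (s2 j).OK) → (∀ j, (s3 j).OK) → SameT s2 s3 →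
    (∀ i, Real.log (s1 i).Y ≤ Real.log X) → (∀ j, Real.log (s2 j).Y ≤ Real.log X) →
    (∀ j, Real.log (s3 j).Y ≤ Real.log X) → ∀ Z : ℝ, 0 ≤ Z →
    (∀ n, sqc 1 (al h s1) n ≠ 0 → (nm n : ℝ) ≤ Z) → ∀ ζ : ℂ, ‖ζ‖ ≤ 1 → ∀ x : Eis → ℂ,
    (∀ n, x n = sqc 1 (al h s2) n - ζ * sqc 1 (al h s3) n) →
    ∀ (E0 : ℝ) (c : Fin 5) (s : ℝ) (g D : Eis),
    IsPrim g → IsPrim D → (nm g : ℝ) ≤ X ^ B₀ → (nm D : ℝ) ≤ X ^ B₀ →
    ∀ (b k : ℝ), 0 ≤ b → b ≤ B₀ * Real.log X → 0 ≤ k → k ≤ B₀ * Real.log X →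
    ∀ Bd Bd' Eb : ℝ, 0 ≤ Bd → 0 ≤ Bd' → 0 ≤ Eb →
    (∀ (l : ℝ) (s' : ι ⊕ κ → Pc), 0 ≤ l → ChF r s' (Sum.elim s1 s2) →
      |LY s' - (LY s1 + LY s2 - Real.log (nm g) - Real.log (nm D * nm (cc g D)) - b)| ≤ r →
      |l - (k + b)| ≤ r →
      LY s1 - Real.log (nm g) - min (y5 Z g c) (Real.log (nm D)) - b - r ≤
        LY (fun i => s' (.inl i)) →
      VK Dk (Real.exp l) (sqc (D * cc g D) (al h s')) ≤ Bd * cF s' (Sum.elim s1 s2) ^ M) →
    (∀ (l : ℝ) (s' : ι ⊕ κ → Pc), 0 ≤ l → ChF r s' (Sum.elim s1 s3) →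
      |LY s' - (LY s1 + LY s3 - Real.log (nm g) - Real.log (nm D * nm (cc g D)) - b)| ≤ r →
      |l - (k + b)| ≤ r →
      LY s1 - Real.log (nm g) - min (y5 Z g c) (Real.log (nm D)) - b - r ≤
        LY (fun i => s' (.inl i)) →
      VK Dk (Real.exp l) (sqc (D * cc g D) (al h s')) ≤ Bd' * cF s' (Sum.elim s1 s3) ^ M) →
    (∀ U : Eis, IsPrim U → |Real.log (nm U) - b| ≤ 1 → Squarefree (D * (cc g D * U)) →
      ∀ a : ι ⊕ κ → Eis, (∀ i, IsPrim (a i)) → ∏ i, a i = g * (D * (cc g D * U)) →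
      (∀ i, a i ∣ D * (cc g D * U)) → ∀ j : Eis, CubeFree j → (nm j : ℝ) * nm (cc g D) ≤ Real.exp k →
      IsCoprime j (cc g D * U) → ∀ θ τ : ℝ, |θ| ≤ |s| →
      ‖Md (cdf h ζ τ θ s1 s2 s3 (D * (cc g D * U)) a) (j * (cc g D * U))‖ ^ 2 ≤
        Eb * (1 + |s|) ^ J * (1 + |τ|) ^ J) →
    CoreB (fun e => Ae Z E0 (sqc 1 (al h s1)) x g c s e D) (cc g D) b k J
      (C * X ^ ε * (1 + |s|) ^ J * (Bd + Bd' + Real.exp (2 / 3 * (k + b)) * Eb)) := by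
  have hN0 : (0 : ℝ) ≤ N := Nat.cast_nonneg N
  have hJ0 : 0 ≤ J := le_trans (by positivity) hJ
  obtain ⟨C₁, r, hC₁, hr, H⟩ := coreB_x hpu hR0 hR N hB₀ (ε := ε / 2) (by linarith) hM hJ
  set η := ε / (8 * (N + 1) * (2 * B₀ + 1)) with hη
  have hη0 : 0 < η := by positivity
  obtain ⟨C₂, hC₂, hτ⟩ := tau_le_rpow hη0
  have hC10 : 0 ≤ C₁ := by linarith
  have hC24 : 1 ≤ C₂ ^ (4 * N) := one_le_pow₀ hC₂
  refine ⟨C₁ * C₂ ^ (4 * N), r, one_le_mul_of_one_le_of_one_le hC₁ hC24, hr, ?_⟩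
  intro X hX ι κ _ _ _ _ hcard s1 s2 s3 h1 h2 h3 hs h1X h2X h3X Z hZ hsup ζ hζ x hx E0 c s g D hg
    hD hgX hDX b k hb hbX hk hkX Bd Bd' Eb hBd hBd' hEb hyp hyp' hbias
  have hX1 : (1 : ℝ) ≤ X := by linarith
  have hX0 : (0 : ℝ) < X := by linarith
  have hlX : 0 ≤ Real.log X := Real.log_nonneg hX1
  have hs1 : (1 : ℝ) ≤ 1 + |s| := by linarith [abs_nonneg s]
  have hsJ : (1 + |s|) ^ ((N : ℝ) * M) ≤ (1 + |s|) ^ J := Real.rpow_le_rpow_of_exponent_le hs1 hJ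
  have hsJ1 : 1 ≤ (1 + |s|) ^ J := Real.one_le_rpow hs1 hJ0
  have hcp : IsPrim (cc g D) := cc_prim hg
  have hd0 : D * cc g D = g * (D / gp D g) := cc_mul hg
  have hd0p : IsPrim (D / gp D g) := d0_prim hg hD
  set T : ℝ := C₂ * X ^ ((2 * B₀ + 1) * η) with hT
  have hT1 : 1 ≤ T := one_le_mul_of_one_le_of_one_le hC₂ (Real.one_le_rpow hX1 (by positivity))
  have hτX : ∀ z : Eis, z ≠ 0 → (nm z : ℝ) ≤ X ^ (2 * B₀ + 1) → (tau z : ℝ) ≤ T := by
    intro z hz hzX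
    refine (hτ z hz).trans (mul_le_mul_of_nonneg_left ?_ (by linarith))
    rw [Real.rpow_mul hX0.le]
    exact Real.rpow_le_rpow (Nat.cast_nonneg _) hzX hη0.le
  have hXB : X ^ B₀ ≤ X ^ (2 * B₀ + 1) := Real.rpow_le_rpow_of_exponent_le hX1 (by linarith)
  have hbX' : Real.exp (b + 1) ≤ X ^ (B₀ + 1) := by
    rw [Real.rpow_def_of_pos hX0]
    refine Real.exp_le_exp.2 ?_
    have h4 : 1 ≤ Real.log X := by
      rw [Real.le_log_iff_exp_le hX0]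
      have := Real.exp_one_lt_d9
      linarith
    nlinarith
  -- the number of the tuples
  have hcnt : ∀ U : Eis, IsPrim U → |Real.log (nm U) - b| ≤ 1 →
      (((Tu ι g).card : ℝ) * ((Tu κ g).card *
        (Tu (ι ⊕ κ) (D * (cc g D * U) / g)).card)) ^ 2 ≤ C₂ ^ (4 * N) * X ^ (ε / 2) := by
    intro U hU hUb
    have hU0 : (0 : ℝ) < nm U := by exact_mod_cast nm_pos.2 hU.ne_zero
    have hUn : (nm U : ℝ) ≤ Real.exp (b + 1) := by
      rw [← Real.log_le_iff_le_exp hU0]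
      linarith [(abs_le.1 hUb).2]
    have e1 : D * (cc g D * U) / g = D / gp D g * U := by
      rw [← mul_assoc, hd0, mul_assoc, mul_div_cancel_left₀ _ hg.ne_zero]
    have h4 : (nm (D / gp D g * U) : ℝ) ≤ X ^ (2 * B₀ + 1) := by
      rw [nm_mul]
      push_cast
      have h5 : (nm (D / gp D g) : ℝ) ≤ X ^ B₀ := by
        refine le_trans ?_ hDX
        have h6 : D / gp D g ∣ D := ⟨gp D g, by
          rw [mul_comm]; exact (gp_spec D hg).2.2.1⟩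
        exact_mod_cast Div277.nm_le_of_dvd hD.ne_zero h6
      have h7 : X ^ (2 * B₀ + 1) = X ^ B₀ * X ^ (B₀ + 1) := by
        rw [← Real.rpow_add hX0]; congr 1; ring
      rw [h7]
      exact mul_le_mul h5 (hUn.trans hbX') hU0.le (by positivity)
    have hc1 : ((Tu ι g).card : ℝ) ≤ T ^ Fintype.card ι := by
      have h5 : ((Tu ι g).card : ℝ) ≤ (tau g : ℝ) ^ Fintype.card ι := by
        exact_mod_cast card_Tu_le (ι := ι) g
      exact h5.trans (pow_le_pow_left₀ (Nat.cast_nonneg _) (hτX g hg.ne_zero (hgX.trans hXB)) _)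
    have hc2 : ((Tu κ g).card : ℝ) ≤ T ^ Fintype.card κ := by
      have h5 : ((Tu κ g).card : ℝ) ≤ (tau g : ℝ) ^ Fintype.card κ := by
        exact_mod_cast card_Tu_le (ι := κ) g
      exact h5.trans (pow_le_pow_left₀ (Nat.cast_nonneg _) (hτX g hg.ne_zero (hgX.trans hXB)) _)
    have hc3 : ((Tu (ι ⊕ κ) (D / gp D g * U)).card : ℝ) ≤
        T ^ (Fintype.card ι + Fintype.card κ) := by
      have h5 : ((Tu (ι ⊕ κ) (D / gp D g * U)).card : ℝ) ≤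
          (tau (D / gp D g * U) : ℝ) ^ (Fintype.card ι + Fintype.card κ) := by
        have h6 := card_Tu_le (ι := ι ⊕ κ) (D / gp D g * U)
        rw [Fintype.card_sum] at h6
        exact_mod_cast h6
      exact h5.trans (pow_le_pow_left₀ (Nat.cast_nonneg _)
        (hτX _ (hd0p.mul hU).ne_zero h4) _)
    rw [e1]
    have h5 : ((Tu ι g).card : ℝ) * ((Tu κ g).card * (Tu (ι ⊕ κ) (D / gp D g * U)).card) ≤
        T ^ (2 * N) := by
      calc _ ≤ T ^ Fintype.card ι * (T ^ Fintype.card κ *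
            T ^ (Fintype.card ι + Fintype.card κ)) := by gcongr
        _ = T ^ (2 * (Fintype.card ι + Fintype.card κ)) := by
            rw [← pow_add, ← pow_add]; congr 1; ring
        _ ≤ T ^ (2 * N) := pow_le_pow_right₀ hT1 (by omega)
    refine (pow_le_pow_left₀ (by positivity) h5 2).trans ?_
    rw [← pow_mul, hT, mul_pow, show 2 * N * 2 = 4 * N by ring,
      ← Real.rpow_natCast (X ^ ((2 * B₀ + 1) * η)), ← Real.rpow_mul hX0.le]
    refine mul_le_mul_of_nonneg_left (Real.rpow_le_rpow_of_exponent_le hX1 ?_) (by positivity)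
    push_cast
    have e3 : η * (8 * (N + 1) * (2 * B₀ + 1)) = ε := by
      rw [hη]; field_simp
    have h6 : 0 ≤ (2 * B₀ + 1) * η := by positivity
    nlinarith
  set Eb' : ℝ := C₂ ^ (4 * N) * X ^ (ε / 2) * (Eb * (1 + |s|) ^ J) with hEb'
  have h5 := H X hX ι κ hcard s1 s2 s3 h1 h2 h3 h1X h2X h3X Z hZ hsup ζ hζ x hx E0 c s g D hg hD
    hgX hDX b k hb hbX hk hkX Bd Bd' Eb' hBd hBd' (by positivity) hyp hyp'
    (fun U e hU hUb he heU j hj hjk hjc τ => by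
      have h6 := Md_Ae_x2 hR0 hR hcard h1 h2 h3 hs hZ hsup hx (E0 := E0) (c := c) (s := s) hg hD
        (hcp.mul hU) he heU (by rw [← mul_assoc, hd0, mul_assoc]; exact dvd_mul_right _ _) τ
        (j * (cc g D * U)) (Eb := Eb * (1 + |s|) ^ J * (1 + |τ|) ^ J) (by positivity)
        (fun a ha hap hdv hsq θ hθ => hbias U hU hUb hsq a ha hap hdv j hj hjk hjc θ τ hθ)
      refine h6.trans ?_
      refine (mul_le_mul_of_nonneg_right (hcnt U hU hUb) (by positivity)).trans (le_of_eq ?_)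
      rw [hEb']
      ring)
  refine h5.mono ?_
  set F := Real.exp (2 / 3 * (k + b)) with hF
  have hF0 : 0 ≤ F := (Real.exp_pos _).le
  have hXe : X ^ ε = X ^ (ε / 2) * X ^ (ε / 2) := by
    rw [← Real.rpow_add hX0]; congr 1; ring
  have hXe1 : 1 ≤ X ^ (ε / 2) := Real.one_le_rpow hX1 (by linarith)
  have hXe0 : 0 ≤ X ^ (ε / 2) := by linarith
  have p1 : (1 + |s|) ^ ((N : ℝ) * M) * (Bd + Bd') ≤
      C₂ ^ (4 * N) * X ^ (ε / 2) * ((1 + |s|) ^ J * (Bd + Bd')) := by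
    have q1 : (1 + |s|) ^ ((N : ℝ) * M) * (Bd + Bd') ≤ (1 + |s|) ^ J * (Bd + Bd') :=
      mul_le_mul_of_nonneg_right hsJ (by linarith)
    have q2 : 1 ≤ C₂ ^ (4 * N) * X ^ (ε / 2) := one_le_mul_of_one_le_of_one_le hC24 hXe1
    have q3 : 0 ≤ (1 + |s|) ^ J * (Bd + Bd') := by positivity
    nlinarith
  calc C₁ * X ^ (ε / 2) * ((1 + |s|) ^ ((N : ℝ) * M) * (Bd + Bd') + F * Eb') ≤
        C₁ * X ^ (ε / 2) * (C₂ ^ (4 * N) * X ^ (ε / 2) * ((1 + |s|) ^ J * (Bd + Bd')) +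
          F * Eb') := by gcongr
    _ = _ := by
        rw [hEb', hXe]
        ring


/-! ### the bias of the children discharged -/

lemma shf_same {κ : Type} [Fintype κ] [DecidableEq κ] {s s' : κ → Pc} {i1 i2 : κ} {δ : ℝ}
    (hs : Shf s s' i1 i2 δ) : SameT s s' := by
  intro j
  by_cases h1 : j = i1
  · rw [h1, hs.e1]; exact ⟨rfl, rfl, rfl⟩
  · by_cases h2 : j = i2
    · rw [h2, hs.e2]; exact ⟨rfl, rfl, rfl⟩
    · rw [hs.e3 j h1 h2]; exact ⟨rfl, rfl, rfl⟩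

lemma shf_LY {κ : Type} [Fintype κ] [DecidableEq κ] {s s' : κ → Pc} {i1 i2 : κ} {δ : ℝ}
    (hs : Shf s s' i1 i2 δ) (h : ∀ i, (s i).OK) : LY s' = LY s := by
  have e1 : Real.log (s' i1).Y = Real.log (s i1).Y + δ := by
    rw [hs.e1]; exact ExT764.log_shY (h i1)
  have e2 : Real.log (s' i2).Y = Real.log (s i2).Y - δ := by
    rw [hs.e2, ExT764.log_shY (h i2)]; ring
  have h1 := ExT764.LP_all (s := s) hs.ne
  have h2 := ExT764.LP_all (s := s') hs.ne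
  rw [ExT764.LP_cons, ExT764.LP_cons] at h1 h2
  rw [hs.rst, e1, e2] at h2
  show ∑ i, Real.log (s' i).Y = ∑ i, Real.log (s i).Y
  linarith

/-- logarithm of the bias of a child: total length `n`, parts removed `γ`, `l`, `b`, shortest
length `s0` -/
def ebx (n γ l b s0 : ℝ) : ℝ := 5 / 3 * (n - γ - l - b) + min 0 (l + b - s0)

lemma min_exp_le (x : ℝ) : min 1 (Real.exp x) = Real.exp (min 0 x) := by
  rcases le_total 0 x with h | h
  · rw [min_eq_left h, min_eq_left (Real.one_le_exp h), Real.exp_zero]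
  · rw [min_eq_right h, min_eq_right (by rw [← Real.exp_zero]; exact Real.exp_le_exp.2 h)]

set_option maxHeartbeats 1000000 in
/-- **`CoreB` at a difference from the claims of the two lists** -/
theorem coreB_xb {h : ℝ → ℝ} {c₀ : ℝ} (hpu : PU h c₀) {R : ℝ}
    (hR0 : 0 ≤ R) (hR : ∀ u, cx h u ≠ 0 → |u| ≤ R) (N : ℕ) {B₀ : ℝ} (hB₀ : 0 ≤ B₀) {ε : ℝ}
    (hε : 0 < ε) {M : ℝ} (hM : 0 ≤ M) {J : ℝ} (hJ : (N : ℝ) * M ≤ J) (hJ12 : 12 ≤ J) :
    ∃ C r : ℝ, 1 ≤ C ∧ 0 ≤ r ∧ ∀ X : ℝ, 3 ≤ X →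
    ∀ (ι κ : Type) [Fintype ι] [Fintype κ] [DecidableEq ι] [DecidableEq κ],
    Fintype.card ι + Fintype.card κ ≤ N → ∀ (s1 : ι → Pc) (s2 s3 : κ → Pc) (i1 i2 : κ) (δ : ℝ),
    Shf s2 s3 i1 i2 δ → (∀ i, (s1 i).OK) → (∀ j, (s2 j).OK) →
    (∀ i, Real.log (s1 i).Y ≤ Real.log X) → (∀ j, Real.log (s2 j).Y ≤ Real.log X) →
    (∀ j, Real.log (s3 j).Y ≤ Real.log X) → (s2 i1).u = .one → (s2 i2).u = .one →
    ∀ ρ1 ρ2 : Eis, ρ1 ≠ 0 → ρ2 ≠ 0 → (nm ρ1 : ℝ) ≤ X ^ B₀ → (nm ρ2 : ℝ) ≤ X ^ B₀ →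
    (∀ b, IsPrim b → (s2 i1).ψ b = prin0 ρ1 b) → (∀ b, IsPrim b → (s2 i2).ψ b = prin0 ρ2 b) →
    ∀ s0 : ℝ, s0 ≤ Real.log (s2 i1).Y → s0 ≤ Real.log (s2 i2).Y →
    s0 ≤ Real.log (s3 i1).Y → s0 ≤ Real.log (s3 i2).Y →
    ∀ Z : ℝ, 0 ≤ Z → (∀ n, sqc 1 (al h s1) n ≠ 0 → (nm n : ℝ) ≤ Z) → ∀ x : Eis → ℂ,
    (∀ n, x n = sqc 1 (al h s2) n - zeP (s2 i1) (s2 i2) δ * sqc 1 (al h s3) n) →
    ∀ (E0 : ℝ) (c : Fin 5) (s : ℝ) (g D : Eis),
    IsPrim g → IsPrim D → (nm g : ℝ) ≤ X ^ B₀ → (nm D : ℝ) ≤ X ^ B₀ →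
    ∀ (b k : ℝ), 0 ≤ b → b ≤ B₀ * Real.log X → 0 ≤ k → k ≤ B₀ * Real.log X →
    ∀ Bd Bd' : ℝ, 0 ≤ Bd → 0 ≤ Bd' →
    (∀ (l : ℝ) (s' : ι ⊕ κ → Pc), 0 ≤ l → ChF r s' (Sum.elim s1 s2) →
      |LY s' - (LY s1 + LY s2 - Real.log (nm g) - Real.log (nm D * nm (cc g D)) - b)| ≤ r →
      |l - (k + b)| ≤ r →
      LY s1 - Real.log (nm g) - min (y5 Z g c) (Real.log (nm D)) - b - r ≤
        LY (fun i => s' (.inl i)) →
      VK Dk (Real.exp l) (sqc (D * cc g D) (al h s')) ≤ Bd * cF s' (Sum.elim s1 s2) ^ M) →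
    (∀ (l : ℝ) (s' : ι ⊕ κ → Pc), 0 ≤ l → ChF r s' (Sum.elim s1 s3) →
      |LY s' - (LY s1 + LY s3 - Real.log (nm g) - Real.log (nm D * nm (cc g D)) - b)| ≤ r →
      |l - (k + b)| ≤ r →
      LY s1 - Real.log (nm g) - min (y5 Z g c) (Real.log (nm D)) - b - r ≤
        LY (fun i => s' (.inl i)) →
      VK Dk (Real.exp l) (sqc (D * cc g D) (al h s')) ≤ Bd' * cF s' (Sum.elim s1 s3) ^ M) →
    CoreB (fun e => Ae Z E0 (sqc 1 (al h s1)) x g c s e D) (cc g D) b k J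
      (C * X ^ ε * (1 + |s|) ^ J * (Bd + Bd' + Real.exp (2 / 3 * (k + b)) *
        (((1 + |(s2 i1).t|) * (1 + |(s2 i2).t|)) ^ 6 * Real.exp (ebx (LY s1 + LY s2)
          (Real.log (nm g)) (Real.log (nm D * nm (cc g D))) b s0)))) := by
  have hJ0 : 0 ≤ J := by linarith
  obtain ⟨C₁, r, hC₁, hr, H⟩ := coreB_xd2 hpu hR0 hR N hB₀ (ε := ε / 2) (by linarith) hM hJ
  obtain ⟨C₂, hC₂, H₂⟩ := HBc408.hbc hpu N (B₀ := 3 * B₀ + 1) (by positivity) (ε := ε / 2)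
    (by linarith)
  have hC10 : 0 ≤ C₁ := by linarith
  have hC20 : 0 ≤ C₂ := by linarith
  set K : ℝ := Real.exp 3 with hK
  have hK1 : 1 ≤ K := Real.one_le_exp (by norm_num)
  refine ⟨C₁ * (C₂ * K), r, one_le_mul_of_one_le_of_one_le hC₁
    (one_le_mul_of_one_le_of_one_le hC₂ hK1), hr, ?_⟩
  intro X hX ι κ _ _ _ _ hcard s1 s2 s3 i1 i2 δ hs h1 h2 h1X h2X h3X hu1 hu2 ρ1 ρ2 hρ1 hρ2 hn1
    hn2 hp1 hp2 s0 hy1 hy2 hy3 hy4 Z hZ hsup x hx E0 c s g D hg hD hgX hDX b k hb hbX hk hkX Bd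
    Bd' hBd hBd' hyp hyp'
  have hX1 : (1 : ℝ) ≤ X := by linarith
  have hX0 : (0 : ℝ) < X := by linarith
  have hlX : 0 ≤ Real.log X := Real.log_nonneg hX1
  have hlX1 : 1 ≤ Real.log X := by
    rw [Real.le_log_iff_exp_le hX0]
    have := Real.exp_one_lt_d9
    linarith
  have hs1 : (1 : ℝ) ≤ 1 + |s| := by linarith [abs_nonneg s]
  have hsJ1 : 1 ≤ (1 + |s|) ^ J := Real.one_le_rpow hs1 hJ0
  have h3 : ∀ i, (s3 i).OK := hs.OK h2
  have hcp : IsPrim (cc g D) := cc_prim hg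
  have hcc1 : (1 : ℝ) ≤ nm (cc g D) := one_le_nmR hcp
  have hD1 : (1 : ℝ) ≤ nm D := one_le_nmR hD
  have hccX : (nm (cc g D) : ℝ) ≤ X ^ B₀ := by
    refine le_trans ?_ hgX
    exact_mod_cast Div277.nm_le_of_dvd hg.ne_zero (cc_dvd hg)
  have up : X ^ B₀ ≤ X ^ (3 * B₀ + 1) := Real.rpow_le_rpow_of_exponent_le hX1 (by linarith)
  have hexp3 : X ^ B₀ * (X ^ B₀ * Real.exp (b + 1)) ≤ X ^ (3 * B₀ + 1) := by
    have e1 : Real.exp (b + 1) ≤ X ^ (B₀ + 1) := by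
      rw [Real.rpow_def_of_pos hX0]
      refine Real.exp_le_exp.2 ?_
      nlinarith
    calc X ^ B₀ * (X ^ B₀ * Real.exp (b + 1)) ≤ X ^ B₀ * (X ^ B₀ * X ^ (B₀ + 1)) := by gcongr
      _ = _ := by rw [← Real.rpow_add hX0, ← Real.rpow_add hX0]; congr 1; ring
  have hl3 : Real.log (s3 i1).Y = Real.log (s2 i1).Y + δ := by
    rw [hs.e1]; exact ExT764.log_shY (h2 i1)
  have hl4 : Real.log (s3 i2).Y = Real.log (s2 i2).Y - δ := by
    rw [hs.e2, ExT764.log_shY (h2 i2)]; ring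
  set Hh : ℝ := ((1 + |(s2 i1).t|) * (1 + |(s2 i2).t|)) ^ 6 with hHh
  have hHh0 : 0 ≤ Hh := by positivity
  set lam : ℝ := Real.log (nm D * nm (cc g D)) with hlam
  set Ex : ℝ := Real.exp (ebx (LY s1 + LY s2) (Real.log (nm g)) lam b s0) with hEx
  have hEx0 : 0 ≤ Ex := (Real.exp_pos _).le
  set Eb : ℝ := C₂ * K * X ^ (ε / 2) * (Hh * Ex) with hEb
  have hXe1 : 1 ≤ X ^ (ε / 2) := Real.one_le_rpow hX1 (by linarith)
  have hXe0 : 0 ≤ X ^ (ε / 2) := by linarith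
  have hK0 : 0 ≤ K := by linarith
  have hEb0 : 0 ≤ Eb := by positivity
  have main := H X hX ι κ hcard s1 s2 s3 h1 h2 h3 (shf_same hs) h1X h2X h3X Z hZ hsup
    (zeP (s2 i1) (s2 i2) δ) (ExT764.norm_zeP _ _ _).le x hx E0 c s g D hg hD hgX hDX b k hb hbX
    hk hkX Bd Bd' Eb hBd hBd' hEb0 hyp hyp'
    (fun U hU hUb hsq a ha hap hdv j hj hjk hjc θ τ hθ => by
      have hU0 : (0 : ℝ) < nm U := by exact_mod_cast nm_pos.2 hU.ne_zero
      have hU1 : (1 : ℝ) ≤ nm U := by exact_mod_cast nm_pos.2 hU.ne_zero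
      have hUb' := abs_le.1 hUb
      have hUn : (nm U : ℝ) ≤ Real.exp (b + 1) := by
        rw [← Real.log_le_iff_le_exp hU0]
        linarith [hUb'.2]
      have hqn : (nm (D * (cc g D * U)) : ℝ) = nm D * (nm (cc g D) * nm U) := by
        rw [nm_mul, nm_mul]; push_cast; ring
      have hqX : (nm (D * (cc g D * U)) : ℝ) ≤ X ^ (3 * B₀ + 1) := by
        rw [hqn]
        refine le_trans ?_ hexp3
        gcongr
      have hj1 : (1 : ℝ) ≤ nm j := by exact_mod_cast nm_pos.2 hj.1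
      have hjX : (nm j : ℝ) ≤ X ^ B₀ := by
        have h5 : (nm j : ℝ) ≤ Real.exp k := by
          refine le_trans ?_ hjk
          exact le_mul_of_one_le_right (by linarith) hcc1
        refine h5.trans ?_
        rw [Real.rpow_def_of_pos hX0]
        exact Real.exp_le_exp.2 (by linarith)
      have hjqX : (nm (j * (cc g D * U)) : ℝ) ≤ X ^ (3 * B₀ + 1) := by
        have e1 : (nm (j * (cc g D * U)) : ℝ) = nm j * (nm (cc g D) * nm U) := by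
          rw [nm_mul, nm_mul]; push_cast; ring
        rw [e1]
        refine le_trans ?_ hexp3
        gcongr
      have h5 := H₂ X hX ι κ hcard s1 s2 s3 i1 i2 δ hs h1 h2 h1X h2X hu1 hu2 ρ1 ρ2 hρ1 hρ2
        (hn1.trans up) (hn2.trans up) hp1 hp2 s0 hy1 hy2 (by linarith) (by linarith) g
        (D * (cc g D * U)) hg (hD.mul (hcp.mul hU)) hqX a ha hap hdv (j * (cc g D * U))
        (mul_ne_zero hj.1 (mul_ne_zero hcp.ne_zero hU.ne_zero)) hjqX θ τ J hJ12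
      have hτ0 : 0 ≤ (1 + |τ|) ^ J := by positivity
      have hlq : Real.log (nm (D * (cc g D * U)) : ℝ) = lam + Real.log (nm U) := by
        rw [hqn, ← mul_assoc, Real.log_mul (by positivity) hU0.ne']
      have h6 : Real.exp (5 / 3 * (LY s1 + LY s2 - Real.log (nm g) -
          Real.log (nm (D * (cc g D * U))))) *
          min 1 ((nm (D * (cc g D * U)) : ℝ) * Real.exp (-s0)) ≤ K * Ex := by
        have e1 : (nm (D * (cc g D * U)) : ℝ) * Real.exp (-s0) =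
            Real.exp (lam + Real.log (nm U) - s0) := by
          have h7 : (0 : ℝ) < nm (D * (cc g D * U)) := by
            rw [hqn]; positivity
          rw [sub_eq_add_neg, Real.exp_add, ← hlq, Real.exp_log h7]
        rw [e1, min_exp_le, ← Real.exp_add, hlq, hK, hEx, ← Real.exp_add]
        refine Real.exp_le_exp.2 ?_
        unfold ebx
        have h8 : min 0 (lam + Real.log (nm U) - s0) ≤ min 0 (lam + b - s0) + 1 := by
          rcases min_cases 0 (lam + b - s0) with ⟨h9, -⟩ | ⟨h9, -⟩ <;> rw [h9]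
          · linarith [min_le_left 0 (lam + Real.log (nm U) - s0)]
          · linarith [min_le_right 0 (lam + Real.log (nm U) - s0)]
        linarith [hUb'.1]
      have h7 : 0 ≤ min 1 ((nm (D * (cc g D * U)) : ℝ) * Real.exp (-s0)) := by positivity
      calc _ ≤ _ := h5
        _ = C₂ * X ^ (ε / 2) * Hh * (Real.exp (5 / 3 * (LY s1 + LY s2 - Real.log (nm g) -
              Real.log (nm (D * (cc g D * U))))) *
              min 1 ((nm (D * (cc g D * U)) : ℝ) * Real.exp (-s0))) * (1 + |τ|) ^ J := by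
            rw [hHh]; ring
        _ ≤ C₂ * X ^ (ε / 2) * Hh * (K * Ex) * (1 + |τ|) ^ J := by gcongr
        _ = Eb * 1 * (1 + |τ|) ^ J := by rw [hEb]; ring
        _ ≤ Eb * (1 + |s|) ^ J * (1 + |τ|) ^ J := by gcongr)
  refine main.mono ?_
  have hXe : X ^ ε = X ^ (ε / 2) * X ^ (ε / 2) := by
    rw [← Real.rpow_add hX0]; congr 1; ring
  set F := Real.exp (2 / 3 * (k + b)) with hF
  have hF0 : 0 ≤ F := (Real.exp_pos _).le
  have q2 : 1 ≤ C₂ * K * X ^ (ε / 2) := one_le_mul_of_one_le_of_one_le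
    (one_le_mul_of_one_le_of_one_le hC₂ hK1) hXe1
  have q3 : 0 ≤ Bd + Bd' := by linarith
  have hsJ0 : 0 ≤ (1 + |s|) ^ J := by linarith
  calc C₁ * X ^ (ε / 2) * (1 + |s|) ^ J * (Bd + Bd' + F * Eb) ≤
        C₁ * X ^ (ε / 2) * (1 + |s|) ^ J * (C₂ * K * X ^ (ε / 2) * (Bd + Bd') + F * Eb) := by
        have : Bd + Bd' ≤ C₂ * K * X ^ (ε / 2) * (Bd + Bd') := le_mul_of_one_le_left q3 q2
        gcongr
    _ = _ := by
        rw [hEb, hXe]
        ring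

end Crest.Agent.R017.TPX791
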