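import Crest.Agent.R017.TSW_436

/-!
# Row 17, E4 (StrU, polar terms) : the T-moment with the gain `nm e₀` (helper436)

* `z_lineE` : the real inequality, gain `e`
* `tsueLS`  : `TS (..) ≤ X ^ (ET q + ℓ + g + ε) / (nm ∏β * nm e₀)`, every `e0 ≤ 1/64`,
  `g` = the loss of the free family: `v + N/2 + e/2 ≤ K5 + 3 g`
* `top_half` : `low5 + N/2 ≤ K5`
* `tsue_lo` : the steps `4 e ≤ low5 - v + d`, a constant loss `lo ≥ ℓ + d/24`
-/

set_option autoImplicit false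
set_option linter.unusedVariables false
set_option linter.unusedSectionVars false

noncomputable section

open Set

namespace Crest.Agent.R017.VFa436

open Crest.Agent.R012 Crest.Agent.R012.Eis
open Crest.Agent.R012.LS2 (S mem_S)
open Crest.Agent.R017.FE47 (PU cx SM)
open Crest.Agent.R017.XG702 (Pcs)
open Crest.Agent.R017.XT71 (Sys Win mx le_mx)
open Crest.Agent.R017.Prov71
open Crest.Agent.R017.B770
open Crest.Agent.R017.ER911
open Crest.Agent.R017.HP842 (Pc pc)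
open Crest.Agent.R017.TM708 (FE2L R5 K5 eH eF)
open Crest.Agent.R017.E1551 (tws sg Adm)
open Crest.Agent.R017.Rough381 (VF)
open Crest.Agent.R017.TEL792 (PM DS mem_DS te_pairs_oneW)
open Crest.Agent.R017.TEM792 (Xn Xn_pos PM_one big)
open Crest.Agent.R017.E5k54 (alb)
open Crest.Agent.R017.E2440 (TE)
open Crest.Agent.R017.C70 (OKJ)
open Crest.Agent.R017.E5B71 (Bd S5 cκ cu cN cx' cM Sq5 SqD Pt)
open Crest.Agent.R017.E5L770
open Crest.Agent.R017.E4U164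
open Crest.Agent.R017.E4P939 (TS)
open Crest.Agent.R017.MnR939 (ET)
open Crest.Agent.R017.MnU939 (FrL_l FrL_u FrL_v)
open Crest.Agent.R017.I1146 (tw3 ds)
open Crest.Agent.R017.TEX792 (alb_tw vf_tw pc_Pt pc_prim' alb_cop)

/-- **the T-number of the children, with the gain `e` and the loss `g` of the free family** -/
lemma z_lineE {κ N x v s lV w e y t g : ℝ} (ht : 0 ≤ t) (hS : s ≤ N + t) (hV : lV ≤ v + t)
    (he : 0 ≤ e) (he1 : e ≤ κ / 36) (hy : 0 ≤ y) (hw : 0 ≤ w)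
    (hw1 : w ≤ N + x - κ / 2 + 3 * t) (hx0 : 0 ≤ x)
    (hx : x ≤ κ / 36) (hv1 : v ≤ 23 / 36 * κ) (hv2 : κ ≤ 5 / 4 * N → v ≤ 3 / 4 * N) (hg : 0 ≤ g)
    (hv3 : v + N / 2 + e / 2 ≤ max κ (5 / 4 * N) + 3 * g + t) :
    eH (max (max κ (5 / 4 * N)) (lV + e - 2 * y + (s - w - (y + e)) / 2)) (lV + e - 2 * y)
      (s - w - (y + e)) + 2 * y ≤
      2 * N + max 0 (v - (2 * N - κ)) / 3 - 4 / 3 * w - e + g + 4 * t := by
  have hm0 := le_max_left 0 (v - (2 * N - κ))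
  have hm1 := le_max_right 0 (v - (2 * N - κ))
  set m := max 0 (v - (2 * N - κ))
  have hK : (max κ (5 / 4 * N) + v) / 3 + 4 / 3 * N ≤ 2 * N + m / 3 := by
    rcases le_total κ (5 / 4 * N) with h | h
    · rw [max_eq_right h]
      have := hv2 h
      linarith
    · rw [max_eq_left h]
      linarith
  have hK0 : κ ≤ max κ (5 / 4 * N) := le_max_left _ _
  rw [← le_sub_iff_add_le]
  unfold TM708.eH TM708.eF
  refine max_le (max_le (by linarith) ?_) (by linarith)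
  have : max (max (max κ (5 / 4 * N)) (lV + e - 2 * y + (s - w - (y + e)) / 2))
        (3 / 2 * (lV + e - 2 * y)) ≤
      3 * (2 * N + m / 3 - 4 / 3 * w - e + g + 4 * t - 2 * y - 4 / 3 * (s - w - (y + e))) -
        (lV + e - 2 * y) := by
    refine max_le (max_le ?_ ?_) ?_ <;> linarith
  linarith

variable {Λ : Type*} {π : Λ → DPar} {h : ℝ → ℝ} {d : ℝ} {rr : EF}

lemma pow_H {X ε : ℝ} (M : ℕ) (hX1 : 1 < X) (hε : 0 < ε) :
    (X ^ (ε / (8 * ((M : ℝ) + 1)))) ^ M ≤ X ^ (ε / 8) := by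
  rw [← Real.rpow_natCast, ← Real.rpow_mul (by linarith)]
  refine Real.rpow_le_rpow_of_exponent_le hX1.le ?_
  rw [div_mul_eq_mul_div, div_le_div_iff₀ (by positivity) (by norm_num)]
  nlinarith [Nat.cast_nonneg (α := ℝ) M]

set_option maxHeartbeats 1000000 in
open Classical in
/-- **the T-moment with the gain `nm e₀`** -/
theorem tsueLS {c₀ : ℝ} (hpu : PU h c₀) (hP : ∀ lam, (π lam).OK)
    (R : ExpRules (7 / 8 + d) rr (ex Dq fun lam => Sp (π lam) h)) (hd : 0 ≤ d)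
    (hd1 : d ≤ 1 / 8) {D5 : Set (Fin 5 → ℝ)} (hD : IsCompact D5) (hR5 : ∀ b ∈ D5, R5 b)
    {A : ℝ} (hDm : ∀ q ∈ SqD A d, b5q q.1 ∈ D5) {ℓ : (Fin 5 → ℝ) → ℝ} (hℓ : Continuous ℓ)
    (hFE : FE2L (ex Dq fun lam => S0p (π lam) h) D5 ℓ) {e0 : ℝ} (he64 : e0 ≤ 1 / 64) (r : ℝ) {cB : ℝ} (hcB : 0 ≤ cB)
    {Bf : ℝ → ℝ → ℝ → ℝ} (hBf : ∀ l N z, Bf l N z ≤ N + z - l / 2 + cB)
    {Jf : ℝ → ℝ → ℝ → Finset (Eis × Eis)} (hJf : ∀ l N z, OKJ (Jf l N z)) :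
    ∀ ε : ℝ, 0 < ε → ∃ δ : ℝ, 0 < δ ∧ ∀ (lam : Λ × Eis) (N : ℕ) (B : ℝ),
    ∃ δ' : ℝ, 0 < δ' ∧ ∃ X₀ : ℝ, 1 < X₀ ∧ ∀ X : ℝ, X₀ ≤ X →
    ∀ (a : Bd × ℕ) (ps : List Pq) (q : (Option (Fin 3 ⊕ Fin 5) → ℝ) × (Kd → ℝ)),
      FrL A d δ δ' B X N a ps q → a.1.ok → lam.2 ∈ SM (π lam.1).n →
    ∀ β ∈ T3 Bf a.1 r, ∀ e₀ ∈ S (Real.exp (e0 * a.1.l)), ∀ g : ℝ, 0 ≤ g →
      (q.1 none + cN (dn q.1) / 2) * Real.log X + Real.log (nm e₀) / 2 ≤
        (max (cκ (dn q.1)) (5 / 4 * cN (dn q.1)) + 3 * g) * Real.log X →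
      TS (J3 Jf a.1 a.2) (fun x => ‖omL a.2 x‖ *
        ‖TE (alb (f3 (π lam.1) h lam.2 a.1) β) x e₀‖) ≤
        X ^ (ET q + ℓ (b5q (dn q.1)) + g + ε) / ((nm (∏ i, β i) : ℝ) * nm e₀) := by
  intro ε hε
  obtain ⟨σ, hσ, G⟩ := tsv_numS hpu hP R hd hd1 hD (fun b hb => (hR5 b hb).x0)
    hℓ hFE (show 0 < ε / 4 by positivity)
  obtain ⟨Bo, hBo, hom⟩ := omL_bd
  set δ : ℝ := min (min (σ / 8) (1 / 10)) (ε / 100) with hδd
  have hδ : 0 < δ := lt_min (lt_min (by positivity) (by norm_num)) (by positivity)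
  have hδσ : δ ≤ σ / 8 := (min_le_left _ _).trans (min_le_left _ _)
  have hδ1 : δ ≤ 1 / 10 := (min_le_left _ _).trans (min_le_right _ _)
  have hδε : δ ≤ ε / 100 := min_le_right _ _
  refine ⟨δ, hδ, fun lam N B => ?_⟩
  by_cases hm : lam.2 ∈ SM (π lam.1).n
  swap
  · exact ⟨1, one_pos, 2, by norm_num, fun X _ a ps q _ _ h => absurd h hm⟩
  set B' : ℝ := max B (12 + 2 * |e0|) with hB'
  have hB'1 : 12 + 2 * |e0| ≤ B' := le_max_right _ _
  have hB'0 : B ≤ B' := le_max_left _ _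
  have he0a := abs_nonneg e0
  obtain ⟨M, X₁, hX₁, H⟩ := G lam.1 lam.2 hm B' (by linarith)
  set δ' : ℝ := ε / (8 * ((M : ℝ) + 1)) with hδ'
  have hδ'0 : 0 < δ' := by positivity
  set L₀ : ℝ := max (max 1 (Real.log 2 / δ)) (max (cB / δ) (8 / ε * Real.log (Bo ^ 2 + 1)))
    with hL₀
  refine ⟨δ', hδ'0, max X₁ (Real.exp L₀), lt_of_lt_of_le hX₁ (le_max_left _ _), ?_⟩
  intro X hX a ps q hF hok _ β hβ e₀ he₀ gg hg0 hgq
  have hXX : X₁ ≤ X := (le_max_left _ _).trans hX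
  have hX1 : 1 < X := lt_of_lt_of_le hX₁ hXX
  have hX0 : 0 < X := by linarith
  have hXe : Real.exp L₀ ≤ X := (le_max_right _ _).trans hX
  set L := Real.log X with hL
  have hL0 : 0 < L := Real.log_pos hX1
  have hLL : L₀ ≤ L := (Real.le_log_iff_exp_le hX0).2 hXe
  have l1 : 1 ≤ L := ((le_max_left _ _).trans (le_max_left _ _)).trans hLL
  have l2 : Real.log 2 ≤ δ * L := by
    have := ((le_max_right _ _).trans (le_max_left _ _)).trans hLL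
    rw [div_le_iff₀ hδ] at this
    linarith
  have l3 : cB ≤ δ * L := by
    have := ((le_max_left _ _).trans (le_max_right _ _)).trans hLL
    rw [div_le_iff₀ hδ] at this
    linarith
  have l4 : Real.log (Bo ^ 2 + 1) ≤ ε / 8 * L := by
    have h1 := ((le_max_right _ _).trans (le_max_right _ _)).trans hLL
    have e : 8 / ε * Real.log (Bo ^ 2 + 1) = Real.log (Bo ^ 2 + 1) / (ε / 8) := by field_simp
    rw [e, div_le_iff₀ (by positivity)] at h1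
    linarith
  have hδL : 0 < δ * L := by positivity
  -- the region
  have hq := hF.dom
  have hb : b5q (dn q.1) ∈ D5 := hDm (dn q.1, q.2) hq.1
  have hSq : Sq5 A d (dn q.1) q.2 := hq.1
  obtain ⟨x0, x1, hvT, hv1, hv2, hN, y1, y2, y3⟩ := top_facts hq (hR5 _ hb)
  have hv0 := hq.2.1
  have hκ0 := hSq.κ0
  have hκ1 := hSq.κ1
  set κ := cκ (dn q.1)
  set x := cx' (dn q.1)
  set v := q.1 none
  set Nn := cN (dn q.1) with hNn
  have eN : Nn = cu (dn q.1) 2 + cu (dn q.1) 3 + cu (dn q.1) 4 := rfl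
  set b := b5q (dn q.1) with hbd
  have e0' : b 0 = κ := rfl
  have e1' : b 1 = cu (dn q.1) 2 := rfl
  have e2' : b 2 = cu (dn q.1) 3 := rfl
  have e3' : b 3 = cu (dn q.1) 4 := rfl
  have e4' : b 4 = x := rfl
  -- the frame
  obtain ⟨f1, f2⟩ := abs_le.1 (FrL_l hF hX1)
  obtain ⟨g1, g2⟩ := abs_le.1 (FrL_u hF hX1 2)
  obtain ⟨g3, g4⟩ := abs_le.1 (FrL_u hF hX1 3)
  obtain ⟨g5, g6⟩ := abs_le.1 (FrL_u hF hX1 4)
  obtain ⟨v1', v2'⟩ := abs_le.1 (FrL_v hF hX1)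
  obtain ⟨x1', x2'⟩ := abs_le.1 (FrL_x hF hX1)
  rw [← hL] at f1 f2 g1 g2 g3 g4 g5 g6 v1' v2' x1' x2'
  have hsum : ∑ i, (us3 a.1 i).z = a3 a.1 := sum_us3 a.1
  have ha3 : a3 a.1 = (a.1.us 2).z + (a.1.us 3).z + (a.1.us 4).z := by
    rw [← hsum, Fin.sum_univ_three]; rfl
  -- multiples of L
  have kL0 : 8 / 9 * L ≤ κ * L := mul_le_mul_of_nonneg_right hκ0 hL0.le
  have kL1 : κ * L ≤ L := by have := mul_le_mul_of_nonneg_right hκ1 hL0.le; linarith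
  have NL : Nn * L ≤ 102 / 125 * (κ * L) := by
    have := mul_le_mul_of_nonneg_right hN hL0.le; linarith
  have xL0 : 0 ≤ x * L := mul_nonneg x0 hL0.le
  have xL1 : x * L ≤ κ * L / 36 := by
    have := mul_le_mul_of_nonneg_right x1 hL0.le; linarith
  have vL1 : v * L ≤ 23 / 36 * (κ * L) := by
    have := mul_le_mul_of_nonneg_right hv1 hL0.le; linarith
  have vL0 : 0 ≤ v * L := mul_nonneg hv0 hL0.le
  have vLT : v * L ≤ TM708.T5 b * L := mul_le_mul_of_nonneg_right hvT hL0.le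
  have uL2 : 0 ≤ cu (dn q.1) 2 * L := mul_nonneg y1 hL0.le
  have uL3 : 0 ≤ cu (dn q.1) 3 * L := mul_nonneg y2 hL0.le
  have uL4 : 0 ≤ cu (dn q.1) 4 * L := mul_nonneg y3 hL0.le
  have eNL : Nn * L = cu (dn q.1) 2 * L + cu (dn q.1) 3 * L + cu (dn q.1) 4 * L := by
    rw [eN]; ring
  have vL2 : κ * L ≤ 5 / 4 * (Nn * L) → v * L ≤ 3 / 4 * (Nn * L) := by
    intro h1
    have h2 : κ ≤ 5 / 4 * Nn := by
      by_contra h3
      push Not at h3
      have := mul_lt_mul_of_pos_right h3 hL0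
      linarith
    have := mul_le_mul_of_nonneg_right (hv2 h2) hL0.le
    linarith
  have dL1 : δ * L ≤ L / 10 := by
    have := mul_le_mul_of_nonneg_right hδ1 hL0.le; linarith
  have dLσ : δ * L ≤ σ / 8 * L := mul_le_mul_of_nonneg_right hδσ hL0.le
  have dLε : δ * L ≤ ε / 100 * L := mul_le_mul_of_nonneg_right hδε hL0.le
  -- the tuple
  obtain ⟨hβp, hβB⟩ := T3_spec hβ
  have hβ0 : (0 : ℝ) < nm (∏ i, β i) := by
    exact_mod_cast nm_pos.2 (HP842.isPrim_prod hβp).ne_zero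
  have hβ1 : (1 : ℝ) ≤ nm (∏ i, β i) := by
    exact_mod_cast nm_pos.2 (HP842.isPrim_prod hβp).ne_zero
  set w := Real.log (nm (∏ i, β i)) with hw
  have hw0 : 0 ≤ w := Real.log_nonneg hβ1
  have hwB : w ≤ Bf a.1.l (a3 a.1) a.1.z := by
    have := Real.log_le_log hβ0 hβB
    rwa [Real.log_exp] at this
  have hw1 : w ≤ Nn * L + x * L - κ * L / 2 + 3 * (4 * (δ * L)) := by
    have := hBf a.1.l (a3 a.1) a.1.z
    linarith
  have hexpX : ∀ c : ℝ, Real.exp (c * L) = X ^ c := fun c => by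
    rw [Real.rpow_def_of_pos hX0, hL, mul_comm]
  have hXB : ∀ {c : ℝ}, c ≤ 12 + 2 * |e0| → X ^ c ≤ X ^ B' := fun {c} hc =>
    Real.rpow_le_rpow_of_exponent_le hX1.le (hc.trans hB'1)
  have hXBB : X ^ B ≤ X ^ B' := Real.rpow_le_rpow_of_exponent_le hX1.le hB'0
  have hβX : (nm (∏ i, β i) : ℝ) ≤ X ^ B' := by
    refine le_trans ?_ (hXB (c := 4) (by linarith))
    rw [← hexpX, ← Real.exp_log hβ0]
    exact Real.exp_le_exp.2 (by linarith)
  -- heights and moduli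
  have hs1 : ∀ i, 1 + |(a.1.us i).t| ≤ X ^ δ' := by
    intro i
    have h1 : (S5).s₁ a.1 ≤ X ^ δ' := hF.win.s₁
    have h2 : mx Dq.s1 (List.ofFn a.1.us) ≤ (S5).s₁ a.1 := le_max_right _ _
    have h3 : Dq.s1 (a.1.us i) ≤ mx Dq.s1 (List.ofFn a.1.us) :=
      le_mx ((List.mem_ofFn' _ _).2 ⟨i, rfl⟩)
    exact (h3.trans h2).trans h1
  have hs2 : ∀ i, (nm (a.1.us i).d : ℝ) ≤ X ^ B' := by
    intro i
    have h1 : (S5).s₂ a.1 ≤ X ^ B := hF.win.s₂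
    have h2 : mx Dq.s2 (List.ofFn a.1.us) ≤ (S5).s₂ a.1 := le_max_right _ _
    have h3 : Dq.s2 (a.1.us i) ≤ mx Dq.s2 (List.ofFn a.1.us) :=
      le_mx ((List.mem_ofFn' _ _).2 ⟨i, rfl⟩)
    exact ((h3.trans h2).trans h1).trans hXBB
  have hus : ∀ i : Fin 3, ∃ j : Fin 5, us3 a.1 i = a.1.us j := by
    intro i
    fin_cases i
    · exact ⟨2, rfl⟩
    · exact ⟨3, rfl⟩
    · exact ⟨4, rfl⟩
  have hH1 : 1 ≤ X ^ δ' := Real.one_le_rpow hX1.le hδ'0.le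
  have hB'L : 12 * L ≤ B' * L := mul_le_mul_of_nonneg_right (by linarith) hL0.le
  have hTD : TD X σ B' (X ^ δ') b (us3 a.1) β := by
    refine ⟨hH1, fun i => ?_, fun i => ?_, fun i => ?_, fun i => ?_, fun i => ?_, ?_, ?_, ?_, hβp,
      hβX⟩
    · obtain ⟨j, hj⟩ := hus i
      rw [hj]
      exact (hok.1 j).1
    · obtain ⟨j, hj⟩ := hus i
      rw [hj]
      exact (hok.1 j).2
    · rw [← hL]
      fin_cases i
      · show (a.1.us 2).z ≤ _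
        linarith
      · show (a.1.us 3).z ≤ _
        linarith
      · show (a.1.us 4).z ≤ _
        linarith
    · obtain ⟨j, hj⟩ := hus i
      rw [hj]
      exact hs2 j
    · obtain ⟨j, hj⟩ := hus i
      rw [hj]
      exact hs1 j
    · show (a.1.us 2).z ≤ _
      rw [← hL, e1', add_mul]
      linarith
    · show (a.1.us 3).z ≤ _
      rw [← hL, e2', add_mul]
      linarith
    · show (a.1.us 4).z ≤ _
      rw [← hL, e3', add_mul]
      linarith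
  -- the window
  have hp2 : (0 : ℝ) < 2 ^ a.2 := by positivity
  have hp21 : (1 : ℝ) ≤ 2 ^ a.2 := one_le_pow₀ (by norm_num)
  have hlog2i : Real.log ((2 : ℝ) ^ a.2) = Real.log 2 * a.2 := by
    rw [Real.log_pow, mul_comm]
  have hlV : Real.log (2 * 2 ^ a.2) = Real.log 2 + Real.log 2 * a.2 := by
    rw [Real.log_mul two_ne_zero hp2.ne', hlog2i]
  have hV₁X : (2 * 2 ^ a.2 : ℝ) ≤ X ^ B' := by
    refine le_trans ?_ (hXB (c := 4) (by linarith))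
    rw [← hexpX, ← Real.exp_log (show (0 : ℝ) < 2 * 2 ^ a.2 by positivity)]
    exact Real.exp_le_exp.2 (by rw [hlV]; linarith)
  obtain ⟨hen, hep, -⟩ := (mem_S (Real.exp_pos _).le).1 he₀
  have he₀0 : (0 : ℝ) < nm e₀ := by exact_mod_cast nm_pos.2 hep.ne_zero
  have he₀X : (nm e₀ : ℝ) ≤ X ^ B' := by
    refine le_trans ?_ (hXB (c := 2 * |e0|) (by linarith))
    refine hen.trans ?_
    rw [← hexpX]
    refine Real.exp_le_exp.2 ?_
    have h1 : 0 ≤ a.1.l := by linarith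
    have h2 : e0 * a.1.l ≤ |e0| * a.1.l := mul_le_mul_of_nonneg_right (le_abs_self _) h1
    have h3 : |e0| * a.1.l ≤ |e0| * (2 * L) := mul_le_mul_of_nonneg_left (by linarith) he0a
    linarith
  have he₀l : 0 ≤ Real.log (nm e₀) := Real.log_nonneg (by exact_mod_cast nm_pos.2 hep.ne_zero)
  have he₀e : Real.log (nm e₀) ≤ κ * L / 36 := by
    have h1 := Real.log_le_log he₀0 hen
    rw [Real.log_exp] at h1
    have h2 : 0 ≤ a.1.l := by linarith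
    have h3 : e0 * a.1.l ≤ 1 / 64 * a.1.l := mul_le_mul_of_nonneg_right he64 h2
    linarith
  have hgL0 : 0 ≤ gg * L := mul_nonneg hg0 hL0.le
  have hgL : v * L + Nn * L / 2 + Real.log (nm e₀) / 2 ≤
      max (κ * L) (5 / 4 * (Nn * L)) + 3 * (gg * L) + 4 * (δ * L) := by
    have h1 := hgq
    have e1 : (v + Nn / 2) * L = v * L + Nn * L / 2 := by ring
    have e2 : (max κ (5 / 4 * Nn) + 3 * gg) * L =
        max (κ * L) (5 / 4 * (Nn * L)) + 3 * (gg * L) := by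
      rw [add_mul, max_mul_of_nonneg _ _ hL0.le]
      congr 1
      · congr 1; ring
      · ring
    rw [e1, e2] at h1
    linarith
  have hm' : max 0 (v * L - (2 * (Nn * L) - κ * L)) = max 0 (v - (2 * Nn - κ)) * L := by
    rw [max_mul_of_nonneg _ _ hL0.le, zero_mul]
    congr 1
    ring
  have hK5 : L * K5 b = max (κ * L) (5 / 4 * (Nn * L)) := by
    unfold TM708.K5
    rw [e0', e1', e2', e3', ← eN, mul_max_of_nonneg _ _ hL0.le]
    congr 1 <;> ring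
  set W : ℝ := 2 * (Nn * L) + max 0 (v * L - (2 * (Nn * L) - κ * L)) / 3 - 4 / 3 * w -
    Real.log (nm e₀) + gg * L + 4 * (4 * (δ * L)) with hW
  have key := H X hXX b hb (us3 a.1) β (X ^ δ') hTD (2 ^ a.2 / 2) (2 * 2 ^ a.2) Bo (by positivity)
    (by linarith) hV₁X hBo (J3 Jf a.1 a.2) (okJ3 hJf a.1 a.2) (omL a.2)
    (fun y hy _ => Jv_win (hJf _ _ _) hy) (fun y _ => hom a.2 y) e₀ 1 hep isPrim_one he₀X
    (by
      rw [hsum, hlV, ← hL, e1', e2', e3', e4', ← hw]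
      have e : (TM708.T5 b + (cu (dn q.1) 2 + cu (dn q.1) 3 + cu (dn q.1) 4 + x) + σ) * L =
        TM708.T5 b * L + (cu (dn q.1) 2 * L + cu (dn q.1) 3 * L + cu (dn q.1) 4 * L) + x * L +
          σ * L := by ring
      rw [e]
      linarith) 0 W (by
      intro y hy hy2 _
      rw [nm_one, Nat.cast_one, Real.log_one] at hy
      rw [hsum, ← hL, hK5, ← hw]
      have h1 := z_lineE (κ := κ * L) (N := Nn * L) (x := x * L) (v := v * L) (s := a3 a.1)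
        (lV := Real.log (2 * 2 ^ a.2)) (w := w) (e := Real.log (nm e₀)) (y := y)
        (t := 4 * (δ * L)) (by positivity) (by linarith) (by rw [hlV]; linarith) he₀l he₀e hy hw0 hw1
        xL0 xL1 vL1 vL2 hgL0 hgL
      have e : (2 + 0) * y = 2 * y := by ring
      rw [e]
      exact h1)
  rw [nm_one, Nat.cast_one, div_one] at key
  have hLHS : TS (J3 Jf a.1 a.2) (fun x => ‖omL a.2 x‖ *
        ‖TE (alb (f3 (π lam.1) h lam.2 a.1) β) x e₀‖) =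
      ∑ y ∈ (J3 Jf a.1 a.2).filter (fun y => 1 ∣ y.1), (nm y.1 : ℝ) ^ (0 : ℝ) *
        ((nm y.2 : ℝ) ^ (-(1 / 3) : ℝ) * (‖omL a.2 y‖ ^ 2 *
          ‖TE (alb (fun i => pc h (Pt (π lam.1) lam.2 (us3 a.1 i))) β) y e₀‖ ^ 2)) := by
    rw [Finset.filter_true_of_mem fun y _ => one_dvd _]
    unfold E4P939.TS
    refine Finset.sum_congr rfl fun y _ => ?_
    rw [Real.rpow_zero]
    show (‖omL a.2 y‖ * ‖TE (alb (fun i => pc h (Pt (π lam.1) lam.2 (us3 a.1 i))) β) y e₀‖) ^ 2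
      * _ = 1 * (_ * (‖omL a.2 y‖ ^ 2 *
        ‖TE (alb (fun i => pc h (Pt (π lam.1) lam.2 (us3 a.1 i))) β) y e₀‖ ^ 2))
    ring
  rw [hLHS]
  refine key.trans ?_
  -- the numbers
  have hXn : Xn (us3 a.1) β = Real.exp (a3 a.1 - w) := by
    unfold TEM792.Xn
    rw [hsum, Real.exp_sub, hw, Real.exp_log hβ0]
  have hV₀ : (2 : ℝ) ^ a.2 / 2 = Real.exp (Real.log 2 * a.2 - Real.log 2) := by
    rw [Real.exp_sub, Real.exp_log two_pos, ← hlog2i, Real.exp_log hp2]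
  have hXV : (Xn (us3 a.1) β * (2 ^ a.2 / 2)) ^ (-(1 / 3) : ℝ) =
      Real.exp (-(a3 a.1 - w + (Real.log 2 * a.2 - Real.log 2)) / 3) := by
    rw [hXn, hV₀, ← Real.exp_add, ← Real.exp_mul]
    congr 1
    ring
  have hHM : (X ^ δ') ^ M ≤ X ^ (ε / 8) := pow_H M hX1 hε
  have hBo2 : Bo ^ 2 ≤ X ^ (ε / 8) := by
    have h1 : Bo ^ 2 + 1 ≤ X ^ (ε / 8) := by
      rw [← hexpX, ← Real.exp_log (show 0 < Bo ^ 2 + 1 by positivity)]
      exact Real.exp_le_exp.2 l4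
    linarith
  have hET : ET q * L = 5 / 3 * (Nn * L) - v * L / 3 +
      max 0 (v * L - (2 * (Nn * L) - κ * L)) / 3 := by
    unfold MnR939.ET
    rw [hm']
    ring
  rw [hXV]
  have h1 : Bo ^ 2 * ((X ^ δ') ^ M * X ^ (ℓ b + ε / 4) * Real.exp W) *
      Real.exp (-(a3 a.1 - w + (Real.log 2 * a.2 - Real.log 2)) / 3) ≤
      X ^ (ε / 8) * (X ^ (ε / 8) * X ^ (ℓ b + ε / 4) * Real.exp W) *
      Real.exp (-(a3 a.1 - w + (Real.log 2 * a.2 - Real.log 2)) / 3) := by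
    refine mul_le_mul_of_nonneg_right ?_ (Real.exp_pos _).le
    refine mul_le_mul hBo2 ?_ (by positivity) (by positivity)
    refine mul_le_mul_of_nonneg_right ?_ (Real.exp_pos _).le
    exact mul_le_mul_of_nonneg_right hHM (by positivity)
  refine h1.trans ?_
  have h2 : X ^ (ET q + ℓ b + gg + ε) / ((nm (∏ i, β i) : ℝ) * nm e₀) =
      Real.exp ((ET q + ℓ b + gg + ε) * L - w - Real.log (nm e₀)) := by
    rw [Real.exp_sub, Real.exp_sub, hexpX, hw, Real.exp_log hβ0, Real.exp_log he₀0, div_div]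
  rw [h2, ← hexpX, ← hexpX, ← Real.exp_add, ← Real.exp_add, ← Real.exp_add, ← Real.exp_add]
  refine Real.exp_le_exp.2 ?_
  have h3 : (ET q + ℓ b + gg + ε) * L = ET q * L + ℓ b * L + gg * L + ε * L := by ring
  rw [h3, hET, hW, ha3]
  linarith

/-- the half length below the family -/
lemma top_half {A d δ δ' B X : ℝ} {N : ℕ} {a : Bd × ℕ} {ps : List Pq}
    {q : (Option (Fin 3 ⊕ Fin 5) → ℝ) × (Kd → ℝ)} (hF : FrL A d δ δ' B X N a ps q)
    (hR : R5 (b5q (dn q.1))) :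
    low5 (dn q.1) + cN (dn q.1) / 2 ≤ max (cκ (dn q.1)) (5 / 4 * cN (dn q.1)) := by
  obtain ⟨k0, y1, y2, y3, x0, hN, x1, adm⟩ := hR
  have e0 : b5q (dn q.1) 0 = cκ (dn q.1) := rfl
  have e1 : b5q (dn q.1) 1 = cu (dn q.1) 2 := rfl
  have e2 : b5q (dn q.1) 2 = cu (dn q.1) 3 := rfl
  have e3 : b5q (dn q.1) 3 = cu (dn q.1) 4 := rfl
  have e4 : b5q (dn q.1) 4 = cx' (dn q.1) := rfl
  have eN : cN (dn q.1) = cu (dn q.1) 2 + cu (dn q.1) 3 + cu (dn q.1) 4 := rfl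
  rw [e0, e1, e2, e3, ← eN] at adm
  rw [e4] at x0 adm
  unfold low5
  have m1 := min_le_left (2 * cN (dn q.1) - cκ (dn q.1)) (3 / 4 * cN (dn q.1))
  have m2 := min_le_right (2 * cN (dn q.1) - cκ (dn q.1)) (3 / 4 * cN (dn q.1))
  have k1 := le_max_left (cκ (dn q.1)) (5 / 4 * cN (dn q.1))
  have k2 := le_max_right (cκ (dn q.1)) (5 / 4 * cN (dn q.1))
  rcases adm with h | ⟨h, -, -⟩
  · linarith
  · linarith

/-- **the T-moment with a constant loss** (939's `TSUe`) -/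
theorem tsue_lo {c₀ : ℝ} (hpu : PU h c₀) (hP : ∀ lam, (π lam).OK)
    (R : ExpRules (7 / 8 + d) rr (ex Dq fun lam => Sp (π lam) h)) (hd : 0 ≤ d)
    (hd1 : d ≤ 1 / 8) {D5 : Set (Fin 5 → ℝ)} (hD : IsCompact D5) (hR5 : ∀ b ∈ D5, R5 b)
    {A : ℝ} (hDm : ∀ q ∈ SqD A d, b5q q.1 ∈ D5) {ℓ : (Fin 5 → ℝ) → ℝ} (hℓ : Continuous ℓ)
    {lo : ℝ} (hlo : ∀ q ∈ SqD A d, ℓ (b5q q.1) + d / 24 ≤ lo)
    (hFE : FE2L (ex Dq fun lam => S0p (π lam) h) D5 ℓ) {e0 : ℝ} (he64 : e0 ≤ 1 / 64) (r : ℝ)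
    {cB : ℝ} (hcB : 0 ≤ cB) {Bf : ℝ → ℝ → ℝ → ℝ}
    (hBf : ∀ l N z, Bf l N z ≤ N + z - l / 2 + cB)
    {Jf : ℝ → ℝ → ℝ → Finset (Eis × Eis)} (hJf : ∀ l N z, OKJ (Jf l N z)) :
    ∀ ε : ℝ, 0 < ε → ∃ δ : ℝ, 0 < δ ∧ ∀ (lam : Λ × Eis) (N : ℕ) (B : ℝ),
    ∃ δ' : ℝ, 0 < δ' ∧ ∃ X₀ : ℝ, 1 < X₀ ∧ ∀ X : ℝ, X₀ ≤ X →
    ∀ (a : Bd × ℕ) (ps : List Pq) (q : (Option (Fin 3 ⊕ Fin 5) → ℝ) × (Kd → ℝ)),
      FrL A d δ δ' B X N a ps q → a.1.ok → lam.2 ∈ SM (π lam.1).n →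
    ∀ β ∈ T3 Bf a.1 r, ∀ e₀ ∈ S (Real.exp (e0 * a.1.l)),
      4 * Real.log (nm e₀) ≤ (low5 (dn q.1) - q.1 none + d) * Real.log X →
      TS (J3 Jf a.1 a.2) (fun x => ‖omL a.2 x‖ *
        ‖TE (alb (f3 (π lam.1) h lam.2 a.1) β) x e₀‖) ≤
        X ^ (ET q + lo + ε) / ((nm (∏ i, β i) : ℝ) * nm e₀) := by
  intro ε hε
  obtain ⟨δ, hδ, H⟩ := tsueLS hpu hP R hd hd1 hD hR5 hDm hℓ hFE he64 r hcB hBf hJf ε hε
  refine ⟨δ, hδ, fun lam N B => ?_⟩
  obtain ⟨δ', hδ', X₀, hX₀, H'⟩ := H lam N B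
  refine ⟨δ', hδ', X₀, hX₀, fun X hX a ps q hF hok hlam β hβ e₀ he₀ hlw => ?_⟩
  have hX1 : 1 < X := lt_of_lt_of_le hX₀ hX
  have hL0 : 0 < Real.log X := Real.log_pos hX1
  have hb : b5q (dn q.1) ∈ D5 := hDm (dn q.1, q.2) hF.dom.1
  have hlow := hF.low
  have h1 := mul_le_mul_of_nonneg_right (top_half hF (hR5 _ hb)) hL0.le
  have h2 := mul_le_mul_of_nonneg_right hlow hL0.le
  refine (H' X hX a ps q hF hok hlam β hβ e₀ he₀ (d / 24) (by positivity) ?_).trans ?_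
  · have e1 : (low5 (dn q.1) - q.1 none + d) * Real.log X =
        low5 (dn q.1) * Real.log X - q.1 none * Real.log X + d * Real.log X := by ring
    have e2 : (q.1 none + cN (dn q.1) / 2) * Real.log X =
        q.1 none * Real.log X + cN (dn q.1) / 2 * Real.log X := by ring
    have e3 : (low5 (dn q.1) + cN (dn q.1) / 2) * Real.log X =
        low5 (dn q.1) * Real.log X + cN (dn q.1) / 2 * Real.log X := by ring
    have e4 : (max (cκ (dn q.1)) (5 / 4 * cN (dn q.1)) + 3 * (d / 24)) * Real.log X =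
        max (cκ (dn q.1)) (5 / 4 * cN (dn q.1)) * Real.log X + d * Real.log X / 8 := by ring
    rw [e3] at h1
    rw [e1] at hlw
    rw [e2, e4]
    linarith
  · refine div_le_div_of_nonneg_right ?_ (by positivity)
    refine Real.rpow_le_rpow_of_exponent_le (by linarith) ?_
    linarith [hlo _ hF.dom.1]

end Crest.Agent.R017.VFa436
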