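import Crest.Agent.R017.TEN_792

/-!
# Row 17, block C70, leaf E4, `x`-side (helper743): `T`-moments over cube-free frequencies

* **`te_ballJ`** : `∑_{J ≤ L cube-free} ‖TE0 (α (e ·)) 1 (c₀ J c³) e₀‖²` from one cube-free moment
* **`ttJ`** : the same as one number from `VN`
-/

set_option autoImplicit false
set_option linter.unusedVariables false
set_option linter.unusedSectionVars false

noncomputable section

open Finset MeasureTheory
open scoped ComplexConjugate Classical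

namespace Crest.Agent.R017.EnX743

open Crest.Agent.R012 Crest.Agent.R012.Eis Crest.Agent.R012.MC
open Crest.Agent.R012.LS2 (S mem_S bl mem_bl)
open Crest.Agent.R017.CM106 (CS FS TG)
open Crest.Agent.R017.C70 (CbF JC)
open Crest.Agent.R017.E1551
open Crest.Agent.R017.E2440 (TE)
open Crest.Agent.R017.Rough381 (VF VF_nonneg VF_mono)
open Crest.Agent.R017.GrB829 (IsC)
open Crest.Agent.R017.TEL792 (PM TE_zero_e TE0_eq Adm_sg sg_supp sum_Wb_gen Wf_eq_Wb' TG_cube FS_PM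
  FS_of_S CF_mul CF_sqf)
open Crest.Agent.R017.TEM792 (VN)

lemma IsC.ne {c : Eis} (h : IsC c) : c ≠ 0 := by
  have h3 : (3 : Eis) ≠ 0 := by norm_num
  have hw : (w : Eis) ≠ 0 := Crest.Agent.R012.Eis.isUnit_w.ne_zero
  rcases h with h | h | h | h <;> rw [h]
  · exact one_ne_zero
  · exact h3
  · exact mul_ne_zero h3 hw
  · exact mul_ne_zero h3 (pow_ne_zero 2 hw)

/-- **the `T`-moment of the cube-free frequencies of a ball** -/
theorem te_ballJ (R : ℝ) (hR : 0 ≤ R) (A : ℕ) (hA : 2 ≤ A) {J : ℝ} (hJ0 : 0 ≤ J)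
    (hAJ : J + 1 < A) : ∃ C : ℝ, 0 ≤ C ∧ ∀ (Y X L M : ℝ), 0 ≤ Y → 0 < X → 0 ≤ L → 0 ≤ M →
      ∀ α : Eis → ℂ, Adm Y X R α → ∀ (e e₀ c c₀ : Eis), IsPrim e → IsPrim e₀ → c ≠ 0 → IsC c₀ →
      (∀ t : ℝ, VF (L * nm c₀ * nm e₀) (PM c (tws (sg α (e * e₀)) t)) ≤ M * (1 + |t|) ^ J) →
      ∑ j ∈ (primBall ⌊L⌋₊).filter CbF,
          ‖E3D579.TE0 (fun m => α (e * m)) 1 (c₀ * (j * c ^ 3)) e₀‖ ^ 2 ≤
        C * ((X / nm e) ^ (-(1 / 3) : ℝ) * M) := by
  obtain ⟨C₀, hC₀, hTE⟩ := LBx48.norm_TE_sq_le R hR A hA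
  set I := ∫ t, jb ((A : ℝ) - J) t with hI
  have hI0 : 0 ≤ I := integral_nonneg fun t => (jb_pos _ t).le
  refine ⟨C₀ * I, by positivity, ?_⟩
  intro Y X L M hY hX hL hM α hα e e₀ c c₀ he he₀ hc hc₀ hyp
  have hen : (0 : ℝ) < nm e := by exact_mod_cast nm_pos.2 he.ne_zero
  have he₀n : (0 : ℝ) < nm e₀ := by exact_mod_cast nm_pos.2 he₀.ne_zero
  have hc₀n : (0 : ℝ) < nm c₀ := by exact_mod_cast nm_pos.2 (IsC.ne hc₀)
  have hX' : 0 < X / nm e := by positivity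
  by_cases hsq : Squarefree e₀
  swap
  · -- everything vanishes
    have hz : ∀ j ∈ (primBall ⌊L⌋₊).filter CbF,
        ‖E3D579.TE0 (fun m => α (e * m)) 1 (c₀ * (j * c ^ 3)) e₀‖ ^ 2 = 0 := by
      intro j _
      have : E3D579.TE0 (fun m => α (e * m)) 1 (c₀ * (j * c ^ 3)) e₀ = 0 := by
        unfold E3D579.TE0
        refine (tsum_congr fun m => ?_).trans tsum_zero
        split_ifs with h
        · have h0 : α (e * m) = 0 := by
            by_contra h1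
            have h2 := ((mem_S hY).1 (hα.sup _ h1)).2.2
            exact hsq ((h2.of_mul_right).squarefree_of_dvd h.1)
          show α (e * m) * _ = 0
          rw [h0, zero_mul]
        · rfl
      rw [this]; simp
    rw [Finset.sum_eq_zero hz]
    positivity
  set Z : ℝ := L * nm c₀ * nm e₀ with hZ
  have hZ0 : 0 ≤ Z := by positivity
  have hα' := Adm_sg hY hX hα he
  have hge : IsPrim (e * e₀) := he.mul he₀
  set β := sg α (e * e₀) with hβ
  have hβS : ∀ n, β n ≠ 0 → n ∈ S Y := sg_supp hY hα.sup hge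
  have hCF0 := CF_sqf he₀.ne_zero hsq
  set T := ((primBall ⌊L⌋₊).filter CbF).filter (fun j => IsCoprime (c₀ * j) e₀) with hT
  have e1 : ∑ j ∈ (primBall ⌊L⌋₊).filter CbF,
      ‖E3D579.TE0 (fun m => α (e * m)) 1 (c₀ * (j * c ^ 3)) e₀‖ ^ 2 =
      ∑ j ∈ T, ‖E3D579.TE0 (fun m => α (e * m)) 1 (c₀ * (j * c ^ 3)) e₀‖ ^ 2 := by
    symm
    refine Finset.sum_subset (Finset.filter_subset _ _) fun j hj hj' => ?_
    rw [hT, Finset.mem_filter, not_and] at hj'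
    have h1 : ¬ IsCoprime (c₀ * (j * c ^ 3)) e₀ := fun h => hj' hj (by
      refine h.of_isCoprime_of_dvd_left ?_
      exact mul_dvd_mul_left _ (dvd_mul_right _ _))
    rw [TE0_eq, TE_zero_e h1]; simp
  rw [e1]
  have hpt : ∀ j ∈ T,
      ‖E3D579.TE0 (fun m => α (e * m)) 1 (c₀ * (j * c ^ 3)) e₀‖ ^ 2 ≤
      C₀ * (X / nm e) ^ (-(1 / 3) : ℝ) * Wb A β (c₀ * (j * c ^ 3) * e₀) := by
    intro j _
    rw [TE0_eq]
    have h1 := hTE Y (X / nm e) hY hX' (sg α e) hα' 1 (c₀ * (j * c ^ 3)) e₀ isPrim_one he₀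
    rw [Wf_eq_Wb'] at h1
    have e1 : sg (sg α e) (1 * e₀) = β := by
      rw [hβ]; unfold sg; funext m; rw [one_mul, mul_assoc]
    rw [e1] at h1
    have e2 : X / nm e / (nm (1 : Eis) : ℝ) = X / nm e := by simp
    rw [e2] at h1
    exact h1
  refine (Finset.sum_le_sum hpt).trans ?_
  rw [← Finset.mul_sum]
  -- the averaged moment
  have h2 := sum_Wb_gen (A := (A : ℝ)) hAJ hJ0 hY hβS T
    (fun j => c₀ * (j * c ^ 3) * e₀) (Q := M) (fun t => by
      have hfs : FS (tws β t) := FS_of_S hY fun n hn => hβS n (left_ne_zero_of_mul hn)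
      have e1 : ∀ j : Eis, TG (tws β t) (c₀ * (j * c ^ 3) * e₀) =
          TG (PM c (tws β t)) (c₀ * j * e₀) := by
        intro j
        rw [← TG_cube hfs]
        congr 1
        ring
      simp only [e1]
      refine le_trans ?_ (hyp t)
      have hinj : Set.InjOn (fun j : Eis => c₀ * j * e₀) (T : Set Eis) := by
        intro a _ b _ hab
        exact mul_left_cancel₀ (IsC.ne hc₀) (mul_right_cancel₀ he₀.ne_zero hab)
      rw [← Finset.sum_image (f := fun x => ‖TG (PM c (tws β t)) x‖ ^ 2) hinj]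
      unfold Rough381.VF
      refine Finset.sum_le_sum_of_subset_of_nonneg ?_ fun _ _ _ => by positivity
      intro x hx
      obtain ⟨j, hj, rfl⟩ := Finset.mem_image.mp hx
      rw [hT, Finset.mem_filter, Finset.mem_filter, mem_primBall] at hj
      obtain ⟨⟨⟨hj1, hj2⟩, hj3⟩, hj4⟩ := hj
      have hJC : JC (c₀ * j) := ⟨c₀, hc₀, j, hj2, hj3, rfl⟩
      have hcf := CF_mul (E5b54.JC_cf hJC) hCF0 hj4
      rw [Finset.mem_filter, mem_bl hZ0]
      refine ⟨⟨hcf.1, ?_⟩, hcf⟩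
      have h4 : (nm j : ℝ) ≤ L := (Nat.cast_le.2 hj1).trans (Nat.floor_le hL)
      rw [nm_mul, nm_mul]
      push_cast
      calc (nm c₀ : ℝ) * nm j * nm e₀ = nm j * nm c₀ * nm e₀ := by ring
        _ ≤ L * nm c₀ * nm e₀ := by gcongr)
  calc C₀ * (X / nm e) ^ (-(1 / 3) : ℝ) *
        ∑ j ∈ T, Wb A β (c₀ * (j * c ^ 3) * e₀) ≤
        C₀ * (X / nm e) ^ (-(1 / 3) : ℝ) * (M * I) :=
        mul_le_mul_of_nonneg_left h2 (by positivity)
    _ = _ := by ring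

/-- **the `T`-moment of the cube-free frequencies of a ball, one number** -/
theorem ttJ (R : ℝ) (hR : 0 ≤ R) {ε : ℝ} (hε : 0 < ε) (K : ℝ) (hK : 1 ≤ K) (M : ℕ) :
    ∃ X₀ : ℝ, 1 < X₀ ∧ ∀ X : ℝ, X₀ ≤ X → ∀ H : ℝ, 1 ≤ H → ∀ (Yw Xw : ℝ), 0 ≤ Yw → 0 < Xw →
      ∀ α : Eis → ℂ, Adm Yw Xw R α → ∀ F : ℝ → ℝ → ℝ, VN X H M (4 * K) α F →
      ∀ L' : ℝ, 0 ≤ L' → L' ≤ X ^ K → ∀ e e₀ c c₀ : Eis, IsPrim e → IsPrim e₀ →
      c ≠ 0 → IsC c₀ → (nm e : ℝ) ≤ X ^ K → (nm e₀ : ℝ) ≤ X ^ K → (nm c : ℝ) ≤ X ^ K →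
      (nm c₀ : ℝ) ≤ X ^ K →
      ∀ eT : ℝ, (1 ≤ L' → F (Real.log (L' * nm c₀ * nm e₀) / Real.log X)
          (Real.log (nm e) / Real.log X + Real.log (nm e₀) / Real.log X) ≤ eT) →
      ∑ j ∈ (primBall ⌊L'⌋₊).filter CbF,
          ‖E3D579.TE0 (fun m => α (e * m)) 1 (c₀ * (j * c ^ 3)) e₀‖ ^ 2 ≤
        H ^ M * X ^ (eT + ε) * (Xw / nm e) ^ (-(1 / 3) : ℝ) := by
  obtain ⟨C, hC, H2⟩ := te_ballJ R hR (3 * M + 2) (by omega)
    (J := 3 * (M : ℝ)) (by positivity) (by push_cast; linarith)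
  obtain ⟨X₂, hX₂, H3⟩ := TEM792.big C ε 0 hε hC le_rfl
  refine ⟨max X₂ 2, lt_of_lt_of_le hX₂ (le_max_left _ _), ?_⟩
  intro X hX H hH Yw Xw hYw hXw α hα F hV L' hL'0 hL'K e e₀ c c₀ he he₀ hc hc₀ heK he₀K hcK hc₀K
    eT hRH
  have hXX2 : X₂ ≤ X := (le_max_left _ _).trans hX
  have hX2 : 2 ≤ X := (le_max_right _ _).trans hX
  have hX1 : 1 < X := by linarith
  have hX0 : 0 < X := by linarith
  set L := Real.log X with hL
  have hL0 : 0 < L := Real.log_pos hX1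
  have hen : (0 : ℝ) < nm e := by exact_mod_cast nm_pos.2 he.ne_zero
  have he₀n : (0 : ℝ) < nm e₀ := by exact_mod_cast nm_pos.2 he₀.ne_zero
  have hc₀n : (0 : ℝ) < nm c₀ := by exact_mod_cast nm_pos.2 (IsC.ne hc₀)
  have he₀1 : (1 : ℝ) ≤ nm e₀ := by exact_mod_cast nm_pos.2 he₀.ne_zero
  have hc₀1 : (1 : ℝ) ≤ nm c₀ := by exact_mod_cast nm_pos.2 (IsC.ne hc₀)
  have hXK1 : 1 ≤ X ^ K := Real.one_le_rpow hX1.le (by linarith)
  by_cases hL1 : 1 ≤ L'
  swap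
  · -- the ball is empty
    have h0 : ⌊L'⌋₊ = 0 := Nat.floor_eq_zero.2 (not_le.1 hL1)
    have h1 : (primBall 0).filter CbF = ∅ := by
      rw [Finset.eq_empty_iff_forall_notMem]
      intro j hj
      rw [Finset.mem_filter, mem_primBall] at hj
      have := nm_pos.2 hj.1.2.ne_zero
      omega
    rw [h0, h1, Finset.sum_empty]
    positivity
  have hR1 := hRH hL1
  set Z : ℝ := L' * nm c₀ * nm e₀ with hZ
  have hZ1 : 1 ≤ Z := by
    calc (1 : ℝ) = 1 * 1 * 1 := by norm_num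
      _ ≤ L' * nm c₀ * nm e₀ := by gcongr
  have hZK : Z ≤ X ^ (3 * K) := by
    have e1 : X ^ (3 * K) = X ^ K * X ^ K * X ^ K := by
      rw [← Real.rpow_add hX0, ← Real.rpow_add hX0]; congr 1; ring
    rw [e1, hZ]
    exact mul_le_mul (mul_le_mul hL'K hc₀K hc₀n.le (by positivity)) he₀K he₀n.le (by positivity)
  have hlogZ : Real.log Z ≤ 3 * K * L := by
    rw [hL, ← Real.log_rpow hX0]
    exact Real.log_le_log (by linarith) hZK
  have hyp : ∀ t : ℝ, VF (L' * nm c₀ * nm e₀) (PM c (tws (sg α (e * e₀)) t)) ≤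
        (H ^ M * X ^ eT) * (1 + |t|) ^ (3 * (M : ℝ)) := by
    intro t
    rw [← hZ]
    have hge : IsPrim (e * e₀) := he.mul he₀
    have hgK : (nm (e * e₀) : ℝ) ≤ X ^ (4 * K) := by
      rw [nm_mul]
      push_cast
      have e1 : X ^ (4 * K) = X ^ K * X ^ K * (X ^ K * X ^ K) := by
        rw [← Real.rpow_add hX0, ← Real.rpow_add hX0]; congr 1; ring
      rw [e1]
      calc (nm e : ℝ) * nm e₀ ≤ X ^ K * X ^ K := by gcongr
        _ = X ^ K * X ^ K * 1 := (mul_one _).symm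
        _ ≤ _ := by
            refine mul_le_mul_of_nonneg_left ?_ (by positivity)
            nlinarith
    have hcs : (nm c : ℝ) ≤ X ^ (4 * K) :=
      hcK.trans (Real.rpow_le_rpow_of_exponent_le hX1.le (by linarith))
    set k := Real.log Z with hk
    have hk0 : 0 ≤ k := Real.log_nonneg hZ1
    have hkK : k ≤ 4 * K * L := by
      have : 0 ≤ K * L := by positivity
      linarith
    have e2 : Real.log (nm e) / L + Real.log (nm e₀) / L = Real.log (nm (e * e₀)) / L := by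
      rw [nm_mul]
      push_cast
      rw [Real.log_mul hen.ne' he₀n.ne']
      ring
    rw [e2] at hR1
    have h4 := hV.all hX0 (by linarith) hYw hα.sup hge hgK hc hcs hk0 hkK t
    rw [hk, Real.exp_log (by linarith)] at h4
    refine h4.trans ?_
    rw [← hk, ← hL]
    have h5 : X ^ F (k / L) (Real.log (nm (e * e₀)) / L) ≤ X ^ eT :=
      Real.rpow_le_rpow_of_exponent_le hX1.le hR1
    have ht : (0 : ℝ) ≤ (1 + |t|) ^ (3 * (M : ℝ)) := by positivity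
    have hHM : (0 : ℝ) ≤ H ^ M := by positivity
    gcongr
  have h5 := H2 Yw Xw L' (H ^ M * X ^ eT) hYw hXw hL'0 (by positivity) _ hα e e₀ c c₀ he he₀
    hc hc₀ hyp
  refine h5.trans ?_
  have h6 : C ≤ X ^ ε := by
    refine le_trans (le_of_eq ?_) (H3 X hXX2)
    ring
  have hq : 0 ≤ (Xw / nm e) ^ (-(1 / 3) : ℝ) := by positivity
  have hHM : (0 : ℝ) ≤ H ^ M := by positivity
  have e6 : X ^ ε * X ^ eT = X ^ (eT + ε) := by
    rw [← Real.rpow_add hX0]; congr 1; ring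
  have hp : 0 ≤ X ^ eT := by positivity
  calc C * ((Xw / nm e) ^ (-(1 / 3) : ℝ) * (H ^ M * X ^ eT)) ≤
        X ^ ε * ((Xw / nm e) ^ (-(1 / 3) : ℝ) * (H ^ M * X ^ eT)) := by
        gcongr
    _ = H ^ M * (X ^ ε * X ^ eT) * (Xw / nm e) ^ (-(1 / 3) : ℝ) := by ring
    _ = _ := by rw [e6]

end Crest.Agent.R017.EnX743
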