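import Crest.Agent.R017.TSV_436
import Crest.Agent.R017.MnD_939

/-!
# Row 17, E4 (StrU, polar terms) : 939's T-moment `TSU` from 708's flat claims (helper436)

* `πt`     : the family twisted by the `S`-units (61's `tU`)
* `z_line` : the real inequality
* `tsuL`   : `TSU` with the loss `ℓ` of `FE2L`
* `tsu_of` : `TSU`
-/

set_option autoImplicit false
set_option linter.unusedVariables false
set_option linter.unusedSectionVars false

noncomputable section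

open Set

namespace Crest.Agent.R017.VFa436

open Crest.Agent.R012 Crest.Agent.R012.Eis
open Crest.Agent.R012.LS2 (S mem_S)
open Crest.Agent.R017.FE47 (PU cx SM)
open Crest.Agent.R017.XG702 (Pcs)
open Crest.Agent.R017.XT71 (Sys Win mx le_mx)
open Crest.Agent.R017.Prov71
open Crest.Agent.R017.B770
open Crest.Agent.R017.ER911
open Crest.Agent.R017.HP842 (Pc pc)
open Crest.Agent.R017.TM708 (FE2L R5 K5 eH eF)
open Crest.Agent.R017.TEM792 (Xn Xn_pos)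
open Crest.Agent.R017.E5k54 (alb)
open Crest.Agent.R017.E2440 (TE)
open Crest.Agent.R017.C70 (OKJ)
open Crest.Agent.R017.E5B71 (Bd S5 cκ cu cN cx' cM Sq5 SqD)
open Crest.Agent.R017.E5L770
open Crest.Agent.R017.E4U164
open Crest.Agent.R017.TwP61 (tU tU_OK)
open Crest.Agent.R017.E4P939 (TS)
open Crest.Agent.R017.MnR939 (ET)
open Crest.Agent.R017.MnU939 (TSU FrL_l FrL_u FrL_v)

/-! ### the real inequality -/

/-- **the T-number of the children at most the flat number** -/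
lemma z_line {κ N x v s lV w e y t : ℝ} (ht : 0 ≤ t) (hS : s ≤ N + t) (hV : lV ≤ v + t)
    (he : 0 ≤ e) (hy : 0 ≤ y) (hw : 0 ≤ w) (hw1 : w ≤ N + x - κ / 2 + 3 * t) (hx0 : 0 ≤ x)
    (hx : x ≤ κ / 36) (hv1 : v ≤ 23 / 36 * κ) (hv2 : κ ≤ 5 / 4 * N → v ≤ 3 / 4 * N) :
    eH (max κ (5 / 4 * N)) (lV + e - 2 * y) (s - w - (y + e)) + 2 * y ≤
      2 * N + max 0 (v - (2 * N - κ)) / 3 - 4 / 3 * w + 4 * t := by
  have hm0 := le_max_left 0 (v - (2 * N - κ))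
  have hm1 := le_max_right 0 (v - (2 * N - κ))
  set m := max 0 (v - (2 * N - κ))
  have hK : (max κ (5 / 4 * N) + v) / 3 + 4 / 3 * N ≤ 2 * N + m / 3 := by
    rcases le_total κ (5 / 4 * N) with h | h
    · rw [max_eq_right h]
      have := hv2 h
      linarith
    · rw [max_eq_left h]
      linarith
  have hK0 : κ ≤ max κ (5 / 4 * N) := le_max_left _ _
  rw [← le_sub_iff_add_le]
  unfold TM708.eH TM708.eF
  refine max_le (max_le (by linarith) ?_) (by linarith)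
  have : max (max κ (5 / 4 * N)) (3 / 2 * (lV + e - 2 * y)) ≤
      3 * (2 * N + m / 3 - 4 / 3 * w + 4 * t - 2 * y - 4 / 3 * (s - w - (y + e))) -
        (lV + e - 2 * y) := by
    refine max_le ?_ ?_ <;> linarith
  linarith

variable {Λ : Type*} {π : Λ → DPar} {h : ℝ → ℝ} {d : ℝ} {rr : EF}

/-- indices with an `S`-unit -/
abbrev LT (π : Λ → DPar) := {lam : Λ × Eis // lam.2 ∈ SM (π lam.1).n}

/-- **the family twisted by the `S`-units** -/
def πt (π : Λ → DPar) (lam : LT π) : DPar := tU (π lam.1.1) lam.1.2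

lemma πt_OK (hP : ∀ lam, (π lam).OK) (lam : LT π) : (πt π lam).OK := tU_OK (hP _) lam.2

/-- the point of a configuration -/
def b5q (p : Fin 3 ⊕ Fin 5 → ℝ) : Fin 5 → ℝ := ![cκ p, cu p 2, cu p 3, cu p 4, cx' p]

lemma FrL_x {A d δ δ' B X : ℝ} {N : ℕ} {a : Bd × ℕ} {ps : List Pq}
    {q : (Option (Fin 3 ⊕ Fin 5) → ℝ) × (Kd → ℝ)} (h : FrL A d δ δ' B X N a ps q) (hX : 1 < X) :
    |a.1.z - cx' (dn q.1) * Real.log X| ≤ δ * Real.log X := by
  have hL := Real.log_pos hX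
  have h1 := h.win.ev (some (.inl 1))
  have e1 : (lev (Real.log 2) S5).ev X a (some (.inl 1)) = a.1.z / Real.log X := rfl
  have e2 : q.1 (some (.inl 1)) = cx' (dn q.1) := rfl
  rw [e1, e2] at h1
  have h2 := mul_le_mul_of_nonneg_right h1 hL.le
  rw [← abs_of_pos hL, ← abs_mul, abs_of_pos hL, sub_mul, div_mul_cancel₀ _ hL.ne'] at h2
  exact h2

/-- consequences of the region -/
lemma top_facts {A d : ℝ} {q : (Option (Fin 3 ⊕ Fin 5) → ℝ) × (Kd → ℝ)} (hq : q ∈ SqL A d)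
    (hR : R5 (b5q (dn q.1))) :
    0 ≤ cx' (dn q.1) ∧ cx' (dn q.1) ≤ cκ (dn q.1) / 36 ∧
      q.1 none ≤ TM708.T5 (b5q (dn q.1)) ∧ q.1 none ≤ 23 / 36 * cκ (dn q.1) ∧
      (cκ (dn q.1) ≤ 5 / 4 * cN (dn q.1) → q.1 none ≤ 3 / 4 * cN (dn q.1)) ∧
      cN (dn q.1) ≤ 102 / 125 * cκ (dn q.1) ∧ 0 ≤ cu (dn q.1) 2 ∧ 0 ≤ cu (dn q.1) 3 ∧
      0 ≤ cu (dn q.1) 4 := by
  obtain ⟨-, -, h3⟩ := hq
  have hT := hR.T5_le
  obtain ⟨k0, y1, y2, y3, x0, hN, x1, adm⟩ := hR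
  have e0 : b5q (dn q.1) 0 = cκ (dn q.1) := rfl
  have e1 : b5q (dn q.1) 1 = cu (dn q.1) 2 := rfl
  have e2 : b5q (dn q.1) 2 = cu (dn q.1) 3 := rfl
  have e3 : b5q (dn q.1) 3 = cu (dn q.1) 4 := rfl
  have e4 : b5q (dn q.1) 4 = cx' (dn q.1) := rfl
  have eN : cN (dn q.1) = cu (dn q.1) 2 + cu (dn q.1) 3 + cu (dn q.1) 4 := rfl
  have hT5 : TM708.T5 (b5q (dn q.1)) =
      min (2 * cN (dn q.1) - cκ (dn q.1)) (3 / 4 * cN (dn q.1)) + 5 * cx' (dn q.1) := by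
    unfold TM708.T5
    rw [e0, e1, e2, e3, e4, ← eN]
  rw [e0] at k0 hN x1 adm hT
  rw [e1] at y1 hN adm
  rw [e2] at y2 hN adm
  rw [e3] at y3 hN adm
  rw [e4] at x0 x1 adm
  rw [← eN] at hN adm
  unfold top5 at h3
  have hvT : q.1 none ≤ TM708.T5 (b5q (dn q.1)) := by rw [hT5]; linarith
  refine ⟨x0, by linarith, hvT, hvT.trans hT, fun hk => ?_, hN, y1, y2, y3⟩
  have h5 := min_le_right (2 * cN (dn q.1) - cκ (dn q.1)) (3 / 4 * cN (dn q.1))
  rcases adm with h | ⟨h, -, -⟩ <;> linarith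

end Crest.Agent.R017.VFa436
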