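import Crest.Agent.R017.MnX_939
import Crest.Agent.R017.TSU_436
import Crest.Agent.R017.XVNc_792
import Crest.Agent.R017.TEN_792

/-!
# Row 17, R8 / E4, class E: the T-moment of the double difference at list level (helper939)

* `zE`, `bias_line` : the two real lines
* `VNXE` : the moments of the double difference at list level (input)
* `tsux_of` : `TSUXe` from `VNXE`
-/

set_option autoImplicit false
set_option linter.unusedVariables false

noncomputable section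

open Set

namespace Crest.Agent.R017.MnU939

open Crest.Agent.R012 Crest.Agent.R012.Eis
open Crest.Agent.R012.LS2 (S mem_S)
open Crest.Agent.R017.FE47 (PU cx SM)
open Crest.Agent.R017.XT71 (Sys Win mx le_mx)
open Crest.Agent.R017.Prov71
open Crest.Agent.R017.B770
open Crest.Agent.R017.HP842 (Pc pc)
open Crest.Agent.R017.TM708 (R5 K5 eH eF)
open Crest.Agent.R017.TEM792 (Xn Xn_pos nL VN tsdV)
open Crest.Agent.R017.TEX792 (ClK LDX Sv vn_alX adm_alX)
open Crest.Agent.R017.E5k54 (alb)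
open Crest.Agent.R017.E2440 (TE)
open Crest.Agent.R017.C70 (OKJ)
open Crest.Agent.R017.E5B71 (Bd S5 cκ cu cN cx' cM Sq5 SqD)
open Crest.Agent.R017.E5L770 hiding nL
open Crest.Agent.R017.E5LX770 (SqLX bfE)
open Crest.Agent.R017.ExP960 hiding alX
open Crest.Agent.R017.E4U164
open Crest.Agent.R017.E4Df372
open Crest.Agent.R017.E4P939 (TS)
open Crest.Agent.R017.MnR939 (ET)
open Crest.Agent.R017.VFa436 (b5q top_facts omL_bd Jv_win T3_spec)
open Crest.Agent.R017.Red848 (Exc red)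
open Crest.Agent.R017.PX764 (Dk)

/-! ### the real lines -/

/-- **the flat line with the gain of the step**, free family `max K5 (v + n / 2)` -/
lemma zE {κ N x v s lV w e y t lx d : ℝ} (ht : 0 ≤ t) (hS : s ≤ N + t) (hV : lV ≤ v + t)
    (he : 0 ≤ e) (he1 : e ≤ κ / 60 + t) (hy : 0 ≤ y) (hw : 0 ≤ w)
    (hw1 : w ≤ N + x - κ / 2 + 3 * t) (hx0 : 0 ≤ x)
    (hx : x ≤ κ / 36) (hv1 : v ≤ 23 / 36 * κ) (hv2 : κ ≤ 5 / 4 * N → v ≤ 3 / 4 * N)
    (hd : 0 ≤ d) (hlow : v ≤ lx) (hlx : lx + N / 2 ≤ max κ (5 / 4 * N))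
    (hex : 4 * e ≤ lx - v + d) :
    eH (max (max κ (5 / 4 * N)) (lV + e - 2 * y + (s - w - (y + e)) / 2))
      (lV + e - 2 * y) (s - w - (y + e)) + 2 * y ≤
      2 * N + max 0 (v - (2 * N - κ)) / 3 - 4 / 3 * w - e + d / 24 + 4 * t := by
  have hm0 := le_max_left 0 (v - (2 * N - κ))
  have hm1 := le_max_right 0 (v - (2 * N - κ))
  set m := max 0 (v - (2 * N - κ))
  have hK : (max κ (5 / 4 * N) + v) / 3 + 4 / 3 * N ≤ 2 * N + m / 3 := by
    rcases le_total κ (5 / 4 * N) with h | h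
    · rw [max_eq_right h]
      have := hv2 h
      linarith
    · rw [max_eq_left h]
      linarith
  have hK0 : κ ≤ max κ (5 / 4 * N) := le_max_left _ _
  rw [← le_sub_iff_add_le]
  unfold TM708.eH TM708.eF
  refine max_le (max_le (by linarith) ?_) (by linarith)
  have : max (max (max κ (5 / 4 * N)) (lV + e - 2 * y + (s - w - (y + e)) / 2))
      (3 / 2 * (lV + e - 2 * y)) ≤
      3 * (2 * N + m / 3 - 4 / 3 * w - e + d / 24 + 4 * t - 2 * y -
        4 / 3 * (s - w - (y + e))) - (lV + e - 2 * y) := by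
    refine max_le (max_le ?_ ?_) ?_
    · linarith
    · linarith
    · linarith
  linarith

/-- **the line of the bias** -/
lemma bias_line {κ N x v s lV w e y t s₀ β c e1 : ℝ} (ht : 0 ≤ t) (hS : s ≤ N + t)
    (hV : lV ≤ v + t) (he : 0 ≤ e) (he1 : e ≤ e1 * κ + t) (hy : 0 ≤ y) (hw : 0 ≤ w)
    (hw2 : w ≤ (min (2 * N - κ) (3 / 4 * N) + 3 * x - v) / 2 + c * κ + 8 * t)
    (hs : β * κ - w - 3 * t ≤ s₀) (hx0 : 0 ≤ x) (hadm : x ≤ 0 ∨ N + x ≤ 4 / 5 * κ)
    (hN : N ≤ 102 / 125 * κ) (hκ : 0 ≤ κ) (hβ : 17 / 125 + 2 / 3 * c + e1 ≤ β)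
    (hv : v ≤ min (2 * N - κ) (3 / 4 * N) + 9 / 4 * x) :
    2 / 3 * (lV + e - 2 * y) + 5 / 3 * (s - w - (y + e)) - max 0 (s₀ - (y + e)) + 2 * y ≤
      2 * N + max 0 (v - (2 * N - κ)) / 3 - 4 / 3 * w - e + 20 * t := by
  have hm0 := le_max_left 0 (v - (2 * N - κ))
  have hm1 := le_max_right 0 (v - (2 * N - κ))
  have hs1 := le_max_right 0 (s₀ - (y + e))
  have hA1 := min_le_left (2 * N - κ) (3 / 4 * N)
  have hA2 := min_le_right (2 * N - κ) (3 / 4 * N)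
  have hβκ : (17 / 125 + 2 / 3 * c + e1) * κ ≤ β * κ := mul_le_mul_of_nonneg_right hβ hκ
  set m := max 0 (v - (2 * N - κ))
  set A' := min (2 * N - κ) (3 / 4 * N)
  rcases hadm with h | h
  · have hx : x = 0 := le_antisymm h hx0
    rw [hx] at hv hw2
    linarith
  · linarith

variable {Λ : Type*}

section defs

variable (π : Λ → DPar) (h : ℝ → ℝ)

/-- **the moments of the double difference at list level** (helper792's `VN`) : `F` is at most the
flat number of the parent `b5q`, family `max K5 (v + n' / 2)`, loss `lo` -/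
def VNXE (A d β lo r : ℝ) (Bf : ℕ → ℝ → ℝ → ℝ → ℝ) : Prop :=
  ∀ ε : ℝ, 0 < ε → ∃ δ : ℝ, 0 < δ ∧ ∀ (lam : Λ × Eis) (N : ℕ) (B K : ℝ), 1 ≤ K →
    ¬ (π lam.1).CaseD → lam.2 ∈ SM (π lam.1).n → ∃ (M : ℕ) (X₀ : ℝ), 1 < X₀ ∧ ∀ X : ℝ, X₀ ≤ X →
    ∀ δ' : ℝ, 0 < δ' → δ' ≤ 1 →
    ∀ (a : BdX × ℕ) (ps : List Pq) (q : (Option IX5 → ℝ) × (Kd → ℝ)),
      FrLX A d β δ δ' B X N a ps q → a.1.ok → a.1.okP (π lam.1) →
    ∀ b ∈ T3 (Bf a.2) a.1.toBd r, ∀ s₀ : ℝ, LDX X K (X ^ δ') s₀ a.1 b →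
    ∃ F : ℝ → ℝ → ℝ, VN X (X ^ δ') M K (E4Df372.alX (π lam.1) h lam.2 a.1 b)
        (fun v γ => max (F v γ) (2 / 3 * v + 5 / 3 * (nL X (u3 a.1) b - γ) -
          max 0 (s₀ - γ)) + ε) ∧
      ∀ v γ : ℝ, 0 ≤ v → 0 ≤ γ → 0 ≤ nL X (u3 a.1) b - γ →
        v + (nL X (u3 a.1) b - γ) ≤ q.1 none + cN (prX (dn q.1)) + 20 * δ →
        F v γ ≤ eH (max (K5 (b5q (prX (dn q.1)))) (v + (nL X (u3 a.1) b - γ) / 2)) v
          (nL X (u3 a.1) b - γ) + lo + ε

end defs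

section frame

variable {A d δ δ' B X β : ℝ} {N : ℕ} {a : BdX × ℕ} {ps : List Pq}
  {q : (Option IX5 → ℝ) × (Kd → ℝ)}

lemma FrLX_x (h : FrLX A d β δ δ' B X N a ps q) (hX : 1 < X) :
    |a.1.z - cx' (prX (dn q.1)) * Real.log X| ≤ δ * Real.log X :=
  toX hX (h.win.ev (some (.inl (.inl 1))))

lemma FrLX_z2 (h : FrLX A d β δ δ' B X N a ps q) (hX : 1 < X) :
    |a.1.zs 2 - q.1 (some (.inr 1)) * Real.log X| ≤ δ * Real.log X :=
  toX hX (h.win.ev (some (.inr 1)))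

end frame

variable {π : Λ → DPar} {h : ℝ → ℝ} {d : ℝ}

open Classical in
set_option maxHeartbeats 3200000 in
/-- **the T-moment of the double difference from its moments** -/
theorem tsux_of {c₀ : ℝ} (hpu : PU h c₀) (hd : 0 ≤ d)
    {D5 : Set (Fin 5 → ℝ)} (hR5 : ∀ b ∈ D5, R5 b) {A : ℝ} (hDm : ∀ q ∈ SqD A d, b5q q.1 ∈ D5)
    {β lo e0 r c : ℝ} (hβ0 : 0 ≤ β) (hβ1 : β ≤ 1 / 5) (hβA : β ≤ A - 102 / 125)
    (he0 : 0 ≤ e0) (he1 : e0 ≤ 1 / 60) (hc : 0 ≤ c) (hβc : 17 / 125 + 2 / 3 * c + e0 ≤ β)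
    (hlo : 0 ≤ lo)
    {Bf : ℕ → ℝ → ℝ → ℝ → ℝ} (hBf : ∀ i l N z, Bf i l N z ≤ bfE c i l N z)
    {Jf : ℝ → ℝ → ℝ → Finset (Eis × Eis)} (hJf : ∀ l N z, OKJ (Jf l N z))
    (H : VNXE π h A d β lo r Bf) : TSUXe π h A d β (lo + d / 24) e0 r Bf Jf := by
  intro ε hε
  obtain ⟨δ₁, hδ₁, H⟩ := H (ε / 16) (by positivity)
  obtain ⟨Bo, hBo, hom⟩ := omL_bd
  obtain ⟨R, Hc, hR0, -, hR, -⟩ := E4Us512.bdd_PU hpu
  set δ : ℝ := min δ₁ (min (1 / 1000) (ε / 2000)) with hδd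
  have hδ : 0 < δ := lt_min hδ₁ (lt_min (by norm_num) (by positivity))
  have hδδ : δ ≤ δ₁ := min_le_left _ _
  have hδ1 : δ ≤ 1 / 1000 := (min_le_right _ _).trans (min_le_left _ _)
  have hδε : δ ≤ ε / 2000 := (min_le_right _ _).trans (min_le_right _ _)
  refine ⟨δ, hδ, fun lam N B hD => ?_⟩
  by_cases hm : lam.2 ∈ SM (π lam.1).n
  swap
  · exact ⟨1, one_pos, 2, by norm_num, fun X _ a ps q _ _ h => absurd h hm⟩
  set K₀ : ℝ := max B 12 with hK₀
  have hK12 : 12 ≤ K₀ := le_max_right _ _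
  have hKB : B ≤ K₀ := le_max_left _ _
  obtain ⟨M, X₁, hX₁, H⟩ := H lam N B (2 * K₀) (by linarith) hD hm
  obtain ⟨X₃, hX₃, T⟩ := tsdV (6 * R) (by positivity) (show 0 < ε / 16 by positivity) K₀
    (by linarith) M
  set δ' : ℝ := min 1 (ε / (16 * ((M : ℝ) + 1))) with hδ'
  have hδ'0 : 0 < δ' := lt_min one_pos (by positivity)
  set L₀ : ℝ := max (max 1 (Real.log 2 / δ)) (16 / ε * Real.log (Bo ^ 2 + 1)) with hL₀
  refine ⟨δ', hδ'0, max X₁ (max X₃ (Real.exp L₀)),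
    lt_of_lt_of_le hX₁ (le_max_left _ _), ?_⟩
  intro X hX a ps q hF hok _ hokP b hb e₀ he₀ hxl
  have g1 : X₁ ≤ X := (le_max_left _ _).trans hX
  have g3 : X₃ ≤ X := ((le_max_left _ _).trans (le_max_right _ _)).trans hX
  have hXe : Real.exp L₀ ≤ X := ((le_max_right _ _).trans (le_max_right _ _)).trans hX
  have hX1 : 1 < X := lt_of_lt_of_le hX₁ g1
  have hX0 : 0 < X := by linarith
  set L := Real.log X with hL
  have hL0 : 0 < L := Real.log_pos hX1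
  have hLL : L₀ ≤ L := (Real.le_log_iff_exp_le hX0).2 hXe
  have l1 : 1 ≤ L := ((le_max_left _ _).trans (le_max_left _ _)).trans hLL
  have l2 : Real.log 2 / L ≤ δ := by
    have := ((le_max_right _ _).trans (le_max_left _ _)).trans hLL
    rw [div_le_iff₀ hδ] at this
    rw [div_le_iff₀ hL0]
    linarith
  have l4 : Real.log (Bo ^ 2 + 1) ≤ ε / 16 * L := by
    have h1 := (le_max_right _ _).trans hLL
    have e : 16 / ε * Real.log (Bo ^ 2 + 1) = Real.log (Bo ^ 2 + 1) / (ε / 16) := by field_simp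
    rw [e, div_le_iff₀ (by positivity)] at h1
    linarith
  -- the region
  have hq := dnX_mem hF.dom
  have hZR : ZR β (dn q.1) := hF.dom.1.2
  have hbD : b5q (prX (dn q.1)) ∈ D5 := hDm (prX (dn q.1), q.2) hq.1
  have hSq : Sq5 A d (prX (dn q.1)) q.2 := hq.1
  obtain ⟨x0, x1, hvT, hv1, hv2, hN, y1, y2, y3⟩ := top_facts hq (hR5 _ hbD)
  have hadm := (hR5 _ hbD).adm
  have hv0 : 0 ≤ q.1 none := hq.2.1
  have hlow := hF.low
  have hκ0 := hSq.κ0
  have hκ1 := hSq.κ1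
  have hκ31 := hSq.κ31
  have hnear := hSq.near
  obtain ⟨-, -, ha32, ha43⟩ := hSq.anti
  have eK : K5 (b5q (prX (dn q.1))) =
      max (cκ (prX (dn q.1))) (5 / 4 * cN (prX (dn q.1))) := rfl
  have hz2 := hZR 1
  have hR5b : cx' (prX (dn q.1)) ≤ 0 ∨
      cN (prX (dn q.1)) + cx' (prX (dn q.1)) ≤ 4 / 5 * cκ (prX (dn q.1)) := by
    rcases hadm with h | ⟨h, -, -⟩
    · exact Or.inl h
    · refine Or.inr ?_
      have e : cN (prX (dn q.1)) = cu (prX (dn q.1)) 2 + cu (prX (dn q.1)) 3 +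
        cu (prX (dn q.1)) 4 := rfl
      have h' : cu (prX (dn q.1)) 2 + cu (prX (dn q.1)) 3 + cu (prX (dn q.1)) 4 +
        cx' (prX (dn q.1)) ≤ 4 / 5 * cκ (prX (dn q.1)) := h
      rw [e]; exact h'
  change 0 ≤ cx' (prX (dn q.1)) at x0
  change cx' (prX (dn q.1)) ≤ cκ (prX (dn q.1)) / 36 at x1
  change q.1 none ≤ 23 / 36 * cκ (prX (dn q.1)) at hv1
  change cκ (prX (dn q.1)) ≤ 5 / 4 * cN (prX (dn q.1)) → q.1 none ≤ 3 / 4 * cN (prX (dn q.1)) at hv2
  change cN (prX (dn q.1)) ≤ 102 / 125 * cκ (prX (dn q.1)) at hN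
  change β * cκ (prX (dn q.1)) ≤ q.1 (some (.inr 1)) ∧ q.1 (some (.inr 1)) ≤ β at hz2
  have hlx : low5 (prX (dn q.1)) + cN (prX (dn q.1)) / 2 ≤
      max (cκ (prX (dn q.1))) (5 / 4 * cN (prX (dn q.1))) := by
    unfold low5
    have k1 := min_le_left (2 * cN (prX (dn q.1)) - cκ (prX (dn q.1)))
      (3 / 4 * cN (prX (dn q.1)))
    have k2 := min_le_right (2 * cN (prX (dn q.1)) - cκ (prX (dn q.1)))
      (3 / 4 * cN (prX (dn q.1)))
    rcases hR5b with h | h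
    · have hx : cx' (prX (dn q.1)) = 0 := le_antisymm h x0
      rw [hx]
      rcases le_total (cκ (prX (dn q.1))) (5 / 4 * cN (prX (dn q.1))) with h5 | h5
      · exact le_max_of_le_right (by linarith)
      · exact le_max_of_le_left (by linarith)
    · exact le_max_of_le_left (by linarith)
  have hlow0 := hlow
  unfold low5 at hlow
  have eN : cN (prX (dn q.1)) = cu (prX (dn q.1)) 2 + cu (prX (dn q.1)) 3 +
    cu (prX (dn q.1)) 4 := rfl
  set κ := cκ (prX (dn q.1))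
  set x := cx' (prX (dn q.1))
  set v := q.1 none
  set Nn := cN (prX (dn q.1)) with hNn
  have hA' : (102 / 125 + β) * κ ≤ A * κ :=
    mul_le_mul_of_nonneg_right (by linarith) (by linarith)
  have hβκ : β * κ ≤ β := by
    have := mul_le_mul_of_nonneg_left hκ1 hβ0
    linarith
  have hβκ0 : 0 ≤ β * κ := mul_nonneg hβ0 (by linarith)
  -- the frame, normalised
  have nl := abs_le.1 (FrLX_l hF hX1)
  have nu2 := abs_le.1 (FrLX_u hF hX1 2)
  have nu3 := abs_le.1 (FrLX_u hF hX1 3)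
  have nu4 := abs_le.1 (FrLX_u hF hX1 4)
  have nv := abs_le.1 (FrLX_v hF hX1)
  have nx := abs_le.1 (FrLX_x hF hX1)
  have nz2 := abs_le.1 (FrLX_z2 hF hX1)
  rw [← hL] at nl nu2 nu3 nu4 nv nx nz2
  have hsum : ∑ i, (u3 a.1 i).z = a3 a.1.toBd := sum_u3 a.1
  have ha3 : a3 a.1.toBd = (a.1.us 2).z + (a.1.us 3).z + (a.1.us 4).z := by
    rw [← hsum, Fin.sum_univ_three]; rfl
  have hdL : 0 < δ * L := by positivity
  -- the tuple
  obtain ⟨hbp, hbB⟩ := T3_spec hb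
  have hb0 : (0 : ℝ) < nm (∏ i, b i) := by
    exact_mod_cast nm_pos.2 (HP842.isPrim_prod hbp).ne_zero
  have hb1 : (1 : ℝ) ≤ nm (∏ i, b i) := by
    exact_mod_cast nm_pos.2 (HP842.isPrim_prod hbp).ne_zero
  set lw := Real.log (nm (∏ i, b i)) with hlw
  have hlw0 : 0 ≤ lw := Real.log_nonneg hb1
  have hlwB : lw ≤ bfE c a.2 a.1.l (a3 a.1.toBd) a.1.z := by
    have := Real.log_le_log hb0 hbB
    rw [Real.log_exp] at this
    exact this.trans (hBf _ _ _ _)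
  have hw1 : lw ≤ Nn * L + x * L - κ * L / 2 + 3 * (4 * (δ * L)) := by
    have h1 : lw ≤ bfO a.1.l (a3 a.1.toBd) a.1.z := hlwB.trans (min_le_left _ _)
    unfold E5L770.bfO at h1
    have e : Nn * L = cu (prX (dn q.1)) 2 * L + cu (prX (dn q.1)) 3 * L +
        cu (prX (dn q.1)) 4 * L := by rw [eN]; ring
    linarith [nu2.2, nu3.2, nu4.2, nx.2, nl.1]
  have hw2 : lw ≤ (min (2 * Nn - κ) (3 / 4 * Nn) * L + 3 * (x * L) - v * L) / 2 + c * (κ * L) +
      8 * (4 * (δ * L)) := by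
    have h1 : lw ≤ (topL a.1.l (a3 a.1.toBd) a.1.z - Real.log 2 * a.2) / 2 + c * a.1.l :=
      hlwB.trans (min_le_right _ _)
    unfold E5L770.topL at h1
    have e : Nn * L = cu (prX (dn q.1)) 2 * L + cu (prX (dn q.1)) 3 * L +
        cu (prX (dn q.1)) 4 * L := by rw [eN]; ring
    have h2 : min (2 * a3 a.1.toBd - a.1.l) (3 / 4 * a3 a.1.toBd) ≤
        min (2 * Nn - κ) (3 / 4 * Nn) * L + 7 * (δ * L) := by
      rw [min_mul_of_nonneg _ _ hL0.le, ← min_add_add_right]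
      refine min_le_min ?_ ?_
      · linarith [nu2.2, nu3.2, nu4.2, nl.1]
      · linarith [nu2.2, nu3.2, nu4.2]
    have h3 : c * a.1.l ≤ c * (κ * L + δ * L) := mul_le_mul_of_nonneg_left (by linarith [nl.2]) hc
    have h4 : c * (δ * L) ≤ 1 * (δ * L) := mul_le_mul_of_nonneg_right (by linarith) hdL.le
    have h5 : 0 ≤ x * L := mul_nonneg x0 hL0.le
    linarith [nx.2, nv.1]
  -- normalised numbers
  set w := lw / L with hw
  have hwL : w * L = lw := div_mul_cancel₀ _ hL0.ne'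
  have hw0 : 0 ≤ w := div_nonneg hlw0 hL0.le
  have hw1' : w ≤ Nn + x - κ / 2 + 3 * (4 * δ) := by
    rw [hw, div_le_iff₀ hL0]
    refine hw1.trans (le_of_eq ?_)
    ring
  have hw2' : w ≤ (min (2 * Nn - κ) (3 / 4 * Nn) + 3 * x - v) / 2 + c * κ + 8 * (4 * δ) := by
    rw [hw, div_le_iff₀ hL0]
    refine hw2.trans (le_of_eq ?_)
    ring
  obtain ⟨hen, hep, -⟩ := (mem_S (Real.exp_pos _).le).1 he₀
  have he₀0 : (0 : ℝ) < nm e₀ := by exact_mod_cast nm_pos.2 hep.ne_zero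
  have he₀1 : (1 : ℝ) ≤ nm e₀ := by exact_mod_cast nm_pos.2 hep.ne_zero
  have hleL : Real.log (nm e₀) ≤ e0 * κ * L + δ * L := by
    have h1 := Real.log_le_log he₀0 hen
    rw [Real.log_exp] at h1
    have h2 : e0 * a.1.l ≤ e0 * (κ * L + δ * L) := mul_le_mul_of_nonneg_left (by linarith [nl.2]) he0
    have h3 : e0 * (δ * L) ≤ 1 * (δ * L) := mul_le_mul_of_nonneg_right (by linarith) hdL.le
    linarith
  set e := Real.log (nm e₀) / L with he
  have heL : e * L = Real.log (nm e₀) := div_mul_cancel₀ _ hL0.ne'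
  have hee0 : 0 ≤ e := div_nonneg (Real.log_nonneg he₀1) hL0.le
  have hee1 : e ≤ e0 * κ + 4 * δ := by
    rw [he, div_le_iff₀ hL0]
    refine hleL.trans ?_
    have : e0 * κ * L + δ * L ≤ e0 * κ * L + 4 * (δ * L) := by linarith
    refine this.trans (le_of_eq ?_)
    ring
  have hee2 : e ≤ κ / 60 + 4 * δ := by
    have := mul_le_mul_of_nonneg_right he1 (show 0 ≤ κ by linarith)
    linarith
  set s := a3 a.1.toBd / L with hs
  have hsL : s * L = a3 a.1.toBd := div_mul_cancel₀ _ hL0.ne'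
  have hs1 : s ≤ Nn + 4 * δ := by
    rw [hs, div_le_iff₀ hL0, ha3]
    have e : (Nn + 4 * δ) * L = cu (prX (dn q.1)) 2 * L + cu (prX (dn q.1)) 3 * L +
        cu (prX (dn q.1)) 4 * L + 4 * (δ * L) := by rw [eN]; ring
    rw [e]
    linarith [nu2.2, nu3.2, nu4.2]
  have hs2 : Nn - 4 * δ ≤ s := by
    rw [hs, le_div_iff₀ hL0, ha3]
    have e : (Nn - 4 * δ) * L = cu (prX (dn q.1)) 2 * L + cu (prX (dn q.1)) 3 * L +
        cu (prX (dn q.1)) 4 * L - 4 * (δ * L) := by rw [eN]; ring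
    rw [e]
    linarith [nu2.1, nu3.1, nu4.1]
  have hp2 : (0 : ℝ) < 2 ^ a.2 := by positivity
  have hp21 : (1 : ℝ) ≤ 2 ^ a.2 := one_le_pow₀ (by norm_num)
  have hlog2i : Real.log ((2 : ℝ) ^ a.2) = Real.log 2 * a.2 := by
    rw [Real.log_pow, mul_comm]
  have hlV0 : Real.log (2 * 2 ^ a.2) = Real.log 2 + Real.log 2 * a.2 := by
    rw [Real.log_mul two_ne_zero hp2.ne', hlog2i]
  set lV := Real.log (2 * 2 ^ a.2) / L with hlV
  have hlVL : lV * L = Real.log (2 * 2 ^ a.2) := div_mul_cancel₀ _ hL0.ne'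
  have hln2 : Real.log 2 ≤ δ * L := by
    rwa [div_le_iff₀ hL0] at l2
  have hlV1 : lV ≤ v + 4 * δ := by
    rw [hlV, div_le_iff₀ hL0, hlV0]
    have e : (v + 4 * δ) * L = v * L + 4 * (δ * L) := by ring
    rw [e]
    linarith [nv.2]
  have hlV2 : 0 ≤ lV := div_nonneg (Real.log_nonneg (by linarith)) hL0.le
  -- the lengths
  have hexpX : ∀ c : ℝ, Real.exp (c * L) = X ^ c := fun c => by
    rw [Real.rpow_def_of_pos hX0, hL, mul_comm]
  have hXK : ∀ {c : ℝ}, c ≤ 12 → X ^ c ≤ X ^ K₀ := fun {c} hc =>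
    Real.rpow_le_rpow_of_exponent_le hX1.le (hc.trans hK12)
  have hXK2 : X ^ K₀ ≤ X ^ (2 * K₀) := Real.rpow_le_rpow_of_exponent_le hX1.le (by linarith)
  have hκN : 3 / 4 * (A * κ) ≤ Nn := by linarith
  have hbX : (nm (∏ i, b i) : ℝ) ≤ X ^ K₀ := by
    refine le_trans ?_ (hXK (c := 4) (by norm_num))
    rw [← hexpX, ← Real.exp_log hb0]
    refine Real.exp_le_exp.2 ?_
    rw [← hlw, ← hwL]
    exact mul_le_mul_of_nonneg_right (by linarith) hL0.le
  have hnLe : nL X (u3 a.1) b = s - w := by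
    unfold TEM792.nL
    rw [hsum, ← hL, sub_div]
  -- heights, moduli, lengths
  have hs1' : ∀ i, 1 + |(a.1.us i).t| ≤ X ^ δ' := by
    intro i
    have h1 : (S5X).s₁ a.1 ≤ X ^ δ' := hF.win.s₁
    have h2 : mx Dq.s1 (List.ofFn a.1.us) ≤ (S5X).s₁ a.1 := le_max_right _ _
    have h3 : Dq.s1 (a.1.us i) ≤ mx Dq.s1 (List.ofFn a.1.us) :=
      le_mx ((List.mem_ofFn' _ _).2 ⟨i, rfl⟩)
    exact (h3.trans h2).trans h1
  have hs2' : ∀ i, (nm (a.1.us i).d : ℝ) ≤ X ^ (2 * K₀) := by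
    intro i
    have h1 : (S5X).s₂ a.1 ≤ X ^ B := hF.win.s₂
    have h2 : mx Dq.s2 (List.ofFn a.1.us) ≤ (S5X).s₂ a.1 := le_max_right _ _
    have h3 : Dq.s2 (a.1.us i) ≤ mx Dq.s2 (List.ofFn a.1.us) :=
      le_mx ((List.mem_ofFn' _ _).2 ⟨i, rfl⟩)
    exact ((h3.trans h2).trans h1).trans
      (Real.rpow_le_rpow_of_exponent_le hX1.le (by linarith))
  have hus : ∀ i : Fin 3, ∃ j : Fin 5, u3 a.1 i = a.1.us j := by
    intro i
    fin_cases i
    · exact ⟨2, rfl⟩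
    · exact ⟨3, rfl⟩
    · exact ⟨4, rfl⟩
  have hH1 : 1 ≤ X ^ δ' := Real.one_le_rpow hX1.le hδ'0.le
  have hKL : 24 * L ≤ 2 * K₀ * L := mul_le_mul_of_nonneg_right (by linarith) hL0.le
  have hdL1 : δ * L ≤ L := by
    have := mul_le_mul_of_nonneg_right (show δ ≤ 1 by linarith) hL0.le
    linarith
  have hκL : κ * L ≤ L := by
    have := mul_le_mul_of_nonneg_right hκ1 hL0.le
    linarith
  have hNL : Nn * L ≤ κ * L := mul_le_mul_of_nonneg_right (by linarith) hL0.le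
  have eNL : Nn * L = cu (prX (dn q.1)) 2 * L + cu (prX (dn q.1)) 3 * L +
      cu (prX (dn q.1)) 4 * L := by rw [eN]; ring
  have uL2 : 0 ≤ cu (prX (dn q.1)) 2 * L := mul_nonneg y1 hL0.le
  have uL3 : 0 ≤ cu (prX (dn q.1)) 3 * L := mul_nonneg y2 hL0.le
  have uL4 : 0 ≤ cu (prX (dn q.1)) 4 * L := mul_nonneg y3 hL0.le
  have hz23 := hok.s23
  have hz20 := hok.z0 2
  have hz30 := hok.z0 3
  have hzK : ∀ i, (u3 a.1 i).z ≤ 2 * K₀ * L := by
    intro i
    fin_cases i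
    · show (a.1.us 2).z ≤ _
      linarith [nu2.2]
    · show (a.1.us 3).z ≤ _
      linarith [nu3.2]
    · show (a.1.us 4).z ≤ _
      linarith [nu4.2]
  have hzK' : ∀ i, (u3' a.1 i).z ≤ 2 * K₀ * L := by
    intro i
    fin_cases i
    · show a.1.zs 2 ≤ _
      linarith [nu2.2, nu3.2]
    · show a.1.zs 3 ≤ _
      linarith [nu2.2, nu3.2]
    · show (a.1.us 4).z ≤ _
      linarith [nu4.2]
  have hbi : ∀ i, (nm (b i) : ℝ) ≤ nm (∏ i, b i) := by
    intro i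
    exact_mod_cast Div277.nm_le_of_dvd (HP842.isPrim_prod hbp).ne_zero
      (Finset.dvd_prod_of_mem b (Finset.mem_univ i))
  have hlbi : ∀ i, Real.log (nm (b i)) ≤ w * L := by
    intro i
    rw [hwL]
    exact Real.log_le_log (by exact_mod_cast nm_pos.2 (hbp i).ne_zero) (hbi i)
  set s₀ : ℝ := β * κ - w - 3 * (4 * δ) with hs₀
  have es₀ : s₀ * L = β * κ * L - w * L - 12 * (δ * L) := by rw [hs₀]; ring
  have hcu2 : β * κ ≤ cu (prX (dn q.1)) 2 := by linarith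
  have hcu3 : β * κ ≤ cu (prX (dn q.1)) 3 := by linarith
  have hc2L := mul_le_mul_of_nonneg_right hcu2 hL0.le
  have hc3L := mul_le_mul_of_nonneg_right hcu3 hL0.le
  have hz2L := mul_le_mul_of_nonneg_right hz2.1 hL0.le
  have hcu23 : β + β * κ ≤ cu (prX (dn q.1)) 2 + cu (prX (dn q.1)) 3 := by linarith
  have hc23L := mul_le_mul_of_nonneg_right hcu23 hL0.le
  have hz2L' := mul_le_mul_of_nonneg_right hz2.2 hL0.le
  have hLD : LDX X (2 * K₀) (X ^ δ') s₀ a.1 b := by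
    refine ⟨hok, hzK, hzK', fun i => ?_, fun i => ?_, hbp,
      fun i => (hbi i).trans (hbX.trans hXK2), ⟨?_, ?_, ?_, ?_⟩⟩
    · obtain ⟨j, hj⟩ := hus i
      rw [hj]
      exact hs1' j
    · obtain ⟨j, hj⟩ := hus i
      rw [hj]
      exact hs2' j
    · rw [← hL, es₀]
      linarith [hlbi 0, nu2.1]
    · rw [← hL, es₀]
      linarith [hlbi 1, nu3.1]
    · rw [← hL, es₀]
      linarith [hlbi 0, nz2.1]
    · rw [← hL, es₀]
      linarith [hlbi 1, nz2.2, nu2.1, nu3.1]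
  obtain ⟨F, hVN, hFb⟩ := H X g1 δ' hδ'0 (min_le_left _ _) a ps q
    (FrLX_mono hF hX1.le hδδ) hok hokP b hb s₀ hLD
  rw [hnLe] at hVN hFb
  -- the window
  have hV₁X : (2 * 2 ^ a.2 : ℝ) ≤ X ^ K₀ := by
    refine le_trans ?_ (hXK (c := 4) (by norm_num))
    rw [← hexpX, ← Real.exp_log (show (0 : ℝ) < 2 * 2 ^ a.2 by positivity), ← hlVL]
    exact Real.exp_le_exp.2 (mul_le_mul_of_nonneg_right (by linarith) hL0.le)
  have he₀X : (nm e₀ : ℝ) ≤ X ^ K₀ := by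
    refine le_trans ?_ (hXK (c := 4) (by norm_num))
    rw [← hexpX, ← Real.exp_log he₀0, ← heL]
    exact Real.exp_le_exp.2 (mul_le_mul_of_nonneg_right (by linarith) hL0.le)
  set m := max 0 (v - (2 * Nn - κ)) with hmd
  have hm0 : 0 ≤ m := le_max_left _ _
  have hxe : 4 * e ≤ low5 (prX (dn q.1)) - v + d := by
    have h1 : 4 * Real.log (nm e₀) ≤ (low5 (prX (dn q.1)) - v + d) * L := hxl
    rw [← heL] at h1
    by_contra h2
    push Not at h2
    have := mul_lt_mul_of_pos_right h2 hL0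
    linarith
  set eT : ℝ := 2 * Nn + m / 3 - 4 / 3 * w - e + (lo + d / 24) + 80 * δ + ε / 16 + ε / 16 with heT
  have hXn := Xn_pos (u3 a.1) hbp
  have hA1 := min_le_left (2 * Nn - κ) (3 / 4 * Nn)
  have hA2 := min_le_right (2 * Nn - κ) (3 / 4 * Nn)
  have hlo0 : 0 ≤ lo := hlo
  have key := T X g3 (X ^ δ') hH1 (Xn (u3 a.1) b * Real.exp (3 * R)) (Xn (u3 a.1) b)
    (by positivity) hXn (E4Df372.alX (π lam.1) h lam.2 a.1 b)
    (adm_alX hR0 hR (π lam.1) lam.2 hok hbp) _ hVN (2 ^ a.2 / 2) (2 * 2 ^ a.2) Bo (by positivity)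
    (by linarith) hV₁X hBo (J3 Jf a.1.toBd a.2) (okJ3 hJf a.1.toBd a.2) (omL a.2)
    (fun y hy _ => Jv_win (hJf _ _ _) hy) (fun y _ => hom a.2 y) e₀ 1 hep isPrim_one he₀X 0 eT
    (by
      intro y hy hy2
      rw [nm_one, Nat.cast_one, Real.log_one, zero_div] at hy
      rw [← hL, ← hlV] at hy2
      rw [← hL, ← hlV, ← he]
      have hF1 : F (lV + e - 2 * y) (e + y) ≤
          eH (max (K5 (b5q (prX (dn q.1)))) (lV + e - 2 * y + (s - w - (e + y)) / 2))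
            (lV + e - 2 * y) (s - w - (e + y)) + lo + ε / 16 := by
        refine hFb _ _ (by linarith) (by linarith) ?_ (by linarith)
        linarith
      rw [eK, add_comm e y] at hF1
      have h1 := zE (κ := κ) (N := Nn) (x := x) (v := v) (s := s) (lV := lV) (w := w) (e := e)
        (y := y) (t := 4 * δ) (lx := low5 (prX (dn q.1))) (d := d) (by linarith) hs1 hlV1 hee0
        hee2 hy hw0 hw1' x0 x1 hv1 hv2 hd hlow0 hlx hxe
      have h2 := bias_line (κ := κ) (N := Nn) (x := x) (v := v) (s := s) (lV := lV) (w := w)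
        (e := e) (y := y) (t := 4 * δ) (s₀ := s₀) (β := β) (c := c) (e1 := e0) (by linarith) hs1
        hlV1 hee0 hee1 hy hw0 hw2' (by rw [hs₀]) x0 hR5b hN (by linarith) hβc hlow
      have h3 : max (F (lV + e - 2 * y) (e + y))
          (2 / 3 * (lV + e - 2 * y) + 5 / 3 * (s - w - (e + y)) - max 0 (s₀ - (e + y))) ≤
          eT - ε / 16 - 2 * y := by
        rw [add_comm e y]
        refine max_le ?_ ?_
        · rw [heT]; linarith
        · rw [heT]; linarith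
      linarith)
  rw [nm_one, Nat.cast_one, div_one] at key
  have hLHS : TS (J3 Jf a.1.toBd a.2) (fun x => ‖omL a.2 x‖ *
        ‖TE (E4Df372.alX (π lam.1) h lam.2 a.1 b) x e₀‖) =
      ∑ y ∈ (J3 Jf a.1.toBd a.2).filter (fun y => 1 ∣ y.1), (nm y.1 : ℝ) ^ (0 : ℝ) *
        ((nm y.2 : ℝ) ^ (-(1 / 3) : ℝ) * (‖omL a.2 y‖ ^ 2 *
          ‖TE (E4Df372.alX (π lam.1) h lam.2 a.1 b) y e₀‖ ^ 2)) := by
    rw [Finset.filter_true_of_mem fun y _ => one_dvd _]
    unfold E4P939.TS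
    refine Finset.sum_congr rfl fun y _ => ?_
    rw [Real.rpow_zero]
    ring
  rw [hLHS]
  refine key.trans ?_
  -- the numbers
  have hXn' : Xn (u3 a.1) b = Real.exp ((s - w) * L) := by
    unfold TEM792.Xn
    rw [hsum, sub_mul, hsL, hwL, Real.exp_sub, hlw, Real.exp_log hb0]
  have hV₀ : (2 : ℝ) ^ a.2 / 2 = Real.exp (Real.log 2 * a.2 - Real.log 2) := by
    rw [Real.exp_sub, Real.exp_log two_pos, ← hlog2i, Real.exp_log hp2]
  have hXV : (Xn (u3 a.1) b * (2 ^ a.2 / 2)) ^ (-(1 / 3) : ℝ) =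
      Real.exp (-((s - w) * L + (Real.log 2 * a.2 - Real.log 2)) / 3) := by
    rw [hXn', hV₀, ← Real.exp_add, ← Real.exp_mul]
    congr 1
    ring
  have hHM : (X ^ δ') ^ M ≤ X ^ (ε / 16) := by
    rw [← Real.rpow_natCast, ← Real.rpow_mul hX0.le]
    refine Real.rpow_le_rpow_of_exponent_le hX1.le ?_
    have h1 : δ' ≤ ε / (16 * ((M : ℝ) + 1)) := min_le_right _ _
    have hM0 : (0 : ℝ) ≤ M := Nat.cast_nonneg M
    calc δ' * M ≤ ε / (16 * ((M : ℝ) + 1)) * M := mul_le_mul_of_nonneg_right h1 hM0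
      _ ≤ ε / (16 * ((M : ℝ) + 1)) * (M + 1) :=
          mul_le_mul_of_nonneg_left (by linarith) (by positivity)
      _ = ε / 16 := by field_simp
  have hBo2 : Bo ^ 2 ≤ X ^ (ε / 16) := by
    have h1 : Bo ^ 2 + 1 ≤ X ^ (ε / 16) := by
      rw [← hexpX, ← Real.exp_log (show 0 < Bo ^ 2 + 1 by positivity)]
      exact Real.exp_le_exp.2 l4
    linarith
  have hET : ET (dnX q) = 5 / 3 * Nn - v / 3 + m / 3 := rfl
  rw [hXV]
  have h1 : Bo ^ 2 * ((X ^ δ') ^ M * X ^ (eT + ε / 16)) *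
      Real.exp (-((s - w) * L + (Real.log 2 * a.2 - Real.log 2)) / 3) ≤
      X ^ (ε / 16) * (X ^ (ε / 16) * X ^ (eT + ε / 16)) *
      Real.exp (-((s - w) * L + (Real.log 2 * a.2 - Real.log 2)) / 3) := by
    refine mul_le_mul_of_nonneg_right ?_ (Real.exp_pos _).le
    refine mul_le_mul hBo2 ?_ (by positivity) (by positivity)
    exact mul_le_mul_of_nonneg_right hHM (by positivity)
  refine h1.trans ?_
  have h2 : X ^ (ET (dnX q) + (lo + d / 24) + ε) / ((nm (∏ i, b i) : ℝ) * nm e₀) =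
      Real.exp ((ET (dnX q) + (lo + d / 24) + ε) * L - w * L - e * L) := by
    rw [Real.exp_sub, Real.exp_sub, hexpX, hwL, heL, hlw, Real.exp_log hb0, Real.exp_log he₀0,
      div_div]
  rw [h2, ← hexpX, ← hexpX, ← Real.exp_add, ← Real.exp_add, ← Real.exp_add]
  refine Real.exp_le_exp.2 ?_
  have h3 : (ET (dnX q) + (lo + d / 24) + ε) * L - w * L - e * L = 5 / 3 * (Nn * L) -
      v * L / 3 + m * L / 3 + (lo + d / 24) * L + ε * L - w * L - e * L := by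
    rw [hET]; ring
  have h4 : ε / 16 * L + (ε / 16 * L + (eT + ε / 16) * L) +
      -((s - w) * L + (Real.log 2 * a.2 - Real.log 2)) / 3 =
      2 * (Nn * L) + m * L / 3 - 4 / 3 * (w * L) - e * L + (lo + d / 24) * L + 80 * (δ * L) +
      5 / 16 * (ε * L) - (s * L - w * L) / 3 - Real.log 2 * a.2 / 3 + Real.log 2 / 3 := by
    rw [heT]; ring
  have h5 : δ * L ≤ ε * L / 2000 := by
    have := mul_le_mul_of_nonneg_right hδε hL0.le
    linarith
  have h6 : Nn * L - 4 * (δ * L) ≤ s * L := by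
    have := mul_le_mul_of_nonneg_right hs2 hL0.le
    linarith
  rw [h3, h4]
  linarith [nv.1]

end Crest.Agent.R017.MnU939
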