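import Crest.Agent.R017.TSVd_436
import Crest.Agent.R017.FNEb_708
import Crest.Agent.R017.TEM_792

/-!
# Row 17, E4 (StrU) : the T-energy at lists from the flat claims (helper436)

`b` = a point of the compact set `D5` of parents (helper708), three lumps near `b`
* `eH_lip`  : `eH` is Lipschitz
* `vf_flat` : the cube-free moments of the subsequences of `alb` from `FE2L`
* `tsv_num` : `∑_{y ∈ J, δ ∣ y.1} nm y.1^a nm y.2^(-1/3) ‖om y‖² ‖TE (alb ..) y e0‖²` from `FE2L`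
-/

set_option autoImplicit false
set_option linter.unusedVariables false
set_option linter.unusedSectionVars false

noncomputable section

open Set

namespace Crest.Agent.R017.VFa436

open Crest.Agent.R012 Crest.Agent.R012.Eis
open Crest.Agent.R012.LS2 (S mem_S)
open Crest.Agent.R017.FE47 (PU cx)
open Crest.Agent.R017.XG702 (Pcs)
open Crest.Agent.R017.Prov71
open Crest.Agent.R017.B770
open Crest.Agent.R017.ER911
open Crest.Agent.R017.HP842 (Pc pc)
open Crest.Agent.R017.TM708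
open Crest.Agent.R017.I1146 (ChN LN cN SN)
open Crest.Agent.R017.E1551 (tws sg Adm)
open Crest.Agent.R017.Rough381 (VF)
open Crest.Agent.R017.TEL792 (PM DS mem_DS te_pairs_oneW)
open Crest.Agent.R017.TEM792 (Xn Xn_pos PM_one big)
open Crest.Agent.R017.E5k54 (alb)
open Crest.Agent.R017.E2440 (TE)
open Crest.Agent.R017.C70 (OKJ)
open Crest.Agent.R017.End699 (prin0)

lemma eH_le_mono {K v v' n n' : ℝ} (hv : v' ≤ v) (hn : n' ≤ n) : eH K v' n' ≤ eH K v n :=
  max_le_max (eF_mono hv hn) (by linarith)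

lemma eH_lip {K v n s s' : ℝ} (hs : 0 ≤ s) (hs' : 0 ≤ s') :
    eH K (v + s) (n + s') ≤ eH K v n + 2 * s' + s := by
  unfold eH eF
  have h1 : max K (3 / 2 * (v + s)) ≤ max K (3 / 2 * v) + 3 / 2 * s :=
    max_le (by linarith [le_max_left K (3 / 2 * v)]) (by linarith [le_max_right K (3 / 2 * v)])
  have h2 := le_max_left (max (2 * n) (4 / 3 * n + (max K (3 / 2 * v) + v) / 3)) (v + n)
  have h3 := le_max_right (max (2 * n) (4 / 3 * n + (max K (3 / 2 * v) + v) / 3)) (v + n)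
  have h4 := le_max_left (2 * n) (4 / 3 * n + (max K (3 / 2 * v) + v) / 3)
  have h5 := le_max_right (2 * n) (4 / 3 * n + (max K (3 / 2 * v) + v) / 3)
  refine max_le (max_le ?_ ?_) ?_ <;> linarith

/-- the free family of the children is Lipschitz -/
lemma eH_free {K v n s s' : ℝ} (hs : 0 ≤ s) (hs' : 0 ≤ s') :
    eH (max K (v + s + (n + s') / 2)) (v + s) (n + s') ≤
      eH (max K (v + n / 2)) v n + 7 / 3 * s' + 4 / 3 * s := by
  unfold eH eF
  have a1 := le_max_left (max K (v + n / 2)) (3 / 2 * v)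
  have a2 := le_max_right (max K (v + n / 2)) (3 / 2 * v)
  have a3 := le_max_left K (v + n / 2)
  have a4 := le_max_right K (v + n / 2)
  have h1 : max (max K (v + s + (n + s') / 2)) (3 / 2 * (v + s)) ≤
      max (max K (v + n / 2)) (3 / 2 * v) + 3 / 2 * s + s' / 2 :=
    max_le (max_le (by linarith) (by linarith)) (by linarith)
  have h2 := le_max_left (max (2 * n) (4 / 3 * n + (max (max K (v + n / 2)) (3 / 2 * v) + v) / 3))
    (v + n)
  have h3 := le_max_right (max (2 * n) (4 / 3 * n + (max (max K (v + n / 2)) (3 / 2 * v) + v) / 3))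
    (v + n)
  have h4 := le_max_left (2 * n) (4 / 3 * n + (max (max K (v + n / 2)) (3 / 2 * v) + v) / 3)
  have h5 := le_max_right (2 * n) (4 / 3 * n + (max (max K (v + n / 2)) (3 / 2 * v) + v) / 3)
  refine max_le (max_le ?_ ?_) ?_ <;> linarith

lemma eH_mono3 {K K' v v' n n' : ℝ} (hK : K' ≤ K) (hv : v' ≤ v) (hn : n' ≤ n) :
    eH K' v' n' ≤ eH K v n := by
  refine (eH_le_mono (K := K') hv hn).trans ?_
  unfold eH eF
  have h1 : max K' (3 / 2 * v) ≤ max K (3 / 2 * v) := max_le_max hK le_rfl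
  exact max_le_max (max_le_max le_rfl (by linarith)) le_rfl

/-- **three lumps near the point `b`, tuple `β`** -/
structure TD (X τ B H : ℝ) (b : Fin 5 → ℝ) (us : Fin 3 → Pq) (β : Fin 3 → Eis) : Prop where
  H1 : 1 ≤ H
  lump : ∀ i, (us i).kd = .mo ∧ (us i).u = .one
  us0 : ∀ i, 0 ≤ (us i).z
  usz : ∀ i, (us i).z ≤ B * Real.log X
  usB : ∀ i, (nm (us i).d : ℝ) ≤ X ^ B
  usH : ∀ i, 1 + |(us i).t| ≤ H
  z1 : (us 0).z ≤ (b 1 + τ) * Real.log X
  z2 : (us 1).z ≤ (b 2 + τ) * Real.log X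
  z3 : (us 2).z ≤ (b 3 + τ) * Real.log X
  bp : ∀ i, IsPrim (β i)
  bB : (nm (∏ i, β i) : ℝ) ≤ X ^ B

lemma TD.mono {X τ B B' H : ℝ} {b : Fin 5 → ℝ} {us : Fin 3 → Pq} {β : Fin 3 → Eis}
    (h : TD X τ B H b us β) (hX : 1 ≤ X) (hB : B ≤ B') : TD X τ B' H b us β where
  H1 := h.H1
  lump := h.lump
  us0 := h.us0
  usz := fun i => (h.usz i).trans (mul_le_mul_of_nonneg_right hB (Real.log_nonneg hX))
  usB := fun i => (h.usB i).trans (Real.rpow_le_rpow_of_exponent_le hX hB)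
  usH := h.usH
  z1 := h.z1
  z2 := h.z2
  z3 := h.z3
  bp := h.bp
  bB := h.bB.trans (Real.rpow_le_rpow_of_exponent_le hX hB)

variable {Λ : Type*} {π : Λ → DPar} {h : ℝ → ℝ} {d : ℝ} {rr : EF}

/-- **the cube-free moments of the subsequences of `alb` from the flat claims** -/
theorem vf_flat {c₀ : ℝ} (hpu : PU h c₀) (hP : ∀ lam, (π lam).OK)
    (R : ExpRules (7 / 8 + d) rr (ex Dq fun lam => Sp (π lam) h)) (hd : 0 ≤ d) (hd1 : d ≤ 1 / 8)
    {D5 : Set (Fin 5 → ℝ)} (hD : IsCompact D5) (hD4 : ∀ b ∈ D5, 0 ≤ b 4)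
    {ℓ : (Fin 5 → ℝ) → ℝ} (hℓ : Continuous ℓ)
    (hFE : FE2L (ex Dq fun lam => S0p (π lam) h) D5 ℓ) {ε : ℝ} (hε : 0 < ε) :
    ∃ σ : ℝ, 0 < σ ∧ ∀ (lam : Λ) (B : ℝ), 0 ≤ B → ∃ (M : ℕ) (X₀ : ℝ), 1 < X₀ ∧
      ∀ X : ℝ, X₀ ≤ X → ∀ b ∈ D5, ∀ (us : Fin 3 → Pq) (β : Fin 3 → Eis) (H : ℝ),
      TD X σ B H b us β → ∀ g : Eis, IsPrim g → (nm g : ℝ) ≤ X ^ B →
      ∀ q : Eis, q ≠ 0 → (nm q : ℝ) ≤ X ^ B → ∀ k : ℝ, 0 ≤ k → k ≤ B * Real.log X →
      k + (∑ i, (us i).z - Real.log (nm (∏ i, β i)) - Real.log (nm g)) ≤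
        (T5 b + (b 1 + b 2 + b 3 + b 4) + σ) * Real.log X → ∀ W : ℝ,
      (-(σ * Real.log X) ≤ ∑ i, (us i).z - Real.log (nm (∏ i, β i)) - Real.log (nm g) →
        eH (max (Real.log X * K5 b)
            (k + (∑ i, (us i).z - Real.log (nm (∏ i, β i)) - Real.log (nm g)) / 2)) k
          (∑ i, (us i).z - Real.log (nm (∏ i, β i)) - Real.log (nm g)) ≤ W) →
      ∀ t : ℝ, VF (Real.exp k)
        (PM q (tws (sg (alb (fun i => pc h ((us i).pc (π lam))) β) g) t)) ≤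
        H ^ M * X ^ (ℓ b + ε) * Real.exp W * (1 + |t|) ^ (3 * (M : ℝ)) := by
  obtain ⟨σ, hσ, G⟩ := child_le hpu hP R hd hd1 hD hℓ hFE (half_pos hε)
  refine ⟨σ / 2, half_pos hσ, fun lam B hB => ?_⟩
  obtain ⟨M, G1⟩ := G lam 0 (2 * B)
  obtain ⟨C, r, hC, hr, H1⟩ := VF_alb hpu 3 hB (ε := ε / 4) (by positivity) (M := (M : ℝ))
    (Nat.cast_nonneg _)
  obtain ⟨X₁, hX₁, G2⟩ := G1 r hr
  set L₀ : ℝ := max (4 * r / σ) (4 / ε * (Real.log C + 4 * r)) with hL₀
  refine ⟨M, max X₁ (Real.exp L₀), lt_of_lt_of_le hX₁ (le_max_left _ _), ?_⟩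
  intro X hX b hb us β H hT g hg hgB q hq hqB k hk hkB hlev W hW t
  have hXX : X₁ ≤ X := (le_max_left _ _).trans hX
  have hX1 : 1 < X := lt_of_lt_of_le hX₁ hXX
  have hX0 : 0 < X := by linarith
  have hXe : Real.exp L₀ ≤ X := (le_max_right _ _).trans hX
  set L := Real.log X with hL
  have hL0 : 0 < L := Real.log_pos hX1
  have hLL : L₀ ≤ L := (Real.le_log_iff_exp_le hX0).2 hXe
  have l1 : 4 * r / σ ≤ L := (le_max_left _ _).trans hLL
  have l2 : 4 / ε * (Real.log C + 4 * r) ≤ L := (le_max_right _ _).trans hLL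
  have m1 : 4 * r ≤ σ * L := by
    rw [div_le_iff₀ hσ] at l1
    linarith
  have m2 : Real.log C + 4 * r ≤ ε / 4 * L := by
    have e : 4 / ε * (Real.log C + 4 * r) = (Real.log C + 4 * r) / (ε / 4) := by
      field_simp
    rw [e, div_le_iff₀ (by positivity)] at l2
    linarith
  have hH0 : 0 ≤ H := zero_le_one.trans hT.H1
  have hHM : 0 ≤ H ^ M := pow_nonneg hH0 M
  by_cases hgs : Squarefree g
  swap
  · have hz : sg (alb (fun i => pc h ((us i).pc (π lam))) β) g = fun _ => 0 := by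
      funext n
      by_contra hne
      have h1 : alb (fun i => pc h ((us i).pc (π lam))) β (g * n) ≠ 0 := hne
      unfold E5k54.alb E554.sqc at h1
      split_ifs at h1 with h2
      · exact hgs h2.1.of_mul_left
      · exact h1 rfl
    have e1 : VF (Real.exp k) (PM q (tws (sg (alb (fun i => pc h ((us i).pc (π lam))) β) g) t)) =
        0 := by
      rw [hz]
      unfold Rough381.VF TEL792.PM E1551.tws CM106.TG
      simp
    rw [e1]
    positivity
  set n₀ : ℝ := ∑ i, (us i).z - Real.log (nm (∏ i, β i)) - Real.log (nm g) with hn₀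
  have hq' : (∏ i, β i) * q ≠ 0 := mul_ne_zero (HP842.isPrim_prod hT.bp).ne_zero hq
  have hB2 : X ^ B ≤ X ^ (2 * B) := Real.rpow_le_rpow_of_exponent_le hX1.le (by linarith)
  have hBB : X ^ B * X ^ B = X ^ (2 * B) := by
    rw [← Real.rpow_add hX0]; congr 1; ring
  have hPD : PD X (σ / 2) (2 * B) H 0 b ((∏ i, β i) * q) us [] (b 0 * L) := by
    refine ⟨hq', ?_, hT.H1, hT.lump, hT.us0, fun i => (hT.usB i).trans hB2, hT.usH, hT.z1, hT.z2,
      hT.z3, fun p hp => absurd hp (by simp), by simp, ?_, ?_⟩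
    · rw [nm_mul, ← hBB]
      push_cast
      exact mul_le_mul hT.bB hqB (Nat.cast_nonneg _) (by positivity)
    · have e : LN ([] : List Pq) = 0 := by simp [LN]
      rw [e]
      exact mul_nonneg (by linarith [hD4 b hb]) hL0.le
    · rw [← hL, sub_self, abs_zero]
      positivity
  have hofn : List.ofFn us = [us 0, us 1, us 2] ++ [] := by
    simp [List.ofFn_succ]
  have key := H1 X hX1.le (π lam) (hP lam) q 3 us le_rfl hT.usz β hT.bp g hg hgs hgB k t hk hkB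
    (H ^ M * X ^ (ℓ b + ε / 2) * Real.exp (W + 4 * r)) (by positivity) ?_
  · have e1 : ((3 : ℕ) : ℝ) * (M : ℝ) = 3 * (M : ℝ) := by norm_num
    rw [e1] at key
    refine key.trans ?_
    have e2 : Real.exp (W + 4 * r) = Real.exp (4 * r) * Real.exp W := by
      rw [← Real.exp_add, add_comm]
    have e3 : C * Real.exp (4 * r) ≤ X ^ (ε / 4) := by
      rw [rpow_exp hX1, ← Real.exp_log (show 0 < C by linarith), ← Real.exp_add]
      refine Real.exp_le_exp.2 ?_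
      linarith
    have e4 : X ^ (ε / 4) * X ^ (ε / 4) * X ^ (ℓ b + ε / 2) = X ^ (ℓ b + ε) := by
      rw [← Real.rpow_add hX0, ← Real.rpow_add hX0]; congr 1; ring
    have hp : 0 ≤ (1 + |t|) ^ (3 * (M : ℝ)) := by positivity
    calc C * X ^ (ε / 4) * (H ^ M * X ^ (ℓ b + ε / 2) * Real.exp (W + 4 * r) *
          (1 + |t|) ^ (3 * (M : ℝ))) =
          (C * Real.exp (4 * r)) * (X ^ (ε / 4) * (H ^ M * X ^ (ℓ b + ε / 2) * Real.exp W *
            (1 + |t|) ^ (3 * (M : ℝ)))) := by rw [e2]; ring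
      _ ≤ X ^ (ε / 4) * (X ^ (ε / 4) * (H ^ M * X ^ (ℓ b + ε / 2) * Real.exp W *
            (1 + |t|) ^ (3 * (M : ℝ)))) := mul_le_mul_of_nonneg_right e3 (by positivity)
      _ = H ^ M * (X ^ (ε / 4) * X ^ (ε / 4) * X ^ (ℓ b + ε / 2)) * Real.exp W *
            (1 + |t|) ^ (3 * (M : ℝ)) := by ring
      _ = _ := by rw [e4]
  · intro l ps' hl hch hLN hlk
    rw [LN_ofFn] at hLN
    obtain ⟨a1, a2⟩ := abs_le.1 hLN
    obtain ⟨a3', a4⟩ := abs_le.1 hlk
    have hn1 : LN ps' ≤ n₀ + r := by rw [hn₀]; linarith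
    have hl1 : l ≤ k + r := by linarith
    have hch' := hch
    rw [hofn] at hch'
    obtain ⟨z₁, z₂, z₃, w, h1, h2, h3, h4, -, -, -, hw0, hsum, key2⟩ := G2 X hXX b hb _ us [] _ H hPD g hg
      (hgB.trans hB2) l ps' hl hch' (by
        have : (T5 b + (b 1 + b 2 + b 3 + b 4) + σ) * L =
          (T5 b + (b 1 + b 2 + b 3 + b 4) + σ / 2) * L + σ / 2 * L := by ring
        rw [← hL, this]
        linarith)
    have hLN0 : 0 ≤ LN ps' := by rw [← hsum]; positivity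
    have hW' := hW (by linarith)
    have hw1 : w ≤ 0 := by simpa [LN] using hw0
    have h5 : eW (L * K5 b) l (LN ps') w ≤ W + 4 * r := by
      have h6 : kW (L * K5 b) l (LN ps') w ≤ max (L * K5 b) (k + r + (n₀ + r) / 2) := by
        unfold kW
        exact max_le_max le_rfl (by linarith)
      unfold eW
      refine (eH_mono3 h6 hl1 hn1).trans ((eH_free hr hr).trans ?_)
      linarith
    have e1 : (∏ i, β i) * g * q = (∏ i, β i) * q * g := by ring
    rw [e1]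
    refine key2.trans ?_
    rw [← hL, ← hofn, mul_pow, ← Real.rpow_natCast (cN ps' (List.ofFn us)) M]
    have h6 : Real.exp (min (eW (L * K5 b) l (LN ps') w + L * ℓ b) (tAll d l z₁ z₂ z₃ w) +
        ε / 2 * L) ≤ X ^ (ℓ b + ε / 2) * Real.exp (W + 4 * r) := by
      rw [rpow_exp hX1, ← Real.exp_add]
      refine Real.exp_le_exp.2 ?_
      have := min_le_left (eW (L * K5 b) l (LN ps') w + L * ℓ b)
        (tAll d l z₁ z₂ z₃ w)
      rw [← hL]
      nlinarith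
    have hc0 : 0 ≤ cN ps' (List.ofFn us) ^ (M : ℝ) :=
      Real.rpow_nonneg (I1146.cN_nonneg _ _) _
    calc cN ps' (List.ofFn us) ^ (M : ℝ) * H ^ M * _ ≤
          cN ps' (List.ofFn us) ^ (M : ℝ) * H ^ M *
            (X ^ (ℓ b + ε / 2) * Real.exp (W + 4 * r)) :=
          mul_le_mul_of_nonneg_left h6 (mul_nonneg hc0 hHM)
      _ = _ := by ring

open Classical in
/-- **the T-energy of three lumps from the flat claims** (child condition `δ ∣ y.1`, weight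
`nm y.1 ^ a`) -/
theorem tsv_num {c₀ : ℝ} (hpu : PU h c₀) (hP : ∀ lam, (π lam).OK)
    (R : ExpRules (7 / 8 + d) rr (ex Dq fun lam => Sp (π lam) h)) (hd : 0 ≤ d) (hd1 : d ≤ 1 / 8)
    {D5 : Set (Fin 5 → ℝ)} (hD : IsCompact D5) (hD4 : ∀ b ∈ D5, 0 ≤ b 4)
    {ℓ : (Fin 5 → ℝ) → ℝ} (hℓ : Continuous ℓ)
    (hFE : FE2L (ex Dq fun lam => S0p (π lam) h) D5 ℓ) {ε : ℝ} (hε : 0 < ε) :
    ∃ σ : ℝ, 0 < σ ∧ ∀ (lam : Λ) (B : ℝ), 0 ≤ B → ∃ (M : ℕ) (X₀ : ℝ), 1 < X₀ ∧
      ∀ X : ℝ, X₀ ≤ X → ∀ b ∈ D5, ∀ (us : Fin 3 → Pq) (β : Fin 3 → Eis) (H : ℝ),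
      TD X σ B H b us β → ∀ V₀ V₁ Bo : ℝ, 0 < V₀ → 1 ≤ V₁ → V₁ ≤ X ^ B → 0 ≤ Bo →
      ∀ Js : Finset (Eis × Eis), OKJ Js → ∀ om : Eis × Eis → ℂ,
      (∀ y ∈ Js, om y ≠ 0 → V₀ ≤ (nm (y.2 * y.1 ^ 2) : ℝ) ∧ (nm (y.2 * y.1 ^ 2) : ℝ) ≤ V₁) →
      (∀ y ∈ Js, ‖om y‖ ≤ Bo) → ∀ e0 δ : Eis, IsPrim e0 → IsPrim δ → (nm e0 : ℝ) ≤ X ^ B →
      Real.log V₁ + (∑ i, (us i).z - Real.log (nm (∏ i, β i))) ≤
        (T5 b + (b 1 + b 2 + b 3 + b 4) + σ) * Real.log X → ∀ a W : ℝ,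
      (∀ x : ℝ, Real.log (nm δ) ≤ x → 2 * x ≤ Real.log V₁ →
        -(σ * Real.log X) ≤
          ∑ i, (us i).z - Real.log (nm (∏ i, β i)) - (x + Real.log (nm e0)) →
        eH (max (Real.log X * K5 b) (Real.log V₁ + Real.log (nm e0) - 2 * x +
            (∑ i, (us i).z - Real.log (nm (∏ i, β i)) - (x + Real.log (nm e0))) / 2))
          (Real.log V₁ + Real.log (nm e0) - 2 * x)
          (∑ i, (us i).z - Real.log (nm (∏ i, β i)) - (x + Real.log (nm e0))) +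
          (2 + a) * x ≤ W) →
      ∑ y ∈ Js.filter (fun y => δ ∣ y.1), (nm y.1 : ℝ) ^ a * ((nm y.2 : ℝ) ^ (-(1 / 3) : ℝ) *
        (‖om y‖ ^ 2 * ‖TE (alb (fun i => pc h ((us i).pc (π lam))) β) y e0‖ ^ 2)) ≤
        Bo ^ 2 * (H ^ M * X ^ (ℓ b + ε) * Real.exp W) *
          (Xn us β * V₀) ^ (-(1 / 3) : ℝ) / nm δ := by
  obtain ⟨R₀, hR₀⟩ := bump_of_cs hpu.cs
  set Rr := max R₀ 0 with hRd
  have hR0 : 0 ≤ Rr := le_max_right _ _
  have hR : ∀ u, cx h u ≠ 0 → |u| ≤ Rr := fun u hu => (hR₀ u hu).trans (le_max_left _ _)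
  obtain ⟨σ, hσ, G⟩ := vf_flat hpu hP R hd hd1 hD hD4 hℓ hFE (half_pos hε)
  refine ⟨σ, hσ, fun lam B hB => ?_⟩
  obtain ⟨M, X₁, hX₁, H1⟩ := G lam (2 * B) (by linarith)
  obtain ⟨C, hC, H2⟩ := te_pairs_oneW (6 * Rr) (by positivity) (3 * M + 2) (by omega)
    (J := 3 * (M : ℝ)) (by positivity) (by push_cast; linarith)
  obtain ⟨X₂, hX₂, H3⟩ := big C (ε / 2) B (by positivity) hC hB
  refine ⟨M, max X₁ X₂, lt_of_lt_of_le hX₁ (le_max_left _ _), ?_⟩
  intro X hX b hb us β H hT V₀ V₁ Bo hV₀ hV₁ hV₁B hBo Js hJs om hom homB e0 δ he0 hδ he0B hlev a W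
    hW
  have hXX : X₁ ≤ X := (le_max_left _ _).trans hX
  have hX1 : 1 < X := lt_of_lt_of_le hX₁ hXX
  have hX0 : 0 < X := by linarith
  set L := Real.log X with hL
  have hL0 : 0 < L := Real.log_pos hX1
  have hH0 : 0 ≤ H := zero_le_one.trans hT.H1
  have hHM : 0 ≤ H ^ M := pow_nonneg hH0 M
  have he0n := TEM792.nm_pos_r he0.ne_zero
  have he01 : (1 : ℝ) ≤ nm e0 := by exact_mod_cast nm_pos.2 he0.ne_zero
  have hXn := Xn_pos us hT.bp
  have hlogV : Real.log V₁ ≤ B * L := by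
    rw [hL, ← Real.log_rpow hX0]
    exact Real.log_le_log (by linarith) hV₁B
  have hloge : Real.log (nm e0) ≤ B * L := by
    rw [hL, ← Real.log_rpow hX0]
    exact Real.log_le_log he0n he0B
  have hKK : X ^ B * X ^ B = X ^ (2 * B) := by
    rw [← Real.rpow_add hX0]; congr 1; ring
  have hT2 : TD X σ (2 * B) H b us β := hT.mono hX1.le (by linarith)
  have hyp : ∀ d' ∈ DS V₁ δ, ∀ t : ℝ, VF (V₁ * nm e0 / (nm d' : ℝ) ^ 2)
      (tws (sg (alb (fun i => pc h ((us i).pc (π lam))) β) (d' * e0)) t) ≤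
      (H ^ M * X ^ (ℓ b + ε / 2) * Real.exp W) / (nm d' : ℝ) ^ (2 + a) *
        (1 + |t|) ^ (3 * (M : ℝ)) := by
    intro d' hd' t
    obtain ⟨⟨hd1', hd2, hd3⟩, hd4⟩ := mem_DS.1 hd'
    have hdn := TEM792.nm_pos_r hd2.ne_zero
    have hdn1 : (1 : ℝ) ≤ nm d' := by exact_mod_cast nm_pos.2 hd2.ne_zero
    set x := Real.log (nm d') with hx
    have hx0 : 0 ≤ x := Real.log_nonneg hdn1
    have hge : IsPrim (d' * e0) := hd2.mul he0
    have hdK : (nm d' : ℝ) ≤ X ^ B := by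
      have : (nm d' : ℝ) ≤ (nm d' : ℝ) ^ 2 := by nlinarith
      linarith
    have hgK : (nm (d' * e0) : ℝ) ≤ X ^ (2 * B) := by
      rw [nm_mul, ← hKK]
      push_cast
      exact mul_le_mul hdK he0B he0n.le (by positivity)
    set k := Real.log (V₁ * nm e0 / (nm d' : ℝ) ^ 2) with hk
    have hk1 : 1 ≤ V₁ * nm e0 / (nm d' : ℝ) ^ 2 := by
      rw [le_div_iff₀ (by positivity), one_mul]
      exact hd1'.trans (le_mul_of_one_le_right (by linarith) he01)
    have hk0 : 0 ≤ k := Real.log_nonneg hk1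
    have hke : k = Real.log V₁ + Real.log (nm e0) - 2 * x := by
      rw [hk, Real.log_div (by positivity) (by positivity), Real.log_mul (by positivity) he0n.ne',
        Real.log_pow]
      push_cast
      ring
    have hkK : k ≤ 2 * B * L := by rw [hke]; linarith
    have hδd : Real.log (nm δ) ≤ x := by
      refine Real.log_le_log (TEM792.nm_pos_r hδ.ne_zero) ?_
      exact_mod_cast Div277.nm_le_of_dvd hd2.ne_zero hd4
    have hxV : 2 * x ≤ Real.log V₁ := by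
      have := Real.log_le_log (by positivity) hd1'
      rw [Real.log_pow] at this
      exact_mod_cast this
    have hlg : Real.log (nm (d' * e0)) = x + Real.log (nm e0) := by
      rw [nm_mul]
      push_cast
      rw [Real.log_mul hdn.ne' he0n.ne']
    have h1X : (1 : ℝ) ≤ X ^ (2 * B) := Real.one_le_rpow hX1.le (by linarith)
    have h4 := H1 X hXX b hb us β H hT2 (d' * e0) hge hgK 1 one_ne_zero (by simpa using h1X) k hk0
      hkK (by
        rw [hlg, hke]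
        have := hlev
        have h0 : 0 ≤ Real.log (nm e0) := Real.log_nonneg he01
        linarith) (W - (2 + a) * x) (by
        rw [hlg, hke]
        intro h5
        have := hW x hδd hxV h5
        linarith) t
    rw [PM_one, hk, Real.exp_log (by linarith)] at h4
    refine h4.trans (le_of_eq ?_)
    have e3 : Real.exp (W - (2 + a) * x) = Real.exp W / (nm d' : ℝ) ^ (2 + a) := by
      rw [Real.exp_sub, Real.rpow_def_of_pos hdn, ← hx, mul_comm x]
    rw [e3]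
    ring
  have h5 := H2 (Xn us β * Real.exp (3 * Rr)) (Xn us β) V₀ V₁ Bo
    (H ^ M * X ^ (ℓ b + ε / 2) * Real.exp W) a
    (by positivity) hXn hV₀ hV₁ hBo (by positivity) _ (TEM792.Adm_alb hR0 hR (π lam) us hT.bp) Js
    hJs om hom homB e0 δ he0 hδ hyp
  refine h5.trans ?_
  have hδn := TEM792.nm_pos_r hδ.ne_zero
  have h6 : C * (1 + Real.log V₁) ≤ X ^ (ε / 2) := by
    refine le_trans ?_ (H3 X ((le_max_right _ _).trans hX))
    refine mul_le_mul_of_nonneg_left ?_ hC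
    linarith
  have e6 : X ^ (ε / 2) * X ^ (ℓ b + ε / 2) = X ^ (ℓ b + ε) := by
    rw [← Real.rpow_add hX0]; congr 1; ring
  calc C * Bo ^ 2 * (1 + Real.log V₁) * (Xn us β * V₀) ^ (-(1 / 3) : ℝ) *
        (H ^ M * X ^ (ℓ b + ε / 2) * Real.exp W) / nm δ =
        (C * (1 + Real.log V₁)) * (Bo ^ 2 * (H ^ M * X ^ (ℓ b + ε / 2) * Real.exp W) *
          (Xn us β * V₀) ^ (-(1 / 3) : ℝ) / nm δ) := by ring
    _ ≤ X ^ (ε / 2) * (Bo ^ 2 * (H ^ M * X ^ (ℓ b + ε / 2) * Real.exp W) *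
          (Xn us β * V₀) ^ (-(1 / 3) : ℝ) / nm δ) := by
        refine mul_le_mul_of_nonneg_right h6 ?_
        positivity
    _ = Bo ^ 2 * (H ^ M * (X ^ (ε / 2) * X ^ (ℓ b + ε / 2)) * Real.exp W) *
          (Xn us β * V₀) ^ (-(1 / 3) : ℝ) / nm δ := by ring
    _ = _ := by rw [e6]

end Crest.Agent.R017.VFa436
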