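import Crest.Agent.R017.TSU_436
import Crest.Agent.R017.XVNb_792

/-!
# Row 17, E4 (StrU) : the T-energy at lists, `S`-unit twists outside (helper436)

The statements of `TSV_436`, `TSU_436` with the flat claims of the family `π` itself
* `vf_flatS`, `tsv_numS` : the pieces `Pt (π lam) s`
* `tsuLS`, `tsuS_of`     : 939's `TSU`
-/

set_option autoImplicit false
set_option linter.unusedVariables false
set_option linter.unusedSectionVars false

noncomputable section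

open Set

namespace Crest.Agent.R017.VFa436

open Crest.Agent.R012 Crest.Agent.R012.Eis
open Crest.Agent.R012.LS2 (S mem_S)
open Crest.Agent.R017.FE47 (PU cx SM)
open Crest.Agent.R017.XG702 (Pcs)
open Crest.Agent.R017.XT71 (Sys Win mx le_mx)
open Crest.Agent.R017.Prov71
open Crest.Agent.R017.B770
open Crest.Agent.R017.ER911
open Crest.Agent.R017.HP842 (Pc pc)
open Crest.Agent.R017.TM708 (FE2L R5 K5 eH eF)
open Crest.Agent.R017.E1551 (tws sg Adm)
open Crest.Agent.R017.Rough381 (VF)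
open Crest.Agent.R017.TEL792 (PM DS mem_DS te_pairs_oneW)
open Crest.Agent.R017.TEM792 (Xn Xn_pos PM_one big)
open Crest.Agent.R017.E5k54 (alb)
open Crest.Agent.R017.E2440 (TE)
open Crest.Agent.R017.C70 (OKJ)
open Crest.Agent.R017.E5B71 (Bd S5 cκ cu cN cx' cM Sq5 SqD Pt)
open Crest.Agent.R017.E5L770
open Crest.Agent.R017.E4U164
open Crest.Agent.R017.E4P939 (TS)
open Crest.Agent.R017.MnR939 (ET)
open Crest.Agent.R017.MnU939 (TSU FrL_l FrL_u FrL_v)
open Crest.Agent.R017.I1146 (tw3 ds)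
open Crest.Agent.R017.TEX792 (alb_tw vf_tw pc_Pt pc_prim' alb_cop)

variable {Λ : Type*} {π : Λ → DPar} {h : ℝ → ℝ} {d : ℝ} {rr : EF}

/-- **the cube-free moments of the subsequences, twisted pieces** -/
theorem vf_flatS {c₀ : ℝ} (hpu : PU h c₀) (hP : ∀ lam, (π lam).OK)
    (R : ExpRules (7 / 8 + d) rr (ex Dq fun lam => Sp (π lam) h)) (hd : 0 ≤ d) (hd1 : d ≤ 1 / 8)
    {D5 : Set (Fin 5 → ℝ)} (hD : IsCompact D5) (hD4 : ∀ b ∈ D5, 0 ≤ b 4)
    {ℓ : (Fin 5 → ℝ) → ℝ} (hℓ : Continuous ℓ)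
    (hFE : FE2L (ex Dq fun lam => S0p (π lam) h) D5 ℓ) {ε : ℝ} (hε : 0 < ε) :
    ∃ σ : ℝ, 0 < σ ∧ ∀ (lam : Λ) (s : Eis), s ∈ SM (π lam).n → ∀ B : ℝ, 0 ≤ B →
      ∃ (M : ℕ) (X₀ : ℝ), 1 < X₀ ∧
      ∀ X : ℝ, X₀ ≤ X → ∀ b ∈ D5, ∀ (us : Fin 3 → Pq) (β : Fin 3 → Eis) (H : ℝ),
      TD X σ B H b us β → ∀ g : Eis, IsPrim g → (nm g : ℝ) ≤ X ^ B →
      ∀ q : Eis, q ≠ 0 → (nm q : ℝ) ≤ X ^ B → ∀ k : ℝ, 0 ≤ k → k ≤ B * Real.log X →
      k + (∑ i, (us i).z - Real.log (nm (∏ i, β i)) - Real.log (nm g)) ≤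
        (TM708.T5 b + (b 1 + b 2 + b 3 + b 4) + σ) * Real.log X → ∀ W : ℝ,
      (-(σ * Real.log X) ≤ ∑ i, (us i).z - Real.log (nm (∏ i, β i)) - Real.log (nm g) →
        eH (max (Real.log X * K5 b)
            (k + (∑ i, (us i).z - Real.log (nm (∏ i, β i)) - Real.log (nm g)) / 2)) k
          (∑ i, (us i).z - Real.log (nm (∏ i, β i)) - Real.log (nm g)) ≤ W) →
      ∀ t : ℝ, VF (Real.exp k)
        (PM q (tws (sg (alb (fun i => pc h (Pt (π lam) s (us i))) β) g) t)) ≤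
        H ^ M * X ^ (ℓ b + ε) * Real.exp W * (1 + |t|) ^ (3 * (M : ℝ)) := by
  obtain ⟨R₀, hR₀⟩ := bump_of_cs hpu.cs
  set Rr := max R₀ 0 with hRd
  have hR0 : 0 ≤ Rr := le_max_right _ _
  have hR : ∀ u, cx h u ≠ 0 → |u| ≤ Rr := fun u hu => (hR₀ u hu).trans (le_max_left _ _)
  obtain ⟨σ, hσ, G⟩ := vf_flat hpu hP R hd hd1 hD hD4 hℓ hFE (half_pos hε)
  refine ⟨σ / 2, half_pos hσ, fun lam s hs B hB => ?_⟩
  obtain ⟨M, X₁, hX₁, H1⟩ := G lam (B + 1) (by linarith)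
  have hs0 : s ≠ 0 := hs.1
  have hsn := TEM792.nm_pos_r hs0
  have hsn1 : (1 : ℝ) ≤ nm s := by exact_mod_cast nm_pos.2 hs0
  set c := 2 * Real.log (nm s) with hc
  have hc0 : 0 ≤ c := by have := Real.log_nonneg hsn1; positivity
  set Cd : ℝ := (ds s).card + 1 with hCd
  have hCd0 : 0 < Cd := by positivity
  set L₀ : ℝ := max (max c ((6 * Rr + 1) / σ)) (max (2 * c / σ) (2 / ε * (Real.log Cd + 2 * c)))
    with hL₀
  refine ⟨M, max X₁ (Real.exp L₀), lt_of_lt_of_le hX₁ (le_max_left _ _), ?_⟩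
  intro X hX b hb us β H hT g hg hgB q hq hqB k hk hkB hlev W hW t
  have hXX : X₁ ≤ X := (le_max_left _ _).trans hX
  have hX1 : 1 < X := lt_of_lt_of_le hX₁ hXX
  have hX0 : 0 < X := by linarith
  have hXe : Real.exp L₀ ≤ X := (le_max_right _ _).trans hX
  set L := Real.log X with hL
  have hL0 : 0 < L := Real.log_pos hX1
  have hLL : L₀ ≤ L := (Real.le_log_iff_exp_le hX0).2 hXe
  have l1 : c ≤ L := ((le_max_left _ _).trans (le_max_left _ _)).trans hLL
  have l4 : 6 * Rr + 1 ≤ σ * L := by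
    have := ((le_max_right _ _).trans (le_max_left _ _)).trans hLL
    rw [div_le_iff₀ hσ] at this
    linarith
  have l2 : 2 * c ≤ σ * L := by
    have := ((le_max_left _ _).trans (le_max_right _ _)).trans hLL
    rw [div_le_iff₀ hσ] at this
    linarith
  have l3 : Real.log Cd + 2 * c ≤ ε / 2 * L := by
    have h1 := ((le_max_right _ _).trans (le_max_right _ _)).trans hLL
    have e : 2 / ε * (Real.log Cd + 2 * c) = (Real.log Cd + 2 * c) / (ε / 2) := by field_simp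
    rw [e, div_le_iff₀ (by positivity)] at h1
    linarith
  set al := alb (fun i => pc h ((us i).pc (π lam))) β with hal
  have hprim : ∀ n, al n ≠ 0 → IsPrim n := fun n hn =>
    P1e54.alb_prim (fun i m hm => pc_prim' hm) hT.bp hn
  have hcop : ∀ n, al n ≠ 0 → IsCoprime s n := fun n hn =>
    (FE47.SM.coprime hs (alb_cop (hP lam) hn)).symm
  have e1 : alb (fun i => pc h (Pt (π lam) s (us i))) β =
      fun m => sy s (∏ i, β i) * tw3 s al m :=
    alb_tw (f := fun i => pc h ((us i).pc (π lam))) (fun i m hm => pc_prim' hm)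
      (fun i m => pc_Pt h (π lam) s (us i) m) hT.bp
  have hHM : 0 ≤ H ^ M := pow_nonneg (by linarith [hT.H1]) M
  rw [e1]
  have hβp : IsPrim (∏ i, β i) := HP842.isPrim_prod hT.bp
  by_cases h3 : -(σ / 2 * L) ≤ ∑ i, (us i).z - Real.log (nm (∏ i, β i)) - Real.log (nm g)
  swap
  · have hz : sg (fun m => sy s (∏ i, β i) * tw3 s al m) g = fun _ => 0 := by
      funext n
      by_contra hne
      have h4 : al (g * n) ≠ 0 := fun h0 => hne (by
        show sy s (∏ i, β i) * tw3 s al (g * n) = 0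
        unfold I1146.tw3
        rw [h0]
        ring)
      have h5 := (TEM792.Adm_alb hR0 hR (π lam) us hT.bp).win (g * n) h4
      have h6 : IsPrim (g * n) := hprim _ h4
      have h7 : IsPrim n := h6.of_mul_left hg
      have h8 : Real.log (nm (g * n)) = Real.log (nm g) + Real.log (nm n) := by
        rw [nm_mul]
        push_cast
        exact Real.log_mul (TEM792.nm_pos_r hg.ne_zero).ne' (TEM792.nm_pos_r h7.ne_zero).ne'
      have h9 : 0 ≤ Real.log (nm n) := Real.log_nonneg (by exact_mod_cast nm_pos.2 h7.ne_zero)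
      have h10 : Real.log (Xn us β) = ∑ i, (us i).z - Real.log (nm (∏ i, β i)) := by
        unfold TEM792.Xn
        rw [Real.log_div (Real.exp_pos _).ne' (TEM792.nm_pos_r hβp.ne_zero).ne', Real.log_exp]
      rw [h8, h10] at h5
      have := (abs_le.1 h5).2
      push Not at h3
      linarith
    have e5 : VF (Real.exp k) (PM q (tws (sg (fun m => sy s (∏ i, β i) * tw3 s al m) g) t)) =
        0 := by
      rw [hz]
      unfold Rough381.VF TEL792.PM E1551.tws CM106.TG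
      simp
    rw [e5]
    positivity
  refine (vf_tw hs0 hprim hcop (Char766.norm_sy_le hβp) hg q t (Real.one_le_exp hk)).trans ?_
  have e2 : Real.exp k * (nm s : ℝ) ^ 2 = Real.exp (k + c) := by
    rw [Real.exp_add, hc, two_mul, Real.exp_add, Real.exp_log hsn]
    ring
  rw [e2]
  have hup : X ^ B ≤ X ^ (B + 1) := Real.rpow_le_rpow_of_exponent_le hX1.le (by linarith)
  have hT2 : TD X σ (B + 1) H b us β := by
    have h1 := hT.mono hX1.le (show B ≤ B + 1 by linarith)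
    have hm : ∀ {y : ℝ}, (y + σ / 2) * L ≤ (y + σ) * L := fun {y} =>
      mul_le_mul_of_nonneg_right (by linarith) hL0.le
    exact ⟨h1.H1, h1.lump, h1.us0, h1.usz, h1.usB, h1.usH, h1.z1.trans hm, h1.z2.trans hm,
      h1.z3.trans hm, h1.bp, h1.bB⟩
  have h1 := H1 X hXX b hb us β H hT2 g hg (hgB.trans hup) q hq (hqB.trans hup) (k + c)
    (by linarith) (by rw [← hL]; nlinarith) (by
      have : (TM708.T5 b + (b 1 + b 2 + b 3 + b 4) + σ) * L =
        (TM708.T5 b + (b 1 + b 2 + b 3 + b 4) + σ / 2) * L + σ / 2 * L := by ring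
      rw [← hL, this]
      linarith) (W + 2 * c) (by
      intro _
      rw [← hL]
      have h4 := hW h3
      have h5 := eH_free (K := L * K5 b) (v := k)
        (n := ∑ i, (us i).z - Real.log (nm (∏ i, β i)) - Real.log (nm g)) hc0 (le_refl (0 : ℝ))
      rw [add_zero] at h5
      linarith) t
  have hdc : ((ds s).card : ℝ) ≤ Cd := by rw [hCd]; linarith
  have e3 : Cd * Real.exp (2 * c) ≤ X ^ (ε / 2) := by
    rw [Real.rpow_def_of_pos hX0, ← Real.exp_log hCd0, ← Real.exp_add]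
    refine Real.exp_le_exp.2 ?_
    linarith
  have e4 : X ^ (ε / 2) * X ^ (ℓ b + ε / 2) = X ^ (ℓ b + ε) := by
    rw [← Real.rpow_add hX0]; congr 1; ring
  calc ((ds s).card : ℝ) * VF (Real.exp (k + c)) (PM q (tws (sg al g) t)) ≤
        Cd * (H ^ M * X ^ (ℓ b + ε / 2) * Real.exp (W + 2 * c) * (1 + |t|) ^ (3 * (M : ℝ))) :=
        mul_le_mul hdc h1 (Rough381.VF_nonneg _ _) hCd0.le
    _ = (Cd * Real.exp (2 * c)) * (H ^ M * X ^ (ℓ b + ε / 2) * Real.exp W *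
          (1 + |t|) ^ (3 * (M : ℝ))) := by rw [Real.exp_add]; ring
    _ ≤ X ^ (ε / 2) * (H ^ M * X ^ (ℓ b + ε / 2) * Real.exp W *
          (1 + |t|) ^ (3 * (M : ℝ))) := mul_le_mul_of_nonneg_right e3 (by positivity)
    _ = H ^ M * (X ^ (ε / 2) * X ^ (ℓ b + ε / 2)) * Real.exp W *
          (1 + |t|) ^ (3 * (M : ℝ)) := by ring
    _ = _ := by rw [e4]

open Classical in
/-- **the T-energy of three lumps twisted by an `S`-unit, from the flat claims** -/
theorem tsv_numS {c₀ : ℝ} (hpu : PU h c₀) (hP : ∀ lam, (π lam).OK)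
    (R : ExpRules (7 / 8 + d) rr (ex Dq fun lam => Sp (π lam) h)) (hd : 0 ≤ d) (hd1 : d ≤ 1 / 8)
    {D5 : Set (Fin 5 → ℝ)} (hD : IsCompact D5) (hD4 : ∀ b ∈ D5, 0 ≤ b 4)
    {ℓ : (Fin 5 → ℝ) → ℝ} (hℓ : Continuous ℓ)
    (hFE : FE2L (ex Dq fun lam => S0p (π lam) h) D5 ℓ) {ε : ℝ} (hε : 0 < ε) :
    ∃ σ : ℝ, 0 < σ ∧ ∀ (lam : Λ) (s : Eis), s ∈ SM (π lam).n → ∀ B : ℝ, 0 ≤ B → ∃ (M : ℕ) (X₀ : ℝ), 1 < X₀ ∧
      ∀ X : ℝ, X₀ ≤ X → ∀ b ∈ D5, ∀ (us : Fin 3 → Pq) (β : Fin 3 → Eis) (H : ℝ),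
      TD X σ B H b us β → ∀ V₀ V₁ Bo : ℝ, 0 < V₀ → 1 ≤ V₁ → V₁ ≤ X ^ B → 0 ≤ Bo →
      ∀ Js : Finset (Eis × Eis), OKJ Js → ∀ om : Eis × Eis → ℂ,
      (∀ y ∈ Js, om y ≠ 0 → V₀ ≤ (nm (y.2 * y.1 ^ 2) : ℝ) ∧ (nm (y.2 * y.1 ^ 2) : ℝ) ≤ V₁) →
      (∀ y ∈ Js, ‖om y‖ ≤ Bo) → ∀ e0 δ : Eis, IsPrim e0 → IsPrim δ → (nm e0 : ℝ) ≤ X ^ B →
      Real.log V₁ + (∑ i, (us i).z - Real.log (nm (∏ i, β i))) ≤
        (TM708.T5 b + (b 1 + b 2 + b 3 + b 4) + σ) * Real.log X → ∀ a W : ℝ,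
      (∀ x : ℝ, Real.log (nm δ) ≤ x → 2 * x ≤ Real.log V₁ →
        -(σ * Real.log X) ≤
          ∑ i, (us i).z - Real.log (nm (∏ i, β i)) - (x + Real.log (nm e0)) →
        eH (max (Real.log X * K5 b) (Real.log V₁ + Real.log (nm e0) - 2 * x +
            (∑ i, (us i).z - Real.log (nm (∏ i, β i)) - (x + Real.log (nm e0))) / 2))
          (Real.log V₁ + Real.log (nm e0) - 2 * x)
          (∑ i, (us i).z - Real.log (nm (∏ i, β i)) - (x + Real.log (nm e0))) +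
          (2 + a) * x ≤ W) →
      ∑ y ∈ Js.filter (fun y => δ ∣ y.1), (nm y.1 : ℝ) ^ a * ((nm y.2 : ℝ) ^ (-(1 / 3) : ℝ) *
        (‖om y‖ ^ 2 * ‖TE (alb (fun i => pc h (Pt (π lam) s (us i))) β) y e0‖ ^ 2)) ≤
        Bo ^ 2 * (H ^ M * X ^ (ℓ b + ε) * Real.exp W) *
          (Xn us β * V₀) ^ (-(1 / 3) : ℝ) / nm δ := by
  obtain ⟨R₀, hR₀⟩ := bump_of_cs hpu.cs
  set Rr := max R₀ 0 with hRd
  have hR0 : 0 ≤ Rr := le_max_right _ _
  have hR : ∀ u, cx h u ≠ 0 → |u| ≤ Rr := fun u hu => (hR₀ u hu).trans (le_max_left _ _)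
  obtain ⟨σ, hσ, G⟩ := vf_flatS hpu hP R hd hd1 hD hD4 hℓ hFE (half_pos hε)
  refine ⟨σ, hσ, fun lam s hs B hB => ?_⟩
  obtain ⟨M, X₁, hX₁, H1⟩ := G lam s hs (2 * B) (by linarith)
  obtain ⟨C, hC, H2⟩ := te_pairs_oneW (6 * Rr) (by positivity) (3 * M + 2) (by omega)
    (J := 3 * (M : ℝ)) (by positivity) (by push_cast; linarith)
  obtain ⟨X₂, hX₂, H3⟩ := big C (ε / 2) B (by positivity) hC hB
  refine ⟨M, max X₁ X₂, lt_of_lt_of_le hX₁ (le_max_left _ _), ?_⟩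
  intro X hX b hb us β H hT V₀ V₁ Bo hV₀ hV₁ hV₁B hBo Js hJs om hom homB e0 δ he0 hδ he0B hlev a W
    hW
  have hXX : X₁ ≤ X := (le_max_left _ _).trans hX
  have hX1 : 1 < X := lt_of_lt_of_le hX₁ hXX
  have hX0 : 0 < X := by linarith
  set L := Real.log X with hL
  have hL0 : 0 < L := Real.log_pos hX1
  have hH0 : 0 ≤ H := zero_le_one.trans hT.H1
  have hHM : 0 ≤ H ^ M := pow_nonneg hH0 M
  have he0n := TEM792.nm_pos_r he0.ne_zero
  have he01 : (1 : ℝ) ≤ nm e0 := by exact_mod_cast nm_pos.2 he0.ne_zero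
  have hXn := Xn_pos us hT.bp
  have hlogV : Real.log V₁ ≤ B * L := by
    rw [hL, ← Real.log_rpow hX0]
    exact Real.log_le_log (by linarith) hV₁B
  have hloge : Real.log (nm e0) ≤ B * L := by
    rw [hL, ← Real.log_rpow hX0]
    exact Real.log_le_log he0n he0B
  have hKK : X ^ B * X ^ B = X ^ (2 * B) := by
    rw [← Real.rpow_add hX0]; congr 1; ring
  have hT2 : TD X σ (2 * B) H b us β := hT.mono hX1.le (by linarith)
  have hyp : ∀ d' ∈ DS V₁ δ, ∀ t : ℝ, VF (V₁ * nm e0 / (nm d' : ℝ) ^ 2)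
      (tws (sg (alb (fun i => pc h (Pt (π lam) s (us i))) β) (d' * e0)) t) ≤
      (H ^ M * X ^ (ℓ b + ε / 2) * Real.exp W) / (nm d' : ℝ) ^ (2 + a) *
        (1 + |t|) ^ (3 * (M : ℝ)) := by
    intro d' hd' t
    obtain ⟨⟨hd1', hd2, hd3⟩, hd4⟩ := mem_DS.1 hd'
    have hdn := TEM792.nm_pos_r hd2.ne_zero
    have hdn1 : (1 : ℝ) ≤ nm d' := by exact_mod_cast nm_pos.2 hd2.ne_zero
    set x := Real.log (nm d') with hx
    have hx0 : 0 ≤ x := Real.log_nonneg hdn1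
    have hge : IsPrim (d' * e0) := hd2.mul he0
    have hdK : (nm d' : ℝ) ≤ X ^ B := by
      have : (nm d' : ℝ) ≤ (nm d' : ℝ) ^ 2 := by nlinarith
      linarith
    have hgK : (nm (d' * e0) : ℝ) ≤ X ^ (2 * B) := by
      rw [nm_mul, ← hKK]
      push_cast
      exact mul_le_mul hdK he0B he0n.le (by positivity)
    set k := Real.log (V₁ * nm e0 / (nm d' : ℝ) ^ 2) with hk
    have hk1 : 1 ≤ V₁ * nm e0 / (nm d' : ℝ) ^ 2 := by
      rw [le_div_iff₀ (by positivity), one_mul]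
      exact hd1'.trans (le_mul_of_one_le_right (by linarith) he01)
    have hk0 : 0 ≤ k := Real.log_nonneg hk1
    have hke : k = Real.log V₁ + Real.log (nm e0) - 2 * x := by
      rw [hk, Real.log_div (by positivity) (by positivity), Real.log_mul (by positivity) he0n.ne',
        Real.log_pow]
      push_cast
      ring
    have hkK : k ≤ 2 * B * L := by rw [hke]; linarith
    have hδd : Real.log (nm δ) ≤ x := by
      refine Real.log_le_log (TEM792.nm_pos_r hδ.ne_zero) ?_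
      exact_mod_cast Div277.nm_le_of_dvd hd2.ne_zero hd4
    have hxV : 2 * x ≤ Real.log V₁ := by
      have := Real.log_le_log (by positivity) hd1'
      rw [Real.log_pow] at this
      exact_mod_cast this
    have hlg : Real.log (nm (d' * e0)) = x + Real.log (nm e0) := by
      rw [nm_mul]
      push_cast
      rw [Real.log_mul hdn.ne' he0n.ne']
    have h1X : (1 : ℝ) ≤ X ^ (2 * B) := Real.one_le_rpow hX1.le (by linarith)
    have h4 := H1 X hXX b hb us β H hT2 (d' * e0) hge hgK 1 one_ne_zero (by simpa using h1X) k hk0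
      hkK (by
        rw [hlg, hke]
        have := hlev
        have h0 : 0 ≤ Real.log (nm e0) := Real.log_nonneg he01
        linarith) (W - (2 + a) * x) (by
        rw [hlg, hke]
        intro h5
        have := hW x hδd hxV h5
        linarith) t
    rw [PM_one, hk, Real.exp_log (by linarith)] at h4
    refine h4.trans (le_of_eq ?_)
    have e3 : Real.exp (W - (2 + a) * x) = Real.exp W / (nm d' : ℝ) ^ (2 + a) := by
      rw [Real.exp_sub, Real.rpow_def_of_pos hdn, ← hx, mul_comm x]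
    rw [e3]
    ring
  have h5 := H2 (Xn us β * Real.exp (3 * Rr)) (Xn us β) V₀ V₁ Bo
    (H ^ M * X ^ (ℓ b + ε / 2) * Real.exp W) a
    (by positivity) hXn hV₀ hV₁ hBo (by positivity) _ (TEX792.adm_f3 hR0 hR (π lam) s us hT.bp) Js
    hJs om hom homB e0 δ he0 hδ hyp
  refine h5.trans ?_
  have hδn := TEM792.nm_pos_r hδ.ne_zero
  have h6 : C * (1 + Real.log V₁) ≤ X ^ (ε / 2) := by
    refine le_trans ?_ (H3 X ((le_max_right _ _).trans hX))
    refine mul_le_mul_of_nonneg_left ?_ hC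
    linarith
  have e6 : X ^ (ε / 2) * X ^ (ℓ b + ε / 2) = X ^ (ℓ b + ε) := by
    rw [← Real.rpow_add hX0]; congr 1; ring
  calc C * Bo ^ 2 * (1 + Real.log V₁) * (Xn us β * V₀) ^ (-(1 / 3) : ℝ) *
        (H ^ M * X ^ (ℓ b + ε / 2) * Real.exp W) / nm δ =
        (C * (1 + Real.log V₁)) * (Bo ^ 2 * (H ^ M * X ^ (ℓ b + ε / 2) * Real.exp W) *
          (Xn us β * V₀) ^ (-(1 / 3) : ℝ) / nm δ) := by ring
    _ ≤ X ^ (ε / 2) * (Bo ^ 2 * (H ^ M * X ^ (ℓ b + ε / 2) * Real.exp W) *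
          (Xn us β * V₀) ^ (-(1 / 3) : ℝ) / nm δ) := by
        refine mul_le_mul_of_nonneg_right h6 ?_
        positivity
    _ = Bo ^ 2 * (H ^ M * (X ^ (ε / 2) * X ^ (ℓ b + ε / 2)) * Real.exp W) *
          (Xn us β * V₀) ^ (-(1 / 3) : ℝ) / nm δ := by ring
    _ = _ := by rw [e6]

end Crest.Agent.R017.VFa436
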