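import Crest.Agent.R017.TMw_968
import Crest.Agent.R017.E5d_54

/-!
# Row 17, R8 (helper968): moments of the structured function at `k₁ m³`, arbitrary sequences

* `one2`, `one4` : second and fourth moment for one tuple, from `VN` and `Adm`, one real line
* `SA` : the structured function of a family of sequences
* `tup2`, `tup4` : the sum over the powerful tuples
-/

set_option autoImplicit false

noncomputable section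

open Finset
open scoped ComplexConjugate Classical

namespace Crest.Agent.R017.TSa968

open Crest.Agent.R012 Crest.Agent.R012.Eis
open Crest.Agent.R012.LS2 (S mem_S)
open Crest.Agent.R017.CM106 (CS FS)
open Crest.Agent.R017.C70
open Crest.Agent.R017.E1551 (Adm)
open Crest.Agent.R017.E2440 (TE StE)
open Crest.Agent.R017.TEM792 (VN big)
open Crest.Agent.R017.TM968 (qd)
open Crest.Agent.R017.TMv968 (nm1 rpow_log_div gramV)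
open Crest.Agent.R017.TMw968 (q4 gram4V)

/-- the sequence `δ_1` -/
def d1 : Eis → ℂ := fun n => if n = 1 then 1 else 0

lemma CS_d1 (k : Eis) : CS d1 k = 1 := by
  unfold CM106.CS
  rw [tsum_eq_single 1]
  · unfold d1
    rw [if_pos rfl, one_mul]
    exact Char766.sy_one_right k
  · intro n hn
    unfold d1
    rw [if_neg hn, zero_mul]

lemma floor_one : ⌊(1 : ℝ)⌋₊ = 1 := by norm_num

/-- **one tuple, second moment** -/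
theorem one2 (R : ℝ) (hR : 0 ≤ R) {ε : ℝ} (hε : 0 < ε) (K : ℝ) (hK : 1 ≤ K) (M : ℕ) {c₀ : ℝ}
    (hc₀ : 1 ≤ c₀) (Rl : ℝ) (hRl : 0 ≤ Rl) :
    ∃ X₀ : ℝ, 1 < X₀ ∧ ∀ X : ℝ, X₀ ≤ X → ∀ H : ℝ, 1 ≤ H → ∀ (Yw Xw : ℝ), 0 ≤ Yw → 0 < Xw →
      ∀ α : Eis → ℂ, Adm Yw Xw R α → ∀ F : ℝ → ℝ → ℝ, VN X H M (2 * K) α F →
      ∀ (Kk V E0 : ℝ), 1 ≤ Kk → Kk ≤ X ^ K → 1 ≤ V → V ≤ X ^ K → 1 ≤ E0 → E0 ≤ X ^ K →
      ∀ (J : Finset (Eis × Eis)) (om : Eis × Eis → ℂ), OKJ J →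
      (∀ x ∈ J, (nm (x.2 * x.1 ^ 2) : ℝ) ≤ V) →
      (∀ x ∈ J, om x ≠ 0 → V ≤ c₀ * nm (x.2 * x.1 ^ 2)) → (∀ x, ‖om x‖ ≤ 1) →
      ∀ m : Eis, IsPrim m → (nm m : ℝ) ≤ X ^ K →
      ∀ A : Finset Eis, A ⊆ (primBall ⌊Kk⌋₊).filter CbF →
      (∀ k ∈ A, Kk ≤ Real.exp Rl * nm k) →
      ∀ E : ℝ, (∀ x b : ℝ, 0 ≤ x → 2 * x ≤ Real.log V / Real.log X → 0 ≤ b →
        b ≤ Real.log E0 / Real.log X →
        F (Real.log V / Real.log X + b - 2 * x) (b + x) + 3 * x + b +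
          qd (Real.log Kk / Real.log X) (Real.log V / Real.log X) 0 x ≤ E) →
      ∑ k ∈ A, ‖StE E0 J om α (k * m ^ 3)‖ ^ 2 ≤
        H ^ M * X ^ (E + ε) * (Xw * V) ^ (-(1 / 3) : ℝ) * Kk ^ (-(1 / 3) : ℝ) := by
  obtain ⟨X₁, hX₁, H₁⟩ := gramV R hR (ε := ε / 2) (by positivity) K hK M hc₀
  obtain ⟨X₂, hX₂, H₂⟩ := big (Real.exp Rl ^ ((1 : ℝ) / 3)) (ε / 2) 0 (by positivity)
    (by positivity) le_rfl
  refine ⟨max X₁ X₂, lt_max_of_lt_left hX₁, ?_⟩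
  intro X hX H hH Yw Xw hYw hXw α hα F hV Kk V E0 hKk hKkX hV1 hVX hE0 hE0X J om hJ hJV hJl hom m
    hm hmX A hA hlow E hF
  have hXX₁ : X₁ ≤ X := (le_max_left _ _).trans hX
  have hX1 : 1 < X := lt_of_lt_of_le hX₁ hXX₁
  have hX0 : 0 < X := by linarith
  have hKk0 : 0 < Kk := by linarith
  have hXK : 1 ≤ X ^ K := Real.one_le_rpow hX1.le (by linarith)
  have h1 := H₁ X hXX₁ H hH Yw Xw hYw hXw α hα F hV Kk V 1 1 E0 hKk hKkX hV1 hVX le_rfl hXK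
    zero_le_one hE0 hE0X J om hJ hJV hJl hom m d1 hm hmX
    (fun n hn => by
      have h2 : n = 1 := by
        by_contra h3
        exact hn (if_neg h3)
      rw [h2, floor_one, mem_primBall]
      exact ⟨nm_one.le, isPrim_one⟩)
    (fun s hs => by
      rw [floor_one]
      have hs1 := nm1 hs.ne_zero
      by_cases h2 : s = 1
      · subst h2
        rw [nm_one, Nat.cast_one, div_one]
        have e1 : ∀ d ∈ primBall 1, ‖d1 (1 * d)‖ ^ 2 ≤ if d = 1 then 1 else 0 := by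
          intro d _
          rw [one_mul]
          unfold d1
          split_ifs <;> simp
        refine (Finset.sum_le_sum e1).trans ?_
        rw [Finset.sum_ite_eq']
        split_ifs <;> norm_num
      · refine (Finset.sum_nonpos fun d hd => ?_).trans (by positivity)
        have hdp := (mem_primBall.1 hd).2
        have h3 : s * d ≠ 1 := by
          intro h4
          apply h2
          exact hs.eq_of_associated isPrim_one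
            (associated_one_iff_isUnit.mpr (IsUnit.of_mul_eq_one _ h4))
        unfold d1
        rw [if_neg h3]
        simp)
    E (fun x b hx hx' hb0 hb1 => by
      have h5 := hF x b hx hx' hb0 hb1
      rw [Real.log_one, zero_div]
      exact h5)
  rw [one_mul] at h1
  have hw : ∀ k ∈ A, ‖StE E0 J om α (k * m ^ 3)‖ ^ 2 ≤
      Real.exp Rl ^ ((1 : ℝ) / 3) * Kk ^ (-(1 / 3) : ℝ) * ((nm k : ℝ) ^ ((1 : ℝ) / 3) *
        (‖StE E0 J om α (k * m ^ 3)‖ ^ 2 * ‖CS d1 (k * m ^ 3)‖ ^ 2)) := by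
    intro k hk
    rw [CS_d1, norm_one, one_pow, mul_one]
    have h2 : Kk ^ ((1 : ℝ) / 3) ≤ Real.exp Rl ^ ((1 : ℝ) / 3) * (nm k : ℝ) ^ ((1 : ℝ) / 3) := by
      rw [← Real.mul_rpow (Real.exp_pos _).le (Nat.cast_nonneg _)]
      exact Real.rpow_le_rpow hKk0.le (hlow k hk) (by norm_num)
    have h3 : 0 < Kk ^ (-(1 / 3) : ℝ) := Real.rpow_pos_of_pos hKk0 _
    have h4 : Kk ^ (-(1 / 3) : ℝ) * Kk ^ ((1 : ℝ) / 3) = 1 := by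
      rw [← Real.rpow_add hKk0]; norm_num
    have h5 : 1 ≤ Real.exp Rl ^ ((1 : ℝ) / 3) * Kk ^ (-(1 / 3) : ℝ) *
        (nm k : ℝ) ^ ((1 : ℝ) / 3) := by
      calc (1 : ℝ) = Kk ^ (-(1 / 3) : ℝ) * Kk ^ ((1 : ℝ) / 3) := h4.symm
        _ ≤ Kk ^ (-(1 / 3) : ℝ) * (Real.exp Rl ^ ((1 : ℝ) / 3) * (nm k : ℝ) ^ ((1 : ℝ) / 3)) :=
            mul_le_mul_of_nonneg_left h2 h3.le
        _ = _ := by ring
    calc ‖StE E0 J om α (k * m ^ 3)‖ ^ 2 = 1 * ‖StE E0 J om α (k * m ^ 3)‖ ^ 2 := (one_mul _).symm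
      _ ≤ (Real.exp Rl ^ ((1 : ℝ) / 3) * Kk ^ (-(1 / 3) : ℝ) * (nm k : ℝ) ^ ((1 : ℝ) / 3)) *
          ‖StE E0 J om α (k * m ^ 3)‖ ^ 2 := mul_le_mul_of_nonneg_right h5 (by positivity)
      _ = _ := by ring
  have h3 := H₂ X ((le_max_right _ _).trans hX)
  rw [zero_mul, add_zero, mul_one] at h3
  calc ∑ k ∈ A, ‖StE E0 J om α (k * m ^ 3)‖ ^ 2
      ≤ ∑ k ∈ A, Real.exp Rl ^ ((1 : ℝ) / 3) * Kk ^ (-(1 / 3) : ℝ) * ((nm k : ℝ) ^ ((1 : ℝ) / 3) *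
        (‖StE E0 J om α (k * m ^ 3)‖ ^ 2 * ‖CS d1 (k * m ^ 3)‖ ^ 2)) := Finset.sum_le_sum hw
    _ = Real.exp Rl ^ ((1 : ℝ) / 3) * Kk ^ (-(1 / 3) : ℝ) * ∑ k ∈ A, (nm k : ℝ) ^ ((1 : ℝ) / 3) *
        (‖StE E0 J om α (k * m ^ 3)‖ ^ 2 * ‖CS d1 (k * m ^ 3)‖ ^ 2) := by rw [Finset.mul_sum]
    _ ≤ Real.exp Rl ^ ((1 : ℝ) / 3) * Kk ^ (-(1 / 3) : ℝ) *
        (H ^ M * X ^ (E + ε / 2) * (Xw * V) ^ (-(1 / 3) : ℝ)) := by
        refine mul_le_mul_of_nonneg_left ?_ (by positivity)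
        exact (Finset.sum_le_sum_of_subset_of_nonneg hA fun _ _ _ => by positivity).trans h1
    _ ≤ X ^ (ε / 2) * Kk ^ (-(1 / 3) : ℝ) *
        (H ^ M * X ^ (E + ε / 2) * (Xw * V) ^ (-(1 / 3) : ℝ)) := by
        have h6 : 0 ≤ H ^ M * X ^ (E + ε / 2) * (Xw * V) ^ (-(1 / 3) : ℝ) := by positivity
        have h7 : 0 ≤ Kk ^ (-(1 / 3) : ℝ) := by positivity
        exact mul_le_mul_of_nonneg_right (mul_le_mul_of_nonneg_right h3 h7) h6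
    _ = _ := by
        have h5 : X ^ (E + ε) = X ^ (ε / 2) * X ^ (E + ε / 2) := by
          rw [← Real.rpow_add hX0]; congr 1; ring
        rw [h5]
        ring

/-- **one tuple, fourth moment** -/
theorem one4 (R : ℝ) (hR : 0 ≤ R) {ε : ℝ} (hε : 0 < ε) (K : ℝ) (hK : 1 ≤ K) (M : ℕ) {c₀ : ℝ}
    (hc₀ : 1 ≤ c₀) (Rl : ℝ) (hRl : 0 ≤ Rl) :
    ∃ X₀ : ℝ, 1 < X₀ ∧ ∀ X : ℝ, X₀ ≤ X → ∀ H : ℝ, 1 ≤ H → ∀ (Yw Xw : ℝ), 0 ≤ Yw → 0 < Xw →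
      ∀ α : Eis → ℂ, Adm Yw Xw R α → ∀ F : ℝ → ℝ → ℝ, VN X H M (2 * K) α F →
      ∀ (Kk V E0 : ℝ), 1 ≤ Kk → Kk ≤ X ^ K → 1 ≤ V → V ≤ X ^ K → 1 ≤ E0 → E0 ≤ X ^ K →
      ∀ (J : Finset (Eis × Eis)) (om : Eis × Eis → ℂ), OKJ J →
      (∀ x ∈ J, (nm (x.2 * x.1 ^ 2) : ℝ) ≤ V) →
      (∀ x ∈ J, om x ≠ 0 → V ≤ c₀ * nm (x.2 * x.1 ^ 2)) → (∀ x, ‖om x‖ ≤ 1) →
      ∀ m : Eis, IsPrim m → (nm m : ℝ) ≤ X ^ K →
      ∀ A : Finset Eis, A ⊆ (primBall ⌊Kk⌋₊).filter CbF →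
      (∀ k ∈ A, Kk ≤ Real.exp Rl * nm k) →
      ∀ E : ℝ, (∀ x b : ℝ, 0 ≤ x → 2 * x ≤ Real.log V / Real.log X → 0 ≤ b →
        b ≤ Real.log E0 / Real.log X →
        F (Real.log V / Real.log X + b - 2 * x) (b + x) + 3 * x + b +
          q4 (Real.log Kk / Real.log X) (Real.log V / Real.log X) x ≤ E) →
      ∑ k ∈ A, ‖StE E0 J om α (k * m ^ 3)‖ ^ 4 ≤
        (H ^ M * X ^ (E + ε) * (Xw * V) ^ (-(1 / 3) : ℝ) * Kk ^ (-(1 / 3) : ℝ)) ^ 2 := by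
  obtain ⟨X₁, hX₁, H₁⟩ := gram4V R hR (ε := ε / 2) (by positivity) K hK M hc₀
  obtain ⟨X₂, hX₂, H₂⟩ := big (Real.exp Rl ^ ((1 : ℝ) / 3)) (ε / 2) 0 (by positivity)
    (by positivity) le_rfl
  refine ⟨max X₁ X₂, lt_max_of_lt_left hX₁, ?_⟩
  intro X hX H hH Yw Xw hYw hXw α hα F hV Kk V E0 hKk hKkX hV1 hVX hE0 hE0X J om hJ hJV hJl hom m
    hm hmX A hA hlow E hF
  have hXX₁ : X₁ ≤ X := (le_max_left _ _).trans hX
  have hX1 : 1 < X := lt_of_lt_of_le hX₁ hXX₁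
  have hX0 : 0 < X := by linarith
  have hKk0 : 0 < Kk := by linarith
  have h1 := H₁ X hXX₁ H hH Yw Xw hYw hXw α hα F hV Kk V E0 hKk hKkX hV1 hVX hE0 hE0X J om hJ hJV
    hJl hom m hm hmX E hF
  have hw : ∀ k ∈ A, ‖StE E0 J om α (k * m ^ 3)‖ ^ 4 ≤
      (Real.exp Rl ^ ((1 : ℝ) / 3) * Kk ^ (-(1 / 3) : ℝ)) ^ 2 * ((nm k : ℝ) ^ ((2 : ℝ) / 3) *
        ‖StE E0 J om α (k * m ^ 3)‖ ^ 4) := by
    intro k hk
    have h2 : Kk ^ ((1 : ℝ) / 3) ≤ Real.exp Rl ^ ((1 : ℝ) / 3) * (nm k : ℝ) ^ ((1 : ℝ) / 3) := by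
      rw [← Real.mul_rpow (Real.exp_pos _).le (Nat.cast_nonneg _)]
      exact Real.rpow_le_rpow hKk0.le (hlow k hk) (by norm_num)
    have h3 : 0 < Kk ^ (-(1 / 3) : ℝ) := Real.rpow_pos_of_pos hKk0 _
    have h4 : Kk ^ (-(1 / 3) : ℝ) * Kk ^ ((1 : ℝ) / 3) = 1 := by
      rw [← Real.rpow_add hKk0]; norm_num
    have h5 : 1 ≤ Real.exp Rl ^ ((1 : ℝ) / 3) * Kk ^ (-(1 / 3) : ℝ) *
        (nm k : ℝ) ^ ((1 : ℝ) / 3) := by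
      calc (1 : ℝ) = Kk ^ (-(1 / 3) : ℝ) * Kk ^ ((1 : ℝ) / 3) := h4.symm
        _ ≤ Kk ^ (-(1 / 3) : ℝ) * (Real.exp Rl ^ ((1 : ℝ) / 3) * (nm k : ℝ) ^ ((1 : ℝ) / 3)) :=
            mul_le_mul_of_nonneg_left h2 h3.le
        _ = _ := by ring
    have h6 : (1 : ℝ) ≤ (Real.exp Rl ^ ((1 : ℝ) / 3) * Kk ^ (-(1 / 3) : ℝ) *
        (nm k : ℝ) ^ ((1 : ℝ) / 3)) ^ 2 := one_le_pow₀ h5
    have h7 : ((nm k : ℝ) ^ ((1 : ℝ) / 3)) ^ 2 = (nm k : ℝ) ^ ((2 : ℝ) / 3) := by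
      rw [← Real.rpow_natCast, ← Real.rpow_mul (Nat.cast_nonneg _)]
      norm_num
    calc ‖StE E0 J om α (k * m ^ 3)‖ ^ 4 = 1 * ‖StE E0 J om α (k * m ^ 3)‖ ^ 4 := (one_mul _).symm
      _ ≤ (Real.exp Rl ^ ((1 : ℝ) / 3) * Kk ^ (-(1 / 3) : ℝ) * (nm k : ℝ) ^ ((1 : ℝ) / 3)) ^ 2 *
          ‖StE E0 J om α (k * m ^ 3)‖ ^ 4 := mul_le_mul_of_nonneg_right h6 (by positivity)
      _ = _ := by rw [mul_pow, h7]; ring
  have h3 := H₂ X ((le_max_right _ _).trans hX)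
  rw [zero_mul, add_zero, mul_one] at h3
  have h7 : 0 ≤ Kk ^ (-(1 / 3) : ℝ) := by positivity
  calc ∑ k ∈ A, ‖StE E0 J om α (k * m ^ 3)‖ ^ 4
      ≤ ∑ k ∈ A, (Real.exp Rl ^ ((1 : ℝ) / 3) * Kk ^ (-(1 / 3) : ℝ)) ^ 2 *
        ((nm k : ℝ) ^ ((2 : ℝ) / 3) * ‖StE E0 J om α (k * m ^ 3)‖ ^ 4) := Finset.sum_le_sum hw
    _ = (Real.exp Rl ^ ((1 : ℝ) / 3) * Kk ^ (-(1 / 3) : ℝ)) ^ 2 *
        ∑ k ∈ A, (nm k : ℝ) ^ ((2 : ℝ) / 3) * ‖StE E0 J om α (k * m ^ 3)‖ ^ 4 := by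
        rw [Finset.mul_sum]
    _ ≤ (Real.exp Rl ^ ((1 : ℝ) / 3) * Kk ^ (-(1 / 3) : ℝ)) ^ 2 *
        (H ^ M * X ^ (E + ε / 2) * (Xw * V) ^ (-(1 / 3) : ℝ)) ^ 2 := by
        refine mul_le_mul_of_nonneg_left ?_ (by positivity)
        exact (Finset.sum_le_sum_of_subset_of_nonneg hA fun _ _ _ => by positivity).trans h1
    _ ≤ (X ^ (ε / 2) * Kk ^ (-(1 / 3) : ℝ)) ^ 2 *
        (H ^ M * X ^ (E + ε / 2) * (Xw * V) ^ (-(1 / 3) : ℝ)) ^ 2 := by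
        refine mul_le_mul_of_nonneg_right ?_ (by positivity)
        exact pow_le_pow_left₀ (by positivity) (mul_le_mul_of_nonneg_right h3 h7) 2
    _ = _ := by
        have h5 : X ^ (E + ε) = X ^ (ε / 2) * X ^ (E + ε / 2) := by
          rw [← Real.rpow_add hX0]; congr 1; ring
        rw [h5]
        ring

/-! ### the tuples -/

variable {ι : Type*} [Fintype ι]

/-- the structured function of a family of sequences -/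
def SA (T : Finset (ι → Eis)) (al : (ι → Eis) → Eis → ℂ) (E0 : ℝ) (J : Finset (Eis × Eis))
    (om : Eis × Eis → ℂ) (k : Eis) : ℂ :=
  ∑ β ∈ T, sy k (∏ i, β i) * StE E0 J om (al β) k

/-- the weights -/
def wt (β : ι → Eis) : ℝ := (nm (∏ i, β i) : ℝ) ^ (-(1 / 2) : ℝ)

lemma wt_pos {β : ι → Eis} (h : ∏ i, β i ≠ 0) : 0 < wt β := by
  unfold wt
  have := nm1 h
  exact Real.rpow_pos_of_pos (by linarith) _

lemma norm_SA_sq {T : Finset (ι → Eis)} (hT : ∀ β ∈ T, ∏ i, β i ≠ 0)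
    (al : (ι → Eis) → Eis → ℂ) (E0 : ℝ) (J : Finset (Eis × Eis)) (om : Eis × Eis → ℂ) (k : Eis) :
    ‖SA T al E0 J om k‖ ^ 2 ≤
      (∑ β ∈ T, wt β) * ∑ β ∈ T, (wt β)⁻¹ * ‖StE E0 J om (al β) k‖ ^ 2 := by
  have h2 : ‖SA T al E0 J om k‖ ≤
      ∑ β ∈ T, Real.sqrt (wt β) * (Real.sqrt (wt β)⁻¹ * ‖StE E0 J om (al β) k‖) := by
    unfold SA
    refine (norm_sum_le _ _).trans (Finset.sum_le_sum fun β hβ => ?_)
    have hw := wt_pos (hT β hβ)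
    rw [← mul_assoc, ← Real.sqrt_mul hw.le, mul_inv_cancel₀ hw.ne', Real.sqrt_one, one_mul,
      norm_mul]
    have h3 : ‖sy k (∏ i, β i)‖ ≤ 1 := E5P571.norm_sy_le _ _
    calc ‖sy k (∏ i, β i)‖ * ‖StE E0 J om (al β) k‖
        ≤ 1 * ‖StE E0 J om (al β) k‖ := mul_le_mul_of_nonneg_right h3 (norm_nonneg _)
      _ = _ := one_mul _
  refine (pow_le_pow_left₀ (norm_nonneg _) h2 2).trans ?_
  refine (Finset.sum_mul_sq_le_sq_mul_sq _ _ _).trans (le_of_eq ?_)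
  congr 1
  · exact Finset.sum_congr rfl fun β hβ => Real.sq_sqrt (wt_pos (hT β hβ)).le
  · refine Finset.sum_congr rfl fun β hβ => ?_
    rw [mul_pow, Real.sq_sqrt (inv_pos.2 (wt_pos (hT β hβ))).le]

/-- **sum over the tuples, second moment** -/
theorem tup2 {T : Finset (ι → Eis)} (hT : ∀ β ∈ T, ∏ i, β i ≠ 0)
    (al : (ι → Eis) → Eis → ℂ) (E0 : ℝ) (J : Finset (Eis × Eis)) (om : Eis × Eis → ℂ)
    (A : Finset Eis) (m : Eis) {G W : ℝ} (hG : 0 ≤ G) (hW : ∑ β ∈ T, wt β ≤ W)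
    (h : ∀ β ∈ T, ∑ k ∈ A, ‖StE E0 J om (al β) (k * m ^ 3)‖ ^ 2 ≤ G * wt β ^ 2) :
    ∑ k ∈ A, ‖SA T al E0 J om (k * m ^ 3)‖ ^ 2 ≤ W ^ 2 * G := by
  have hw0 : 0 ≤ ∑ β ∈ T, wt β := Finset.sum_nonneg fun β hβ => (wt_pos (hT β hβ)).le
  calc ∑ k ∈ A, ‖SA T al E0 J om (k * m ^ 3)‖ ^ 2
      ≤ ∑ k ∈ A, (∑ β ∈ T, wt β) * ∑ β ∈ T, (wt β)⁻¹ * ‖StE E0 J om (al β) (k * m ^ 3)‖ ^ 2 :=
        Finset.sum_le_sum fun k _ => norm_SA_sq hT al E0 J om _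
    _ = (∑ β ∈ T, wt β) * ∑ β ∈ T, (wt β)⁻¹ * ∑ k ∈ A, ‖StE E0 J om (al β) (k * m ^ 3)‖ ^ 2 := by
        rw [← Finset.mul_sum]
        congr 1
        rw [Finset.sum_comm]
        exact Finset.sum_congr rfl fun β _ => (Finset.mul_sum _ _ _).symm
    _ ≤ (∑ β ∈ T, wt β) * ∑ β ∈ T, G * wt β := by
        refine mul_le_mul_of_nonneg_left (Finset.sum_le_sum fun β hβ => ?_) hw0
        have hp := wt_pos (hT β hβ)
        calc (wt β)⁻¹ * ∑ k ∈ A, ‖StE E0 J om (al β) (k * m ^ 3)‖ ^ 2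
            ≤ (wt β)⁻¹ * (G * wt β ^ 2) := mul_le_mul_of_nonneg_left (h β hβ) (inv_pos.2 hp).le
          _ = G * wt β := by field_simp
    _ = (∑ β ∈ T, wt β) ^ 2 * G := by rw [← Finset.mul_sum]; ring
    _ ≤ W ^ 2 * G := mul_le_mul_of_nonneg_right (pow_le_pow_left₀ hw0 hW 2) hG

/-- **sum over the tuples, fourth moment** -/
theorem tup4 {T : Finset (ι → Eis)} (hT : ∀ β ∈ T, ∏ i, β i ≠ 0)
    (al : (ι → Eis) → Eis → ℂ) (E0 : ℝ) (J : Finset (Eis × Eis)) (om : Eis × Eis → ℂ)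
    (A : Finset Eis) (m : Eis) {G W : ℝ} (hG : 0 ≤ G) (hW : ∑ β ∈ T, wt β ≤ W)
    (h : ∀ β ∈ T, ∑ k ∈ A, ‖StE E0 J om (al β) (k * m ^ 3)‖ ^ 4 ≤ G * wt β ^ 4) :
    ∑ k ∈ A, ‖SA T al E0 J om (k * m ^ 3)‖ ^ 4 ≤ W ^ 4 * G := by
  have hw0 : 0 ≤ ∑ β ∈ T, wt β := Finset.sum_nonneg fun β hβ => (wt_pos (hT β hβ)).le
  have hk : ∀ k, ‖SA T al E0 J om k‖ ^ 4 ≤ (∑ β ∈ T, wt β) ^ 3 *
      ∑ β ∈ T, (wt β)⁻¹ ^ 3 * ‖StE E0 J om (al β) k‖ ^ 4 := by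
    intro k
    have h1 := norm_SA_sq hT al E0 J om k
    have h2 : (∑ β ∈ T, (wt β)⁻¹ * ‖StE E0 J om (al β) k‖ ^ 2) ^ 2 ≤
        (∑ β ∈ T, wt β) * ∑ β ∈ T, (wt β)⁻¹ ^ 3 * ‖StE E0 J om (al β) k‖ ^ 4 := by
      refine Finset.sum_sq_le_sum_mul_sum_of_sq_eq_mul T (fun β hβ => (wt_pos (hT β hβ)).le)
        (fun β hβ => by have := wt_pos (hT β hβ); positivity) fun β hβ => ?_
      have hp := wt_pos (hT β hβ)
      field_simp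
    calc ‖SA T al E0 J om k‖ ^ 4 = (‖SA T al E0 J om k‖ ^ 2) ^ 2 := by ring
      _ ≤ ((∑ β ∈ T, wt β) * ∑ β ∈ T, (wt β)⁻¹ * ‖StE E0 J om (al β) k‖ ^ 2) ^ 2 :=
          pow_le_pow_left₀ (by positivity) h1 2
      _ ≤ (∑ β ∈ T, wt β) ^ 2 * ((∑ β ∈ T, wt β) *
          ∑ β ∈ T, (wt β)⁻¹ ^ 3 * ‖StE E0 J om (al β) k‖ ^ 4) := by
          rw [mul_pow]
          exact mul_le_mul_of_nonneg_left h2 (by positivity)
      _ = _ := by ring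
  calc ∑ k ∈ A, ‖SA T al E0 J om (k * m ^ 3)‖ ^ 4
      ≤ ∑ k ∈ A, (∑ β ∈ T, wt β) ^ 3 *
        ∑ β ∈ T, (wt β)⁻¹ ^ 3 * ‖StE E0 J om (al β) (k * m ^ 3)‖ ^ 4 :=
        Finset.sum_le_sum fun k _ => hk _
    _ = (∑ β ∈ T, wt β) ^ 3 *
        ∑ β ∈ T, (wt β)⁻¹ ^ 3 * ∑ k ∈ A, ‖StE E0 J om (al β) (k * m ^ 3)‖ ^ 4 := by
        rw [← Finset.mul_sum]
        congr 1
        rw [Finset.sum_comm]
        exact Finset.sum_congr rfl fun β _ => (Finset.mul_sum _ _ _).symm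
    _ ≤ (∑ β ∈ T, wt β) ^ 3 * ∑ β ∈ T, G * wt β := by
        refine mul_le_mul_of_nonneg_left (Finset.sum_le_sum fun β hβ => ?_) (by positivity)
        have hp := wt_pos (hT β hβ)
        calc (wt β)⁻¹ ^ 3 * ∑ k ∈ A, ‖StE E0 J om (al β) (k * m ^ 3)‖ ^ 4
            ≤ (wt β)⁻¹ ^ 3 * (G * wt β ^ 4) := mul_le_mul_of_nonneg_left (h β hβ) (by positivity)
          _ = G * wt β := by field_simp
    _ = (∑ β ∈ T, wt β) ^ 4 * G := by rw [← Finset.mul_sum]; ring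
    _ ≤ W ^ 4 * G := mul_le_mul_of_nonneg_right (pow_le_pow_left₀ hw0 hW 4) hG

end Crest.Agent.R017.TSa968
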