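import Crest.Agent.R017.TSr_968
import Crest.Agent.R017.TSb_968
import Crest.Agent.R017.OwA_90
import Crest.Agent.R017.TER_792
import Crest.Agent.R017.TUP_47
import Crest.Agent.R017.E4Ub_164
import Crest.Agent.R017.P1DomS_918

/-!
# Row 17, R8 (helper968): moments of the structured function, class N, one frame

* `Own` : the `T`-numbers of the triples at their own family (helper90's `own_all`)
* `m2`, `m4` : the exponents
* `fct` : the facts of the domain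
-/

set_option autoImplicit false

noncomputable section

open Finset

namespace Crest.Agent.R017.TSc968

open Crest.Agent.R012 Crest.Agent.R012.Eis
open Crest.Agent.R017.Prov71
open Crest.Agent.R017.B770
open Crest.Agent.R017.FE47 (PU cx)
open Crest.Agent.R017.ER911
open Crest.Agent.R017.E5B71
open Crest.Agent.R017.E5L770
open Crest.Agent.R017.OwA90 (Gt K0 Gt_cont4)
open Crest.Agent.R017.TSr968 (Ff Fc line2 line4)
open Crest.Agent.R017.TM968 (qd)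
open Crest.Agent.R017.TMw968 (q4)

/-- **the own numbers of the triples** -/
def Own (s₀ : EF) (d : ℝ) : Prop := ∀ v z₁ z₂ z₃ : ℝ, 0 ≤ v → 0 ≤ z₁ → 0 ≤ z₂ → 0 ≤ z₃ →
  s₀ v {z₁, z₂, z₃} 0 0 ≤ Gt d v (z₁ + z₂ + z₃) (max z₁ (max z₂ z₃))

/-- the number on `Fin 4 → ℝ` -/
def G4 (d : ℝ) (q : Fin 4 → ℝ) : ℝ := Gt d (q 0) (q 1 + q 2 + q 3) (max (q 1) (max (q 2) (q 3)))

lemma G4_cont (d : ℝ) : Continuous (G4 d) := Gt_cont4 d

/-- exponent of the second moment -/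
def m2 (d v N k : ℝ) : ℝ :=
  (5 / 3 + 2 / 3 * d) * N - (k + v) / 3 + max k (max v (2 / 3 * (k + v)))

/-- exponent of the fourth moment -/
def m4 (d v N k : ℝ) : ℝ :=
  2 * ((5 / 3 + 2 / 3 * d) * N) - 2 / 3 * (k + v) +
    max (k + 2 / 3 * v) (max (2 * v) (2 / 3 * (k + 2 * v)))

lemma Gt_le_Ff {d v n z K1 ℓ : ℝ} (h1 : 5 / 4 * n ≤ K1) (h2 : 200 / 61 * z ≤ K1)
    (h3 : 2 / 3 * d * n ≤ ℓ) : Gt d v n z ≤ Ff K1 ℓ v n := by
  have hK : K0 v n z ≤ max K1 (max (v + n / 2) (3 / 2 * v)) := by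
    unfold OwA90.K0
    refine max_le (h1.trans (le_max_left _ _)) (max_le ?_ (max_le ?_ (h2.trans (le_max_left _ _))))
    · exact (le_max_left _ _).trans (le_max_right _ _)
    · exact (le_max_right _ _).trans (le_max_right _ _)
  unfold OwA90.Gt TSr968.Ff
  refine min_le_min ?_ le_rfl
  have : max (max (2 * n) (v + n)) (4 / 3 * n + (v + K0 v n z) / 3) ≤
      max (max (2 * n) (v + n)) (4 / 3 * n + (v + max K1 (max (v + n / 2) (3 / 2 * v))) / 3) :=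
    max_le_max le_rfl (by linarith)
  linarith

lemma Ff_slope {K1 ℓ v σ n : ℝ} (hσ : 0 ≤ σ) : Ff K1 ℓ (v + σ) n ≤ Ff K1 ℓ v n + σ := by
  have hK : max K1 (max (v + σ + n / 2) (3 / 2 * (v + σ))) ≤
      max K1 (max (v + n / 2) (3 / 2 * v)) + 3 / 2 * σ := by
    have h1 := le_max_left K1 (max (v + n / 2) (3 / 2 * v))
    have h2 := (le_max_left (v + n / 2) (3 / 2 * v)).trans (le_max_right K1 _)
    have h3 := (le_max_right (v + n / 2) (3 / 2 * v)).trans (le_max_right K1 _)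
    exact max_le (by linarith) (max_le (by linarith) (by linarith))
  unfold TSr968.Ff
  rw [min_add]
  refine min_le_min ?_ ?_
  · have h1 := le_max_left (max (2 * n) (v + n))
      (4 / 3 * n + (v + max K1 (max (v + n / 2) (3 / 2 * v))) / 3)
    have h2 := le_max_right (max (2 * n) (v + n))
      (4 / 3 * n + (v + max K1 (max (v + n / 2) (3 / 2 * v))) / 3)
    have h3 := le_max_left (2 * n) (v + n)
    have h4 := le_max_right (2 * n) (v + n)
    have : max (max (2 * n) (v + σ + n))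
        (4 / 3 * n + (v + σ + max K1 (max (v + σ + n / 2) (3 / 2 * (v + σ)))) / 3) ≤
        max (max (2 * n) (v + n))
          (4 / 3 * n + (v + max K1 (max (v + n / 2) (3 / 2 * v))) / 3) + σ :=
      max_le (max_le (by linarith) (by linarith)) (by linarith)
    linarith
  · have h1 := le_max_left (v + 4 / 3 * n) (5 / 3 * n + v / 3)
    have h2 := le_max_right (v + 4 / 3 * n) (5 / 3 * n + v / 3)
    exact max_le (by linarith) (by linarith)

/-- final comparison, second moment -/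
lemma fin2 {d v v' N N' k τ δ : ℝ} (hd : 0 ≤ d) (hd1 : d ≤ 1 / 8) (hδ : 0 ≤ δ) (v1 : v - δ ≤ v')
    (v2 : v' ≤ v + 2 * δ) (n1 : N - 3 * δ ≤ N') (n2 : N' ≤ N + 3 * δ) :
    2 * N' + 2 / 3 * d * N' + τ + max k (max v' (2 / 3 * (k + v'))) - (N' + v' + k) / 3 ≤
      m2 d v N k + τ + 10 * δ := by
  have h1 : max k (max v' (2 / 3 * (k + v'))) ≤ max k (max v (2 / 3 * (k + v))) + 2 * δ := by
    have e1 : k ≤ max k (max v (2 / 3 * (k + v))) := le_max_left _ _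
    have e2 : v ≤ max k (max v (2 / 3 * (k + v))) := (le_max_left _ _).trans (le_max_right _ _)
    have e3 : 2 / 3 * (k + v) ≤ max k (max v (2 / 3 * (k + v))) :=
      (le_max_right _ _).trans (le_max_right _ _)
    exact max_le (by linarith) (max_le (by linarith) (by linarith))
  have h2 : d * N' ≤ d * N + 3 / 8 * δ := by nlinarith
  unfold m2
  linarith

/-- final comparison, fourth moment -/
lemma fin4 {d v v' N N' k τ δ : ℝ} (hd : 0 ≤ d) (hd1 : d ≤ 1 / 8) (hδ : 0 ≤ δ) (v1 : v - δ ≤ v')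
    (v2 : v' ≤ v + 2 * δ) (n1 : N - 3 * δ ≤ N') (n2 : N' ≤ N + 3 * δ) :
    2 * (2 * N' + 2 / 3 * d * N' + τ +
      max (k + 2 / 3 * v') (max (2 * v') (2 / 3 * (k + 2 * v'))) / 2 - (N' + v' + k) / 3) ≤
      m4 d v N k + 2 * τ + 20 * δ := by
  have h1 : max (k + 2 / 3 * v') (max (2 * v') (2 / 3 * (k + 2 * v'))) ≤
      max (k + 2 / 3 * v) (max (2 * v) (2 / 3 * (k + 2 * v))) + 4 * δ := by
    have e1 : k + 2 / 3 * v ≤ max (k + 2 / 3 * v) (max (2 * v) (2 / 3 * (k + 2 * v))) :=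
      le_max_left _ _
    have e2 : 2 * v ≤ max (k + 2 / 3 * v) (max (2 * v) (2 / 3 * (k + 2 * v))) :=
      (le_max_left _ _).trans (le_max_right _ _)
    have e3 : 2 / 3 * (k + 2 * v) ≤ max (k + 2 / 3 * v) (max (2 * v) (2 / 3 * (k + 2 * v))) :=
      (le_max_right _ _).trans (le_max_right _ _)
    exact max_le (by linarith) (max_le (by linarith) (by linarith))
  have h2 : d * N' ≤ d * N + 3 / 8 * δ := by nlinarith
  unfold m4
  linarith

/-! ### the domain -/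

/-- the facts -/
structure Fq (q : (Option (Fin 3 ⊕ Fin 5) → ℝ) × (Kd → ℝ)) : Prop where
  κ0 : 8 / 9 ≤ cκ (dn q.1)
  κ1 : cκ (dn q.1) ≤ 1
  u4 : 0 ≤ cu (dn q.1) 4
  u3 : cu (dn q.1) 4 ≤ cu (dn q.1) 3
  u2 : cu (dn q.1) 3 ≤ cu (dn q.1) 2
  y : cu (dn q.1) 2 ≤ 2 / 7 * cκ (dn q.1)
  N0 : 3 / 4 * cκ (dn q.1) ≤ cN (dn q.1)
  N1 : cN (dn q.1) ≤ 84 / 103 * cκ (dn q.1)
  x0 : 0 ≤ cx' (dn q.1)
  x : cx' (dn q.1) = 0 ∨ (cx' (dn q.1) ≤ 1 / 36 * cκ (dn q.1) ∧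
    cx' (dn q.1) + 7 / 10 * cN (dn q.1) ≤ 199 / 360 * cκ (dn q.1) ∧
    cN (dn q.1) + cx' (dn q.1) ≤ 15 / 19 * cκ (dn q.1))
  v0 : 0 ≤ q.1 none
  vt : q.1 none ≤ top5 (dn q.1)

theorem fct {A d : ℝ} (hd : 0 ≤ d) (hd1 : d ≤ 1 / 8) (hA1 : 16 * (1 - A) ≤ d)
    {q : (Option (Fin 3 ⊕ Fin 5) → ℝ) × (Kd → ℝ)} (hq : q ∈ SqL A d) : Fq q := by
  obtain ⟨hw, v0, vt⟩ := hq
  have hw : Sq5 A d (dn q.1) q.2 := hw
  have hκ := hw.κpos
  have B := hw.nab hd hd1 hA1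
  obtain ⟨f1, f2, f3, f4⟩ := B.facts
  rw [cN_div] at f3 f4
  obtain ⟨a1, a2, a3, a4⟩ := hw.anti
  rw [div_le_iff₀ hκ] at f3 f2
  rw [le_div_iff₀ hκ] at f4 f1
  have hx0 : 0 ≤ cx' (dn q.1) := by
    have := hw.tl.adm.1
    rwa [le_div_iff₀ hκ, zero_mul] at this
  refine ⟨hw.κ0, hw.κ1, by linarith, a4, a3, f2, f4, f3, hx0, ?_, v0, vt⟩
  rcases hw.shrA hd hd1 hA1 with h | ⟨h1, h2, h3, h4⟩
  · exact Or.inl h
  · right
    have e1 : cx' (dn q.1) / cκ (dn q.1) + 7 / 10 * (cN (dn q.1) / cκ (dn q.1)) =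
        (cx' (dn q.1) + 7 / 10 * cN (dn q.1)) / cκ (dn q.1) := by ring
    rw [e1, div_le_iff₀ hκ] at h2
    rw [← add_div, div_le_iff₀ hκ] at h4
    have h5 : cx' (dn q.1) / cκ (dn q.1) ≤ 1 / 36 := by linarith
    rw [div_le_iff₀ hκ] at h5
    exact ⟨h5, h2, h4⟩

end Crest.Agent.R017.TSc968
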