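import Crest.Agent.R017.TSa_968

/-!
# Row 17, R8 (helper968): the real lines of the moments of the structured function

* `Ff K1 ℓ v n` : the T-number of a child of length `n` at the level `v`, family `K1` of the parent
* `line2`, `line4` : the real lines of `one2`, `one4`
-/

set_option autoImplicit false

noncomputable section

namespace Crest.Agent.R017.TSr968

open Crest.Agent.R017.TM968 (qd)
open Crest.Agent.R017.TMw968 (q4)

/-- the T-number of a child -/
def Ff (K1 ℓ v n : ℝ) : ℝ :=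
  min (max (max (2 * n) (v + n)) (4 / 3 * n + (v + max K1 (max (v + n / 2) (3 / 2 * v))) / 3) + ℓ)
    (max (v + 4 / 3 * n) (5 / 3 * n + v / 3))

/-- the common facts (actual values, tolerance `η`) -/
structure Fc (N c v k x b K1 η τ : ℝ) : Prop where
  c0 : 0 ≤ c
  c1 : c ≤ N / 2
  x0 : 0 ≤ x
  xv : 2 * x ≤ v
  b0 : 0 ≤ b
  b1 : b ≤ 1 / 64 + η
  v1 : v ≤ 3 / 4 * N + η
  K1 : K1 ≤ 5 / 4 * N + η
  N0 : 2 / 3 ≤ N + η
  k1 : k ≤ N + 3 * τ
  η0 : 0 ≤ η
  τ0 : 1 / 384 + 3 * η ≤ τ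
  τ1 : τ ≤ 1 / 7
  η1 : η ≤ 1 / 1000

variable {N c v k x b K1 ℓ η τ : ℝ}

/-- the first form, `q` any number `≤ E - y` with `y ≥ (4/3) x` -/
lemma first (H : Fc N c v k x b K1 η τ) {q E : ℝ} (hq : q + 4 / 3 * x ≤ E) :
    max (max (2 * (N - c - b - x)) ((v + b - 2 * x) + (N - c - b - x))) (4 / 3 * (N - c - b - x) +
      ((v + b - 2 * x) + max K1 (max ((v + b - 2 * x) + (N - c - b - x) / 2)
        (3 / 2 * (v + b - 2 * x)))) / 3) + ℓ + 3 * x + b + q + 4 / 3 * c ≤
      2 * N + ℓ + τ + E := by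
  obtain ⟨c0, c1, x0, xv, b0, b1, v1, hK1, N0, k1, η0, τ0, τ1, η1⟩ := H
  have h1 : 2 * (N - c - b - x) ≤ 2 * N + τ + E - (3 * x + b + q + 4 / 3 * c) := by linarith
  have h2 : 4 / 3 * (N - c - b - x) + ((v + b - 2 * x) + K1) / 3 ≤
      2 * N + τ + E - (3 * x + b + q + 4 / 3 * c) := by linarith
  have h3 : 4 / 3 * (N - c - b - x) + ((v + b - 2 * x) +
      ((v + b - 2 * x) + (N - c - b - x) / 2)) / 3 ≤
      2 * N + τ + E - (3 * x + b + q + 4 / 3 * c) := by linarith
  have h4 : 4 / 3 * (N - c - b - x) + ((v + b - 2 * x) + 3 / 2 * (v + b - 2 * x)) / 3 ≤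
      2 * N + τ + E - (3 * x + b + q + 4 / 3 * c) := by linarith
  have h6 : (v + b - 2 * x) + (N - c - b - x) ≤
      2 * N + τ + E - (3 * x + b + q + 4 / 3 * c) := by linarith
  have h5 : max (max (2 * (N - c - b - x)) ((v + b - 2 * x) + (N - c - b - x)))
      (4 / 3 * (N - c - b - x) +
      ((v + b - 2 * x) + max K1 (max ((v + b - 2 * x) + (N - c - b - x) / 2)
        (3 / 2 * (v + b - 2 * x)))) / 3) ≤
      2 * N + τ + E - (3 * x + b + q + 4 / 3 * c) := by
    refine max_le (max_le h1 h6) ?_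
    rcases le_total K1 (max ((v + b - 2 * x) + (N - c - b - x) / 2) (3 / 2 * (v + b - 2 * x)))
      with h | h
    · rw [max_eq_right h]
      rcases le_total ((v + b - 2 * x) + (N - c - b - x) / 2) (3 / 2 * (v + b - 2 * x)) with h' | h'
      · rw [max_eq_right h']; exact h4
      · rw [max_eq_left h']; exact h3
    · rw [max_eq_left h]; exact h2
  linarith

/-- **the real line of the second moment** -/
theorem line2 (H : Fc N c v k x b K1 η τ) (hℓ : 0 ≤ ℓ) :
    Ff K1 ℓ (v + b - 2 * x) (N - c - b - x) + 3 * x + b + qd k v 0 x + 4 / 3 * c ≤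
      2 * N + ℓ + τ + max k (max v (2 / 3 * (k + v))) := by
  have e1 : k ≤ max k (max v (2 / 3 * (k + v))) := le_max_left _ _
  have e2 : v ≤ max k (max v (2 / 3 * (k + v))) := (le_max_left _ _).trans (le_max_right _ _)
  have e3 : 2 / 3 * (k + v) ≤ max k (max v (2 / 3 * (k + v))) :=
    (le_max_right _ _).trans (le_max_right _ _)
  set E := max k (max v (2 / 3 * (k + v))) with hE
  have hx0 := H.x0
  have f1 : Ff K1 ℓ (v + b - 2 * x) (N - c - b - x) ≤
      max (max (2 * (N - c - b - x)) ((v + b - 2 * x) + (N - c - b - x)))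
        (4 / 3 * (N - c - b - x) +
      ((v + b - 2 * x) + max K1 (max ((v + b - 2 * x) + (N - c - b - x) / 2)
        (3 / 2 * (v + b - 2 * x)))) / 3) + ℓ := min_le_left _ _
  -- the branches of `qd`
  have g2 := first (ℓ := ℓ) H (q := v - 2 * x) (E := E) (by linarith)
  have g3 := first (ℓ := ℓ) H (q := 2 / 3 * (k + (v - 2 * x))) (E := E) (by linarith)
  have g1 : Ff K1 ℓ (v + b - 2 * x) (N - c - b - x) + 3 * x + b + k + 4 / 3 * c ≤
      2 * N + ℓ + τ + E := by
    rcases le_total k (2 * (v - 2 * x)) with h | h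
    · linarith
    · obtain ⟨c0, c1, x0, xv, b0, b1, v1, hK1, N0, k1, η0, τ0, τ1, η1⟩ := H
      have f2 : Ff K1 ℓ (v + b - 2 * x) (N - c - b - x) ≤
          max ((v + b - 2 * x) + 4 / 3 * (N - c - b - x))
            (5 / 3 * (N - c - b - x) + (v + b - 2 * x) / 3) := min_le_right _ _
      have f3 : max ((v + b - 2 * x) + 4 / 3 * (N - c - b - x))
          (5 / 3 * (N - c - b - x) + (v + b - 2 * x) / 3) ≤
          2 * N + ℓ + τ + E - (3 * x + b + k + 4 / 3 * c) := by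
        rcases le_total v (k / 2) with h' | h'
        · refine max_le ?_ ?_ <;> linarith
        · refine max_le ?_ ?_ <;> linarith
      linarith
  unfold TM968.qd
  rw [add_zero]
  rcases max_cases k (max (v - 2 * x) (2 / 3 * (k + (v - 2 * x)))) with ⟨h, -⟩ | ⟨h, -⟩
  · rw [h]; exact g1
  · rw [h]
    rcases max_cases (v - 2 * x) (2 / 3 * (k + (v - 2 * x))) with ⟨h', -⟩ | ⟨h', -⟩
    · rw [h']; linarith
    · rw [h']; linarith

/-- **the real line of the fourth moment** -/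
theorem line4 (H : Fc N c v k x b K1 η τ) (hℓ : 0 ≤ ℓ) :
    Ff K1 ℓ (v + b - 2 * x) (N - c - b - x) + 3 * x + b + q4 k v x + 4 / 3 * c ≤
      2 * N + ℓ + τ + max (k + 2 / 3 * v) (max (2 * v) (2 / 3 * (k + 2 * v))) / 2 := by
  have e1 : k + 2 / 3 * v ≤ max (k + 2 / 3 * v) (max (2 * v) (2 / 3 * (k + 2 * v))) :=
    le_max_left _ _
  have e2 : 2 * v ≤ max (k + 2 / 3 * v) (max (2 * v) (2 / 3 * (k + 2 * v))) :=
    (le_max_left _ _).trans (le_max_right _ _)
  have e3 : 2 / 3 * (k + 2 * v) ≤ max (k + 2 / 3 * v) (max (2 * v) (2 / 3 * (k + 2 * v))) :=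
    (le_max_right _ _).trans (le_max_right _ _)
  set E := max (k + 2 / 3 * v) (max (2 * v) (2 / 3 * (k + 2 * v))) with hE
  have hx0 := H.x0
  have f1 : Ff K1 ℓ (v + b - 2 * x) (N - c - b - x) ≤
      max (max (2 * (N - c - b - x)) ((v + b - 2 * x) + (N - c - b - x)))
        (4 / 3 * (N - c - b - x) +
      ((v + b - 2 * x) + max K1 (max ((v + b - 2 * x) + (N - c - b - x) / 2)
        (3 / 2 * (v + b - 2 * x)))) / 3) + ℓ := min_le_left _ _
  have g2 := first (ℓ := ℓ) H (q := v - 2 * x) (E := E / 2) (by linarith)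
  have g3 := first (ℓ := ℓ) H (q := (k + 2 * (v - 2 * x)) / 3) (E := E / 2) (by linarith)
  have g1 : Ff K1 ℓ (v + b - 2 * x) (N - c - b - x) + 3 * x + b +
      (k / 2 + (v - 2 * x) / 3) + 4 / 3 * c ≤ 2 * N + ℓ + τ + E / 2 := by
    rcases le_total k (2 * (v - 2 * x)) with h | h
    · linarith
    · obtain ⟨c0, c1, x0, xv, b0, b1, v1, hK1, N0, k1, η0, τ0, τ1, η1⟩ := H
      have f2 : Ff K1 ℓ (v + b - 2 * x) (N - c - b - x) ≤
          max ((v + b - 2 * x) + 4 / 3 * (N - c - b - x))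
            (5 / 3 * (N - c - b - x) + (v + b - 2 * x) / 3) := min_le_right _ _
      have f3 : max ((v + b - 2 * x) + 4 / 3 * (N - c - b - x))
          (5 / 3 * (N - c - b - x) + (v + b - 2 * x) / 3) ≤
          2 * N + ℓ + τ + E / 2 - (3 * x + b + (k / 2 + (v - 2 * x) / 3) + 4 / 3 * c) := by
        rcases le_total v (k / 2) with h' | h'
        · refine max_le ?_ ?_ <;> linarith
        · refine max_le ?_ ?_ <;> linarith
      linarith
  unfold TMw968.q4
  rcases max_cases (k / 2 + (v - 2 * x) / 3) (max (v - 2 * x) ((k + 2 * (v - 2 * x)) / 3))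
    with ⟨h, -⟩ | ⟨h, -⟩
  · rw [h]; exact g1
  · rw [h]
    rcases max_cases (v - 2 * x) ((k + 2 * (v - 2 * x)) / 3) with ⟨h', -⟩ | ⟨h', -⟩
    · rw [h']; linarith
    · rw [h']; linarith

end Crest.Agent.R017.TSr968
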