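import Crest.Agent.R017.TUD_47
import Crest.Agent.R017.TUP2_47
import Crest.Agent.R017.E5L3_770

/-!
# Row 17, R8: `TailU`, assembly (class N) (helper47)

* `tailS_of` : one level of the tail with the structured function, from the moments of the
  three-lump side (`SIn2`, `SIn4`, `SInA`, `SPIn'`), of the two-lump side (`UIn`, `EIn`) and the
  real inequalities (`RealQ'`, `RealB`)
* `tailU_of` : `TailU` for the official structured function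
-/

set_option autoImplicit false

noncomputable section

open Complex Finset
open scoped ComplexConjugate

namespace Crest.Agent.R017.TU47

open Crest.Agent.R012 Crest.Agent.R012.Eis
open Crest.Agent.R012.LS2 (bl mem_bl)
open Crest.Agent.R012.Mob705 hiding pb mem_pb
open Crest.Agent.R017.CM106 Crest.Agent.R017.FE47 Crest.Agent.R017.E5T54 Crest.Agent.R017.E5P571
open Crest.Agent.R017.XG702 (Pcs)
open Crest.Agent.R017.Sup271 (NPm)
open Crest.Agent.R017.XT71 (Sys Win)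
open Crest.Agent.R017.HP842 (Pc pc)
open Crest.Agent.R017.B770 Crest.Agent.R017.Prov71
open Crest.Agent.R017.E5B71 Crest.Agent.R017.E5L770 Crest.Agent.R017.E5M372

variable {Λ : Type*} {π : Λ → DPar} {h : ℝ → ℝ} {A d μ : ℝ}

/-- the term of the tail -/
lemma tailS_term (P : DPar) (h : ℝ → ℝ) (t k : Eis) (a : Bd) (ps : List Pq) (s : ℝ) :
    s * (‖PC h ((bs2 a ps).map (Pt P t)) k‖ * ‖PC h ((amL ps).map (Pt P t)) k‖) =
      s * ((((a.us 0 :: a.us 1 :: moL ps).map (GG P h (t * k))).prod) *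
        (((amL ps).map (GG P h (t * k))).prod)) := by
  rw [norm_PC, norm_PC]
  rfl

set_option maxHeartbeats 1000000 in
/-- **one level of the tail** -/
theorem tailS_of {c₀ : ℝ} (hpu : PU h c₀) (hP : ∀ lam, (π lam).OK)
    (hN : ∀ lam, ∀ k : Eis, k ≠ 0 → NPm (π lam).n (π lam).ψ (π lam).l₂ k) (hA : 2 / 3 ≤ A)
    (U : UIn π h d 5) (Ei : EIn π h d 5) (hQ : RealQ' A d μ) (hB : RealB A d (1 / 10))
    (hμ : μ ≤ 1 / 50) (Sf : ℕ → SF Λ) (h2 : SIn2 π Sf A d) (h4 : SIn4 π Sf A d)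
    (hAll : SInA π Sf A d) (hp : SPIn' π Sf A d μ) (R : Λ → ℝ) (hR : ∀ lam, 0 ≤ R lam) :
    UB (lev (Real.log 2) S5) Dq (fun lam a ps => if a.2 < nL a.1.l (a3 a.1) a.1.z then
        TailS π h (Sf a.2) R lam a.1 ps else 0)
      (SqL A d) (alL al5) fun q => T5 (7 / 8 + d) (dn q.1, q.2) - μ := by
  classical
  intro ε hε
  set ε' := min ε 1 / 2 with hε'
  have hε'0 : 0 < ε' := by positivity
  have hε'1 : ε' ≤ 1 := by
    have := min_le_right ε 1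
    rw [hε']; linarith
  have hε'2 : 2 * ε' ≤ ε := by
    have := min_le_left ε 1
    rw [hε']; linarith
  obtain ⟨δ₀, hδ₀, -, HC⟩ := core_pt U Ei hQ hA hε'0 hε'1
  obtain ⟨δB, hδB, HB⟩ := bad_pt hpu hP hN hB hA
  obtain ⟨δ2, hδ2, H2⟩ := h2 R hR δ₀ hδ₀
  obtain ⟨δ4, hδ4, H4⟩ := h4 R hR δ₀ hδ₀
  obtain ⟨δp, hδp, Hp⟩ := hp R hR δ₀ hδ₀
  obtain ⟨δa, hδa, Ha⟩ := hAll R hR (1 / 1000) (by norm_num)
  obtain ⟨δ, hδ, e0, eB, e2, e4, ep, ea⟩ : ∃ δ : ℝ, 0 < δ ∧ δ ≤ δ₀ ∧ δ ≤ δB ∧ δ ≤ δ2 ∧ δ ≤ δ4 ∧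
      δ ≤ δp / 3 ∧ δ ≤ δa :=
    ⟨min (min δ₀ δB) (min (min δ2 δ4) (min (δp / 3) δa)), by positivity,
      (min_le_left _ _).trans (min_le_left _ _), (min_le_left _ _).trans (min_le_right _ _),
      (min_le_right _ _).trans ((min_le_left _ _).trans (min_le_left _ _)),
      (min_le_right _ _).trans ((min_le_left _ _).trans (min_le_right _ _)),
      (min_le_right _ _).trans ((min_le_right _ _).trans (min_le_left _ _)),
      (min_le_right _ _).trans ((min_le_right _ _).trans (min_le_right _ _))⟩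
  refine ⟨δ, hδ, fun lam N B => ?_⟩
  obtain ⟨ρC, hρC, XC, hXC, KC⟩ := HC δ hδ e0 lam.1 N B
  obtain ⟨ρB, hρB, XB, hXB, KB⟩ := HB δ hδ eB lam.1 N B
  obtain ⟨ρ2, hρ2, X2, hX2, K2⟩ := H2 lam N B
  obtain ⟨ρ4, hρ4, X4, hX4, K4⟩ := H4 lam N B
  obtain ⟨ρp, hρp, Xp, hXp, Kp⟩ := Hp lam N B
  obtain ⟨ρa, hρa, Xa, hXa, Ka⟩ := Ha lam N B
  obtain ⟨δ', hδ', rC, rB, r2, r4, rp, ra⟩ : ∃ δ' : ℝ, 0 < δ' ∧ δ' ≤ ρC ∧ δ' ≤ ρB ∧ δ' ≤ ρ2 ∧
      δ' ≤ ρ4 ∧ δ' ≤ ρp ∧ δ' ≤ ρa :=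
    ⟨min (min ρC ρB) (min (min ρ2 ρ4) (min ρp ρa)), by positivity,
      (min_le_left _ _).trans (min_le_left _ _), (min_le_left _ _).trans (min_le_right _ _),
      (min_le_right _ _).trans ((min_le_left _ _).trans (min_le_left _ _)),
      (min_le_right _ _).trans ((min_le_left _ _).trans (min_le_right _ _)),
      (min_le_right _ _).trans ((min_le_right _ _).trans (min_le_left _ _)),
      (min_le_right _ _).trans ((min_le_right _ _).trans (min_le_right _ _))⟩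
  obtain ⟨Xc, hXc, Kc⟩ := XSup271.exists_X (C := 2) (by norm_num) hε'0
  obtain ⟨X₀, xC, xB, x2, x4, xp, xa, xc, xR, xt⟩ : ∃ X₀ : ℝ, XC ≤ X₀ ∧ XB ≤ X₀ ∧ X2 ≤ X₀ ∧
      X4 ≤ X₀ ∧ Xp ≤ X₀ ∧ Xa ≤ X₀ ∧ Xc ≤ X₀ ∧ Real.exp (|R lam.1| / δ) ≤ X₀ ∧
      Real.exp (|Real.log (nm lam.2)| / δ) ≤ X₀ :=
    ⟨max (max (max XC XB) (max X2 X4)) (max (max Xp Xa) (max Xc
      (max (Real.exp (|R lam.1| / δ)) (Real.exp (|Real.log (nm lam.2)| / δ))))),
      by simp, by simp, by simp, by simp, by simp, by simp, by simp, by simp, by simp⟩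
  refine ⟨δ', hδ', X₀, hXC.trans_le xC, ?_⟩
  intro X hX a ps hl1 hl2 q hq hw hm hg hal
  have hX1 : 1 < X := hXC.trans_le (xC.trans hX)
  have hX0 : 0 < X := by linarith
  have hL : 0 < Real.log X := Real.log_pos hX1
  by_cases hgate : a.2 < nL a.1.l (a3 a.1) a.1.z
  swap
  · simp only [if_neg hgate]
    exact Real.rpow_nonneg hX0.le _
  simp only [if_pos hgate]
  unfold TailS
  split_ifs with hc
  swap
  · exact Real.rpow_nonneg hX0.le _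
  obtain ⟨hok, hSM⟩ := hc
  have ht : lam.2 ≠ 0 := hSM.1
  have ht1 := nm1 ht
  -- windows
  have hwS : Win S5 (dn q.1) δ N B δ' X a.1 :=
    ⟨fun i => hw.ev (some i), hw.g, hw.n, hw.s₁, hw.s₂⟩
  have g0 := good_us hwS hok 0
  have g1 := good_us hwS hok 1
  have mono : ∀ {ρ : ℝ}, δ' ≤ ρ → X ^ δ' ≤ X ^ ρ := fun hr =>
    Real.rpow_le_rpow_of_exponent_le hX1.le hr
  have hCf : ∀ ρ : ℝ, δ' ≤ ρ → Cf δ ρ B X (R lam.1) lam.2 N a.1.l (a.1.us 0) (a.1.us 1) ps q := by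
    intro ρ hρ
    refine ⟨hl1, (hok.1 0).1, (hok.1 1).1, hl2, ?_, hw.ev (some (.inl 0)), ?_, hm, hR _, ?_, ht,
      ?_⟩
    · intro p hp
      rcases List.mem_cons.1 hp with rfl | hp
      · exact ⟨g0.1.trans (mono hρ), g0.2.1, g0.2.2⟩
      rcases List.mem_cons.1 hp with rfl | hp
      · exact ⟨g1.1.trans (mono hρ), g1.2.1, g1.2.2⟩
      · obtain ⟨h5, h6, h7⟩ := hg p hp
        exact ⟨h5.trans (mono hρ), h6, h7⟩
    · have w0 : |Dq.nl X (a.1.us 0) - cu (dn q.1) 0| ≤ δ := hwS.ev (.inr 0)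
      have w1 : |Dq.nl X (a.1.us 1) - cu (dn q.1) 1| ≤ δ := hwS.ev (.inr 1)
      have eM : cM (dn q.1) = cu (dn q.1) 0 + cu (dn q.1) 1 := rfl
      rw [eM]
      obtain ⟨a1, a2⟩ := abs_le.1 w0
      obtain ⟨b1, b2⟩ := abs_le.1 w1
      exact abs_le.2 ⟨by linarith, by linarith⟩
    · exact (le_abs_self _).trans (abs_log_le hδ (xR.trans hX) hX1)
    · exact (le_abs_self _).trans (abs_log_le hδ (xt.trans hX) hX1)
  have hF : ∀ (δ'' ρ : ℝ), δ ≤ δ'' → δ' ≤ ρ → FrT A d δ'' ρ B X N a q := fun δ'' ρ h1 h2 =>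
    ⟨hq, hw.mono hX1.le h1 le_rfl le_rfl h2, hok, hgate⟩
  set S : Eis → ℝ := fun k => ‖(Sf a.2).at lam a.1 k‖ with hS
  have hS0 : ∀ k, 0 ≤ S k := fun k => norm_nonneg _
  have hSm : Sm2 d μ δ δ₀ X (R lam.1) (π lam.1).n S a.1.l q := by
    refine ⟨hS0, ?_, ?_, ?_⟩
    · intro m hmp hm3 hk
      exact K2 X (x2.trans hX) a q (hF _ _ e2 r2) hSM m hmp hm3 hk
    · intro m hmp hm3 hk
      exact K4 X (x4.trans hX) a q (hF _ _ e4 r4) hSM m hmp hm3 hk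
    · intro m hmp hm3 hk hk1
      exact Kp X (xp.trans hX) a q (hF _ _ (by linarith) rp) hSM m hmp hm3
        ⟨hk, by linarith⟩
  have hSA : SmA d (1 / 1000) X (R lam.1) (π lam.1).n S a.1.l q := by
    intro m hmp hm3
    exact Ka X (xa.trans hX) a q (hF _ _ ea ra) hSM m hmp hm3 trivial
  have h1 := KC X (xC.trans hX) (R lam.1) lam.2 (π lam.1).n a.1.l (a.1.us 0) (a.1.us 1) ps S q hq
    (hCf _ rC) hSm
  have h3 := KB X (xB.trans hX) (R lam.1) lam.2 (π lam.1).n a.1.l (a.1.us 0) (a.1.us 1) ps S q hq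
    (hCf _ rB) hS0 hSA
  set F : Eis → ℝ := fun k => S k *
    ((((a.1.us 0 :: a.1.us 1 :: moL ps).map (GG (π lam.1) h (lam.2 * k))).prod) *
      (((amL ps).map (GG (π lam.1) h (lam.2 * k))).prod)) with hFd
  have hF0 : ∀ k, 0 ≤ F k := fun k =>
    mul_nonneg (hS0 k) (mul_nonneg (prodGG_nonneg _ _ _ _) (prodGG_nonneg _ _ _ _))
  have hsum : ∑ k ∈ (PB (π lam.1).n ⌊Real.exp (a.1.l + R lam.1)⌋₊).filter
        (fun k => ¬ cutN (π lam.1) lam.2 a.1.l k ∧ Real.exp (a.1.l - R lam.1) ≤ nm k), F k ≤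
      ∑ k ∈ (PB (π lam.1).n ⌊Real.exp (a.1.l + R lam.1)⌋₊).filter
        (fun k => ¬ cutE (Real.exp (a.1.l / 20)) k ∧ Real.exp (a.1.l - R lam.1) ≤ nm k ∧
          (π lam.1).NP2 (lam.2 * k)), F k +
      ∑ k ∈ (PB (π lam.1).n ⌊Real.exp (a.1.l + R lam.1)⌋₊).filter
        (fun k => Real.exp (a.1.l - R lam.1) ≤ nm k ∧ ¬ (π lam.1).NP2 (lam.2 * k)), F k := by
    rw [Finset.sum_filter, Finset.sum_filter, Finset.sum_filter, ← Finset.sum_add_distrib]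
    refine Finset.sum_le_sum fun k _ => ?_
    have h5 := hF0 k
    by_cases hNP : (π lam.1).NP2 (lam.2 * k)
    · by_cases hcE : cutE (Real.exp (a.1.l / 20)) k
      · rw [if_neg (fun h' => h'.1 ⟨hcE, hNP⟩)]
        split_ifs <;> linarith
      · by_cases hLk : Real.exp (a.1.l - R lam.1) ≤ nm k
        · rw [if_pos (⟨fun h' => hcE h'.1, hLk⟩ : _ ∧ _),
            if_pos (⟨hcE, hLk, hNP⟩ : _ ∧ _ ∧ _)]
          split_ifs <;> linarith
        · rw [if_neg (fun h' => hLk h'.2)]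
          split_ifs <;> linarith
    · by_cases hLk : Real.exp (a.1.l - R lam.1) ≤ nm k
      · rw [if_pos (⟨fun h' => hNP h'.2, hLk⟩ : _ ∧ _),
          if_pos (⟨hLk, hNP⟩ : Real.exp (a.1.l - R lam.1) ≤ nm k ∧
            ¬ (π lam.1).NP2 (lam.2 * k))]
        split_ifs <;> linarith
      · rw [if_neg (fun h' => hLk h'.2)]
        split_ifs <;> linarith
  have e : ∀ k, ‖(Sf a.2).at lam a.1 k‖ * (‖PC h ((bs2 a.1 ps).map (Pt (π lam.1) lam.2)) k‖ *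
      ‖PC h ((amL ps).map (Pt (π lam.1) lam.2)) k‖) = F k := fun k => tailS_term _ _ _ _ _ _ _
  simp only [e]
  refine hsum.trans ((add_le_add h1 h3).trans ?_)
  set T := T5 (7 / 8 + d) (dn q.1, q.2)
  have h6 : X ^ (T - 1 / 50) ≤ X ^ (T - μ + ε') :=
    Real.rpow_le_rpow_of_exponent_le hX1.le (by linarith)
  have h7 : 2 ≤ X ^ ε' := Kc X (xc.trans hX)
  calc X ^ (T - μ + ε') + X ^ (T - 1 / 50) ≤ 2 * X ^ (T - μ + ε') := by linarith
    _ ≤ X ^ ε' * X ^ (T - μ + ε') := by gcongr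
    _ = X ^ (T - μ + 2 * ε') := by rw [← Real.rpow_add hX0]; congr 1; ring
    _ ≤ X ^ (T - μ + ε) := Real.rpow_le_rpow_of_exponent_le hX1.le (by linarith)

/-- **`TailU` for the official structured function** -/
theorem tailU_of {c₀ : ℝ} (hpu : PU h c₀) (hP : ∀ lam, (π lam).OK)
    (hN : ∀ lam, ∀ k : Eis, k ≠ 0 → NPm (π lam).n (π lam).ψ (π lam).l₂ k) (hA : 2 / 3 ≤ A)
    (U : UIn π h d 5) (Ei : EIn π h d 5) (hQ : RealQ' A d μ) (hB : RealB A d (1 / 10))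
    (hμ : μ ≤ 1 / 50) (e0 r : ℝ) (Bf : ℝ → ℝ → ℝ → ℝ) (Jf : ℝ → ℝ → ℝ → Finset (Eis × Eis))
    (h2 : SIn2 π (SfV π h e0 r Bf Jf) A d) (h4 : SIn4 π (SfV π h e0 r Bf Jf) A d)
    (hAll : SInA π (SfV π h e0 r Bf Jf) A d) (hp : SPIn' π (SfV π h e0 r Bf Jf) A d μ) :
    TailU π h (7 / 8 + d) (SfP π h e0 r Bf Jf nL) A d μ :=
  E5L3770.tailU_of_lev_gate π h hA e0 r Bf Jf fun R hR =>
    tailS_of hpu hP hN hA U Ei hQ hB hμ (SfV π h e0 r Bf Jf) h2 h4 hAll hp R hR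

end Crest.Agent.R017.TU47
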