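import Crest.Agent.R017.TUQ_47
import Crest.Agent.R017.TUB_47
import Crest.Agent.R017.E5Mc_372

/-!
# Row 17, R8: `TailU`, the principal `k` (helper47)

* `bad_W` : second moment of the two-lump side over the principal `k`
* `bad_S` : second moment of the three-lump side over all `k`
* `bad_pt` : the tail over the principal `k`
-/

set_option autoImplicit false

noncomputable section

open Complex Finset
open scoped ComplexConjugate

namespace Crest.Agent.R017.TU47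

open Crest.Agent.R012 Crest.Agent.R012.Eis
open Crest.Agent.R012.LS2 (bl mem_bl)
open Crest.Agent.R012.Mob705 hiding pb mem_pb
open Crest.Agent.R017.CM106 Crest.Agent.R017.FE47 Crest.Agent.R017.E5T54 Crest.Agent.R017.E5P571
open Crest.Agent.R017.XG702 (Pcs)
open Crest.Agent.R017.Sup271 (NPm)
open Crest.Agent.R017.BadK271
open Crest.Agent.R017.HP842 (Pc pc)
open Crest.Agent.R017.B770 Crest.Agent.R017.Prov71
open Crest.Agent.R017.E5B71 Crest.Agent.R017.E5L770 Crest.Agent.R017.E5M372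

variable {Λ : Type*} {π : Λ → DPar} {h : ℝ → ℝ} {A d μ : ℝ}

open Classical in
/-- **the two-lump side over the principal `k`** -/
theorem bad_W {c₀ : ℝ} (hpu : PU h c₀) (hP : ∀ lam, (π lam).OK)
    (hN : ∀ lam, ∀ k : Eis, k ≠ 0 → NPm (π lam).n (π lam).ψ (π lam).l₂ k) (hA : 2 / 3 ≤ A)
    (lam : Λ) (N : ℕ) (B : ℝ) {δ : ℝ} (hδ1 : δ ≤ 1 / 1000) :
    ∃ δ' : ℝ, 0 < δ' ∧ ∃ X₀ : ℝ, 1 < X₀ ∧ ∀ X : ℝ, X₀ ≤ X →
      ∀ (R : ℝ) (t n : Eis) (l : ℝ) (u u' : Pq) (ps : List Pq)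
        (q : (Option (Fin 3 ⊕ Fin 5) → ℝ) × (Kd → ℝ)), q ∈ SqL A d →
        Cf δ δ' B X R t N l u u' ps q →
      ∑ k ∈ (PB n ⌊Real.exp (l + R)⌋₊).filter (fun k => ¬ (π lam).NP2 (t * k)),
        (((u :: u' :: ps).map (GG (π lam) h (t * k))).prod) ^ 2 ≤
        X ^ (cκ (dn q.1) / 3 + 2 * (q.2 .mo + q.2 .am) + 1 / 50) := by
  obtain ⟨ε', hε'⟩ : ∃ ε' : ℝ, ε' = (1 / 1000) / (|B| + 3) := ⟨_, rfl⟩
  have hε'0 : 0 < ε' := by rw [hε']; positivity
  obtain ⟨C, hC, hbad⟩ := bad_abs (π lam) (hP _) hpu (2 * (N + 2)) hε'0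
  obtain ⟨δ', hδ'⟩ : ∃ δ' : ℝ, δ' = (1 / 1000) / (8 * (N + 2) + 1) := ⟨_, rfl⟩
  have hδ'0 : 0 < δ' := by rw [hδ']; positivity
  have hδ'2 : 8 * (N + 2) * δ' ≤ 1 / 1000 := by
    have h2 : (8 * (N + 2) + 1 : ℝ) * δ' = 1 / 1000 := by
      rw [hδ']; field_simp
    nlinarith
  obtain ⟨X₂, hX₂, HX₂⟩ := XSup271.exists_X (C := C * 2 ^ ε' + 1)
    (by have : 0 ≤ C * 2 ^ ε' := by positivity
        linarith) (ε := 1 / 1000) (by norm_num)
  refine ⟨δ', hδ'0, X₂, hX₂, ?_⟩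
  intro X hX R t n l u u' ps q hq hCf
  have hX1 : 1 < X := lt_of_lt_of_le hX₂ hX
  have hX0 : 0 < X := by linarith
  have hlX : 0 < Real.log X := Real.log_pos hX1
  obtain ⟨κ0, κ1, v0, v1, N0, N1, M0, M1, u0, u1, mo0, mo1, am0, am1, x0, x1⟩ := szs hA hq
  have ht : t ≠ 0 := hCf.t0
  have ht0 : (0 : ℝ) < nm t := by exact_mod_cast nm_pos.2 ht
  -- all `k`
  have h1 := sum_PB_le (n := n) ht (Y := l + R)
      (Q' := fun k => ¬ (π lam).NP2 (t * k))
      (Q := fun k => Bad (π lam) k) (fun k hk0 hk => by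
        have h3 := hN lam (t * k) (mul_ne_zero ht hk0)
        exact ⟨h3, fun h4 => hk ⟨h4, h3⟩⟩)
      (F := fun k => ((((u :: u' :: ps) ++ (u :: u' :: ps)).map (GG (π lam) h k)).prod))
      (fun k => prodGG_nonneg _ _ _ _)
  have e1 : ∀ k, (((u :: u' :: ps).map (GG (π lam) h (t * k))).prod) ^ 2 =
      ((((u :: u' :: ps) ++ (u :: u' :: ps)).map (GG (π lam) h (t * k))).prod) := fun k => by
    rw [List.map_append, List.prod_append, sq]
  simp only [e1]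
  refine h1.trans ?_
  have hK : Real.exp (l + R + Real.log (nm t)) ≤ X ^ (cκ (dn q.1) + 3 / 1000) := by
    rw [Real.rpow_def_of_pos hX0]
    refine Real.exp_le_exp.2 ?_
    have c2 := (abs_le.1 hCf.κ).2
    have r1 := hCf.R1
    have t1 := hCf.t1
    have h3 : (l + R + Real.log (nm t)) / Real.log X ≤ cκ (dn q.1) + 3 / 1000 := by
      rw [add_div, add_div]; linarith
    rw [div_le_iff₀ hlX] at h3
    linarith
  have hb := hbad (Real.exp (l + R + Real.log (nm t))) (Real.exp_pos _) (X ^ |B|) (X ^ δ')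
    (Real.one_le_rpow hX1.le (abs_nonneg B)) (Real.one_le_rpow hX1.le hδ'0.le)
    ((u :: u' :: ps) ++ (u :: u' :: ps)) (by
      rw [List.length_append, List.length_cons, List.length_cons]
      have := hCf.len
      omega)
    (fun p hp => by
      have hp' : p ∈ u :: u' :: ps := by
        rcases List.mem_append.1 hp with h5 | h5 <;> exact h5
      have h3 := hCf.good p hp'
      exact ⟨h3.2.1.trans (Real.rpow_le_rpow_of_exponent_le hX1.le (le_abs_self B)), h3.1⟩)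
  refine hb.trans ?_
  have hz : ((((u :: u' :: ps) ++ (u :: u' :: ps))).map zl).sum ≤
      Real.log X * (2 * (q.2 .mo + q.2 .am) + 4 / 1000) := by
    rw [List.map_append, List.sum_append, List.map_cons, List.map_cons, List.sum_cons,
      List.sum_cons, zl_of_lump hCf.lu, zl_of_lump hCf.lu']
    have h5 := sum_zl_le ps fun p hp => (hCf.good p (List.mem_cons_of_mem _
      (List.mem_cons_of_mem _ hp))).2.2
    rw [sum_z_eq hX1] at h5
    have m1 := (abs_le.1 (hCf.mass .mo)).2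
    have m2 := (abs_le.1 (hCf.mass .am)).2
    have h6 : Real.log X * (Dq.mass X ps .mo + Dq.mass X ps .am) ≤
        Real.log X * ((q.2 .mo + q.2 .am) + 2 / 1000) :=
      mul_le_mul_of_nonneg_left (by linarith) hlX.le
    nlinarith
  have e2 : Real.exp ((((u :: u' :: ps) ++ (u :: u' :: ps)).map zl).sum) ≤
      X ^ (2 * (q.2 .mo + q.2 .am) + 4 / 1000) := by
    rw [Real.rpow_def_of_pos hX0]
    exact Real.exp_le_exp.2 hz
  have e3 : (X ^ |B| * (1 + Real.exp (l + R + Real.log (nm t)))) ^ ε' ≤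
      2 ^ ε' * X ^ (1 / 1000 : ℝ) := by
    have h4 : 1 + Real.exp (l + R + Real.log (nm t)) ≤ 2 * X ^ (2 : ℝ) := by
      have h5 : X ^ (cκ (dn q.1) + 3 / 1000) ≤ X ^ (2 : ℝ) :=
        Real.rpow_le_rpow_of_exponent_le hX1.le (by linarith)
      have h6 : 1 ≤ X ^ (2 : ℝ) := Real.one_le_rpow hX1.le (by norm_num)
      linarith
    calc (X ^ |B| * (1 + Real.exp (l + R + Real.log (nm t)))) ^ ε' ≤
          (X ^ |B| * (2 * X ^ (2 : ℝ))) ^ ε' := by gcongr
      _ = 2 ^ ε' * X ^ ((|B| + 2) * ε') := by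
          rw [Real.rpow_mul hX0.le, ← Real.mul_rpow (by positivity) (by positivity),
            Real.rpow_add hX0]
          congr 1
          ring
      _ ≤ _ := by
          have h4 : (|B| + 2) * ε' ≤ 1 / 1000 := by
            rw [hε', mul_div_assoc', div_le_iff₀ (by positivity)]
            linarith [abs_nonneg B]
          have := Real.rpow_le_rpow_of_exponent_le hX1.le h4
          gcongr
  have e4 : (X ^ δ') ^ (4 * (2 * (N + 2))) ≤ X ^ (1 / 1000 : ℝ) := by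
    rw [← Real.rpow_natCast, ← Real.rpow_mul hX0.le]
    refine Real.rpow_le_rpow_of_exponent_le hX1.le ?_
    have h7 : δ' * ((4 * (2 * (N + 2)) : ℕ) : ℝ) = 8 * (N + 2) * δ' := by push_cast; ring
    rw [h7]
    exact hδ'2
  have e5 : Real.exp (l + R + Real.log (nm t)) ^ (1 / 3 : ℝ) ≤
      X ^ ((cκ (dn q.1) + 3 / 1000) / 3) := by
    refine (Real.rpow_le_rpow (Real.exp_pos _).le hK (by norm_num)).trans (le_of_eq ?_)
    rw [← Real.rpow_mul hX0.le]
    congr 1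
    ring
  have hD' : C * 2 ^ ε' ≤ X ^ (1 / 1000 : ℝ) := by
    have := HX₂ X hX
    linarith
  calc C * (X ^ |B| * (1 + Real.exp (l + R + Real.log (nm t)))) ^ ε' *
        (X ^ δ') ^ (4 * (2 * (N + 2))) *
        (Real.exp (l + R + Real.log (nm t)) ^ (1 / 3 : ℝ) *
          Real.exp ((((u :: u' :: ps) ++ (u :: u' :: ps)).map zl).sum))
      ≤ C * (2 ^ ε' * X ^ (1 / 1000 : ℝ)) * X ^ (1 / 1000 : ℝ) *
        (X ^ ((cκ (dn q.1) + 3 / 1000) / 3) *
          X ^ (2 * (q.2 .mo + q.2 .am) + 4 / 1000)) := by gcongr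
    _ = (C * 2 ^ ε') * (X ^ (1 / 1000 : ℝ) * X ^ (1 / 1000 : ℝ) *
        X ^ ((cκ (dn q.1) + 3 / 1000) / 3) * X ^ (2 * (q.2 .mo + q.2 .am) + 4 / 1000)) := by ring
    _ ≤ X ^ (1 / 1000 : ℝ) * (X ^ (1 / 1000 : ℝ) * X ^ (1 / 1000 : ℝ) *
        X ^ ((cκ (dn q.1) + 3 / 1000) / 3) * X ^ (2 * (q.2 .mo + q.2 .am) + 4 / 1000)) := by
        refine mul_le_mul_of_nonneg_right hD' ?_
        positivity
    _ = X ^ (1 / 1000 + (1 / 1000 + 1 / 1000 + (cκ (dn q.1) + 3 / 1000) / 3 +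
        (2 * (q.2 .mo + q.2 .am) + 4 / 1000))) := by
        rw [← Real.rpow_add hX0, ← Real.rpow_add hX0, ← Real.rpow_add hX0, ← Real.rpow_add hX0]
    _ ≤ _ := by
        refine Real.rpow_le_rpow_of_exponent_le hX1.le ?_
        linarith

/-- moments of the structured function `S` at fixed `m`, all families -/
def SmA (d δ X R : ℝ) (n : Eis) (S : Eis → ℝ) (l : ℝ)
    (q : (Option (Fin 3 ⊕ Fin 5) → ℝ) × (Kd → ℝ)) : Prop :=
  ∀ m : Eis, IsPrim m → (nm m : ℝ) ^ 3 ≤ Real.exp (l + R) →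
    ∑ k ∈ KS n (Real.exp (l - R)) (Real.exp (l + R)) m, S (k * m ^ 3) ^ 2 ≤
      X ^ (g2b d (q.1 none) (cN (dn q.1)) (kf l R X m) + 1 / 8 + δ)

open Classical in
/-- **the three-lump side over all `k`** -/
theorem bad_S (hB : RealB A d (1 / 10)) (hA : 2 / 3 ≤ A) :
    ∃ δ₀ : ℝ, 0 < δ₀ ∧ δ₀ ≤ 1 / 1000 ∧ ∃ X₀ : ℝ, 1 < X₀ ∧ ∀ X : ℝ, X₀ ≤ X →
      ∀ (R δ : ℝ), 0 < δ → δ ≤ δ₀ → ∀ (n : Eis) (l : ℝ) (S : Eis → ℝ)
        (q : (Option (Fin 3 ⊕ Fin 5) → ℝ) × (Kd → ℝ)), q ∈ SqL A d →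
        |l / Real.log X - cκ (dn q.1)| ≤ δ → 0 ≤ R → R / Real.log X ≤ δ →
        SmA d (1 / 1000) X R n S l q →
      ∑ k ∈ (PB n ⌊Real.exp (l + R)⌋₊).filter (fun k => Real.exp (l - R) ≤ nm k), S k ^ 2 ≤
        X ^ (2 * (T5 (7 / 8 + d) (dn q.1, q.2) - 1 / 10) - (cκ (dn q.1) / 3 +
          2 * (q.2 .mo + q.2 .am)) + 1 / 8 + 1 / 100) := by
  obtain ⟨δG, hδG, HG⟩ := unif_cont (g2b_cont d) 5 (ε := 1 / 1000) (by norm_num)
  obtain ⟨X₂, hX₂, H₂⟩ := sum_inv_MS (ε := 1 / 1000) (by norm_num)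
  refine ⟨min (1 / 1000) (δG / 10), by positivity, min_le_left _ _, X₂, hX₂, ?_⟩
  intro X hX R δ hδ hδδ n l S q hq hκ hR0 hR1 hS
  have hX1 : 1 < X := hX₂.trans_le hX
  have hX0 : 0 < X := by linarith
  have hL : 0 < Real.log X := Real.log_pos hX1
  have hδ1 : δ ≤ 1 / 1000 := hδδ.trans (min_le_left _ _)
  have hδ2 : δ ≤ δG / 10 := hδδ.trans (min_le_right _ _)
  obtain ⟨κ0, κ1, v0, v1, N0, N1, M0, M1, u0, u1, mo0, mo1, am0, am1, x0, x1⟩ := szs hA hq
  obtain ⟨c1, c2⟩ := abs_le.1 hκ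
  have hY : Real.exp (l + R) ≤ X ^ (3 : ℝ) := by
    rw [Real.rpow_def_of_pos hX0]
    refine Real.exp_le_exp.2 ?_
    have h1 : (l + R) / Real.log X ≤ 3 := by
      rw [add_div]; linarith
    rw [div_le_iff₀ hL] at h1
    linarith
  obtain ⟨Q, hQ⟩ : ∃ Q : Eis → Prop, ∀ k, Q k := ⟨fun _ => True, fun _ => trivial⟩
  have h1 := cube_sum (n := n) (E₁ := 1 / 2) (L := Real.exp (l - R))
    (Real.exp_pos (l + R)).le Q Q (fun k _ _ _ _ => hQ k)
    (F := fun k => S k ^ 2) (fun k => sq_nonneg _)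
  have h0 : ∑ k ∈ (PB n ⌊Real.exp (l + R)⌋₊).filter (fun k => Real.exp (l - R) ≤ nm k), S k ^ 2 ≤
      ∑ k ∈ (PB n ⌊Real.exp (l + R)⌋₊).filter
        (fun k => ¬ cutE (1 / 2) k ∧ Real.exp (l - R) ≤ nm k ∧ Q k), S k ^ 2 := by
    refine le_of_eq (Finset.sum_congr (Finset.filter_congr fun k _ => ?_) fun _ _ => rfl)
    constructor
    · intro h
      refine ⟨fun hc => ?_, h, hQ k⟩
      have := hc 1 isPrim_one (by rw [one_pow]; exact one_dvd _)
      rw [nm_one] at this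
      norm_num at this
    · exact fun h => h.2.1
  refine h0.trans (h1.trans ?_)
  set E := 2 * (T5 (7 / 8 + d) (dn q.1, q.2) - 1 / 10) - (cκ (dn q.1) / 3 +
          2 * (q.2 .mo + q.2 .am)) + 1 / 8 with hE
  have h2 : ∀ m ∈ MS' (1 / 2) (Real.exp (l + R)),
      ∑ k ∈ (KS n (Real.exp (l - R)) (Real.exp (l + R)) m).filter Q,
        S (k * m ^ 3) ^ 2 ≤ X ^ (E + 5 / 1000) * (1 / (nm m : ℝ)) := by
    intro m hm
    unfold MS' at hm
    rw [Finset.mem_filter, mem_primBall] at hm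
    obtain ⟨⟨hm1, hmp⟩, -⟩ := hm
    have hm0 : m ≠ 0 := hmp.ne_zero
    have hn1 : (1 : ℝ) ≤ nm m := nm1 hm0
    have hnp : (0 : ℝ) < nm m := by linarith
    have hm3 : (nm m : ℝ) ≤ Real.exp ((l + R) / 3) := by
      have h1 : (nm m : ℝ) ≤ (Real.exp (l + R)) ^ ((1 : ℝ) / 3) :=
        (Nat.cast_le.2 hm1).trans (Nat.floor_le (by positivity))
      rw [← Real.exp_mul] at h1
      refine h1.trans (le_of_eq ?_)
      congr 1; ring
    have hlm : Real.log (nm m) ≤ (l + R) / 3 := by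
      have := Real.log_le_log hnp hm3
      rwa [Real.log_exp] at this
    have hlm0 : 0 ≤ Real.log (nm m) := Real.log_nonneg hn1
    have hm3' : (nm m : ℝ) ^ 3 ≤ Real.exp (l + R) := by
      calc (nm m : ℝ) ^ 3 ≤ (Real.exp ((l + R) / 3)) ^ 3 := pow_le_pow_left₀ hnp.le hm3 3
        _ = Real.exp (l + R) := by
          rw [← Real.exp_nat_mul]; congr 1; push_cast; ring
    set k := kf l R X m with hk
    set z := Real.log (nm m) / Real.log X with hz
    set ρ := R / Real.log X with hρ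
    have hρ0 : 0 ≤ ρ := div_nonneg hR0 hL.le
    have ek : k = l / Real.log X + ρ - 3 * z := by
      rw [hk, hρ, hz]; unfold kf; ring
    have hk0 : 0 ≤ k := by
      rw [hk]; unfold kf
      exact div_nonneg (by linarith) hL.le
    have hz0 : 0 ≤ z := div_nonneg hlm0 hL.le
    set k' := min k (cκ (dn q.1)) with hk'
    have hk'k : k' ≤ k := min_le_left _ _
    have hk'1 : k' ≤ cκ (dn q.1) := min_le_right _ _
    have hk'0 : 0 ≤ k' := le_min hk0 (by linarith)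
    have hkk' : k ≤ k' + 2 * δ := by
      rcases min_cases k (cκ (dn q.1)) with h1 | h1
      · rw [hk', h1.1]; linarith
      · rw [hk', h1.1]; linarith
    have hS1 := hS m hmp hm3'
    rw [Finset.filter_true_of_mem fun x _ => hQ x]
    refine hS1.trans ?_
    have h6 : (1 / (nm m : ℝ)) = X ^ (-z) := by
      rw [Real.rpow_neg hX0.le, one_div]
      congr 1
      rw [Real.rpow_def_of_pos hX0, hz]
      have : Real.log X * (Real.log (nm m) / Real.log X) = Real.log (nm m) := by field_simp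
      rw [this, Real.exp_log hnp]
    rw [h6, ← Real.rpow_add hX0]
    refine Real.rpow_le_rpow_of_exponent_le hX1.le ?_
    have hF := HG ![q.1 none, cN (dn q.1), k] ![q.1 none, cN (dn q.1), k']
      (by
        intro i
        fin_cases i <;> simp [-abs_mul] <;> refine abs5 ?_ ?_ <;> linarith)
      (by
        intro i
        fin_cases i <;> simp [-abs_mul] <;> refine abs5 ?_ ?_ <;> linarith)
      (by
        intro i
        fin_cases i <;> simp [-abs_mul] <;> first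
          | exact hδG.le
          | (refine abs_le.2 ⟨?_, ?_⟩ <;> linarith))
    have hF' : g2b d (q.1 none) (cN (dn q.1)) k ≤ g2b d (q.1 none) (cN (dn q.1)) k' + 1 / 1000 :=
      hF
    have hR := hB q hq k' hk'0 hk'1
    rw [hE]
    linarith
  refine (Finset.sum_le_sum h2).trans ?_
  rw [← Finset.mul_sum]
  have h3 := H₂ X hX (1 / 2) (Real.exp (l + R)) (Real.exp_pos _).le hY
  calc X ^ (E + 5 / 1000) * ∑ m ∈ MS' (1 / 2) (Real.exp (l + R)), (1 / (nm m : ℝ))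
      ≤ X ^ (E + 5 / 1000) * X ^ (1 / 1000 : ℝ) := by gcongr
    _ = X ^ (E + 5 / 1000 + 1 / 1000) := by rw [← Real.rpow_add hX0]
    _ ≤ _ := Real.rpow_le_rpow_of_exponent_le hX1.le (by rw [hE]; linarith)

open Classical in
/-- **the tail over the principal `k`** -/
theorem bad_pt {c₀ : ℝ} (hpu : PU h c₀) (hP : ∀ lam, (π lam).OK)
    (hN : ∀ lam, ∀ k : Eis, k ≠ 0 → NPm (π lam).n (π lam).ψ (π lam).l₂ k)
    (hB : RealB A d (1 / 10)) (hA : 2 / 3 ≤ A) :
    ∃ δ₀ : ℝ, 0 < δ₀ ∧ ∀ δ : ℝ, 0 < δ → δ ≤ δ₀ → ∀ (lam : Λ) (N : ℕ) (B : ℝ),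
      ∃ δ' : ℝ, 0 < δ' ∧ ∃ X₀ : ℝ, 1 < X₀ ∧ ∀ X : ℝ, X₀ ≤ X →
      ∀ (R : ℝ) (t n : Eis) (l : ℝ) (u u' : Pq) (ps : List Pq) (S : Eis → ℝ)
        (q : (Option (Fin 3 ⊕ Fin 5) → ℝ) × (Kd → ℝ)), q ∈ SqL A d →
        Cf δ δ' B X R t N l u u' ps q → (∀ k, 0 ≤ S k) → SmA d (1 / 1000) X R n S l q →
      ∑ k ∈ (PB n ⌊Real.exp (l + R)⌋₊).filter (fun k => Real.exp (l - R) ≤ nm k ∧
          ¬ (π lam).NP2 (t * k)),
        S k * ((((u :: u' :: moL ps).map (GG (π lam) h (t * k))).prod) *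
          (((amL ps).map (GG (π lam) h (t * k))).prod)) ≤
        X ^ (T5 (7 / 8 + d) (dn q.1, q.2) - 1 / 50) := by
  obtain ⟨δ₀, hδ₀, hδ₀', X₁, hX₁, H₁⟩ := bad_S hB hA
  refine ⟨δ₀, hδ₀, fun δ hδ hδδ lam N B => ?_⟩
  obtain ⟨δ', hδ', X₂, hX₂, H₂⟩ := bad_W (d := d) hpu hP hN hA lam N B (hδδ.trans hδ₀')
  refine ⟨δ', hδ', max X₁ X₂, lt_max_of_lt_left hX₁, ?_⟩
  intro X hX R t n l u u' ps S q hq hC hS0 hS
  have hXX₁ : X₁ ≤ X := (le_max_left _ _).trans hX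
  have hXX₂ : X₂ ≤ X := (le_max_right _ _).trans hX
  have hX1 : 1 < X := hX₁.trans_le hXX₁
  have h1 := H₁ X hXX₁ R δ hδ hδδ n l S q hq hC.κ hC.R0 hC.R1 hS
  have h2 := H₂ X hXX₂ R t n l u u' ps q hq hC
  have e1 : ∀ k, S k * ((((u :: u' :: moL ps).map (GG (π lam) h (t * k))).prod) *
          (((amL ps).map (GG (π lam) h (t * k))).prod)) =
      S k * (((u :: u' :: ps).map (GG (π lam) h (t * k))).prod) := fun k => by
    simp only [List.map_cons, List.prod_cons]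
    rw [← prod_mo_am (GG (π lam) h (t * k)) ps]
    ring
  simp only [e1]
  refine (cauchy_m _ (U := fun k => ((u :: u' :: ps).map (GG (π lam) h (t * k))).prod) hX1
    (le_trans (Finset.sum_le_sum_of_subset_of_nonneg ?_ fun _ _ _ => sq_nonneg _) h1)
    (le_trans (Finset.sum_le_sum_of_subset_of_nonneg ?_ fun _ _ _ => sq_nonneg _) h2)).trans ?_
  · intro x hx
    rw [Finset.mem_filter] at hx ⊢
    exact ⟨hx.1, hx.2.1⟩
  · intro x hx
    rw [Finset.mem_filter] at hx ⊢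
    exact ⟨hx.1, hx.2.2⟩
  · refine Real.rpow_le_rpow_of_exponent_le hX1.le ?_
    linarith

end Crest.Agent.R017.TU47
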