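import Crest.Agent.R017.TU_61
import Crest.Agent.R017.YE0_164
import Crest.Agent.R017.RQ_702

/-!
# Row 17, R8: `TailU`, the amplifier alone at the actual configuration (helper61)

* `f0` : the box of the amplifier alone; `triv0` : the trivial bound; `ubs0` : `UBs` from 164's
  `ymE0`
* `asideE` : the amplifier alone, twisted by `m`: `Rc .. ≤ H ^ M₀ X ^ (e0c + ε)`, 702's `e0c`
-/

set_option autoImplicit false

noncomputable section

open Set

namespace Crest.Agent.R017.TU61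

open Crest.Agent.R012 Crest.Agent.R012.Eis
open Crest.Agent.R012.LS2 (bl mem_bl)
open Crest.Agent.R017.FE47
open Crest.Agent.R017.CM106
open Crest.Agent.R017.XG702 (Pcs BG)
open Crest.Agent.R017.XT71 (Sys Win)
open Crest.Agent.R017.E5B71 (UB)
open Crest.Agent.R017.Prov71
open Crest.Agent.R017.B770
open Crest.Agent.R017.End699 Crest.Agent.R017.Sup271
open Crest.Agent.R017.ER911 Crest.Agent.R017.SC777 Crest.Agent.R017.ExpC702
open Crest.Agent.R017.HP842 (Pc pc)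
open Crest.Agent.R017.Rough381 (Ls)
open Crest.Agent.R017.UBR61 Crest.Agent.R017.YM61 Crest.Agent.R017.YP61 Crest.Agent.R017.YU61
open Crest.Agent.R017.UBT973 Crest.Agent.R017.YV61
open Crest.Agent.R017.YE164 (S0 Dom0)

/-! ### the box -/

/-- the box, amplifier only -/
def f0 (K : ℝ) (q : (Fin 1 → ℝ) × (Kd → ℝ)) : ℝ :=
  max (gK K (q.1 0)) (max (gK 0 (q.2 .mo)) (gK K (q.2 .am)))

lemma f0_le {K σ : ℝ} {q : (Fin 1 → ℝ) × (Kd → ℝ)} : f0 K q ≤ σ ↔
    (-σ ≤ q.1 0 ∧ q.1 0 ≤ K + σ) ∧ (-σ ≤ q.2 .mo ∧ q.2 .mo ≤ 0 + σ) ∧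
      (-σ ≤ q.2 .am ∧ q.2 .am ≤ K + σ) := by
  unfold f0
  simp only [max_le_iff, gK_le]

lemma cont_f0 (K : ℝ) : Continuous (f0 K) := by unfold f0 gK; fun_prop

lemma compact_f0 {K : ℝ} (hK : 0 ≤ K) : IsCompact {q | f0 K q ≤ 1} := by
  have hbox : IsCompact ((Set.pi Set.univ fun _ : Fin 1 => Set.Icc (-1) (K + 1)) ×ˢ
      (Set.pi Set.univ fun _ : Kd => Set.Icc (-1) (K + 1))) :=
    (isCompact_univ_pi fun _ => isCompact_Icc).prod (isCompact_univ_pi fun _ => isCompact_Icc)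
  refine hbox.of_isClosed_subset (isClosed_le (cont_f0 K) continuous_const) fun q hq => ?_
  obtain ⟨h1, h2, h3⟩ := f0_le.1 (show f0 K q ≤ 1 from hq)
  refine ⟨fun i _ => ?_, fun t _ => ?_⟩
  · obtain rfl : i = 0 := Subsingleton.elim _ _
    exact h1
  · cases t
    · exact ⟨h2.1, by linarith [h2.2]⟩
    · exact h3

lemma f0_sub (K : ℝ) : {q | f0 K q ≤ 0} ⊆ Dom0 K := by
  intro q hq
  obtain ⟨h1, h2, h3⟩ := f0_le.1 (show f0 K q ≤ 0 from hq)
  refine ⟨by linarith [h1.1], by linarith [h1.2], ?_, by linarith [h3.1], by linarith [h3.2]⟩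
  exact le_antisymm (by linarith [h2.2]) (by linarith [h2.1])

section
variable {Λ : Type*} {π : Λ → DPar} {h : ℝ → ℝ} {d : ℝ} {r s : EF}

/-- **the trivial bound** -/
lemma triv0 {c₀ : ℝ} (hpu : PU h c₀) (hP : ∀ lam, (π lam).OK) (c : Λ → ℝ) (K : ℝ) :
    UBT973.Triv S0 Dq (fun lam l ps => Rc (π lam) h (l + c lam) ps) (f0 K) ∅ := by
  intro lam N B
  obtain ⟨C, hC, H⟩ := UBT973.triv_Rc hpu.cd.continuous hpu.cs
  obtain ⟨m, hm⟩ := pow_unbounded_of_one_lt (100 * C ^ (2 * N) * Real.exp |c lam|)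
    (one_lt_two (α := ℝ))
  refine ⟨0, 3 * K + 5 + m, fun X hX2 a ps w Ht hH _ _ => ?_⟩
  have hX1 : 1 < X := by linarith
  have hX0 : 0 < X := by linarith
  have hlog : 0 < Real.log X := Real.log_pos hX1
  obtain ⟨⟨-, k1⟩, ⟨-, k2⟩, ⟨-, k3⟩⟩ := f0_le.1 w.f
  have k1' : a ≤ (K + 1) * Real.log X := by
    have e1 : S0.ev X a 0 = a / Real.log X := rfl
    rw [← div_le_iff₀ hlog, ← e1]
    exact k1
  have hz := sum_z hlog.ne' ps
  dsimp only at k2 k3
  rw [pow_zero, one_mul]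
  have h1 := H (π lam) (hP lam) (a + c lam) ps
  have h2m : (2 : ℝ) ^ m ≤ X ^ (m : ℝ) := by
    rw [Real.rpow_natCast]
    exact pow_le_pow_left₀ (by norm_num) hX2 m
  have h3 : Real.exp (a + c lam + 2 * (ps.map Pq.z).sum) ≤
      X ^ (3 * K + 5) * Real.exp |c lam| := by
    rw [Real.rpow_def_of_pos hX0, ← Real.exp_add]
    refine Real.exp_le_exp.2 ?_
    rw [hz]
    have h4 : (Dq.mass X ps .mo + Dq.mass X ps .am) * Real.log X ≤ (K + 2) * Real.log X :=
      mul_le_mul_of_nonneg_right (by linarith) hlog.le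
    have := le_abs_self (c lam)
    nlinarith
  calc Rc (π lam) h (a + c lam) ps
      ≤ 100 * C ^ (2 * ps.length) * Real.exp (a + c lam + 2 * (ps.map Pq.z).sum) := h1
    _ ≤ 100 * C ^ (2 * N) * (X ^ (3 * K + 5) * Real.exp |c lam|) := by
        have g1 : C ^ (2 * ps.length) ≤ C ^ (2 * N) :=
          pow_le_pow_right₀ hC (by have := w.len; omega)
        gcongr
    _ = (100 * C ^ (2 * N) * Real.exp |c lam|) * X ^ (3 * K + 5) := by ring
    _ ≤ X ^ (m : ℝ) * X ^ (3 * K + 5) := by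
        refine mul_le_mul_of_nonneg_right (hm.le.trans h2m) (by positivity)
    _ = X ^ (3 * K + 5 + m) := by rw [← Real.rpow_add hX0]; congr 1; ring

lemma e0c_eq (d k y : ℝ) : max (k + y + 2 * d * y) (TU47.e0 d k y) = RQ702.e0c d k y := by
  unfold TU47.e0 RQ702.e0c
  rw [← max_add_add_left, ← max_add_add_right]

variable {c₀ : ℝ} (hpu : PU h c₀) (hP : ∀ lam, (π lam).OK) (c : Λ → ℝ)
  (R : ExpRules (7 / 8 + d) r s) (L : ExpLB (7 / 8 + d) r)
  (C : ExpC r (ex Dq (fun lam => Rc (π lam) h)))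

include hpu hP R L C

/-- **`UBs` of the amplifier alone** -/
theorem ubs0 (hd : 0 ≤ d) {K : ℝ} (hK : 0 ≤ K) :
    UBs S0 Dq (fun lam l ps => Rc (π lam) h (l + c lam) ps) (f0 K) ∅
      (fun q => RQ702.e0c d (q.1 0) (q.2 .am)) := by
  have h1 := ubs_of_ub (cont_f0 K) (compact_f0 hK)
    (E := fun q => max (q.1 0 + q.2 .am + 2 * d * q.2 .am) (TU47.e0 d (q.1 0) (q.2 .am)))
    (by unfold TU47.e0; fun_prop) (triv0 hpu hP c K)
    (ub_sub (YE164.ymE0 hpu hP c R L C hd K) (f0_sub K))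
  simpa only [e0c_eq] using h1

/-- **the amplifier alone, twisted by `m`, at the actual configuration**, exponent `e0c` -/
theorem asideE (hd : 0 ≤ d) {K : ℝ} (hK : 0 ≤ K) {ε : ℝ} (hε : 0 < ε) :
    ∃ σ : ℝ, 0 < σ ∧ ∀ (lam : Λ) (N : ℕ) (B : ℝ), ∃ (M₀ : ℕ) (X₀ : ℝ), 1 < X₀ ∧
    ∀ X : ℝ, X₀ ≤ X → ∀ (l : ℝ) (ps : List Pq) (m : Eis), m ≠ 0 →
      (nm m : ℝ) ≤ X ^ B → l ≤ K * Real.log X →
      ps.length ≤ N → (∀ p ∈ ps, p.kd = .am) → (∀ p ∈ ps, Dq.nl X p ≤ σ) →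
      (∀ p ∈ ps, 0 ≤ p.z ∧ (nm p.d : ℝ) ≤ X ^ B) → Dq.mass X ps .am ≤ K →
      ∀ H : ℝ, 1 ≤ H → (∀ p ∈ ps, 1 + |p.t| ≤ H) →
        Rc (π lam) h (l + c lam) (ps.map (Pq.tw m)) ≤
          H ^ M₀ * X ^ (RQ702.e0c d (max 0 (l / Real.log X)) (Dq.mass X ps .am) + ε) := by
  have uA := ubs0 hpu hP c R L C hd hK
  rw [UBs_iff] at uA
  obtain ⟨σ, hσ, V⟩ := uA ε hε
  refine ⟨σ, hσ, fun lam N B => ?_⟩
  obtain ⟨M₀, X₀, hX₀, W⟩ := V lam N (B + B)
  refine ⟨M₀, max X₀ 1, lt_of_lt_of_le hX₀ (le_max_left _ _), ?_⟩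
  intro X hX' l ps m hm hmB hlK hlen hkd hgr hps hmass H hH htp
  have hX : X₀ ≤ X := (le_max_left _ _).trans hX'
  have hX1 : 1 < X := by linarith
  have hX0 : 0 < X := by linarith
  have hlog : 0 < Real.log X := Real.log_pos hX1
  set l' : ℝ := max 0 l with hl'
  have hl'0 : 0 ≤ l' := le_max_left _ _
  have hev0 : l' / Real.log X = max 0 (l / Real.log X) := by
    rw [hl', ← max_div_div_right hlog.le, zero_div]
  have hmo : Dq.mass X ps .mo = 0 := by
    rw [mass_kd hkd, if_neg (by simp)]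
  have hnl : ∀ p ∈ ps, 0 ≤ Dq.nl X p := fun p hp => div_nonneg (hps p hp).1 hlog.le
  have hms : ∀ t, Dq.mass X (ps.map (Pq.tw m)) t = Dq.mass X ps t :=
    fun t => tws_tw.mass hm X ps t
  have c0 : S0.ev X l' 0 = l' / Real.log X := rfl
  have hf0 : f0 K (S0.ev X l', Dq.mass X (ps.map (Pq.tw m))) ≤ σ := by
    refine le_trans ?_ hσ.le
    rw [f0_le]
    refine ⟨?_, ?_, ?_⟩
    · show -0 ≤ S0.ev X l' 0 ∧ S0.ev X l' 0 ≤ K + 0
      rw [c0]
      have h1 : l' / Real.log X ≤ K := by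
        rw [div_le_iff₀ hlog]
        exact max_le (by positivity) hlK
      have h2 := div_nonneg hl'0 hlog.le
      constructor <;> linarith
    · show -0 ≤ Dq.mass X (ps.map (Pq.tw m)) .mo ∧ Dq.mass X (ps.map (Pq.tw m)) .mo ≤ 0 + 0
      rw [hms, hmo]
      constructor <;> norm_num
    · show -0 ≤ Dq.mass X (ps.map (Pq.tw m)) .am ∧ Dq.mass X (ps.map (Pq.tw m)) .am ≤ K + 0
      rw [hms]
      have h2 := XG702.mass_nonneg (D := Dq) hnl Kd.am
      constructor <;> linarith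
  have hkdt : ∀ p ∈ ps.map (Pq.tw m), ¬ Dq.lump p := by
    intro p hp hlp
    obtain ⟨p', hp', rfl⟩ := List.mem_map.1 hp
    have h1 := ((Dq_lump _).1 hlp).1
    rw [tw_kd hm, hkd p' hp'] at h1
    exact absurd h1 (by decide)
  have hdd : ∀ {p : Pq}, (nm p.d : ℝ) ≤ X ^ B → (nm (p.tw m).d : ℝ) ≤ X ^ (B + B) := by
    intro p hp
    rw [tw_nmd hm, Real.rpow_add hX0]
    exact mul_le_mul hp hmB (Nat.cast_nonneg _) (Real.rpow_nonneg hX0.le _)
  have key := W X hX l' (ps.map (Pq.tw m))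
    ⟨by rw [List.length_map]; exact hlen,
      by
        intro p hp
        obtain ⟨p', hp', rfl⟩ := List.mem_map.1 hp
        right
        rw [tw_nl X hm]
        exact hgr p' hp',
      Real.one_le_rpow hX1.le hσ.le, Nat.zero_le _,
      Real.rpow_nonneg hX0.le _,
      by
        intro p hp
        obtain ⟨p', hp', rfl⟩ := List.mem_map.1 hp
        refine ⟨hdd (hps p' hp').2, ?_⟩
        rw [tws_tw.len m p' hm]
        exact (hps p' hp').1,
      hf0, fun p hp hlp => absurd hlp (hkdt p hp)⟩ H hH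
    (by
      show (0 : ℝ) ≤ H
      linarith)
    (by
      intro p hp
      obtain ⟨p', hp', rfl⟩ := List.mem_map.1 hp
      rw [tws_tw.s1 m p' hm]
      exact htp p' hp')
  dsimp only at key
  rw [c0, hms, hev0] at key
  refine le_trans ?_ key
  exact RQ_mono_l _ h (by have := le_max_right 0 l; show l + c lam ≤ l' + c lam; linarith) _

end

end Crest.Agent.R017.TU61
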