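import Crest.Agent.R017.TUC_47

/-!
# Row 17, R8: `TailU`, Hölder's inequality (helper47)

* `holder6` : `∑ S U B ≤ exp (s₂/6 + s₄/6 + u₂/2 + b₆/6)`
* `sst_four` : the fourth moment over the powerful tuples
-/

set_option autoImplicit false

noncomputable section

open Complex Finset
open scoped ComplexConjugate

namespace Crest.Agent.R017.TU47

open Crest.Agent.R012 Crest.Agent.R012.Eis
open Crest.Agent.R012.Mob705 hiding pb mem_pb
open Crest.Agent.R017.CM106 Crest.Agent.R017.FE47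
open Crest.Agent.R017.E2440 (TE StE)
open Crest.Agent.R017.E5k54 (alb)
open Crest.Agent.R017.SSb54 (SST)

/-- arithmetic–geometric mean -/
lemma young6 {S B α β γ : ℝ} (hS : 0 ≤ S) (hB : 0 ≤ B) (hα : 0 ≤ α) (hβ : 0 ≤ β) (hγ : 0 ≤ γ)
    (h : α * β * γ = 1) : S ^ 2 * B ^ 2 ≤ (α * S ^ 2 + β * S ^ 4 + γ * B ^ 6) / 3 := by
  have h1 := Real.geom_mean_le_arith_mean3_weighted (w₁ := 1 / 3) (w₂ := 1 / 3) (w₃ := 1 / 3)
    (p₁ := α * S ^ 2) (p₂ := β * S ^ 4) (p₃ := γ * B ^ 6) (by norm_num) (by norm_num)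
    (by norm_num) (by positivity) (by positivity) (by positivity) (by norm_num)
  rw [← Real.mul_rpow (by positivity) (by positivity),
    ← Real.mul_rpow (by positivity) (by positivity)] at h1
  have e1 : α * S ^ 2 * (β * S ^ 4) * (γ * B ^ 6) = (S ^ 2 * B ^ 2) ^ 3 := by
    calc α * S ^ 2 * (β * S ^ 4) * (γ * B ^ 6) = (α * β * γ) * (S ^ 2 * B ^ 2) ^ 3 := by ring
      _ = _ := by rw [h, one_mul]
  rw [e1, ← Real.rpow_natCast, ← Real.rpow_mul (by positivity)] at h1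
  norm_num at h1
  linarith

/-- **Hölder** with the exponents `1/6, 1/6, 1/2, 1/6` -/
theorem holder6 {ι : Type*} (A : Finset ι) {S U B : ι → ℝ} (hS : ∀ k, 0 ≤ S k) (hU : ∀ k, 0 ≤ U k)
    (hB : ∀ k, 0 ≤ B k) {s2 s4 u2 b6 : ℝ} (h2 : ∑ k ∈ A, S k ^ 2 ≤ Real.exp s2)
    (h4 : ∑ k ∈ A, S k ^ 4 ≤ Real.exp s4) (hu : ∑ k ∈ A, U k ^ 2 ≤ Real.exp u2)
    (h6 : ∑ k ∈ A, B k ^ 6 ≤ Real.exp b6) :
    ∑ k ∈ A, S k * (U k * B k) ≤ Real.exp (s2 / 6 + s4 / 6 + u2 / 2 + b6 / 6) := by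
  set g : ℝ := (s2 + s4 + b6) / 3 with hg
  have h1 : ∑ k ∈ A, (S k * B k) ^ 2 ≤ Real.exp g := by
    have e0 : Real.exp (g - s2) * Real.exp (g - s4) * Real.exp (g - b6) = 1 := by
      rw [← Real.exp_add, ← Real.exp_add, Real.exp_eq_one_iff, hg]; ring
    calc ∑ k ∈ A, (S k * B k) ^ 2 ≤ ∑ k ∈ A, (Real.exp (g - s2) * S k ^ 2 +
          Real.exp (g - s4) * S k ^ 4 + Real.exp (g - b6) * B k ^ 6) / 3 := by
          refine Finset.sum_le_sum fun k _ => ?_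
          rw [mul_pow]
          exact young6 (hS k) (hB k) (Real.exp_pos _).le (Real.exp_pos _).le (Real.exp_pos _).le e0
      _ = (Real.exp (g - s2) * ∑ k ∈ A, S k ^ 2 + Real.exp (g - s4) * ∑ k ∈ A, S k ^ 4 +
          Real.exp (g - b6) * ∑ k ∈ A, B k ^ 6) / 3 := by
          rw [← Finset.sum_div, Finset.sum_add_distrib, Finset.sum_add_distrib, Finset.mul_sum,
            Finset.mul_sum, Finset.mul_sum]
      _ ≤ (Real.exp (g - s2) * Real.exp s2 + Real.exp (g - s4) * Real.exp s4 +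
          Real.exp (g - b6) * Real.exp b6) / 3 := by gcongr
      _ = Real.exp g := by
          rw [← Real.exp_add, ← Real.exp_add, ← Real.exp_add]
          simp only [sub_add_cancel]
          ring
  have h3 : (∑ k ∈ A, S k * (U k * B k)) ^ 2 ≤ Real.exp g * Real.exp u2 := by
    have e1 : ∑ k ∈ A, S k * (U k * B k) = ∑ k ∈ A, (S k * B k) * U k :=
      Finset.sum_congr rfl fun k _ => by ring
    rw [e1]
    refine (Finset.sum_mul_sq_le_sq_mul_sq _ _ _).trans ?_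
    exact mul_le_mul h1 hu (Finset.sum_nonneg fun _ _ => by positivity) (Real.exp_pos _).le
  have h5 : Real.exp g * Real.exp u2 =
      (Real.exp (s2 / 6 + s4 / 6 + u2 / 2 + b6 / 6)) ^ 2 := by
    rw [← Real.exp_add, ← Real.exp_nat_mul]
    congr 1
    rw [hg]; push_cast; ring
  rw [h5] at h3
  exact le_of_sq_le_sq h3 (Real.exp_pos _).le

/-- **Cauchy** with exponents -/
theorem cauchy2 {ι : Type*} (A : Finset ι) {S U : ι → ℝ} {s2 u2 : ℝ}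
    (h2 : ∑ k ∈ A, S k ^ 2 ≤ Real.exp s2) (hu : ∑ k ∈ A, U k ^ 2 ≤ Real.exp u2) :
    ∑ k ∈ A, S k * U k ≤ Real.exp (s2 / 2 + u2 / 2) := by
  have h3 : (∑ k ∈ A, S k * U k) ^ 2 ≤ (Real.exp (s2 / 2 + u2 / 2)) ^ 2 := by
    refine (Finset.sum_mul_sq_le_sq_mul_sq _ _ _).trans ?_
    refine (mul_le_mul h2 hu (Finset.sum_nonneg fun _ _ => by positivity)
      (Real.exp_pos _).le).trans (le_of_eq ?_)
    rw [← Real.exp_add, ← Real.exp_nat_mul]
    congr 1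
    push_cast; ring
  exact le_of_sq_le_sq h3 (Real.exp_pos _).le

/-- **the fourth moment over the tuples** -/
theorem sst_four {ι : Type*} [Fintype ι] (T : Finset (ι → Eis)) (hT : ∀ β ∈ T, ∏ i, β i ≠ 0)
    (f : ι → Eis → ℂ) (E0 : ℝ) (J : Finset (Eis × Eis)) (om : Eis × Eis → ℂ) (A : Finset Eis)
    (m : Eis) :
    ∑ k ∈ A, ‖SST T f E0 J om (k * m ^ 3)‖ ^ 4 ≤
      (∑ β ∈ T, wβ β) ^ 3 * ∑ β ∈ T, (nm (∏ i, β i) : ℝ) ^ ((3 : ℝ) / 2) *
        ∑ k ∈ A, ‖StE E0 J om (alb f β) (k * m ^ 3)‖ ^ 4 := by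
  have h1 : ∀ k ∈ A, ‖SST T f E0 J om (k * m ^ 3)‖ ^ 4 ≤
      (∑ β ∈ T, wβ β) ^ 3 * ∑ β ∈ T, (nm (∏ i, β i) : ℝ) ^ ((3 : ℝ) / 2) *
        ‖StE E0 J om (alb f β) (k * m ^ 3)‖ ^ 4 := by
    intro k _
    have h2 := sst_cauchy T hT f E0 J om {k} m (fun _ => 1) (fun _ => zero_le_one)
    simp only [Finset.sum_singleton, mul_one] at h2
    have hw0 : 0 ≤ ∑ β ∈ T, wβ β := Finset.sum_nonneg fun _ _ => by unfold wβ; positivity
    have h3 : (∑ β ∈ T, (nm (∏ i, β i) : ℝ) ^ ((1 : ℝ) / 2) *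
        ‖StE E0 J om (alb f β) (k * m ^ 3)‖ ^ 2) ^ 2 ≤ (∑ β ∈ T, wβ β) *
        ∑ β ∈ T, (nm (∏ i, β i) : ℝ) ^ ((3 : ℝ) / 2) *
          ‖StE E0 J om (alb f β) (k * m ^ 3)‖ ^ 4 := by
      refine Finset.sum_sq_le_sum_mul_sum_of_sq_eq_mul T (fun β _ => by unfold wβ; positivity)
        (fun β _ => by positivity) fun β hβ => ?_
      have hn := nm1 (hT β hβ)
      have hn0 : (0 : ℝ) < nm (∏ i, β i) := by linarith
      have e1 : wβ β * (nm (∏ i, β i) : ℝ) ^ ((3 : ℝ) / 2) =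
          ((nm (∏ i, β i) : ℝ) ^ ((1 : ℝ) / 2)) ^ 2 := by
        unfold wβ
        rw [← Real.rpow_add hn0, ← Real.rpow_natCast, ← Real.rpow_mul hn0.le]
        norm_num
      rw [← mul_assoc, e1]
      ring
    calc ‖SST T f E0 J om (k * m ^ 3)‖ ^ 4 = (‖SST T f E0 J om (k * m ^ 3)‖ ^ 2) ^ 2 := by ring
      _ ≤ ((∑ β ∈ T, wβ β) * ∑ β ∈ T, (nm (∏ i, β i) : ℝ) ^ ((1 : ℝ) / 2) *
          ‖StE E0 J om (alb f β) (k * m ^ 3)‖ ^ 2) ^ 2 :=
          pow_le_pow_left₀ (by positivity) h2 2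
      _ ≤ (∑ β ∈ T, wβ β) ^ 2 * ((∑ β ∈ T, wβ β) *
          ∑ β ∈ T, (nm (∏ i, β i) : ℝ) ^ ((3 : ℝ) / 2) *
            ‖StE E0 J om (alb f β) (k * m ^ 3)‖ ^ 4) := by
          rw [mul_pow]
          exact mul_le_mul_of_nonneg_left h3 (by positivity)
      _ = _ := by ring
  refine (Finset.sum_le_sum h1).trans (le_of_eq ?_)
  rw [← Finset.mul_sum]
  congr 1
  rw [Finset.sum_comm]
  refine Finset.sum_congr rfl fun β _ => ?_
  rw [Finset.mul_sum]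

end Crest.Agent.R017.TU47
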