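import Crest.Agent.R017.TUK_47

/-!
# Row 17, R8: `TailU`, the sum over the large cubes (helper47)

* `core_pt` : the tail over the `k` with a large cube, at a fixed configuration, from the moments
  of the structured function at fixed `m`, the moments of the two-lump side and the real
  inequalities `RealQ`, `RealP`
-/

set_option autoImplicit false

noncomputable section

open Complex Finset
open scoped ComplexConjugate

namespace Crest.Agent.R017.TU47

open Crest.Agent.R012 Crest.Agent.R012.Eis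
open Crest.Agent.R012.LS2 (bl mem_bl)
open Crest.Agent.R012.Mob705 hiding pb mem_pb
open Crest.Agent.R017.CM106 Crest.Agent.R017.FE47
open Crest.Agent.R017.XG702 (Pcs)
open Crest.Agent.R017.HP842 (Pc pc)
open Crest.Agent.R017.B770 Crest.Agent.R017.Prov71
open Crest.Agent.R017.E5B71 Crest.Agent.R017.E5L770 Crest.Agent.R017.E5M372
open Crest.Agent.R017.YM61 (EA)

variable {Λ : Type*} {π : Λ → DPar} {h : ℝ → ℝ} {A d μ : ℝ}

/-- sizes of a configuration -/
structure Szs (q : (Option (Fin 3 ⊕ Fin 5) → ℝ) × (Kd → ℝ)) : Prop where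
  κ0 : 8 / 9 ≤ cκ (dn q.1)
  κ1 : cκ (dn q.1) ≤ 1
  v0 : 0 ≤ q.1 none
  v1 : q.1 none ≤ 2
  N0 : 0 ≤ cN (dn q.1)
  N1 : cN (dn q.1) ≤ 1
  M0 : 0 ≤ cM (dn q.1)
  M1 : cM (dn q.1) ≤ 2
  u0 : -1 ≤ cu (dn q.1) 4
  u1 : cu (dn q.1) 4 ≤ 1
  mo0 : 0 ≤ q.2 .mo
  mo1 : q.2 .mo ≤ 1
  am0 : 0 ≤ q.2 .am
  am1 : q.2 .am ≤ 1 / 3
  x0 : 0 ≤ cx' (dn q.1)
  x1 : cx' (dn q.1) ≤ 1 / 3

lemma szs (hA : 2 / 3 ≤ A) {q : (Option (Fin 3 ⊕ Fin 5) → ℝ) × (Kd → ℝ)} (hq : q ∈ SqL A d) :
    Szs q := by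
  obtain ⟨H, h1, h2⟩ := hq
  have H' : Sq5 A d (dn q.1) q.2 := H
  have hκ := H'.κ0
  have hκ1 := H'.κ1
  have hN := Nr5.N_ge H'.toNr5
  have hκ0 : 0 < cκ (dn q.1) := by linarith
  have hAκ : 2 / 3 * cκ (dn q.1) ≤ A * cκ (dn q.1) := mul_le_mul_of_nonneg_right hA hκ0.le
  have hN1 : cN (dn q.1) ≤ 17 / 20 * cκ (dn q.1) := by
    have := H'.tl.N85
    rwa [div_le_iff₀ hκ0] at this
  obtain ⟨a1, a2, a3, a4⟩ := H'.anti
  have hD := H'.D
  have he := H'.e0
  have hmo := H'.w0 .mo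
  have ham := H'.w0 .am
  have hc := H'.c
  have hnear := H'.near
  have ha12 := H'.a12
  have hx0 : 0 ≤ cx' (dn q.1) := by
    have := H'.tl.adm.1
    rw [le_div_iff₀ hκ0] at this
    linarith
  have hx1 : cx' (dn q.1) ≤ q.2 .am := by
    have := H'.tl.adm.2.1
    exact (div_le_div_iff_of_pos_right hκ0).1 this
  have eN : cN (dn q.1) = cu (dn q.1) 2 + cu (dn q.1) 3 + cu (dn q.1) 4 := rfl
  have eM : cM (dn q.1) = cu (dn q.1) 0 + cu (dn q.1) 1 := rfl
  have htop := top5_le hA H'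
  exact ⟨hκ, hκ1, h1, h2.trans htop, by linarith, by linarith, by linarith, by linarith,
    by linarith, by linarith, hmo, by linarith, ham, hc, hx0, by linarith⟩

lemma b1_nonneg {k M c : ℝ} (hc : 0 ≤ c) : 0 ≤ b1 k M c :=
  le_min hc (mul_nonneg (by norm_num) (le_max_left _ _))

lemma b1_le {k M c : ℝ} : b1 k M c ≤ c := min_le_left _ _

lemma b1_lip {k M c k' M' c' δ : ℝ} (hδ : 0 ≤ δ) (hk : |k - k'| ≤ δ) (hM : |M - M'| ≤ 2 * δ)
    (hc : |c - c'| ≤ δ) : b1 k M c ≤ b1 k' M' c' + 3 * δ := by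
  unfold b1
  obtain ⟨k1, k2⟩ := abs_le.1 hk
  obtain ⟨m1, m2⟩ := abs_le.1 hM
  obtain ⟨c1, c2⟩ := abs_le.1 hc
  rw [← min_add_add_right]
  refine min_le_min (by linarith) ?_
  have h1 : max 0 (k - M) ≤ max 0 (k' - M') + 3 * δ :=
    max_le (by have := le_max_left 0 (k' - M'); linarith)
      (by have := le_max_right 0 (k' - M'); linarith)
  linarith

lemma nl_tw {X : ℝ} {m : Eis} (hm : m ≠ 0) (p : Pq) : Dq.nl X (p.tw m) = Dq.nl X p := by
  unfold Pcs.nl
  rw [tws_tw.len m p hm]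

lemma mass_tw {X : ℝ} {m : Eis} (hm : m ≠ 0) (ps : List Pq) (t : Kd) :
    Dq.mass X (ps.map (Pq.tw m)) t = Dq.mass X ps t := by
  unfold Pcs.mass
  rw [List.map_map]
  congr 1
  refine List.map_congr_left fun p _ => ?_
  simp only [Function.comp]
  rw [nl_tw hm, tws_tw.kind m p hm]

lemma mass_moL (X : ℝ) (ps : List Pq) : Dq.mass X (moL ps) .mo = Dq.mass X ps .mo ∧
    Dq.mass X (moL ps) .am = 0 := by
  induction ps with
  | nil => simp [moL]
  | cons p ps ih =>
    cases hk : p.kd with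
    | mo =>
      have e1 : moL (p :: ps) = p :: moL ps := by
        unfold moL; rw [List.filter_cons_of_pos (by simp [hk])]
      rw [e1, Pcs.mass_cons, Pcs.mass_cons, Pcs.mass_cons, ih.1, ih.2]
      simp [hk]
    | am =>
      have e1 : moL (p :: ps) = moL ps := by
        unfold moL; rw [List.filter_cons_of_neg (by simp [hk])]
      rw [e1, Pcs.mass_cons, ih.1, ih.2]
      simp [hk]

lemma mass_amL (X : ℝ) (ps : List Pq) : Dq.mass X (amL ps) .am = Dq.mass X ps .am ∧
    Dq.mass X (amL ps) .mo = 0 := by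
  induction ps with
  | nil => simp [amL]
  | cons p ps ih =>
    cases hk : p.kd with
    | am =>
      have e1 : amL (p :: ps) = p :: amL ps := by
        unfold amL; rw [List.filter_cons_of_pos (by simp [hk])]
      rw [e1, Pcs.mass_cons, Pcs.mass_cons, Pcs.mass_cons, ih.1, ih.2]
      simp [hk]
    | mo =>
      have e1 : amL (p :: ps) = amL ps := by
        unfold amL; rw [List.filter_cons_of_neg (by simp [hk])]
      rw [e1, Pcs.mass_cons, ih.1, ih.2]
      simp [hk]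

lemma mem_amL {ps : List Pq} {p : Pq} (h : p ∈ amL ps) : p ∈ ps ∧ p.kd = .am := by
  unfold amL at h
  rw [List.mem_filter] at h
  exact ⟨h.1, by simpa using h.2⟩

lemma mem_moL {ps : List Pq} {p : Pq} (h : p ∈ moL ps) : p ∈ ps ∧ p.kd = .mo := by
  unfold moL at h
  rw [List.mem_filter] at h
  exact ⟨h.1, by simpa using h.2⟩

lemma mass_am_of {X : ℝ} {ps : List Pq} (h : ∀ p ∈ ps, p.kd = .am) :
    Dq.mass X ps .am = (ps.map (Dq.nl X)).sum ∧ Dq.mass X ps .mo = 0 := by
  induction ps with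
  | nil => simp
  | cons p ps ih =>
    obtain ⟨i1, i2⟩ := ih fun q hq => h q (List.mem_cons_of_mem _ hq)
    have hp := h p List.mem_cons_self
    rw [Pcs.mass_cons, Pcs.mass_cons, i1, i2, List.map_cons, List.sum_cons]
    simp [hp]

lemma len_moL (ps : List Pq) : (moL ps).length ≤ ps.length := List.length_filter_le _ _

lemma len_amL (ps : List Pq) : (amL ps).length ≤ ps.length := List.length_filter_le _ _

lemma len_mo_am (ps : List Pq) : (moL ps).length + (amL ps).length ≤ ps.length := by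
  induction ps with
  | nil => simp [moL, amL]
  | cons p ps ih =>
    cases hk : p.kd with
    | mo =>
      have e1 : moL (p :: ps) = p :: moL ps := by
        unfold moL; rw [List.filter_cons_of_pos (by simp [hk])]
      have e2 : amL (p :: ps) = amL ps := by
        unfold amL; rw [List.filter_cons_of_neg (by simp [hk])]
      rw [e1, e2]; simp only [List.length_cons]; omega
    | am =>
      have e1 : moL (p :: ps) = moL ps := by
        unfold moL; rw [List.filter_cons_of_neg (by simp [hk])]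
      have e2 : amL (p :: ps) = p :: amL ps := by
        unfold amL; rw [List.filter_cons_of_pos (by simp [hk])]
      rw [e1, e2]; simp only [List.length_cons]; omega

/-- sizes of a twisted list -/
lemma good_tw {X δ' B B' : ℝ} (hX : 1 ≤ X) {m : Eis} (hm : m ≠ 0) (hmX : (nm m : ℝ) ≤ X ^ B')
    {ps : List Pq} (hG : Dq.Good X δ' B ps) : Dq.Good X δ' (|B| + B') (ps.map (Pq.tw m)) := by
  intro q hq
  obtain ⟨p, hp, rfl⟩ := List.mem_map.1 hq
  obtain ⟨g1, g2, g3⟩ := hG p hp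
  have hX0 : 0 < X := by linarith
  refine ⟨by rw [tws_tw.s1 m p hm]; exact g1, ?_, by rw [tws_tw.len m p hm]; exact g3⟩
  refine (tws_tw.s2 m p hm).trans ?_
  rw [Real.rpow_add hX0]
  have h1 : Dq.s2 p ≤ X ^ |B| := g2.trans (Real.rpow_le_rpow_of_exponent_le hX (le_abs_self B))
  exact mul_le_mul h1 hmX (Nat.cast_nonneg _) (Real.rpow_nonneg hX0.le _)

end Crest.Agent.R017.TU47
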