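import Crest.Agent.R017.TUK_47

/-!
# Row 17, R8: `TailU`, second moments at the actual configuration from the uniform bounds (helper47)

* `uin_of` : `UIn` from helper61's `ymA`
-/

set_option autoImplicit false

noncomputable section

open Complex Finset
open scoped ComplexConjugate

namespace Crest.Agent.R017.TU47

open Crest.Agent.R012 Crest.Agent.R012.Eis
open Crest.Agent.R017.FE47
open Crest.Agent.R017.XG702 (Pcs)
open Crest.Agent.R017.XT71 (Sys Win)
open Crest.Agent.R017.B770 Crest.Agent.R017.Prov71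
open Crest.Agent.R017.ER911 Crest.Agent.R017.ExpC702
open Crest.Agent.R017.E5B71
open Crest.Agent.R017.YM61

variable {Λ : Type*} {π : Λ → DPar} {h : ℝ → ℝ} {d : ℝ} {r s : EF}

lemma mass_nonneg {X : ℝ} (hX : 1 < X) {ps : List Pq} (h : ∀ p ∈ ps, 0 ≤ Dq.len p) (t : Kd) :
    0 ≤ Dq.mass X ps t := by
  unfold Pcs.mass
  refine List.sum_nonneg fun a ha => ?_
  obtain ⟨p, hp, rfl⟩ := List.mem_map.1 ha
  split_ifs
  · exact div_nonneg (h p hp) (Real.log_pos hX).le
  · exact le_rfl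

/-- **two-lump side at the actual configuration** -/
theorem uin_of {c₀ : ℝ} (hpu : PU h c₀) (hP : ∀ lam, (π lam).OK)
    (R : ExpRules (7 / 8 + d) r s) (C : ExpC r (ex Dq (fun lam => Rc (π lam) h))) (hd : 0 ≤ d)
    {K : ℝ} (hK : 0 ≤ K) : UIn π h d K := by
  intro ε hε
  obtain ⟨δ, hδ, H⟩ := ymA hpu hP (fun _ => 0) R C hd K ε hε
  refine ⟨δ, hδ, fun lam N B => ?_⟩
  obtain ⟨δ', hδ', X₀, hX₀, H'⟩ := H lam N B
  refine ⟨δ', hδ', X₀, hX₀, ?_⟩
  intro X hX l u u' ps hN hu hu' hps hG hl hlK huK huK' hm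
  have hX1 : 1 < X := hX₀.trans_le hX
  have hX0 : 0 < X := by linarith
  have hL : 0 < Real.log X := Real.log_pos hX1
  obtain ⟨g1, g2, g3⟩ := hG u List.mem_cons_self
  obtain ⟨g4, g5, g6⟩ := hG u' (List.mem_cons_of_mem _ List.mem_cons_self)
  have hG' : Dq.Good X δ' B ps := fun p hp =>
    hG p (List.mem_cons_of_mem _ (List.mem_cons_of_mem _ hp))
  have hm0 : ∀ t, 0 ≤ Dq.mass X ps t := mass_nonneg hX1 fun p hp => (hG' p hp).2.2
  have hlK' : l / Real.log X ≤ K := by rw [div_le_iff₀ hL]; exact hlK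
  have hl0 : 0 ≤ l / Real.log X := div_nonneg hl hL.le
  set a : Y2 := ⟨l, u, u'⟩ with ha
  have hok : a.ok := ⟨⟨hu, g3⟩, ⟨hu', g6⟩⟩
  have hq : (S2.ev X a, fun t => Dq.mass X ps t) ∈ DomY K := by
    refine ⟨fun i => ?_, fun t => ⟨hm0 t, hm t⟩⟩
    fin_cases i
    · exact ⟨hl0, hlK'⟩
    · exact ⟨div_nonneg g3 hL.le, huK⟩
    · exact ⟨div_nonneg g6 hL.le, huK'⟩
  have h1 := H' X hX a ps hN hps _ hq
    ⟨fun i => by rw [sub_self, abs_zero]; exact hδ.le, Real.one_le_rpow hX1.le hδ.le,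
      Nat.zero_le _, max_le g1 g4, max_le g2 g5⟩
    (fun t => by rw [sub_self, abs_zero]; exact hδ.le) hG' (fun _ _ _ => Set.mem_univ _)
  have e1 : YMFs π h (fun _ => 0) lam a ps = Rc (π lam) h l (u :: u' :: ps) := by
    unfold YMFs UBR61.mkF
    rw [if_pos hok]
    show Rc (π lam) h (l + 0) ([u, u'] ++ ps) = _
    rw [add_zero]
    rfl
  rw [e1] at h1
  exact h1

end Crest.Agent.R017.TU47
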