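import Crest.Agent.R017.TUM_47

/-!
# Row 17, R8: `TailU`, the sum over the large cubes (helper47)

* `per_m` : one large cube;  `core_pt` : the sum
-/

set_option autoImplicit false

noncomputable section

open Complex Finset
open scoped ComplexConjugate

namespace Crest.Agent.R017.TU47

open Crest.Agent.R012 Crest.Agent.R012.Eis
open Crest.Agent.R012.LS2 (bl mem_bl)
open Crest.Agent.R012.Mob705 hiding pb mem_pb
open Crest.Agent.R017.CM106 Crest.Agent.R017.FE47
open Crest.Agent.R017.XG702 (Pcs)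
open Crest.Agent.R017.HP842 (Pc pc)
open Crest.Agent.R017.B770 Crest.Agent.R017.Prov71
open Crest.Agent.R017.E5B71 Crest.Agent.R017.E5L770 Crest.Agent.R017.E5M372
open Crest.Agent.R017.YM61 (EA)
open Crest.Agent.R017.RQ702 (g4c e0c)

variable {Λ : Type*} {π : Λ → DPar} {h : ℝ → ℝ} {A d μ : ℝ}

/-- the data of a configuration near `q` -/
structure Cf (δ δ' B X R : ℝ) (t : Eis) (N : ℕ) (l : ℝ) (u u' : Pq) (ps : List Pq)
    (q : (Option (Fin 3 ⊕ Fin 5) → ℝ) × (Kd → ℝ)) : Prop where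
  len : ps.length ≤ N
  lu : Dq.lump u
  lu' : Dq.lump u'
  gr : ∀ p ∈ ps, Dq.lump p ∨ Dq.nl X p ≤ δ
  good : Dq.Good X δ' B (u :: u' :: ps)
  κ : |l / Real.log X - cκ (dn q.1)| ≤ δ
  M : |Dq.nl X u + Dq.nl X u' - cM (dn q.1)| ≤ 2 * δ
  mass : ∀ s, |Dq.mass X ps s - q.2 s| ≤ δ
  R0 : 0 ≤ R
  R1 : R / Real.log X ≤ δ
  t0 : t ≠ 0
  t1 : Real.log (nm t) / Real.log X ≤ δ

/-- moments of the structured function `S` at fixed `m` -/
structure Sm2 (d μ δ δe X R : ℝ) (n : Eis) (S : Eis → ℝ) (l : ℝ)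
    (q : (Option (Fin 3 ⊕ Fin 5) → ℝ) × (Kd → ℝ)) : Prop where
  s0 : ∀ k, 0 ≤ S k
  s2 : ∀ m : Eis, IsPrim m → (nm m : ℝ) ^ 3 ≤ Real.exp (l + R) →
    kf l R X m ≤ 7 / 10 * cκ (dn q.1) →
    ∑ k ∈ KS n (Real.exp (l - R)) (Real.exp (l + R)) m, S (k * m ^ 3) ^ 2 ≤
      X ^ (g2b d (q.1 none) (cN (dn q.1)) (kf l R X m) + 1 / 384 + δe)
  s4 : ∀ m : Eis, IsPrim m → (nm m : ℝ) ^ 3 ≤ Real.exp (l + R) →
    kf l R X m ≤ 7 / 10 * cκ (dn q.1) →
    ∑ k ∈ KS n (Real.exp (l - R)) (Real.exp (l + R)) m, S (k * m ^ 3) ^ 4 ≤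
      X ^ (g4c d (q.1 none) (cN (dn q.1)) (kf l R X m) + 1 / 192 + δe)
  sp : ∀ m : Eis, IsPrim m → (nm m : ℝ) ^ 3 ≤ Real.exp (l + R) →
    7 / 10 * cκ (dn q.1) ≤ kf l R X m → kf l R X m ≤ 17 / 20 * cκ (dn q.1) + 3 * δ →
    ∑ k ∈ KS n (Real.exp (l - R)) (Real.exp (l + R)) m, S (k * m ^ 3) ^ 2 ≤
      X ^ (ESP d μ q (min (kf l R X m) (17 / 20 * cκ (dn q.1))) + δe)

lemma abs5 {x : ℝ} (h1 : -5 ≤ x) (h2 : x ≤ 5) : |x| ≤ 5 := abs_le.2 ⟨h1, h2⟩

set_option maxHeartbeats 2000000 in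
/-- **one large cube** -/
theorem per_m (U : UIn π h d 5) (Ei : EIn π h d 5) (hQ : RealQ' A d μ) (hA : 2 / 3 ≤ A) {ε : ℝ} (hε : 0 < ε) (hε1 : ε ≤ 1) :
    ∃ δ₀ : ℝ, 0 < δ₀ ∧ δ₀ ≤ ε / 100 ∧ ∀ δ : ℝ, 0 < δ → δ ≤ δ₀ → ∀ (lam : Λ) (N : ℕ) (B : ℝ),
      ∃ δ' : ℝ, 0 < δ' ∧ ∃ X₀ : ℝ, 1 < X₀ ∧ ∀ X : ℝ, X₀ ≤ X →
      ∀ (R : ℝ) (t n : Eis) (l : ℝ) (u u' : Pq) (ps : List Pq) (S : Eis → ℝ)
        (q : (Option (Fin 3 ⊕ Fin 5) → ℝ) × (Kd → ℝ)), q ∈ SqL A d →
        Cf δ δ' B X R t N l u u' ps q → Sm2 d μ δ δ₀ X R n S l q →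
      ∀ m : Eis, m ∈ MS' (Real.exp (l / 20)) (Real.exp (l + R)) →
      ∀ Q : Eis → Prop, (∀ k, Q k → (π lam).NP2 (t * k)) → ∀ [DecidablePred Q],
      ∑ k ∈ (KS n (Real.exp (l - R)) (Real.exp (l + R)) m).filter Q,
        S (k * m ^ 3) * ((((u :: u' :: moL ps).map (GG (π lam) h (t * (k * m ^ 3)))).prod) *
          (((amL ps).map (GG (π lam) h (t * (k * m ^ 3)))).prod)) ≤
        X ^ (T5 (7 / 8 + d) (dn q.1, q.2) - μ + ε) * (1 / (nm m : ℝ)) := by
  classical
  set ε₁ := ε / 20 with hε₁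
  have hε₁0 : 0 < ε₁ := by positivity
  obtain ⟨δU, hδU, HU⟩ := U ε₁ hε₁0
  obtain ⟨δE, hδE, HE⟩ := Ei ε₁ hε₁0
  obtain ⟨δF, hδF, HF⟩ := unif_cont (F6_cont d) 5 hε₁0
  obtain ⟨δA, hδA, HA⟩ := unif_cont (EA_cont d) 5 hε₁0
  set δ₀ := min (min (min δU δE) (δF / 20)) (min (δA / 20) (min (ε₁ / 10) (1 / 100)))
    with hδ₀
  have hδ₀0 : 0 < δ₀ := by positivity
  have d1 : δ₀ ≤ δU := (min_le_left _ _).trans ((min_le_left _ _).trans (min_le_left _ _))
  have d2 : δ₀ ≤ δE := (min_le_left _ _).trans ((min_le_left _ _).trans (min_le_right _ _))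
  have d3 : δ₀ ≤ δF / 20 := (min_le_left _ _).trans (min_le_right _ _)
  have d5 : δ₀ ≤ δA / 20 := (min_le_right _ _).trans (min_le_left _ _)
  have d6 : δ₀ ≤ ε₁ / 10 := (min_le_right _ _).trans ((min_le_right _ _).trans (min_le_left _ _))
  have d7 : δ₀ ≤ 1 / 100 := (min_le_right _ _).trans ((min_le_right _ _).trans (min_le_right _ _))
  refine ⟨δ₀, hδ₀0, by rw [hε₁] at d6; linarith, fun δ hδ hδδ lam N B => ?_⟩
  obtain ⟨δ₁', hδ₁', X₁, hX₁, HU'⟩ := HU lam N (|B| + 1)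
  obtain ⟨δ₂', hδ₂', X₂, hX₂, HE'⟩ := HE lam (3 * N) (|B| + 1)
  refine ⟨min δ₁' δ₂', lt_min hδ₁' hδ₂', max X₁ X₂, lt_max_of_lt_left hX₁, ?_⟩
  intro X hX R t n l u u' ps S q hq hC hS m hm Q hQt _
  have hXX₁ : X₁ ≤ X := (le_max_left _ _).trans hX
  have hXX₂ : X₂ ≤ X := (le_max_right _ _).trans hX
  have hX1 : 1 < X := hX₁.trans_le hXX₁
  have hX0 : 0 < X := by linarith
  have hL : 0 < Real.log X := Real.log_pos hX1
  have hδ1 : δ ≤ 1 / 100 := hδδ.trans d7
  obtain ⟨κ0, κ1, v0, v1, N0, N1, M0, M1, u0, u1, mo0, mo1, am0, am1, x0, x1⟩ := szs hA hq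
  -- the family
  obtain ⟨c1, c2⟩ := abs_le.1 hC.κ
  obtain ⟨cM1, cM2⟩ := abs_le.1 hC.M
  obtain ⟨cmo1, cmo2⟩ := abs_le.1 (hC.mass .mo)
  obtain ⟨cam1, cam2⟩ := abs_le.1 (hC.mass .am)
  unfold MS' at hm
  rw [Finset.mem_filter, mem_primBall] at hm
  obtain ⟨⟨hm1, hmp⟩, hm2⟩ := hm
  have hm0 : m ≠ 0 := hmp.ne_zero
  have hn1 : (1 : ℝ) ≤ nm m := nm1 hm0
  have hnp : (0 : ℝ) < nm m := by linarith
  have hm3 : (nm m : ℝ) ≤ Real.exp ((l + R) / 3) := by
    have h1 : (nm m : ℝ) ≤ (Real.exp (l + R)) ^ ((1 : ℝ) / 3) :=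
      (Nat.cast_le.2 hm1).trans (Nat.floor_le (by positivity))
    rw [← Real.exp_mul] at h1
    refine h1.trans (le_of_eq ?_)
    congr 1; ring
  have hlm : Real.log (nm m) ≤ (l + R) / 3 := by
    have := Real.log_le_log hnp hm3
    rwa [Real.log_exp] at this
  have hlm0 : 0 ≤ Real.log (nm m) := Real.log_nonneg hn1
  have hlm2 : l / 20 ≤ Real.log (nm m) := by
    have := Real.log_le_log (Real.exp_pos _) hm2.le
    rwa [Real.log_exp] at this
  have hm3' : (nm m : ℝ) ^ 3 ≤ Real.exp (l + R) := by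
    calc (nm m : ℝ) ^ 3 ≤ (Real.exp ((l + R) / 3)) ^ 3 := pow_le_pow_left₀ hnp.le hm3 3
      _ = Real.exp (l + R) := by
        rw [← Real.exp_nat_mul]; congr 1; push_cast; ring
  set k := kf l R X m with hk
  set z := Real.log (nm m) / Real.log X with hz
  set ρ := R / Real.log X with hρ
  have hρ0 : 0 ≤ ρ := div_nonneg hC.R0 hL.le
  have hρ1 : ρ ≤ δ := hC.R1
  have ek : k = l / Real.log X + ρ - 3 * z := by
    rw [hk, hρ, hz]; unfold kf; ring
  have hk0 : 0 ≤ k := by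
    rw [hk]; unfold kf
    exact div_nonneg (by linarith) hL.le
  have hz0 : 0 ≤ z := div_nonneg hlm0 hL.le
  have hz2 : l / Real.log X / 20 ≤ z := by
    rw [hz, div_div, mul_comm, ← div_div]
    exact div_le_div_of_nonneg_right hlm2 hL.le
  have hk1 : k ≤ 17 / 20 * cκ (dn q.1) + 3 * δ := by rw [ek]; linarith
  set τ := Real.log (nm t) / Real.log X with hτ
  have hτ0 : 0 ≤ τ := div_nonneg (Real.log_nonneg (nm1 hC.t0)) hL.le
  have hτ1 : τ ≤ δ := hC.t1
  -- the family of the two-lump side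
  set lU := Real.log (Real.exp (l + R)) - 3 * Real.log (nm m) + Real.log (nm t) with hlU
  have ekU : lU / Real.log X = k + τ := by
    rw [hlU, Real.log_exp, hk, hτ]; unfold kf; ring
  have hlU0 : 0 ≤ lU := by
    have h1 : 0 ≤ lU / Real.log X := by rw [ekU]; linarith
    by_contra h2
    push Not at h2
    have := div_neg_of_neg_of_pos h2 hL
    linarith
  have hlU1 : lU ≤ 5 * Real.log X := by
    have h1 : lU / Real.log X ≤ 5 := by rw [ekU]; linarith
    rwa [div_le_iff₀ hL] at h1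
  have hnmX : (nm m : ℝ) ≤ X ^ (1 : ℝ) := by
    rw [Real.rpow_one]
    have h1 : (l + R) / Real.log X ≤ 3 := by
      have : (l + R) / Real.log X = l / Real.log X + ρ := by rw [hρ]; ring
      rw [this]; linarith
    rw [div_le_iff₀ hL] at h1
    calc (nm m : ℝ) ≤ Real.exp ((l + R) / 3) := hm3
      _ ≤ Real.exp (Real.log X) := Real.exp_le_exp.2 (by linarith)
      _ = X := Real.exp_log hX0
  have hgood : Dq.Good X (min δ₁' δ₂') (|B| + 1) ((u :: u' :: ps).map (Pq.tw m)) :=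
    good_tw hX1.le hm0 hnmX hC.good
  have hgp : ∀ p ∈ (u :: u' :: ps), Dq.s1 (p.tw m) ≤ X ^ (min δ₁' δ₂') ∧
      Dq.s2 (p.tw m) ≤ X ^ (|B| + 1) ∧ 0 ≤ Dq.len (p.tw m) := fun p hp =>
    hgood _ (List.mem_map.2 ⟨p, hp, rfl⟩)
  have hX1' : X ^ (min δ₁' δ₂') ≤ X ^ δ₁' :=
    Real.rpow_le_rpow_of_exponent_le hX1.le (min_le_left _ _)
  have hX2' : X ^ (min δ₁' δ₂') ≤ X ^ δ₂' :=
    Real.rpow_le_rpow_of_exponent_le hX1.le (min_le_right _ _)
  have hnl0 : ∀ p ∈ (u :: u' :: ps), 0 ≤ Dq.nl X p := fun p hp =>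
    div_nonneg (hC.good p hp).2.2 hL.le
  have hu0 := hnl0 u List.mem_cons_self
  have hu0' := hnl0 u' (List.mem_cons_of_mem _ List.mem_cons_self)
  -- the two-lump side
  have HUm : ∀ p₁ : List Pq, (∀ p ∈ p₁, p ∈ amL ps) → p₁.length ≤ (amL ps).length →
      Dq.mass X p₁ .am ≤ 5 →
      ∑ k ∈ (KS n (Real.exp (l - R)) (Real.exp (l + R)) m).filter Q,
        ((((u :: u' :: (moL ps ++ p₁)).map (GG (π lam) h (t * (k * m ^ 3)))).prod)) ^ 2 ≤
      X ^ (EA d (k + τ) (Dq.nl X u + Dq.nl X u') (Dq.mass X ps .mo) (Dq.mass X p₁ .am) + ε₁) := by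
    intro p₁ hp₁ hlen hmass
    have hk₁ : ∀ p ∈ p₁, p.kd = .am := fun p hp => (mem_amL (hp₁ p hp)).2
    have hmem : ∀ p ∈ moL ps ++ p₁, p ∈ ps := fun p hp => by
      rcases List.mem_append.1 hp with h1 | h1
      · exact (mem_moL h1).1
      · exact (mem_amL (hp₁ p h1)).1
    have h1 := uside (π lam) h (n := n) (L := Real.exp (l - R)) hC.t0 hm0 (Real.exp_pos (l + R))
      (u :: u' :: (moL ps ++ p₁))
    have h2 : ∑ k ∈ (KS n (Real.exp (l - R)) (Real.exp (l + R)) m).filter Q,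
        ((((u :: u' :: (moL ps ++ p₁)).map (GG (π lam) h (t * (k * m ^ 3)))).prod)) ^ 2 ≤
        ∑ k ∈ (KS n (Real.exp (l - R)) (Real.exp (l + R)) m).filter
          (fun k => (π lam).NP2 (t * k)),
        ((((u :: u' :: (moL ps ++ p₁)).map (GG (π lam) h (t * (k * m ^ 3)))).prod)) ^ 2 := by
      refine Finset.sum_le_sum_of_subset_of_nonneg (fun x hx => ?_) fun _ _ _ => sq_nonneg _
      rw [Finset.mem_filter] at hx ⊢
      exact ⟨hx.1, hQt x hx.2⟩
    refine h2.trans (le_trans ?_ (le_trans h1 ?_))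
    · exact le_of_eq (Finset.sum_congr (by congr) fun _ _ => rfl)
    rw [← hlU, List.map_cons, List.map_cons]
    have m1 : Dq.mass X ((moL ps ++ p₁).map (Pq.tw m)) .mo = Dq.mass X ps .mo := by
      rw [mass_tw hm0, Pcs.mass_append, (mass_moL X ps).1, (mass_am_of hk₁).2, add_zero]
    have m2 : Dq.mass X ((moL ps ++ p₁).map (Pq.tw m)) .am = Dq.mass X p₁ .am := by
      rw [mass_tw hm0, Pcs.mass_append, (mass_moL X ps).2, zero_add]
    have h3 := HU' X hXX₁ lU (u.tw m) (u'.tw m) ((moL ps ++ p₁).map (Pq.tw m))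
      (by
        rw [List.length_map, List.length_append]
        have := len_mo_am ps
        have := hC.len
        omega)
      (tws_tw.lump m u hm0 hC.lu) (tws_tw.lump m u' hm0 hC.lu')
      (fun p hp => by
        obtain ⟨p', hp', rfl⟩ := List.mem_map.1 hp
        rcases hC.gr p' (hmem p' hp') with h4 | h4
        · exact Or.inl (tws_tw.lump m p' hm0 h4)
        · right
          rw [nl_tw hm0]
          exact h4.trans (hδδ.trans d1))
      (fun p hp => by
        have h5 : ∃ p' ∈ (u :: u' :: ps), p = p'.tw m := by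
          rcases List.mem_cons.1 hp with rfl | hp
          · exact ⟨u, List.mem_cons_self, rfl⟩
          rcases List.mem_cons.1 hp with rfl | hp
          · exact ⟨u', List.mem_cons_of_mem _ List.mem_cons_self, rfl⟩
          obtain ⟨p', hp', rfl⟩ := List.mem_map.1 hp
          exact ⟨p', List.mem_cons_of_mem _ (List.mem_cons_of_mem _ (hmem p' hp')), rfl⟩
        obtain ⟨p', hp', rfl⟩ := h5
        obtain ⟨g1, g2, g3⟩ := hgp p' hp'
        exact ⟨g1.trans hX1', g2, g3⟩)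
      hlU0 hlU1 (by rw [nl_tw hm0]; linarith) (by rw [nl_tw hm0]; linarith)
      (fun s => by
        cases s
        · rw [m1]; linarith
        · rw [m2]; exact hmass)
    rw [nl_tw hm0, nl_tw hm0, m1, m2, ekU] at h3
    exact h3
  have hT : ∀ k' : ℝ, k' ≤ k → X ^ (T5 (7 / 8 + d) (dn q.1, q.2) - μ -
      (cκ (dn q.1) - k') / 3 + 6 * ε₁) ≤
      X ^ (T5 (7 / 8 + d) (dn q.1, q.2) - μ + ε) * (1 / (nm m : ℝ)) := by
    intro k' hk'
    have h6 : (1 / (nm m : ℝ)) = X ^ (-z) := by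
      rw [Real.rpow_neg hX0.le, one_div]
      congr 1
      rw [Real.rpow_def_of_pos hX0, hz]
      have : Real.log X * (Real.log (nm m) / Real.log X) = Real.log (nm m) := by field_simp
      rw [this, Real.exp_log hnp]
    rw [h6, ← Real.rpow_add hX0]
    refine Real.rpow_le_rpow_of_exponent_le hX1.le ?_
    have : δ ≤ ε₁ := (hδδ.trans d6).trans (by linarith)
    linarith
  rcases le_total k (7 / 10 * cκ (dn q.1)) with hcase | hcase
  · -- Hölder
    set b₀ := b1 k (Dq.nl X u + Dq.nl X u') (Dq.mass X ps .am) with hb₀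
    have hama : ∀ p ∈ amL ps, p.kd = .am := fun p hp => (mem_amL hp).2
    have eam := (mass_am_of (X := X) hama).1
    rw [(mass_amL X ps).1] at eam
    have ham0' : 0 ≤ Dq.mass X ps .am := by
      rw [eam]
      refine List.sum_nonneg fun a ha => ?_
      obtain ⟨p, hp, rfl⟩ := List.mem_map.1 ha
      exact hnl0 p (List.mem_cons_of_mem _ (List.mem_cons_of_mem _ (mem_amL hp).1))
    have hb₀0 : 0 ≤ b₀ := b1_nonneg ham0'
    obtain ⟨p₁, p₂, hsp, hs1, hs2⟩ := split (f := Dq.nl X) hδ.le (amL ps)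
      (fun p hp => hnl0 p (List.mem_cons_of_mem _ (List.mem_cons_of_mem _ (mem_amL hp).1)))
      (fun p hp => by
        rcases hC.gr p (mem_amL hp).1 with h4 | h4
        · have := ((Dq_lump p).1 h4).1
          rw [(mem_amL hp).2] at this
          exact absurd this (by decide)
        · exact h4)
      hb₀0 (by rw [← eam]; exact b1_le)
    have hk₁ : ∀ p ∈ p₁, p.kd = .am := fun p hp => hama p (by
      rw [hsp]; exact List.mem_append_left _ hp)
    have hk₂ : ∀ p ∈ p₂, p.kd = .am := fun p hp => hama p (by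
      rw [hsp]; exact List.mem_append_right _ hp)
    set b' := Dq.mass X p₁ .am with hb'
    have eb' : b' = (p₁.map (Dq.nl X)).sum := (mass_am_of hk₁).1
    rw [← eb'] at hs1 hs2
    have em2 : Dq.mass X p₂ .am = Dq.mass X ps .am - b' := by
      have h1 : Dq.mass X (amL ps) .am = Dq.mass X p₁ .am + Dq.mass X p₂ .am := by
        rw [hsp, Pcs.mass_append]
      rw [(mass_amL X ps).1] at h1
      rw [hb']; linarith
    have hp20 : 0 ≤ Dq.mass X p₂ .am := by
      rw [(mass_am_of hk₂).1]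
      refine List.sum_nonneg fun a ha => ?_
      obtain ⟨p, hp, rfl⟩ := List.mem_map.1 ha
      exact hnl0 p (List.mem_cons_of_mem _ (List.mem_cons_of_mem _
        (mem_amL (by rw [hsp]; exact List.mem_append_right _ hp)).1))
    have hb'0 : 0 ≤ b' := by
      rw [eb']
      refine List.sum_nonneg fun a ha => ?_
      obtain ⟨p, hp, rfl⟩ := List.mem_map.1 ha
      exact hnl0 p (List.mem_cons_of_mem _ (List.mem_cons_of_mem _
        (mem_amL (by rw [hsp]; exact List.mem_append_left _ hp)).1))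
    have hU1 := HUm p₁ (fun p hp => by rw [hsp]; exact List.mem_append_left _ hp)
      (by rw [hsp, List.length_append]; omega) (by linarith)
    -- the sixth moment
    have hlen2 : p₂.length ≤ N := by
      have h1 := len_amL ps
      have h2 := hC.len
      rw [hsp, List.length_append] at h1
      omega
    have h6 : ∑ k ∈ (KS n (Real.exp (l - R)) (Real.exp (l + R)) m).filter Q,
        ((p₂.map (GG (π lam) h (t * (k * m ^ 3)))).prod) ^ 6 ≤
        X ^ (e0c d (k + τ) (3 * (Dq.mass X ps .am - b')) + ε₁) := by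
      have h1 := uside (π lam) h (n := n) (L := Real.exp (l - R)) hC.t0 hm0
        (Real.exp_pos (l + R)) (p₂ ++ p₂ ++ p₂)
      have hmem : ∀ p ∈ p₂ ++ p₂ ++ p₂, p ∈ p₂ := fun p hp => by
        simpa [List.mem_append] using hp
      have m2 : Dq.mass X ((p₂ ++ p₂ ++ p₂).map (Pq.tw m)) .am =
          3 * (Dq.mass X ps .am - b') := by
        rw [mass_tw hm0, Pcs.mass_append, Pcs.mass_append, em2]; ring
      have h3 := HE' X hXX₂ lU ((p₂ ++ p₂ ++ p₂).map (Pq.tw m))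
        (by rw [List.length_map, List.length_append, List.length_append]; omega)
        (fun p hp => by
          obtain ⟨p', hp', rfl⟩ := List.mem_map.1 hp
          have h7 := tws_tw.kind m p' hm0
          have h8 := hk₂ p' (hmem p' hp')
          have h9 : (p'.tw m).kd = p'.kd := h7
          rw [h9, h8])
        (fun p hp => by
          obtain ⟨p', hp', rfl⟩ := List.mem_map.1 hp
          rw [nl_tw hm0]
          have h9 : p' ∈ amL ps := by rw [hsp]; exact List.mem_append_right _ (hmem p' hp')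
          rcases hC.gr p' (mem_amL h9).1 with h4 | h4
          · have := ((Dq_lump p').1 h4).1
            rw [(mem_amL h9).2] at this
            exact absurd this (by decide)
          · exact h4.trans (hδδ.trans d2))
        (fun p hp => by
          obtain ⟨p', hp', rfl⟩ := List.mem_map.1 hp
          have h9 : p' ∈ amL ps := by rw [hsp]; exact List.mem_append_right _ (hmem p' hp')
          obtain ⟨g1, g2, g3⟩ := hgp p'
            (List.mem_cons_of_mem _ (List.mem_cons_of_mem _ (mem_amL h9).1))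
          exact ⟨g1.trans hX2', g2, g3⟩)
        hlU0 hlU1 (by rw [m2]; linarith)
      rw [m2, ekU] at h3
      have h2 : ∑ k ∈ (KS n (Real.exp (l - R)) (Real.exp (l + R)) m).filter Q,
          ((p₂.map (GG (π lam) h (t * (k * m ^ 3)))).prod) ^ 6 ≤
          ∑ k ∈ (KS n (Real.exp (l - R)) (Real.exp (l + R)) m).filter
            (fun k => (π lam).NP2 (t * k)),
          (((p₂ ++ p₂ ++ p₂).map (GG (π lam) h (t * (k * m ^ 3)))).prod) ^ 2 := by
        simp only [prod_six]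
        refine Finset.sum_le_sum_of_subset_of_nonneg (fun x hx => ?_) fun _ _ _ => sq_nonneg _
        rw [Finset.mem_filter] at hx ⊢
        exact ⟨hx.1, hQt x hx.2⟩
      refine h2.trans (le_trans ?_ (h1.trans ?_))
      · exact le_of_eq (Finset.sum_congr (by congr) fun _ _ => rfl)
      · rw [← hlU]
        exact h3
    have hS2 : ∑ k ∈ (KS n (Real.exp (l - R)) (Real.exp (l + R)) m).filter Q,
        S (k * m ^ 3) ^ 2 ≤ X ^ (g2b d (q.1 none) (cN (dn q.1)) k + 1 / 384 + δ₀) :=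
      (Finset.sum_le_sum_of_subset_of_nonneg (Finset.filter_subset _ _)
        fun _ _ _ => sq_nonneg _).trans (hS.s2 m hmp hm3' hcase)
    have hS4 : ∑ k ∈ (KS n (Real.exp (l - R)) (Real.exp (l + R)) m).filter Q,
        S (k * m ^ 3) ^ 4 ≤ X ^ (g4c d (q.1 none) (cN (dn q.1)) k + 1 / 192 + δ₀) :=
      (Finset.sum_le_sum_of_subset_of_nonneg (Finset.filter_subset _ _)
        fun x _ _ => by have := hS.s0 (x * m ^ 3); positivity).trans (hS.s4 m hmp hm3' hcase)
    have hH := hoelder_m ((KS n (Real.exp (l - R)) (Real.exp (l + R)) m).filter Q)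
      (S := fun k => S (k * m ^ 3))
      (U := fun k => ((u :: u' :: (moL ps ++ p₁)).map (GG (π lam) h (t * (k * m ^ 3)))).prod)
      (B := fun k => (p₂.map (GG (π lam) h (t * (k * m ^ 3)))).prod)
      (fun k => hS.s0 _) (fun k => prodGG_nonneg _ _ _ _) (fun k => prodGG_nonneg _ _ _ _) hX1
      hS2 hS4 hU1 h6
    have e9 : ∀ k, S (k * m ^ 3) *
        ((((u :: u' :: moL ps).map (GG (π lam) h (t * (k * m ^ 3)))).prod) *
          (((amL ps).map (GG (π lam) h (t * (k * m ^ 3)))).prod)) = S (k * m ^ 3) *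
        ((((u :: u' :: (moL ps ++ p₁)).map (GG (π lam) h (t * (k * m ^ 3)))).prod) *
          ((p₂.map (GG (π lam) h (t * (k * m ^ 3)))).prod)) := by
      intro k
      rw [hsp]
      simp only [List.map_cons, List.map_append, List.prod_cons, List.prod_append]
      ring
    simp only [e9]
    refine hH.trans (le_trans ?_ (hT k le_rfl))
    refine Real.rpow_le_rpow_of_exponent_le hX1.le ?_
    -- exponents
    have hb1 : b1 k (cM (dn q.1)) (q.2 .am) ≤ b₀ + 3 * δ := b1_lip hδ.le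
      (by rw [sub_self, abs_zero]; exact hδ.le) (by rw [abs_sub_comm]; exact hC.M)
      (by rw [abs_sub_comm]; exact hC.mass .am)
    have hb2 : b₀ ≤ b1 k (cM (dn q.1)) (q.2 .am) + 3 * δ := b1_lip hδ.le
      (by rw [sub_self, abs_zero]; exact hδ.le) hC.M (hC.mass .am)
    have hb3 : 0 ≤ b1 k (cM (dn q.1)) (q.2 .am) := b1_nonneg am0
    have hb4 : b1 k (cM (dn q.1)) (q.2 .am) ≤ q.2 .am := b1_le
    have hF := HF ![q.1 none, cN (dn q.1), k, k + τ, Dq.nl X u + Dq.nl X u', Dq.mass X ps .mo, b',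
        3 * (Dq.mass X ps .am - b')]
      ![q.1 none, cN (dn q.1), k, k, cM (dn q.1), q.2 .mo, b1 k (cM (dn q.1)) (q.2 .am),
        3 * (q.2 .am - b1 k (cM (dn q.1)) (q.2 .am))]
      (by
        intro i
        fin_cases i <;> simp [-abs_mul] <;> refine abs5 ?_ ?_ <;> linarith)
      (by
        intro i
        fin_cases i <;> simp [-abs_mul] <;> refine abs5 ?_ ?_ <;> linarith)
      (by
        intro i
        fin_cases i <;> simp [-abs_mul] <;> first
          | exact hδF.le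
          | (refine abs_le.2 ⟨?_, ?_⟩ <;> linarith))
    have hF' : F6 d (q.1 none) (cN (dn q.1)) k (k + τ) (Dq.nl X u + Dq.nl X u')
        (Dq.mass X ps .mo) b' (3 * (Dq.mass X ps .am - b')) ≤
        F6 d (q.1 none) (cN (dn q.1)) k k (cM (dn q.1)) (q.2 .mo)
          (b1 k (cM (dn q.1)) (q.2 .am)) (3 * (q.2 .am - b1 k (cM (dn q.1)) (q.2 .am))) + ε₁ := hF
    have hR := hQ q hq k hk0 (by linarith)
    unfold F6 at hF' hR
    have : δ ≤ ε₁ := (hδδ.trans d6).trans (by linarith)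
    have : δ₀ ≤ ε₁ := d6.trans (by linarith)
    linarith
  · -- Cauchy
    set k' := min k (17 / 20 * cκ (dn q.1)) with hk'
    have hk'k : k' ≤ k := min_le_left _ _
    have hk'1 : k' ≤ 17 / 20 * cκ (dn q.1) := min_le_right _ _
    have hk'0 : 7 / 10 * cκ (dn q.1) ≤ k' := le_min hcase (by linarith)
    have hkk' : k ≤ k' + 3 * δ := by
      rcases min_cases k (17 / 20 * cκ (dn q.1)) with h1 | h1
      · rw [hk', h1.1]; linarith
      · rw [hk', h1.1]; linarith
    have hU1 := HUm (amL ps) (fun p hp => hp) le_rfl (by rw [(mass_amL X ps).1]; linarith)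
    rw [(mass_amL X ps).1] at hU1
    have hS2 := hS.sp m hmp hm3' hcase hk1
    have hS2' : ∑ k ∈ (KS n (Real.exp (l - R)) (Real.exp (l + R)) m).filter Q,
        S (k * m ^ 3) ^ 2 ≤ X ^ (ESP d μ q k' + δ₀) :=
      (Finset.sum_le_sum_of_subset_of_nonneg (Finset.filter_subset _ _)
        fun _ _ _ => sq_nonneg _).trans hS2
    have hH := cauchy_m ((KS n (Real.exp (l - R)) (Real.exp (l + R)) m).filter Q)
      (S := fun k => S (k * m ^ 3))
      (U := fun k => ((u :: u' :: (moL ps ++ amL ps)).map (GG (π lam) h (t * (k * m ^ 3)))).prod)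
      hX1 hS2' hU1
    have e9 : ∀ k, S (k * m ^ 3) *
        ((((u :: u' :: moL ps).map (GG (π lam) h (t * (k * m ^ 3)))).prod) *
          (((amL ps).map (GG (π lam) h (t * (k * m ^ 3)))).prod)) = S (k * m ^ 3) *
        (((u :: u' :: (moL ps ++ amL ps)).map (GG (π lam) h (t * (k * m ^ 3)))).prod) := by
      intro k
      simp only [List.map_cons, List.map_append, List.prod_cons, List.prod_append]
      ring
    simp only [e9]
    refine hH.trans (le_trans ?_ (hT k' hk'k))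
    refine Real.rpow_le_rpow_of_exponent_le hX1.le ?_
    have hF := HA ![k + τ, Dq.nl X u + Dq.nl X u', Dq.mass X ps .mo, Dq.mass X ps .am]
      ![k', cM (dn q.1), q.2 .mo, q.2 .am]
      (by
        intro i
        fin_cases i <;> simp [-abs_mul] <;> refine abs5 ?_ ?_ <;> linarith)
      (by
        intro i
        fin_cases i <;> simp [-abs_mul] <;> refine abs5 ?_ ?_ <;> linarith)
      (by
        intro i
        fin_cases i <;> simp [-abs_mul] <;> (refine abs_le.2 ⟨?_, ?_⟩ <;> linarith))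
    have hF' : EA d (k + τ) (Dq.nl X u + Dq.nl X u') (Dq.mass X ps .mo) (Dq.mass X ps .am) ≤
        EA d k' (cM (dn q.1)) (q.2 .mo) (q.2 .am) + ε₁ := hF
    have : δ ≤ ε₁ := (hδδ.trans d6).trans (by linarith)
    have : δ₀ ≤ ε₁ := d6.trans (by linarith)
    unfold ESP
    linarith

end Crest.Agent.R017.TU47
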