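import Crest.Agent.R017.TUO_47

/-!
# Row 17, R8: `TailU`, the NP2-part of the tail (helper47)

* `core_pt` : the tail over the `k` with a large cube, neither character principal
-/

set_option autoImplicit false

noncomputable section

open Complex Finset
open scoped ComplexConjugate

namespace Crest.Agent.R017.TU47

open Crest.Agent.R012 Crest.Agent.R012.Eis
open Crest.Agent.R012.LS2 (bl mem_bl)
open Crest.Agent.R012.Mob705 hiding pb mem_pb
open Crest.Agent.R017.CM106 Crest.Agent.R017.FE47 Crest.Agent.R017.E5T54 Crest.Agent.R017.E5P571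
open Crest.Agent.R017.XG702 (Pcs)
open Crest.Agent.R017.HP842 (Pc pc)
open Crest.Agent.R017.B770 Crest.Agent.R017.Prov71
open Crest.Agent.R017.E5B71 Crest.Agent.R017.E5L770 Crest.Agent.R017.E5M372

variable {Λ : Type*} {π : Λ → DPar} {h : ℝ → ℝ} {A d μ : ℝ}

open Classical in
/-- **the tail over the large cubes, NP2-part** -/
theorem core_pt (U : UIn π h d 5) (Ei : EIn π h d 5) (hQ : RealQ' A d μ) (hA : 2 / 3 ≤ A)
    {ε : ℝ} (hε : 0 < ε) (hε1 : ε ≤ 1) :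
    ∃ δ₀ : ℝ, 0 < δ₀ ∧ δ₀ ≤ ε / 100 ∧ ∀ δ : ℝ, 0 < δ → δ ≤ δ₀ → ∀ (lam : Λ) (N : ℕ) (B : ℝ),
      ∃ δ' : ℝ, 0 < δ' ∧ ∃ X₀ : ℝ, 1 < X₀ ∧ ∀ X : ℝ, X₀ ≤ X →
      ∀ (R : ℝ) (t n : Eis) (l : ℝ) (u u' : Pq) (ps : List Pq) (S : Eis → ℝ)
        (q : (Option (Fin 3 ⊕ Fin 5) → ℝ) × (Kd → ℝ)), q ∈ SqL A d →
        Cf δ δ' B X R t N l u u' ps q → Sm2 d μ δ δ₀ X R n S l q →
      ∑ k ∈ (PB n ⌊Real.exp (l + R)⌋₊).filter (fun k => ¬ cutE (Real.exp (l / 20)) k ∧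
          Real.exp (l - R) ≤ nm k ∧ (π lam).NP2 (t * k)),
        S k * ((((u :: u' :: moL ps).map (GG (π lam) h (t * k))).prod) *
          (((amL ps).map (GG (π lam) h (t * k))).prod)) ≤
        X ^ (T5 (7 / 8 + d) (dn q.1, q.2) - μ + ε) := by
  obtain ⟨δ₀, hδ₀, hδ₀', H⟩ := per_m U Ei hQ hA (half_pos hε) (by linarith)
  obtain ⟨X₂, hX₂, H₂⟩ := sum_inv_MS (half_pos hε)
  refine ⟨δ₀, hδ₀, by linarith, fun δ hδ hδδ lam N B => ?_⟩
  obtain ⟨δ', hδ', X₁, hX₁, H₁⟩ := H δ hδ hδδ lam N B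
  refine ⟨δ', hδ', max X₁ X₂, lt_max_of_lt_left hX₁, ?_⟩
  intro X hX R t n l u u' ps S q hq hC hS
  have hXX₁ : X₁ ≤ X := (le_max_left _ _).trans hX
  have hXX₂ : X₂ ≤ X := (le_max_right _ _).trans hX
  have hX1 : 1 < X := hX₁.trans_le hXX₁
  have hX0 : 0 < X := by linarith
  have hL : 0 < Real.log X := Real.log_pos hX1
  have hκ1 := (szs hA hq).κ1
  have hY : Real.exp (l + R) ≤ X ^ (3 : ℝ) := by
    rw [Real.rpow_def_of_pos hX0]
    refine Real.exp_le_exp.2 ?_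
    have c2 := (abs_le.1 hC.κ).2
    have r1 := hC.R1
    have h1 : (l + R) / Real.log X ≤ 3 := by
      rw [add_div]; linarith
    rw [div_le_iff₀ hL] at h1
    linarith
  have h1 := cube_sum (n := n) (E₁ := Real.exp (l / 20)) (L := Real.exp (l - R))
    (Real.exp_pos (l + R)).le (fun k => (π lam).NP2 (t * k)) (fun k => (π lam).NP2 (t * k))
    (fun k₁ m _ _ h => by
      rw [← mul_assoc] at h
      exact NP2_cube _ h)
    (F := fun k => S k * ((((u :: u' :: moL ps).map (GG (π lam) h (t * k))).prod) *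
          (((amL ps).map (GG (π lam) h (t * k))).prod)))
    (fun k => mul_nonneg (hS.s0 k) (mul_nonneg (prodGG_nonneg _ _ _ _) (prodGG_nonneg _ _ _ _)))
  refine h1.trans ?_
  have h2 : ∀ m ∈ MS' (Real.exp (l / 20)) (Real.exp (l + R)),
      ∑ k ∈ (KS n (Real.exp (l - R)) (Real.exp (l + R)) m).filter (fun k => (π lam).NP2 (t * k)),
        S (k * m ^ 3) * ((((u :: u' :: moL ps).map (GG (π lam) h (t * (k * m ^ 3)))).prod) *
          (((amL ps).map (GG (π lam) h (t * (k * m ^ 3)))).prod)) ≤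
        X ^ (T5 (7 / 8 + d) (dn q.1, q.2) - μ + ε / 2) * (1 / (nm m : ℝ)) := fun m hm =>
    H₁ X hXX₁ R t n l u u' ps S q hq hC hS m hm (fun k => (π lam).NP2 (t * k)) (fun _ h => h)
  refine (Finset.sum_le_sum h2).trans ?_
  rw [← Finset.mul_sum]
  have h3 := H₂ X hXX₂ (Real.exp (l / 20)) (Real.exp (l + R)) (Real.exp_pos _).le hY
  calc X ^ (T5 (7 / 8 + d) (dn q.1, q.2) - μ + ε / 2) *
        ∑ m ∈ MS' (Real.exp (l / 20)) (Real.exp (l + R)), (1 / (nm m : ℝ))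
      ≤ X ^ (T5 (7 / 8 + d) (dn q.1, q.2) - μ + ε / 2) * X ^ (ε / 2) := by gcongr
    _ = X ^ (T5 (7 / 8 + d) (dn q.1, q.2) - μ + ε) := by
        rw [← Real.rpow_add hX0]; congr 1; ring

end Crest.Agent.R017.TU47
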