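import Crest.Agent.R017.TUH_47
import Crest.Agent.R017.E5Mb_372

/-!
# Row 17, R8: `TailU`, the two-lump side at a fixed cube (helper47)

* `GG_cube`, `NP2_cube` : the values and the set of `k` at `k m³`
* `uside` : the second moment at fixed `m` is at most `Rc` of the twisted list
* `split` : greedy splitting of a granular list
-/

set_option autoImplicit false

noncomputable section

open Complex Finset
open scoped ComplexConjugate

namespace Crest.Agent.R017.TU47

open Crest.Agent.R012 Crest.Agent.R012.Eis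
open Crest.Agent.R012.LS2 (bl mem_bl)
open Crest.Agent.R012.Mob705 hiding pb mem_pb
open Crest.Agent.R017.CM106 Crest.Agent.R017.FE47
open Crest.Agent.R017.End699 (prin0 NP)
open Crest.Agent.R017.C70 (CbF)
open Crest.Agent.R017.XG702 (Pcs)
open Crest.Agent.R017.HP842 (Pc pc)
open Crest.Agent.R017.B770 Crest.Agent.R017.Prov71
open Crest.Agent.R017.E5B71 Crest.Agent.R017.E5M372

lemma CS_cube {b : Eis → ℂ} (hb : ∀ n, b n ≠ 0 → IsPrim n) (k m : Eis) :
    CS b (k * m ^ 3) = CS (fun n => b n * prin0 m n) k := by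
  unfold CS
  refine tsum_congr fun n => ?_
  by_cases h0 : b n = 0
  · simp [h0]
  · rw [Lbc298.sy_mul_cube' (hb n h0)]
    ring

lemma pc_prim' {h : ℝ → ℝ} {s : Pc} {n : Eis} (hn : pc h s n ≠ 0) : IsPrim n := by
  by_contra h0
  apply hn
  unfold HP842.pc
  rw [if_neg h0]

/-- the values at `k m³` -/
lemma GG_cube (P : DPar) (h : ℝ → ℝ) {m : Eis} (hm : m ≠ 0) (k : Eis) (p : Pq) :
    GG P h (k * m ^ 3) p = GG P h k (p.tw m) := by
  unfold GG
  rw [CS_cube (fun n hn => pc_prim' hn)]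
  congr 2
  funext b
  rw [pc_tw P h hm]

lemma NP_cube {n k m : Eis} {χ χ' : Eis → ℂ} {l : ℤ}
    (hχ : ∀ a, IsPrim a → IsCoprime a (k * m ^ 3) → χ a = χ' a)
    (h : NP (n * (9 * (k * m ^ 3))) χ l) : NP (n * (9 * k)) χ' l := by
  rcases h with h | ⟨a, ha, hc, hne⟩
  · exact Or.inl h
  · refine Or.inr ⟨a, ha, ?_, ?_⟩
    · refine hc.of_isCoprime_of_dvd_right ?_
      exact mul_dvd_mul_left n (mul_dvd_mul_left 9 (dvd_mul_right _ _))
    · have h1 : IsCoprime a (k * m ^ 3) :=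
        (IsCoprime.of_mul_right_right (IsCoprime.of_mul_right_right hc))
      rw [← hχ a ha h1]
      exact hne

lemma sy_cube {k m a : Eis} (ha : IsPrim a) (hc : IsCoprime a (k * m ^ 3)) :
    sy (k * m ^ 3) a = sy k a := by
  classical
  rw [Lbc298.sy_mul_cube' ha]
  have h1 : IsCoprime a m :=
    (IsCoprime.of_mul_right_right hc).of_isCoprime_of_dvd_right (dvd_pow_self m (by norm_num))
  unfold prin0
  rw [if_pos h1, one_mul]

lemma NP2_cube (P : DPar) {k m : Eis} (h : P.NP2 (k * m ^ 3)) : P.NP2 k := by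
  refine ⟨NP_cube (fun a ha hc => ?_) h.1, NP_cube (fun a ha hc => ?_) h.2⟩
  · rw [sy_cube ha hc]
  · rw [sy_cube ha hc]

lemma prod_cube (P : DPar) (h : ℝ → ℝ) {m : Eis} (hm : m ≠ 0) (k : Eis) (ps : List Pq) :
    (ps.map (GG P h (k * m ^ 3))).prod = ((ps.map (Pq.tw m)).map (GG P h k)).prod := by
  rw [List.map_map]
  congr 1
  exact List.map_congr_left fun p _ => GG_cube P h hm k p

open Classical in
/-- **second moment of a list at fixed `m`** -/
theorem uside (P : DPar) (h : ℝ → ℝ) {n t m : Eis} (ht : t ≠ 0) (hm : m ≠ 0) {L Y : ℝ}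
    (hY : 0 < Y) (ps : List Pq) :
    ∑ k ∈ (KS n L Y m).filter (fun k => P.NP2 (t * k)),
        ((ps.map (GG P h (t * (k * m ^ 3)))).prod) ^ 2 ≤
      Rc P h (Real.log Y - 3 * Real.log (nm m) + Real.log (nm t)) (ps.map (Pq.tw m)) := by
  have hm0 : (0 : ℝ) < nm m := by exact_mod_cast nm_pos.2 hm
  have ht0 : (0 : ℝ) < nm t := by exact_mod_cast nm_pos.2 ht
  have hinj : Set.InjOn (fun k : Eis => t * k)
      ((KS n L Y m).filter (fun k => P.NP2 (t * k)) : Set Eis) :=
    fun a _ b _ h => mul_left_cancel₀ ht h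
  have e0 : ∀ k, (ps.map (GG P h (t * (k * m ^ 3)))).prod =
      ((ps.map (Pq.tw m)).map (GG P h (t * k))).prod := fun k => by
    rw [← mul_assoc, prod_cube P h hm]
  simp only [e0]
  have e1 := Finset.sum_image (f := fun k => (((ps.map (Pq.tw m)).map (GG P h k)).prod) ^ 2) hinj
  rw [← e1]
  unfold Rc RQ
  have e2 : ∀ k, (((ps.map (Pq.tw m)).map (GG P h k)).prod) ^ 2 =
      (((ps.map (Pq.tw m)).map (Pq.pc P)).map fun p => ‖CS (pc h p) k‖ ^ 2).prod :=
    fun k => sq_prod P k _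
  simp only [e2]
  refine Finset.sum_le_sum_of_subset_of_nonneg ?_ fun k _ _ => List.prod_nonneg ?_
  · intro x hx
    obtain ⟨k, hk, rfl⟩ := Finset.mem_image.1 hx
    rw [Finset.mem_filter] at hk
    obtain ⟨hk1, hk2⟩ := hk
    unfold KS at hk1
    rw [Finset.mem_filter, mem_primBall] at hk1
    obtain ⟨⟨h1, h2⟩, -⟩ := hk1
    rw [Finset.mem_filter, mem_bl (Real.exp_pos _).le]
    refine ⟨⟨mul_ne_zero ht h2.ne_zero, ?_⟩, hk2⟩
    have h3 : (nm k : ℝ) ≤ Y / (nm m : ℝ) ^ 3 :=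
      (Nat.cast_le.2 h1).trans (Nat.floor_le (by positivity))
    have e4 : Real.exp (Real.log Y - 3 * Real.log (nm m) + Real.log (nm t)) =
        Y / (nm m : ℝ) ^ 3 * nm t := by
      rw [Real.exp_add, Real.exp_sub, Real.exp_log hY, Real.exp_log ht0]
      congr 2
      rw [show (3 : ℝ) * Real.log (nm m) = Real.log (nm m) * (3 : ℕ) by push_cast; ring,
        Real.exp_mul, Real.exp_log hm0, Real.rpow_natCast]
    rw [e4, nm_mul]
    push_cast
    rw [mul_comm]
    exact mul_le_mul_of_nonneg_right h3 ht0.le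
  · intro a ha
    obtain ⟨p, _, rfl⟩ := List.mem_map.1 ha
    positivity

/-- **greedy splitting** -/
lemma split {f : Pq → ℝ} {δ : ℝ} (hδ : 0 ≤ δ) (ps : List Pq) (h0 : ∀ p ∈ ps, 0 ≤ f p)
    (h1 : ∀ p ∈ ps, f p ≤ δ) {b : ℝ} (hb : 0 ≤ b) (hb1 : b ≤ (ps.map f).sum) :
    ∃ p₁ p₂ : List Pq, ps = p₁ ++ p₂ ∧ (p₁.map f).sum ≤ b ∧ b ≤ (p₁.map f).sum + δ := by
  induction ps generalizing b with
  | nil =>
    refine ⟨[], [], rfl, ?_, ?_⟩ <;> simp at hb1 ⊢ <;> linarith
  | cons p ps ih =>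
    by_cases hp : f p ≤ b
    · obtain ⟨p₁, p₂, e, h2, h3⟩ := ih (fun q hq => h0 q (List.mem_cons_of_mem _ hq))
        (fun q hq => h1 q (List.mem_cons_of_mem _ hq)) (b := b - f p) (by linarith)
        (by rw [List.map_cons, List.sum_cons] at hb1; linarith)
      refine ⟨p :: p₁, p₂, by rw [e, List.cons_append], ?_, ?_⟩ <;>
        rw [List.map_cons, List.sum_cons] <;> linarith
    · refine ⟨[], p :: ps, rfl, ?_, ?_⟩
      · simpa using hb
      · have := h1 p List.mem_cons_self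
        simp only [List.map_nil, List.sum_nil, zero_add]
        linarith [not_le.1 hp]

end Crest.Agent.R017.TU47
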