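import Crest.Agent.R017.YV_61
import Crest.Agent.R017.Pad_911
import Crest.Agent.R017.XCub_71

/-!
# Row 17, R8: `TailU`, the second side at the actual configuration (helper61)

* `ers` : `EA d κ M 0 c ≤ e0' d κ c + 2 M`, `e0' d k y = k + y + 3/4 max 0 (y - 2/3 k) + 2 d y`
* `uside` : `{u₁,u₂} + ps`, twisted by `m`: `Rc .. ≤ H ^ M₀ X ^ (EA + ε)`
* `aside` : the amplifier alone, twisted by `m`: `Rc .. ≤ H ^ M₀ X ^ (e0' + ε)`
* `split` : a list of short pieces cut at a prescribed mass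
* `sum_le_Rc` : sums over `k m³` by `Rc` of the twisted list
-/

set_option autoImplicit false

noncomputable section

open Set

namespace Crest.Agent.R017.TU61

open Crest.Agent.R012 Crest.Agent.R012.Eis
open Crest.Agent.R012.LS2 (bl mem_bl)
open Crest.Agent.R017.FE47
open Crest.Agent.R017.CM106
open Crest.Agent.R017.XG702 (Pcs BG)
open Crest.Agent.R017.XT71 (Sys Win)
open Crest.Agent.R017.E5B71 (UB)
open Crest.Agent.R017.Prov71
open Crest.Agent.R017.B770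
open Crest.Agent.R017.End699 Crest.Agent.R017.Sup271
open Crest.Agent.R017.ER911 Crest.Agent.R017.SC777 Crest.Agent.R017.ExpC702
open Crest.Agent.R017.HP842 (Pc pc)
open Crest.Agent.R017.Rough381 (Ls)
open Crest.Agent.R017.UBR61 Crest.Agent.R017.YM61 Crest.Agent.R017.YP61 Crest.Agent.R017.YU61
open Crest.Agent.R017.UBT973 Crest.Agent.R017.YV61

/-! ### the amplifier alone -/

/-- exponent of the amplifier alone -/
def e0' (d k y : ℝ) : ℝ := k + y + 3 / 4 * max 0 (y - 2 / 3 * k) + 2 * d * y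

lemma EA_le_e0 {d κ M c : ℝ} (hκ : 0 ≤ κ) (hM : 0 ≤ M) :
    EA d κ M 0 c ≤ e0' d κ c + 2 * M := by
  have h1 : 2 / 3 * κ - 7 / 9 * M ≤ min (7 / 9 * max 0 (κ - M)) (max 0 (2 / 3 * κ - M / 3)) := by
    refine le_min ?_ ?_
    · have := le_max_right 0 (κ - M); linarith
    · have := le_max_right 0 (2 / 3 * κ - M / 3); linarith
  have h2 : YM61.eC κ M c ≤ max 0 (c - 2 / 3 * κ) + 7 / 9 * M := by
    unfold YM61.eC
    refine max_le (by have := le_max_left 0 (c - 2 / 3 * κ); linarith) ?_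
    have := le_max_right 0 (c - 2 / 3 * κ)
    linarith
  unfold EA e0'
  linarith

/-! ### twisted lists -/

lemma tw_nl (X : ℝ) {m : Eis} (hm : m ≠ 0) (p : Pq) : Dq.nl X (p.tw m) = Dq.nl X p := by
  unfold Pcs.nl
  rw [tws_tw.len m p hm]

lemma tw_z {m : Eis} (hm : m ≠ 0) (p : Pq) : (p.tw m).z = p.z := by
  rw [Pq.tw_eq hm]

lemma tw_t {m : Eis} (hm : m ≠ 0) (p : Pq) : (p.tw m).t = p.t := by
  rw [Pq.tw_eq hm]

lemma tw_kd {m : Eis} (hm : m ≠ 0) (p : Pq) : (p.tw m).kd = p.kd := by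
  rw [Pq.tw_eq hm]

lemma tw_nmd {m : Eis} (hm : m ≠ 0) (p : Pq) : (nm (p.tw m).d : ℝ) = nm p.d * nm m := by
  rw [Pq.tw_eq hm]
  simp only [nm_mul]
  push_cast; ring

lemma sy_cube {k m a : Eis} (ha : IsPrim a) : sy (k * m ^ 3) a = sy k a * prin0 m a := by
  rw [Lbc298.sy_mul_cube' ha, mul_comm]

lemma tw_one (p : Pq) : p.tw 1 = p := by
  rw [Pq.tw_eq one_ne_zero]
  cases p
  simp

lemma map_tw_one (ps : List Pq) : ps.map (Pq.tw 1) = ps := by
  conv_rhs => rw [← List.map_id ps]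
  exact List.map_congr_left fun p _ => tw_one p

lemma CS_cube {h : ℝ → ℝ} {P : DPar} (k : Eis) {m : Eis} (hm : m ≠ 0) (p : Pq) :
    CS (pc h (p.pc P)) (k * m ^ 3) = CS (pc h ((p.tw m).pc P)) k := by
  classical
  unfold CS
  refine tsum_congr fun b => ?_
  rw [pc_tw P h hm p b]
  by_cases hb : IsPrim b
  · rw [sy_cube hb]; ring
  · have : pc h (p.pc P) b = 0 := by
      unfold HP842.pc
      rw [if_neg hb]
    rw [this]; ring

/-- **sums over `k m³`** -/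
theorem sum_le_Rc {h : ℝ → ℝ} {P : DPar} {m : Eis} (hm : m ≠ 0) {A : Finset Eis} {l : ℝ}
    (hA : ∀ k ∈ A, k ≠ 0 ∧ (nm k : ℝ) ≤ Real.exp l ∧ P.NP2 k) (ps : List Pq) :
    ∑ k ∈ A, (ps.map fun p => ‖CS (pc h (p.pc P)) (k * m ^ 3)‖ ^ 2).prod ≤
      Rc P h l (ps.map (Pq.tw m)) := by
  classical
  unfold Rc RQ
  calc ∑ k ∈ A, (ps.map fun p => ‖CS (pc h (p.pc P)) (k * m ^ 3)‖ ^ 2).prod
      = ∑ k ∈ A, (((ps.map (Pq.tw m)).map (Pq.pc P)).map fun p => ‖CS (pc h p) k‖ ^ 2).prod := by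
        refine Finset.sum_congr rfl fun k _ => ?_
        rw [List.map_map, List.map_map]
        congr 1
        refine List.map_congr_left fun p _ => ?_
        simp only [Function.comp]
        rw [CS_cube k hm p]
    _ ≤ _ := by
        refine Finset.sum_le_sum_of_subset_of_nonneg ?_ fun k _ _ => List.prod_nonneg ?_
        · intro k hk
          obtain ⟨h1, h2, h3⟩ := hA k hk
          rw [Finset.mem_filter, mem_bl (Real.exp_pos _).le]
          exact ⟨⟨h1, h2⟩, h3⟩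
        · intro x hx
          obtain ⟨q, _, rfl⟩ := List.mem_map.1 hx
          positivity

/-- **sixth powers over `k m³`** : the list three times -/
theorem sum6_le_Rc {h : ℝ → ℝ} {P : DPar} {m : Eis} (hm : m ≠ 0) {A : Finset Eis} {l : ℝ}
    (hA : ∀ k ∈ A, k ≠ 0 ∧ (nm k : ℝ) ≤ Real.exp l ∧ P.NP2 k) (ps : List Pq) :
    ∑ k ∈ A, ((ps.map fun p => ‖CS (pc h (p.pc P)) (k * m ^ 3)‖).prod) ^ 6 ≤
      Rc P h l ((ps ++ ps ++ ps).map (Pq.tw m)) := by
  refine le_trans (le_of_eq ?_) (sum_le_Rc hm hA (ps ++ ps ++ ps))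
  refine Finset.sum_congr rfl fun k _ => ?_
  have e : (ps.map fun p => ‖CS (pc h (p.pc P)) (k * m ^ 3)‖ ^ 2).prod =
      ((ps.map fun p => ‖CS (pc h (p.pc P)) (k * m ^ 3)‖).prod) ^ 2 := by
    induction ps with
    | nil => simp
    | cons a ps ih => rw [List.map_cons, List.prod_cons, List.map_cons, List.prod_cons, ih]; ring
  rw [List.map_append, List.map_append, List.prod_append, List.prod_append, e]
  ring

/-- **squares over `k m³`** -/
theorem sum2_le_Rc {h : ℝ → ℝ} {P : DPar} {m : Eis} (hm : m ≠ 0) {A : Finset Eis} {l : ℝ}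
    (hA : ∀ k ∈ A, k ≠ 0 ∧ (nm k : ℝ) ≤ Real.exp l ∧ P.NP2 k) (ps : List Pq) :
    ∑ k ∈ A, ((ps.map fun p => ‖CS (pc h (p.pc P)) (k * m ^ 3)‖).prod) ^ 2 ≤
      Rc P h l (ps.map (Pq.tw m)) := by
  refine le_trans (le_of_eq ?_) (sum_le_Rc hm hA ps)
  refine Finset.sum_congr rfl fun k _ => ?_
  induction ps with
  | nil => simp
  | cons a ps ih => rw [List.map_cons, List.prod_cons, List.map_cons, List.prod_cons, ← ih]; ring

lemma RQ_mono_l (Q : Eis → Prop) (h : ℝ → ℝ) {l l' : ℝ} (hl : l ≤ l') (ps : List Pc) :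
    RQ Q h l ps ≤ RQ Q h l' ps := by
  classical
  have hb : bl (Real.exp l) ⊆ bl (Real.exp l') := by
    intro k hk
    rw [mem_bl (Real.exp_pos _).le] at hk ⊢
    exact ⟨hk.1, hk.2.trans (Real.exp_le_exp.2 hl)⟩
  unfold RQ
  refine Finset.sum_le_sum_of_subset_of_nonneg (Finset.filter_subset_filter _ hb) fun k _ _ => ?_
  refine List.prod_nonneg ?_
  intro a ha
  obtain ⟨p, _, rfl⟩ := List.mem_map.1 ha
  positivity

section
variable {Λ : Type*} {π : Λ → DPar} {h : ℝ → ℝ} {d : ℝ} {r s : EF}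
variable {c₀ : ℝ} (hpu : PU h c₀) (hP : ∀ lam, (π lam).OK) (c : Λ → ℝ)
  (R : ExpRules (7 / 8 + d) r s) (C : ExpC r (ex Dq (fun lam => Rc (π lam) h)))

include hpu hP R C

/-- **two marked lumps and a list, twisted by `m`, at the actual configuration** -/
theorem uside (hd : 0 ≤ d) {K : ℝ} (hK : 0 ≤ K) {ε : ℝ} (hε : 0 < ε) :
    ∃ σ : ℝ, 0 < σ ∧ ∀ (lam : Λ) (N : ℕ) (B : ℝ), ∃ (M₀ : ℕ) (X₀ : ℝ), 1 < X₀ ∧
    ∀ X : ℝ, X₀ ≤ X → ∀ (l : ℝ) (u₁ u₂ : Pq) (ps : List Pq) (m : Eis), m ≠ 0 →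
      (nm m : ℝ) ≤ X ^ B → l ≤ K * Real.log X →
      Dq.lump u₁ → Dq.lump u₂ → 0 ≤ u₁.z → 0 ≤ u₂.z → u₁.z ≤ K * Real.log X →
      u₂.z ≤ K * Real.log X → (nm u₁.d : ℝ) ≤ X ^ B → (nm u₂.d : ℝ) ≤ X ^ B →
      ps.length ≤ N → (∀ p ∈ ps, Dq.lump p ∨ Dq.nl X p ≤ σ) →
      (∀ p ∈ ps, 0 ≤ p.z ∧ (nm p.d : ℝ) ≤ X ^ B) → (∀ t, Dq.mass X ps t ≤ K) →
      ∀ H : ℝ, 1 + |u₁.t| ≤ H → 1 + |u₂.t| ≤ H → (∀ p ∈ ps, 1 + |p.t| ≤ H) →
        Rc (π lam) h (l + c lam) ((u₁ :: u₂ :: ps).map (Pq.tw m)) ≤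
          H ^ M₀ * X ^ (EA d (max 0 (l / Real.log X)) ((u₁.z + u₂.z) / Real.log X)
            (Dq.mass X ps .mo) (Dq.mass X ps .am) + ε) := by
  have uA := ubs_ym hpu hP c (cont_fA K) (compact_fA K) (fA_sub K)
    (by unfold EA YM61.eC; fun_prop) (ymA hpu hP c R C hd K)
  rw [UBs_iff] at uA
  obtain ⟨σ, hσ, V⟩ := uA ε hε
  refine ⟨σ, hσ, fun lam N B => ?_⟩
  obtain ⟨M₀, X₀, hX₀, W⟩ := V lam N (B + B)
  refine ⟨M₀, X₀, hX₀, ?_⟩
  intro X hX l u₁ u₂ ps m hm hmB hlK hu₁ hu₂ hz₁ hz₂ hK₁ hK₂ hd₁ hd₂ hlen hgr hps hmass H ht₁ ht₂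
    htp
  have hX1 : 1 < X := by linarith
  have hX0 : 0 < X := by linarith
  have hlog : 0 < Real.log X := Real.log_pos hX1
  set l' : ℝ := max 0 l with hl'
  have hl'0 : 0 ≤ l' := le_max_left _ _
  have hev0 : l' / Real.log X = max 0 (l / Real.log X) := by
    rw [hl', ← max_div_div_right hlog.le, zero_div]
  have hdd : ∀ {p : Pq}, (nm p.d : ℝ) ≤ X ^ B → (nm (p.tw m).d : ℝ) ≤ X ^ (B + B) := by
    intro p hp
    rw [tw_nmd hm, Real.rpow_add hX0]
    exact mul_le_mul hp hmB (Nat.cast_nonneg _) (Real.rpow_nonneg hX0.le _)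
  have hnl : ∀ p ∈ ps, 0 ≤ Dq.nl X p := fun p hp => div_nonneg (hps p hp).1 hlog.le
  have hms : ∀ t, Dq.mass X (ps.map (Pq.tw m)) t = Dq.mass X ps t :=
    fun t => tws_tw.mass hm X ps t
  have c0 : S2.ev X ⟨l', u₁.tw m, u₂.tw m⟩ 0 = l' / Real.log X := rfl
  have c1 : S2.ev X ⟨l', u₁.tw m, u₂.tw m⟩ 1 = u₁.z / Real.log X := by
    show (u₁.tw m).z / Real.log X = _
    rw [tw_z hm]
  have c2 : S2.ev X ⟨l', u₁.tw m, u₂.tw m⟩ 2 = u₂.z / Real.log X := by
    show (u₂.tw m).z / Real.log X = _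
    rw [tw_z hm]
  have hfA : fA K (S2.ev X ⟨l', u₁.tw m, u₂.tw m⟩, Dq.mass X (ps.map (Pq.tw m))) ≤ σ := by
    refine le_trans ?_ hσ.le
    rw [fA_le]
    refine ⟨fun i => ?_, fun t => ?_⟩
    · fin_cases i
      · show -0 ≤ S2.ev X ⟨l', u₁.tw m, u₂.tw m⟩ 0 ∧ S2.ev X ⟨l', u₁.tw m, u₂.tw m⟩ 0 ≤ K + 0
        rw [c0]
        have : l' / Real.log X ≤ K := by
          rw [div_le_iff₀ hlog]
          exact max_le (by positivity) hlK
        have := div_nonneg hl'0 hlog.le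
        constructor <;> linarith
      · show -0 ≤ S2.ev X ⟨l', u₁.tw m, u₂.tw m⟩ 1 ∧ S2.ev X ⟨l', u₁.tw m, u₂.tw m⟩ 1 ≤ K + 0
        rw [c1]
        have := (div_le_iff₀ hlog).2 hK₁
        have := div_nonneg hz₁ hlog.le
        constructor <;> linarith
      · show -0 ≤ S2.ev X ⟨l', u₁.tw m, u₂.tw m⟩ 2 ∧ S2.ev X ⟨l', u₁.tw m, u₂.tw m⟩ 2 ≤ K + 0
        rw [c2]
        have := (div_le_iff₀ hlog).2 hK₂
        have := div_nonneg hz₂ hlog.le
        constructor <;> linarith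
    · show -0 ≤ Dq.mass X (ps.map (Pq.tw m)) t ∧ Dq.mass X (ps.map (Pq.tw m)) t ≤ K + 0
      rw [hms]
      have := hmass t
      have := XG702.mass_nonneg (D := Dq) hnl t
      constructor <;> linarith
  have hok : Y2.ok ⟨l', u₁.tw m, u₂.tw m⟩ :=
    ⟨⟨tws_tw.lump m u₁ hm hu₁, by rw [tw_z hm]; exact hz₁⟩,
      ⟨tws_tw.lump m u₂ hm hu₂, by rw [tw_z hm]; exact hz₂⟩⟩
  have hH1 : 1 ≤ H := le_trans (by linarith [abs_nonneg u₁.t]) ht₁
  have key := W X hX ⟨l', u₁.tw m, u₂.tw m⟩ (ps.map (Pq.tw m))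
    ⟨by rw [List.length_map]; exact hlen,
      by
        intro p hp
        obtain ⟨p', hp', rfl⟩ := List.mem_map.1 hp
        exact (hgr p' hp').imp (fun h' => tws_tw.lump m p' hm h') fun h' => by
          rw [tw_nl X hm]; exact h',
      Real.one_le_rpow hX1.le hσ.le, Nat.zero_le _,
      max_le (hdd hd₁) (hdd hd₂),
      by
        intro p hp
        obtain ⟨p', hp', rfl⟩ := List.mem_map.1 hp
        refine ⟨hdd (hps p' hp').2, ?_⟩
        rw [tws_tw.len m p' hm]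
        exact (hps p' hp').1,
      hfA, fun _ _ _ => trivial⟩ H hH1
    (max_le (by
      show 1 + |(u₁.tw m).t| ≤ H
      rw [tw_t hm]; exact ht₁) (by
      show 1 + |(u₂.tw m).t| ≤ H
      rw [tw_t hm]; exact ht₂))
    (by
      intro p hp
      obtain ⟨p', hp', rfl⟩ := List.mem_map.1 hp
      rw [tws_tw.s1 m p' hm]
      exact htp p' hp')
  dsimp only at key
  rw [c0, c1, c2, hms, hms, hev0, ← add_div] at key
  refine le_trans ?_ key
  unfold YMFs mkF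
  rw [if_pos hok]
  exact RQ_mono_l _ h (by have := le_max_right 0 l; show l + c lam ≤ l' + c lam; linarith) _

/-- **the amplifier alone, twisted by `m`, at the actual configuration** -/
theorem aside (hd : 0 ≤ d) {K : ℝ} (hK : 0 ≤ K) {ε : ℝ} (hε : 0 < ε) :
    ∃ σ : ℝ, 0 < σ ∧ ∀ (lam : Λ) (N : ℕ) (B : ℝ), ∃ (M₀ : ℕ) (X₀ : ℝ), 1 < X₀ ∧
    ∀ X : ℝ, X₀ ≤ X → ∀ (l : ℝ) (ps : List Pq) (m : Eis), m ≠ 0 →
      (nm m : ℝ) ≤ X ^ B → l ≤ K * Real.log X →
      ps.length ≤ N → (∀ p ∈ ps, p.kd = .am) → (∀ p ∈ ps, Dq.nl X p ≤ σ) →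
      (∀ p ∈ ps, 0 ≤ p.z ∧ (nm p.d : ℝ) ≤ X ^ B) → Dq.mass X ps .am ≤ K →
      ∀ H : ℝ, 1 ≤ H → (∀ p ∈ ps, 1 + |p.t| ≤ H) →
        Rc (π lam) h (l + c lam) (ps.map (Pq.tw m)) ≤
          H ^ M₀ * X ^ (e0' d (max 0 (l / Real.log X)) (Dq.mass X ps .am) + ε) := by
  obtain ⟨p₀, C₁, hp₀, hs₀, hz₀, hC₁, hpad⟩ := padd_Rc hP hpu
  obtain ⟨σ, hσ, V⟩ := uside hpu hP c R C hd (K := K + 1) (by linarith) (ε := ε / 4) (by linarith)
  refine ⟨σ, hσ, fun lam N B => ?_⟩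
  obtain ⟨M₀, X₀, hX₀, W⟩ := V lam N (max (B + B) 1)
  set T : ℝ := (Dq.len p₀ + 1) * (1 + 8 / ε) with hT
  have hT0 : 0 < T := by positivity
  set X₁ : ℝ := max (Real.exp T) (max (nm p₀.d) ((C₁ ^ 2 + 1) ^ (4 / ε))) with hX₁
  refine ⟨M₀, max (max X₀ 2) X₁, lt_of_lt_of_le hX₀ ((le_max_left _ _).trans (le_max_left _ _)),
    ?_⟩
  intro X hX l ps m hm hmB hlK hlen hkd hgr hps hmass H hH htp
  have hXX₀ : X₀ ≤ X := ((le_max_left _ _).trans (le_max_left _ _)).trans hX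
  have hX1 : 1 < X := by linarith
  have hX0 : 0 < X := by linarith
  have hlog : 0 < Real.log X := Real.log_pos hX1
  have hXT : T ≤ Real.log X := by
    rw [← Real.log_exp T]
    exact Real.log_le_log (Real.exp_pos _)
      (((le_max_left _ _).trans (le_max_right _ _)).trans hX)
  have hXd : (nm p₀.d : ℝ) ≤ X :=
    (((le_max_left _ _).trans (le_max_right _ _)).trans (le_max_right _ _)).trans hX
  have hXC : C₁ ^ 2 + 1 ≤ X ^ (ε / 4) := by
    have h1 : (C₁ ^ 2 + 1) ^ (4 / ε) ≤ X :=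
      (((le_max_right _ _).trans (le_max_right _ _)).trans (le_max_right _ _)).trans hX
    have h2 : ((C₁ ^ 2 + 1) ^ (4 / ε)) ^ (ε / 4) ≤ X ^ (ε / 4) :=
      Real.rpow_le_rpow (by positivity) h1 (by positivity)
    rw [← Real.rpow_mul (by positivity)] at h2
    have e1 : 4 / ε * (ε / 4) = 1 := by field_simp
    rwa [e1, Real.rpow_one] at h2
  have hlen0 : 0 ≤ p₀.z := hz₀
  have hp0K : p₀.z ≤ ε / 8 * Real.log X ∧ p₀.z ≤ (K + 1) * Real.log X := by
    have e1 : p₀.z = Dq.len p₀ := rfl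
    have h1 : (p₀.z + 1) * (1 + 8 / ε) ≤ Real.log X := hXT
    have h8 : 0 < 8 / ε := by positivity
    have h2 : p₀.z * (8 / ε) ≤ Real.log X := by nlinarith
    have h3 : p₀.z ≤ Real.log X := by nlinarith
    constructor
    · have h4 := mul_le_mul_of_nonneg_left h2 (show 0 ≤ ε / 8 by positivity)
      calc p₀.z = ε / 8 * (p₀.z * (8 / ε)) := by field_simp
        _ ≤ _ := h4
    · nlinarith
  have hmo : Dq.mass X ps .mo = 0 := by
    rw [mass_kd hkd, if_neg (by simp)]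
  have hdp₀ : (nm p₀.d : ℝ) ≤ X ^ (max (B + B) 1) := by
    refine hXd.trans ?_
    conv_lhs => rw [← Real.rpow_one X]
    exact Real.rpow_le_rpow_of_exponent_le hX1.le (le_max_right _ _)
  have hm1 : (nm (1 : Eis) : ℝ) ≤ X ^ (max (B + B) 1) := by
    rw [nm_one, Nat.cast_one]
    exact Real.one_le_rpow hX1.le (zero_le_one.trans (le_max_right _ _))
  have ht₀ : 1 + |p₀.t| ≤ H := le_trans hs₀ hH
  have hms : ∀ t, Dq.mass X (ps.map (Pq.tw m)) t = Dq.mass X ps t :=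
    fun t => tws_tw.mass hm X ps t
  have key := W X hXX₀ l p₀ p₀ (ps.map (Pq.tw m)) 1 one_ne_zero hm1 (by nlinarith) hp₀ hp₀ hlen0
    hlen0 hp0K.2 hp0K.2 hdp₀ hdp₀ (by rw [List.length_map]; exact hlen)
    (by
      intro p hp
      obtain ⟨p', hp', rfl⟩ := List.mem_map.1 hp
      right
      rw [tw_nl X hm]
      exact hgr p' hp')
    (by
      intro p hp
      obtain ⟨p', hp', rfl⟩ := List.mem_map.1 hp
      rw [tw_z hm, tw_nmd hm]
      refine ⟨(hps p' hp').1, ?_⟩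
      have h1 : (nm p'.d : ℝ) * nm m ≤ X ^ (B + B) := by
        rw [Real.rpow_add hX0]
        exact mul_le_mul (hps p' hp').2 hmB (Nat.cast_nonneg _) (Real.rpow_nonneg hX0.le _)
      exact h1.trans (Real.rpow_le_rpow_of_exponent_le hX1.le (le_max_left _ _)))
    (fun t => by
      rw [hms]
      cases t
      · rw [hmo]; linarith
      · linarith) H ht₀ ht₀
    (by
      intro p hp
      obtain ⟨p', hp', rfl⟩ := List.mem_map.1 hp
      rw [tw_t hm]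
      exact htp p' hp')
  rw [map_tw_one, hms, hms, hmo] at key
  set qs := ps.map (Pq.tw m) with hqs
  have e1 : Rc (π lam) h (l + c lam) qs ≤
      C₁ ^ 2 * Rc (π lam) h (l + c lam) (p₀ :: p₀ :: qs) := by
    have h1 := hpad lam (l + c lam) qs
    have h2 := hpad lam (l + c lam) (p₀ :: qs)
    calc Rc (π lam) h (l + c lam) qs ≤ C₁ * Rc (π lam) h (l + c lam) (p₀ :: qs) := h1
      _ ≤ C₁ * (C₁ * Rc (π lam) h (l + c lam) (p₀ :: p₀ :: qs)) :=
          mul_le_mul_of_nonneg_left h2 hC₁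
      _ = _ := by ring
  have hκ0 : 0 ≤ max 0 (l / Real.log X) := le_max_left _ _
  have hM0 : 0 ≤ (p₀.z + p₀.z) / Real.log X := div_nonneg (by linarith) hlog.le
  have e2 := EA_le_e0 (d := d) (c := Dq.mass X ps .am) hκ0 hM0
  have e3 : (p₀.z + p₀.z) / Real.log X ≤ ε / 4 := by
    rw [div_le_iff₀ hlog]
    linarith [hp0K.1]
  have hHM : 0 ≤ H ^ M₀ := by positivity
  calc Rc (π lam) h (l + c lam) qs
      ≤ C₁ ^ 2 * (H ^ M₀ * X ^ (EA d (max 0 (l / Real.log X)) ((p₀.z + p₀.z) / Real.log X) 0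
        (Dq.mass X ps .am) + ε / 4)) := e1.trans (mul_le_mul_of_nonneg_left key (sq_nonneg _))
    _ ≤ X ^ (ε / 4) * (H ^ M₀ * X ^ (e0' d (max 0 (l / Real.log X)) (Dq.mass X ps .am) +
        3 * ε / 4)) := by
        refine mul_le_mul (by linarith) ?_ (by positivity) (by positivity)
        refine mul_le_mul_of_nonneg_left ?_ hHM
        exact Real.rpow_le_rpow_of_exponent_le hX1.le (by linarith)
    _ = _ := by
        have e4 : X ^ (ε / 4) * (H ^ M₀ * X ^ (e0' d (max 0 (l / Real.log X))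
            (Dq.mass X ps .am) + 3 * ε / 4)) = H ^ M₀ * (X ^ (ε / 4) *
              X ^ (e0' d (max 0 (l / Real.log X)) (Dq.mass X ps .am) + 3 * ε / 4)) := by ring
        rw [e4, ← Real.rpow_add hX0]
        congr 2
        ring

end

/-! ### splitting a list at a prescribed mass -/

/-- **split** of a list of short pieces -/
theorem split {X δ : ℝ} (ps : List Pq) (h : ∀ p ∈ ps, Dq.nl X p ≤ δ) {b : ℝ} (hb : 0 ≤ b)
    (hδ : 0 ≤ δ) (hbs : b ≤ (ps.map (Dq.nl X)).sum) :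
    ∃ A₁ A₂ : List Pq, A₁ ++ A₂ = ps ∧ b ≤ (A₁.map (Dq.nl X)).sum ∧
      (A₁.map (Dq.nl X)).sum ≤ b + δ := by
  induction ps generalizing b with
  | nil => exact ⟨[], [], rfl, by simpa using hbs, by simpa using add_nonneg hb hδ⟩
  | cons a ps ih =>
    rw [List.map_cons, List.sum_cons] at hbs
    have ha := h a List.mem_cons_self
    rcases le_total b (Dq.nl X a) with h1 | h1
    · refine ⟨[a], ps, rfl, ?_, ?_⟩
      · simpa using h1
      · simp only [List.map_cons, List.map_nil, List.sum_cons, List.sum_nil, add_zero]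
        linarith
    · obtain ⟨A₁, A₂, h2, h3, h4⟩ := ih (fun p hp => h p (List.mem_cons_of_mem _ hp))
        (b := b - Dq.nl X a) (by linarith) (by linarith)
      refine ⟨a :: A₁, A₂, by rw [List.cons_append, h2], ?_, ?_⟩
      · rw [List.map_cons, List.sum_cons]; linarith
      · rw [List.map_cons, List.sum_cons]; linarith

end Crest.Agent.R017.TU61
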