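import Crest.Agent.R017.TPP9_320
import Crest.Agent.R017.GR3_106
import Crest.Agent.R017.TPPiece_320
import Crest.Agent.R017.TPF2_939
import Crest.Agent.R017.TPEc_411
import Crest.Agent.R017.TPD_813

/-!
# Row 17: the two-factor theorem, non-exceptional class: rule `poisG` (helper320)
-/

set_option autoImplicit false

noncomputable section

open Complex MeasureTheory
open scoped ComplexConjugate ContDiff

namespace Crest.Agent.R017.TW320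

open Crest.Agent.R012 Crest.Agent.R012.Eis Crest.Agent.R012.LS2 Crest.Agent.R012.Gauss880
open Crest.Agent.R012.Div277 Crest.Agent.R012.CR2
open Crest.Agent.R012.PSer47 Crest.Agent.R017.End699 Crest.Agent.R017.FE47
open Crest.Agent.R017.PA842 (V Supp)
open Crest.Agent.R017.Two939 (cfa V4 W2 T2)
open Crest.Agent.R017.TP320
open Crest.Agent.R017.CM106 (CS FS)

/-- the two-piece family -/
def W2F (h : ℝ → ℝ) (χ : Eis → ℂ) (l : ℤ) (μ : ℝ) : Fam ((ℝ × ℝ × ℝ) × (ℝ × ℝ × ℝ)) :=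
  (pc h χ l μ).mul (pc h χ l μ)

lemma W2F_ok {h : ℝ → ℝ} {c : ℝ} (hpu : PU h c) {Mo : Eis} {χ : Eis → ℂ} (hχ : HC Mo χ)
    (l : ℤ) {R : ℝ} (hR0 : 0 ≤ R) (hR : ∀ u, cx h u ≠ 0 → |u| ≤ R) {μ : ℝ} (hμ : 0 ≤ μ) :
    (W2F h χ l μ).Ok ((2 * R + 2) + (2 * R + 2) + 1) (μ + μ) :=
  mul_ok (pc_ok hpu hχ l hR0 hR hμ) (pc_ok hpu hχ l hR0 hR hμ)

lemma W2F_w (h : ℝ → ℝ) (χ : Eis → ℂ) (l : ℤ) (μ : ℝ) (j : (ℝ × ℝ × ℝ) × (ℝ × ℝ × ℝ)) :
    (W2F h χ l μ).w j = w2 h χ l (Real.exp j.1.1) (Real.exp j.2.1) (j.1.2.2 + j.1.2.1)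
      (j.2.2.2 + j.2.2.1) := rfl

lemma W2F_len (h : ℝ → ℝ) (χ : Eis → ℂ) (l : ℤ) (μ : ℝ) (j : (ℝ × ℝ × ℝ) × (ℝ × ℝ × ℝ)) :
    (W2F h χ l μ).len j = j.1.1 + j.2.1 := rfl

lemma W2F_ht (h : ℝ → ℝ) (χ : Eis → ℂ) (l : ℤ) (M : ℝ) (j : (ℝ × ℝ × ℝ) × (ℝ × ℝ × ℝ)) :
    ((W2F h χ l (M / 2)).ht j) ^ 2 = ((1 + |j.1.2.1|) * (1 + |j.2.2.1|)) ^ M := by
  have e : (W2F h χ l (M / 2)).ht j = (1 + |j.1.2.1|) ^ (M / 2) * (1 + |j.2.2.1|) ^ (M / 2) := rfl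
  rw [e, ← Real.mul_rpow (by positivity) (by positivity), ← Real.rpow_natCast,
    ← Real.rpow_mul (by positivity)]
  congr 1
  push_cast; ring

lemma VC_lt_one {K : ℝ} (hK0 : 0 ≤ K) (hK : K < 1) (α : Eis → ℂ) : VC K α = 0 := by
  unfold VC
  have : bl K = ∅ := by
    rw [Finset.eq_empty_iff_forall_notMem]
    intro k hk
    rw [mem_bl hK0] at hk
    have h1 : (1 : ℝ) ≤ nm k := by exact_mod_cast nm_pos.2 hk.1
    linarith [hk.2]
  rw [this, Finset.sum_empty]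

lemma VG_lt_one {K : ℝ} (hK0 : 0 ≤ K) (hK : K < 1) (α : Eis → ℂ) : VG K α = 0 := by
  unfold VG
  have : bl K = ∅ := by
    rw [Finset.eq_empty_iff_forall_notMem]
    intro k hk
    rw [mem_bl hK0] at hk
    have h1 : (1 : ℝ) ≤ nm k := by exact_mod_cast nm_pos.2 hk.1
    linarith [hk.2]
  rw [this, Finset.sum_empty]

/-- trivial bound on the Gauss side -/
lemma T2_triv {h : ℝ → ℝ} {c : ℝ} (hpu : PU h c) {Mo : Eis} {χ : Eis → ℂ} (hχ : HC Mo χ)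
    (l : ℤ) : ∃ C : ℝ, 0 < C ∧ ∀ L Y1 Y2 t1 t2 : ℝ, 1 ≤ L → 1 ≤ Y1 → 1 ≤ Y2 →
      T2 h χ l L Y1 Y2 t1 t2 ≤ C * (Y1 * Y2) ^ 3 := by
  obtain ⟨R, hR0, hR⟩ := exists_R (cs_cx hpu.cs)
  have hΦ := W2F_ok hpu hχ l hR0 hR (μ := 0) le_rfl
  set Rf : ℝ := (2 * R + 2) + (2 * R + 2) + 1 with hRf
  obtain ⟨Cb, hCb, hbd⟩ := hΦ.bd 1 one_pos
  refine ⟨16 * (16 * Cb * Real.exp Rf ^ 2) ^ 2, by positivity, fun L Y1 Y2 t1 t2 hL hY1 hY2 => ?_⟩
  have hL0 : 0 < L := by linarith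
  have h10 : 0 < Y1 := by linarith
  have h20 : 0 < Y2 := by linarith
  set j : (ℝ × ℝ × ℝ) × (ℝ × ℝ × ℝ) := ((Real.log Y1, 0, t1), (Real.log Y2, 0, t2)) with hj
  have hw : (W2F h χ l 0).w j = w2 h χ l Y1 Y2 t1 t2 := by
    rw [W2F_w]
    simp only [hj, Real.exp_log h10, Real.exp_log h20, add_zero]
  set X : ℝ := Real.exp ((W2F h χ l 0).len j + Rf) with hX
  have hXe : X = Real.exp Rf * (Y1 * Y2) := by
    rw [hX, W2F_len]
    simp only [hj]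
    rw [Real.exp_add, Real.exp_add, Real.exp_log h10, Real.exp_log h20]; ring
  have hX0 : 0 ≤ X := (Real.exp_pos _).le
  have hX1 : 1 ≤ X := by
    rw [hXe]
    have : 1 ≤ Real.exp Rf := Real.one_le_exp hΦ.R0
    have h3 : 1 ≤ Y1 * Y2 := by nlinarith
    nlinarith
  have hsupp : Supp (sq 1 (w2 h χ l Y1 Y2 t1 t2)) X := by
    rw [← hw]; exact supp_sq hΦ 1 j le_rfl
  have hT : ∀ k, ‖CM106.TG (sq 1 (w2 h χ l Y1 Y2 t1 t2)) k‖ ≤ 16 * Cb * X ^ 2 := by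
    intro k
    rw [TG_eq_sum' hsupp]
    calc ‖∑ n ∈ S X, sq 1 (w2 h χ l Y1 Y2 t1 t2) n * (G n * conj (sy k n))‖
        ≤ ∑ n ∈ S X, Cb * X := by
          refine (norm_sum_le _ _).trans (Finset.sum_le_sum fun n hn => ?_)
          have hn' := (mem_S hX0).1 hn
          rw [norm_mul, norm_mul, RCLike.norm_conj]
          have b1 : ‖sq 1 (w2 h χ l Y1 Y2 t1 t2) n‖ ≤ Cb * X := by
            unfold TP320.sq
            split_ifs
            · rw [← hw]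
              refine (hbd j n).trans ?_
              rw [Real.rpow_one]
              gcongr
              exact hn'.1
            · rw [norm_zero]; positivity
          have b2 : ‖G n‖ ≤ 1 := Gauss880.norm_G_le Gauss880.syG hn'.2.1
          have b3 : ‖sy k n‖ ≤ 1 := Two939.norm_sy_le hn'.2.1
          calc ‖sq 1 (w2 h χ l Y1 Y2 t1 t2) n‖ * (‖G n‖ * ‖sy k n‖) ≤ (Cb * X) * (1 * 1) := by
                gcongr
            _ = Cb * X := by ring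
      _ = (S X).card * (Cb * X) := by rw [Finset.sum_const, nsmul_eq_mul]
      _ ≤ (16 * X) * (Cb * X) := by
          gcongr
          exact card_S_le hX0
      _ = _ := by ring
  have hb := bridgeG (h := h) hpu.cs χ l hL0 h10 h20 t1 t2
  have hV : VG L (sq 1 (w2 h χ l Y1 Y2 t1 t2)) ≤ 16 * L * (16 * Cb * X ^ 2) ^ 2 := by
    unfold VG
    calc ∑ k ∈ bl L, ‖CM106.TG (sq 1 (w2 h χ l Y1 Y2 t1 t2)) k‖ ^ 2
        ≤ ∑ k ∈ bl L, (16 * Cb * X ^ 2) ^ 2 := by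
          refine Finset.sum_le_sum fun k _ => ?_
          have := hT k
          gcongr
      _ = (bl L).card * (16 * Cb * X ^ 2) ^ 2 := by rw [Finset.sum_const, nsmul_eq_mul]
      _ ≤ _ := by
          gcongr
          exact card_bl_le hL0.le
  rw [hb] at hV
  have h4 : T2 h χ l L Y1 Y2 t1 t2 * (L * Y1 * Y2) ≤
      (16 * (16 * Cb * Real.exp Rf ^ 2) ^ 2 * (Y1 * Y2) ^ 3) * (L * Y1 * Y2) := by
    calc T2 h χ l L Y1 Y2 t1 t2 * (L * Y1 * Y2) = L * Y1 * Y2 * T2 h χ l L Y1 Y2 t1 t2 := by ring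
      _ ≤ 16 * L * (16 * Cb * X ^ 2) ^ 2 := hV
      _ = _ := by rw [hXe]; ring
  exact le_of_mul_le_mul_right h4 (by positivity)

/-- small total size -/
lemma small_pow {X ε' c0 : ℝ} (hX : 1 ≤ X) (hε : 0 < ε') (hc : X ^ ε' ≤ c0) (n : ℕ) :
    X ^ n ≤ c0 ^ ((n : ℝ) / ε') := by
  have hX0 : 0 ≤ X := by linarith
  have e1 : X ^ n = (X ^ ε') ^ ((n : ℝ) / ε') := by
    rw [← Real.rpow_mul hX0, ← Real.rpow_natCast]
    congr 1
    field_simp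
  rw [e1]
  exact Real.rpow_le_rpow (by positivity) hc (by positivity)

/-- heights -/
lemma ht_shift {M : ℝ} (hM : 0 ≤ M) (s1 s2 u1 u2 : ℝ) :
    ((1 + |s1 + u1|) * (1 + |s2 + u2|)) ^ M ≤
      ((1 + |s1|) * (1 + |s2|)) ^ M * ((1 + |u1|) * (1 + |u2|)) ^ M :=
  Two320.pow_two_abs s1 s2 u1 u2 M hM

end Crest.Agent.R017.TW320
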