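import Crest.Agent.R017.TW1_320

/-!
# Row 17: the two-factor theorem, non-exceptional class: rule `poisG` (helper320)
-/

set_option autoImplicit false

noncomputable section

open Complex MeasureTheory
open scoped ComplexConjugate ContDiff

namespace Crest.Agent.R017.TW320

open Crest.Agent.R012 Crest.Agent.R012.Eis Crest.Agent.R012.LS2 Crest.Agent.R012.Gauss880
open Crest.Agent.R012.Div277 Crest.Agent.R012.CR2
open Crest.Agent.R012.PSer47 Crest.Agent.R017.End699 Crest.Agent.R017.FE47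
open Crest.Agent.R017.PA842 (V Supp)
open Crest.Agent.R017.Two939 (cfa V4 W2 T2)
open Crest.Agent.R017.TP320
open Crest.Agent.R017.CM106 (CS FS)

set_option maxHeartbeats 1000000

/-- **rule `poisG`** -/
theorem poisG {h : ℝ → ℝ} {c : ℝ} (hpu : PU h c) {Mo : Eis} {χ : Eis → ℂ} (hχ : HC Mo χ)
    (l : ℤ) : ∀ ε M : ℝ, 0 < ε → 0 ≤ M → ∃ C : ℝ, 0 < C ∧ ∀ L Y1 Y2 t1 t2 B : ℝ,
    1 ≤ L → 1 ≤ Y1 → 1 ≤ Y2 → 0 ≤ B →
    (∀ D E F Z1 Z2 K s1 s2 : ℝ, 1 ≤ E → E ≤ D → 1 ≤ F →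
      1 ≤ Z1 → Z1 ≤ (L * Y1 * Y2) ^ ε * Y1 → 1 ≤ Z2 → Z2 ≤ (L * Y1 * Y2) ^ ε * Y2 →
      Z1 * Z2 * (D * F) ≤ (L * Y1 * Y2) ^ ε * (Y1 * Y2) →
      1 ≤ K → K ≤ (L * Y1 * Y2) ^ (10 : ℝ) →
      E / D * W2 h χ l K Z1 Z2 (t1 + s1) (t2 + s2) ≤ B * ((1 + |s1|) * (1 + |s2|)) ^ M) →
    T2 h χ l L Y1 Y2 t1 t2 ≤ C * (L * Y1 * Y2) ^ ε * (1 + Y1 * Y2 / L * B) := by
  intro ε M hε hM
  obtain ⟨R, hR0, hR⟩ := exists_R (cs_cx hpu.cs)
  have hΦ := W2F_ok hpu hχ l hR0 hR (μ := M / 2) (by positivity)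
  set Rf : ℝ := (2 * R + 2) + (2 * R + 2) + 1 with hRf
  have hRf0 : 0 ≤ Rf := hΦ.R0
  set ε' : ℝ := min ε 1 with hε'
  have hε'0 : 0 < ε' := lt_min hε one_pos
  have hε'1 : ε' ≤ 1 := min_le_right _ _
  have hε'ε : ε' ≤ ε := min_le_left _ _
  set ε1 : ℝ := ε' / 8 with hε1
  have hε10 : 0 < ε1 := by positivity
  obtain ⟨C1, hC1, hG⟩ := GR106.G_rule hΦ hε10
  obtain ⟨C2, hC2, hsn⟩ := TPE411.sq_nat hpu hε10 M
  obtain ⟨C3, hC3, htriv⟩ := T2_triv hpu hχ l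
  set c0 : ℝ := C1 + 2 * C2 * Real.exp Rf + 4 * C2 ^ 2 * Real.exp Rf with hc0
  have hc00 : 0 < c0 := by positivity
  set c3 : ℝ := 4 * C1 ^ 2 * C2 * Real.exp Rf with hc3
  have hc30 : 0 ≤ c3 := by positivity
  refine ⟨C3 * c0 ^ ((3 : ℕ) / ε') + C1 * (1 + c3), by positivity, ?_⟩
  intro L Y1 Y2 t1 t2 B hL hY1 hY2 hB hyp
  have hL0 : 0 < L := by linarith
  have h10 : 0 < Y1 := by linarith
  have h20 : 0 < Y2 := by linarith
  set X : ℝ := L * Y1 * Y2 with hX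
  have hN1 : 1 ≤ Y1 * Y2 := by nlinarith
  have hX1 : 1 ≤ X := by
    have : L * Y1 * Y2 = L * (Y1 * Y2) := by ring
    rw [hX, this]; nlinarith
  have hX0 : 0 < X := by linarith
  have hLX : L ≤ X := by
    have : L * Y1 * Y2 = L * (Y1 * Y2) := by ring
    rw [hX, this]; nlinarith
  have hNX : Y1 * Y2 ≤ X := by
    have : L * Y1 * Y2 = L * (Y1 * Y2) := by ring
    rw [hX, this]; nlinarith
  have hXε : X ^ ε' ≤ X ^ ε := Real.rpow_le_rpow_of_exponent_le hX1 hε'ε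
  have hXε1 : 1 ≤ X ^ ε := Real.one_le_rpow hX1 hε.le
  have hq0 : 0 ≤ Y1 * Y2 / L * B := by positivity
  rcases le_or_gt (X ^ ε') c0 with hsm | hlg
  · -- bounded total size
    have h1 := htriv L Y1 Y2 t1 t2 hL hY1 hY2
    have h2 : (Y1 * Y2) ^ 3 ≤ c0 ^ (((3 : ℕ) : ℝ) / ε') :=
      (pow_le_pow_left₀ (by positivity) hNX 3).trans (small_pow hX1 hε'0 hsm 3)
    calc T2 h χ l L Y1 Y2 t1 t2 ≤ C3 * (Y1 * Y2) ^ 3 := h1
      _ ≤ C3 * c0 ^ (((3 : ℕ) : ℝ) / ε') := by gcongr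
      _ = (C3 * c0 ^ (((3 : ℕ) : ℝ) / ε') + 0) * 1 * (1 + 0) := by ring
      _ ≤ (C3 * c0 ^ ((3 : ℕ) / ε') + C1 * (1 + c3)) * X ^ ε * (1 + Y1 * Y2 / L * B) := by
          gcongr
          positivity
  -- main case
  have hXc : c0 ≤ X ^ ε := hlg.le.trans hXε
  have hXX : X ^ ε' ≤ X := by
    calc X ^ ε' ≤ X ^ (1 : ℝ) := Real.rpow_le_rpow_of_exponent_le hX1 hε'1
      _ = X := Real.rpow_one _
  set j0 : (ℝ × ℝ × ℝ) × (ℝ × ℝ × ℝ) := ((Real.log Y1, 0, t1), (Real.log Y2, 0, t2)) with hj0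
  have hw0 : (W2F h χ l (M / 2)).w j0 = w2 h χ l Y1 Y2 t1 t2 := by
    rw [W2F_w]
    simp only [hj0, Real.exp_log h10, Real.exp_log h20, add_zero]
  have hlen0 : Real.exp ((W2F h χ l (M / 2)).len j0) = Y1 * Y2 := by
    rw [W2F_len]
    simp only [hj0]
    rw [Real.exp_add, Real.exp_log h10, Real.exp_log h20]
  have hht0 : ((W2F h χ l (M / 2)).ht j0) ^ 2 = 1 := by
    rw [W2F_ht]
    simp only [hj0, abs_zero, add_zero, mul_one, Real.one_rpow]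
  have hXe1 : 1 ≤ X ^ ε1 := Real.one_le_rpow hX1 hε10.le
  have hXe0 : 0 ≤ X ^ ε1 := by linarith
  set a : ℝ := c3 * (X ^ ε1) ^ 3 * (Y1 * Y2) * B with ha
  have ha0 : 0 ≤ a := by positivity
  have key := hG X L a hX1 hL hLX ha0 j0 (by rw [hlen0]; exact hNX) 1 isPrim_one ?_
  · rw [hw0, hlen0, hht0, bridgeG hpu.cs χ l hL0 h10 h20] at key
    have h3 : T2 h χ l L Y1 Y2 t1 t2 * (L * Y1 * Y2) ≤
        (C1 * X ^ ε1 * (1 + a / L)) * (L * Y1 * Y2) := by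
      calc T2 h χ l L Y1 Y2 t1 t2 * (L * Y1 * Y2) = L * Y1 * Y2 * T2 h χ l L Y1 Y2 t1 t2 := by ring
        _ ≤ C1 * X ^ ε1 * (L + a) * (Y1 * Y2) * 1 := key
        _ = _ := by field_simp
    have h4 : T2 h χ l L Y1 Y2 t1 t2 ≤ C1 * X ^ ε1 * (1 + a / L) :=
      le_of_mul_le_mul_right h3 (by positivity)
    have h5 : a / L = c3 * (X ^ ε1) ^ 3 * (Y1 * Y2 / L * B) := by rw [ha]; ring
    have h6 : X ^ ε1 * (X ^ ε1) ^ 3 ≤ X ^ ε := by
      have : X ^ ε1 * (X ^ ε1) ^ 3 = X ^ (4 * ε1) := by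
        rw [← Real.rpow_natCast, ← Real.rpow_mul hX0.le, ← Real.rpow_add hX0]
        congr 1; push_cast; ring
      rw [this]
      apply Real.rpow_le_rpow_of_exponent_le hX1
      rw [hε1]; linarith
    have h7 : X ^ ε1 ≤ X ^ ε := by
      apply Real.rpow_le_rpow_of_exponent_le hX1
      rw [hε1]; linarith
    rw [h5] at h4
    set q0 : ℝ := Y1 * Y2 / L * B with hq0'
    calc T2 h χ l L Y1 Y2 t1 t2 ≤ C1 * X ^ ε1 * (1 + c3 * (X ^ ε1) ^ 3 * q0) := h4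
      _ = C1 * X ^ ε1 + C1 * c3 * (X ^ ε1 * (X ^ ε1) ^ 3) * q0 := by ring
      _ ≤ C1 * X ^ ε + C1 * c3 * X ^ ε * q0 := by gcongr
      _ ≤ (C3 * c0 ^ ((3 : ℕ) / ε') + C1 * (1 + c3)) * X ^ ε * (1 + q0) := by
          have e1 : 0 ≤ C3 * c0 ^ (((3 : ℕ) : ℝ) / ε') * X ^ ε * (1 + q0) := by positivity
          have e2 : 0 ≤ C1 * c3 * X ^ ε := by positivity
          have e3 : 0 ≤ C1 * X ^ ε * q0 := by positivity
          have e4 : (C3 * c0 ^ (((3 : ℕ) : ℝ) / ε') + C1 * (1 + c3)) * X ^ ε * (1 + q0) =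
            C3 * c0 ^ (((3 : ℕ) : ℝ) / ε') * X ^ ε * (1 + q0) + (C1 * X ^ ε + C1 * c3 * X ^ ε * q0)
              + C1 * c3 * X ^ ε + C1 * X ^ ε * q0 := by ring
          rw [e4]
          linarith
  -- the hypothesis of (P')
  intro j' q' hgood hdom hlen hq' _ hqn
  obtain ⟨⟨z1, s1, u1⟩, ⟨z2, s2, u2⟩⟩ := j'
  obtain ⟨⟨hd1, hd1'⟩, ⟨hd2, hd2'⟩⟩ := hdom
  obtain ⟨hg1, hg2⟩ := hgood
  simp only [hj0] at hd1 hd1' hd2 hd2'
  have hz1 : 0 ≤ z1 := hg1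
  have hz2 : 0 ≤ z2 := hg2
  have hl' : (W2F h χ l (M / 2)).len ((z1, s1, u1), (z2, s2, u2)) = z1 + z2 := rfl
  rw [Real.exp_add, hlen0, W2F_w, hl', W2F_ht]
  simp only
  rw [hd1', hd2']
  rw [W2F_len, W2F_len] at hlen
  simp only [hj0] at hlen
  set Z1 : ℝ := Real.exp z1 with hZ1
  set Z2 : ℝ := Real.exp z2 with hZ2
  have hZ11 : 1 ≤ Z1 := Real.one_le_exp hz1
  have hZ21 : 1 ≤ Z2 := Real.one_le_exp hz2
  have hZ1Y : Z1 ≤ Real.exp Rf * Y1 := by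
    calc Z1 ≤ Real.exp (Real.log Y1 + Rf) := Real.exp_le_exp.2 hd1
      _ = _ := by rw [Real.exp_add, Real.exp_log h10]; ring
  have hZ2Y : Z2 ≤ Real.exp Rf * Y2 := by
    calc Z2 ≤ Real.exp (Real.log Y2 + Rf) := Real.exp_le_exp.2 hd2
      _ = _ := by rw [Real.exp_add, Real.exp_log h20]; ring
  have hZZ : Z1 * Z2 ≤ Real.exp Rf * (Y1 * Y2) := by
    rw [hZ1, hZ2, ← Real.exp_add]
    calc Real.exp (z1 + z2) ≤ Real.exp (Real.log Y1 + Real.log Y2 + Rf) := Real.exp_le_exp.2 hlen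
      _ = _ := by rw [Real.exp_add, Real.exp_add, Real.exp_log h10, Real.exp_log h20]; ring
  set Λ : ℝ := C1 * X ^ ε1 * (Y1 * Y2) ^ 2 / L with hΛ
  have hΛ0 : 0 ≤ Λ := by positivity
  set H : ℝ := ((1 + |s1|) * (1 + |s2|)) ^ M with hH
  have hH0 : 0 ≤ H := by positivity
  have hrhs : 0 ≤ a / L * (Y1 * Y2 * Real.exp (z1 + z2)) * H := by positivity
  rcases lt_or_ge Λ 1 with hΛ1 | hΛ1
  · rw [VC_lt_one hΛ0 hΛ1]; exact hrhs
  have hΛX : Λ ≤ X ^ (10 : ℝ) := by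
    have e1 : X ^ ε1 ≤ X := by
      calc X ^ ε1 ≤ X ^ (1 : ℝ) := Real.rpow_le_rpow_of_exponent_le hX1 (by rw [hε1]; linarith)
        _ = X := Real.rpow_one _
    have e2 : C1 ≤ X := by
      refine le_trans ?_ (hlg.le.trans hXX)
      rw [hc0]
      have : 0 < 2 * C2 * Real.exp Rf := by positivity
      have : 0 < 4 * C2 ^ 2 * Real.exp Rf := by positivity
      linarith
    calc Λ ≤ C1 * X ^ ε1 * (Y1 * Y2) ^ 2 := div_le_self (by positivity) hL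
      _ ≤ X * X * X ^ 2 := by gcongr
      _ = X ^ 4 := by ring
      _ ≤ X ^ 10 := pow_le_pow_right₀ hX1 (by norm_num)
      _ = X ^ (10 : ℝ) := by rw [← Real.rpow_natCast]; norm_num
  have hsq := hsn Mo χ hχ l Λ Z1 Z2 (t1 + s1) (t2 + s2) (B * H) (by linarith) (by linarith)
    (by linarith) (by positivity) q' hq'.ne_zero (by
      intro Z1' Z2' w1 w2 a1 a2 a3 a4
      have b1 : Z1' ≤ 2 * C2 * Z1 := by nlinarith
      have b2 : Z2' ≤ 2 * C2 * Z2 := by nlinarith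
      have hcc1 : 2 * C2 * Real.exp Rf ≤ X ^ ε := by
        refine le_trans ?_ hXc
        rw [hc0]
        have : 0 < 4 * C2 ^ 2 * Real.exp Rf := by positivity
        linarith
      have hcc2 : 4 * C2 ^ 2 * Real.exp Rf ≤ X ^ ε := by
        refine le_trans ?_ hXc
        rw [hc0]
        have : 0 < 2 * C2 * Real.exp Rf := by positivity
        linarith
      have h8 := hyp 1 1 1 Z1' Z2' Λ (s1 + w1) (s2 + w2) le_rfl le_rfl le_rfl a1 (by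
        calc Z1' ≤ 2 * C2 * Z1 := b1
          _ ≤ 2 * C2 * (Real.exp Rf * Y1) := by gcongr
          _ = (2 * C2 * Real.exp Rf) * Y1 := by ring
          _ ≤ X ^ ε * Y1 := by gcongr) a3 (by
        calc Z2' ≤ 2 * C2 * Z2 := b2
          _ ≤ 2 * C2 * (Real.exp Rf * Y2) := by gcongr
          _ = (2 * C2 * Real.exp Rf) * Y2 := by ring
          _ ≤ X ^ ε * Y2 := by gcongr) (by
        calc Z1' * Z2' * (1 * 1) = Z1' * Z2' := by ring
          _ ≤ (2 * C2 * Z1) * (2 * C2 * Z2) := by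
              have : 0 ≤ Z2' := by linarith
              gcongr
          _ = 4 * C2 ^ 2 * (Z1 * Z2) := by ring
          _ ≤ 4 * C2 ^ 2 * (Real.exp Rf * (Y1 * Y2)) := by gcongr
          _ = (4 * C2 ^ 2 * Real.exp Rf) * (Y1 * Y2) := by ring
          _ ≤ X ^ ε * (Y1 * Y2) := by gcongr) hΛ1 hΛX
      rw [div_one, one_mul, ← add_assoc, ← add_assoc] at h8
      refine h8.trans ?_
      calc B * ((1 + |s1 + w1|) * (1 + |s2 + w2|)) ^ M
          ≤ B * (H * ((1 + |w1|) * (1 + |w2|)) ^ M) := by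
            gcongr
            exact ht_shift hM s1 s2 w1 w2
        _ = _ := by ring)
  refine hsq.trans ?_
  have hq1 : (1 : ℝ) ≤ nm q' := one_le_nm' hq'
  have hqX : (nm q' : ℝ) ≤ C1 * X := by
    refine hqn.trans ?_
    rw [PI106.nm_one]
    push_cast
    linarith
  have hbase : (nm q' : ℝ) * (1 + Z1) * (1 + Z2) ≤ (4 * C1 * Real.exp Rf) * X ^ 2 := by
    calc (nm q' : ℝ) * (1 + Z1) * (1 + Z2) ≤ (C1 * X) * (2 * Z1) * (2 * Z2) := by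
          gcongr <;> linarith
      _ = 4 * C1 * X * (Z1 * Z2) := by ring
      _ ≤ 4 * C1 * X * (Real.exp Rf * X) := by
          have : Z1 * Z2 ≤ Real.exp Rf * X := hZZ.trans (by gcongr)
          gcongr
      _ = _ := by ring
  have hcc : 1 ≤ 4 * C1 * Real.exp Rf := by
    have h3 := Real.one_le_exp hRf0
    calc (1 : ℝ) = 1 * 1 * 1 := by norm_num
      _ ≤ 4 * C1 * Real.exp Rf := by gcongr; norm_num
  have hpow : ((nm q' : ℝ) * (1 + Z1) * (1 + Z2)) ^ ε1 ≤ (4 * C1 * Real.exp Rf) * (X ^ ε1) ^ 2 := by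
    calc ((nm q' : ℝ) * (1 + Z1) * (1 + Z2)) ^ ε1 ≤ ((4 * C1 * Real.exp Rf) * X ^ 2) ^ ε1 :=
          Real.rpow_le_rpow (by positivity) hbase hε10.le
      _ = (4 * C1 * Real.exp Rf) ^ ε1 * (X ^ ε1) ^ 2 := by
          rw [Real.mul_rpow (by positivity) (by positivity), ← Real.rpow_natCast X,
            ← Real.rpow_natCast (X ^ ε1), ← Real.rpow_mul hX0.le, ← Real.rpow_mul hX0.le,
            mul_comm ε1]
      _ ≤ (4 * C1 * Real.exp Rf) * (X ^ ε1) ^ 2 := by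
          have : (4 * C1 * Real.exp Rf) ^ ε1 ≤ (4 * C1 * Real.exp Rf) ^ (1 : ℝ) :=
            Real.rpow_le_rpow_of_exponent_le hcc (by rw [hε1]; linarith)
          rw [Real.rpow_one] at this
          gcongr
  have hEx : Real.exp (z1 + z2) = Z1 * Z2 := by rw [Real.exp_add]
  rw [hEx]
  calc C2 * ((nm q' : ℝ) * (1 + Z1) * (1 + Z2)) ^ ε1 * (B * H) * Λ * Z1 * Z2
      ≤ C2 * ((4 * C1 * Real.exp Rf) * (X ^ ε1) ^ 2) * (B * H) * Λ * Z1 * Z2 := by gcongr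
    _ = a / L * (Y1 * Y2 * (Z1 * Z2)) * H := by
        rw [ha, hΛ, hc3]; ring

end Crest.Agent.R017.TW320
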