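import Crest.Agent.R017.TW1_320

/-!
# Row 17: the two-factor theorem, non-exceptional class: rule `poisC` (helper320)
-/

set_option autoImplicit false

noncomputable section

open Complex MeasureTheory
open scoped ComplexConjugate ContDiff

namespace Crest.Agent.R017.TW320

open Crest.Agent.R012 Crest.Agent.R012.Eis Crest.Agent.R012.LS2 Crest.Agent.R012.Gauss880
open Crest.Agent.R012.Div277 Crest.Agent.R012.CR2
open Crest.Agent.R012.PSer47 Crest.Agent.R017.End699 Crest.Agent.R017.FE47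
open Crest.Agent.R017.PA842 (V Supp)
open Crest.Agent.R017.Two939 (cfa V4 W2 T2)
open Crest.Agent.R017.TP320
open Crest.Agent.R017.CM106 (CS FS)

set_option maxHeartbeats 1000000

lemma rpow_le_self' {X ε1 : ℝ} (hX : 1 ≤ X) (h : ε1 ≤ 1) : X ^ ε1 ≤ X := by
  calc X ^ ε1 ≤ X ^ (1 : ℝ) := Real.rpow_le_rpow_of_exponent_le hX h
    _ = X := Real.rpow_one _

lemma const_rpow {c X ε1 : ℝ} (hc : 1 ≤ c) (hX : 0 ≤ X) (h1 : ε1 ≤ 1) (n : ℕ) :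
    (c * X ^ n) ^ ε1 ≤ c * (X ^ ε1) ^ n := by
  rw [Real.mul_rpow (by linarith) (by positivity), ← Real.rpow_natCast X,
    ← Real.rpow_natCast (X ^ ε1), ← Real.rpow_mul hX, ← Real.rpow_mul hX, mul_comm ε1]
  have : c ^ ε1 ≤ c ^ (1 : ℝ) := Real.rpow_le_rpow_of_exponent_le hc h1
  rw [Real.rpow_one] at this
  gcongr

/-- the parameters of one dual family -/
structure Par (C1 C2 C4 r ε1 K Y X X0 Z1 Z2 z1 z2 n1 φ Nq D Λ : ℝ) : Prop where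
  hC1 : 1 ≤ C1
  hC2 : 0 < C2
  hC4 : 0 < C4
  hr : 0 ≤ r
  hε1 : 0 < ε1
  hε11 : ε1 ≤ 1
  hK : 1 ≤ K
  hY : 1 ≤ Y
  hX : X = K * Y
  hX0 : X0 = 3 * K * Y ^ 2
  hZ1 : 0 < Z1
  hZ1Y : Z1 ≤ Y
  hZ2 : 0 < Z2
  hZ2Y : Z2 ≤ Y
  hz1 : 0 ≤ z1
  hz2 : 0 ≤ z2
  hz1Z : z1 ≤ Real.log Z1 + r
  hz2Z : z2 ≤ Real.log Z2 + r
  hφ : 0 ≤ φ
  hn1 : n1 ≤ Real.log Z1 + Real.log Z2 + r
  hlen : z1 + z2 ≤ n1 - φ + r
  hNq1 : 1 ≤ Nq
  hNq : Nq ≤ C1 * (C4 * Y ^ 2) * X0 ^ 2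
  hD : D = max 1 (Y ^ 2 / Real.exp n1)
  hΛ : Λ = C1 * X0 ^ ε1 * Real.exp (φ + 2 * n1) / K

section
variable {C1 C2 C4 r ε1 K Y X X0 Z1 Z2 z1 z2 n1 φ Nq D Λ : ℝ}

lemma Par.X1 (P : Par C1 C2 C4 r ε1 K Y X X0 Z1 Z2 z1 z2 n1 φ Nq D Λ) : 1 ≤ X := by
  have := P.hK; have := P.hY; rw [P.hX]; nlinarith

lemma Par.YX (P : Par C1 C2 C4 r ε1 K Y X X0 Z1 Z2 z1 z2 n1 φ Nq D Λ) : Y ≤ X := by
  have := P.hK; have := P.hY; rw [P.hX]; nlinarith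

lemma Par.X0X (P : Par C1 C2 C4 r ε1 K Y X X0 Z1 Z2 z1 z2 n1 φ Nq D Λ) : X0 ≤ 3 * X ^ 2 := by
  have h1 := P.hK; have h2 := P.hY
  rw [P.hX, P.hX0]
  have : K * Y ^ 2 ≤ K ^ 2 * Y ^ 2 := by
    have : K ≤ K ^ 2 := by nlinarith
    gcongr
  calc 3 * K * Y ^ 2 = 3 * (K * Y ^ 2) := by ring
    _ ≤ 3 * (K ^ 2 * Y ^ 2) := by linarith
    _ = _ := by ring

lemma Par.X01 (P : Par C1 C2 C4 r ε1 K Y X X0 Z1 Z2 z1 z2 n1 φ Nq D Λ) : 3 ≤ X0 := by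
  have h1 := P.hK; have h2 := P.hY
  rw [P.hX0]
  have : 1 ≤ Y ^ 2 := one_le_pow₀ h2
  nlinarith

lemma Par.X0e (P : Par C1 C2 C4 r ε1 K Y X X0 Z1 Z2 z1 z2 n1 φ Nq D Λ) :
    X0 ^ ε1 ≤ 3 * (X ^ ε1) ^ 2 := by
  have h1 := P.X0X
  have h2 := P.X01
  have h3 := P.X1
  calc X0 ^ ε1 ≤ (3 * X ^ 2) ^ ε1 := Real.rpow_le_rpow (by linarith) h1 P.hε1.le
    _ ≤ _ := const_rpow (by norm_num) (by linarith) P.hε11 2

/-- `e^{n1} ≤ e^r Y²` -/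
lemma Par.en (P : Par C1 C2 C4 r ε1 K Y X X0 Z1 Z2 z1 z2 n1 φ Nq D Λ) :
    Real.exp n1 ≤ Real.exp r * Y ^ 2 := by
  have h1 := P.hZ1; have h2 := P.hZ2
  calc Real.exp n1 ≤ Real.exp (Real.log Z1 + Real.log Z2 + r) := Real.exp_le_exp.2 P.hn1
    _ = Real.exp r * (Z1 * Z2) := by
        rw [Real.exp_add, Real.exp_add, Real.exp_log h1, Real.exp_log h2]; ring
    _ ≤ Real.exp r * (Y * Y) := by
        have := P.hZ1Y; have := P.hZ2Y; have := P.hY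
        have hY0 : 0 ≤ Y := by linarith
        gcongr
    _ = _ := by ring

lemma Par.De (P : Par C1 C2 C4 r ε1 K Y X X0 Z1 Z2 z1 z2 n1 φ Nq D Λ) :
    D * Real.exp n1 ≤ Real.exp r * Y ^ 2 := by
  have h1 := P.en
  have h2 := Real.exp_pos n1
  rw [P.hD]
  rcases max_choice (1 : ℝ) (Y ^ 2 / Real.exp n1) with h | h
  · rw [h, one_mul]; exact h1
  · rw [h, div_mul_cancel₀ _ h2.ne']
    have : 1 ≤ Real.exp r := Real.one_le_exp P.hr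
    nlinarith [sq_nonneg Y]

lemma Par.D1 (P : Par C1 C2 C4 r ε1 K Y X X0 Z1 Z2 z1 z2 n1 φ Nq D Λ) : 1 ≤ D := by
  rw [P.hD]; exact le_max_left _ _

lemma Par.DY (P : Par C1 C2 C4 r ε1 K Y X X0 Z1 Z2 z1 z2 n1 φ Nq D Λ) :
    Y ^ 4 ≤ D ^ 2 * Real.exp (2 * n1) := by
  have h2 := Real.exp_pos n1
  have h1 : Y ^ 2 ≤ D * Real.exp n1 := by
    rw [← div_le_iff₀ h2, P.hD]; exact le_max_right _ _
  calc Y ^ 4 = (Y ^ 2) ^ 2 := by ring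
    _ ≤ (D * Real.exp n1) ^ 2 := by gcongr
    _ = D ^ 2 * Real.exp (2 * n1) := by rw [mul_pow, ← Real.exp_nat_mul]; push_cast; rfl

lemma Par.z1Y (P : Par C1 C2 C4 r ε1 K Y X X0 Z1 Z2 z1 z2 n1 φ Nq D Λ) :
    Real.exp z1 ≤ Real.exp r * Y := by
  calc Real.exp z1 ≤ Real.exp (Real.log Z1 + r) := Real.exp_le_exp.2 P.hz1Z
    _ = Real.exp r * Z1 := by rw [Real.exp_add, Real.exp_log P.hZ1]; ring
    _ ≤ _ := by have := P.hZ1Y; gcongr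

lemma Par.z2Y (P : Par C1 C2 C4 r ε1 K Y X X0 Z1 Z2 z1 z2 n1 φ Nq D Λ) :
    Real.exp z2 ≤ Real.exp r * Y := by
  calc Real.exp z2 ≤ Real.exp (Real.log Z2 + r) := Real.exp_le_exp.2 P.hz2Z
    _ = Real.exp r * Z2 := by rw [Real.exp_add, Real.exp_log P.hZ2]; ring
    _ ≤ _ := by have := P.hZ2Y; gcongr

/-- the shape condition -/
lemma Par.shape (P : Par C1 C2 C4 r ε1 K Y X X0 Z1 Z2 z1 z2 n1 φ Nq D Λ) {a Z1' Z2' : ℝ}
    (ha : 1 ≤ a) (h1 : 1 ≤ Z1') (h2 : 1 ≤ Z2')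
    (h : Z1' * Z2' * a ≤ C2 * (Real.exp z1 * Real.exp z2)) :
    Z1' * Z2' * (D * Real.exp φ) ≤ C2 * Real.exp r ^ 2 * Y ^ 2 := by
  have hD := P.De
  have hD1 := P.D1
  have hC2 := P.hC2
  have e1 : Z1' * Z2' ≤ C2 * Real.exp (n1 - φ + r) := by
    calc Z1' * Z2' = Z1' * Z2' * 1 := by ring
      _ ≤ Z1' * Z2' * a := by gcongr
      _ ≤ C2 * (Real.exp z1 * Real.exp z2) := h
      _ ≤ C2 * Real.exp (n1 - φ + r) := by
          rw [← Real.exp_add]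
          have := P.hlen
          gcongr
  have e2 : Real.exp (n1 - φ + r) * Real.exp φ = Real.exp n1 * Real.exp r := by
    rw [← Real.exp_add, ← Real.exp_add]; congr 1; ring
  calc Z1' * Z2' * (D * Real.exp φ) ≤ (C2 * Real.exp (n1 - φ + r)) * (D * Real.exp φ) := by
        gcongr
    _ = C2 * D * (Real.exp (n1 - φ + r) * Real.exp φ) := by ring
    _ = C2 * Real.exp r * (D * Real.exp n1) := by rw [e2]; ring
    _ ≤ C2 * Real.exp r * (Real.exp r * Y ^ 2) := by gcongr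
    _ = _ := by ring

/-- the size of the conductor -/
lemma Par.size (P : Par C1 C2 C4 r ε1 K Y X X0 Z1 Z2 z1 z2 n1 φ Nq D Λ) {a : ℝ} (ha0 : 0 ≤ a)
    (ha : a ≤ Nq) : Λ * a ≤ (27 * C1 ^ 2 * C4 * Real.exp r ^ 4) * X ^ 14 := by
  have hX1 := P.X1
  have hYX := P.YX
  have hX0X := P.X0X
  have hX01 := P.X01
  have hC1 := P.hC1
  have hC4 := P.hC4
  have hK := P.hK
  have hY := P.hY
  have hY0 : 0 ≤ Y := by linarith
  have hen := P.en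
  have e1 : Real.exp φ ≤ Real.exp n1 * Real.exp r := by
    rw [← Real.exp_add]
    apply Real.exp_le_exp.2
    have := P.hlen; have := P.hz1; have := P.hz2
    linarith
  have e2 : Real.exp (φ + 2 * n1) ≤ Real.exp r ^ 4 * Y ^ 6 := by
    calc Real.exp (φ + 2 * n1) = Real.exp φ * Real.exp n1 ^ 2 := by
          rw [Real.exp_add, ← Real.exp_nat_mul]; push_cast; rfl
      _ ≤ (Real.exp n1 * Real.exp r) * Real.exp n1 ^ 2 := by gcongr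
      _ = Real.exp r * Real.exp n1 ^ 3 := by ring
      _ ≤ Real.exp r * (Real.exp r * Y ^ 2) ^ 3 := by gcongr
      _ = _ := by ring
  have e3 : X0 ^ ε1 ≤ 3 * X ^ 2 := (rpow_le_self' (by linarith) P.hε11).trans hX0X
  have e4 : Λ ≤ (3 * C1 * Real.exp r ^ 4) * X ^ 8 := by
    rw [P.hΛ]
    calc C1 * X0 ^ ε1 * Real.exp (φ + 2 * n1) / K ≤ C1 * X0 ^ ε1 * Real.exp (φ + 2 * n1) :=
          div_le_self (by positivity) hK
      _ ≤ C1 * (3 * X ^ 2) * (Real.exp r ^ 4 * Y ^ 6) := by gcongr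
      _ ≤ C1 * (3 * X ^ 2) * (Real.exp r ^ 4 * X ^ 6) := by gcongr
      _ = _ := by ring
  have e5 : a ≤ 9 * C1 * C4 * X ^ 6 := by
    calc a ≤ Nq := ha
      _ ≤ C1 * (C4 * Y ^ 2) * X0 ^ 2 := P.hNq
      _ ≤ C1 * (C4 * X ^ 2) * (3 * X ^ 2) ^ 2 := by gcongr
      _ = _ := by ring
  calc Λ * a ≤ ((3 * C1 * Real.exp r ^ 4) * X ^ 8) * (9 * C1 * C4 * X ^ 6) := by
        gcongr
    _ = _ := by ring

lemma Par.Nqe (P : Par C1 C2 C4 r ε1 K Y X X0 Z1 Z2 z1 z2 n1 φ Nq D Λ) :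
    Nq ^ ε1 ≤ (9 * C1 * C4 + 1) * (X ^ ε1) ^ 6 := by
  have hX1 := P.X1
  have hYX := P.YX
  have hX0X := P.X0X
  have hX01 := P.X01
  have hC1 := P.hC1
  have hC4 := P.hC4
  have hY := P.hY
  have e5 : Nq ≤ (9 * C1 * C4 + 1) * X ^ 6 := by
    calc Nq ≤ C1 * (C4 * Y ^ 2) * X0 ^ 2 := P.hNq
      _ ≤ C1 * (C4 * X ^ 2) * (3 * X ^ 2) ^ 2 := by gcongr
      _ = (9 * C1 * C4) * X ^ 6 := by ring
      _ ≤ (9 * C1 * C4 + 1) * X ^ 6 := by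
          gcongr
          linarith
  calc Nq ^ ε1 ≤ ((9 * C1 * C4 + 1) * X ^ 6) ^ ε1 :=
        Real.rpow_le_rpow (by linarith [P.hNq1]) e5 P.hε1.le
    _ ≤ _ := const_rpow (by
        have : 0 ≤ 9 * C1 * C4 := by positivity
        linarith) (by linarith) P.hε11 6

/-- the final comparison -/
lemma Par.fin (P : Par C1 C2 C4 r ε1 K Y X X0 Z1 Z2 z1 z2 n1 φ Nq D Λ) {B H : ℝ} (hB : 0 ≤ B)
    (hH : 0 ≤ H) :
    C2 * Nq ^ ε1 * (D * B * H * (Λ * Real.exp z1 * Real.exp z2)) ≤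
      (3 * C1 * C2 * (9 * C1 * C4 + 1) * Real.exp r * (X ^ ε1) ^ 8 * (Y ^ 2 / K * B)) *
        Real.exp (φ + n1 + (z1 + z2)) * H := by
  have hX1 := P.X1
  have hC1 := P.hC1
  have hC2 := P.hC2
  have hC4 := P.hC4
  have hK := P.hK
  have hDe := P.De
  have hD1 := P.D1
  have h1 := P.Nqe
  have h2 := P.X0e
  have hNq1 := P.hNq1
  have hX01 := P.X01
  have e1 : Λ * Real.exp z1 * Real.exp z2 =
      C1 * X0 ^ ε1 / K * (Real.exp n1 * Real.exp (φ + n1 + (z1 + z2))) := by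
    rw [P.hΛ]
    have : Real.exp (φ + 2 * n1) * (Real.exp z1 * Real.exp z2) =
        Real.exp n1 * Real.exp (φ + n1 + (z1 + z2)) := by
      rw [← Real.exp_add, ← Real.exp_add, ← Real.exp_add]; congr 1; ring
    calc C1 * X0 ^ ε1 * Real.exp (φ + 2 * n1) / K * Real.exp z1 * Real.exp z2 =
        C1 * X0 ^ ε1 / K * (Real.exp (φ + 2 * n1) * (Real.exp z1 * Real.exp z2)) := by ring
      _ = _ := by rw [this]
  rw [e1]
  have hc9 : 0 ≤ 9 * C1 * C4 + 1 := by positivity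
  set EE := Real.exp (φ + n1 + (z1 + z2)) with hEE
  have hEE0 : 0 ≤ EE := (Real.exp_pos _).le
  calc C2 * Nq ^ ε1 * (D * B * H * (C1 * X0 ^ ε1 / K * (Real.exp n1 * EE)))
      = C1 * C2 * Nq ^ ε1 * X0 ^ ε1 * (D * Real.exp n1) / K * B * EE * H := by ring
    _ ≤ C1 * C2 * ((9 * C1 * C4 + 1) * (X ^ ε1) ^ 6) * (3 * (X ^ ε1) ^ 2) *
        (Real.exp r * Y ^ 2) / K * B * EE * H := by gcongr
    _ = _ := by ring

end

end Crest.Agent.R017.TW320
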