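import Crest.Agent.R017.TW3_320
import Crest.Agent.R017.TW2_320

/-!
# Row 17: the two-factor theorem, non-exceptional class: rule `poisC` (helper320)
-/

set_option autoImplicit false

noncomputable section

open Complex MeasureTheory
open scoped ComplexConjugate ContDiff

namespace Crest.Agent.R017.TW320

open Crest.Agent.R012 Crest.Agent.R012.Eis Crest.Agent.R012.LS2 Crest.Agent.R012.Gauss880
open Crest.Agent.R012.Div277 Crest.Agent.R012.CR2
open Crest.Agent.R012.PSer47 Crest.Agent.R017.End699 Crest.Agent.R017.FE47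
open Crest.Agent.R017.PA842 (V Supp)
open Crest.Agent.R017.Two939 (cfa V4 W2 T2)
open Crest.Agent.R017.TP320
open Crest.Agent.R017.CM106 (CS FS)

set_option maxHeartbeats 8000000

/-- **rule `poisC`** -/
theorem poisC {h : ℝ → ℝ} {c : ℝ} (hpu : PU h c) {Mo : Eis} {χ : Eis → ℂ} (hχ : HC Mo χ)
    (l : ℤ) : ∀ ε M : ℝ, 0 < ε → 0 ≤ M → ∃ C : ℝ, 0 < C ∧ ∀ K Y t B : ℝ,
    1 ≤ K → 1 ≤ Y → 0 ≤ B →
    (∀ D E F Z1 Z2 L s1 s2 : ℝ, 1 ≤ E → E ≤ D → 1 ≤ F →
      1 ≤ Z1 → Z1 ≤ (K * Y) ^ ε * Y → 1 ≤ Z2 → Z2 ≤ (K * Y) ^ ε * Y →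
      Z1 * Z2 * (D * F) ≤ (K * Y) ^ ε * Y ^ 2 →
      1 ≤ L → L ≤ (K * Y) ^ (20 : ℝ) →
      F * E ^ 3 * Y ^ 4 ≤ (K * Y) ^ ε * (D ^ 2 * K * L) →
      E / D * T2 h χ l L Z1 Z2 (t + s1) (t + s2) ≤ B * ((1 + |s1|) * (1 + |s2|)) ^ M) →
    V4 h χ l K Y t ≤ C * (K * Y) ^ ε * (1 + Y ^ 2 / K * B) := by
  intro ε M hε hM
  obtain ⟨R, hR0, hR⟩ := exists_R (cs_cx hpu.cs)
  have hΦ := W2F_ok hpu hχ l hR0 hR (μ := M / 2) (by positivity)
  set ε' : ℝ := min ε 1 with hε'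
  have hε'0 : 0 < ε' := lt_min hε one_pos
  have hε'1 : ε' ≤ 1 := min_le_right _ _
  have hε'ε : ε' ≤ ε := min_le_left _ _
  set ε1 : ℝ := ε' / 20 with hε1
  have hε10 : 0 < ε1 := by positivity
  have hε11 : ε1 ≤ 1 := by rw [hε1]; linarith
  obtain ⟨C1, r, hC1, hr, hP⟩ := P_rule hΦ hε10
  obtain ⟨C2, hC2, hcop⟩ := coprimeVG hpu hχ l ε1 M hε10 hM
  obtain ⟨e0, C3, he0, hC3, hbase⟩ := Two939.base hpu hχ l
  obtain ⟨C4, hC4, hnat⟩ := TPD813.natSq hpu hχ l hε10
  set c0 : ℝ := 27 * C1 ^ 2 * C4 * Real.exp r ^ 4 + C2 * Real.exp r + C2 * Real.exp r ^ 2 with hc0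
  have hc00 : 0 < c0 := by positivity
  set c5 : ℝ := 3 * C1 * C2 * (9 * C1 * C4 + 1) * Real.exp r with hc5
  have hc50 : 0 ≤ c5 := by positivity
  refine ⟨C3 * c0 ^ (e0 / ε') + C4 * (3 * C1 * (1 + c5)), by positivity, ?_⟩
  intro K Y t B hK hY hB hyp
  have hK0 : 0 < K := by linarith
  have hY0 : 0 < Y := by linarith
  set X : ℝ := K * Y with hX
  have hX1 : 1 ≤ X := by rw [hX]; nlinarith
  have hX0 : 0 < X := by linarith
  have hYX : Y ≤ X := by rw [hX]; nlinarith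
  have hXε : X ^ ε' ≤ X ^ ε := Real.rpow_le_rpow_of_exponent_le hX1 hε'ε
  have hXε1 : 1 ≤ X ^ ε := Real.one_le_rpow hX1 hε.le
  have hq0 : 0 ≤ Y ^ 2 / K * B := by positivity
  rcases le_or_gt (X ^ ε') c0 with hsm | hlg
  · -- bounded total size
    have h1 := hbase K Y t hK hY
    have h2 : Y ^ e0 ≤ c0 ^ (e0 / ε') := by
      calc Y ^ e0 ≤ X ^ e0 := Real.rpow_le_rpow hY0.le hYX he0
        _ = (X ^ ε') ^ (e0 / ε') := by
            rw [← Real.rpow_mul hX0.le]; congr 1; field_simp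
        _ ≤ _ := Real.rpow_le_rpow (by positivity) hsm (by positivity)
    calc V4 h χ l K Y t ≤ C3 * Y ^ e0 := h1
      _ ≤ C3 * c0 ^ (e0 / ε') := by gcongr
      _ = (C3 * c0 ^ (e0 / ε') + 0) * 1 * (1 + 0) := by ring
      _ ≤ (C3 * c0 ^ (e0 / ε') + C4 * (3 * C1 * (1 + c5))) * X ^ ε * (1 + Y ^ 2 / K * B) := by
          gcongr
          positivity
  -- main case
  have hXc : c0 ≤ X ^ ε := hlg.le.trans hXε
  have hXX : X ^ ε' ≤ X := rpow_le_self' hX1 hε'1
  have hXe1 : 1 ≤ X ^ ε1 := Real.one_le_rpow hX1 hε10.le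
  have hXe0 : 0 ≤ X ^ ε1 := by linarith
  set X0 : ℝ := 3 * K * Y ^ 2 with hX0d
  set a : ℝ := c5 * (X ^ ε1) ^ 8 * (Y ^ 2 / K * B) with ha
  have ha0 : 0 ≤ a := by positivity
  set A : ℝ := 3 * C1 * (1 + c5) * (X ^ ε1) ^ 10 * (K + Y ^ 2 * B) with hA
  have hA0 : 0 ≤ A := by positivity
  have hYY : 1 ≤ Y ^ 2 := one_le_pow₀ hY
  have hX03 : 3 ≤ X0 := by rw [hX0d]; nlinarith
  have hKX0 : K ≤ X0 := by rw [hX0d]; nlinarith
  have hYX0 : Y ^ 2 ≤ X0 := by rw [hX0d]; nlinarith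
  have hX0X : X0 ≤ 3 * X ^ 2 := by
    rw [hX, hX0d]
    have : K * Y ^ 2 ≤ K ^ 2 * Y ^ 2 := by
      have : K ≤ K ^ 2 := by nlinarith
      gcongr
    calc 3 * K * Y ^ 2 = 3 * (K * Y ^ 2) := by ring
      _ ≤ 3 * (K ^ 2 * Y ^ 2) := by linarith
      _ = _ := by ring
  have hX0e : X0 ^ ε1 ≤ 3 * (X ^ ε1) ^ 2 := by
    calc X0 ^ ε1 ≤ (3 * X ^ 2) ^ ε1 := Real.rpow_le_rpow (by linarith) hX0X hε10.le
      _ ≤ _ := const_rpow (by norm_num) hX0.le hε11 2
  have hV := hnat K Y t A hK hY hA0 (by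
    intro q hq hqn Z1 Z2 hZ1 hZ1Y hZ2 hZ2Y
    set j0 : (ℝ × ℝ × ℝ) × (ℝ × ℝ × ℝ) := ((Real.log Z1, 0, t), (Real.log Z2, 0, t)) with hj0
    have hw0 : (W2F h χ l (M / 2)).w j0 = w2 h χ l Z1 Z2 t t := by
      rw [W2F_w]
      simp only [hj0, Real.exp_log hZ1, Real.exp_log hZ2, add_zero]
    have hlen0 : Real.exp ((W2F h χ l (M / 2)).len j0) = Z1 * Z2 := by
      rw [W2F_len]
      simp only [hj0]
      rw [Real.exp_add, Real.exp_log hZ1, Real.exp_log hZ2]
    have hht0 : ((W2F h χ l (M / 2)).ht j0) ^ 2 = 1 := by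
      rw [W2F_ht]
      simp only [hj0, abs_zero, add_zero, mul_one, Real.one_rpow]
    have key := hP X0 K a hX03 hK hKX0 ha0 j0 (by
      rw [hlen0]
      calc Z1 * Z2 ≤ Y * Y := by gcongr
        _ = Y ^ 2 := by ring
        _ ≤ X0 := hYX0) q hq ?_
    · rw [hw0, hlen0, hht0] at key
      refine key.trans ?_
      have h1 : K + K * a ≤ (1 + c5) * (X ^ ε1) ^ 8 * (K + Y ^ 2 * B) := by
        have e1 : K * a = c5 * (X ^ ε1) ^ 8 * (Y ^ 2 * B) := by rw [ha]; field_simp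
        rw [e1]
        have e2 : 1 ≤ (X ^ ε1) ^ 8 := one_le_pow₀ hXe1
        have e3 : 0 ≤ Y ^ 2 * B := by positivity
        have e4 : K ≤ (X ^ ε1) ^ 8 * K := le_mul_of_one_le_left hK0.le e2
        have e5 : 0 ≤ (X ^ ε1) ^ 8 * (Y ^ 2 * B) := by positivity
        have e6 : 0 ≤ c5 * (X ^ ε1) ^ 8 * K := by positivity
        calc K + c5 * (X ^ ε1) ^ 8 * (Y ^ 2 * B)
            ≤ (X ^ ε1) ^ 8 * K + c5 * (X ^ ε1) ^ 8 * (Y ^ 2 * B) +
              (X ^ ε1) ^ 8 * (Y ^ 2 * B) + c5 * (X ^ ε1) ^ 8 * K := by linarith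
          _ = _ := by ring
      have hKa0 : 0 ≤ K + K * a := by positivity
      have h2 : C1 * X0 ^ ε1 * (K + K * a) ≤ A := by
        calc C1 * X0 ^ ε1 * (K + K * a)
            ≤ C1 * (3 * (X ^ ε1) ^ 2) * ((1 + c5) * (X ^ ε1) ^ 8 * (K + Y ^ 2 * B)) := by
              gcongr
          _ = A := by rw [hA]; ring
      calc C1 * X0 ^ ε1 * (K + K * a) * (Z1 * Z2) * 1 ≤ A * (Z1 * Z2) * 1 := by gcongr
        _ = A * Z1 * Z2 := by ring
    -- the hypothesis of (P)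
    intro j' q' n1 φ hgood hdom hφ hn1 hlen _ hq' _ hqn' _
    obtain ⟨⟨z1, s1, u1⟩, ⟨z2, s2, u2⟩⟩ := j'
    obtain ⟨⟨hd1, hd1'⟩, ⟨hd2, hd2'⟩⟩ := hdom
    obtain ⟨hg1, hg2⟩ := hgood
    simp only [hj0] at hd1 hd1' hd2 hd2'
    have hz1 : 0 ≤ z1 := hg1
    have hz2 : 0 ≤ z2 := hg2
    have hl' : (W2F h χ l (M / 2)).len ((z1, s1, u1), (z2, s2, u2)) = z1 + z2 := rfl
    have hl0 : (W2F h χ l (M / 2)).len j0 = Real.log Z1 + Real.log Z2 := rfl
    rw [hl'] at hlen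
    rw [hl0] at hn1
    rw [W2F_w, hl', W2F_ht]
    simp only
    rw [hd1', hd2']
    have hq'1 : (1 : ℝ) ≤ nm q' := one_le_nm' hq'
    have Pm : Par C1 C2 C4 r ε1 K Y X X0 Z1 Z2 z1 z2 n1 φ (nm q')
        (max 1 (Y ^ 2 / Real.exp n1)) (C1 * X0 ^ ε1 * Real.exp (φ + 2 * n1) / K) :=
      { hC1 := hC1, hC2 := hC2, hC4 := hC4, hr := hr, hε1 := hε10, hε11 := hε11, hK := hK,
        hY := hY, hX := hX, hX0 := hX0d, hZ1 := hZ1, hZ1Y := hZ1Y, hZ2 := hZ2, hZ2Y := hZ2Y,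
        hz1 := hz1, hz2 := hz2, hz1Z := hd1, hz2Z := hd2, hφ := hφ, hn1 := hn1, hlen := hlen,
        hNq1 := hq'1, hNq := hqn'.trans (by gcongr), hD := rfl, hΛ := rfl }
    set D : ℝ := max 1 (Y ^ 2 / Real.exp n1) with hD
    set Λ : ℝ := C1 * X0 ^ ε1 * Real.exp (φ + 2 * n1) / K with hΛ
    have hΛ0 : 0 ≤ Λ := by positivity
    set H : ℝ := ((1 + |s1|) * (1 + |s2|)) ^ M with hH
    have hH0 : 0 ≤ H := by positivity
    rcases lt_or_ge Λ 1 with hΛ1 | hΛ1
    · rw [VG_lt_one hΛ0 hΛ1]; positivity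
    have hD1 := Pm.D1
    have hcp := hcop Λ (Real.exp z1) (Real.exp z2) (t + s1) (t + s2) (D * B * H) (by linarith)
      (Real.exp_pos _) (Real.exp_pos _) (by positivity) q' hq'.ne_zero (by
        intro a' Z1' Z2' w1 w2 ha1 ha2 b1 b2 b3 b4 b5
        have h8 := hyp D 1 (Real.exp φ) Z1' Z2' (Λ * a') (s1 + w1) (s2 + w2) le_rfl hD1
          (Real.one_le_exp hφ) b1 (by
            calc Z1' ≤ C2 * Real.exp z1 := b2
              _ ≤ C2 * (Real.exp r * Y) := by have := Pm.z1Y; gcongr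
              _ = (C2 * Real.exp r) * Y := by ring
              _ ≤ X ^ ε * Y := by
                  have : C2 * Real.exp r ≤ X ^ ε := by
                    refine le_trans ?_ hXc
                    have e1 : 0 < 27 * C1 ^ 2 * C4 * Real.exp r ^ 4 := by positivity
                    have e2 : 0 < C2 * Real.exp r ^ 2 := by positivity
                    rw [hc0]; linarith
                  gcongr) b3 (by
            calc Z2' ≤ C2 * Real.exp z2 := b4
              _ ≤ C2 * (Real.exp r * Y) := by have := Pm.z2Y; gcongr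
              _ = (C2 * Real.exp r) * Y := by ring
              _ ≤ X ^ ε * Y := by
                  have : C2 * Real.exp r ≤ X ^ ε := by
                    refine le_trans ?_ hXc
                    have e1 : 0 < 27 * C1 ^ 2 * C4 * Real.exp r ^ 4 := by positivity
                    have e2 : 0 < C2 * Real.exp r ^ 2 := by positivity
                    rw [hc0]; linarith
                  gcongr) (by
            refine (Pm.shape ha1 b1 b3 b5).trans ?_
            have : C2 * Real.exp r ^ 2 ≤ X ^ ε := by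
              refine le_trans ?_ hXc
              have e1 : 0 < 27 * C1 ^ 2 * C4 * Real.exp r ^ 4 := by positivity
              have e2 : 0 < C2 * Real.exp r := by positivity
              rw [hc0]; linarith
            gcongr) (by nlinarith) (by
            have e1 := Pm.size (by linarith : 0 ≤ a') ha2
            have e2 : 27 * C1 ^ 2 * C4 * Real.exp r ^ 4 ≤ X := by
              refine le_trans ?_ (hlg.le.trans hXX)
              have e1 : 0 < C2 * Real.exp r := by positivity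
              have e2 : 0 < C2 * Real.exp r ^ 2 := by positivity
              rw [hc0]; linarith
            calc Λ * a' ≤ (27 * C1 ^ 2 * C4 * Real.exp r ^ 4) * X ^ 14 := e1
              _ ≤ X * X ^ 14 := by gcongr
              _ = X ^ 15 := by ring
              _ ≤ X ^ 20 := pow_le_pow_right₀ hX1 (by norm_num)
              _ = X ^ (20 : ℝ) := by rw [← Real.rpow_natCast]; norm_num) (by
            have e1 := Pm.DY
            have e2 : Real.exp (φ + 2 * n1) ≤ K * (Λ * a') := by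
              have e3 : K * (Λ * a') = C1 * X0 ^ ε1 * a' * Real.exp (φ + 2 * n1) := by
                rw [hΛ]; field_simp
              rw [e3]
              have e4 : 1 ≤ X0 ^ ε1 := Real.one_le_rpow (by linarith) hε10.le
              have e5 : 1 ≤ C1 * X0 ^ ε1 * a' := by
                calc (1 : ℝ) = 1 * 1 * 1 := by norm_num
                  _ ≤ _ := by gcongr
              exact le_mul_of_one_le_left (Real.exp_pos _).le e5
            calc Real.exp φ * 1 ^ 3 * Y ^ 4 = Real.exp φ * Y ^ 4 := by ring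
              _ ≤ Real.exp φ * (D ^ 2 * Real.exp (2 * n1)) := by gcongr
              _ = D ^ 2 * Real.exp (φ + 2 * n1) := by rw [Real.exp_add]; ring
              _ ≤ D ^ 2 * (K * (Λ * a')) := by gcongr
              _ = 1 * (D ^ 2 * K * (Λ * a')) := by ring
              _ ≤ X ^ ε * (D ^ 2 * K * (Λ * a')) := by gcongr)
        rw [← add_assoc, ← add_assoc] at h8
        have hDp : 0 < D := by linarith
        have h9 : T2 h χ l (Λ * a') Z1' Z2' (t + s1 + w1) (t + s2 + w2) ≤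
            D * (B * ((1 + |s1 + w1|) * (1 + |s2 + w2|)) ^ M) := by
          rw [one_div, inv_mul_le_iff₀ hDp] at h8
          exact h8
        refine h9.trans ?_
        calc D * (B * ((1 + |s1 + w1|) * (1 + |s2 + w2|)) ^ M)
            ≤ D * (B * (H * ((1 + |w1|) * (1 + |w2|)) ^ M)) := by
              have := ht_shift hM s1 s2 w1 w2
              gcongr
          _ = _ := by ring)
    refine hcp.trans ?_
    have hfin := Pm.fin hB hH0
    rw [ha, hc5]
    exact hfin)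
  refine hV.trans ?_
  have h1 : Y ^ ε1 ≤ X ^ ε1 := Real.rpow_le_rpow hY0.le hYX hε10.le
  have h2 : A / K = 3 * C1 * (1 + c5) * (X ^ ε1) ^ 10 * (1 + Y ^ 2 / K * B) := by
    rw [hA]; field_simp
  have h3 : X ^ ε1 * (X ^ ε1) ^ 10 ≤ X ^ ε := by
    have : X ^ ε1 * (X ^ ε1) ^ 10 = X ^ (11 * ε1) := by
      rw [← Real.rpow_natCast, ← Real.rpow_mul hX0.le, ← Real.rpow_add hX0]
      congr 1; push_cast; ring
    rw [this]
    apply Real.rpow_le_rpow_of_exponent_le hX1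
    rw [hε1]; linarith
  have h4 : 0 ≤ C3 * c0 ^ (e0 / ε') := by positivity
  calc C4 * Y ^ ε1 * (A / K) ≤ C4 * X ^ ε1 * (A / K) := by gcongr
    _ = C4 * (3 * C1 * (1 + c5)) * (X ^ ε1 * (X ^ ε1) ^ 10) * (1 + Y ^ 2 / K * B) := by
        rw [h2]; ring
    _ ≤ C4 * (3 * C1 * (1 + c5)) * X ^ ε * (1 + Y ^ 2 / K * B) := by gcongr
    _ ≤ (C3 * c0 ^ (e0 / ε') + C4 * (3 * C1 * (1 + c5))) * X ^ ε * (1 + Y ^ 2 / K * B) := by
        gcongr
        linarith

end Crest.Agent.R017.TW320
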