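import Crest.Agent.R017.Two3_939

/-!
# Row 17: two-factor theorem (4): the rule `flip`, assembly (helper939)
-/

set_option autoImplicit false

noncomputable section

open Complex MeasureTheory Filter Topology
open scoped ContDiff

namespace Crest.Agent.R017.Two939

open Crest.Agent.R012 Crest.Agent.R012.Eis Crest.Agent.R012.LS2 Crest.Agent.R012.Gauss880
open Crest.Agent.R012.Po581 Crest.Agent.R012.Div277
open Crest.Agent.R012.Weight600 (osc norm_osc)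
open Crest.Agent.R012.PSer47
open Crest.Agent.R017.End699 Crest.Agent.R017.FE47

lemma sum_pow_four_le {ι : Type*} (s : Finset ι) (x : ι → ℝ) :
    (∑ i ∈ s, x i) ^ 4 ≤ (s.card : ℝ) ^ 3 * ∑ i ∈ s, x i ^ 4 := by
  have h1 : (∑ i ∈ s, x i) ^ 2 ≤ (s.card : ℝ) * ∑ i ∈ s, x i ^ 2 := sq_sum_le_card_mul_sum_sq
  have h2 : (∑ i ∈ s, x i ^ 2) ^ 2 ≤ (s.card : ℝ) * ∑ i ∈ s, (x i ^ 2) ^ 2 := sq_sum_le_card_mul_sum_sq
  have h3 : 0 ≤ (∑ i ∈ s, x i) ^ 2 := sq_nonneg _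
  calc (∑ i ∈ s, x i) ^ 4 = ((∑ i ∈ s, x i) ^ 2) ^ 2 := by ring
    _ ≤ ((s.card : ℝ) * ∑ i ∈ s, x i ^ 2) ^ 2 := by gcongr
    _ = (s.card : ℝ) ^ 2 * (∑ i ∈ s, x i ^ 2) ^ 2 := by ring
    _ ≤ (s.card : ℝ) ^ 2 * ((s.card : ℝ) * ∑ i ∈ s, (x i ^ 2) ^ 2) := by gcongr
    _ = (s.card : ℝ) ^ 3 * ∑ i ∈ s, x i ^ 4 := by
        have : ∀ i, (x i ^ 2) ^ 2 = x i ^ 4 := fun i => by ring
        simp only [this]; ring

/-- one term of the majorant -/
def Fterm (h : ℝ → ℝ) (c : ℝ) (χ : Eis → ℂ) (l : ℤ) (ε : ℝ) (A N : ℕ) (Km Xd : ℝ) (k : Eis) : ℝ :=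
  1 + Xd ^ 2 * ∑' n : ℕ, bw ε A (Real.exp (c * n)) (Real.exp (c * n) * Xd / Km) *
    A4 h χ l k N (c * n)

lemma Fterm_nonneg (h : ℝ → ℝ) (c : ℝ) (χ : Eis → ℂ) (l : ℤ) (ε : ℝ) (A N : ℕ) {Km Xd : ℝ}
    (hK : 0 ≤ Km) (hX : 0 ≤ Xd) (k : Eis) : 0 ≤ Fterm h c χ l ε A N Km Xd k := by
  unfold Fterm
  have : 0 ≤ ∑' n : ℕ, bw ε A (Real.exp (c * n)) (Real.exp (c * n) * Xd / Km) *
    A4 h χ l k N (c * n) := tsum_nonneg fun n => mul_nonneg (bw_nonneg (by positivity)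
      (by positivity)) (A4_nonneg _ _ _ _ _ _)
  positivity

open Classical in
/-- pointwise bound for `‖P k Y t‖⁴` -/
theorem point_le {h : ℝ → ℝ} {c : ℝ} (hpu : PU h c) {M : Eis} {χ : Eis → ℂ} (hχ : HC M χ) {l : ℤ}
    (hne : NE M χ l) {A N : ℕ} (hA : 5 ≤ A) (hN : 2 ≤ N) {ε : ℝ} (hε : 0 < ε) (hε1 : ε ≤ 1 / 2) :
    ∃ (C : ℝ) (J : ℕ), 0 ≤ C ∧ ∀ K : ℝ, 0 < K → ∀ k ∈ bl K, ∃ m k' : Eis, IsPrim m ∧ k' ≠ 0 ∧
      k = k' * m ^ 3 ∧ ∀ Y t : ℝ, 0 < Y → ‖P h χ l k Y t‖ ^ 4 ≤ (tau m : ℝ) ^ 3 *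
        ∑ d ∈ (dvs m).filter Squarefree, C * (1 + |t|) ^ J *
          Fterm h c χ l ε A N (K / (nm m : ℝ) ^ 3) (Y / nm d) k' := by
  obtain ⟨C, J, hC, hF⟩ := FE4 hpu hχ hne hA hN hε hε1
  refine ⟨C, J, hC, fun K hK k hk => ?_⟩
  rw [mem_bl hK.le] at hk
  obtain ⟨hk0, hkK⟩ := hk
  obtain ⟨e, he, k1, k2, m, p1, p2, hm, s1, s2, hcop, hM, hmM, rfl⟩ := exists_dec hχ.three hk0
  have hk'0 : e * k1 * k2 ^ 2 ≠ 0 := left_ne_zero_of_mul hk0
  refine ⟨m, e * k1 * k2 ^ 2, hm, hk'0, rfl, fun Y t hY => ?_⟩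
  have hm0 : (0 : ℝ) < nm m := by
    have := nm_pos.mpr hm.ne_zero
    exact_mod_cast this
  have hKm : 0 < K / (nm m : ℝ) ^ 3 := by positivity
  have hk'N : (nm (k1 * k2) : ℝ) ≤ K / (nm m : ℝ) ^ 3 := by
    rw [le_div_iff₀ (by positivity)]
    refine le_trans ?_ hkK
    have h1 : (nm (e * k1 * k2 ^ 2 * m ^ 3) : ℝ) =
        (nm e : ℝ) * nm k2 * nm (k1 * k2) * (nm m : ℝ) ^ 3 := by
      simp only [nm_mul, nm_pow]; push_cast; ring
    rw [h1]
    have he1 : (1 : ℝ) ≤ nm e := by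
      have := nm_pos.mpr he.1
      exact_mod_cast this
    have hk21 := one_le_nm p2
    have h2 : (0 : ℝ) ≤ nm (k1 * k2) := by positivity
    calc (nm (k1 * k2) : ℝ) * (nm m : ℝ) ^ 3 = 1 * 1 * nm (k1 * k2) * (nm m : ℝ) ^ 3 := by ring
      _ ≤ _ := by gcongr
  rw [P_eq_cop h χ l p1 p2]
  have hχ' := hc_SM hχ he
  have hchar : IsChar (XK (fun b => χ b * sy e b) (kap k1 k2) l) := by
    have h1 : IsChar (kap k1 k2) := by
      refine ⟨(isCh_kap p1 p2).one, ?_, ?_⟩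
      · intro a b ha hb
        exact (isCh_kap p1 p2).mul a b
      · intro a ha
        by_cases hc : IsCoprime a (k1 * k2)
        · right
          unfold kap
          rw [norm_mul, RCLike.norm_conj, Char766.norm_sy p1 (hc.of_mul_right_left),
            Char766.norm_sy p2 (hc.of_mul_right_right), one_mul]
        · left
          exact (isCh_kap p1 p2).zero a hc
    exact (hχ'.char.mul' h1).mul' (ang_isChar l)
  have h1 := norm_PS_cop_le (cs_cx hpu.cs) hchar hm.ne_zero (Real.log Y) t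
  have hterm : ∀ d ∈ (dvs m).filter Squarefree,
      ‖PS (cx h) (XK (fun b => χ b * sy e b) (kap k1 k2) l) (Real.log Y - Real.log (nm d)) t‖ ^ 4 ≤
      C * (1 + |t|) ^ J * Fterm h c χ l ε A N (K / (nm m : ℝ) ^ 3) (Y / nm d) (e * k1 * k2 ^ 2) := by
    intro d hd
    rw [Finset.mem_filter] at hd
    have hdp := Div277.isPrim_of_mem_dvs hd.1
    have hd0 : (0 : ℝ) < nm d := by
      have := nm_pos.mpr hdp.ne_zero
      exact_mod_cast this
    have h2 := hF e he k1 k2 p1 p2 s1 s2 hcop hM (K / (nm m : ℝ) ^ 3) hKm hk'N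
      (Real.log Y - Real.log (nm d)) t
    have e1 : Real.exp (Real.log Y - Real.log (nm d)) = Y / nm d := by
      rw [Real.exp_sub, Real.exp_log hY, Real.exp_log hd0]
    rw [e1] at h2
    refine h2.trans (le_of_eq ?_)
    unfold Fterm A4
    congr 3
    refine tsum_congr fun n => ?_
    congr 1
    unfold TN4
    congr 1
    funext s
    congr 3
    refine PS_congr (fun b hb => ?_) _ _
    unfold XK
    have e2 : sy (e * k1 * k2 ^ 2) b = sy e b * kap k1 k2 b := by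
      rw [kap_eq_sy p1 p2 hb, mul_assoc, Char766.sy_mul_left hb]
    rw [e2]
    ring
  have hcard : (((dvs m).filter Squarefree).card : ℝ) ≤ tau m := by
    exact_mod_cast Finset.card_filter_le _ _
  calc ‖PS (cx h) (fun b => if IsCoprime b m then
        XK (fun b => χ b * sy e b) (kap k1 k2) l b else 0) (Real.log Y) t‖ ^ 4
      ≤ (∑ d ∈ (dvs m).filter Squarefree, ‖PS (cx h) (XK (fun b => χ b * sy e b) (kap k1 k2) l)
        (Real.log Y - Real.log (nm d)) t‖) ^ 4 := by gcongr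
    _ ≤ ((((dvs m).filter Squarefree).card : ℝ)) ^ 3 * ∑ d ∈ (dvs m).filter Squarefree,
        ‖PS (cx h) (XK (fun b => χ b * sy e b) (kap k1 k2) l)
        (Real.log Y - Real.log (nm d)) t‖ ^ 4 := sum_pow_four_le _ _
    _ ≤ (tau m : ℝ) ^ 3 * ∑ d ∈ (dvs m).filter Squarefree, C * (1 + |t|) ^ J *
          Fterm h c χ l ε A N (K / (nm m : ℝ) ^ 3) (Y / nm d) (e * k1 * k2 ^ 2) := by
        gcongr with d hd
        exact hterm d hd

lemma Fterm_sum {h : ℝ → ℝ} {c : ℝ} (hpu : PU h c) {M : Eis} {χ : Eis → ℂ} (hχ : HC M χ) (l : ℤ)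
    {ε δ Mx : ℝ} (hε : 0 < ε) (hε1 : ε ≤ 1 / 2) {p N : ℕ} (hp : 5 ≤ δ * p)
    (hN : Mx + 2 ≤ N) (hN2 : 2 ≤ N) : ∃ C : ℝ, 0 ≤ C ∧ ∀ K Xd X B : ℝ, 1 ≤ K → 0 < Xd → 1 ≤ X →
      K / Xd ≤ X → 0 ≤ B →
      (∀ n : ℕ, Real.exp (c * n) ≤ X ^ δ * (K / Xd) → ∀ s, V4 h χ l K (Real.exp (c * n)) s ≤
        B * (1 + |s|) ^ Mx) →
      ∑ k ∈ bl K, Fterm h c χ l ε (p + 5) N K Xd k ≤
        C * K * (1 + Xd ^ 2) * (X ^ (4 * ε) * (1 + B)) :=
  inner_le hpu hχ l hε hε1 hp hN hN2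

lemma bl_eq_empty {X : ℝ} (hX0 : 0 ≤ X) (hX : X < 1) : bl X = ∅ := by
  apply Finset.eq_empty_of_forall_notMem
  intro x hx
  rw [mem_bl hX0] at hx
  have := nm_pos.mpr hx.1
  have h2 : (1 : ℝ) ≤ nm x := by exact_mod_cast this
  linarith [hx.2]

/-- rule `flip` -/
theorem flip {h : ℝ → ℝ} {c : ℝ} (hpu : PU h c) {M : Eis} {χ : Eis → ℂ} (hχ : HC M χ) {l : ℤ}
    (hne : NE M χ l) : ∀ ε Mx : ℝ, 0 < ε → 0 ≤ Mx → ∃ C J : ℝ, 0 < C ∧ 0 ≤ J ∧ ∀ K Y t B : ℝ,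
    1 ≤ K → 1 ≤ Y → 0 ≤ B → K ≤ Y ^ 2 →
    (∀ K1 Z s : ℝ, 1 ≤ K1 → K1 ≤ (K * Y) ^ ε * K → 1 ≤ Z → Z ≤ (K * Y) ^ ε * Y →
      Z ^ 2 ≤ (K * Y) ^ ε * K1 → V4 h χ l K1 Z s ≤ B * (1 + |s|) ^ Mx) →
    V4 h χ l K Y t ≤ C * (K * Y) ^ ε * (1 + |t|) ^ J * (1 + B) := by
  classical
  intro ε Mx hε hMx
  set ε1 : ℝ := min (1 / 2) (ε / 4) with hε1d
  have hε1 : 0 < ε1 := lt_min (by norm_num) (by positivity)
  have hε1h : ε1 ≤ 1 / 2 := min_le_left _ _
  have hε14 : 4 * ε1 ≤ ε := by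
    have := min_le_right (1 / 2 : ℝ) (ε / 4)
    linarith
  set δ : ℝ := ε / 2 with hδd
  have hδ : 0 < δ := by positivity
  set p : ℕ := ⌈5 / δ⌉₊ with hpd
  have hp : 5 ≤ δ * p := by
    have := Nat.le_ceil (5 / δ)
    rw [div_le_iff₀ hδ] at this
    linarith
  set N : ℕ := ⌈Mx⌉₊ + 2 with hNd
  have hN : Mx + 2 ≤ N := by
    have := Nat.le_ceil Mx
    rw [hNd]; push_cast; linarith
  have hN2 : 2 ≤ N := by omega
  obtain ⟨C1, J, hC1, hpt⟩ := point_le hpu hχ hne (A := p + 5) (N := N) (by omega) hN2 hε1 hε1h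
  obtain ⟨C2, hC2, hsum⟩ := Fterm_sum hpu hχ l (δ := δ) hε1 hε1h hp hN hN2
  obtain ⟨Ct, hCt, htau⟩ := tau_le_rpow (ε := 1 / 4) (by norm_num)
  have hs2 := LatSum413.summable_nm_rpow (s := 2) (by norm_num)
  set S2 := ∑' z : Eis, (nm z : ℝ) ^ (-(2 : ℝ)) with hS2
  have hS20 : 0 ≤ S2 := tsum_nonneg fun z => by positivity
  refine ⟨2 * Ct ^ 4 * C1 * C2 * S2 + 1, J, by positivity, by positivity, ?_⟩
  intro K Y t B hK hY hB hKY hV
  have hK0 : 0 < K := by linarith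
  have hY0 : 0 < Y := by linarith
  have hX : 1 ≤ K * Y := one_le_mul_of_one_le_of_one_le hK hY
  set X := K * Y with hXd
  have hX0 : 0 < X := by linarith
  choose! mm kk hmm hkk0 hdec hbd using hpt K hK0
  set H : (Σ _ : Eis, Eis) → ℝ := fun q => (tau q.1 : ℝ) ^ 3 *
        ∑ d ∈ (dvs q.1).filter Squarefree, C1 * (1 + |t|) ^ J *
          Fterm h c χ l ε1 (p + 5) N (K / (nm q.1 : ℝ) ^ 3) (Y / nm d) q.2 with hH
  have hH0 : ∀ q, 0 ≤ H q := by
    intro q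
    refine mul_nonneg (by positivity) (Finset.sum_nonneg fun d _ => mul_nonneg (by positivity) ?_)
    exact Fterm_nonneg _ _ _ _ _ _ _ (by positivity) (by positivity) _
  set T : Finset (Σ _ : Eis, Eis) := (primBall ⌊K⌋₊).sigma (fun m => bl (K / (nm m : ℝ) ^ 3)) with hT
  -- first step: reorganise
  have step1 : ∑ k ∈ bl K, ‖P h χ l k Y t‖ ^ 4 ≤ ∑ q ∈ T, H q := by
    have h1 : ∑ k ∈ bl K, ‖P h χ l k Y t‖ ^ 4 ≤ ∑ k ∈ bl K, H ⟨mm k, kk k⟩ :=
      Finset.sum_le_sum fun k hk => hbd k hk Y t hY0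
    refine h1.trans ?_
    have hinj : Set.InjOn (fun k => (⟨mm k, kk k⟩ : Σ _ : Eis, Eis)) (bl K : Set Eis) := by
      intro a ha b hb hab
      simp only [Sigma.mk.injEq, heq_eq_eq] at hab
      rw [hdec a ha, hdec b hb, hab.1, hab.2]
    rw [← Finset.sum_image hinj]
    refine Finset.sum_le_sum_of_subset_of_nonneg ?_ fun q _ _ => hH0 q
    intro q hq
    rw [Finset.mem_image] at hq
    obtain ⟨k, hk, rfl⟩ := hq
    have hk' := (mem_bl hK0.le).mp hk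
    have hm := hmm k hk
    have hm1 := one_le_nm hm
    have hkk1 : (1 : ℝ) ≤ nm (kk k) := by
      have := nm_pos.mpr (hkk0 k hk)
      exact_mod_cast this
    have hnm : (nm k : ℝ) = nm (kk k) * (nm (mm k) : ℝ) ^ 3 := by
      conv_lhs => rw [hdec k hk]
      rw [nm_mul, nm_pow]; push_cast; ring
    have hm3 : (nm (mm k) : ℝ) ≤ (nm (mm k) : ℝ) ^ 3 := by
      calc (nm (mm k) : ℝ) = (nm (mm k) : ℝ) ^ 1 := (pow_one _).symm
        _ ≤ _ := pow_le_pow_right₀ hm1 (by norm_num)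
    rw [hT, Finset.mem_sigma]
    constructor
    · rw [mem_primBall]
      refine ⟨Nat.le_floor ?_, hm⟩
      have : (nm (mm k) : ℝ) ^ 3 ≤ nm k := by
        rw [hnm]; nlinarith [pow_pos (lt_of_lt_of_le one_pos hm1) 3]
      exact hm3.trans (this.trans hk'.2)
    · rw [mem_bl (by positivity)]
      refine ⟨hkk0 k hk, ?_⟩
      rw [le_div_iff₀ (by positivity), ← hnm]
      exact hk'.2
  -- second step: the sum over `k'` for a fixed `m`
  have step2 : ∀ m ∈ primBall ⌊K⌋₊, ∑ k' ∈ bl (K / (nm m : ℝ) ^ 3), H ⟨m, k'⟩ ≤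
      (2 * Ct ^ 4 * C1 * C2) * (1 + |t|) ^ J * (X ^ ε * (1 + B)) * (K * Y ^ 2) *
        (nm m : ℝ) ^ (-(2 : ℝ)) := by
    intro m hm
    rw [mem_primBall] at hm
    obtain ⟨-, hmp⟩ := hm
    have hm1 := one_le_nm hmp
    have hm0 : (0 : ℝ) < nm m := by linarith
    set Km : ℝ := K / (nm m : ℝ) ^ 3 with hKm
    have hKm0 : 0 < Km := by positivity
    by_cases hKm1 : Km < 1
    · rw [bl_eq_empty hKm0.le hKm1, Finset.sum_empty]
      positivity
    · have hKm1' : 1 ≤ Km := not_lt.mp hKm1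
      have hKmK : Km ≤ K := by
        rw [hKm]
        exact div_le_self hK0.le (one_le_pow₀ hm1)
      have hswap : ∑ k' ∈ bl Km, H ⟨m, k'⟩ = (tau m : ℝ) ^ 3 * ∑ d ∈ (dvs m).filter Squarefree,
          C1 * (1 + |t|) ^ J * ∑ k' ∈ bl Km, Fterm h c χ l ε1 (p + 5) N Km (Y / nm d) k' := by
        rw [hH]
        simp only
        rw [← Finset.mul_sum, Finset.sum_comm]
        congr 1
        refine Finset.sum_congr rfl fun d _ => ?_
        rw [Finset.mul_sum]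
      have hd : ∀ d ∈ (dvs m).filter Squarefree,
          ∑ k' ∈ bl Km, Fterm h c χ l ε1 (p + 5) N Km (Y / nm d) k' ≤
          C2 * Km * (2 * Y ^ 2) * (X ^ ε * (1 + B)) := by
        intro d hd
        rw [Finset.mem_filter] at hd
        have hdp := Div277.isPrim_of_mem_dvs hd.1
        have hdvd := Div277.dvd_of_mem_dvs hd.1
        have hd1 := one_le_nm hdp
        have hd0 : (0 : ℝ) < nm d := by linarith
        have hdm : (nm d : ℝ) ≤ nm m := by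
          exact_mod_cast Div277.nm_le_of_dvd hmp.ne_zero hdvd
        have hXd0 : 0 < Y / nm d := by positivity
        have hXdY : Y / nm d ≤ Y := div_le_self hY0.le hd1
        have hm2 : (nm m : ℝ) ≤ (nm m : ℝ) ^ 3 := by
          calc (nm m : ℝ) = (nm m : ℝ) ^ 1 := (pow_one _).symm
            _ ≤ _ := pow_le_pow_right₀ hm1 (by norm_num)
        have hR : Km / (Y / nm d) ≤ K / Y := by
          rw [hKm, div_div_eq_mul_div, div_mul_eq_mul_div, div_div]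
          rw [div_le_div_iff₀ (by positivity) hY0]
          have : (nm d : ℝ) ≤ (nm m : ℝ) ^ 3 := hdm.trans hm2
          calc K * nm d * Y ≤ K * (nm m : ℝ) ^ 3 * Y := by gcongr
            _ = K * ((nm m : ℝ) ^ 3 * Y) := by ring
        have hRX : Km / (Y / nm d) ≤ X := by
          refine hR.trans ?_
          rw [hXd, div_le_iff₀ hY0]
          nlinarith [mul_pos hK0 hY0]
        have hRY : Km / (Y / nm d) ≤ Y := by
          refine hR.trans ?_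
          rw [div_le_iff₀ hY0]
          nlinarith
        have hK2 : Km ≤ (Y / nm d) ^ 2 := by
          rw [hKm, div_pow, div_le_div_iff₀ (by positivity) (by positivity)]
          have h3 : (nm d : ℝ) ^ 2 ≤ (nm m : ℝ) ^ 3 := by
            calc (nm d : ℝ) ^ 2 ≤ (nm m : ℝ) ^ 2 := by gcongr
              _ ≤ _ := pow_le_pow_right₀ hm1 (by norm_num)
          calc K * (nm d : ℝ) ^ 2 ≤ Y ^ 2 * (nm m : ℝ) ^ 3 := by gcongr
            _ = _ := by ring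
        have h1 := hsum Km (Y / nm d) X B hKm1' hXd0 hX hRX hB ?_
        · refine h1.trans ?_
          have h4 : X ^ (4 * ε1) ≤ X ^ ε := Real.rpow_le_rpow_of_exponent_le hX hε14
          have h5 : 1 + (Y / nm d) ^ 2 ≤ 2 * Y ^ 2 := by
            have : (Y / nm d) ^ 2 ≤ Y ^ 2 := by gcongr
            have : 1 ≤ Y ^ 2 := one_le_pow₀ hY
            linarith
          gcongr
        · intro n hn s
          have hcn : 0 ≤ c * (n : ℝ) := mul_nonneg hpu.cpos.le (Nat.cast_nonneg _)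
          have hZ1 : 1 ≤ Real.exp (c * n) := Real.one_le_exp hcn
          have hXδ : X ^ δ ≤ X ^ ε := Real.rpow_le_rpow_of_exponent_le hX (by rw [hδd]; linarith)
          have hXε1 : 1 ≤ X ^ ε := Real.one_le_rpow hX hε.le
          refine hV Km (Real.exp (c * n)) s hKm1' ?_ hZ1 ?_ ?_
          · calc Km ≤ K := hKmK
              _ = 1 * K := (one_mul K).symm
              _ ≤ X ^ ε * K := by gcongr
          · calc Real.exp (c * n) ≤ X ^ δ * (Km / (Y / nm d)) := hn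
              _ ≤ X ^ ε * Y := by gcongr
          · have h6 : (Km / (Y / nm d)) ^ 2 ≤ Km := by
              rw [div_pow, div_le_iff₀ (by positivity), sq]
              gcongr
            have h7 : (X ^ δ) ^ 2 = X ^ ε := by
              rw [← Real.rpow_natCast (X ^ δ) 2, ← Real.rpow_mul hX0.le]
              congr 1; rw [hδd]; push_cast; ring
            calc Real.exp (c * n) ^ 2 ≤ (X ^ δ * (Km / (Y / nm d))) ^ 2 := by gcongr
              _ = (X ^ δ) ^ 2 * (Km / (Y / nm d)) ^ 2 := by ring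
              _ ≤ X ^ ε * Km := by rw [h7]; gcongr
      have hXe : 0 ≤ X ^ ε * (1 + B) := by positivity
      have hcard : (((dvs m).filter Squarefree).card : ℝ) ≤ tau m := by
        exact_mod_cast Finset.card_filter_le _ _
      have ht4 : (tau m : ℝ) ^ 4 ≤ Ct ^ 4 * nm m := by
        have h8 := htau m hmp.ne_zero
        calc (tau m : ℝ) ^ 4 ≤ (Ct * (nm m : ℝ) ^ (1 / 4 : ℝ)) ^ 4 := by gcongr
          _ = Ct ^ 4 * ((nm m : ℝ) ^ (1 / 4 : ℝ)) ^ 4 := by ring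
          _ = Ct ^ 4 * nm m := by
              rw [← Real.rpow_natCast ((nm m : ℝ) ^ (1 / 4 : ℝ)) 4, ← Real.rpow_mul hm0.le]
              norm_num
      rw [hswap]
      calc (tau m : ℝ) ^ 3 * ∑ d ∈ (dvs m).filter Squarefree,
          C1 * (1 + |t|) ^ J * ∑ k' ∈ bl Km, Fterm h c χ l ε1 (p + 5) N Km (Y / nm d) k'
          ≤ (tau m : ℝ) ^ 3 * ∑ d ∈ (dvs m).filter Squarefree,
          C1 * (1 + |t|) ^ J * (C2 * Km * (2 * Y ^ 2) * (X ^ ε * (1 + B))) := by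
            gcongr with d hd'
            exact hd d hd'
        _ = (tau m : ℝ) ^ 3 * ((((dvs m).filter Squarefree).card : ℝ) *
            (C1 * (1 + |t|) ^ J * (C2 * Km * (2 * Y ^ 2) * (X ^ ε * (1 + B))))) := by
            rw [Finset.sum_const, nsmul_eq_mul]
        _ ≤ (tau m : ℝ) ^ 3 * ((tau m : ℝ) *
            (C1 * (1 + |t|) ^ J * (C2 * Km * (2 * Y ^ 2) * (X ^ ε * (1 + B))))) := by
            gcongr
        _ = (tau m : ℝ) ^ 4 * (C1 * (1 + |t|) ^ J * (C2 * Km * (2 * Y ^ 2) * (X ^ ε * (1 + B)))) := by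
            ring
        _ ≤ (Ct ^ 4 * nm m) * (C1 * (1 + |t|) ^ J * (C2 * Km * (2 * Y ^ 2) * (X ^ ε * (1 + B)))) := by
            gcongr
        _ = _ := by
            rw [hKm, Real.rpow_neg hm0.le, Real.rpow_two]
            field_simp
  have step3 : ∑ q ∈ T, H q ≤ (2 * Ct ^ 4 * C1 * C2) * (1 + |t|) ^ J * (X ^ ε * (1 + B)) *
      (K * Y ^ 2) * S2 := by
    rw [hT, Finset.sum_sigma]
    calc ∑ m ∈ primBall ⌊K⌋₊, ∑ k' ∈ bl (K / (nm m : ℝ) ^ 3), H ⟨m, k'⟩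
        ≤ ∑ m ∈ primBall ⌊K⌋₊, (2 * Ct ^ 4 * C1 * C2) * (1 + |t|) ^ J * (X ^ ε * (1 + B)) *
          (K * Y ^ 2) * (nm m : ℝ) ^ (-(2 : ℝ)) := Finset.sum_le_sum step2
      _ = (2 * Ct ^ 4 * C1 * C2) * (1 + |t|) ^ J * (X ^ ε * (1 + B)) *
          (K * Y ^ 2) * ∑ m ∈ primBall ⌊K⌋₊, (nm m : ℝ) ^ (-(2 : ℝ)) := by rw [Finset.mul_sum]
      _ ≤ _ := by
          gcongr
          exact hs2.sum_le_tsum _ fun z _ => by positivity
  unfold V4
  rw [div_le_iff₀ (by positivity)]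
  refine (step1.trans step3).trans ?_
  rw [Real.rpow_natCast]
  have hb : 0 ≤ (1 + |t|) ^ J * (X ^ ε * (1 + B)) * (K * Y ^ 2) := by positivity
  calc (2 * Ct ^ 4 * C1 * C2) * (1 + |t|) ^ J * (X ^ ε * (1 + B)) * (K * Y ^ 2) * S2
      = (2 * Ct ^ 4 * C1 * C2 * S2) * ((1 + |t|) ^ J * (X ^ ε * (1 + B)) * (K * Y ^ 2)) := by ring
    _ ≤ (2 * Ct ^ 4 * C1 * C2 * S2 + 1) * ((1 + |t|) ^ J * (X ^ ε * (1 + B)) * (K * Y ^ 2)) := by
        gcongr
        linarith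
    _ = _ := by ring

end Crest.Agent.R017.Two939
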