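import Crest.Agent.R017.Two6_939

/-!
# Row 17: two-factor theorem (7): the rule `monoG` (helper939)
-/

set_option autoImplicit false

noncomputable section

open Complex MeasureTheory Filter Topology
open scoped ContDiff

namespace Crest.Agent.R017.Two939

open Crest.Agent.R012 Crest.Agent.R012.Eis Crest.Agent.R012.LS2 Crest.Agent.R012.Gauss880
open Crest.Agent.R012.Weight600 (osc norm_osc ker)
open Crest.Agent.R012.PSer47 Crest.Agent.R012.Div277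
open Crest.Agent.R017.End699 Crest.Agent.R017.FE47

/-- unnormalised second moment -/
def U2 (h : ℝ → ℝ) (χ : Eis → ℂ) (l : ℤ) (L Y1 Y2 t1 t2 : ℝ) : ℝ :=
  ∑ k ∈ bl L, ‖TG h χ l k Y1 Y2 t1 t2‖ ^ 2

lemma U2_eq (h : ℝ → ℝ) (χ : Eis → ℂ) (l : ℤ) {L Y1 Y2 : ℝ} (hL : 0 < L) (h1 : 0 < Y1)
    (h2 : 0 < Y2) (t1 t2 : ℝ) :
    U2 h χ l L Y1 Y2 t1 t2 = (L * Y1 * Y2) * T2 h χ l L Y1 Y2 t1 t2 := by
  unfold U2 T2
  field_simp

open Classical in
/-- number of primes dividing `k` -/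
lemma card_primes_dvd_le {P : Finset Eis} (hP : ∀ p ∈ P, IsPrim p) {k : Eis} (hk : k ≠ 0) :
    ((P.filter (fun p => p ∣ k)).card : ℝ) ≤ tau k := by
  unfold tau
  have : P.filter (fun p => p ∣ k) ⊆ dvs k := by
    intro p hp
    rw [Finset.mem_filter] at hp
    exact (mem_dvs hk).mpr ⟨hP p hp.1, hp.2⟩
  exact_mod_cast Finset.card_le_card this

/-- merging over a set of primes -/
lemma merge {P : Finset Eis} (hP : ∀ p ∈ P, IsPrim p) {L B : ℝ} (hL : 0 ≤ L) {j : ℕ}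
    (hj : j ≠ 0) (hB : 0 ≤ B) (hPB : ∀ p ∈ P, (nm p : ℝ) ^ j ≤ B) {f : Eis → ℝ}
    (hf : ∀ k, 0 ≤ f k) {D : ℝ} (hD : ∀ k ∈ bl (L * B), (tau k : ℝ) ≤ D) :
    ∑ p ∈ P, ∑ k ∈ bl L, f (k * p ^ j) ≤ D * ∑ k ∈ bl (L * B), f k := by
  classical
  refine sum_mul_pow_le (fun p hp => (hP p hp).ne_zero) hL hj hB hPB hf fun k hk => ?_
  have hk0 := ((mem_bl (by positivity)).mp hk).1
  refine le_trans ?_ (hD k hk)
  convert card_primes_dvd_le hP hk0

/-- the second part of `monoG`, first variable, all primes of one range -/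
lemma part_le {h : ℝ → ℝ} {c : ℝ} (hpu : PU h c) (χ : Eis → ℂ) (l : ℤ) {R : ℝ} (hR0 : 0 ≤ R)
    (hR : ∀ u, cx h u ≠ 0 → |u| ≤ R) {M : ℝ} (hM : 0 ≤ M) : ∃ C : ℝ, 0 ≤ C ∧
    ∀ (P : Finset Eis) (L Y1 Y2 P0 t1 t2 B D : ℝ), 0 < L → 0 < Y1 → 0 < Y2 → 1 ≤ P0 → 0 ≤ B → 0 ≤ D →
      (∀ p ∈ P, IsPrim p ∧ P0 / Real.exp 1 ≤ nm p ∧ (nm p : ℝ) ≤ P0) →
      (∀ k ∈ bl (L * P0), (tau k : ℝ) ≤ D) →
      (∀ Z s : ℝ, 1 ≤ Z → Z ≤ Real.exp (2 * R + 1) * (Y1 / P0) →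
        T2 h χ l (L * P0) Z Y2 (t1 + s) t2 ≤ B * (1 + |s|) ^ M) →
      ∑ p ∈ P, ∑ k ∈ bl L, ‖TG h χ l (k * p) (Y1 / nm p) Y2 t1 t2‖ ^ 2 ≤
        C * D * B * (L * Y1 * Y2) := by
  classical
  have hki := Weight600.ker_integrable (cd_cx hpu.cd) (cs_cx hpu.cs)
  set K : ℕ := ⌈M⌉₊ + 2 with hK
  obtain ⟨Ck, hCk, hdec⟩ := Weight600.ker_decay (cd_cx hpu.cd) (cs_cx hpu.cs) K
  set I0 := ∫ u, ‖ker (cx h) u‖ with hI0
  have hI0n : 0 ≤ I0 := integral_nonneg fun _ => norm_nonneg _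
  set I2 := ∫ s : ℝ, ((1 + |s|) ^ 2)⁻¹ with hI2
  have hI2n : 0 ≤ I2 := integral_nonneg fun _ => by positivity
  -- number of scales
  set W : ℝ := 2 * (2 * R + 1) / c + 1 with hW
  have hc := hpu.cpos
  have hW0 : 0 ≤ W := by positivity
  refine ⟨W ^ 2 * I0 * (Ck * I2 * Real.exp (2 * R + 1)), by positivity, ?_⟩
  intro P L Y1 Y2 P0 t1 t2 B D hL hY1 hY2 hP0 hB hD hP hDk hT
  have hP00 : 0 < P0 := by linarith
  set κ := Real.log (Y1 / P0) with hκ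
  -- the scales
  set S : Finset ℕ := (Finset.range (⌈(κ + (2 * R + 1)) / c⌉₊ + 1)).filter
    (fun n : ℕ => |c * n - κ| ≤ 2 * R + 1) with hS
  have hmemS : ∀ n : ℕ, |c * n - κ| ≤ 2 * R + 1 → n ∈ S := by
    intro n hn
    rw [hS, Finset.mem_filter, Finset.mem_range]
    refine ⟨?_, hn⟩
    have h1 := (abs_le.mp hn).2
    have h2 : (n : ℝ) ≤ (κ + (2 * R + 1)) / c := by
      rw [le_div_iff₀ hc]; linarith
    have h3 : (n : ℝ) ≤ ⌈(κ + (2 * R + 1)) / c⌉₊ := h2.trans (Nat.le_ceil _)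
    have h4 : n ≤ ⌈(κ + (2 * R + 1)) / c⌉₊ := by exact_mod_cast h3
    omega
  have hS' : ∀ n ∈ S, |c * n - κ| ≤ 2 * R + 1 := by
    intro n hn
    rw [hS, Finset.mem_filter] at hn
    exact hn.2
  have hcardS : (S.card : ℝ) ≤ W := by
    rcases S.eq_empty_or_nonempty with he | hne
    · rw [he]; simpa using hW0
    · set a := S.min' hne with ha
      set b := S.max' hne with hb
      have ha' := S.min'_mem hne
      have hb' := S.max'_mem hne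
      have hsub : S ⊆ Finset.Icc a b := fun n hn =>
        Finset.mem_Icc.mpr ⟨S.min'_le n hn, S.le_max' n hn⟩
      have h1 : (S.card : ℝ) ≤ (b : ℝ) - a + 1 := by
        have h2 := Finset.card_le_card hsub
        rw [Nat.card_Icc] at h2
        have hab : a ≤ b := S.min'_le b hb'
        have h3 : (S.card : ℝ) ≤ ((b + 1 - a : ℕ) : ℝ) := by exact_mod_cast h2
        rw [Nat.cast_sub (by omega)] at h3
        push_cast at h3
        linarith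
      have h4 := (abs_le.mp (hS' _ ha')).1
      have h5 := (abs_le.mp (hS' _ hb')).2
      have h6 : c * ((b : ℝ) - a) ≤ 2 * (2 * R + 1) := by
        have : c * ((b : ℝ) - a) = (c * b - κ) - (c * a - κ) := by ring
        rw [this]; linarith
      have h7 : (b : ℝ) - a ≤ 2 * (2 * R + 1) / c := by
        rw [le_div_iff₀ hc]; linarith
      rw [hW]; linarith
  have hZle : ∀ n ∈ S, Real.exp (c * n) ≤ Real.exp (2 * R + 1) * (Y1 / P0) := by
    intro n hn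
    rw [hS, Finset.mem_filter] at hn
    have h1 := (abs_le.mp hn.2).2
    have h2 : Y1 / P0 = Real.exp κ := by rw [hκ, Real.exp_log (by positivity)]
    rw [h2, ← Real.exp_add]
    apply Real.exp_le_exp.mpr
    linarith
  have hpS : ∀ p ∈ P, ∀ n : ℕ, |c * n - Real.log (Y1 / nm p)| ≤ 2 * R → n ∈ S := by
    intro p hp n hn
    obtain ⟨hpp, h1, h2⟩ := hP p hp
    have hp1 := one_le_nm hpp
    have hp0 : (0 : ℝ) < nm p := by linarith
    apply hmemS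
    have e1 : Real.log (Y1 / nm p) = κ + (Real.log P0 - Real.log (nm p)) := by
      rw [hκ, Real.log_div hY1.ne' hp0.ne', Real.log_div hY1.ne' hP00.ne']; ring
    have h3 : 0 ≤ Real.log P0 - Real.log (nm p) := by
      have := Real.log_le_log hp0 h2
      linarith
    have h4 : Real.log P0 - Real.log (nm p) ≤ 1 := by
      have h5 := Real.log_le_log (by positivity) h1
      rw [Real.log_div hP00.ne' (Real.exp_pos 1).ne', Real.log_exp] at h5
      linarith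
    rw [e1] at hn
    rw [abs_le] at hn ⊢
    constructor <;> linarith [hn.1, hn.2]
  -- pointwise
  have hpt : ∀ p ∈ P, ∀ k : Eis, ‖TG h χ l (k * p) (Y1 / nm p) Y2 t1 t2‖ ^ 2 ≤ W * I0 *
      ∑ n ∈ S, ∫ u : ℝ, ‖ker (cx h) u‖ *
        ‖TG h χ l (k * p) (Real.exp (c * n)) Y2 (t1 + u) t2‖ ^ 2 := by
    intro p hp k
    refine (TG_sep_sq hpu χ l hR S (hpS p hp) (k * p) Y2 t1 t2).trans ?_
    have : 0 ≤ ∑ n ∈ S, ∫ u : ℝ, ‖ker (cx h) u‖ *
        ‖TG h χ l (k * p) (Real.exp (c * n)) Y2 (t1 + u) t2‖ ^ 2 :=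
      Finset.sum_nonneg fun n _ => integral_nonneg fun u => by positivity
    gcongr
  have hint : ∀ (n : ℕ) (k : Eis), Integrable (fun u : ℝ => ‖ker (cx h) u‖ *
      ‖TG h χ l k (Real.exp (c * n)) Y2 (t1 + u) t2‖ ^ 2) := by
    intro n k
    obtain ⟨C, hC⟩ := norm_TG_bdd hpu.cs χ l k (Real.exp (c * n)) Y2
    have hcont : Continuous fun u => TG h χ l k (Real.exp (c * n)) Y2 (t1 + u) t2 :=
      (continuous_TG1 hpu.cs χ l k (Real.exp (c * n)) Y2 t2).comp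
        (continuous_const.add continuous_id)
    exact hki.norm.mul_bdd (c := C ^ 2) (hcont.norm.pow 2).aestronglyMeasurable
      (Eventually.of_forall fun u => by
        rw [norm_pow, norm_norm]
        have := hC (t1 + u) t2
        gcongr)
  -- one scale
  have hscale : ∀ n ∈ S, ∑ p ∈ P, ∑ k ∈ bl L, ∫ u : ℝ, ‖ker (cx h) u‖ *
        ‖TG h χ l (k * p) (Real.exp (c * n)) Y2 (t1 + u) t2‖ ^ 2 ≤
      D * (Ck * I2 * Real.exp (2 * R + 1)) * B * (L * Y1 * Y2) := by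
    intro n hn
    have hZ1 : 1 ≤ Real.exp (c * n) := Real.one_le_exp (mul_nonneg hc.le (Nat.cast_nonneg _))
    have hZ0 := Real.exp_pos (c * n)
    have hm := merge (fun p hp => (hP p hp).1) hL.le one_ne_zero hP00.le
      (fun p hp => by rw [pow_one]; exact (hP p hp).2.2)
      (f := fun k => ∫ u : ℝ, ‖ker (cx h) u‖ *
        ‖TG h χ l k (Real.exp (c * n)) Y2 (t1 + u) t2‖ ^ 2)
      (fun k => integral_nonneg fun u => by positivity) hDk
    simp only [pow_one] at hm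
    refine hm.trans ?_
    rw [← integral_finsetSum _ fun k _ => hint n k]
    have h1 : ∫ u : ℝ, ∑ k ∈ bl (L * P0), ‖ker (cx h) u‖ *
        ‖TG h χ l k (Real.exp (c * n)) Y2 (t1 + u) t2‖ ^ 2 ≤
        ∫ u : ℝ, (Ck * B * (L * P0 * Real.exp (c * n) * Y2)) * ((1 + |u|) ^ 2)⁻¹ := by
      apply integral_mono (integrable_finsetSum _ fun k _ => hint n k)
        ((integrable_wt le_rfl).const_mul _)
      intro u
      have hu1 : 1 ≤ 1 + |u| := by linarith [abs_nonneg u]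
      have hu0 : 0 < 1 + |u| := by linarith
      beta_reduce
      rw [← Finset.mul_sum]
      have h2 : ∑ k ∈ bl (L * P0), ‖TG h χ l k (Real.exp (c * n)) Y2 (t1 + u) t2‖ ^ 2 =
          (L * P0 * Real.exp (c * n) * Y2) * T2 h χ l (L * P0) (Real.exp (c * n)) Y2 (t1 + u) t2 :=
        U2_eq h χ l (by positivity) hZ0 hY2 _ _
      rw [h2]
      have h3 := hT (Real.exp (c * n)) u hZ1 (hZle n hn)
      have h4 := hdec u
      have h5 : ‖ker (cx h) u‖ ≤ Ck * ((1 + |u|) ^ K)⁻¹ := by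
        rw [← div_eq_mul_inv, le_div_iff₀ (by positivity)]
        exact h4
      have h6 : ((1 + |u|) ^ K)⁻¹ * (1 + |u|) ^ M ≤ ((1 + |u|) ^ 2)⁻¹ := by
        rw [← Real.rpow_natCast (1 + |u|) K, ← Real.rpow_neg hu0.le, ← Real.rpow_add hu0,
          ← Real.rpow_natCast (1 + |u|) 2, ← Real.rpow_neg hu0.le]
        apply Real.rpow_le_rpow_of_exponent_le hu1
        have := Nat.le_ceil M
        rw [hK]
        push_cast
        linarith
      calc ‖ker (cx h) u‖ * ((L * P0 * Real.exp (c * n) * Y2) *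
            T2 h χ l (L * P0) (Real.exp (c * n)) Y2 (t1 + u) t2)
          ≤ (Ck * ((1 + |u|) ^ K)⁻¹) * ((L * P0 * Real.exp (c * n) * Y2) *
            (B * (1 + |u|) ^ M)) := by
            have hTn := T2_nonneg h χ l (L := L * P0) (by positivity) hZ0.le hY2.le (t1 + u) t2
            gcongr
        _ = (Ck * B * (L * P0 * Real.exp (c * n) * Y2)) * (((1 + |u|) ^ K)⁻¹ * (1 + |u|) ^ M) := by
            ring
        _ ≤ _ := by gcongr
    have h7 : Real.exp (c * n) * P0 ≤ Real.exp (2 * R + 1) * Y1 := by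
      have := hZle n hn
      calc Real.exp (c * n) * P0 ≤ (Real.exp (2 * R + 1) * (Y1 / P0)) * P0 := by gcongr
        _ = _ := by field_simp
    calc D * ∫ u : ℝ, ∑ k ∈ bl (L * P0), ‖ker (cx h) u‖ *
        ‖TG h χ l k (Real.exp (c * n)) Y2 (t1 + u) t2‖ ^ 2
        ≤ D * ∫ u : ℝ, (Ck * B * (L * P0 * Real.exp (c * n) * Y2)) * ((1 + |u|) ^ 2)⁻¹ := by gcongr
      _ = D * ((Ck * B * (L * (Real.exp (c * n) * P0) * Y2)) * I2) := by
          rw [integral_const_mul]; ring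
      _ ≤ D * ((Ck * B * (L * (Real.exp (2 * R + 1) * Y1) * Y2)) * I2) := by gcongr
      _ = _ := by ring
  -- assembly
  calc ∑ p ∈ P, ∑ k ∈ bl L, ‖TG h χ l (k * p) (Y1 / nm p) Y2 t1 t2‖ ^ 2
      ≤ ∑ p ∈ P, ∑ k ∈ bl L, W * I0 * ∑ n ∈ S, ∫ u : ℝ, ‖ker (cx h) u‖ *
        ‖TG h χ l (k * p) (Real.exp (c * n)) Y2 (t1 + u) t2‖ ^ 2 :=
        Finset.sum_le_sum fun p hp => Finset.sum_le_sum fun k _ => hpt p hp k
    _ = W * I0 * ∑ n ∈ S, ∑ p ∈ P, ∑ k ∈ bl L, ∫ u : ℝ, ‖ker (cx h) u‖ *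
        ‖TG h χ l (k * p) (Real.exp (c * n)) Y2 (t1 + u) t2‖ ^ 2 := by
        simp_rw [← Finset.mul_sum]
        congr 1
        calc _ = ∑ p ∈ P, ∑ n ∈ S, ∑ k ∈ bl L, ∫ u : ℝ, ‖ker (cx h) u‖ *
              ‖TG h χ l (k * p) (Real.exp (c * n)) Y2 (t1 + u) t2‖ ^ 2 :=
              Finset.sum_congr rfl fun p _ => Finset.sum_comm
          _ = _ := Finset.sum_comm
    _ ≤ W * I0 * ∑ n ∈ S, D * (Ck * I2 * Real.exp (2 * R + 1)) * B * (L * Y1 * Y2) := by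
        gcongr with n hn
        exact hscale n hn
    _ = W * I0 * ((S.card : ℝ) * (D * (Ck * I2 * Real.exp (2 * R + 1)) * B * (L * Y1 * Y2))) := by
        rw [Finset.sum_const, nsmul_eq_mul]
    _ ≤ W * I0 * (W * (D * (Ck * I2 * Real.exp (2 * R + 1)) * B * (L * Y1 * Y2))) := by
        gcongr
    _ = _ := by ring

/-- rule `monoG` (independent shifts of the heights) -/
theorem monoG {h : ℝ → ℝ} {c : ℝ} (hpu : PU h c) {M : Eis} {χ : Eis → ℂ} (hχ : HC M χ) (l : ℤ) :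
    ∀ ε Mx : ℝ, 0 < ε → 0 ≤ Mx → ∃ C : ℝ, 0 < C ∧ ∀ L Y1 Y2 P t1 t2 B1 B2 : ℝ,
    1 ≤ L → 1 ≤ Y1 → 1 ≤ Y2 → 1 ≤ P → 0 ≤ B1 → 0 ≤ B2 →
    (∀ L' s1 s2 : ℝ, L * P ^ 3 ≤ L' → L' ≤ (L * P * Y1 * Y2) ^ ε * (L * P ^ 3) →
      T2 h χ l L' Y1 Y2 (t1 + s1) (t2 + s2) ≤ B1 * ((1 + |s1|) * (1 + |s2|)) ^ Mx) →
    (∀ L' Z1 Z2 s1 s2 : ℝ, 1 ≤ L' → L * P ≤ (L * P * Y1 * Y2) ^ ε * L' →
      L' ≤ (L * P * Y1 * Y2) ^ (10 : ℝ) →
      1 ≤ Z1 → Z1 ≤ (L * P * Y1 * Y2) ^ ε * Y1 → 1 ≤ Z2 → Z2 ≤ (L * P * Y1 * Y2) ^ ε * Y2 →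
      Z1 * Z2 * P ≤ (L * P * Y1 * Y2) ^ ε * (Y1 * Y2) →
      T2 h χ l L' Z1 Z2 (t1 + s1) (t2 + s2) ≤ B2 * ((1 + |s1|) * (1 + |s2|)) ^ Mx) →
    T2 h χ l L Y1 Y2 t1 t2 ≤ C * (L * P * Y1 * Y2) ^ ε * (P ^ 2 * B1 + B2 / P) := by
  classical
  intro ε Mx hε hMx
  obtain ⟨R, hR0, hR⟩ := exists_R (cs_cx hpu.cs)
  obtain ⟨C3, hC3, hpart⟩ := part_le hpu χ l hR0 hR hMx
  set ε0 : ℝ := ε / 4 with hε0d
  have hε0 : 0 < ε0 := by positivity
  obtain ⟨Ct, hCt, htau⟩ := tau_le_rpow (ε := ε0 / 3) (by positivity)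
  obtain ⟨c0, hc0, κ0, hκ0, hcard⟩ := PLow271.card_shortP (a := -1) (b := 0) (by norm_num)
  set P0 : ℝ := max (Real.exp κ0) (Real.exp ((2 * R + 1) / ε)) with hP0d
  have hP0 : 0 < P0 := lt_max_of_lt_left (Real.exp_pos _)
  set C4 : ℝ := 3 * Ct / (c0 * ε0) with hC4
  have hC40 : 0 ≤ C4 := by positivity
  refine ⟨P0 + C4 * (1 + 2 * C3), by positivity, ?_⟩
  intro L Y1 Y2 P t1 t2 B1 B2 hL hY1 hY2 hP hB1 hB2 hH1 hH2
  have hL0 : 0 < L := by linarith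
  have hY10 : 0 < Y1 := by linarith
  have hY20 : 0 < Y2 := by linarith
  have hPp : 0 < P := by linarith
  have hX : 1 ≤ L * P * Y1 * Y2 := one_le_mul_of_one_le_of_one_le
    (one_le_mul_of_one_le_of_one_le (one_le_mul_of_one_le_of_one_le hL hP) hY1) hY2
  set X := L * P * Y1 * Y2 with hXd
  have hX0 : 0 < X := by linarith
  have hXε : 1 ≤ X ^ ε := Real.one_le_rpow hX hε.le
  have hP3 : 1 ≤ P ^ 3 := one_le_pow₀ hP
  have hLP3 : 0 < L * P ^ 3 := by positivity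
  -- the long family
  have hlong : T2 h χ l (L * P ^ 3) Y1 Y2 t1 t2 ≤ B1 := by
    have h1 := hH1 (L * P ^ 3) 0 0 le_rfl (by
      calc L * P ^ 3 = 1 * (L * P ^ 3) := (one_mul _).symm
        _ ≤ X ^ ε * (L * P ^ 3) := by gcongr)
    simpa using h1
  have hU3 : U2 h χ l (L * P ^ 3) Y1 Y2 t1 t2 ≤ (L * Y1 * Y2) * (P ^ 3 * B1) := by
    rw [U2_eq h χ l hLP3 hY10 hY20]
    calc L * P ^ 3 * Y1 * Y2 * T2 h χ l (L * P ^ 3) Y1 Y2 t1 t2
        ≤ L * P ^ 3 * Y1 * Y2 * B1 := by gcongr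
      _ = _ := by ring
  have hN0 : 0 < L * Y1 * Y2 := by positivity
  have hT2 : T2 h χ l L Y1 Y2 t1 t2 = U2 h χ l L Y1 Y2 t1 t2 / (L * Y1 * Y2) := rfl
  have hB20 : 0 ≤ B2 / P := by positivity
  have hB10 : 0 ≤ P ^ 2 * B1 := by positivity
  by_cases hPP : P < P0
  · -- short range of `P`
    have h1 : U2 h χ l L Y1 Y2 t1 t2 ≤ U2 h χ l (L * P ^ 3) Y1 Y2 t1 t2 := by
      unfold U2
      refine Finset.sum_le_sum_of_subset_of_nonneg ?_ fun k _ _ => by positivity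
      intro k hk
      rw [mem_bl hL0.le] at hk
      rw [mem_bl hLP3.le]
      exact ⟨hk.1, hk.2.trans (le_mul_of_one_le_right hL0.le hP3)⟩
    have h2 : T2 h χ l L Y1 Y2 t1 t2 ≤ P ^ 3 * B1 := by
      rw [hT2, div_le_iff₀ hN0]
      calc U2 h χ l L Y1 Y2 t1 t2 ≤ (L * Y1 * Y2) * (P ^ 3 * B1) := h1.trans hU3
        _ = _ := by ring
    calc T2 h χ l L Y1 Y2 t1 t2 ≤ P ^ 3 * B1 := h2
      _ = P * (P ^ 2 * B1) := by ring
      _ ≤ P0 * (P ^ 2 * B1) := by gcongr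
      _ ≤ (P0 + C4 * (1 + 2 * C3)) * (P ^ 2 * B1 + B2 / P) := by
          have : 0 ≤ C4 * (1 + 2 * C3) := by positivity
          gcongr
          · linarith
          · linarith
      _ = (P0 + C4 * (1 + 2 * C3)) * 1 * (P ^ 2 * B1 + B2 / P) := by ring
      _ ≤ _ := by gcongr
  · -- many primes
    have hPge : P0 ≤ P := not_lt.mp hPP
    set κ := Real.log P with hκ
    have hPe : Real.exp κ = P := Real.exp_log hPp
    have hκκ : κ0 ≤ κ := by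
      rw [← Real.log_exp κ0]
      exact Real.log_le_log (Real.exp_pos _) ((le_max_left _ _).trans hPge)
    have hκ1 : 1 ≤ κ := hκ0.trans hκκ
    have hκpos : 0 < κ := by linarith
    set Ps := PLow271.shortP (-1) 0 κ with hPs
    have hmem : ∀ p ∈ Ps, (Prime p ∧ IsPrim p) ∧ P / Real.exp 1 ≤ nm p ∧ (nm p : ℝ) ≤ P := by
      intro p hp
      rw [hPs, PLow271.mem_shortP] at hp
      refine ⟨hp.1, ?_, ?_⟩
      · have h1 := hp.2.1
        rw [Real.exp_add, hPe, Real.exp_neg] at h1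
        rw [div_eq_mul_inv]
        exact h1.le
      · have h1 := hp.2.2
        rw [add_zero, hPe] at h1
        exact h1
    -- the number of primes
    have hPX : P ≤ X := by
      rw [hXd]
      calc P = 1 * P * 1 * 1 := by ring
        _ ≤ L * P * Y1 * Y2 := by gcongr
    have hLX : L ≤ X := by
      rw [hXd]
      calc L = L * 1 * 1 * 1 := by ring
        _ ≤ L * P * Y1 * Y2 := by gcongr
    have hcardP : c0 * ε0 * P / X ^ ε0 ≤ (Ps.card : ℝ) := by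
      have h1 := hcard κ hκκ
      rw [hPe] at h1
      refine le_trans ?_ h1
      have h2 : κ ≤ X ^ ε0 / ε0 := by
        calc κ ≤ P ^ ε0 / ε0 := Real.log_le_rpow_div hPp.le hε0
          _ ≤ X ^ ε0 / ε0 := by gcongr
      rw [show c0 * (P / κ) = (c0 * P) / κ by ring, div_le_div_iff₀ (by positivity) hκpos]
      have h3 : ε0 * κ ≤ X ^ ε0 := by
        rw [le_div_iff₀ hε0] at h2; linarith
      calc c0 * ε0 * P * κ = c0 * P * (ε0 * κ) := by ring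
        _ ≤ c0 * P * X ^ ε0 := by gcongr
    have hcardpos : 0 < (Ps.card : ℝ) := lt_of_lt_of_le (by positivity) hcardP
    -- divisor bound
    set D := Ct * X ^ (2 * ε0) with hD
    have hXe : 0 < X ^ (2 * ε0) := by positivity
    have hD0 : 0 ≤ D := by positivity
    have htauX : ∀ k : Eis, k ≠ 0 → (nm k : ℝ) ≤ X ^ (4 : ℕ) → (tau k : ℝ) ≤ D := by
      intro k hk hkX
      have hk0 : (0 : ℝ) ≤ nm k := by positivity
      calc (tau k : ℝ) ≤ Ct * (nm k : ℝ) ^ (ε0 / 3) := htau k hk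
        _ ≤ Ct * (X ^ (4 : ℕ)) ^ (ε0 / 3) := by gcongr
        _ = Ct * X ^ (4 * (ε0 / 3)) := by
            rw [← Real.rpow_natCast X 4, ← Real.rpow_mul hX0.le]; norm_num
        _ ≤ D := by
            rw [hD]
            have := Real.rpow_le_rpow_of_exponent_le hX (show 4 * (ε0 / 3) ≤ 2 * ε0 by linarith)
            gcongr
    have hD3 : ∀ k ∈ bl (L * P ^ 3), (tau k : ℝ) ≤ D := by
      intro k hk
      rw [mem_bl hLP3.le] at hk
      refine htauX k hk.1 (hk.2.trans ?_)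
      calc L * P ^ 3 ≤ X * X ^ 3 := by gcongr
        _ = X ^ (4 : ℕ) := by ring
    have hD1 : ∀ k ∈ bl (L * P), (tau k : ℝ) ≤ D := by
      intro k hk
      rw [mem_bl (by positivity)] at hk
      refine htauX k hk.1 (hk.2.trans ?_)
      calc L * P ≤ X * X := by gcongr
        _ = X ^ 2 := by ring
        _ ≤ X ^ (4 : ℕ) := pow_le_pow_right₀ hX (by norm_num)
    -- pointwise splitting
    have hsplit : ∀ p ∈ Ps, ∀ k : Eis, ‖TG h χ l k Y1 Y2 t1 t2‖ ^ 2 ≤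
        3 * (‖TG h χ l (k * p ^ 3) Y1 Y2 t1 t2‖ ^ 2 +
          ‖TG h χ l (k * p) (Y1 / nm p) Y2 t1 t2‖ ^ 2 +
          ‖TG h χ l (k * p) (Y2 / nm p) Y1 t2 t1‖ ^ 2) := by
      intro p hp k
      obtain ⟨⟨hpp, hpr⟩, -, -⟩ := hmem p hp
      obtain ⟨c1, c2, hc1, hc2, heq⟩ := TG_prime hpu.cs hχ l k hY10 hY20 t1 t2 hpr hpp
      have hn : ‖TG h χ l k Y1 Y2 t1 t2‖ ≤ ‖TG h χ l (k * p ^ 3) Y1 Y2 t1 t2‖ +
          ‖TG h χ l (k * p) (Y1 / nm p) Y2 t1 t2‖ + ‖TG h χ l (k * p) (Y2 / nm p) Y1 t2 t1‖ := by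
        rw [heq, TG_symm h χ l (k * p) (Y2 / nm p) Y1 t2 t1]
        refine (norm_add_le _ _).trans ?_
        refine add_le_add ((norm_add_le _ _).trans (add_le_add le_rfl ?_)) ?_
        · rw [norm_mul]
          exact mul_le_of_le_one_left (norm_nonneg _) hc1
        · rw [norm_mul]
          exact mul_le_of_le_one_left (norm_nonneg _) hc2
      set x := ‖TG h χ l (k * p ^ 3) Y1 Y2 t1 t2‖
      set y := ‖TG h χ l (k * p) (Y1 / nm p) Y2 t1 t2‖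
      set z := ‖TG h χ l (k * p) (Y2 / nm p) Y1 t2 t1‖
      have h1 : ‖TG h χ l k Y1 Y2 t1 t2‖ ^ 2 ≤ (x + y + z) ^ 2 := by gcongr
      nlinarith [sq_nonneg (x - y), sq_nonneg (y - z), sq_nonneg (x - z)]
    -- the three parts
    have m1 : ∑ p ∈ Ps, ∑ k ∈ bl L, ‖TG h χ l (k * p ^ 3) Y1 Y2 t1 t2‖ ^ 2 ≤
        D * U2 h χ l (L * P ^ 3) Y1 Y2 t1 t2 :=
      merge (fun p hp => (hmem p hp).1.2) hL0.le three_ne_zero (by positivity)
        (fun p hp => by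
          have := (hmem p hp).2.2
          gcongr) (f := fun k => ‖TG h χ l k Y1 Y2 t1 t2‖ ^ 2) (fun k => by positivity) hD3
    have hXR : Real.exp (2 * R + 1) ≤ X ^ ε := by
      have h1 : Real.exp ((2 * R + 1) / ε) ≤ X := ((le_max_right _ _).trans hPge).trans hPX
      calc Real.exp (2 * R + 1) = Real.exp ((2 * R + 1) / ε) ^ ε := by
            rw [← Real.exp_mul]; congr 1; field_simp
        _ ≤ X ^ ε := by gcongr
    have hfam : ∀ Z1 Z2 s1 s2 : ℝ, 1 ≤ Z1 → Z1 ≤ Real.exp (2 * R + 1) * Y1 → 1 ≤ Z2 →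
        Z2 ≤ Real.exp (2 * R + 1) * Y2 → Z1 * Z2 * P ≤ Real.exp (2 * R + 1) * (Y1 * Y2) →
        T2 h χ l (L * P) Z1 Z2 (t1 + s1) (t2 + s2) ≤ B2 * ((1 + |s1|) * (1 + |s2|)) ^ Mx := by
      intro Z1 Z2 s1 s2 hZ1 hZ1' hZ2 hZ2' hZZ
      have hLP : 1 ≤ L * P := one_le_mul_of_one_le_of_one_le hL hP
      refine hH2 (L * P) Z1 Z2 s1 s2 hLP ?_ ?_ hZ1 ?_ hZ2 ?_ ?_
      · calc L * P = 1 * (L * P) := (one_mul _).symm
          _ ≤ X ^ ε * (L * P) := by gcongr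
      · calc L * P ≤ X := by
              rw [hXd]
              calc L * P = L * P * 1 * 1 := by ring
                _ ≤ L * P * Y1 * Y2 := by gcongr
          _ = X ^ (1 : ℝ) := (Real.rpow_one X).symm
          _ ≤ X ^ (10 : ℝ) := Real.rpow_le_rpow_of_exponent_le hX (by norm_num)
      · exact hZ1'.trans (by gcongr)
      · exact hZ2'.trans (by gcongr)
      · exact hZZ.trans (by gcongr)
    have he1 : 1 ≤ Real.exp (2 * R + 1) := Real.one_le_exp (by positivity)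
    have m2 := hpart Ps L Y1 Y2 P t1 t2 B2 D hL0 hY10 hY20 hP hB2 hD0
      (fun p hp => ⟨(hmem p hp).1.2, (hmem p hp).2.1, (hmem p hp).2.2⟩) hD1
      (fun Z s hZ hZ' => by
        have h1 := hfam Z Y2 s 0 hZ (hZ'.trans (by
            gcongr
            exact div_le_self hY10.le hP)) hY2 (le_mul_of_one_le_left hY20.le he1) (by
          calc Z * Y2 * P ≤ (Real.exp (2 * R + 1) * (Y1 / P)) * Y2 * P := by gcongr
            _ = _ := by field_simp)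
        simpa using h1)
    have m3 := hpart Ps L Y2 Y1 P t2 t1 B2 D hL0 hY20 hY10 hP hB2 hD0
      (fun p hp => ⟨(hmem p hp).1.2, (hmem p hp).2.1, (hmem p hp).2.2⟩) hD1
      (fun Z s hZ hZ' => by
        have h1 := hfam Y1 Z 0 s hY1 (le_mul_of_one_le_left hY10.le he1) hZ (hZ'.trans (by
            gcongr
            exact div_le_self hY20.le hP)) (by
          calc Y1 * Z * P ≤ Y1 * (Real.exp (2 * R + 1) * (Y2 / P)) * P := by gcongr
            _ = _ := by field_simp)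
        rw [T2_symm]
        simpa using h1)
    -- total
    have htot : (Ps.card : ℝ) * U2 h χ l L Y1 Y2 t1 t2 ≤
        3 * (D * ((L * Y1 * Y2) * (P ^ 3 * B1)) + C3 * D * B2 * (L * Y1 * Y2) +
          C3 * D * B2 * (L * Y2 * Y1)) := by
      calc (Ps.card : ℝ) * U2 h χ l L Y1 Y2 t1 t2 =
            ∑ p ∈ Ps, ∑ k ∈ bl L, ‖TG h χ l k Y1 Y2 t1 t2‖ ^ 2 := by
            rw [Finset.sum_const, nsmul_eq_mul]; rfl
        _ ≤ ∑ p ∈ Ps, ∑ k ∈ bl L, 3 * (‖TG h χ l (k * p ^ 3) Y1 Y2 t1 t2‖ ^ 2 +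
          ‖TG h χ l (k * p) (Y1 / nm p) Y2 t1 t2‖ ^ 2 +
          ‖TG h χ l (k * p) (Y2 / nm p) Y1 t2 t1‖ ^ 2) :=
            Finset.sum_le_sum fun p hp => Finset.sum_le_sum fun k _ => hsplit p hp k
        _ = 3 * (∑ p ∈ Ps, ∑ k ∈ bl L, ‖TG h χ l (k * p ^ 3) Y1 Y2 t1 t2‖ ^ 2 +
            ∑ p ∈ Ps, ∑ k ∈ bl L, ‖TG h χ l (k * p) (Y1 / nm p) Y2 t1 t2‖ ^ 2 +
            ∑ p ∈ Ps, ∑ k ∈ bl L, ‖TG h χ l (k * p) (Y2 / nm p) Y1 t2 t1‖ ^ 2) := by
            simp_rw [← Finset.mul_sum, Finset.sum_add_distrib]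
        _ ≤ _ := by
            have m1' : ∑ p ∈ Ps, ∑ k ∈ bl L, ‖TG h χ l (k * p ^ 3) Y1 Y2 t1 t2‖ ^ 2 ≤
                D * ((L * Y1 * Y2) * (P ^ 3 * B1)) := m1.trans (by gcongr)
            linarith
    have hXe0 : 0 < X ^ ε0 := by positivity
    have hfin : T2 h χ l L Y1 Y2 t1 t2 ≤ C4 * X ^ (3 * ε0) * (P ^ 2 * B1 + 2 * C3 * (B2 / P)) := by
      rw [hT2, div_le_iff₀ hN0]
      have h1 : c0 * ε0 * P / X ^ ε0 * U2 h χ l L Y1 Y2 t1 t2 ≤
          3 * D * (L * Y1 * Y2) * (P ^ 3 * B1 + 2 * C3 * B2) := by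
        have hU0 : 0 ≤ U2 h χ l L Y1 Y2 t1 t2 := Finset.sum_nonneg fun k _ => by positivity
        calc c0 * ε0 * P / X ^ ε0 * U2 h χ l L Y1 Y2 t1 t2 ≤
              (Ps.card : ℝ) * U2 h χ l L Y1 Y2 t1 t2 := by gcongr
          _ ≤ _ := htot
          _ = _ := by ring
      have h2 : U2 h χ l L Y1 Y2 t1 t2 ≤ (X ^ ε0 / (c0 * ε0 * P)) *
          (3 * D * (L * Y1 * Y2) * (P ^ 3 * B1 + 2 * C3 * B2)) := by
        have hpos : 0 < c0 * ε0 * P / X ^ ε0 := by positivity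
        have e1 : U2 h χ l L Y1 Y2 t1 t2 = (X ^ ε0 / (c0 * ε0 * P)) *
            (c0 * ε0 * P / X ^ ε0 * U2 h χ l L Y1 Y2 t1 t2) := by
          field_simp
        rw [e1]
        gcongr
      refine h2.trans (le_of_eq ?_)
      have e3 : X ^ (3 * ε0) = X ^ ε0 * X ^ (2 * ε0) := by
        rw [← Real.rpow_add hX0]; congr 1; ring
      rw [hC4, hD, e3]
      field_simp
    calc T2 h χ l L Y1 Y2 t1 t2 ≤ C4 * X ^ (3 * ε0) * (P ^ 2 * B1 + 2 * C3 * (B2 / P)) := hfin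
      _ ≤ C4 * X ^ ε * ((1 + 2 * C3) * (P ^ 2 * B1 + B2 / P)) := by
          have h1 : X ^ (3 * ε0) ≤ X ^ ε :=
            Real.rpow_le_rpow_of_exponent_le hX (by rw [hε0d]; linarith)
          have h2 : P ^ 2 * B1 + 2 * C3 * (B2 / P) ≤ (1 + 2 * C3) * (P ^ 2 * B1 + B2 / P) := by
            nlinarith [mul_nonneg hC3 hB10, mul_nonneg hC3 hB20]
          gcongr
      _ ≤ _ := by
          have h3 : 0 ≤ X ^ ε * (P ^ 2 * B1 + B2 / P) := by positivity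
          have h4 : 0 ≤ P0 * (X ^ ε * (P ^ 2 * B1 + B2 / P)) := by positivity
          nlinarith

end Crest.Agent.R017.Two939
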