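import Crest.Agent.R017.TW4_320
import Crest.Agent.R017.Two4_939
import Crest.Agent.R017.Two7_939

/-!
# Row 17: **the two-factor theorem, non-exceptional class** (helper320)

`rules`            : the rules of `Two_320.Rules` for `V4`, `W2`, `T2` of helper939
`two_factor4`      : `V4 h χ l K Y t ≤ C (K Y)^ε (1 + |t|)^A` for all `K, Y ≥ 1`
`two_factor_gauss` : `T2 h χ l L Y1 Y2 t1 t2 ≤ C (L Y)^ε ((1+|t1|)(1+|t2|))^A (1 + Y1 Y2 / L)`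
-/

set_option autoImplicit false

noncomputable section

open Complex MeasureTheory

namespace Crest.Agent.R017.TW320

open Crest.Agent.R012 Crest.Agent.R012.Eis Crest.Agent.R012.LS2
open Crest.Agent.R012.PSer47 Crest.Agent.R017.End699 Crest.Agent.R017.FE47
open Crest.Agent.R017.Two939 (V4 W2 T2 NE)

/-- all the rules -/
theorem rules {h : ℝ → ℝ} {c : ℝ} (hpu : PU h c) {M : Eis} {χ : Eis → ℂ} (hχ : HC M χ) {l : ℤ}
    (hne : NE M χ l) : Two320.Rules (V4 h χ l) (W2 h χ l) (T2 h χ l) where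
  cau := Two939.cau h χ l
  base := Two939.base hpu hχ l
  poisG := poisG hpu hχ l
  poisC := poisC hpu hχ l
  monoG := Two939.monoG hpu hχ l
  flip := Two939.flip hpu hχ hne

/-- **two-factor theorem**, fourth moment of a smooth sum over all `0 ≠ k`, `nm k ≤ K` -/
theorem two_factor4 {h : ℝ → ℝ} {c : ℝ} (hpu : PU h c) {M : Eis} {χ : Eis → ℂ} (hχ : HC M χ)
    {l : ℤ} (hne : NE M χ l) : ∀ ε : ℝ, 0 < ε → ∃ C A : ℝ, 0 < C ∧ 0 ≤ A ∧ ∀ K Y t : ℝ,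
      1 ≤ K → 1 ≤ Y → V4 h χ l K Y t ≤ C * (K * Y) ^ ε * (1 + |t|) ^ A :=
  Two320.two_factor (rules hpu hχ hne)

/-- **two-factor theorem**, Gauss side -/
theorem two_factor_gauss {h : ℝ → ℝ} {c : ℝ} (hpu : PU h c) {M : Eis} {χ : Eis → ℂ}
    (hχ : HC M χ) {l : ℤ} (hne : NE M χ l) : ∀ ε : ℝ, 0 < ε → ∃ C A : ℝ, 0 < C ∧ 0 ≤ A ∧
      ∀ L Y Y1 Y2 t1 t2 : ℝ, 1 ≤ L → 1 ≤ Y1 → Y1 ≤ Y → 1 ≤ Y2 → Y2 ≤ Y →
      T2 h χ l L Y1 Y2 t1 t2 ≤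
        C * (L * Y) ^ ε * ((1 + |t1|) * (1 + |t2|)) ^ A * (1 + Y1 * Y2 / L) :=
  Two320.two_factor_gauss (rules hpu hχ hne)

/-- mixed second moment -/
theorem two_factor_mixed {h : ℝ → ℝ} {c : ℝ} (hpu : PU h c) {M : Eis} {χ : Eis → ℂ}
    (hχ : HC M χ) {l : ℤ} (hne : NE M χ l) : ∀ ε : ℝ, 0 < ε → ∃ C A : ℝ, 0 < C ∧ 0 ≤ A ∧
      ∀ K Y1 Y2 t1 t2 : ℝ, 1 ≤ K → 1 ≤ Y1 → 1 ≤ Y2 →
      W2 h χ l K Y1 Y2 t1 t2 ≤ C * (K * Y1 * Y2) ^ ε * ((1 + |t1|) * (1 + |t2|)) ^ A := by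
  intro ε hε
  obtain ⟨C, A, hC, hA, h4⟩ := two_factor4 hpu hχ hne ε hε
  obtain ⟨Cc, hCc, hcau⟩ := Two939.cau h χ l
  refine ⟨2 * Cc * C, A, by positivity, hA, fun K Y1 Y2 t1 t2 hK h1 h2 => ?_⟩
  refine (hcau K Y1 Y2 t1 t2 hK h1 h2).trans ?_
  have e1 := h4 K Y1 t1 hK h1
  have e2 := h4 K Y2 t2 hK h2
  have hT1 : 1 ≤ 1 + |t1| := by linarith [abs_nonneg t1]
  have hT2 : 1 ≤ 1 + |t2| := by linarith [abs_nonneg t2]
  have hK0 : 0 ≤ K := by linarith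
  have f1 : (K * Y1) ^ ε ≤ (K * Y1 * Y2) ^ ε :=
    Real.rpow_le_rpow (by positivity) (le_mul_of_one_le_right (by positivity) h2) hε.le
  have f2 : (K * Y2) ^ ε ≤ (K * Y1 * Y2) ^ ε := by
    refine Real.rpow_le_rpow (by positivity) ?_ hε.le
    calc K * Y2 = K * 1 * Y2 := by ring
      _ ≤ K * Y1 * Y2 := by gcongr
  have g1 : (1 + |t1|) ^ A ≤ ((1 + |t1|) * (1 + |t2|)) ^ A :=
    Real.rpow_le_rpow (by positivity) (le_mul_of_one_le_right (by positivity) hT2) hA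
  have g2 : (1 + |t2|) ^ A ≤ ((1 + |t1|) * (1 + |t2|)) ^ A :=
    Real.rpow_le_rpow (by positivity) (le_mul_of_one_le_left (by positivity) hT1) hA
  calc Cc * (V4 h χ l K Y1 t1 + V4 h χ l K Y2 t2)
      ≤ Cc * (C * (K * Y1) ^ ε * (1 + |t1|) ^ A + C * (K * Y2) ^ ε * (1 + |t2|) ^ A) := by
        gcongr
    _ ≤ Cc * (C * (K * Y1 * Y2) ^ ε * ((1 + |t1|) * (1 + |t2|)) ^ A +
        C * (K * Y1 * Y2) ^ ε * ((1 + |t1|) * (1 + |t2|)) ^ A) := by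
        gcongr
    _ = _ := by ring

end Crest.Agent.R017.TW320
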