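import Crest.Agent.R017.Tx2_939

/-!
# Row 17: exceptional two-factor theorem, concrete families (helper939)

* `bn M χ l K`  : the nonprincipal members of the family
* `Vn`, `Wn`    : fourth moment, mixed second moment over the nonprincipal members
* `Po`          : the smooth sum normalised at its own scale, `Df` : the difference of two shapes
* `Wd`, `Td`    : second moments of the differences (all `k`), character side and Gauss side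
* `cauG`, `baseX`, `splitX`, `splitX0`
-/

set_option autoImplicit false

noncomputable section

open Complex MeasureTheory Filter Topology
open scoped ContDiff

namespace Crest.Agent.R017.Two939

open Crest.Agent.R012 Crest.Agent.R012.Eis Crest.Agent.R012.LS2 Crest.Agent.R012.Gauss880
open Crest.Agent.R012.Weight600 (osc norm_osc)
open Crest.Agent.R012.PSer47
open Crest.Agent.R017.End699 Crest.Agent.R017.FE47
open Crest.Agent.R017.Sup271 (NPm)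

open Classical in
/-- the nonprincipal members -/
def bn (M : Eis) (χ : Eis → ℂ) (l : ℤ) (K : ℝ) : Finset Eis := (bl K).filter (NPm M χ l)

lemma bn_subset (M : Eis) (χ : Eis → ℂ) (l : ℤ) (K : ℝ) : bn M χ l K ⊆ bl K := by
  classical
  exact Finset.filter_subset _ _

lemma mem_bn {M : Eis} {χ : Eis → ℂ} {l : ℤ} {K : ℝ} (hK : 0 ≤ K) {k : Eis} :
    k ∈ bn M χ l K ↔ (k ≠ 0 ∧ (nm k : ℝ) ≤ K) ∧ NPm M χ l k := by
  classical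
  unfold bn
  rw [Finset.mem_filter, mem_bl hK]

lemma card_bn_le (M : Eis) (χ : Eis → ℂ) (l : ℤ) {K : ℝ} (hK : 0 ≤ K) :
    ((bn M χ l K).card : ℝ) ≤ 16 * K :=
  le_trans (by exact_mod_cast Finset.card_le_card (bn_subset M χ l K)) (CR2.card_bl_le hK)

/-- fourth moment, nonprincipal members -/
def Vn (h : ℝ → ℝ) (M : Eis) (χ : Eis → ℂ) (l : ℤ) (K Y t : ℝ) : ℝ :=
  (∑ k ∈ bn M χ l K, ‖P h χ l k Y t‖ ^ 4) / (K * Y ^ 2)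

/-- mixed second moment, nonprincipal members -/
def Wn (h : ℝ → ℝ) (M : Eis) (χ : Eis → ℂ) (l : ℤ) (K Z1 Z2 t1 t2 : ℝ) : ℝ :=
  (∑ k ∈ bn M χ l K, ‖P h χ l k Z1 t1‖ ^ 2 * ‖P h χ l k Z2 t2‖ ^ 2) / (K * Z1 * Z2)

/-- the smooth sum at its own scale -/
def Po (h : ℝ → ℝ) (χ : Eis → ℂ) (l : ℤ) (k : Eis) (Y t : ℝ) : ℂ :=
  osc t (-Real.log Y) * P h χ l k Y t

/-- difference of two shapes, character side -/
def Df (h : ℝ → ℝ) (χ : Eis → ℂ) (l : ℤ) (k : Eis) (Y1 Y2 Z1 Z2 t1 t2 : ℝ) : ℂ :=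
  Po h χ l k Y1 t1 * Po h χ l k Y2 t2 - Po h χ l k Z1 t1 * Po h χ l k Z2 t2

/-- difference of two shapes, Gauss side -/
def TDf (h : ℝ → ℝ) (χ : Eis → ℂ) (l : ℤ) (k : Eis) (Y1 Y2 Z1 Z2 t1 t2 : ℝ) : ℂ :=
  osc t1 (-Real.log Y1) * osc t2 (-Real.log Y2) * TG h χ l k Y1 Y2 t1 t2 -
    osc t1 (-Real.log Z1) * osc t2 (-Real.log Z2) * TG h χ l k Z1 Z2 t1 t2

/-- second moment of the difference, all `k` -/
def Wd (h : ℝ → ℝ) (χ : Eis → ℂ) (l : ℤ) (K Y1 Y2 Z1 Z2 t1 t2 : ℝ) : ℝ :=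
  (∑ k ∈ bl K, ‖Df h χ l k Y1 Y2 Z1 Z2 t1 t2‖ ^ 2) / (K * Y1 * Y2)

/-- second moment of the difference on the Gauss side -/
def Td (h : ℝ → ℝ) (χ : Eis → ℂ) (l : ℤ) (L Y1 Y2 Z1 Z2 t1 t2 : ℝ) : ℝ :=
  (∑ k ∈ bl L, ‖TDf h χ l k Y1 Y2 Z1 Z2 t1 t2‖ ^ 2) / (L * Y1 * Y2)

lemma Vn_nonneg (h : ℝ → ℝ) (M : Eis) (χ : Eis → ℂ) (l : ℤ) {K : ℝ} (hK : 0 ≤ K) (Y t : ℝ) :
    0 ≤ Vn h M χ l K Y t := by unfold Vn; positivity

lemma Wn_nonneg (h : ℝ → ℝ) (M : Eis) (χ : Eis → ℂ) (l : ℤ) {K Z1 Z2 : ℝ} (hK : 0 ≤ K)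
    (h1 : 0 ≤ Z1) (h2 : 0 ≤ Z2) (t1 t2 : ℝ) : 0 ≤ Wn h M χ l K Z1 Z2 t1 t2 := by
  unfold Wn; positivity

lemma Wd_nonneg (h : ℝ → ℝ) (χ : Eis → ℂ) (l : ℤ) {K Y1 Y2 : ℝ} (hK : 0 ≤ K)
    (h1 : 0 ≤ Y1) (h2 : 0 ≤ Y2) (Z1 Z2 t1 t2 : ℝ) : 0 ≤ Wd h χ l K Y1 Y2 Z1 Z2 t1 t2 := by
  unfold Wd; positivity

lemma Td_nonneg (h : ℝ → ℝ) (χ : Eis → ℂ) (l : ℤ) {K Y1 Y2 : ℝ} (hK : 0 ≤ K)
    (h1 : 0 ≤ Y1) (h2 : 0 ≤ Y2) (Z1 Z2 t1 t2 : ℝ) : 0 ≤ Td h χ l K Y1 Y2 Z1 Z2 t1 t2 := by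
  unfold Td; positivity

lemma norm_Po (h : ℝ → ℝ) (χ : Eis → ℂ) (l : ℤ) (k : Eis) (Y t : ℝ) :
    ‖Po h χ l k Y t‖ = ‖P h χ l k Y t‖ := by
  unfold Po
  rw [norm_mul, norm_osc, one_mul]

/-- the coefficient at its own scale -/
def cfo (h : ℝ → ℝ) (χ : Eis → ℂ) (l : ℤ) (Y t : ℝ) (b : Eis) : ℂ :=
  osc t (-Real.log Y) * cfa h χ l Y t b

/-- geometric Cauchy–Schwarz -/
theorem cauG (h : ℝ → ℝ) (M : Eis) (χ : Eis → ℂ) (l : ℤ) (K Z1 Z2 t1 t2 : ℝ) (hK : 0 < K)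
    (h1 : 0 < Z1) (h2 : 0 < Z2) :
    Wn h M χ l K Z1 Z2 t1 t2 ^ 2 ≤ Vn h M χ l K Z1 t1 * Vn h M χ l K Z2 t2 := by
  unfold Wn Vn
  rw [div_pow, div_mul_div_comm]
  have e1 : K * Z1 ^ 2 * (K * Z2 ^ 2) = (K * Z1 * Z2) ^ 2 := by ring
  rw [e1]
  gcongr
  have := Finset.sum_mul_sq_le_sq_mul_sq (bn M χ l K) (fun k => ‖P h χ l k Z1 t1‖ ^ 2)
    (fun k => ‖P h χ l k Z2 t2‖ ^ 2)
  refine this.trans (le_of_eq ?_)
  congr 1 <;> exact Finset.sum_congr rfl fun k _ => by ring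

/-- trivial bound -/
theorem baseX {h : ℝ → ℝ} {c : ℝ} (hpu : PU h c) {M : Eis} {χ : Eis → ℂ} (hχ : HC M χ) (l : ℤ) :
    ∃ C : ℝ, 0 < C ∧ ∀ K Y t : ℝ, 0 < K → 0 < Y → Vn h M χ l K Y t ≤ C * Y ^ 2 := by
  obtain ⟨C, hC, hb⟩ := norm_P_le hpu
  refine ⟨16 * C ^ 4 + 1, by positivity, fun K Y t hK hY => ?_⟩
  unfold Vn
  rw [div_le_iff₀ (by positivity)]
  calc ∑ k ∈ bn M χ l K, ‖P h χ l k Y t‖ ^ 4 ≤ ∑ k ∈ bn M χ l K, (C * Y) ^ 4 := by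
        refine Finset.sum_le_sum fun k _ => ?_
        have := hb M χ hχ l k Y t hY
        gcongr
    _ = (bn M χ l K).card * (C * Y) ^ 4 := by rw [Finset.sum_const, nsmul_eq_mul]
    _ ≤ 16 * K * (C * Y) ^ 4 := by
        gcongr
        exact card_bn_le M χ l hK.le
    _ = 16 * C ^ 4 * (K * Y ^ 4) := by ring
    _ ≤ (16 * C ^ 4 + 1) * (K * Y ^ 4) := by
        have : 0 ≤ K * Y ^ 4 := by positivity
        nlinarith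
    _ = _ := by ring

/-- splitting off the comparison shape -/
theorem splitX (h : ℝ → ℝ) (M : Eis) (χ : Eis → ℂ) (l : ℤ) {K Y1 Y2 Z1 Z2 : ℝ} (t1 t2 : ℝ)
    (hK : 0 < K) (h1 : 0 < Y1) (h2 : 0 < Y2) (hYZ : Y1 * Y2 = Z1 * Z2) :
    Wn h M χ l K Y1 Y2 t1 t2 ≤
      2 * (Wd h χ l K Y1 Y2 Z1 Z2 t1 t2 + Wn h M χ l K Z1 Z2 t1 t2) := by
  unfold Wn Wd
  have e1 : K * Z1 * Z2 = K * Y1 * Y2 := by rw [mul_assoc, ← hYZ]; ring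
  rw [e1, ← add_div, ← mul_div_assoc]
  gcongr
  have hsub : ∑ k ∈ bn M χ l K, ‖Df h χ l k Y1 Y2 Z1 Z2 t1 t2‖ ^ 2 ≤
      ∑ k ∈ bl K, ‖Df h χ l k Y1 Y2 Z1 Z2 t1 t2‖ ^ 2 :=
    Finset.sum_le_sum_of_subset_of_nonneg (bn_subset M χ l K) fun _ _ _ => by positivity
  calc ∑ k ∈ bn M χ l K, ‖P h χ l k Y1 t1‖ ^ 2 * ‖P h χ l k Y2 t2‖ ^ 2
      ≤ ∑ k ∈ bn M χ l K, 2 * (‖Df h χ l k Y1 Y2 Z1 Z2 t1 t2‖ ^ 2 +
        ‖P h χ l k Z1 t1‖ ^ 2 * ‖P h χ l k Z2 t2‖ ^ 2) := by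
        refine Finset.sum_le_sum fun k _ => ?_
        have e2 : Po h χ l k Y1 t1 * Po h χ l k Y2 t2 = Df h χ l k Y1 Y2 Z1 Z2 t1 t2 +
            Po h χ l k Z1 t1 * Po h χ l k Z2 t2 := by unfold Df; ring
        have e3 : ‖P h χ l k Y1 t1‖ * ‖P h χ l k Y2 t2‖ =
            ‖Po h χ l k Y1 t1 * Po h χ l k Y2 t2‖ := by
          rw [norm_mul, norm_Po, norm_Po]
        have e4 : ‖P h χ l k Z1 t1‖ * ‖P h χ l k Z2 t2‖ =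
            ‖Po h χ l k Z1 t1 * Po h χ l k Z2 t2‖ := by
          rw [norm_mul, norm_Po, norm_Po]
        rw [← mul_pow, ← mul_pow, e3, e4, e2]
        set x := Df h χ l k Y1 Y2 Z1 Z2 t1 t2
        set y := Po h χ l k Z1 t1 * Po h χ l k Z2 t2
        have := norm_add_le x y
        have h0 := norm_nonneg (x + y)
        calc ‖x + y‖ ^ 2 ≤ (‖x‖ + ‖y‖) ^ 2 := by gcongr
          _ ≤ _ := by nlinarith [sq_nonneg (‖x‖ - ‖y‖)]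
    _ = 2 * (∑ k ∈ bn M χ l K, ‖Df h χ l k Y1 Y2 Z1 Z2 t1 t2‖ ^ 2 +
        ∑ k ∈ bn M χ l K, ‖P h χ l k Z1 t1‖ ^ 2 * ‖P h χ l k Z2 t2‖ ^ 2) := by
        rw [← Finset.mul_sum, Finset.sum_add_distrib]
    _ ≤ _ := by gcongr

/-- the sums vanish below an absolute scale -/
lemma P_zero {h : ℝ → ℝ} {c : ℝ} (hpu : PU h c) : ∃ z : ℝ, 0 < z ∧ z ≤ 1 ∧
    ∀ (χ : Eis → ℂ) (l : ℤ) (k : Eis) (Y t : ℝ), 0 < Y → Y < z → P h χ l k Y t = 0 := by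
  obtain ⟨R, hR0, hR⟩ := exists_R (cs_cx hpu.cs)
  refine ⟨Real.exp (-R), Real.exp_pos _, Real.exp_le_one_iff.mpr (by linarith), ?_⟩
  intro χ l k Y t hY hYz
  unfold P PS
  refine (tsum_congr fun b => ?_).trans tsum_zero
  by_cases hb : IsPrim b
  · have h1 := log_nm_nonneg hb
    have h2 : Real.log Y < -R := by
      rw [← Real.log_exp (-R)]
      exact Real.log_lt_log hY hYz
    have h3 : cx h (Real.log (nm b) - Real.log Y) = 0 := by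
      by_contra h0
      have := hR _ h0
      rw [abs_le] at this
      linarith [this.2]
    simp [h3]
  · simp [End699.ext, hb]

end Crest.Agent.R017.Two939
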