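import Crest.Agent.R017.TPPiece_320
import Crest.Agent.R017.TxDefs_939

/-!
# Row 17: shape differences as a closed family (1) (helper939)

* `pu_int`   : partition of unity over the integers
* `co`       : a smooth piece at its own scale `y` (`b ↦ χ ang (osc t · h)(log b - y)`)
* `co_expand`: relative grid expansion, the same for every scale `y`
* `one_var`  : the one-variable splitting lemma
-/

set_option autoImplicit false

noncomputable section

open Complex MeasureTheory
open scoped ComplexConjugate ContDiff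

namespace Crest.Agent.R017.TP320

open Crest.Agent.R012 Crest.Agent.R012.Eis Crest.Agent.R012.LS2 Crest.Agent.R012.Gauss880
open Crest.Agent.R012.Div277 Crest.Agent.R012.Weight600
open Crest.Agent.R012.PSer47 Crest.Agent.R017.End699 Crest.Agent.R017.FE47
open Crest.Agent.R017.Two939 (cfa cfa_mul cfa_prim)

/-- partition of unity over `ℤ` -/
lemma pu_int {h : ℝ → ℝ} {c : ℝ} (hpu : PU h c) {R : ℝ} (hR : ∀ u, h u ≠ 0 → |u| ≤ R)
    (x : ℝ) (S : Finset ℤ) (hS : ∀ n : ℤ, |x - c * n| ≤ R → n ∈ S) :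
    ∑ n ∈ S, h (x - c * n) = 1 := by
  classical
  have hc := hpu.cpos
  obtain ⟨m, hm⟩ := exists_nat_ge ((|x| + |R| + 1) / c)
  rw [div_le_iff₀ hc] at hm
  have hx1 := neg_abs_le x
  have hR1 := le_abs_self R
  have h0 : 0 ≤ x + c * m := by
    have := abs_nonneg R
    nlinarith
  have h1 := hpu.one (x + c * m) h0
  set T : Finset ℕ := (S.filter (fun n : ℤ => -(m : ℤ) ≤ n)).image (fun n : ℤ => (n + m).toNat) with hT
  have h2 : ∑' n : ℕ, h (x + c * m - c * n) = ∑ n ∈ T, h (x + c * m - c * n) := by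
    apply tsum_eq_sum
    intro n hn
    by_contra h3
    apply hn
    have h4 := hR _ h3
    rw [hT, Finset.mem_image]
    refine ⟨(n : ℤ) - m, ?_, by simp⟩
    rw [Finset.mem_filter]
    refine ⟨hS _ ?_, by omega⟩
    push_cast
    have : x - c * ((n : ℝ) - m) = x + c * m - c * n := by ring
    rw [this]; exact h4
  have h5 : ∑ n ∈ T, h (x + c * m - c * n) = ∑ n ∈ S.filter (fun n => -(m : ℤ) ≤ n), h (x - c * n) := by
    rw [hT, Finset.sum_image]
    · refine Finset.sum_congr rfl fun n hn => ?_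
      rw [Finset.mem_filter] at hn
      have h6 : ((n + m).toNat : ℝ) = (n : ℝ) + m := by
        have h7 : ((n + m).toNat : ℤ) = n + m := Int.toNat_of_nonneg (by omega)
        have : (((n + m).toNat : ℤ) : ℝ) = ((n + m : ℤ) : ℝ) := by rw [h7]
        push_cast at this
        exact this
      rw [h6]
      congr 1
      ring
    · intro a ha b hb hab
      rw [Finset.mem_coe, Finset.mem_filter] at ha hb
      simp only at hab
      omega
  have h6 : ∑ n ∈ S.filter (fun n => -(m : ℤ) ≤ n), h (x - c * n) = ∑ n ∈ S, h (x - c * n) := by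
    apply Finset.sum_filter_of_ne
    intro n _ hn
    by_contra h7
    have h8 := hR _ hn
    have h9 : (n : ℝ) ≤ -(m : ℝ) := by
      have : n ≤ -(m : ℤ) := by omega
      exact_mod_cast this
    rw [abs_le] at h8
    nlinarith [abs_nonneg R, h8.2]
  rw [← h6, ← h5, ← h2, h1]

/-- smooth piece at its own (logarithmic) scale `y` -/
def co (h : ℝ → ℝ) (χ : Eis → ℂ) (l : ℤ) (y t : ℝ) (b : Eis) : ℂ :=
  End699.ext χ b * ang l b * (osc t (Real.log (nm b) - y) * cx h (Real.log (nm b) - y))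

lemma co_eq (h : ℝ → ℝ) (χ : Eis → ℂ) (l : ℤ) (y t : ℝ) (b : Eis) :
    co h χ l y t b = osc t (-y) * cfa h χ l (Real.exp y) t b := by
  unfold co cfa
  rw [Real.log_exp]
  have : osc t (Real.log (nm b) - y) = osc t (Real.log (nm b)) * osc t (-y) := by
    rw [← osc_add_right]; rfl
  rw [this]
  ring

lemma co_prim {h : ℝ → ℝ} {χ : Eis → ℂ} {l : ℤ} {y t : ℝ} {b : Eis} (hb : ¬ IsPrim b) :
    co h χ l y t b = 0 := by
  rw [co_eq, cfa_prim hb, mul_zero]

lemma norm_co_indep (h : ℝ → ℝ) (χ : Eis → ℂ) (l : ℤ) (y t : ℝ) (b : Eis) :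
    ‖co h χ l y t b‖ = ‖co h χ l y 0 b‖ := by
  unfold co
  simp only [norm_mul, norm_osc]

lemma continuous_co (h : ℝ → ℝ) (χ : Eis → ℂ) (l : ℤ) (y : ℝ) (b : Eis) :
    Continuous fun t => co h χ l y t b := by
  unfold co
  exact continuous_const.mul ((continuous_osc_left _).mul continuous_const)

/-- the twist at the scale `y` -/
def tws (s0 τ y : ℝ) (b : Eis) : ℂ :=
  (Real.exp (-s0 * (Real.log (nm b) - y)) : ℂ) * osc τ (Real.log (nm b) - y)

lemma tw_eq_tws (s0 τ y : ℝ) {b : Eis} (hb : IsPrim b) :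
    tw s0 τ b = ((Real.exp (-s0 * y) : ℂ) * osc τ y) * tws s0 τ y b := by
  rw [tw_eq s0 τ hb]
  unfold tws
  have e1 : osc τ (Real.log (nm b)) = osc τ y * osc τ (Real.log (nm b) - y) := by
    rw [← osc_add_right]; congr 1; ring
  have e2 : Real.exp (-s0 * Real.log (nm b)) =
      Real.exp (-s0 * y) * Real.exp (-s0 * (Real.log (nm b) - y)) := by
    rw [← Real.exp_add]; congr 1; ring
  rw [e1, e2]
  push_cast
  ring

/-- the coefficient of the relative expansion -/
def Kco (χ : Eis → ℂ) (l : ℤ) (s0 t τ α c : ℝ) (n : ℤ) (r : ℝ) (a : Eis) : ℂ :=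
  χ a * ang l a * osc (t + r) (Real.log (nm a)) * (Real.exp (s0 * Real.log (nm a)) : ℂ) *
    osc (t + τ + r) (-α + c * n)

open Classical in
/-- the relative grid expansion -/
lemma co_expand {h : ℝ → ℝ} {c : ℝ} (hpu : PU h c) {Mo : Eis} {χ : Eis → ℂ} (hχ : HC Mo χ)
    (l : ℤ) {R : ℝ} (hR : ∀ u, cx h u ≠ 0 → |u| ≤ R) (s0 y α t τ : ℝ) {a b : Eis}
    (ha : IsPrim a) (hb : IsPrim b) (h1 : |Real.log (nm a) - α| ≤ 1)
    (S : Finset ℤ) (hS : ∀ n : ℤ, |c * n| ≤ 2 * R + 1 → n ∈ S) :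
    co h χ l y t (a * b) * tws s0 τ y b = ∑ n ∈ S, ∫ r : ℝ, ker (gs h s0) r *
      (Kco χ l s0 t τ α c n r a * co h χ l (y + (-α + c * n)) (t + τ + r) b) := by
  set u := Real.log (nm a) with hu
  set x := Real.log (nm b) - y with hx
  have hna := one_le_nm' ha
  have hnb := one_le_nm' hb
  have hR' : ∀ u, h u ≠ 0 → |u| ≤ R := fun u hu => hR u (by
    unfold cx
    exact_mod_cast hu)
  have hab : IsPrim (a * b) := ha.mul hb
  have elog : Real.log (nm (a * b)) - y = x + u := by
    rw [nm_mul]; push_cast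
    rw [Real.log_mul (by linarith) (by linarith), hx, hu]; ring
  have h3 : h (x + u) = ∑ n ∈ S, h (x - (-α + c * n)) * h (x + u) := by
    by_cases h0 : h (x + u) = 0
    · rw [h0]; simp
    have hb1 := hR' _ h0
    rw [← Finset.sum_mul]
    have h4 : ∑ n ∈ S, h (x - (-α + c * n)) = 1 := by
      have := pu_int hpu hR' (x + α) S (fun n hn => hS n (by
        have e : c * (n : ℝ) = -(x + α - c * n) + (x + u) + -(u - α) := by ring
        rw [e]
        calc |(-(x + α - c * n) + (x + u)) + -(u - α)|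
            ≤ |(-(x + α - c * n) + (x + u))| + |-(u - α)| := abs_add_le _ _
          _ ≤ (|-(x + α - c * n)| + |x + u|) + |-(u - α)| := by gcongr; exact abs_add_le _ _
          _ = (|x + α - c * n| + |x + u|) + |u - α| := by rw [abs_neg, abs_neg]
          _ ≤ (R + R) + 1 := by gcongr
          _ = 2 * R + 1 := by ring))
      rw [← this]
      refine Finset.sum_congr rfl fun n _ => ?_
      congr 1; ring
    rw [h4, one_mul]
  have hinv := inversion_smooth (cd_gs hpu.cd s0) (cs_gs hpu.cs s0) (x + u)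
  have exy : ∀ n : ℤ, Real.log (nm b) - (y + (-α + c * n)) = x - (-α + c * n) := by
    intro n; rw [hx]; ring
  have key : ∀ n : ℤ, ∫ r : ℝ, ker (gs h s0) r *
      (Kco χ l s0 t τ α c n r a * co h χ l (y + (-α + c * n)) (t + τ + r) b) =
      (χ a * ang l a) * (Real.exp (s0 * u) : ℂ) * osc t u *
        (End699.ext χ b * ang l b * (osc (t + τ) x * (h (x - (-α + c * n)) : ℂ))) *
          gs h s0 (x + u) := by
    intro n
    have e2 : ∀ r : ℝ, ker (gs h s0) r *
        (Kco χ l s0 t τ α c n r a * co h χ l (y + (-α + c * n)) (t + τ + r) b) =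
        ((χ a * ang l a) * (Real.exp (s0 * u) : ℂ) * osc t u *
        (End699.ext χ b * ang l b * (osc (t + τ) x * (h (x - (-α + c * n)) : ℂ)))) *
          (ker (gs h s0) r * osc r (x + u)) := by
      intro r
      unfold Kco co cx
      rw [exy, ← hu]
      have e3 : osc (t + τ + r) (-α + c * n) * osc (t + τ + r) (x - (-α + c * n)) =
          osc (t + τ) x * osc r x := by
        rw [← osc_add_right, ← osc_add_left]; congr 1; ring
      have e4 : osc (t + r) u = osc t u * osc r u := osc_add_left _ _ _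
      have e5 : osc r (x + u) = osc r x * osc r u := by rw [← osc_add_right]
      rw [e4, e5]
      calc _ = ker (gs h s0) r * (χ a * ang l a * (osc t u * osc r u) *
            (Real.exp (s0 * u) : ℂ) * (End699.ext χ b * ang l b * (h (x - (-α + c * n)) : ℂ)) *
            (osc (t + τ + r) (-α + c * n) * osc (t + τ + r) (x - (-α + c * n)))) := by ring
        _ = _ := by rw [e3]; ring
    simp_rw [e2]
    rw [integral_const_mul, hinv]
  rw [Finset.sum_congr rfl fun n _ => key n]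
  have e6 : ∑ n ∈ S, (χ a * ang l a) * (Real.exp (s0 * u) : ℂ) * osc t u *
        (End699.ext χ b * ang l b * (osc (t + τ) x * (h (x - (-α + c * n)) : ℂ))) *
          gs h s0 (x + u) =
      (χ a * ang l a) * osc t u * (End699.ext χ b * ang l b * osc (t + τ) x) *
        ((Real.exp (s0 * u) : ℂ) * (Real.exp (-s0 * (x + u)) : ℂ)) *
        ((∑ n ∈ S, h (x - (-α + c * n)) * h (x + u) : ℝ) : ℂ) := by
    push_cast
    rw [Finset.mul_sum]
    refine Finset.sum_congr rfl fun n _ => ?_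
    unfold gs cx
    push_cast
    ring
  rw [e6, ← h3, ← Complex.ofReal_mul, ← Real.exp_add]
  have e7 : s0 * u + -s0 * (x + u) = -s0 * x := by ring
  rw [e7]
  unfold co tws cx
  rw [elog, ← hx]
  have e8 : osc t (x + u) = osc t x * osc t u := by rw [← osc_add_right]
  have e9 : osc (t + τ) x = osc t x * osc τ x := osc_add_left _ _ _
  rw [e8, e9]
  simp only [End699.ext, if_pos hab, if_pos hb]
  rw [hχ.char.mul a b ha hb, (ang_isChar l).mul a b ha hb]
  ring

/-- the grid -/
def gridZ (c R : ℝ) : Finset ℤ := Finset.Icc (-⌈(2 * R + 1) / c⌉) ⌈(2 * R + 1) / c⌉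

lemma mem_gridZ {c R : ℝ} (hc : 0 < c) (n : ℤ) (hn : |c * n| ≤ 2 * R + 1) : n ∈ gridZ c R := by
  unfold gridZ
  rw [abs_mul, abs_of_pos hc] at hn
  have h1 : |(n : ℝ)| ≤ (2 * R + 1) / c := by rw [le_div_iff₀ hc]; linarith
  have h2 := Int.le_ceil ((2 * R + 1) / c)
  rw [abs_le] at h1
  rw [Finset.mem_Icc]
  constructor
  · have : -((⌈(2 * R + 1) / c⌉ : ℤ) : ℝ) ≤ n := by linarith [h1.1]
    exact_mod_cast this
  · have : (n : ℝ) ≤ ((⌈(2 * R + 1) / c⌉ : ℤ) : ℝ) := by linarith [h1.2]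
    exact_mod_cast this

lemma gridZ_le {c R : ℝ} (hc : 0 < c) {n : ℤ} (hn : n ∈ gridZ c R) :
    |c * n| ≤ 2 * R + 1 + c := by
  unfold gridZ at hn
  rw [Finset.mem_Icc] at hn
  have h2 := Int.ceil_lt_add_one ((2 * R + 1) / c)
  have h3 : |(n : ℝ)| ≤ (⌈(2 * R + 1) / c⌉ : ℤ) := by
    rw [abs_le]
    constructor
    · have := hn.1
      have : ((-⌈(2 * R + 1) / c⌉ : ℤ) : ℝ) ≤ n := by exact_mod_cast this
      push_cast at this
      exact this
    · exact_mod_cast hn.2
  rw [abs_mul, abs_of_pos hc]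
  have h4 : |(n : ℝ)| ≤ (2 * R + 1) / c + 1 := by linarith
  calc c * |(n : ℝ)| ≤ c * ((2 * R + 1) / c + 1) := by gcongr
    _ = 2 * R + 1 + c := by field_simp

/-- **the one-variable lemma** -/
theorem one_var {h : ℝ → ℝ} {c : ℝ} (hpu : PU h c) {Mo : Eis} {χ : Eis → ℂ} (hχ : HC Mo χ)
    (l : ℤ) {R : ℝ} (hR0 : 0 ≤ R) (hR : ∀ u, cx h u ≠ 0 → |u| ≤ R) {μ : ℝ} (hμ : 0 ≤ μ)
    (s0 : ℝ) : ∃ C : ℝ, 1 ≤ C ∧ ∀ {X : Type} {ι : Type} [Fintype ι] (V : Finset X)
    (a b : X → Eis) (y : X → ℝ) (v : X → EuclideanSpace ℂ ι) (α τ t t0 M : ℝ), 0 ≤ M →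
    (∀ x ∈ V, IsPrim (a x) ∧ IsPrim (b x) ∧ |Real.log (nm (a x)) - α| ≤ 1) →
    (∀ κ : Eis → ℂ, (∀ a, ‖κ a‖ ≤ 1) → ∀ ζ t' : ℝ, |ζ + α| ≤ 2 * R + 1 + c →
      ‖∑ x ∈ V, (κ (a x) * co h χ l (y x + ζ) t' (b x)) • v x‖ ≤ M * (1 + |t' - t0|) ^ μ) →
    ‖∑ x ∈ V, (co h χ l (y x) t (a x * b x) * tws s0 τ (y x) (b x)) • v x‖ ≤
      C * Real.exp (s0 * α) * (1 + |τ|) ^ μ * M * (1 + |t - t0|) ^ μ := by
  classical
  set I : ℝ := ∫ u, ‖ker (gs h s0) u‖ * (1 + |u|) ^ μ with hI
  have hI0 : 0 ≤ I := integral_nonneg fun u => by positivity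
  have hcpos := hpu.cpos
  set S := gridZ c R with hS
  refine ⟨(S.card : ℝ) * I * Real.exp |s0| + 1, by
    have : 0 ≤ (S.card : ℝ) * I * Real.exp |s0| := by positivity
    linarith, ?_⟩
  intro X ι _ V a b y v α τ t t0 M hM hV hb
  set E : ℝ := Real.exp (s0 * α) * Real.exp |s0| with hE
  have hE0 : 0 < E := by positivity
  have hEc : (E : ℂ) ≠ 0 := by exact_mod_cast hE0.ne'
  set κ : ℤ → ℝ → Eis → ℂ := fun n r a => if |Real.log (nm a) - α| ≤ 1 ∧ IsPrim a then
      (E : ℂ)⁻¹ * Kco χ l s0 t τ α c n r a else 0 with hκ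
  have hκ1 : ∀ n r a, ‖κ n r a‖ ≤ 1 := by
    intro n r a
    simp only [hκ]
    split_ifs with hc
    · rw [norm_mul, norm_inv, Complex.norm_real, Real.norm_of_nonneg hE0.le, inv_mul_le_iff₀ hE0,
        mul_one]
      unfold Kco
      simp only [norm_mul, norm_osc, Complex.norm_real, mul_one, Real.norm_of_nonneg
        (Real.exp_pos _).le]
      have b1 : ‖χ a‖ ≤ 1 := hχ.char.norm_le hc.2
      have b2 : ‖ang l a‖ ≤ 1 := (ang_isChar l).norm_le hc.2
      have b3 : Real.exp (s0 * Real.log (nm a)) ≤ E := by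
        rw [hE, ← Real.exp_add]
        apply Real.exp_le_exp.2
        have h5 : |s0 * (Real.log (nm a) - α)| ≤ |s0| * 1 := by
          rw [abs_mul]
          gcongr
          exact hc.1
        have h6 := le_abs_self (s0 * (Real.log (nm a) - α))
        linarith
      calc ‖χ a‖ * ‖ang l a‖ * Real.exp (s0 * Real.log (nm a))
          ≤ 1 * 1 * E := by gcongr
        _ = E := by ring
    · simp
  have hg := cd_gs hpu.cd s0
  have hgs := cs_gs hpu.cs s0
  have hki : Integrable (ker (gs h s0)) := ker_integrable hg hgs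
  set Fv : ℤ → ℝ → EuclideanSpace ℂ ι := fun n r =>
    ∑ x ∈ V, (κ n r (a x) * co h χ l (y x + (-α + c * n)) (t + τ + r) (b x)) • v x with hFv
  have hterm : ∀ (n : ℤ) (x : X), Integrable (fun r : ℝ => ker (gs h s0) r *
      (Kco χ l s0 t τ α c n r (a x) * co h χ l (y x + (-α + c * n)) (t + τ + r) (b x))) := by
    intro n x
    refine hki.mul_bdd (c := ‖χ (a x) * ang l (a x) * (Real.exp (s0 * Real.log (nm (a x))) : ℂ)‖ *
        ‖co h χ l (y x + (-α + c * n)) 0 (b x)‖)
      ?_ (Filter.Eventually.of_forall fun r => ?_)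
    · apply Continuous.aestronglyMeasurable
      refine Continuous.mul ?_ ((continuous_co h χ l _ (b x)).comp
        (continuous_const.add continuous_id))
      unfold Kco
      refine Continuous.mul (Continuous.mul (Continuous.mul continuous_const ?_)
        continuous_const) ?_
      · exact (continuous_osc_left _).comp (continuous_const.add continuous_id)
      · exact (continuous_osc_left _).comp (continuous_const.add continuous_id)
    · rw [norm_mul, norm_co_indep]
      apply le_of_eq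
      unfold Kco
      simp only [norm_mul, norm_osc, mul_one]
  have hexp : ∑ x ∈ V, (co h χ l (y x) t (a x * b x) * tws s0 τ (y x) (b x)) • v x =
      ∑ n ∈ S, ∫ r : ℝ, (ker (gs h s0) r * E) • Fv n r := by
    have e1 : ∀ x ∈ V, (co h χ l (y x) t (a x * b x) * tws s0 τ (y x) (b x)) • v x =
        ∑ n ∈ S, ∫ r : ℝ, (ker (gs h s0) r *
      (Kco χ l s0 t τ α c n r (a x) * co h χ l (y x + (-α + c * n)) (t + τ + r) (b x))) • v x := by
      intro x hx
      obtain ⟨q1, q2, q3⟩ := hV x hx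
      rw [co_expand hpu hχ l hR s0 (y x) α t τ q1 q2 q3 S (fun n hn => mem_gridZ hcpos n hn),
        Finset.sum_smul]
      refine Finset.sum_congr rfl fun n _ => ?_
      rw [integral_smul_const]
    rw [Finset.sum_congr rfl e1, Finset.sum_comm]
    refine Finset.sum_congr rfl fun n _ => ?_
    rw [← integral_finsetSum _ fun x _ => (hterm n x).smul_const _]
    congr 1
    funext r
    rw [hFv]
    simp only
    rw [Finset.smul_sum]
    refine Finset.sum_congr rfl fun x hx => ?_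
    obtain ⟨q1, q2, q3⟩ := hV x hx
    rw [smul_smul]
    congr 1
    simp only [hκ]
    rw [if_pos ⟨q3, q1⟩]
    field_simp
  rw [hexp]
  have hbound : ∀ n ∈ S, ‖∫ r : ℝ, (ker (gs h s0) r * E) • Fv n r‖ ≤
      I * (E * ((1 + |τ|) ^ μ * M * (1 + |t - t0|) ^ μ)) := by
    intro n hn
    rw [hI, ← integral_mul_const]
    apply norm_integral_le_of_norm_le
    · exact (ker_int_pow hg hgs μ).mul_const _
    refine Filter.Eventually.of_forall fun r => ?_
    rw [norm_smul, norm_mul, Complex.norm_real, Real.norm_of_nonneg hE0.le]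
    have hnS := gridZ_le hcpos hn
    have h1 := hb (κ n r) (hκ1 n r) (-α + c * n) (t + τ + r) (by
      have : -α + c * (n : ℝ) + α = c * n := by ring
      rw [this]; exact hnS)
    have h2 : (1 + |t + τ + r - t0|) ^ μ ≤ (1 + |t - t0|) ^ μ * (1 + |τ|) ^ μ * (1 + |r|) ^ μ := by
      have e0 : t + τ + r - t0 = (t - t0) + τ + r := by ring
      rw [e0]
      have h3 := Two320.pow_add_abs ((t - t0) + τ) r μ hμ
      have h4 := Two320.pow_add_abs (t - t0) τ μ hμ
      calc (1 + |(t - t0) + τ + r|) ^ μ ≤ (1 + |(t - t0) + τ|) ^ μ * (1 + |r|) ^ μ := h3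
        _ ≤ _ := by gcongr
    calc ‖ker (gs h s0) r‖ * E * ‖Fv n r‖
        ≤ ‖ker (gs h s0) r‖ * E * (M * ((1 + |t - t0|) ^ μ * (1 + |τ|) ^ μ * (1 + |r|) ^ μ)) := by
          gcongr
          exact h1.trans (mul_le_mul_of_nonneg_left h2 hM)
      _ = _ := by ring
  refine (norm_sum_le _ _).trans ((Finset.sum_le_sum hbound).trans ?_)
  rw [Finset.sum_const, nsmul_eq_mul]
  calc (S.card : ℝ) * (I * (E * ((1 + |τ|) ^ μ * M * (1 + |t - t0|) ^ μ)))
      = ((S.card : ℝ) * I * Real.exp |s0|) * Real.exp (s0 * α) * (1 + |τ|) ^ μ * M *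
        (1 + |t - t0|) ^ μ := by rw [hE]; ring
    _ ≤ ((S.card : ℝ) * I * Real.exp |s0| + 1) * Real.exp (s0 * α) * (1 + |τ|) ^ μ * M *
        (1 + |t - t0|) ^ μ := by
        gcongr
        linarith

end Crest.Agent.R017.TP320
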