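import Crest.Agent.R017.TX2_939

/-!
# Row 17: shape differences as a closed family (3): `df_ok` (helper939)
-/

set_option autoImplicit false

noncomputable section

open Complex MeasureTheory
open scoped ComplexConjugate ContDiff

namespace Crest.Agent.R017.TP320

open Crest.Agent.R012 Crest.Agent.R012.Eis Crest.Agent.R012.LS2 Crest.Agent.R012.Gauss880
open Crest.Agent.R012.Div277 Crest.Agent.R012.Weight600
open Crest.Agent.R012.PSer47 Crest.Agent.R017.End699 Crest.Agent.R017.FE47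
open Crest.Agent.R017.Two939 (cfa cfa_mul cfa_prim)

theorem split_df {h : ℝ → ℝ} {c : ℝ} (hpu : PU h c) {Mo : Eis} {χ : Eis → ℂ} (hχ : HC Mo χ)
    (l : ℤ) {R : ℝ} (hR0 : 0 ≤ R) (hR : ∀ u, cx h u ≠ 0 → |u| ≤ R) {μ : ℝ} (hμ : 0 ≤ μ)
    {ε : ℝ} (s0 : ℝ) (hε : 0 < ε) :
    ∃ C : ℝ, 1 ≤ C ∧ SplitAt (df h χ l μ) (2 * (2 * R + 1 + c) + 3) (2 * μ) ε s0 C := by
  classical
  have hε8 : 0 < ε / 8 := by positivity
  obtain ⟨C1, hC1, h2v⟩ := two_var hpu hχ l hR0 hR hμ s0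
  obtain ⟨Cτ, hCτ, hτ⟩ := tau_le_rpow hε8
  set B : ℝ := C1 * Cτ * Real.exp (ε / 8) * Real.exp |s0| with hB
  have hB1 : 1 ≤ B := by
    rw [hB]
    have e1 : 1 ≤ Real.exp (ε / 8) := Real.one_le_exp (by positivity)
    have e2 : 1 ≤ Real.exp |s0| := Real.one_le_exp (abs_nonneg _)
    calc (1 : ℝ) = 1 * 1 * 1 * 1 := by norm_num
      _ ≤ _ := by gcongr
  have hcl : ∀ α : ℝ, 2 * (|α| + 2) ≤ (16 / ε + 4) * Real.exp (ε / 8 * |α|) := by
    intro α
    have h3 : ε / 8 * |α| ≤ Real.exp (ε / 8 * |α|) := by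
      have := Real.add_one_le_exp (ε / 8 * |α|)
      linarith
    have h4 : 1 ≤ Real.exp (ε / 8 * |α|) := Real.one_le_exp (by positivity)
    have h5 : |α| ≤ 8 / ε * Real.exp (ε / 8 * |α|) := by
      have : |α| = 8 / ε * (ε / 8 * |α|) := by field_simp
      calc |α| = 8 / ε * (ε / 8 * |α|) := this
        _ ≤ _ := by gcongr
    have h6 : 16 / ε = 2 * (8 / ε) := by ring
    rw [h6]
    nlinarith
  refine ⟨(16 / ε + 4) * B, ?_, ?_⟩
  · have : 0 < 16 / ε := by positivity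
    nlinarith
  intro j α τ ι _ T v M hM hT hb
  have hT3 : ∀ p ∈ T, IsPrim p.1 ∧ IsPrim p.2 ∧ IsCoprime p.1 p.2 := fun p hp =>
    ⟨(hT p hp).1, (hT p hp).2.1, (hT p hp).2.2.1⟩
  have hht : 0 ≤ (df h χ l μ).ht j := by
    have e1 : (df h χ l μ).ht j = (1 + |j.s1|) ^ μ * (1 + |j.s2|) ^ μ := rfl
    rw [e1]
    positivity
  set F : Quad → EuclideanSpace ℂ ι := fun u => ∑ i : Bool,
      (((Real.exp (-s0 * (j.z1 + j.z2)) : ℂ) * osc τ (j.z1 + j.z2)) *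
      ((co h χ l (j.z1 + th j.δ i) (j.t1 + j.s1) (u.1.1 * u.1.2) *
        tws s0 τ (j.z1 + th j.δ i) u.1.2) *
      (co h χ l (j.z2 - th j.δ i) (j.t2 + j.s2) (u.2.1 * u.2.2) *
        tws s0 τ (j.z2 - th j.δ i) u.2.2))) •
      (sg i • v (u.1.1 * u.2.1) (u.1.2 * u.2.2)) with hF
  have hopen : ∑ p ∈ T, ((df h χ l μ).w j (p.1 * p.2) * tw s0 τ p.2) • v p.1 p.2 =
      ∑ u ∈ QS T, F u := open_dw hT3 s0 τ j.z1 j.z2 j.δ (j.t1 + j.s1) (j.t2 + j.s2) v
  rw [hopen]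
  set N := ⌊α + 1⌋₊ with hN
  have hlog : ∀ u ∈ QS T, 0 ≤ Real.log (nm u.1.1) ∧ 0 ≤ Real.log (nm u.2.1) ∧
      α ≤ Real.log (nm u.1.1) + Real.log (nm u.2.1) ∧
      Real.log (nm u.1.1) + Real.log (nm u.2.1) ≤ α + 1 := by
    intro u hu
    obtain ⟨f1, f2, f3, f4, f5, f6, f7, f8⟩ := QS_facts hT3 hu
    have := hT _ f1
    refine ⟨log_nm_nonneg' f2, log_nm_nonneg' f4, ?_, ?_⟩
    · rw [f8]; exact this.2.2.2.1
    · rw [f8]; exact this.2.2.2.2
  have hmaps : ∀ u ∈ QS T, ⌊Real.log (nm u.1.1)⌋₊ ∈ Finset.range (N + 1) := by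
    intro u hu
    obtain ⟨g1, g2, g3, g4⟩ := hlog u hu
    rw [Finset.mem_range, Nat.lt_succ_iff]
    exact Nat.floor_le_floor (by linarith)
  rw [← Finset.sum_fiberwise_of_maps_to hmaps]
  set Bd : ℝ := (C1 * Cτ * Real.exp (ε / 8 * (|α| + 1)) * Real.exp |s0|) *
      Real.exp (-s0 * ((df h χ l μ).len j - α)) * (1 + |τ|) ^ (2 * μ) * M *
        (df h χ l μ).ht j with hBd
  have hBd0 : 0 ≤ Bd := by rw [hBd]; positivity
  have hcls : ∀ i ∈ Finset.range (N + 1),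
      ‖∑ u ∈ (QS T).filter (fun u => ⌊Real.log (nm u.1.1)⌋₊ = i), F u‖ ≤ 2 * Bd := by
    intro i hi
    rcases (QS T).eq_empty_or_nonempty with hemp | ⟨u0, hu0⟩
    · rw [hemp]; simp; exact hBd0
    have hα1 : 0 ≤ α + 1 := by
      obtain ⟨g1, g2, g3, g4⟩ := hlog u0 hu0
      linarith
    have hi' : (i : ℝ) ≤ α + 1 := by
      rw [Finset.mem_range, Nat.lt_succ_iff, hN] at hi
      exact (Nat.cast_le.2 hi).trans (Nat.floor_le hα1)
    have e0 : ∑ u ∈ (QS T).filter (fun u => ⌊Real.log (nm u.1.1)⌋₊ = i), F u =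
        ∑ u ∈ (QS T).filter (fun u => ⌊Real.log (nm u.1.1)⌋₊ = i ∧
          Real.log (nm u.2.1) ≤ α - i), F u +
        ∑ u ∈ (QS T).filter (fun u => ⌊Real.log (nm u.1.1)⌋₊ = i ∧
          ¬ Real.log (nm u.2.1) ≤ α - i), F u := by
      rw [← Finset.sum_filter_add_sum_filter_not
        ((QS T).filter (fun u => ⌊Real.log (nm u.1.1)⌋₊ = i))
        (fun u => Real.log (nm u.2.1) ≤ α - i), Finset.filter_filter, Finset.filter_filter]
    have c1 := class_boundD hpu.cpos hR0 hμ hC1 h2v hε8 hCτ hτ j α τ T v M hM hT hb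
      (fun a1 a2 => ⌊Real.log (nm a1)⌋₊ = i ∧ Real.log (nm a2) ≤ α - i) i (α - i - 1)
      (by linarith) (by linarith) (by linarith) (by
        intro u hu hP
        obtain ⟨g1, g2, g3, g4⟩ := hlog u hu
        obtain ⟨p1, p2⟩ := hP
        have k1 : (i : ℝ) ≤ Real.log (nm u.1.1) := by
          rw [← p1]; exact Nat.floor_le g1
        have k2 : Real.log (nm u.1.1) < i + 1 := by
          rw [← p1]; exact Nat.lt_floor_add_one _
        refine ⟨k1, k2.le, by linarith, by linarith⟩)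
    have c2 := class_boundD hpu.cpos hR0 hμ hC1 h2v hε8 hCτ hτ j α τ T v M hM hT hb
      (fun a1 a2 => ⌊Real.log (nm a1)⌋₊ = i ∧ ¬ Real.log (nm a2) ≤ α - i) i (α - i)
      (by linarith) (by linarith) (by linarith) (by
        intro u hu hP
        obtain ⟨g1, g2, g3, g4⟩ := hlog u hu
        obtain ⟨p1, p2⟩ := hP
        have k1 : (i : ℝ) ≤ Real.log (nm u.1.1) := by
          rw [← p1]; exact Nat.floor_le g1
        have k2 : Real.log (nm u.1.1) < i + 1 := by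
          rw [← p1]; exact Nat.lt_floor_add_one _
        rw [not_le] at p2
        refine ⟨k1, k2.le, by linarith, by linarith⟩)
    rw [e0]
    refine (norm_add_le _ _).trans ?_
    rw [two_mul]
    rw [hBd]
    refine add_le_add ?_ ?_
    · refine le_trans (le_of_eq ?_) c1
      congr 2
      ext u
      simp only [Finset.mem_filter]
    · refine le_trans (le_of_eq ?_) c2
      congr 2
      ext u
      simp only [Finset.mem_filter]
  refine (norm_sum_le _ _).trans ((Finset.sum_le_sum hcls).trans ?_)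
  rw [Finset.sum_const, Finset.card_range, nsmul_eq_mul]
  have hN' : ((N : ℕ) : ℝ) ≤ |α| + 1 := by
    rcases le_or_gt 0 (α + 1) with h | h
    · rw [hN]
      exact (Nat.floor_le h).trans (by linarith [le_abs_self α])
    · rw [hN, Nat.floor_of_nonpos h.le]
      simp; positivity
  have h3 := hcl α
  push_cast
  have h4 : (((N : ℕ) : ℝ) + 1) * (2 * Bd) ≤ (16 / ε + 4) * Real.exp (ε / 8 * |α|) * Bd := by
    have : (((N : ℕ) : ℝ) + 1) * 2 ≤ (16 / ε + 4) * Real.exp (ε / 8 * |α|) := by linarith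
    nlinarith
  refine h4.trans ?_
  rw [hBd, hB]
  have e5 : Real.exp (ε / 8 * |α|) * Real.exp (ε / 8 * (|α| + 1)) ≤
      Real.exp (ε / 8) * Real.exp (ε * |α|) := by
    rw [← Real.exp_add, ← Real.exp_add]
    apply Real.exp_le_exp.2
    have := abs_nonneg α
    nlinarith
  calc (16 / ε + 4) * Real.exp (ε / 8 * |α|) * ((C1 * Cτ *
        Real.exp (ε / 8 * (|α| + 1)) * Real.exp |s0|) *
        Real.exp (-s0 * ((df h χ l μ).len j - α)) * (1 + |τ|) ^ (2 * μ) * M *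
          (df h χ l μ).ht j)
      = (16 / ε + 4) * (C1 * Cτ) * (Real.exp (ε / 8 * |α|) *
        Real.exp (ε / 8 * (|α| + 1))) * Real.exp |s0| *
        Real.exp (-s0 * ((df h χ l μ).len j - α)) * (1 + |τ|) ^ (2 * μ) * M *
          (df h χ l μ).ht j := by
        ring
    _ ≤ (16 / ε + 4) * (C1 * Cτ) * (Real.exp (ε / 8) * Real.exp (ε * |α|)) *
        Real.exp |s0| *
        Real.exp (-s0 * ((df h χ l μ).len j - α)) * (1 + |τ|) ^ (2 * μ) * M *
          (df h χ l μ).ht j := by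
        gcongr
    _ = _ := by ring

lemma co_supp {h : ℝ → ℝ} {χ : Eis → ℂ} {l : ℤ} {R : ℝ} (hR : ∀ u, cx h u ≠ 0 → |u| ≤ R)
    {y t : ℝ} {n : Eis} (hn : co h χ l y t n ≠ 0) : |Real.log (nm n) - y| ≤ R := by
  unfold co at hn
  exact hR _ (right_ne_zero_of_mul (right_ne_zero_of_mul hn))

lemma norm_co_le {h : ℝ → ℝ} {Mo : Eis} {χ : Eis → ℂ} (hχ : HC Mo χ) (l : ℤ) {C : ℝ}
    (hC : ∀ x, ‖h x‖ ≤ C) (y t : ℝ) (n : Eis) : ‖co h χ l y t n‖ ≤ C := by
  have hC0 : 0 ≤ C := (norm_nonneg _).trans (hC 0)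
  by_cases hn : IsPrim n
  · unfold co
    simp only [norm_mul, norm_osc, one_mul, End699.ext, if_pos hn]
    have b1 : ‖χ n‖ ≤ 1 := hχ.char.norm_le hn
    have b2 : ‖ang l n‖ ≤ 1 := (ang_isChar l).norm_le hn
    have b3 : ‖cx h (Real.log (nm n) - y)‖ ≤ C := by
      unfold cx
      rw [Complex.norm_real]
      exact hC _
    calc ‖χ n‖ * ‖ang l n‖ * ‖cx h (Real.log (nm n) - y)‖ ≤ 1 * 1 * C := by gcongr
      _ = C := by ring
  · rw [co_prim hn, norm_zero]; exact hC0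

lemma conv_co_prim {h : ℝ → ℝ} {χ : Eis → ℂ} {l : ℤ} {y1 y2 t1 t2 : ℝ} {n : Eis}
    (hn : conv (co h χ l y1 t1) (co h χ l y2 t2) n ≠ 0) : IsPrim n := by
  obtain ⟨d, hd, ha, hb⟩ := conv_ne_zero hn
  have p1 : IsPrim d := isPrim_of_mem_dvs hd
  have p2 : IsPrim (n / d) := by by_contra h0; exact hb (co_prim h0)
  rw [← mul_div_of_mem hd]
  exact p1.mul p2

lemma conv_co_supp {h : ℝ → ℝ} {χ : Eis → ℂ} {l : ℤ} {R : ℝ} (hR : ∀ u, cx h u ≠ 0 → |u| ≤ R)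
    {y1 y2 t1 t2 : ℝ} {n : Eis}
    (hn : conv (co h χ l y1 t1) (co h χ l y2 t2) n ≠ 0) :
    |Real.log (nm n) - (y1 + y2)| ≤ 2 * R := by
  have hp := conv_co_prim hn
  obtain ⟨d, hd, ha, hb⟩ := conv_ne_zero hn
  have e1 := log_nm_dvs hp hd
  have s1 := co_supp hR ha
  have s2 := co_supp hR hb
  rw [← e1]
  rw [abs_le] at s1 s2 ⊢
  constructor <;> linarith [s1.1, s1.2, s2.1, s2.2]

lemma norm_conv_co_le {h : ℝ → ℝ} {Mo : Eis} {χ : Eis → ℂ} (hχ : HC Mo χ) (l : ℤ) {C : ℝ}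
    (hC : ∀ x, ‖h x‖ ≤ C) (y1 y2 t1 t2 : ℝ) (n : Eis) :
    ‖conv (co h χ l y1 t1) (co h χ l y2 t2) n‖ ≤ tau n * C ^ 2 := by
  have hC0 : 0 ≤ C := (norm_nonneg _).trans (hC 0)
  unfold conv
  calc ‖∑ d ∈ dvs n, co h χ l y1 t1 d * co h χ l y2 t2 (n / d)‖
      ≤ ∑ d ∈ dvs n, C ^ 2 := by
        refine (norm_sum_le _ _).trans (Finset.sum_le_sum fun d _ => ?_)
        rw [norm_mul, pow_two]
        exact mul_le_mul (norm_co_le hχ l hC _ _ _) (norm_co_le hχ l hC _ _ _) (norm_nonneg _) hC0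
    _ = tau n * C ^ 2 := by rw [Finset.sum_const, nsmul_eq_mul]; rfl

/-- **the shape differences form a closed family** -/
theorem df_ok {h : ℝ → ℝ} {c : ℝ} (hpu : PU h c) {Mo : Eis} {χ : Eis → ℂ} (hχ : HC Mo χ)
    (l : ℤ) {R : ℝ} (hR0 : 0 ≤ R) (hR : ∀ u, cx h u ≠ 0 → |u| ≤ R) {μ : ℝ} (hμ : 0 ≤ μ) :
    (df h χ l μ).Ok (2 * (2 * R + 1 + c) + 3) (2 * μ) where
  R0 := by have := hpu.cpos; linarith
  A0 := by linarith
  ht1 j := by
    have e : (df h χ l μ).ht j = (1 + |j.s1|) ^ μ * (1 + |j.s2|) ^ μ := rfl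
    rw [e]
    have h1 : 1 ≤ (1 + |j.s1|) ^ μ := Real.one_le_rpow (by linarith [abs_nonneg j.s1]) hμ
    have h2 : 1 ≤ (1 + |j.s2|) ^ μ := Real.one_le_rpow (by linarith [abs_nonneg j.s2]) hμ
    nlinarith
  prim j n hn := by
    have e : (df h χ l μ).w j n = conv (co h χ l j.z1 (j.t1 + j.s1)) (co h χ l j.z2 (j.t2 + j.s2)) n -
      conv (co h χ l (j.z1 + j.δ) (j.t1 + j.s1)) (co h χ l (j.z2 - j.δ) (j.t2 + j.s2)) n := rfl
    by_contra h0
    apply hn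
    rw [e]
    have h1 : conv (co h χ l j.z1 (j.t1 + j.s1)) (co h χ l j.z2 (j.t2 + j.s2)) n = 0 := by
      by_contra h2; exact h0 (conv_co_prim h2)
    have h3 : conv (co h χ l (j.z1 + j.δ) (j.t1 + j.s1))
        (co h χ l (j.z2 - j.δ) (j.t2 + j.s2)) n = 0 := by
      by_contra h2; exact h0 (conv_co_prim h2)
    rw [h1, h3, sub_zero]
  supp j n hn := by
    have e : (df h χ l μ).w j n = conv (co h χ l j.z1 (j.t1 + j.s1)) (co h χ l j.z2 (j.t2 + j.s2)) n -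
      conv (co h χ l (j.z1 + j.δ) (j.t1 + j.s1)) (co h χ l (j.z2 - j.δ) (j.t2 + j.s2)) n := rfl
    have e' : (df h χ l μ).len j = j.z1 + j.z2 := rfl
    rw [e']
    have hc := hpu.cpos
    have hle : (2 * R : ℝ) ≤ 2 * (2 * R + 1 + c) + 3 := by linarith
    refine le_trans ?_ hle
    by_contra h0
    apply hn
    rw [e]
    have h1 : conv (co h χ l j.z1 (j.t1 + j.s1)) (co h χ l j.z2 (j.t2 + j.s2)) n = 0 := by
      by_contra h2; exact h0 (conv_co_supp hR h2)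
    have h3 : conv (co h χ l (j.z1 + j.δ) (j.t1 + j.s1))
        (co h χ l (j.z2 - j.δ) (j.t2 + j.s2)) n = 0 := by
      by_contra h2
      have h4 := conv_co_supp hR h2
      rw [show j.z1 + j.δ + (j.z2 - j.δ) = j.z1 + j.z2 by ring] at h4
      exact h0 h4
    rw [h1, h3, sub_zero]
  bd ε hε := by
    obtain ⟨C, hC⟩ := hpu.cs.exists_bound_of_continuous hpu.cd.continuous
    obtain ⟨Cτ, hCτ, hτ⟩ := tau_le_rpow hε
    have hC0 : 0 ≤ C := (norm_nonneg _).trans (hC 0)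
    refine ⟨Cτ * (2 * C ^ 2 + 1), by nlinarith [sq_nonneg C], fun j n => ?_⟩
    have e : (df h χ l μ).w j n = conv (co h χ l j.z1 (j.t1 + j.s1)) (co h χ l j.z2 (j.t2 + j.s2)) n -
      conv (co h χ l (j.z1 + j.δ) (j.t1 + j.s1)) (co h χ l (j.z2 - j.δ) (j.t2 + j.s2)) n := rfl
    rw [e]
    by_cases hn : n = 0
    · subst hn
      unfold conv
      rw [dvs_zero, Finset.sum_empty, Finset.sum_empty, sub_zero, norm_zero]
      positivity
    have h1 := norm_conv_co_le hχ l hC j.z1 j.z2 (j.t1 + j.s1) (j.t2 + j.s2) n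
    have h2 := norm_conv_co_le hχ l hC (j.z1 + j.δ) (j.z2 - j.δ) (j.t1 + j.s1) (j.t2 + j.s2) n
    have h3 := hτ n hn
    calc _ ≤ tau n * C ^ 2 + tau n * C ^ 2 := (norm_sub_le _ _).trans (add_le_add h1 h2)
      _ = tau n * (2 * C ^ 2) := by ring
      _ ≤ (Cτ * (nm n : ℝ) ^ ε) * (2 * C ^ 2 + 1) := by
          gcongr
          linarith
      _ = _ := by ring
  dom_refl j := ⟨by simp, by simp, rfl, rfl, rfl⟩
  dom_mono r r' j j' hr h := ⟨by linarith [h.1], by linarith [h.2.1], h.2.2.1, h.2.2.2.1, h.2.2.2.2⟩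
  dom_trans r r' j j' j'' h h' := ⟨by linarith [h.1, h'.1], by linarith [h.2.1, h'.2.1],
    h'.2.2.1.trans h.2.2.1, h'.2.2.2.1.trans h.2.2.2.1, h'.2.2.2.2.trans h.2.2.2.2⟩
  split ε s0 hε := split_df hpu hχ l hR0 hR hμ s0 hε

end Crest.Agent.R017.TP320
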