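import Crest.Agent.R017.TX3_939
import Crest.Agent.R017.TPF2_939

/-!
# Row 17: shape differences on the Gauss side (helper939)

* `TGo`, `DG`   : bilinear sum / difference on the Gauss side, log-scales
* `DG_prime`    : splitting off a prime
* `TG_sq_dw`    : `CM106.TG (sq q (dw ..)) k = DG .. (k * q ^ 3)`
* `VG_dw_le`    : coprimality on the Gauss side, exact sub-shapes
-/

set_option autoImplicit false

noncomputable section

open Complex MeasureTheory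
open scoped ComplexConjugate ContDiff

namespace Crest.Agent.R017.TP320

open Crest.Agent.R012 Crest.Agent.R012.Eis Crest.Agent.R012.LS2 Crest.Agent.R012.Gauss880
open Crest.Agent.R012.Div277 Crest.Agent.R012.Weight600 Crest.Agent.R012.Mob705
open Crest.Agent.R012.PSer47 Crest.Agent.R017.End699 Crest.Agent.R017.FE47
open Crest.Agent.R017.Two939 (cfa cfa_mul cfa_prim cfa_support sum_mul_le sy_cube_pp)
open Crest.Agent.R017.CM106 (CS TG FS)

/-- summand -/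
def tgo (h : ℝ → ℝ) (χ : Eis → ℂ) (l : ℤ) (k : Eis) (y1 y2 t1 t2 : ℝ) (p : Eis × Eis) : ℂ :=
  co h χ l y1 t1 p.1 * co h χ l y2 t2 p.2 * (G (p.1 * p.2) * conj (sy k (p.1 * p.2)))

/-- bilinear sum on the Gauss side, own scale -/
def TGo (h : ℝ → ℝ) (χ : Eis → ℂ) (l : ℤ) (k : Eis) (y1 y2 t1 t2 : ℝ) : ℂ :=
  ∑' p : Eis × Eis, tgo h χ l k y1 y2 t1 t2 p

/-- difference on the Gauss side -/
def DG (h : ℝ → ℝ) (χ : Eis → ℂ) (l : ℤ) (k : Eis) (z1 z2 δ t1 t2 : ℝ) : ℂ :=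
  TGo h χ l k z1 z2 t1 t2 - TGo h χ l k (z1 + δ) (z2 - δ) t1 t2

lemma tgo_eq (h : ℝ → ℝ) (χ : Eis → ℂ) (l : ℤ) (k : Eis) (y1 y2 t1 t2 : ℝ) (p : Eis × Eis) :
    tgo h χ l k y1 y2 t1 t2 p = (osc t1 (-y1) * osc t2 (-y2)) *
      Two939.tg h χ l k (Real.exp y1) (Real.exp y2) t1 t2 p := by
  unfold tgo Two939.tg
  rw [co_eq, co_eq]
  ring

lemma TGo_eq (h : ℝ → ℝ) (χ : Eis → ℂ) (l : ℤ) (k : Eis) (y1 y2 t1 t2 : ℝ) :
    TGo h χ l k y1 y2 t1 t2 = (osc t1 (-y1) * osc t2 (-y2)) *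
      Two939.TG h χ l k (Real.exp y1) (Real.exp y2) t1 t2 := by
  unfold TGo
  rw [tsum_congr fun p => tgo_eq h χ l k y1 y2 t1 t2 p, tsum_mul_left]
  rfl

/-- relation with `TDf` -/
lemma DG_eq_TDf (h : ℝ → ℝ) (χ : Eis → ℂ) (l : ℤ) (k : Eis) {Y1 Y2 Z1 Z2 : ℝ} (h1 : 0 < Y1)
    (h2 : 0 < Y2) (h3 : 0 < Z1) (h4 : 0 < Z2) (hYZ : Y1 * Y2 = Z1 * Z2) (t1 t2 : ℝ) :
    Two939.TDf h χ l k Y1 Y2 Z1 Z2 t1 t2 =
      DG h χ l k (Real.log Y1) (Real.log Y2) (Real.log Z1 - Real.log Y1) t1 t2 := by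
  unfold DG Two939.TDf
  have e1 : Real.log Y1 + (Real.log Z1 - Real.log Y1) = Real.log Z1 := by ring
  have e2 : Real.log Y2 - (Real.log Z1 - Real.log Y1) = Real.log Z2 := by
    have := congrArg Real.log hYZ
    rw [Real.log_mul h1.ne' h2.ne', Real.log_mul h3.ne' h4.ne'] at this
    linarith
  rw [e1, e2, TGo_eq, TGo_eq, Real.exp_log h1, Real.exp_log h2, Real.exp_log h3, Real.exp_log h4]

lemma co_mul {h : ℝ → ℝ} {M : Eis} {χ : Eis → ℂ} (hχ : HC M χ) (l : ℤ) {p : Eis} (hp : IsPrim p)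
    (y t : ℝ) (b : Eis) :
    co h χ l y t (p * b) = (χ p * ang l p) * co h χ l (y - Real.log (nm p)) t b := by
  unfold co
  by_cases hb : IsPrim b
  · have hpb : IsPrim (p * b) := hp.mul hb
    have hp1 := one_le_nm' hp
    have hb1 := one_le_nm' hb
    simp only [End699.ext, if_pos hb, if_pos hpb]
    have e1 : Real.log (nm (p * b)) - y = Real.log (nm b) - (y - Real.log (nm p)) := by
      rw [nm_mul]; push_cast
      rw [Real.log_mul (by linarith) (by linarith)]; ring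
    rw [e1, hχ.char.mul p b hp hb, (ang_isChar l).mul p b hp hb]
    ring
  · have hpb : ¬ IsPrim (p * b) := fun h => hb ((P355.isPrim_mul_iff hp).mp h)
    simp [End699.ext, hb, hpb]

lemma tgo_support {h : ℝ → ℝ} (hh : HasCompactSupport h) (χ : Eis → ℂ) (l : ℤ) (y1 y2 : ℝ) :
    ∃ N : ℕ, ∀ (k : Eis) (t1 t2 : ℝ) (p : Eis × Eis), tgo h χ l k y1 y2 t1 t2 p ≠ 0 →
      p ∈ primBall N ×ˢ primBall N := by
  obtain ⟨N, hN⟩ := Two939.tg_support hh χ l (Real.exp y1) (Real.exp y2)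
  refine ⟨N, fun k t1 t2 p hp => hN k t1 t2 p fun h0 => hp ?_⟩
  rw [tgo_eq, h0, mul_zero]

lemma summable_tgo {h : ℝ → ℝ} (hh : HasCompactSupport h) (χ : Eis → ℂ) (l : ℤ) (k : Eis)
    (y1 y2 t1 t2 : ℝ) : Summable (tgo h χ l k y1 y2 t1 t2) := by
  obtain ⟨N, hN⟩ := tgo_support hh χ l y1 y2
  refine summable_of_ne_finset_zero (s := primBall N ×ˢ primBall N) fun p hp => ?_
  by_contra h0
  exact hp (hN k t1 t2 p h0)

/-- the coefficient of a prime -/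
def cpr (χ : Eis → ℂ) (l : ℤ) (k p : Eis) : ℂ := (χ p * ang l p) * (G p * conj (sy k p))

lemma norm_cpr_le {M : Eis} {χ : Eis → ℂ} (hχ : HC M χ) (l : ℤ) (k : Eis) {p : Eis}
    (hp : IsPrim p) : ‖cpr χ l k p‖ ≤ 1 := by
  unfold cpr
  rw [norm_mul, norm_mul, norm_mul, RCLike.norm_conj]
  have h1 := hχ.char.norm_le hp
  have h2 : ‖ang l p‖ ≤ 1 := (ang_isChar l).norm_le hp
  have h3 := norm_G_le syG hp
  have h4 := Two939.norm_sy_le (k := k) hp
  calc ‖χ p‖ * ‖ang l p‖ * (‖G p‖ * ‖sy k p‖) ≤ 1 * 1 * (1 * 1) := by gcongr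
    _ = 1 := by ring

open Classical in
lemma tgo_split {h : ℝ → ℝ} {χ : Eis → ℂ} (l : ℤ) (k : Eis) (y1 y2 t1 t2 : ℝ) {p : Eis}
    (hp : IsPrim p) (hpp : Prime p) (q : Eis × Eis) :
    tgo h χ l k y1 y2 t1 t2 q = tgo h χ l (k * p ^ 3) y1 y2 t1 t2 q +
      ((if p ∣ q.1 then tgo h χ l k y1 y2 t1 t2 q else 0) +
        (if p ∣ q.2 then tgo h χ l k y1 y2 t1 t2 q else 0)) := by
  rw [tgo_eq, tgo_eq]
  conv_lhs => rw [Two939.tg_split l k (Real.exp y1) (Real.exp y2) t1 t2 hp hpp q]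
  by_cases h1 : p ∣ q.1
  · by_cases h2 : p ∣ q.2
    · simp only [if_pos h1, if_pos h2]; ring
    · simp only [if_pos h1, if_neg h2]; ring
  · by_cases h2 : p ∣ q.2
    · simp only [if_neg h1, if_pos h2]; ring
    · simp only [if_neg h1, if_neg h2]; ring

lemma tgo_shift1 {h : ℝ → ℝ} {M : Eis} {χ : Eis → ℂ} (hχ : HC M χ) (l : ℤ) (k : Eis)
    (y1 y2 t1 t2 : ℝ) {p : Eis} (hp : IsPrim p) (b c : Eis) :
    tgo h χ l k y1 y2 t1 t2 (p * b, c) = cpr χ l k p *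
      tgo h χ l (k * p) (y1 - Real.log (nm p)) y2 t1 t2 (b, c) := by
  unfold tgo cpr
  simp only
  rw [co_mul hχ l hp]
  by_cases hb : IsPrim b
  swap
  · rw [co_prim hb]; ring
  by_cases hc : IsPrim c
  swap
  · rw [co_prim hc]; ring
  have hbc := hb.mul hc
  have e1 : p * b * c = p * (b * c) := by ring
  rw [e1, G_mul_all syG hp hbc, Char766.sy_mul_right hp hbc, Char766.sy_mul_left hbc,
    map_mul, map_mul]
  ring

lemma tgo_shift2 {h : ℝ → ℝ} {M : Eis} {χ : Eis → ℂ} (hχ : HC M χ) (l : ℤ) (k : Eis)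
    (y1 y2 t1 t2 : ℝ) {p : Eis} (hp : IsPrim p) (b c : Eis) :
    tgo h χ l k y1 y2 t1 t2 (b, p * c) = cpr χ l k p *
      tgo h χ l (k * p) y1 (y2 - Real.log (nm p)) t1 t2 (b, c) := by
  unfold tgo cpr
  simp only
  rw [co_mul hχ l hp]
  by_cases hb : IsPrim b
  swap
  · rw [co_prim hb]; ring
  by_cases hc : IsPrim c
  swap
  · rw [co_prim hc]; ring
  have hbc := hb.mul hc
  have e1 : b * (p * c) = p * (b * c) := by ring
  rw [e1, G_mul_all syG hp hbc, Char766.sy_mul_right hp hbc, Char766.sy_mul_left hbc,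
    map_mul, map_mul]
  ring

/-- splitting off a prime, explicit coefficient -/
theorem TGo_prime {h : ℝ → ℝ} (hh : HasCompactSupport h) {M : Eis} {χ : Eis → ℂ} (hχ : HC M χ)
    (l : ℤ) (k : Eis) (y1 y2 t1 t2 : ℝ) {p : Eis} (hp : IsPrim p) (hpp : Prime p) :
    TGo h χ l k y1 y2 t1 t2 = TGo h χ l (k * p ^ 3) y1 y2 t1 t2 +
      cpr χ l k p * TGo h χ l (k * p) (y1 - Real.log (nm p)) y2 t1 t2 +
      cpr χ l k p * TGo h χ l (k * p) y1 (y2 - Real.log (nm p)) t1 t2 := by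
  classical
  have hS3 := summable_tgo hh χ l (k * p ^ 3) y1 y2 t1 t2
  have hSa : Summable (fun q : Eis × Eis => if p ∣ q.1 then tgo h χ l k y1 y2 t1 t2 q else 0) := by
    obtain ⟨N, hN⟩ := tgo_support hh χ l y1 y2
    refine summable_of_ne_finset_zero (s := primBall N ×ˢ primBall N) fun q hq => ?_
    split_ifs
    · by_contra h0; exact hq (hN k t1 t2 q h0)
    · rfl
  have hSb : Summable (fun q : Eis × Eis => if p ∣ q.2 then tgo h χ l k y1 y2 t1 t2 q else 0) := by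
    obtain ⟨N, hN⟩ := tgo_support hh χ l y1 y2
    refine summable_of_ne_finset_zero (s := primBall N ×ˢ primBall N) fun q hq => ?_
    split_ifs
    · by_contra h0; exact hq (hN k t1 t2 q h0)
    · rfl
  have ea : ∑' q : Eis × Eis, (if p ∣ q.1 then tgo h χ l k y1 y2 t1 t2 q else 0) =
      cpr χ l k p * TGo h χ l (k * p) (y1 - Real.log (nm p)) y2 t1 t2 := by
    have hinj : Function.Injective (fun q : Eis × Eis => ((p * q.1, q.2) : Eis × Eis)) := by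
      intro a b hab
      simp only [Prod.mk.injEq] at hab
      exact Prod.ext (mul_left_cancel₀ hp.ne_zero hab.1) hab.2
    have hsup : Function.support (fun q : Eis × Eis => if p ∣ q.1 then
        tgo h χ l k y1 y2 t1 t2 q else 0) ⊆
        Set.range (fun q : Eis × Eis => ((p * q.1, q.2) : Eis × Eis)) := by
      intro q hq
      by_cases hd : p ∣ q.1
      · obtain ⟨c, hc⟩ := hd
        exact ⟨(c, q.2), by simp [← hc]⟩
      · exfalso; apply hq; simp [hd]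
    rw [← hinj.tsum_eq hsup]
    unfold TGo
    rw [← tsum_mul_left]
    refine tsum_congr fun q => ?_
    rw [if_pos (dvd_mul_right p q.1)]
    exact tgo_shift1 hχ l k y1 y2 t1 t2 hp q.1 q.2
  have eb : ∑' q : Eis × Eis, (if p ∣ q.2 then tgo h χ l k y1 y2 t1 t2 q else 0) =
      cpr χ l k p * TGo h χ l (k * p) y1 (y2 - Real.log (nm p)) t1 t2 := by
    have hinj : Function.Injective (fun q : Eis × Eis => ((q.1, p * q.2) : Eis × Eis)) := by
      intro a b hab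
      simp only [Prod.mk.injEq] at hab
      exact Prod.ext hab.1 (mul_left_cancel₀ hp.ne_zero hab.2)
    have hsup : Function.support (fun q : Eis × Eis => if p ∣ q.2 then
        tgo h χ l k y1 y2 t1 t2 q else 0) ⊆
        Set.range (fun q : Eis × Eis => ((q.1, p * q.2) : Eis × Eis)) := by
      intro q hq
      by_cases hd : p ∣ q.2
      · obtain ⟨c, hc⟩ := hd
        exact ⟨(q.1, c), by simp [← hc]⟩
      · exfalso; apply hq; simp [hd]
    rw [← hinj.tsum_eq hsup]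
    unfold TGo
    rw [← tsum_mul_left]
    refine tsum_congr fun q => ?_
    rw [if_pos (dvd_mul_right p q.2)]
    exact tgo_shift2 hχ l k y1 y2 t1 t2 hp q.1 q.2
  have e0 : TGo h χ l k y1 y2 t1 t2 = ∑' q, (tgo h χ l (k * p ^ 3) y1 y2 t1 t2 q +
      ((if p ∣ q.1 then tgo h χ l k y1 y2 t1 t2 q else 0) +
        (if p ∣ q.2 then tgo h χ l k y1 y2 t1 t2 q else 0))) :=
    tsum_congr fun q => tgo_split l k y1 y2 t1 t2 hp hpp q
  rw [e0, Summable.tsum_add hS3 (hSa.add hSb), Summable.tsum_add hSa hSb, ea, eb]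
  unfold TGo
  ring

/-- splitting off a prime, difference -/
theorem DG_prime {h : ℝ → ℝ} (hh : HasCompactSupport h) {M : Eis} {χ : Eis → ℂ} (hχ : HC M χ)
    (l : ℤ) (k : Eis) (z1 z2 δ t1 t2 : ℝ) {p : Eis} (hp : IsPrim p) (hpp : Prime p) :
    DG h χ l k z1 z2 δ t1 t2 = DG h χ l (k * p ^ 3) z1 z2 δ t1 t2 +
      cpr χ l k p * DG h χ l (k * p) (z1 - Real.log (nm p)) z2 δ t1 t2 +
      cpr χ l k p * DG h χ l (k * p) z1 (z2 - Real.log (nm p)) δ t1 t2 := by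
  unfold DG
  rw [TGo_prime hh hχ l k z1 z2 t1 t2 hp hpp, TGo_prime hh hχ l k (z1 + δ) (z2 - δ) t1 t2 hp hpp]
  have e1 : z1 + δ - Real.log (nm p) = z1 - Real.log (nm p) + δ := by ring
  have e2 : z2 - δ - Real.log (nm p) = z2 - Real.log (nm p) - δ := by ring
  rw [e1, e2]
  ring

lemma DG_split_sq {h : ℝ → ℝ} (hh : HasCompactSupport h) {M : Eis} {χ : Eis → ℂ} (hχ : HC M χ)
    (l : ℤ) (k : Eis) (z1 z2 δ t1 t2 : ℝ) {p : Eis} (hp : IsPrim p) (hpp : Prime p) :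
    ‖DG h χ l k z1 z2 δ t1 t2‖ ^ 2 ≤ 3 * (‖DG h χ l (k * p ^ 3) z1 z2 δ t1 t2‖ ^ 2 +
      ‖DG h χ l (k * p) (z1 - Real.log (nm p)) z2 δ t1 t2‖ ^ 2 +
      ‖DG h χ l (k * p) z1 (z2 - Real.log (nm p)) δ t1 t2‖ ^ 2) ∧
    ‖DG h χ l (k * p ^ 3) z1 z2 δ t1 t2‖ ^ 2 ≤ 3 * (‖DG h χ l k z1 z2 δ t1 t2‖ ^ 2 +
      ‖DG h χ l (k * p) (z1 - Real.log (nm p)) z2 δ t1 t2‖ ^ 2 +
      ‖DG h χ l (k * p) z1 (z2 - Real.log (nm p)) δ t1 t2‖ ^ 2) := by
  have heq := DG_prime hh hχ l k z1 z2 δ t1 t2 hp hpp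
  have hc := norm_cpr_le hχ l k hp
  set c := cpr χ l k p
  set A := DG h χ l k z1 z2 δ t1 t2
  set B := DG h χ l (k * p ^ 3) z1 z2 δ t1 t2
  set D := DG h χ l (k * p) (z1 - Real.log (nm p)) z2 δ t1 t2
  set E := DG h χ l (k * p) z1 (z2 - Real.log (nm p)) δ t1 t2
  have hD : ‖c * D‖ ≤ ‖D‖ := by rw [norm_mul]; exact mul_le_of_le_one_left (norm_nonneg _) hc
  have hE : ‖c * E‖ ≤ ‖E‖ := by rw [norm_mul]; exact mul_le_of_le_one_left (norm_nonneg _) hc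
  have key : ∀ x y z w : ℝ, 0 ≤ x → x ≤ y + z + w →
      x ^ 2 ≤ 3 * (y ^ 2 + z ^ 2 + w ^ 2) := by
    intro x y z w hx hxy
    have h1 : x ^ 2 ≤ (y + z + w) ^ 2 := by gcongr
    nlinarith [sq_nonneg (y - z), sq_nonneg (z - w), sq_nonneg (y - w)]
  constructor
  · apply key _ _ _ _ (norm_nonneg _)
    calc ‖A‖ = ‖B + c * D + c * E‖ := by rw [heq]
      _ ≤ ‖B + c * D‖ + ‖c * E‖ := norm_add_le _ _
      _ ≤ ‖B‖ + ‖c * D‖ + ‖c * E‖ := by gcongr; exact norm_add_le _ _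
      _ ≤ _ := by gcongr
  · apply key _ _ _ _ (norm_nonneg _)
    have : B = A - c * D - c * E := by rw [heq]; ring
    calc ‖B‖ = ‖A - c * D - c * E‖ := by rw [this]
      _ ≤ ‖A - c * D‖ + ‖c * E‖ := norm_sub_le _ _
      _ ≤ ‖A‖ + ‖c * D‖ + ‖c * E‖ := by gcongr; exact norm_sub_le _ _
      _ ≤ _ := by gcongr

/-- coprimality to a squarefree product, difference -/
lemma sum_DG_prod {h : ℝ → ℝ} (hh : HasCompactSupport h) {M : Eis} {χ : Eis → ℂ} (hχ : HC M χ)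
    (l : ℤ) (δ t1 t2 Bd : ℝ) (S : Finset Eis) (hS : PPSet S) :
    ∀ L z1 z2 : ℝ, 0 < L →
    (∀ a1 a2 : Eis, IsPrim a1 → IsPrim a2 → a1 * a2 ∣ ∏ p ∈ S, p →
      ∑ k ∈ bl (L * nm (a1 * a2)), ‖DG h χ l k (z1 - Real.log (nm a1)) (z2 - Real.log (nm a2))
        δ t1 t2‖ ^ 2 ≤ Bd) →
    ∑ k ∈ bl L, ‖DG h χ l (k * (∏ p ∈ S, p) ^ 3) z1 z2 δ t1 t2‖ ^ 2 ≤ 9 ^ S.card * Bd := by
  classical
  induction S using Finset.induction_on with
  | empty =>
    intro L z1 z2 hL hB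
    have := hB 1 1 isPrim_one isPrim_one (by simp)
    simpa using this
  | insert p S hpS ih =>
    intro L z1 z2 hL hB
    have hS' : PPSet S := hS.subset (Finset.subset_insert _ _)
    have hpp : Mob705.IsPP p := hS p (Finset.mem_insert_self _ _)
    have hp := hpp.isPrim
    have hp1 := one_le_nm' hp
    have hp0 : (0 : ℝ) < nm p := by linarith
    rw [Finset.prod_insert hpS, Finset.card_insert_of_notMem hpS]
    rw [Finset.prod_insert hpS] at hB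
    set Q := ∏ q ∈ S, q with hQ
    have i1 := ih hS' L z1 z2 hL fun a1 a2 h1 h2 hd => hB a1 a2 h1 h2 (hd.mul_left p)
    have i2 := ih hS' (L * nm p) (z1 - Real.log (nm p)) z2 (by positivity)
      fun a1 a2 h1 h2 hd => by
        have := hB (p * a1) a2 (hp.mul h1) h2 (by
          rw [mul_assoc]; exact mul_dvd_mul_left p hd)
        have ha1 := one_le_nm' h1
        rw [show p * a1 * a2 = p * (a1 * a2) by ring, nm_mul p (a1 * a2), nm_mul p a1] at this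
        push_cast at this
        rw [Real.log_mul (by linarith) (by linarith)] at this
        rwa [sub_sub, mul_assoc L]
    have i3 := ih hS' (L * nm p) z1 (z2 - Real.log (nm p)) (by positivity)
      fun a1 a2 h1 h2 hd => by
        have := hB a1 (p * a2) h1 (hp.mul h2) (by
          rw [show a1 * (p * a2) = p * (a1 * a2) by ring]; exact mul_dvd_mul_left p hd)
        have ha2 := one_le_nm' h2
        rw [show a1 * (p * a2) = p * (a1 * a2) by ring, nm_mul p (a1 * a2), nm_mul p a2] at this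
        push_cast at this
        rw [Real.log_mul (by linarith) (by linarith)] at this
        rwa [sub_sub, mul_assoc L]
    have hpt : ∀ k : Eis, ‖DG h χ l (k * (p * Q) ^ 3) z1 z2 δ t1 t2‖ ^ 2 ≤
        3 * (‖DG h χ l (k * Q ^ 3) z1 z2 δ t1 t2‖ ^ 2 +
          ‖DG h χ l (k * p * Q ^ 3) (z1 - Real.log (nm p)) z2 δ t1 t2‖ ^ 2 +
          ‖DG h χ l (k * p * Q ^ 3) z1 (z2 - Real.log (nm p)) δ t1 t2‖ ^ 2) := by
      intro k
      have := (DG_split_sq hh hχ l (k * Q ^ 3) z1 z2 δ t1 t2 hp hpp.prime).2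
      have e1 : k * (p * Q) ^ 3 = k * Q ^ 3 * p ^ 3 := by ring
      have e2 : k * p * Q ^ 3 = k * Q ^ 3 * p := by ring
      rw [e1, e2]
      exact this
    have m2 := sum_mul_le hL.le hp.ne_zero (le_refl (nm p : ℝ))
      (f := fun k => ‖DG h χ l (k * Q ^ 3) (z1 - Real.log (nm p)) z2 δ t1 t2‖ ^ 2)
      fun k => by positivity
    have m3 := sum_mul_le hL.le hp.ne_zero (le_refl (nm p : ℝ))
      (f := fun k => ‖DG h χ l (k * Q ^ 3) z1 (z2 - Real.log (nm p)) δ t1 t2‖ ^ 2)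
      fun k => by positivity
    calc ∑ k ∈ bl L, ‖DG h χ l (k * (p * Q) ^ 3) z1 z2 δ t1 t2‖ ^ 2
        ≤ ∑ k ∈ bl L, 3 * (‖DG h χ l (k * Q ^ 3) z1 z2 δ t1 t2‖ ^ 2 +
          ‖DG h χ l (k * p * Q ^ 3) (z1 - Real.log (nm p)) z2 δ t1 t2‖ ^ 2 +
          ‖DG h χ l (k * p * Q ^ 3) z1 (z2 - Real.log (nm p)) δ t1 t2‖ ^ 2) :=
          Finset.sum_le_sum fun k _ => hpt k
      _ = 3 * (∑ k ∈ bl L, ‖DG h χ l (k * Q ^ 3) z1 z2 δ t1 t2‖ ^ 2 +
          ∑ k ∈ bl L, ‖DG h χ l (k * p * Q ^ 3) (z1 - Real.log (nm p)) z2 δ t1 t2‖ ^ 2 +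
          ∑ k ∈ bl L, ‖DG h χ l (k * p * Q ^ 3) z1 (z2 - Real.log (nm p)) δ t1 t2‖ ^ 2) := by
          simp_rw [← Finset.mul_sum, Finset.sum_add_distrib]
      _ ≤ 3 * (9 ^ S.card * Bd + 9 ^ S.card * Bd + 9 ^ S.card * Bd) := by
          have m2' := m2.trans i2
          have m3' := m3.trans i3
          linarith
      _ = 9 ^ (S.card + 1) * Bd := by ring

lemma DG_cube_pp (h : ℝ → ℝ) (χ : Eis → ℂ) (l : ℤ) {k q : Eis} (hq : q ≠ 0) (z1 z2 δ t1 t2 : ℝ) :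
    DG h χ l (k * q ^ 3) z1 z2 δ t1 t2 =
      DG h χ l (k * (∏ p ∈ pp q, p) ^ 3) z1 z2 δ t1 t2 := by
  have key : ∀ y1 y2, TGo h χ l (k * q ^ 3) y1 y2 t1 t2 =
      TGo h χ l (k * (∏ p ∈ pp q, p) ^ 3) y1 y2 t1 t2 := by
    intro y1 y2
    rw [TGo_eq, TGo_eq, Two939.TG_cube_pp h χ l hq]
  unfold DG
  rw [key, key]

lemma fs_co {h : ℝ → ℝ} (hh : HasCompactSupport h) (χ : Eis → ℂ) (l : ℤ) (y t : ℝ) :
    FS (co h χ l y t) where
  fin := by
    obtain ⟨N, hN⟩ := cfa_support hh χ l (Real.exp y)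
    refine (primBall N).finite_toSet.subset fun b hb => hN t b fun h0 => hb ?_
    rw [co_eq, h0, mul_zero]
  prim := fun m hm => by
    by_contra h0
    exact hm (co_prim h0)

lemma dw_prim {h : ℝ → ℝ} {χ : Eis → ℂ} {l : ℤ} {z1 z2 δ t1 t2 : ℝ} {n : Eis}
    (hn : dw h χ l z1 z2 δ t1 t2 n ≠ 0) : IsPrim n := by
  by_contra h0
  apply hn
  unfold dw
  have h1 : conv (co h χ l z1 t1) (co h χ l z2 t2) n = 0 := by
    by_contra h2; exact h0 (conv_co_prim h2)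
  have h3 : conv (co h χ l (z1 + δ) t1) (co h χ l (z2 - δ) t2) n = 0 := by
    by_contra h2; exact h0 (conv_co_prim h2)
  rw [h1, h3, sub_zero]

/-- **bridge**, difference -/
lemma TG_sq_dw {h : ℝ → ℝ} (hh : HasCompactSupport h) (χ : Eis → ℂ) (l : ℤ) (q : Eis)
    (z1 z2 δ t1 t2 : ℝ) (k : Eis) : TG (sq q (dw h χ l z1 z2 δ t1 t2)) k =
      DG h χ l (k * q ^ 3) z1 z2 δ t1 t2 := by
  classical
  have key : ∀ y1 y2, TGo h χ l (k * q ^ 3) y1 y2 t1 t2 =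
      ∑' n, conv (co h χ l y1 t1) (co h χ l y2 t2) n * (G n * conj (sy (k * q ^ 3) n)) := by
    intro y1 y2
    rw [tsum_conv (fs_co hh χ l y1 t1) (fs_co hh χ l y2 t2)
      (fun n => G n * conj (sy (k * q ^ 3) n))]
    rfl
  have hsum : ∀ y1 y2, Summable fun n => conv (co h χ l y1 t1) (co h χ l y2 t2) n *
      (G n * conj (sy (k * q ^ 3) n)) := by
    intro y1 y2
    obtain ⟨R, hR0, hR⟩ := exists_R (cs_cx hh)
    refine summable_of_ne_finset_zero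
      (s := primBall ⌊Real.exp (y1 + y2 + 2 * R)⌋₊) fun n hn => ?_
    by_contra h0
    apply hn
    have h1 := left_ne_zero_of_mul h0
    have hp := conv_co_prim h1
    have hs := conv_co_supp hR h1
    rw [mem_primBall]
    refine ⟨Nat.le_floor ?_, hp⟩
    have hn1 := one_le_nm' hp
    rw [← Real.exp_log (by linarith : (0 : ℝ) < nm n)]
    apply Real.exp_le_exp.2
    rw [abs_le] at hs
    linarith [hs.2]
  unfold DG
  rw [key, key, ← Summable.tsum_sub (hsum _ _) (hsum _ _)]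
  unfold TG sq
  refine tsum_congr fun n => ?_
  by_cases hc0 : dw h χ l z1 z2 δ t1 t2 n = 0
  · have : (conv (co h χ l z1 t1) (co h χ l z2 t2) n) =
        conv (co h χ l (z1 + δ) t1) (co h χ l (z2 - δ) t2) n := by
      unfold dw at hc0
      exact sub_eq_zero.mp hc0
    rw [hc0, this]; simp
  have hn := dw_prim hc0
  rw [← sub_mul]
  have e0 : conv (co h χ l z1 t1) (co h χ l z2 t2) n -
      conv (co h χ l (z1 + δ) t1) (co h χ l (z2 - δ) t2) n = dw h χ l z1 z2 δ t1 t2 n := rfl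
  rw [e0]
  by_cases hs : Squarefree n
  · by_cases hq : IsCoprime n q
    · rw [if_pos ⟨hn, hs, hq⟩, Char766.sy_mul_left hn, Char766.sy_cube_left hn hq.symm, mul_one]
    · rw [if_neg (fun h => hq h.2.2)]
      have : sy (k * q ^ 3) n = 0 := by
        apply Char766.sy_eq_zero hn
        intro h
        exact hq (h.of_mul_left_right.of_isCoprime_of_dvd_left (dvd_pow_self q three_ne_zero)).symm
      rw [this]; simp
  · rw [if_neg (fun h => hs h.2.1), G_eq_zero syG hn hs]; simp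

/-- **coprimality on the Gauss side, difference, exact sub-shapes** -/
theorem VG_dw_le {h : ℝ → ℝ} (hh : HasCompactSupport h) {ε : ℝ} (hε : 0 < ε) :
    ∃ C : ℝ, 1 ≤ C ∧ ∀ {M : Eis} {χ : Eis → ℂ}, HC M χ → ∀ (l : ℤ) (L z1 z2 δ t1 t2 Bd : ℝ),
      0 < L → 0 ≤ Bd → ∀ q : Eis, q ≠ 0 →
      (∀ a1 a2 : Eis, IsPrim a1 → IsPrim a2 → a1 * a2 ∣ q →
        ∑ k ∈ bl (L * nm (a1 * a2)), ‖DG h χ l k (z1 - Real.log (nm a1)) (z2 - Real.log (nm a2))
          δ t1 t2‖ ^ 2 ≤ Bd) →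
      VG L (sq q (dw h χ l z1 z2 δ t1 t2)) ≤ C * (nm q : ℝ) ^ ε * Bd := by
  obtain ⟨Ct, hCt, htau⟩ := tau_le_rpow (ε := ε / 4) (by positivity)
  refine ⟨Ct ^ 4, one_le_pow₀ hCt, ?_⟩
  intro M χ hχ l L z1 z2 δ t1 t2 Bd hL hBd q hq hH
  have hdq : ∀ a : Eis, a ∣ ∏ p ∈ pp q, p → a ∣ q := fun a ha =>
    ha.trans ((ppSet_pp q).prod_dvd.mpr fun p hp => dvd_of_mem_pp hp)
  have hmain := sum_DG_prod hh hχ l δ t1 t2 Bd (pp q) (ppSet_pp q) L z1 z2 hL
    fun a1 a2 h1 h2 hd => hH a1 a2 h1 h2 (hdq _ hd)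
  have h9 : (9 : ℝ) ^ (pp q).card ≤ Ct ^ 4 * (nm q : ℝ) ^ ε := by
    have h2 := TypeI941.two_pow_card_pp_le hq
    have h3 := htau q hq
    have hnq : (0 : ℝ) ≤ nm q := Nat.cast_nonneg _
    calc (9 : ℝ) ^ (pp q).card ≤ 16 ^ (pp q).card := by gcongr; norm_num
      _ = ((2 : ℝ) ^ (pp q).card) ^ 4 := by
          rw [← pow_mul, mul_comm, pow_mul]; norm_num
      _ ≤ (Ct * (nm q : ℝ) ^ (ε / 4)) ^ 4 := by
          have := h2.trans h3
          gcongr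
      _ = Ct ^ 4 * (nm q : ℝ) ^ ε := by
          rw [mul_pow, ← Real.rpow_natCast ((nm q : ℝ) ^ (ε / 4)), ← Real.rpow_mul hnq]
          congr 2
          push_cast
          ring
  calc VG L (sq q (dw h χ l z1 z2 δ t1 t2))
      = ∑ k ∈ bl L, ‖DG h χ l (k * (∏ p ∈ pp q, p) ^ 3) z1 z2 δ t1 t2‖ ^ 2 := by
        unfold VG
        exact Finset.sum_congr rfl fun k _ => by rw [TG_sq_dw hh, DG_cube_pp h χ l hq]
    _ ≤ 9 ^ (pp q).card * Bd := hmain
    _ ≤ _ := by gcongr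

end Crest.Agent.R017.TP320
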