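import Crest.Agent.R017.TX4_939
import Crest.Agent.R017.GmK_411

/-!
# Row 17: shape differences, cube monotonicity on the Gauss side (1) (helper939)
-/

set_option autoImplicit false

noncomputable section

open Complex MeasureTheory
open scoped ComplexConjugate ContDiff

namespace Crest.Agent.R017.TP320

open Crest.Agent.R012 Crest.Agent.R012.Eis Crest.Agent.R012.LS2 Crest.Agent.R012.Gauss880
open Crest.Agent.R012.Div277 Crest.Agent.R012.Weight600
open Crest.Agent.R012.PSer47 Crest.Agent.R017.End699 Crest.Agent.R017.FE47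
open Crest.Agent.R017.Two939 (cfa cfa_mul cfa_prim cfa_support sum_mul_le sy_cube_pp)

lemma eu_sum_apply {ι X : Type} [Fintype ι] (V : Finset X) (w : X → EuclideanSpace ℂ ι) (i : ι) :
    (∑ x ∈ V, w x) i = ∑ x ∈ V, w x i := by
  simp

/-- finite form of the bilinear sum -/
lemma TGo_sum {h : ℝ → ℝ} (hh : HasCompactSupport h) (χ : Eis → ℂ) (l : ℤ) {R : ℝ}
    (hR : ∀ u, cx h u ≠ 0 → |u| ≤ R) {N : ℕ} (k : Eis) {y1 y2 : ℝ} (t1 t2 : ℝ)
    (h1 : Real.exp (y1 + R) ≤ N) (h2 : Real.exp (y2 + R) ≤ N) :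
    TGo h χ l k y1 y2 t1 t2 = ∑ q ∈ primBall N ×ˢ primBall N, tgo h χ l k y1 y2 t1 t2 q := by
  unfold TGo
  apply tsum_eq_sum
  intro q hq
  by_contra h0
  apply hq
  have key : ∀ {y t : ℝ} {b : Eis}, co h χ l y t b ≠ 0 → Real.exp (y + R) ≤ N →
      b ∈ primBall N := by
    intro y t b hb hN
    have hp : IsPrim b := by by_contra h; exact hb (co_prim h)
    have hs := co_supp hR hb
    have hn1 := one_le_nm' hp
    rw [mem_primBall]
    refine ⟨?_, hp⟩
    have : (nm b : ℝ) ≤ N := by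
      refine le_trans ?_ hN
      rw [← Real.exp_log (by linarith : (0 : ℝ) < nm b)]
      apply Real.exp_le_exp.2
      rw [abs_le] at hs
      linarith [hs.2]
    exact_mod_cast this
  unfold tgo at h0
  rw [Finset.mem_product]
  exact ⟨key (left_ne_zero_of_mul (left_ne_zero_of_mul h0)) h1,
    key (right_ne_zero_of_mul (left_ne_zero_of_mul h0)) h2⟩

/-- finite form of the difference -/
lemma DG_sum {h : ℝ → ℝ} (hh : HasCompactSupport h) (χ : Eis → ℂ) (l : ℤ) {R : ℝ}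
    (hR : ∀ u, cx h u ≠ 0 → |u| ≤ R) {N : ℕ} (k : Eis) {z1 z2 δ : ℝ} (t1 t2 : ℝ)
    (h1 : Real.exp (|z1| + |z2| + |δ| + R) ≤ N) :
    DG h χ l k z1 z2 δ t1 t2 = ∑ q ∈ primBall N ×ˢ primBall N, ∑ i : Bool,
      (co h χ l (z1 + th δ i) t1 q.1 * co h χ l (z2 - th δ i) t2 q.2) *
        (sg i * (G (q.1 * q.2) * conj (sy k (q.1 * q.2)))) := by
  have a1 := abs_nonneg z1
  have a2 := abs_nonneg z2
  have a3 := abs_nonneg δ
  have b1 := le_abs_self z1
  have b2 := le_abs_self z2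
  have b3 := le_abs_self δ
  have b4 := neg_abs_le δ
  have e : ∀ y : ℝ, y ≤ |z1| + |z2| + |δ| → Real.exp (y + R) ≤ N := by
    intro y hy
    refine le_trans (Real.exp_le_exp.2 ?_) h1
    linarith
  unfold DG
  rw [TGo_sum hh χ l hR k t1 t2 (e z1 (by linarith)) (e z2 (by linarith)),
    TGo_sum hh χ l hR k t1 t2 (e (z1 + δ) (by linarith)) (e (z2 - δ) (by linarith)),
    ← Finset.sum_sub_distrib]
  refine Finset.sum_congr rfl fun q _ => ?_
  rw [Fintype.sum_bool]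
  unfold tgo th sg
  simp
  ring

/-- unnormalised second moment -/
def UD (h : ℝ → ℝ) (χ : Eis → ℂ) (l : ℤ) (L z1 z2 δ t1 t2 : ℝ) : ℝ :=
  ∑ k ∈ bl L, ‖DG h χ l k z1 z2 δ t1 t2‖ ^ 2

lemma UD_nonneg (h : ℝ → ℝ) (χ : Eis → ℂ) (l : ℤ) (L z1 z2 δ t1 t2 : ℝ) :
    0 ≤ UD h χ l L z1 z2 δ t1 t2 := Finset.sum_nonneg fun _ _ => by positivity

/-- the sum over the primes of one range, first variable -/
theorem part_leD {h : ℝ → ℝ} {c : ℝ} (hpu : PU h c) {Mo : Eis} {χ : Eis → ℂ} (hχ : HC Mo χ)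
    (l : ℤ) {R : ℝ} (hR0 : 0 ≤ R) (hR : ∀ u, cx h u ≠ 0 → |u| ≤ R) {Mx : ℝ} (hM : 0 ≤ Mx) :
    ∃ C : ℝ, 1 ≤ C ∧ ∀ (P : Finset Eis) (L z1 z2 δ P0 t1 t2 B D : ℝ), 0 < L → 1 ≤ P0 → 0 ≤ B →
      0 ≤ D →
      (∀ p ∈ P, (IsPrim p ∧ ‖χ p‖ = 1) ∧ P0 / Real.exp 1 ≤ nm p ∧ (nm p : ℝ) ≤ P0) →
      (∀ k ∈ bl (L * P0), (tau k : ℝ) ≤ D) →
      (∀ ζ s : ℝ, |ζ + Real.log P0| ≤ 2 * R + 1 + c →
        UD h χ l (L * P0) (z1 + ζ) z2 δ (t1 + s) t2 ≤ B * (1 + |s|) ^ Mx) →
      ∑ p ∈ P, ∑ k ∈ bl L, ‖DG h χ l (k * p) (z1 - Real.log (nm p)) z2 δ t1 t2‖ ^ 2 ≤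
        C * D * B := by
  classical
  obtain ⟨C, hC1, hC⟩ := one_var hpu hχ l hR0 hR (μ := Mx / 2) (by positivity) 0
  have hC0 : 0 ≤ C := by linarith
  refine ⟨C ^ 2, one_le_pow₀ hC1, ?_⟩
  intro P L z1 z2 δ P0 t1 t2 B D hL hP0 hB hD hP hDk hH
  have hP00 : 0 < P0 := by linarith
  set α := Real.log P0 with hα
  have hα0 : 0 ≤ α := Real.log_nonneg hP0
  set N : ℕ := ⌈Real.exp (|z1| + |z2| + |δ| + R + (2 * R + 1 + c + α) + α)⌉₊ with hN
  have hNle : Real.exp (|z1| + |z2| + |δ| + R + (2 * R + 1 + c + α) + α) ≤ N := Nat.le_ceil _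
  have hcpos := hpu.cpos
  have hNz : ∀ ζ : ℝ, |ζ| ≤ (2 * R + 1 + c + α) + α →
      Real.exp (|z1 + ζ| + |z2| + |δ| + R) ≤ N := by
    intro ζ hζ
    refine le_trans (Real.exp_le_exp.2 ?_) hNle
    have := abs_add_le z1 ζ
    linarith
  set V : Finset (Eis × (Eis × Eis) × Bool) :=
    P ×ˢ ((primBall N ×ˢ primBall N) ×ˢ (Finset.univ : Finset Bool)) with hV
  let v : Eis × (Eis × Eis) × Bool → EuclideanSpace ℂ (↥P × ↥(bl L)) := fun x =>
    WithLp.toLp 2 fun i => if (i.1 : Eis) = x.1 then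
      co h χ l (z2 - th δ x.2.2) t2 x.2.1.2 * (sg x.2.2 * (G (x.2.1.1 * x.2.1.2) *
        conj (sy ((i.2 : Eis) * x.1) (x.2.1.1 * x.2.1.2)))) else 0
  -- evaluation
  have heval : ∀ (cf : Eis → ℂ) (ζ t' : ℝ), |ζ| ≤ (2 * R + 1 + c + α) + α →
      ‖∑ x ∈ V, (cf x.1 * co h χ l (z1 + th δ x.2.2 + ζ) t' x.2.1.1) • v x‖ ^ 2 =
      ∑ p ∈ P, ∑ k ∈ bl L, ‖cf p * DG h χ l (k * p) (z1 + ζ) z2 δ t' t2‖ ^ 2 := by
    intro cf ζ t' hζ
    rw [EuclideanSpace.norm_sq_eq, Fintype.sum_prod_type]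
    rw [← Finset.sum_coe_sort P (fun p => ∑ k ∈ bl L,
      ‖cf p * DG h χ l (k * p) (z1 + ζ) z2 δ t' t2‖ ^ 2)]
    refine Finset.sum_congr rfl fun p _ => ?_
    rw [← Finset.sum_coe_sort (bl L) (fun k =>
      ‖cf p * DG h χ l (k * p) (z1 + ζ) z2 δ t' t2‖ ^ 2)]
    refine Finset.sum_congr rfl fun k _ => ?_
    congr 2
    rw [eu_sum_apply, hV, Finset.sum_product]
    rw [DG_sum hpu.cs χ l hR (N := N) ((k : Eis) * p) t' t2 (hNz ζ hζ)]
    rw [Finset.sum_eq_single (p : Eis)]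
    · rw [Finset.sum_product, Finset.mul_sum]
      refine Finset.sum_congr rfl fun q _ => ?_
      rw [Finset.mul_sum]
      refine Finset.sum_congr rfl fun i _ => ?_
      have e1 : (((cf (p : Eis) * co h χ l (z1 + th δ i + ζ) t' q.1) • v ((p : Eis), q, i)) (p, k)) =
        (cf (p : Eis) * co h χ l (z1 + th δ i + ζ) t' q.1) * (co h χ l (z2 - th δ i) t2 q.2 *
          (sg i * (G (q.1 * q.2) * conj (sy ((k : Eis) * (p : Eis)) (q.1 * q.2))))) := by
        have e2 : (v ((p : Eis), q, i)) (p, k) = co h χ l (z2 - th δ i) t2 q.2 *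
          (sg i * (G (q.1 * q.2) * conj (sy ((k : Eis) * (p : Eis)) (q.1 * q.2)))) := by
          simp only [v]
          simp
        rw [PiLp.smul_apply, e2, smul_eq_mul]
      simp only
      rw [e1]
      have e3 : z1 + th δ i + ζ = z1 + ζ + th δ i := by ring
      rw [e3]
      ring
    · intro p' _ hne
      apply Finset.sum_eq_zero
      intro y _
      have e2 : (v (p', y)) (p, k) = 0 := by
        simp only [v]
        rw [if_neg]
        exact fun h => hne h.symm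
      rw [PiLp.smul_apply, e2, smul_zero]
    · intro h0
      exact absurd p.2 h0
  have key := hC V (fun x => x.1) (fun x => x.2.1.1) (fun x => z1 + th δ x.2.2) v α 0 t1 t1
    (Real.sqrt (D * B)) (Real.sqrt_nonneg _) ?_ ?_
  · -- the left side
    have e1 : ∑ x ∈ V, (co h χ l (z1 + th δ x.2.2) t1 (x.1 * x.2.1.1) *
        tws 0 0 (z1 + th δ x.2.2) x.2.1.1) • v x =
        ∑ x ∈ V, ((χ x.1 * ang l x.1) * co h χ l ((z1 + th δ x.2.2) + -Real.log (nm x.1)) t1
          x.2.1.1) • v x := by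
      refine Finset.sum_congr rfl fun x hx => ?_
      rw [hV, Finset.mem_product] at hx
      have hp := (hP x.1 hx.1).1.1
      have e2 : tws 0 0 (z1 + th δ x.2.2) x.2.1.1 = 1 := by
        unfold tws osc; simp
      rw [e2, mul_one, co_mul hχ l hp]
      rfl
    have e2 : ∑ p ∈ P, ∑ k ∈ bl L, ‖DG h χ l (k * p) (z1 - Real.log (nm p)) z2 δ t1 t2‖ ^ 2 =
        ‖∑ x ∈ V, (co h χ l (z1 + th δ x.2.2) t1 (x.1 * x.2.1.1) *
        tws 0 0 (z1 + th δ x.2.2) x.2.1.1) • v x‖ ^ 2 := by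
      rw [e1]
      -- evaluate with the `p`-dependent shift
      rw [EuclideanSpace.norm_sq_eq, Fintype.sum_prod_type]
      rw [← Finset.sum_coe_sort P (fun p => ∑ k ∈ bl L,
        ‖DG h χ l (k * p) (z1 - Real.log (nm p)) z2 δ t1 t2‖ ^ 2)]
      refine Finset.sum_congr rfl fun p _ => ?_
      obtain ⟨⟨hpp, hχp⟩, hpl, hpu'⟩ := hP p p.2
      have hp1 := one_le_nm' hpp
      rw [← Finset.sum_coe_sort (bl L) (fun k =>
        ‖DG h χ l (k * p) (z1 - Real.log (nm p)) z2 δ t1 t2‖ ^ 2)]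
      refine Finset.sum_congr rfl fun k _ => ?_
      have hlog : |-Real.log (nm (p : Eis))| ≤ (2 * R + 1 + c + α) + α := by
        rw [abs_neg, abs_of_nonneg (log_nm_nonneg' hpp)]
        have : Real.log (nm (p : Eis)) ≤ α := Real.log_le_log (by linarith) hpu'
        linarith
      have e3 : ‖DG h χ l (k * p) (z1 - Real.log (nm (p : Eis))) z2 δ t1 t2‖ ^ 2 =
          ‖(χ p * ang l p) * DG h χ l (k * p) (z1 + -Real.log (nm (p : Eis))) z2 δ t1 t2‖ ^ 2 := by
        rw [norm_mul, norm_mul, hχp, GmK411.norm_ang' l hpp.ne_zero, one_mul, one_mul]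
        rfl
      rw [e3]
      congr 2
      symm
      rw [eu_sum_apply, hV, Finset.sum_product]
      rw [DG_sum hpu.cs χ l hR (N := N) ((k : Eis) * p) t1 t2 (hNz _ hlog)]
      rw [Finset.sum_eq_single (p : Eis)]
      · rw [Finset.sum_product, Finset.mul_sum]
        refine Finset.sum_congr rfl fun q _ => ?_
        rw [Finset.mul_sum]
        refine Finset.sum_congr rfl fun i _ => ?_
        have e2 : (v ((p : Eis), q, i)) (p, k) = co h χ l (z2 - th δ i) t2 q.2 *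
            (sg i * (G (q.1 * q.2) * conj (sy ((k : Eis) * (p : Eis)) (q.1 * q.2)))) := by
          simp only [v]
          simp
        simp only
        rw [PiLp.smul_apply, e2, smul_eq_mul]
        have e3 : z1 + th δ i + -Real.log (nm (p : Eis)) =
          z1 + -Real.log (nm (p : Eis)) + th δ i := by ring
        rw [e3]
        ring
      · intro p' _ hne
        apply Finset.sum_eq_zero
        intro y _
        have e2 : (v (p', y)) (p, k) = 0 := by
          simp only [v]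
          rw [if_neg]
          exact fun h => hne h.symm
        rw [PiLp.smul_apply, e2, smul_zero]
      · intro h0
        exact absurd p.2 h0
    rw [e2]
    have e5 : C * Real.exp (0 * α) * (1 + |(0 : ℝ)|) ^ (Mx / 2) * Real.sqrt (D * B) *
        (1 + |t1 - t1|) ^ (Mx / 2) = C * Real.sqrt (D * B) := by
      simp
    rw [e5] at key
    calc _ ≤ (C * Real.sqrt (D * B)) ^ 2 := by gcongr
      _ = C ^ 2 * D * B := by
          rw [mul_pow, Real.sq_sqrt (by positivity)]; ring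
  · intro x hx
    rw [hV, Finset.mem_product, Finset.mem_product, Finset.mem_product] at hx
    obtain ⟨⟨hpp, _⟩, h1, h2⟩ := hP x.1 hx.1
    have hp1 := one_le_nm' hpp
    refine ⟨hpp, (mem_primBall.1 hx.2.1.1).2, ?_⟩
    have h3 : Real.log (nm x.1) ≤ α := Real.log_le_log (by linarith) h2
    have h4 := Real.log_le_log (by positivity) h1
    rw [Real.log_div hP00.ne' (Real.exp_pos 1).ne', Real.log_exp] at h4
    rw [abs_le]; constructor <;> linarith
  · intro κ hκ ζ t' hζ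
    have hζ' : |ζ| ≤ (2 * R + 1 + c + α) + α := by
      have : ζ = (ζ + α) + -α := by ring
      calc |ζ| = |(ζ + α) + -α| := by rw [← this]
        _ ≤ |ζ + α| + |-α| := abs_add_le _ _
        _ ≤ _ := by rw [abs_neg, abs_of_nonneg hα0]; linarith
    have hsq := heval κ ζ t' hζ'
    have hcube : ∑ p ∈ P, ∑ k ∈ bl L, ‖κ p * DG h χ l (k * p) (z1 + ζ) z2 δ t' t2‖ ^ 2 ≤
        D * UD h χ l (L * P0) (z1 + ζ) z2 δ t' t2 := by
      have h1 : ∑ p ∈ P, ∑ k ∈ bl L, ‖κ p * DG h χ l (k * p) (z1 + ζ) z2 δ t' t2‖ ^ 2 ≤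
          ∑ p ∈ P, ∑ k ∈ bl L, ‖DG h χ l (k * p ^ 1) (z1 + ζ) z2 δ t' t2‖ ^ 2 := by
        refine Finset.sum_le_sum fun p _ => Finset.sum_le_sum fun k _ => ?_
        rw [pow_one]
        gcongr
        rw [norm_mul]
        exact mul_le_of_le_one_left (norm_nonneg _) (hκ p)
      refine h1.trans ?_
      exact Two939.merge (fun p hp => (hP p hp).1.1) hL.le one_ne_zero hP00.le
        (fun p hp => by rw [pow_one]; exact (hP p hp).2.2)
        (f := fun k => ‖DG h χ l k (z1 + ζ) z2 δ t' t2‖ ^ 2) (fun k => by positivity) hDk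
    have h2 := hH ζ (t' - t1) hζ
    have e6 : t1 + (t' - t1) = t' := by ring
    rw [e6] at h2
    have ht' : 0 ≤ 1 + |t' - t1| := by positivity
    have h3 : ‖∑ x ∈ V, (κ x.1 * co h χ l (z1 + th δ x.2.2 + ζ) t' x.2.1.1) • v x‖ ^ 2 ≤
        (Real.sqrt (D * B) * (1 + |t' - t1|) ^ (Mx / 2)) ^ 2 := by
      rw [hsq, mul_pow, Real.sq_sqrt (by positivity)]
      have e7 : ((1 + |t' - t1|) ^ (Mx / 2)) ^ 2 = (1 + |t' - t1|) ^ Mx := by
        rw [← Real.rpow_natCast ((1 + |t' - t1|) ^ (Mx / 2)) 2, ← Real.rpow_mul ht']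
        congr 1; push_cast; ring
      rw [e7]
      calc _ ≤ D * UD h χ l (L * P0) (z1 + ζ) z2 δ t' t2 := hcube
        _ ≤ D * (B * (1 + |t' - t1|) ^ Mx) := by gcongr
        _ = _ := by ring
    exact le_of_sq_le_sq h3 (by positivity)

end Crest.Agent.R017.TP320
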