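import Crest.Agent.R017.TX5_939

/-!
# Row 17: shape differences, cube monotonicity on the Gauss side (2) (helper939)
-/

set_option autoImplicit false

noncomputable section

open Complex MeasureTheory
open scoped ComplexConjugate ContDiff

namespace Crest.Agent.R017.TP320

open Crest.Agent.R012 Crest.Agent.R012.Eis Crest.Agent.R012.LS2 Crest.Agent.R012.Gauss880
open Crest.Agent.R012.Div277 Crest.Agent.R012.Weight600
open Crest.Agent.R012.PSer47 Crest.Agent.R017.End699 Crest.Agent.R017.FE47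
open Crest.Agent.R017.Two939 (cfa cfa_mul cfa_prim cfa_support sum_mul_le sy_cube_pp)

lemma norm_TGo (h : ℝ → ℝ) (χ : Eis → ℂ) (l : ℤ) (k : Eis) (y1 y2 t1 t2 : ℝ) :
    ‖TGo h χ l k y1 y2 t1 t2‖ = ‖Two939.TG h χ l k (Real.exp y1) (Real.exp y2) t1 t2‖ := by
  rw [TGo_eq, norm_mul, norm_mul, norm_osc, norm_osc, one_mul, one_mul]

lemma TGo_symm (h : ℝ → ℝ) (χ : Eis → ℂ) (l : ℤ) (k : Eis) (y1 y2 t1 t2 : ℝ) :
    TGo h χ l k y1 y2 t1 t2 = TGo h χ l k y2 y1 t2 t1 := by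
  rw [TGo_eq, TGo_eq, Two939.TG_symm, mul_comm (osc t1 (-y1))]

lemma DG_symm (h : ℝ → ℝ) (χ : Eis → ℂ) (l : ℤ) (k : Eis) (z1 z2 δ t1 t2 : ℝ) :
    DG h χ l k z1 z2 δ t1 t2 = DG h χ l k z2 z1 (-δ) t2 t1 := by
  unfold DG
  rw [TGo_symm h χ l k z1 z2, TGo_symm h χ l k (z1 + δ) (z2 - δ)]
  congr 2 <;> ring

lemma UD_symm (h : ℝ → ℝ) (χ : Eis → ℂ) (l : ℤ) (L z1 z2 δ t1 t2 : ℝ) :
    UD h χ l L z1 z2 δ t1 t2 = UD h χ l L z2 z1 (-δ) t2 t1 := by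
  unfold UD
  exact Finset.sum_congr rfl fun k _ => by rw [DG_symm]

lemma UD_mono (h : ℝ → ℝ) (χ : Eis → ℂ) (l : ℤ) {L L' : ℝ} (hL : 0 ≤ L) (hLL : L ≤ L')
    (z1 z2 δ t1 t2 : ℝ) : UD h χ l L z1 z2 δ t1 t2 ≤ UD h χ l L' z1 z2 δ t1 t2 := by
  unfold UD
  refine Finset.sum_le_sum_of_subset_of_nonneg ?_ fun k _ _ => by positivity
  intro k hk
  rw [mem_bl hL] at hk
  rw [mem_bl (hL.trans hLL)]
  exact ⟨hk.1, hk.2.trans hLL⟩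

lemma co_zero {h : ℝ → ℝ} {χ : Eis → ℂ} {l : ℤ} {R y t : ℝ}
    (hR : ∀ u, cx h u ≠ 0 → |u| ≤ R) (hy : y < -R) (b : Eis) : co h χ l y t b = 0 := by
  by_contra h0
  have hp : IsPrim b := by by_contra h; exact h0 (co_prim h)
  have h1 := co_supp hR h0
  have h2 := log_nm_nonneg' hp
  rw [abs_le] at h1
  linarith [h1.2]

lemma TGo_zero {h : ℝ → ℝ} {χ : Eis → ℂ} {l : ℤ} {R y1 : ℝ}
    (hR : ∀ u, cx h u ≠ 0 → |u| ≤ R) (hy : y1 < -R) (k : Eis) (y2 t1 t2 : ℝ) :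
    TGo h χ l k y1 y2 t1 t2 = 0 := by
  unfold TGo
  rw [← tsum_zero (α := ℂ) (β := Eis × Eis)]
  refine tsum_congr fun q => ?_
  unfold tgo
  rw [co_zero hR hy]; ring

/-- one shape -/
lemma UD_one {h : ℝ → ℝ} {χ : Eis → ℂ} {l : ℤ} {R z1 δ : ℝ}
    (hR : ∀ u, cx h u ≠ 0 → |u| ≤ R) (hy : z1 + δ < -R) (L z2 t1 t2 : ℝ) :
    UD h χ l L z1 z2 δ t1 t2 = Two939.U2 h χ l L (Real.exp z1) (Real.exp z2) t1 t2 := by
  unfold UD Two939.U2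
  refine Finset.sum_congr rfl fun k _ => ?_
  unfold DG
  rw [TGo_zero hR hy, sub_zero, norm_TGo]

/-- two shapes -/
lemma UD_two (h : ℝ → ℝ) (χ : Eis → ℂ) (l : ℤ) {L Y1 Y2 Z1 Z2 : ℝ} (hL : 0 < L) (h1 : 0 < Y1)
    (h2 : 0 < Y2) (h3 : 0 < Z1) (h4 : 0 < Z2) (hYZ : Y1 * Y2 = Z1 * Z2) (t1 t2 : ℝ) :
    UD h χ l L (Real.log Y1) (Real.log Y2) (Real.log Z1 - Real.log Y1) t1 t2 =
      (L * Y1 * Y2) * Two939.Td h χ l L Y1 Y2 Z1 Z2 t1 t2 := by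
  unfold UD Two939.Td
  rw [mul_div_cancel₀ _ (by positivity)]
  exact Finset.sum_congr rfl fun k _ => by rw [DG_eq_TDf h χ l k h1 h2 h3 h4 hYZ]

/-- cube monotonicity, unnormalised -/
theorem monoGD {h : ℝ → ℝ} {c : ℝ} (hpu : PU h c) {Mo : Eis} {χ : Eis → ℂ} (hχ : HC Mo χ)
    (l : ℤ) {R : ℝ} (hR0 : 0 ≤ R) (hR : ∀ u, cx h u ≠ 0 → |u| ≤ R) {Mx : ℝ} (hM : 0 ≤ Mx) :
    ∃ C P0 : ℝ, 1 ≤ C ∧ 1 ≤ P0 ∧ ∀ (L z1 z2 δ P t1 t2 U1 B D : ℝ), 0 < L → P0 ≤ P → 0 ≤ U1 →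
      0 ≤ B → 0 ≤ D →
      (∀ k ∈ bl (L * P ^ 3), (tau k : ℝ) ≤ D) →
      UD h χ l (L * P ^ 3) z1 z2 δ t1 t2 ≤ U1 →
      (∀ ζ s : ℝ, |ζ + Real.log P| ≤ 2 * R + 1 + c →
        UD h χ l (L * P) (z1 + ζ) z2 δ (t1 + s) t2 ≤ B * (1 + |s|) ^ Mx) →
      (∀ ζ s : ℝ, |ζ + Real.log P| ≤ 2 * R + 1 + c →
        UD h χ l (L * P) z1 (z2 + ζ) δ t1 (t2 + s) ≤ B * (1 + |s|) ^ Mx) →
      P * UD h χ l L z1 z2 δ t1 t2 ≤ C * Real.log P * D * (U1 + B) := by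
  classical
  obtain ⟨C3, hC3, hpart⟩ := part_leD hpu hχ l hR0 hR hM
  obtain ⟨c0, hc0, κ0, hκ0, hcard⟩ := PLow271.card_shortP (a := -1) (b := 0) (by norm_num)
  set P0 : ℝ := max (Real.exp κ0) (Real.exp 1 * (nm Mo + 1)) with hP0d
  have hnm0 : (0 : ℝ) ≤ nm Mo := by positivity
  have he1 : (1 : ℝ) ≤ Real.exp 1 := Real.one_le_exp zero_le_one
  refine ⟨3 / c0 * (1 + 2 * C3) + 1, P0, by
    have : 0 ≤ 3 / c0 * (1 + 2 * C3) := by positivity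
    linarith, ?_, ?_⟩
  · refine le_trans ?_ (le_max_right _ _)
    nlinarith
  intro L z1 z2 δ P t1 t2 U1 B D hL hPge hU1 hB hD hDk h1 h2 h3
  have hP1 : 1 ≤ P := by
    refine le_trans ?_ ((le_max_right _ _).trans hPge)
    nlinarith
  have hPp : 0 < P := by linarith
  set κ := Real.log P with hκ
  have hPe : Real.exp κ = P := Real.exp_log hPp
  have hκκ : κ0 ≤ κ := by
    rw [← Real.log_exp κ0]
    exact Real.log_le_log (Real.exp_pos _) ((le_max_left _ _).trans hPge)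
  have hκpos : 0 < κ := by linarith
  set Ps := PLow271.shortP (-1) 0 κ with hPs
  have hmem : ∀ p ∈ Ps, (Prime p ∧ IsPrim p) ∧ P / Real.exp 1 < nm p ∧ (nm p : ℝ) ≤ P := by
    intro p hp
    rw [hPs, PLow271.mem_shortP] at hp
    refine ⟨hp.1, ?_, ?_⟩
    · have h1 := hp.2.1
      rw [Real.exp_add, hPe, Real.exp_neg] at h1
      rw [div_eq_mul_inv]
      exact h1
    · have h1 := hp.2.2
      rw [add_zero, hPe] at h1
      exact h1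
  have hnorm : ∀ p ∈ Ps, ‖χ p‖ = 1 := by
    intro p hp
    obtain ⟨⟨hpp, hpr⟩, hlt, -⟩ := hmem p hp
    apply hχ.norm_eq_one hpr
    rw [Prime.coprime_iff_not_dvd hpp]
    intro hd
    have hle : nm p ≤ nm Mo := by
      obtain ⟨w, hw⟩ := hd
      rw [hw, nm_mul]
      have hw0 : w ≠ 0 := by
        rintro rfl
        rw [mul_zero] at hw
        exact hχ.q0 hw
      exact Nat.le_mul_of_pos_right _ (nm_pos.mpr hw0)
    have hle' : (nm p : ℝ) ≤ nm Mo := by exact_mod_cast hle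
    have h4 : Real.exp 1 * (nm Mo + 1) ≤ P := (le_max_right _ _).trans hPge
    have h5 : (nm Mo : ℝ) + 1 ≤ P / Real.exp 1 := by
      rw [le_div_iff₀ (Real.exp_pos 1)]; linarith
    linarith
  have hcardP : c0 * (P / κ) ≤ (Ps.card : ℝ) := by
    have := hcard κ hκκ
    rwa [hPe] at this
  have hP3 : P ≤ P ^ 3 := by nlinarith [mul_nonneg (by linarith : (0 : ℝ) ≤ P - 1) hPp.le]
  have hD1 : ∀ k ∈ bl (L * P), (tau k : ℝ) ≤ D := by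
    intro k hk
    apply hDk
    rw [mem_bl (by positivity)] at hk ⊢
    refine ⟨hk.1, hk.2.trans ?_⟩
    gcongr
  have m1 : ∑ p ∈ Ps, ∑ k ∈ bl L, ‖DG h χ l (k * p ^ 3) z1 z2 δ t1 t2‖ ^ 2 ≤
      D * UD h χ l (L * P ^ 3) z1 z2 δ t1 t2 :=
    Two939.merge (fun p hp => (hmem p hp).1.2) hL.le three_ne_zero (by positivity)
      (fun p hp => by
        have := (hmem p hp).2.2
        gcongr) (f := fun k => ‖DG h χ l k z1 z2 δ t1 t2‖ ^ 2) (fun k => by positivity) hDk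
  have m2 := hpart Ps L z1 z2 δ P t1 t2 B D hL hP1 hB hD
    (fun p hp => ⟨⟨(hmem p hp).1.2, hnorm p hp⟩, (hmem p hp).2.1.le, (hmem p hp).2.2⟩) hD1 h2
  have m3 := hpart Ps L z2 z1 (-δ) P t2 t1 B D hL hP1 hB hD
    (fun p hp => ⟨⟨(hmem p hp).1.2, hnorm p hp⟩, (hmem p hp).2.1.le, (hmem p hp).2.2⟩) hD1
    (fun ζ s hζ => by rw [UD_symm, neg_neg]; exact h3 ζ s hζ)
  have htot : (Ps.card : ℝ) * UD h χ l L z1 z2 δ t1 t2 ≤
      3 * (D * U1 + C3 * D * B + C3 * D * B) := by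
    calc (Ps.card : ℝ) * UD h χ l L z1 z2 δ t1 t2 =
          ∑ p ∈ Ps, ∑ k ∈ bl L, ‖DG h χ l k z1 z2 δ t1 t2‖ ^ 2 := by
          rw [Finset.sum_const, nsmul_eq_mul]; rfl
      _ ≤ ∑ p ∈ Ps, ∑ k ∈ bl L, 3 * (‖DG h χ l (k * p ^ 3) z1 z2 δ t1 t2‖ ^ 2 +
        ‖DG h χ l (k * p) (z1 - Real.log (nm p)) z2 δ t1 t2‖ ^ 2 +
        ‖DG h χ l (k * p) (z2 - Real.log (nm p)) z1 (-δ) t2 t1‖ ^ 2) := by
          refine Finset.sum_le_sum fun p hp => Finset.sum_le_sum fun k _ => ?_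
          have := (DG_split_sq hpu.cs hχ l k z1 z2 δ t1 t2 (hmem p hp).1.2 (hmem p hp).1.1).1
          rwa [DG_symm h χ l (k * p) z1 (z2 - Real.log (nm p)) δ t1 t2] at this
      _ = 3 * (∑ p ∈ Ps, ∑ k ∈ bl L, ‖DG h χ l (k * p ^ 3) z1 z2 δ t1 t2‖ ^ 2 +
          ∑ p ∈ Ps, ∑ k ∈ bl L, ‖DG h χ l (k * p) (z1 - Real.log (nm p)) z2 δ t1 t2‖ ^ 2 +
          ∑ p ∈ Ps, ∑ k ∈ bl L, ‖DG h χ l (k * p) (z2 - Real.log (nm p)) z1 (-δ) t2 t1‖ ^ 2) := by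
          simp_rw [← Finset.mul_sum, Finset.sum_add_distrib]
      _ ≤ _ := by
          have m1' : ∑ p ∈ Ps, ∑ k ∈ bl L, ‖DG h χ l (k * p ^ 3) z1 z2 δ t1 t2‖ ^ 2 ≤
              D * U1 := m1.trans (by gcongr)
          linarith
  have hU0 := UD_nonneg h χ l L z1 z2 δ t1 t2
  have hfin : c0 * (P / κ) * UD h χ l L z1 z2 δ t1 t2 ≤ 3 * (D * U1 + C3 * D * B + C3 * D * B) :=
    le_trans (by gcongr) htot
  have hDU : 0 ≤ D * U1 := by positivity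
  have hDB : 0 ≤ D * B := by positivity
  have e1 : P * UD h χ l L z1 z2 δ t1 t2 = (κ / c0) * (c0 * (P / κ) * UD h χ l L z1 z2 δ t1 t2) := by
    field_simp
  rw [e1]
  calc (κ / c0) * (c0 * (P / κ) * UD h χ l L z1 z2 δ t1 t2) ≤
        (κ / c0) * (3 * (D * U1 + C3 * D * B + C3 * D * B)) := by gcongr
    _ ≤ (κ / c0) * (3 * ((1 + 2 * C3) * (D * (U1 + B)))) := by
        gcongr
        nlinarith
    _ = 3 / c0 * (1 + 2 * C3) * κ * D * (U1 + B) := by ring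
    _ ≤ (3 / c0 * (1 + 2 * C3) + 1) * κ * D * (U1 + B) := by
        gcongr
        linarith

end Crest.Agent.R017.TP320
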