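import Crest.Agent.R017.TwoEx_791
import Crest.Agent.R017.TXC1_791
import Crest.Agent.R017.Tx4_939
import Crest.Agent.R017.BoxP_271

/-!
# Row 17: exceptional two-factor theorem, the elementary rules for the concrete families
(helper791)

`wdc`, `tdc` : the functionals `wd`, `τ` of `TwoEx791.Rules`.
`PoisG`, `PoisC`, `MonoG` : the three analytic rules as Props.
`rules_of` : they imply `TwoEx791.Rules`.
`card_prin` : number of principal members.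
-/

set_option autoImplicit false

noncomputable section

open Complex MeasureTheory Filter Topology
open scoped ContDiff

namespace Crest.Agent.R017.TXC791

open Crest.Agent.R012 Crest.Agent.R012.Eis Crest.Agent.R012.LS2
open Crest.Agent.R012.Weight600 (osc norm_osc)
open Crest.Agent.R017.End699 Crest.Agent.R017.FE47 Crest.Agent.R017.Two939
open Crest.Agent.R017.TwoEx791
open Crest.Agent.R017.Sup271 (NPm)

/-- second moment over all members: difference (`o = true`), single shape (`o = false`) -/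
def wdc (h : ℝ → ℝ) (χ : Eis → ℂ) (l : ℤ) (o : Bool) (K : ℝ) (q : Qd) (t1 t2 : ℝ) : ℝ :=
  if o = true then Wd h χ l K q.Y1 q.Y2 q.Z1 q.Z2 t1 t2 else W2 h χ l K q.Y1 q.Y2 t1 t2

/-- the same on the Gauss side -/
def tdc (h : ℝ → ℝ) (χ : Eis → ℂ) (l : ℤ) (o : Bool) (L : ℝ) (q : Qd) (t1 t2 : ℝ) : ℝ :=
  if o = true then Td h χ l L q.Y1 q.Y2 q.Z1 q.Z2 t1 t2 else T2 h χ l L q.Y1 q.Y2 t1 t2

/-- Poisson, Gauss side to character side -/
def PoisG (w : ℝ → ℝ → ℝ → ℝ → ℝ → ℝ) (τ : Bool → ℝ → Qd → ℝ → ℝ → ℝ) : Prop :=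
  ∀ ε M : ℝ, 0 < ε → 0 ≤ M → ∃ C J : ℝ, 1 ≤ C ∧ 0 ≤ J ∧ ∀ (o : Bool) (L : ℝ) (q : Qd)
    (t1 t2 B : ℝ), 1 ≤ L → q.Ok → 0 ≤ B →
    (∀ (D E F K : ℝ) (q' : Qd) (s1 s2 : ℝ), 1 ≤ E → E ≤ D → 1 ≤ F →
      Qd.Sub (C * (L * q.sz) ^ ε) (D * F) q q' → 1 ≤ K → K ≤ C * (L * q.sz) ^ 20 →
      E / D * w K q'.Y1 q'.Y2 (t1 + s1) (t2 + s2) ≤ B * ((1 + |s1|) * (1 + |s2|)) ^ M ∧
      (o = true → E / D * w K q'.Z1 q'.Z2 (t1 + s1) (t2 + s2) ≤
        B * ((1 + |s1|) * (1 + |s2|)) ^ M)) →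
    τ o L q t1 t2 ≤ C * (L * q.sz) ^ ε * ((1 + |t1|) * (1 + |t2|)) ^ J *
      (1 + q.N / L * B + L ^ (-(1 / 3 : ℝ)) * q.N ^ (-(1 / 3 : ℝ)) * Qd.pl o q)

/-- Poisson, character side to Gauss side -/
def PoisC (wd τ : Bool → ℝ → Qd → ℝ → ℝ → ℝ) : Prop :=
  ∀ ε M : ℝ, 0 < ε → 0 ≤ M → ∃ C J : ℝ, 1 ≤ C ∧ 0 ≤ J ∧ ∀ (o : Bool) (K : ℝ) (q : Qd)
    (t1 t2 B : ℝ), 1 ≤ K → q.Ok → 0 ≤ B →
    (∀ (D E F L : ℝ) (q' : Qd) (s1 s2 : ℝ), 1 ≤ E → E ≤ D → 1 ≤ F →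
      Qd.Sub (C * (K * q.sz) ^ ε) (D * F) q q' → 1 ≤ L → L ≤ C * (K * q.sz) ^ 20 →
      F * E ^ 3 * q.N ^ 2 ≤ C * (K * q.sz) ^ ε * (D ^ 2 * K * L) →
      E / D * τ o L q' (t1 + s1) (t2 + s2) ≤ B * ((1 + |s1|) * (1 + |s2|)) ^ M) →
    wd o K q t1 t2 ≤ C * (K * q.sz) ^ ε * ((1 + |t1|) * (1 + |t2|)) ^ J * (1 + q.N / K * B)

/-- cube monotonicity on the Gauss side -/
def MonoG (τ : Bool → ℝ → Qd → ℝ → ℝ → ℝ) : Prop :=
  ∀ ε M : ℝ, 0 < ε → 0 ≤ M → ∃ C J : ℝ, 1 ≤ C ∧ 0 ≤ J ∧ ∀ (o : Bool) (L : ℝ) (q : Qd)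
    (P t1 t2 B1 B2 : ℝ), 1 ≤ L → q.Ok → 1 ≤ P → 0 ≤ B1 → 0 ≤ B2 →
    (∀ L' s1 s2 : ℝ, L * P ^ 3 ≤ L' → L' ≤ C * (L * P * q.sz) ^ ε * (L * P ^ 3) →
      τ o L' q (t1 + s1) (t2 + s2) ≤ B1 * ((1 + |s1|) * (1 + |s2|)) ^ M) →
    (∀ (L' : ℝ) (q' : Qd) (s1 s2 : ℝ), 1 ≤ L' → L * P ≤ C * (L * P * q.sz) ^ ε * L' →
      L' ≤ C * (L * P * q.sz) ^ 20 → Qd.Sub (C * (L * P * q.sz) ^ ε) P q q' →
      τ o L' q' (t1 + s1) (t2 + s2) ≤ B2 * ((1 + |s1|) * (1 + |s2|)) ^ M) →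
    τ o L q t1 t2 ≤ C * (L * P * q.sz) ^ ε * ((1 + |t1|) * (1 + |t2|)) ^ J *
      (P ^ 2 * B1 + B2 / P)

/-- **the rules for the concrete families**, from the three analytic rules -/
theorem rules_of {h : ℝ → ℝ} {c : ℝ} (hpu : PU h c) {M : Eis} {χ : Eis → ℂ} (hχ : HC M χ) (l : ℤ)
    (hG : PoisG (Wn h M χ l) (tdc h χ l)) (hC : PoisC (wdc h χ l) (tdc h χ l))
    (hM : MonoG (tdc h χ l)) :
    ∃ z : ℝ, Rules z (Vn h M χ l) (Wn h M χ l) (wdc h χ l) (tdc h χ l) := by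
  obtain ⟨z, hz0, hz1, hz⟩ := P_zero hpu
  refine ⟨z, ⟨hz0, hz1, ?_, ?_, ?_, ?_, ?_, ?_, hG, hC, hM, ?_⟩⟩
  · intro K A B t1 t2 hA hB hAB
    unfold Wn
    rw [Finset.sum_eq_zero, zero_div]
    intro k _
    rcases hAB with h1 | h1
    · rw [hz χ l k A t1 hA h1]; simp
    · rw [hz χ l k B t2 hB h1]; simp
  · refine ⟨1, le_rfl, fun K A B t1 t2 a b hK hA hB ha hb h1 h2 => ?_⟩
    have hK0 : 0 < K := by linarith
    have hA0 : 0 < A := by linarith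
    have hB0 : 0 < B := by linarith
    have h3 := cauG h M χ l K A B t1 t2 hK0 hA0 hB0
    have h4 : Wn h M χ l K A B t1 t2 ^ 2 ≤ (a * b) ^ 2 := by
      calc _ ≤ Vn h M χ l K A t1 * Vn h M χ l K B t2 := h3
        _ ≤ a ^ 2 * b ^ 2 := by
            have := Vn_nonneg h M χ l hK0.le B t2
            gcongr
        _ = _ := by ring
    rw [one_mul]
    exact le_of_pow_le_pow_left₀ (by norm_num) (by positivity) h4
  · refine ⟨1, le_rfl, fun K Y t hK hY => ?_⟩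
    unfold Vn Wn
    rw [one_mul]
    refine le_of_eq ?_
    congr 1
    · exact Finset.sum_congr rfl fun k _ => by ring
    · ring
  · obtain ⟨C, hC0, hb⟩ := baseX hpu hχ l
    refine ⟨2, C + 1, by norm_num, by linarith, fun K Y t hK hY => ?_⟩
    have hY0 : 0 < Y := by linarith
    refine (hb K Y t (by linarith) hY0).trans ?_
    rw [Real.rpow_two]
    have : Y ≤ max 1 Y := le_max_right _ _
    calc C * Y ^ 2 ≤ C * (max 1 Y) ^ 2 := by gcongr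
      _ ≤ (C + 1) * (max 1 Y) ^ 2 := by
          gcongr
          linarith
  · refine ⟨1, le_rfl, fun K A B t1 t2 hK hA hB => ?_⟩
    have hA0 : 0 < A := by linarith
    have hB0 : 0 < B := by linarith
    rw [one_mul]
    unfold wdc Wn W2 Qd.sg
    simp only [Bool.false_eq_true, if_false]
    gcongr
    exact bn_subset M χ l K
  · refine ⟨2, by norm_num, fun K q t1 t2 hK hq => ?_⟩
    unfold wdc
    simp only [if_true]
    exact splitX h M χ l t1 t2 (by linarith) hq.Y1 hq.Y2 hq.eq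
  · intro ε Mx hε hMx
    obtain ⟨C, J, hC0, hJ, hf⟩ := flipn hpu hχ l ε Mx hε hMx
    refine ⟨max C 1, J, le_max_right _ _, hJ, fun K Y t B hK hY hB hKY hyp => ?_⟩
    have hY0 : 0 < Y := by linarith
    have hY1 : 1 ≤ Y := by nlinarith
    have hKY1 : 1 ≤ K * Y := one_le_mul_of_one_le_of_one_le hK hY1
    have e1 : (K * Y) ^ ε ≤ (K * (1 + Y)) ^ ε := by
      refine Real.rpow_le_rpow (by positivity) ?_ hε.le
      nlinarith
    have e2 : (K * Y) ^ ε ≤ max C 1 * (K * (1 + Y)) ^ ε := by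
      have h1 : 0 ≤ (K * (1 + Y)) ^ ε := by positivity
      calc (K * Y) ^ ε ≤ 1 * (K * (1 + Y)) ^ ε := by rw [one_mul]; exact e1
        _ ≤ _ := by
            gcongr
            exact le_max_right _ _
    have h2 := hf K Y t B hK hY1 hB hKY ?_
    · refine h2.trans ?_
      have : C ≤ max C 1 := le_max_left _ _
      gcongr
    · intro K1 Z s hK1 hK1K hZ hZY hZK
      refine hyp K1 Z s hK1 (hK1K.trans ?_) (by linarith) (hZY.trans ?_) (hZK.trans ?_)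
      · gcongr
      · gcongr
      · gcongr

/-- the number of principal members -/
theorem card_prin {M : Eis} {χ : Eis → ℂ} (hχ : HC M χ) (l : ℤ) {K : ℝ} (hK : 0 ≤ K)
    (S : Finset Eis) (hS : ∀ k ∈ S, k ∈ bl K ∧ ¬ NPm M χ l k) :
    (S.card : ℝ) ≤ 18 * K ^ (1 / 3 : ℝ) := by
  rcases lt_or_ge K 1 with h1 | h1
  · have : S = ∅ := by
      rw [Finset.eq_empty_iff_forall_notMem]
      intro k hk
      have h2 := (mem_bl hK).mp (hS k hk).1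
      have h3 : (1 : ℝ) ≤ nm k := by
        have := nm_pos.mpr h2.1
        exact_mod_cast this
      linarith [h2.2]
    rw [this]
    simp only [Finset.card_empty, Nat.cast_zero]
    positivity
  · have hH : 1 ≤ ⌊K⌋₊ := Nat.le_floor (by exact_mod_cast h1)
    have h2 := BoxP271.card_npm hχ l hH S fun k hk => ?_
    · refine h2.trans ?_
      have : (⌊K⌋₊ : ℝ) ≤ K := Nat.floor_le hK
      gcongr
    · have h3 := (mem_bl hK).mp (hS k hk).1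
      refine ⟨?_, h3.1, (hS k hk).2⟩
      rw [mem_ball]
      exact Nat.le_floor h3.2

end Crest.Agent.R017.TXC791
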