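import Crest.Agent.R017.TX6_939
import Crest.Agent.R017.TXC2_791

/-!
# Row 17: exceptional two-factor theorem, the rule `MonoG` (helper939)
-/

set_option autoImplicit false

noncomputable section

open Complex MeasureTheory
open scoped ComplexConjugate ContDiff

namespace Crest.Agent.R017.TP320

open Crest.Agent.R012 Crest.Agent.R012.Eis Crest.Agent.R012.LS2 Crest.Agent.R012.Gauss880
open Crest.Agent.R012.Div277 Crest.Agent.R012.Weight600
open Crest.Agent.R012.PSer47 Crest.Agent.R017.End699 Crest.Agent.R017.FE47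
open Crest.Agent.R017.TwoEx791 Crest.Agent.R017.TXC791

/-- the shift between the two shapes; a single shape is the difference with an empty shape -/
def dlt (R c : ℝ) (o : Bool) (q : Qd) : ℝ :=
  if o = true then Real.log q.Z1 - Real.log q.Y1 else -Real.log q.Y1 - (3 * R + 2 + c)

/-- the functional `τ` is the unnormalised second moment -/
lemma tdc_eq {h : ℝ → ℝ} {χ : Eis → ℂ} {l : ℤ} {R c : ℝ} (hR0 : 0 ≤ R) (hc : 0 < c)
    (hR : ∀ u, cx h u ≠ 0 → |u| ≤ R) (o : Bool) {L : ℝ} (hL : 0 < L) {q : Qd} (hq : q.Ok)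
    (t1 t2 : ℝ) :
    UD h χ l L (Real.log q.Y1) (Real.log q.Y2) (dlt R c o q) t1 t2 =
      L * q.N * tdc h χ l o L q t1 t2 := by
  have h1 := hq.Y1
  have h2 := hq.Y2
  unfold dlt tdc Qd.N
  by_cases ho : o = true
  · rw [if_pos ho, if_pos ho, UD_two h χ l hL h1 h2 hq.Z1 hq.Z2 hq.eq]
    ring
  · rw [if_neg ho, if_neg ho, UD_one hR (by linarith), Real.exp_log h1, Real.exp_log h2,
      Two939.U2_eq h χ l hL h1 h2]
    ring

/-- scale the first length of both shapes -/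
def sc1 (a : ℝ) (q : Qd) : Qd := ⟨a * q.Y1, q.Y2, a * q.Z1, q.Z2⟩

/-- scale the second length of both shapes -/
def sc2 (a : ℝ) (q : Qd) : Qd := ⟨q.Y1, a * q.Y2, q.Z1, a * q.Z2⟩

lemma sc1_ok {a : ℝ} (ha : 0 < a) {q : Qd} (hq : q.Ok) : (sc1 a q).Ok :=
  ⟨mul_pos ha hq.Y1, hq.Y2, mul_pos ha hq.Z1, hq.Z2, by
    have := hq.eq
    simp only [sc1]; rw [mul_assoc, mul_assoc, this]⟩

lemma sc2_ok {a : ℝ} (ha : 0 < a) {q : Qd} (hq : q.Ok) : (sc2 a q).Ok :=
  ⟨hq.Y1, mul_pos ha hq.Y2, hq.Z1, mul_pos ha hq.Z2, by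
    have := hq.eq
    simp only [sc2]; rw [mul_left_comm, mul_left_comm q.Z1, this]⟩

lemma sc1_N (a : ℝ) (q : Qd) : (sc1 a q).N = a * q.N := by simp only [sc1, Qd.N]; ring

lemma sc2_N (a : ℝ) (q : Qd) : (sc2 a q).N = a * q.N := by simp only [sc2, Qd.N]; ring

/-- the second moment of the scaled shapes, first variable -/
lemma UD_sc1 {h : ℝ → ℝ} {χ : Eis → ℂ} {l : ℤ} {R c : ℝ} (hR0 : 0 ≤ R) (hc : 0 < c)
    (hR : ∀ u, cx h u ≠ 0 → |u| ≤ R) (o : Bool) {L : ℝ} (hL : 0 < L) {q : Qd} (hq : q.Ok)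
    {ζ : ℝ} (hζ : ζ ≤ 2 * R + 1 + c) (t1 t2 : ℝ) :
    UD h χ l L (Real.log q.Y1 + ζ) (Real.log q.Y2) (dlt R c o q) t1 t2 =
      L * (Real.exp ζ * q.N) * tdc h χ l o L (sc1 (Real.exp ζ) q) t1 t2 := by
  have h1 := hq.Y1
  have h2 := hq.Y2
  have h3 := hq.Z1
  have he := Real.exp_pos ζ
  by_cases ho : o = true
  · have := tdc_eq (χ := χ) (l := l) hR0 hc hR o hL (sc1_ok he hq) t1 t2
    rw [sc1_N] at this
    rw [← this]
    unfold dlt
    rw [if_pos ho, if_pos ho]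
    simp only [sc1]
    rw [Real.log_mul he.ne' h1.ne', Real.log_mul he.ne' h3.ne', Real.log_exp]
    congr 1 <;> ring
  · unfold dlt tdc
    rw [if_neg ho, if_neg ho, UD_one hR (by linarith), Real.exp_add, Real.exp_log h1,
      Real.exp_log h2]
    simp only [sc1, Qd.N]
    rw [mul_comm q.Y1, Two939.U2_eq h χ l hL (by positivity) h2]
    ring

/-- the second moment of the scaled shapes, second variable -/
lemma UD_sc2 {h : ℝ → ℝ} {χ : Eis → ℂ} {l : ℤ} {R c : ℝ} (hR0 : 0 ≤ R) (hc : 0 < c)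
    (hR : ∀ u, cx h u ≠ 0 → |u| ≤ R) (o : Bool) {L : ℝ} (hL : 0 < L) {q : Qd} (hq : q.Ok)
    (ζ t1 t2 : ℝ) :
    UD h χ l L (Real.log q.Y1) (Real.log q.Y2 + ζ) (dlt R c o q) t1 t2 =
      L * (Real.exp ζ * q.N) * tdc h χ l o L (sc2 (Real.exp ζ) q) t1 t2 := by
  have h1 := hq.Y1
  have h2 := hq.Y2
  have he := Real.exp_pos ζ
  have := tdc_eq (χ := χ) (l := l) hR0 hc hR o hL (sc2_ok he hq) t1 t2
  rw [sc2_N] at this
  rw [← this]
  unfold dlt
  simp only [sc2]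
  rw [Real.log_mul he.ne' h2.ne', Real.log_exp]
  congr 1; ring

lemma sz_pos' {q : Qd} (hq : q.Ok) : 0 < q.sz := by linarith [hq.one_le_sz]

lemma N_le_sz {q : Qd} (hq : q.Ok) : q.N ≤ q.sz := by
  have h1 := hq.Y1; have h2 := hq.Y2; have h3 := hq.Z1; have h4 := hq.Z2
  unfold Qd.N Qd.sz
  calc q.Y1 * q.Y2 = q.Y1 * q.Y2 * (1 * 1) := by ring
    _ ≤ (1 + q.Y1) * (1 + q.Y2) * ((1 + q.Z1) * (1 + q.Z2)) := by gcongr <;> linarith

/-- the subshape relation for the scaled shapes -/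
lemma sub_sc1 {ρ' ρ P ζ : ℝ} {q : Qd} (hq : q.Ok) (hP : 1 ≤ P) (hρ : 0 ≤ ρ)
    (hζ : |ζ + Real.log P| ≤ ρ) (hρ' : Real.exp ρ ≤ ρ') :
    Qd.Sub ρ' P q (sc1 (Real.exp ζ) q) := by
  have h1 := hq.Y1; have h2 := hq.Y2; have h3 := hq.Z1; have h4 := hq.Z2
  have hN := hq.N_pos
  have hl : 0 ≤ Real.log P := Real.log_nonneg hP
  have hPp : 0 < P := by linarith
  rw [abs_le] at hζ
  have he1 : Real.exp ζ ≤ ρ' := (Real.exp_le_exp.2 (by linarith)).trans hρ'
  have hr1 : 1 ≤ ρ' := (Real.one_le_exp hρ).trans hρ'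
  have e1 : Real.exp ζ * P = Real.exp (ζ + Real.log P) := by rw [Real.exp_add, Real.exp_log hPp]
  have he2 : Real.exp ζ * P ≤ ρ' := by
    rw [e1]; exact (Real.exp_le_exp.2 hζ.2).trans hρ'
  have he3 : 1 ≤ ρ' * (Real.exp ζ * P) := by
    rw [e1]
    calc (1 : ℝ) = Real.exp ρ * Real.exp (-ρ) := by rw [← Real.exp_add]; simp
      _ ≤ ρ' * Real.exp (ζ + Real.log P) := by
          have := Real.exp_le_exp.2 hζ.1
          gcongr
  refine ⟨sc1_ok (Real.exp_pos _) hq, ?_, ?_, ?_, ?_, ?_, ?_⟩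
  · simp only [sc1]; gcongr
  · simp only [sc1]; exact le_mul_of_one_le_left h2.le hr1
  · simp only [sc1]; gcongr
  · simp only [sc1]; exact le_mul_of_one_le_left h4.le hr1
  · rw [sc1_N]
    calc Real.exp ζ * q.N * P = (Real.exp ζ * P) * q.N := by ring
      _ ≤ ρ' * q.N := by gcongr
  · rw [sc1_N]
    calc q.N = 1 * q.N := (one_mul _).symm
      _ ≤ (ρ' * (Real.exp ζ * P)) * q.N := by gcongr
      _ = _ := by ring

lemma sub_sc2 {ρ' ρ P ζ : ℝ} {q : Qd} (hq : q.Ok) (hP : 1 ≤ P) (hρ : 0 ≤ ρ)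
    (hζ : |ζ + Real.log P| ≤ ρ) (hρ' : Real.exp ρ ≤ ρ') :
    Qd.Sub ρ' P q (sc2 (Real.exp ζ) q) := by
  have h1 := hq.Y1; have h2 := hq.Y2; have h3 := hq.Z1; have h4 := hq.Z2
  have hN := hq.N_pos
  have hl : 0 ≤ Real.log P := Real.log_nonneg hP
  have hPp : 0 < P := by linarith
  rw [abs_le] at hζ
  have he1 : Real.exp ζ ≤ ρ' := (Real.exp_le_exp.2 (by linarith)).trans hρ'
  have hr1 : 1 ≤ ρ' := (Real.one_le_exp hρ).trans hρ'
  have e1 : Real.exp ζ * P = Real.exp (ζ + Real.log P) := by rw [Real.exp_add, Real.exp_log hPp]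
  have he2 : Real.exp ζ * P ≤ ρ' := by
    rw [e1]; exact (Real.exp_le_exp.2 hζ.2).trans hρ'
  have he3 : 1 ≤ ρ' * (Real.exp ζ * P) := by
    rw [e1]
    calc (1 : ℝ) = Real.exp ρ * Real.exp (-ρ) := by rw [← Real.exp_add]; simp
      _ ≤ ρ' * Real.exp (ζ + Real.log P) := by
          have := Real.exp_le_exp.2 hζ.1
          gcongr
  refine ⟨sc2_ok (Real.exp_pos _) hq, ?_, ?_, ?_, ?_, ?_, ?_⟩
  · simp only [sc2]; exact le_mul_of_one_le_left h1.le hr1
  · simp only [sc2]; gcongr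
  · simp only [sc2]; exact le_mul_of_one_le_left h3.le hr1
  · simp only [sc2]; gcongr
  · rw [sc2_N]
    calc Real.exp ζ * q.N * P = (Real.exp ζ * P) * q.N := by ring
      _ ≤ ρ' * q.N := by gcongr
  · rw [sc2_N]
    calc q.N = 1 * q.N := (one_mul _).symm
      _ ≤ (ρ' * (Real.exp ζ * P)) * q.N := by gcongr
      _ = _ := by ring

lemma tdc_nonneg (h : ℝ → ℝ) (χ : Eis → ℂ) (l : ℤ) (o : Bool) {L : ℝ} (hL : 0 ≤ L) {q : Qd}
    (hq : q.Ok) (t1 t2 : ℝ) : 0 ≤ tdc h χ l o L q t1 t2 := by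
  have h1 := hq.Y1
  have h2 := hq.Y2
  unfold tdc
  split_ifs
  · exact Two939.Td_nonneg h χ l hL h1.le h2.le _ _ _ _
  · unfold Two939.T2; positivity

/-- **rule MonoG** -/
theorem monoG_ex {h : ℝ → ℝ} {c : ℝ} (hpu : PU h c) {Mo : Eis} {χ : Eis → ℂ} (hχ : HC Mo χ)
    (l : ℤ) : MonoG (tdc h χ l) := by
  classical
  intro ε Mx hε hMx
  obtain ⟨R, hR0, hR⟩ := exists_R (cs_cx hpu.cs)
  obtain ⟨C1, P0, hC1, hP0, hmono⟩ := monoGD hpu hχ l hR0 hR hMx
  have hc := hpu.cpos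
  set ε0 : ℝ := ε / 2 with hε0d
  have hε0 : 0 < ε0 := by positivity
  obtain ⟨Ct, hCt, htau⟩ := tau_le_rpow (ε := ε0 / 4) (by positivity)
  set ρ : ℝ := 2 * R + 1 + c with hρ
  have hρ0 : 0 ≤ ρ := by positivity
  have heρ : 1 ≤ Real.exp ρ := Real.one_le_exp hρ0
  set C : ℝ := P0 + Real.exp ρ + C1 / ε0 * Ct * Real.exp ρ with hCd
  have hCt0 : 0 ≤ Ct := by linarith
  have hC20 : 0 ≤ C1 / ε0 * Ct * Real.exp ρ := by positivity
  have hCρ : Real.exp ρ ≤ C := by rw [hCd]; linarith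
  have hCP : P0 ≤ C := by rw [hCd]; linarith
  have hC2 : C1 / ε0 * Ct * Real.exp ρ ≤ C := by rw [hCd]; linarith
  have hC : 1 ≤ C := heρ.trans hCρ
  refine ⟨C, 0, hC, le_rfl, ?_⟩
  intro o L q P t1 t2 B1 B2 hL hq hP hB1 hB2 hH1 hH2
  rw [Real.rpow_zero, mul_one]
  have hL0 : 0 < L := by linarith
  have hPp : 0 < P := by linarith
  have hN := hq.N_pos
  have hsz := hq.one_le_sz
  have hX : 1 ≤ L * P * q.sz := one_le_mul_of_one_le_of_one_le
    (one_le_mul_of_one_le_of_one_le hL hP) hsz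
  set X := L * P * q.sz with hXd
  have hX0 : 0 < X := by linarith
  have hXε : 1 ≤ X ^ ε := Real.one_le_rpow hX hε.le
  have hCX : C ≤ C * X ^ ε := le_mul_of_one_le_right (by linarith) hXε
  have hCX1 : 1 ≤ C * X ^ ε := hC.trans hCX
  have hPX : P ≤ X := by
    rw [hXd]
    calc P = 1 * P * 1 := by ring
      _ ≤ L * P * q.sz := by gcongr
  have hLPX : L * P ≤ X := by
    rw [hXd]
    exact le_mul_of_one_le_right (by positivity) hsz
  have hLP3 : 0 < L * P ^ 3 := by positivity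
  -- the long family
  have hlong : UD h χ l (L * P ^ 3) (Real.log q.Y1) (Real.log q.Y2) (dlt R c o q) t1 t2 ≤
      L * P ^ 3 * q.N * B1 := by
    rw [tdc_eq hR0 hc hR o hLP3 hq]
    have h1 := hH1 (L * P ^ 3) 0 0 le_rfl (le_mul_of_one_le_left hLP3.le hCX1)
    have h2 : tdc h χ l o (L * P ^ 3) q t1 t2 ≤ B1 := by simpa using h1
    gcongr
  have hLN : 0 < L * q.N := by positivity
  have hτ : tdc h χ l o L q t1 t2 =
      UD h χ l L (Real.log q.Y1) (Real.log q.Y2) (dlt R c o q) t1 t2 / (L * q.N) := by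
    rw [tdc_eq hR0 hc hR o hL0 hq]
    field_simp
  have hB20 : 0 ≤ B2 / P := by positivity
  have hB10 : 0 ≤ P ^ 2 * B1 := by positivity
  rw [hτ, div_le_iff₀ hLN]
  by_cases hPP : P < P0
  · have h1 := UD_mono h χ l hL0.le (le_mul_of_one_le_right hL0.le (one_le_pow₀ hP (n := 3)))
      (Real.log q.Y1) (Real.log q.Y2) (dlt R c o q) t1 t2
    calc UD h χ l L (Real.log q.Y1) (Real.log q.Y2) (dlt R c o q) t1 t2 ≤
          L * P ^ 3 * q.N * B1 := h1.trans hlong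
      _ = P * (P ^ 2 * B1) * (L * q.N) := by ring
      _ ≤ (C * X ^ ε) * (P ^ 2 * B1 + B2 / P) * (L * q.N) := by
          have : P ≤ C * X ^ ε := (hPP.le.trans hCP).trans hCX
          gcongr
          linarith
  · have hPge : P0 ≤ P := not_lt.mp hPP
    set κ := Real.log P with hκ
    have hκ0 : 0 ≤ κ := Real.log_nonneg hP
    set D := Ct * X ^ ε0 with hD
    have hD0 : 0 ≤ D := by positivity
    have hDk : ∀ k ∈ bl (L * P ^ 3), (tau k : ℝ) ≤ D := by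
      intro k hk
      rw [mem_bl hLP3.le] at hk
      have hk0 : (0 : ℝ) ≤ nm k := by positivity
      have hkX : (nm k : ℝ) ≤ X ^ (4 : ℕ) := by
        refine hk.2.trans ?_
        calc L * P ^ 3 = (L * P) * P ^ 2 := by ring
          _ ≤ X * X ^ 2 := by gcongr
          _ = X ^ 3 := by ring
          _ ≤ X ^ 4 := pow_le_pow_right₀ hX (by norm_num)
      calc (tau k : ℝ) ≤ Ct * (nm k : ℝ) ^ (ε0 / 4) := htau k hk.1
        _ ≤ Ct * (X ^ (4 : ℕ)) ^ (ε0 / 4) := by gcongr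
        _ = D := by
            rw [hD, ← Real.rpow_natCast X 4, ← Real.rpow_mul hX0.le]
            congr 2; push_cast; ring
    have hfam : ∀ (q' : Qd) (s1 s2 : ℝ), Qd.Sub (C * X ^ ε) P q q' →
        tdc h χ l o (L * P) q' (t1 + s1) (t2 + s2) ≤ B2 * ((1 + |s1|) * (1 + |s2|)) ^ Mx := by
      intro q' s1 s2 hs
      have hLP : 1 ≤ L * P := one_le_mul_of_one_le_of_one_le hL hP
      refine hH2 (L * P) q' s1 s2 hLP ?_ ?_ hs
      · exact le_mul_of_one_le_left (by positivity) hCX1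
      · calc L * P ≤ X := hLPX
          _ = X ^ 1 := (pow_one X).symm
          _ ≤ X ^ 20 := pow_le_pow_right₀ hX (by norm_num)
          _ ≤ C * X ^ 20 := le_mul_of_one_le_left (by positivity) hC
    have hexp : ∀ ζ : ℝ, |ζ + κ| ≤ ρ → Real.exp ζ * P ≤ Real.exp ρ := by
      intro ζ hζ
      rw [abs_le] at hζ
      have : Real.exp ζ * P = Real.exp (ζ + κ) := by rw [Real.exp_add, hκ, Real.exp_log hPp]
      rw [this]
      exact Real.exp_le_exp.2 hζ.2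
    set Bb := L * q.N * Real.exp ρ * B2 with hBb
    have hBb0 : 0 ≤ Bb := by positivity
    have k1 : ∀ ζ s : ℝ, |ζ + κ| ≤ ρ → UD h χ l (L * P) (Real.log q.Y1 + ζ) (Real.log q.Y2)
        (dlt R c o q) (t1 + s) t2 ≤ Bb * (1 + |s|) ^ Mx := by
      intro ζ s hζ
      have hζ2 : ζ ≤ 2 * R + 1 + c := by
        have := (abs_le.1 hζ).2
        rw [← hρ]; linarith
      rw [UD_sc1 hR0 hc hR o (by positivity) hq hζ2]
      have h1 := hfam (sc1 (Real.exp ζ) q) s 0 (sub_sc1 hq hP hρ0 hζ (hCρ.trans hCX))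
      have h2 : tdc h χ l o (L * P) (sc1 (Real.exp ζ) q) (t1 + s) t2 ≤ B2 * (1 + |s|) ^ Mx := by
        simpa using h1
      have h3 := hexp ζ hζ
      have h4 : 0 ≤ B2 * (1 + |s|) ^ Mx := by positivity
      calc L * P * (Real.exp ζ * q.N) * tdc h χ l o (L * P) (sc1 (Real.exp ζ) q) (t1 + s) t2 ≤
            L * P * (Real.exp ζ * q.N) * (B2 * (1 + |s|) ^ Mx) := by gcongr
        _ = (L * q.N) * (Real.exp ζ * P) * (B2 * (1 + |s|) ^ Mx) := by ring
        _ ≤ (L * q.N) * Real.exp ρ * (B2 * (1 + |s|) ^ Mx) := by gcongr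
        _ = _ := by rw [hBb]; ring
    have k2 : ∀ ζ s : ℝ, |ζ + κ| ≤ ρ → UD h χ l (L * P) (Real.log q.Y1) (Real.log q.Y2 + ζ)
        (dlt R c o q) t1 (t2 + s) ≤ Bb * (1 + |s|) ^ Mx := by
      intro ζ s hζ
      rw [UD_sc2 hR0 hc hR o (by positivity) hq]
      have h1 := hfam (sc2 (Real.exp ζ) q) 0 s (sub_sc2 hq hP hρ0 hζ (hCρ.trans hCX))
      have h2 : tdc h χ l o (L * P) (sc2 (Real.exp ζ) q) t1 (t2 + s) ≤ B2 * (1 + |s|) ^ Mx := by
        simpa using h1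
      have h3 := hexp ζ hζ
      have h4 : 0 ≤ B2 * (1 + |s|) ^ Mx := by positivity
      calc L * P * (Real.exp ζ * q.N) * tdc h χ l o (L * P) (sc2 (Real.exp ζ) q) t1 (t2 + s) ≤
            L * P * (Real.exp ζ * q.N) * (B2 * (1 + |s|) ^ Mx) := by gcongr
        _ = (L * q.N) * (Real.exp ζ * P) * (B2 * (1 + |s|) ^ Mx) := by ring
        _ ≤ (L * q.N) * Real.exp ρ * (B2 * (1 + |s|) ^ Mx) := by gcongr
        _ = _ := by rw [hBb]; ring
    have key := hmono L (Real.log q.Y1) (Real.log q.Y2) (dlt R c o q) P t1 t2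
      (L * P ^ 3 * q.N * B1) Bb D hL0 hPge (by positivity) hBb0 hD0 hDk hlong k1 k2
    have hκX : κ ≤ X ^ ε0 / ε0 := by
      calc κ ≤ P ^ ε0 / ε0 := Real.log_le_rpow_div hPp.le hε0
        _ ≤ X ^ ε0 / ε0 := by gcongr
    have hXX : X ^ ε0 * X ^ ε0 = X ^ ε := by
      rw [← Real.rpow_add hX0]; congr 1; rw [hε0d]; ring
    have h5 : P * UD h χ l L (Real.log q.Y1) (Real.log q.Y2) (dlt R c o q) t1 t2 ≤
        P * ((C * X ^ ε) * (P ^ 2 * B1 + B2 / P) * (L * q.N)) := by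
      calc P * UD h χ l L (Real.log q.Y1) (Real.log q.Y2) (dlt R c o q) t1 t2 ≤
            C1 * κ * D * (L * P ^ 3 * q.N * B1 + Bb) := key
        _ ≤ C1 * (X ^ ε0 / ε0) * (Ct * X ^ ε0) *
            (Real.exp ρ * (L * q.N * (P ^ 3 * B1 + B2))) := by
            have e1 : L * P ^ 3 * q.N * B1 + Bb ≤ Real.exp ρ * (L * q.N * (P ^ 3 * B1 + B2)) := by
              rw [hBb]
              have : 0 ≤ L * q.N * (P ^ 3 * B1) := by positivity
              nlinarith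
            have e2 : 0 ≤ L * P ^ 3 * q.N * B1 + Bb := by positivity
            gcongr
        _ = (C1 / ε0 * Ct * Real.exp ρ) * (X ^ ε0 * X ^ ε0) *
            (L * q.N * (P ^ 3 * B1 + B2)) := by ring
        _ ≤ C * X ^ ε * (L * q.N * (P ^ 3 * B1 + B2)) := by
            rw [hXX]
            gcongr
        _ = _ := by field_simp
    exact le_of_mul_le_mul_left h5 hPp

end Crest.Agent.R017.TP320
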