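import Crest.Agent.R017.TX4_939
import Crest.Agent.R017.TPD_813

/-!
# Row 17: natural shape differences from the squarefree ones (helper939)
-/

set_option autoImplicit false

noncomputable section

open Complex MeasureTheory
open scoped ComplexConjugate ContDiff

namespace Crest.Agent.R017.TP320

open Crest.Agent.R012 Crest.Agent.R012.Eis Crest.Agent.R012.LS2 Crest.Agent.R012.Gauss880
open Crest.Agent.R012.Div277 Crest.Agent.R012.Weight600
open Crest.Agent.R012.PSer47 Crest.Agent.R017.End699 Crest.Agent.R017.FE47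
open Crest.Agent.R017.Two939 (cfa cfa_mul cfa_prim cfa_support sum_mul_le sy_cube_pp)
open Crest.Agent.R017.CM106 (CS TG FS)
open Crest.Agent.R017.Asm986 (Pf)
open Crest.Agent.R017.TPD813 (sum_pf_le CS_conv_split cauchy_w prim_div CS_smul sq_smul conv_smul)

lemma fs_conv_co {h : ℝ → ℝ} (hh : HasCompactSupport h) (χ : Eis → ℂ) (l : ℤ)
    (y1 y2 t1 t2 : ℝ) : FS (conv (co h χ l y1 t1) (co h χ l y2 t2)) :=
  TPD813.fs_conv (fs_co hh χ l y1 t1) (fs_co hh χ l y2 t2)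

lemma fs_sq {w : Eis → ℂ} (hw : FS w) (q : Eis) : FS (sq q w) where
  fin := by
    refine hw.fin.subset fun n hn => ?_
    intro h0
    apply hn
    unfold sq
    rw [h0]; simp
  prim := fun m hm => by
    apply hw.prim m
    intro h0
    apply hm
    unfold sq
    rw [h0]; simp

lemma CS_sub {a b : Eis → ℂ} (ha : FS a) (hb : FS b) (k : Eis) :
    CS (fun n => a n - b n) k = CS a k - CS b k := by
  unfold CS
  have h1 : Summable fun m => a m * sy k m := by
    refine summable_of_ne_finset_zero (s := ha.fin.toFinset) fun m hm => ?_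
    have : a m = 0 := by
      by_contra h0
      exact hm (ha.fin.mem_toFinset.2 h0)
    rw [this, zero_mul]
  have h2 : Summable fun m => b m * sy k m := by
    refine summable_of_ne_finset_zero (s := hb.fin.toFinset) fun m hm => ?_
    have : b m = 0 := by
      by_contra h0
      exact hm (hb.fin.mem_toFinset.2 h0)
    rw [this, zero_mul]
  rw [← Summable.tsum_sub h1 h2]
  exact tsum_congr fun m => by ring

lemma sq_sub (q : Eis) (a b : Eis → ℂ) :
    sq q (fun n => a n - b n) = fun n => sq q a n - sq q b n := by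
  funext n
  unfold sq
  split_ifs
  · rfl
  · ring

lemma co_mem {h : ℝ → ℝ} {χ : Eis → ℂ} {l : ℤ} {R y t : ℝ} (hR : ∀ u, cx h u ≠ 0 → |u| ≤ R)
    {N : ℕ} (hN : Real.exp (y + R) ≤ N) {b : Eis} (hb : co h χ l y t b ≠ 0) :
    b ∈ primBall N := by
  have hp : IsPrim b := by by_contra h; exact hb (co_prim h)
  have hs := co_supp hR hb
  have hn1 := one_le_nm' hp
  rw [mem_primBall]
  refine ⟨?_, hp⟩
  have : (nm b : ℝ) ≤ N := by
    refine le_trans ?_ hN
    rw [← Real.exp_log (by linarith : (0 : ℝ) < nm b)]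
    apply Real.exp_le_exp.2
    rw [abs_le] at hs
    linarith [hs.2]
  exact_mod_cast this

lemma sub_co (h : ℝ → ℝ) {M : Eis} {χ : Eis → ℂ} (hχ : HC M χ) (l : ℤ) {d : Eis}
    (hd : IsPrim d) (y t : ℝ) :
    CM106.sub (co h χ l y t) d = fun x => (χ d * ang l d) * co h χ l (y - Real.log (nm d)) t x := by
  funext x
  exact co_mul hχ l hd y t x

open Classical in
/-- the natural product sum as a sum of squarefree ones -/
theorem CS_co_split {h : ℝ → ℝ} {M : Eis} {χ : Eis → ℂ} (hχ : HC M χ)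
    (l : ℤ) {R : ℝ} (hR : ∀ u, cx h u ≠ 0 → |u| ≤ R) {y1 y2 t1 t2 : ℝ} {N1 N2 : ℕ}
    (hN1 : Real.exp (y1 + R) ≤ N1) (hN2 : Real.exp (y2 + R) ≤ N2) (k : Eis) :
    CS (conv (co h χ l y1 t1) (co h χ l y2 t2)) k =
      ∑ u ∈ (primBall (N1 * N2)).filter Pf, ∑ d ∈ dvs u,
        (sy k u * ((χ d * ang l d) * (χ (u / d) * ang l (u / d)))) *
          CS (sq u (conv (co h χ l (y1 - Real.log (nm d)) t1)
            (co h χ l (y2 - Real.log (nm (u / d))) t2))) k := by
  rw [CS_conv_split (fun x hx => co_mem hR hN1 hx) (fun x hx => co_mem hR hN2 hx) k]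
  refine Finset.sum_congr rfl fun u hu => Finset.sum_congr rfl fun d hd => ?_
  rw [Finset.mem_filter, mem_primBall] at hu
  rw [sub_co h hχ l (isPrim_of_mem_dvs hd) y1 t1, sub_co h hχ l (prim_div hu.1.2 hd) y2 t2]
  have e : conv (fun x => (χ d * ang l d) * co h χ l (y1 - Real.log (nm d)) t1 x)
      (fun x => (χ (u / d) * ang l (u / d)) * co h χ l (y2 - Real.log (nm (u / d))) t2 x) =
      fun x => ((χ d * ang l d) * (χ (u / d) * ang l (u / d))) *
        conv (co h χ l (y1 - Real.log (nm d)) t1)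
          (co h χ l (y2 - Real.log (nm (u / d))) t2) x := by
    funext x
    exact conv_smul _ _ _ _ x
  rw [e, sq_smul, CS_smul]
  ring

open Classical in
/-- the natural difference sum as a sum of squarefree ones -/
theorem CS_dw_split {h : ℝ → ℝ} (hh : HasCompactSupport h) {M : Eis} {χ : Eis → ℂ} (hχ : HC M χ)
    (l : ℤ) {R : ℝ} (hR : ∀ u, cx h u ≠ 0 → |u| ≤ R) {z1 z2 δ t1 t2 : ℝ} {N1 N2 : ℕ}
    (hN1 : Real.exp (z1 + R) ≤ N1) (hN2 : Real.exp (z2 + R) ≤ N2)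
    (hN1' : Real.exp (z1 + δ + R) ≤ N1) (hN2' : Real.exp (z2 - δ + R) ≤ N2) (k : Eis) :
    CS (dw h χ l z1 z2 δ t1 t2) k =
      ∑ u ∈ (primBall (N1 * N2)).filter Pf, ∑ d ∈ dvs u,
        (sy k u * ((χ d * ang l d) * (χ (u / d) * ang l (u / d)))) *
          CS (sq u (dw h χ l (z1 - Real.log (nm d)) (z2 - Real.log (nm (u / d))) δ t1 t2)) k := by
  have e0 : CS (dw h χ l z1 z2 δ t1 t2) k =
      CS (conv (co h χ l z1 t1) (co h χ l z2 t2)) k -
        CS (conv (co h χ l (z1 + δ) t1) (co h χ l (z2 - δ) t2)) k :=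
    CS_sub (fs_conv_co hh χ l z1 z2 t1 t2) (fs_conv_co hh χ l (z1 + δ) (z2 - δ) t1 t2) k
  rw [e0, CS_co_split hχ l hR hN1 hN2, CS_co_split hχ l hR hN1' hN2', ← Finset.sum_sub_distrib]
  refine Finset.sum_congr rfl fun u hu => ?_
  rw [← Finset.sum_sub_distrib]
  refine Finset.sum_congr rfl fun d hd => ?_
  rw [← mul_sub]
  congr 1
  have e1 : CS (sq u (dw h χ l (z1 - Real.log (nm d)) (z2 - Real.log (nm (u / d))) δ t1 t2)) k =
      CS (fun n => sq u (conv (co h χ l (z1 - Real.log (nm d)) t1)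
            (co h χ l (z2 - Real.log (nm (u / d))) t2)) n -
          sq u (conv (co h χ l (z1 - Real.log (nm d) + δ) t1)
            (co h χ l (z2 - Real.log (nm (u / d)) - δ) t2)) n) k := by
    congr 1
    rw [← sq_sub]
    rfl
  rw [e1, CS_sub (fs_sq (fs_conv_co hh χ l _ _ t1 t2) u) (fs_sq (fs_conv_co hh χ l _ _ t1 t2) u)]
  have e2 : z1 + δ - Real.log (nm d) = z1 - Real.log (nm d) + δ := by ring
  have e3 : z2 - δ - Real.log (nm (u / d)) = z2 - Real.log (nm (u / d)) - δ := by ring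
  rw [e2, e3]

lemma norm_cd_le {M : Eis} {χ : Eis → ℂ} (hχ : HC M χ) (l : ℤ) {d : Eis} (hd : IsPrim d) :
    ‖χ d * ang l d‖ ≤ 1 := by
  rw [norm_mul]
  have h1 := hχ.char.norm_le hd
  have h3 : ‖ang l d‖ ≤ 1 := (ang_isChar l).norm_le hd
  calc ‖χ d‖ * ‖ang l d‖ ≤ 1 * 1 := by gcongr
    _ = 1 := by ring

open Classical in
/-- **natural → squarefree**, differences -/
theorem VC_dw_le {h : ℝ → ℝ} {c : ℝ} (hpu : PU h c) {ε : ℝ} (hε : 0 < ε) : ∃ C : ℝ, 1 ≤ C ∧
    ∀ (M : Eis) (χ : Eis → ℂ), HC M χ → ∀ (l : ℤ) (K z1 z2 δ t1 t2 A : ℝ), 0 ≤ A →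
      (∀ a1 a2 : Eis, IsPrim a1 → IsPrim a2 → (nm (a1 * a2) : ℝ) ≤ C * Real.exp (z1 + z2 + |δ|) →
        VC K (sq (a1 * a2) (dw h χ l (z1 - Real.log (nm a1)) (z2 - Real.log (nm a2)) δ t1 t2)) ≤
          A * (Real.exp (z1 + z2) / nm (a1 * a2))) →
      VC K (dw h χ l z1 z2 δ t1 t2) ≤
        C * Real.exp (z1 + z2 + |δ|) ^ ε * (A * Real.exp (z1 + z2)) := by
  obtain ⟨R, hR0, hR⟩ := exists_R (cs_cx hpu.cs)
  obtain ⟨Ct, hCt, htau⟩ := tau_le_rpow (ε := ε / 4) (by positivity)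
  obtain ⟨C1, hC1, hpf⟩ := sum_pf_le (δ := ε / 4) (by positivity)
  set E := Real.exp (2 * R + 2) with hE
  have hE0 : 0 < E := Real.exp_pos _
  have hE1 : 1 ≤ E := Real.one_le_exp (by positivity)
  set S1 := Ct * C1 with hS1
  have hS10 : 0 ≤ S1 := by positivity
  refine ⟨E + S1 ^ 2 * E ^ ε, by
    have : 0 ≤ S1 ^ 2 * E ^ ε := by positivity
    linarith, ?_⟩
  intro M χ hχ l K z1 z2 δ t1 t2 A hA hyp
  set W := Real.exp (z1 + z2 + |δ|) with hW
  have hW0 : 0 < W := Real.exp_pos _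
  set m1 := max z1 (z1 + δ) with hm1
  set m2 := max z2 (z2 - δ) with hm2
  set N1 := ⌈Real.exp (m1 + R)⌉₊ with hN1d
  set N2 := ⌈Real.exp (m2 + R)⌉₊ with hN2d
  have hN1 : Real.exp (m1 + R) ≤ N1 := Nat.le_ceil _
  have hN2 : Real.exp (m2 + R) ≤ N2 := Nat.le_ceil _
  have k1 : Real.exp (z1 + R) ≤ N1 := le_trans (Real.exp_le_exp.2 (by
    have := le_max_left z1 (z1 + δ); linarith)) hN1
  have k2 : Real.exp (z2 + R) ≤ N2 := le_trans (Real.exp_le_exp.2 (by
    have := le_max_left z2 (z2 - δ); linarith)) hN2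
  have k3 : Real.exp (z1 + δ + R) ≤ N1 := le_trans (Real.exp_le_exp.2 (by
    have := le_max_right z1 (z1 + δ); linarith)) hN1
  have k4 : Real.exp (z2 - δ + R) ≤ N2 := le_trans (Real.exp_le_exp.2 (by
    have := le_max_right z2 (z2 - δ); linarith)) hN2
  set X := N1 * N2 with hX
  -- the terms which do not vanish
  set I := (((primBall X).filter Pf).filter (fun u => (nm u : ℝ) ≤ E * W)).sigma
    (fun u => dvs u) with hI
  have hmemI : ∀ x ∈ I, IsPrim x.1 ∧ (nm x.1 : ℝ) ≤ E * W ∧ x.2 ∈ dvs x.1 := by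
    intro x hx
    rw [hI, Finset.mem_sigma, Finset.mem_filter, Finset.mem_filter, mem_primBall] at hx
    exact ⟨hx.1.1.1.2, hx.1.2, hx.2⟩
  have hpos : ∀ x ∈ I, (0 : ℝ) < nm x.1 := fun x hx => by
    exact_mod_cast nm_pos.2 (hmemI x hx).1.ne_zero
  -- the sum of the inverse weights
  have hSum : ∑ x ∈ I, (nm x.1 : ℝ) ^ (-(1 / 2 + ε / 2)) ≤ S1 := by
    rw [hI, Finset.sum_sigma]
    calc ∑ u ∈ ((primBall X).filter Pf).filter (fun u => (nm u : ℝ) ≤ E * W),
          ∑ _d ∈ dvs u, (nm u : ℝ) ^ (-(1 / 2 + ε / 2))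
        ≤ ∑ u ∈ (primBall X).filter Pf, ∑ _d ∈ dvs u, (nm u : ℝ) ^ (-(1 / 2 + ε / 2)) := by
          refine Finset.sum_le_sum_of_subset_of_nonneg (Finset.filter_subset _ _)
            fun u _ _ => Finset.sum_nonneg fun _ _ => by positivity
      _ = ∑ u ∈ (primBall X).filter Pf, (tau u : ℝ) * (nm u : ℝ) ^ (-(1 / 2 + ε / 2)) := by
          refine Finset.sum_congr rfl fun u _ => ?_
          rw [Finset.sum_const, nsmul_eq_mul, tau]
      _ ≤ ∑ u ∈ (primBall X).filter Pf, Ct * (nm u : ℝ) ^ (-(1 / 2 + ε / 4)) := by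
          refine Finset.sum_le_sum fun u hu => ?_
          rw [Finset.mem_filter, mem_primBall] at hu
          have hu0 : (0 : ℝ) < nm u := by exact_mod_cast nm_pos.2 hu.1.2.ne_zero
          calc (tau u : ℝ) * (nm u : ℝ) ^ (-(1 / 2 + ε / 2))
              ≤ (Ct * (nm u : ℝ) ^ (ε / 4)) * (nm u : ℝ) ^ (-(1 / 2 + ε / 2)) := by
                have := htau u hu.1.2.ne_zero
                gcongr
            _ = Ct * (nm u : ℝ) ^ (-(1 / 2 + ε / 4)) := by
                rw [mul_assoc, ← Real.rpow_add hu0]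
                congr 2; ring
      _ = Ct * ∑ u ∈ (primBall X).filter Pf, (nm u : ℝ) ^ (-(1 / 2 + ε / 4)) := by
          rw [Finset.mul_sum]
      _ ≤ Ct * C1 := by
          have := hpf X
          gcongr
  set Z : (Σ _ : Eis, Eis) → Eis → ℂ := fun x =>
    sq x.1 (dw h χ l (z1 - Real.log (nm x.2)) (z2 - Real.log (nm (x.1 / x.2))) δ t1 t2) with hZ
  have hzero : ∀ u d : Eis, IsPrim u → d ∈ dvs u → ¬ (nm u : ℝ) ≤ E * W →
      dw h χ l (z1 - Real.log (nm d)) (z2 - Real.log (nm (u / d))) δ t1 t2 = 0 := by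
    intro u d hu hd hlt
    funext n
    rw [Pi.zero_apply]
    unfold dw
    have hd1 := one_le_nm' (isPrim_of_mem_dvs hd)
    have hd2 := one_le_nm' (prim_div hu hd)
    have hu1 := one_le_nm' hu
    have hlog : Real.log (nm u) = Real.log (nm d) + Real.log (nm (u / d)) := by
      conv_lhs => rw [← mul_div_of_mem hd, nm_mul]
      push_cast
      rw [Real.log_mul (by linarith) (by linarith)]
    have hbig : 2 * R + 2 + (z1 + z2 + |δ|) < Real.log (nm u) := by
      have h1 : E * W < nm u := not_le.mp hlt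
      have h2 : Real.log (E * W) < Real.log (nm u) := Real.log_lt_log (by positivity) h1
      rwa [hE, hW, ← Real.exp_add, Real.log_exp] at h2
    have hδ0 := abs_nonneg δ
    have key : ∀ y1 y2 : ℝ, y1 + y2 = z1 + z2 →
        conv (co h χ l (y1 - Real.log (nm d)) t1) (co h χ l (y2 - Real.log (nm (u / d))) t2) n
          = 0 := by
      intro y1 y2 hy
      by_contra h0
      have hs := conv_co_supp hR h0
      have hp := conv_co_prim h0
      have hn := log_nm_nonneg' hp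
      rw [abs_le] at hs
      linarith [hs.2]
    have e1 : z1 - Real.log (nm d) + δ = (z1 + δ) - Real.log (nm d) := by ring
    have e2 : z2 - Real.log (nm (u / d)) - δ = (z2 - δ) - Real.log (nm (u / d)) := by ring
    rw [e1, e2, key z1 z2 rfl, key (z1 + δ) (z2 - δ) (by ring), sub_zero]
  have hpt : ∀ k ∈ bl K, ‖CS (dw h χ l z1 z2 δ t1 t2) k‖ ^ 2 ≤
      S1 * ∑ x ∈ I, (nm x.1 : ℝ) ^ (1 / 2 + ε / 2) * ‖CS (Z x) k‖ ^ 2 := by
    intro k _
    have e0 : CS (dw h χ l z1 z2 δ t1 t2) k =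
        ∑ u ∈ ((primBall X).filter Pf).filter (fun u => (nm u : ℝ) ≤ E * W), ∑ d ∈ dvs u,
        (sy k u * ((χ d * ang l d) * (χ (u / d) * ang l (u / d)))) *
          CS (sq u (dw h χ l (z1 - Real.log (nm d)) (z2 - Real.log (nm (u / d))) δ t1 t2)) k := by
      rw [CS_dw_split hpu.cs hχ l hR k1 k2 k3 k4 k]
      symm
      apply Finset.sum_subset (Finset.filter_subset _ _)
      intro u hu hnu
      have hlt : ¬ (nm u : ℝ) ≤ E * W := fun h => hnu (Finset.mem_filter.2 ⟨hu, h⟩)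
      rw [Finset.mem_filter, mem_primBall] at hu
      apply Finset.sum_eq_zero
      intro d hd
      rw [hzero u d hu.1.2 hd hlt]
      have : CS (sq u 0) k = 0 := by
        unfold CS sq
        simp
      rw [this, mul_zero]
    rw [e0, Finset.sum_sigma']
    refine (cauchy_w I (fun x => (nm x.1 : ℝ) ^ (1 / 2 + ε / 2)) (fun x hx => by
      have := hpos x hx; positivity)
      (fun x => sy k x.1 * ((χ x.2 * ang l x.2) * (χ (x.1 / x.2) * ang l (x.1 / x.2))))
      (fun x => CS (Z x) k) (fun x hx => ?_)).trans ?_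
    · obtain ⟨h1, _, h3⟩ := hmemI x hx
      rw [norm_mul, norm_mul]
      have a1 : ‖sy k x.1‖ ≤ 1 := Two939.norm_sy_le h1
      have a2 := norm_cd_le hχ l (isPrim_of_mem_dvs h3)
      have a3 := norm_cd_le hχ l (prim_div h1 h3)
      calc ‖sy k x.1‖ * (‖χ x.2 * ang l x.2‖ * ‖χ (x.1 / x.2) * ang l (x.1 / x.2)‖)
          ≤ 1 * (1 * 1) := by gcongr
        _ = 1 := by ring
    · have h1 : ∑ x ∈ I, ((nm x.1 : ℝ) ^ (1 / 2 + ε / 2))⁻¹ ≤ S1 := by
        refine le_trans (le_of_eq (Finset.sum_congr rfl fun x hx => ?_)) hSum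
        rw [Real.rpow_neg (hpos x hx).le]
      have h2 : 0 ≤ ∑ x ∈ I, (nm x.1 : ℝ) ^ (1 / 2 + ε / 2) * ‖CS (Z x) k‖ ^ 2 :=
        Finset.sum_nonneg fun x _ => by positivity
      gcongr
  have hVC : VC K (dw h χ l z1 z2 δ t1 t2) ≤
      S1 * ∑ x ∈ I, (nm x.1 : ℝ) ^ (1 / 2 + ε / 2) * VC K (Z x) := by
    unfold VC
    refine (Finset.sum_le_sum hpt).trans (le_of_eq ?_)
    rw [← Finset.mul_sum, Finset.sum_comm]
    congr 1
    exact Finset.sum_congr rfl fun x _ => by rw [Finset.mul_sum]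
  have hZle : ∀ x ∈ I, (nm x.1 : ℝ) ^ (1 / 2 + ε / 2) * VC K (Z x) ≤
      (A * Real.exp (z1 + z2)) * ((E * W) ^ ε * (nm x.1 : ℝ) ^ (-(1 / 2 + ε / 2))) := by
    intro x hx
    obtain ⟨h1, hxX, h3⟩ := hmemI x hx
    have hx0 := hpos x hx
    have hS0 : 0 ≤ S1 ^ 2 * E ^ ε := by positivity
    have hb := hyp x.2 (x.1 / x.2) (isPrim_of_mem_dvs h3) (prim_div h1 h3) (by
      rw [mul_div_of_mem h3]
      refine hxX.trans ?_
      gcongr
      linarith)
    rw [mul_div_of_mem h3] at hb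
    have hA0 : 0 ≤ A * Real.exp (z1 + z2) := by positivity
    calc (nm x.1 : ℝ) ^ (1 / 2 + ε / 2) * VC K (Z x)
        ≤ (nm x.1 : ℝ) ^ (1 / 2 + ε / 2) * (A * (Real.exp (z1 + z2) / nm x.1)) := by gcongr
      _ = (A * Real.exp (z1 + z2)) *
            ((nm x.1 : ℝ) ^ (1 / 2 + ε / 2) * (nm x.1 : ℝ) ^ (-1 : ℝ)) := by
          rw [Real.rpow_neg_one]; ring
      _ = (A * Real.exp (z1 + z2)) * ((nm x.1 : ℝ) ^ ε * (nm x.1 : ℝ) ^ (-(1 / 2 + ε / 2))) := by
          rw [← Real.rpow_add hx0, ← Real.rpow_add hx0]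
          congr 2; ring
      _ ≤ _ := by gcongr
  calc VC K (dw h χ l z1 z2 δ t1 t2)
      ≤ S1 * ∑ x ∈ I, (nm x.1 : ℝ) ^ (1 / 2 + ε / 2) * VC K (Z x) := hVC
    _ ≤ S1 * ∑ x ∈ I, (A * Real.exp (z1 + z2)) *
          ((E * W) ^ ε * (nm x.1 : ℝ) ^ (-(1 / 2 + ε / 2))) :=
        mul_le_mul_of_nonneg_left (Finset.sum_le_sum hZle) hS10
    _ = S1 * ((A * Real.exp (z1 + z2)) * ((E * W) ^ ε *
          ∑ x ∈ I, (nm x.1 : ℝ) ^ (-(1 / 2 + ε / 2)))) := by
        rw [← Finset.mul_sum, ← Finset.mul_sum]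
    _ ≤ S1 * ((A * Real.exp (z1 + z2)) * ((E * W) ^ ε * S1)) := by gcongr
    _ = S1 ^ 2 * E ^ ε * (W ^ ε * (A * Real.exp (z1 + z2))) := by
        rw [Real.mul_rpow hE0.le hW0.le]
        ring
    _ ≤ (E + S1 ^ 2 * E ^ ε) * (W ^ ε * (A * Real.exp (z1 + z2))) := by
        gcongr
        linarith
    _ = _ := by ring

end Crest.Agent.R017.TP320
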