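import Crest.Agent.R017.TX8_939
import Crest.Agent.R017.TX7_939

/-!
# Row 17: exceptional two-factor theorem, preparations for the rule `PoisC` (helper939)
-/

set_option autoImplicit false

noncomputable section

open Complex MeasureTheory
open scoped ComplexConjugate ContDiff

namespace Crest.Agent.R017.TP320

open Crest.Agent.R012 Crest.Agent.R012.Eis Crest.Agent.R012.LS2 Crest.Agent.R012.Gauss880
open Crest.Agent.R012.Div277 Crest.Agent.R012.Weight600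
open Crest.Agent.R012.PSer47 Crest.Agent.R017.End699 Crest.Agent.R017.FE47
open Crest.Agent.R017.Two939 (cfa cfa_mul cfa_prim cfa_support sum_mul_le sy_cube_pp Po)
open Crest.Agent.R017.CM106 (CS TG FS)
open Crest.Agent.R017.TwoEx791 Crest.Agent.R017.TXC791

/-- the shift between the two shapes; a single shape is the difference with an empty shape -/
def dltP (ρ : ℝ) (o : Bool) (q : Qd) : ℝ :=
  if o = true then Real.log q.Z1 - Real.log q.Y1 else -Real.log q.Y1 - ρ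

/-- the second moment of scaled shapes, Gauss side -/
lemma UD_sc12 {h : ℝ → ℝ} {χ : Eis → ℂ} {l : ℤ} {R ρ : ℝ}
    (hR : ∀ u, cx h u ≠ 0 → |u| ≤ R) (o : Bool) {L : ℝ} (hL : 0 < L) {q : Qd} (hq : q.Ok)
    {ζ1 : ℝ} (hζ : ζ1 + R < ρ) (ζ2 t1 t2 : ℝ) :
    UD h χ l L (Real.log q.Y1 + ζ1) (Real.log q.Y2 + ζ2) (dltP ρ o q) t1 t2 =
      L * (Real.exp (ζ1 + ζ2) * q.N) *
        tdc h χ l o L (sc1 (Real.exp ζ1) (sc2 (Real.exp ζ2) q)) t1 t2 := by
  have h1 := hq.Y1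
  have h2 := hq.Y2
  have h3 := hq.Z1
  have h4 := hq.Z2
  have he1 := Real.exp_pos ζ1
  have he2 := Real.exp_pos ζ2
  by_cases ho : o = true
  · have := UD_two h χ l hL (mul_pos he1 h1) (mul_pos he2 h2) (mul_pos he1 h3) (mul_pos he2 h4)
      (by
        have := hq.eq
        calc Real.exp ζ1 * q.Y1 * (Real.exp ζ2 * q.Y2) =
              Real.exp ζ1 * Real.exp ζ2 * (q.Y1 * q.Y2) := by ring
          _ = Real.exp ζ1 * Real.exp ζ2 * (q.Z1 * q.Z2) := by rw [this]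
          _ = _ := by ring) t1 t2
    rw [Real.log_mul he1.ne' h1.ne', Real.log_mul he2.ne' h2.ne', Real.log_mul he1.ne' h3.ne',
      Real.log_exp, Real.log_exp] at this
    unfold dltP tdc
    rw [if_pos ho, if_pos ho]
    have e1 : ζ1 + Real.log q.Z1 - (ζ1 + Real.log q.Y1) = Real.log q.Z1 - Real.log q.Y1 := by ring
    rw [e1] at this
    rw [add_comm (Real.log q.Y1), add_comm (Real.log q.Y2), this]
    simp only [sc1, sc2, Qd.N]
    rw [Real.exp_add]; ring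
  · unfold dltP tdc
    rw [if_neg ho, if_neg ho, UD_one hR (by linarith), Real.exp_add, Real.exp_log h1,
      Real.exp_add, Real.exp_log h2]
    simp only [sc1, sc2, Qd.N]
    rw [mul_comm q.Y1, mul_comm q.Y2, Two939.U2_eq h χ l hL (by positivity) (by positivity)]
    rw [Real.exp_add]; ring

lemma CS_co (h : ℝ → ℝ) (χ : Eis → ℂ) (l : ℤ) (k : Eis) (y t : ℝ) :
    CS (co h χ l y t) k = Po h χ l k (Real.exp y) t := by
  unfold Two939.Po
  rw [TPD813.P_eq_CS, Real.log_exp, ← TPD813.CS_smul]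
  congr 1
  funext b
  exact co_eq h χ l y t b

lemma CS_dw {h : ℝ → ℝ} (hh : HasCompactSupport h) (χ : Eis → ℂ) (l : ℤ) (k : Eis)
    (z1 z2 δ t1 t2 : ℝ) : CS (dw h χ l z1 z2 δ t1 t2) k =
      Po h χ l k (Real.exp z1) t1 * Po h χ l k (Real.exp z2) t2 -
        Po h χ l k (Real.exp (z1 + δ)) t1 * Po h χ l k (Real.exp (z2 - δ)) t2 := by
  have e0 : CS (dw h χ l z1 z2 δ t1 t2) k =
      CS (conv (co h χ l z1 t1) (co h χ l z2 t2)) k -
        CS (conv (co h χ l (z1 + δ) t1) (co h χ l (z2 - δ) t2)) k :=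
    CS_sub (fs_conv_co hh χ l z1 z2 t1 t2) (fs_conv_co hh χ l (z1 + δ) (z2 - δ) t1 t2) k
  rw [e0, TPD813.CS_conv (fs_co hh χ l z1 t1) (fs_co hh χ l z2 t2),
    TPD813.CS_conv (fs_co hh χ l (z1 + δ) t1) (fs_co hh χ l (z2 - δ) t2)]
  simp only [CS_co]

lemma Po_zero {h : ℝ → ℝ} {χ : Eis → ℂ} {l : ℤ} {R y : ℝ}
    (hR : ∀ u, cx h u ≠ 0 → |u| ≤ R) (hy : y < -R) (k : Eis) (t : ℝ) :
    Po h χ l k (Real.exp y) t = 0 := by
  rw [← CS_co]
  unfold CS
  rw [← tsum_zero (α := ℂ) (β := Eis)]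
  refine tsum_congr fun b => ?_
  rw [co_zero hR hy, zero_mul]

/-- the functional `wd` is the unnormalised second moment -/
lemma VC_dw_eq {h : ℝ → ℝ} (hh : HasCompactSupport h) {χ : Eis → ℂ} {l : ℤ} {R ρ : ℝ}
    (hR : ∀ u, cx h u ≠ 0 → |u| ≤ R) (o : Bool) {K : ℝ} (hK : 0 < K) {q : Qd} (hq : q.Ok)
    (hρ : R < ρ) (t1 t2 : ℝ) :
    VC K (dw h χ l (Real.log q.Y1) (Real.log q.Y2) (dltP ρ o q) t1 t2) =
      K * q.N * wdc h χ l o K q t1 t2 := by
  have h1 := hq.Y1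
  have h2 := hq.Y2
  have h3 := hq.Z1
  have h4 := hq.Z2
  unfold VC dltP wdc Qd.N
  by_cases ho : o = true
  · rw [if_pos ho, if_pos ho]
    unfold Two939.Wd
    have e2 : Real.log q.Y2 - (Real.log q.Z1 - Real.log q.Y1) = Real.log q.Z2 := by
      have := congrArg Real.log hq.eq
      rw [Real.log_mul h1.ne' h2.ne', Real.log_mul h3.ne' h4.ne'] at this
      linarith
    have e1 : Real.log q.Y1 + (Real.log q.Z1 - Real.log q.Y1) = Real.log q.Z1 := by ring
    have e3 : K * (q.Y1 * q.Y2) = K * q.Y1 * q.Y2 := by ring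
    rw [e3, mul_div_cancel₀ _ (by positivity)]
    refine Finset.sum_congr rfl fun k _ => ?_
    rw [CS_dw hh, e1, e2, Real.exp_log h1, Real.exp_log h2, Real.exp_log h3, Real.exp_log h4]
    rfl
  · rw [if_neg ho, if_neg ho]
    unfold Two939.W2
    have e3 : K * (q.Y1 * q.Y2) = K * q.Y1 * q.Y2 := by ring
    rw [e3, mul_div_cancel₀ _ (by positivity)]
    refine Finset.sum_congr rfl fun k _ => ?_
    rw [CS_dw hh, Po_zero hR (by linarith : Real.log q.Y1 + (-Real.log q.Y1 - ρ) < -R), zero_mul,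
      sub_zero, Real.exp_log h1, Real.exp_log h2, norm_mul, Two939.norm_Po, Two939.norm_Po,
      mul_pow]

/-- the size of the shift -/
lemma exp_dltP_le {ρ : ℝ} (hρ : 0 ≤ ρ) (o : Bool) {q : Qd} (hq : q.Ok) :
    Real.exp (Real.log q.Y1 + Real.log q.Y2 + |dltP ρ o q|) ≤ Real.exp ρ * q.sz ^ 2 := by
  have h1 := hq.Y1
  have h2 := hq.Y2
  have h3 := hq.Z1
  have h4 := hq.Z2
  have hsz := hq.one_le_sz
  have heρ : 1 ≤ Real.exp ρ := Real.one_le_exp hρ
  have hsz2 : q.sz ≤ q.sz ^ 2 := by nlinarith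
  have hfin : ∀ x : ℝ, x ≤ q.sz → x ≤ Real.exp ρ * q.sz ^ 2 := by
    intro x hx
    calc x ≤ q.sz ^ 2 := hx.trans hsz2
      _ ≤ _ := le_mul_of_one_le_left (by positivity) heρ
  have hYZ : q.Y2 * q.Z1 ≤ q.sz := by
    unfold Qd.sz
    calc q.Y2 * q.Z1 = 1 * q.Y2 * (q.Z1 * 1) := by ring
      _ ≤ (1 + q.Y1) * (1 + q.Y2) * ((1 + q.Z1) * (1 + q.Z2)) := by gcongr <;> linarith
  have hYZ' : q.Y1 * q.Z2 ≤ q.sz := by
    unfold Qd.sz
    calc q.Y1 * q.Z2 = q.Y1 * 1 * (1 * q.Z2) := by ring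
      _ ≤ (1 + q.Y1) * (1 + q.Y2) * ((1 + q.Z1) * (1 + q.Z2)) := by gcongr <;> linarith
  have hY2 : q.Y2 ≤ q.sz := by linarith [hq.Y2_le_sz]
  have hY1 : q.Y1 ≤ q.sz := by linarith [hq.Y1_le_sz]
  have hYY : q.Y1 * q.Y2 ≤ q.sz := N_le_sz hq
  unfold dltP
  by_cases ho : o = true
  · rw [if_pos ho]
    rcases le_total 0 (Real.log q.Z1 - Real.log q.Y1) with h0 | h0
    · rw [abs_of_nonneg h0]
      apply hfin
      have e1 : Real.log q.Y1 + Real.log q.Y2 + (Real.log q.Z1 - Real.log q.Y1) =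
          Real.log q.Y2 + Real.log q.Z1 := by ring
      rw [e1, Real.exp_add, Real.exp_log h2, Real.exp_log h3]
      exact hYZ
    · rw [abs_of_nonpos h0]
      apply hfin
      have e2 : Real.log q.Y1 + Real.log q.Y2 = Real.log q.Z1 + Real.log q.Z2 := by
        have := congrArg Real.log hq.eq
        rwa [Real.log_mul h1.ne' h2.ne', Real.log_mul h3.ne' h4.ne'] at this
      have e1 : Real.log q.Y1 + Real.log q.Y2 + -(Real.log q.Z1 - Real.log q.Y1) =
          Real.log q.Y1 + Real.log q.Z2 := by rw [e2]; ring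
      rw [e1, Real.exp_add, Real.exp_log h1, Real.exp_log h4]
      exact hYZ'
  · rw [if_neg ho]
    rcases le_total 0 (-Real.log q.Y1 - ρ) with h0 | h0
    · rw [abs_of_nonneg h0]
      apply hfin
      have e1 : Real.log q.Y1 + Real.log q.Y2 + (-Real.log q.Y1 - ρ) = Real.log q.Y2 - ρ := by ring
      rw [e1]
      calc Real.exp (Real.log q.Y2 - ρ) ≤ Real.exp (Real.log q.Y2) :=
            Real.exp_le_exp.2 (by linarith)
        _ = q.Y2 := Real.exp_log h2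
        _ ≤ _ := hY2
    · rw [abs_of_nonpos h0]
      have e1 : Real.log q.Y1 + Real.log q.Y2 + -(-Real.log q.Y1 - ρ) =
          ρ + (Real.log q.Y1 + (Real.log q.Y1 + Real.log q.Y2)) := by ring
      rw [e1, Real.exp_add, Real.exp_add, Real.exp_add, Real.exp_log h1, Real.exp_log h2]
      calc Real.exp ρ * (q.Y1 * (q.Y1 * q.Y2)) ≤ Real.exp ρ * (q.sz * q.sz) := by gcongr
        _ = _ := by ring

/-- the subshape relation for doubly scaled shapes -/
lemma sub_sc12 {R' T ζ1 ζ2 : ℝ} {q : Qd} (hq : q.Ok) (h1 : Real.exp ζ1 ≤ R')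
    (h2 : Real.exp ζ2 ≤ R') (h3 : Real.exp (ζ1 + ζ2) * T ≤ R')
    (h4 : 1 ≤ R' * (Real.exp (ζ1 + ζ2) * T)) :
    Qd.Sub R' T q (sc1 (Real.exp ζ1) (sc2 (Real.exp ζ2) q)) := by
  have k1 := hq.Y1; have k2 := hq.Y2; have k3 := hq.Z1; have k4 := hq.Z2
  have hN := hq.N_pos
  have e : (sc1 (Real.exp ζ1) (sc2 (Real.exp ζ2) q)).N = Real.exp (ζ1 + ζ2) * q.N := by
    rw [sc1_N, sc2_N, Real.exp_add]; ring
  refine ⟨sc1_ok (Real.exp_pos _) (sc2_ok (Real.exp_pos _) hq), ?_, ?_, ?_, ?_, ?_, ?_⟩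
  · simp only [sc1, sc2]; gcongr
  · simp only [sc1, sc2]; gcongr
  · simp only [sc1, sc2]; gcongr
  · simp only [sc1, sc2]; gcongr
  · rw [e]
    calc Real.exp (ζ1 + ζ2) * q.N * T = (Real.exp (ζ1 + ζ2) * T) * q.N := by ring
      _ ≤ R' * q.N := by gcongr
  · rw [e]
    calc q.N = 1 * q.N := (one_mul _).symm
      _ ≤ (R' * (Real.exp (ζ1 + ζ2) * T)) * q.N := by gcongr
      _ = _ := by ring

end Crest.Agent.R017.TP320
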