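import Crest.Agent.R017.TPD_813
import Crest.Agent.R017.TxDefs_939

/-!
# Row 17, natural → squarefree for differences of shapes (helper813)

* `w2o`, `D2` : two-piece sequence at its own scale, difference of two shapes
* `CS_D2` : `CS D2 k = Df k`
* `CS_D2_split` : the exact decomposition, common sub-shapes
* `nat_sqD` : second moment over any finite set of `k`, from the squarefree differences
* `nat_sqT` : the same for one shape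
-/

set_option autoImplicit false

noncomputable section

open Complex
open scoped ComplexConjugate

namespace Crest.Agent.R017.TPD813

open Crest.Agent.R012 Crest.Agent.R012.Eis Crest.Agent.R012.Mob705 Crest.Agent.R012.Div277
open Crest.Agent.R012.LS2 Crest.Agent.R012.Gauss880
open Crest.Agent.R012.Weight600 (osc norm_osc)
open Crest.Agent.R012.PSer47 (IsChar ang_isChar)
open Crest.Agent.R017.End699 Crest.Agent.R017.FE47 Crest.Agent.R017.Sx545 Crest.Agent.R017.B770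
open Crest.Agent.R017.Asm986 Crest.Agent.R017.PowS571 Crest.Agent.R017.Eul571
open Crest.Agent.R017.Two939 Crest.Agent.R017.TP320
open Crest.Agent.R017.CM106 (CS FS sub)

/-- the two-piece sequence at its own scale -/
def w2o (h : ℝ → ℝ) (χ : Eis → ℂ) (l : ℤ) (Y1 Y2 t1 t2 : ℝ) : Eis → ℂ :=
  conv (cfo h χ l Y1 t1) (cfo h χ l Y2 t2)

/-- difference of two shapes -/
def D2 (h : ℝ → ℝ) (χ : Eis → ℂ) (l : ℤ) (Y1 Y2 Z1 Z2 t1 t2 : ℝ) (n : Eis) : ℂ :=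
  w2o h χ l Y1 Y2 t1 t2 n - w2o h χ l Z1 Z2 t1 t2 n

lemma fs_cfo {h : ℝ → ℝ} (hh : HasCompactSupport h) (χ : Eis → ℂ) (l : ℤ) (Y t : ℝ) :
    FS (cfo h χ l Y t) where
  fin := (fs_cfa hh χ l Y t).fin.subset fun x hx h0 => hx (by
    have h0' : cfa h χ l Y t x = 0 := h0
    unfold cfo; rw [h0', mul_zero])
  prim := fun m hm => (fs_cfa hh χ l Y t).prim m (fun h0 => hm (by unfold cfo; rw [h0, mul_zero]))

lemma fs_w2o {h : ℝ → ℝ} (hh : HasCompactSupport h) (χ : Eis → ℂ) (l : ℤ) (Y1 Y2 t1 t2 : ℝ) :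
    FS (w2o h χ l Y1 Y2 t1 t2) :=
  fs_conv (fs_cfo hh χ l Y1 t1) (fs_cfo hh χ l Y2 t2)

lemma CS_cfo (h : ℝ → ℝ) (χ : Eis → ℂ) (l : ℤ) (k : Eis) (Y t : ℝ) :
    CS (cfo h χ l Y t) k = Po h χ l k Y t := by
  unfold Po
  rw [P_eq_CS]
  exact CS_smul _ _ _

lemma CS_sub_seq {a b : Eis → ℂ} (ha : FS a) (hb : FS b) (k : Eis) :
    CS (fun n => a n - b n) k = CS a k - CS b k := by
  unfold CS
  rw [← (ha.summable _).tsum_sub (hb.summable _)]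
  exact tsum_congr fun n => by ring

lemma CS_D2 {h : ℝ → ℝ} (hh : HasCompactSupport h) (χ : Eis → ℂ) (l : ℤ) (k : Eis)
    (Y1 Y2 Z1 Z2 t1 t2 : ℝ) :
    CS (D2 h χ l Y1 Y2 Z1 Z2 t1 t2) k = Df h χ l k Y1 Y2 Z1 Z2 t1 t2 := by
  have h1 := CS_sub_seq (fs_w2o hh χ l Y1 Y2 t1 t2) (fs_w2o hh χ l Z1 Z2 t1 t2) k
  have h2 : CS (D2 h χ l Y1 Y2 Z1 Z2 t1 t2) k =
      CS (w2o h χ l Y1 Y2 t1 t2) k - CS (w2o h χ l Z1 Z2 t1 t2) k := h1
  rw [h2]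
  unfold w2o Df
  rw [CS_conv (fs_cfo hh χ l Y1 t1) (fs_cfo hh χ l Y2 t2),
    CS_conv (fs_cfo hh χ l Z1 t1) (fs_cfo hh χ l Z2 t2), CS_cfo, CS_cfo, CS_cfo, CS_cfo]

/-- the scalar at the own scale -/
def go (χ : Eis → ℂ) (l : ℤ) (d : Eis) : ℂ := χ d * ang l d

lemma norm_go_le {M : Eis} {χ : Eis → ℂ} (hχ : HC M χ) (l : ℤ) {d : Eis}
    (hd : IsPrim d) : ‖go χ l d‖ ≤ 1 := by
  unfold go
  rw [norm_mul]
  have h1 := hχ.char.norm_le hd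
  have h3 : ‖ang l d‖ ≤ 1 := (ang_isChar l).norm_le hd
  calc ‖χ d‖ * ‖ang l d‖ ≤ 1 * 1 := by gcongr
    _ = 1 := by ring

lemma sub_cfo (h : ℝ → ℝ) {M : Eis} {χ : Eis → ℂ} (hχ : HC M χ) (l : ℤ) {d : Eis}
    (hd : IsPrim d) {Y : ℝ} (hY : 0 < Y) (t : ℝ) :
    sub (cfo h χ l Y t) d = fun x => go χ l d * cfo h χ l (Y / nm d) t x := by
  funext x
  have hd0 : (0 : ℝ) < nm d := by exact_mod_cast nm_pos.2 hd.ne_zero
  have h1 : cfa h χ l Y t (d * x) = gc χ l t d * cfa h χ l (Y / nm d) t x := cfa_mul hχ l hd hY t x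
  have e1 : sub (cfo h χ l Y t) d x = osc t (-Real.log Y) * cfa h χ l Y t (d * x) := rfl
  rw [e1, h1]
  unfold gc go cfo
  have e2 : osc t (-Real.log Y) * osc t (Real.log (nm d)) = osc t (-Real.log (Y / nm d)) := by
    rw [← Weight600.osc_add_right, Real.log_div hY.ne' hd0.ne']
    congr 1; ring
  rw [← e2]
  ring

/-- common support bound -/
lemma cfo_mem {h : ℝ → ℝ} {R : ℝ} (hR : ∀ u, cx h u ≠ 0 → |u| ≤ R) {χ : Eis → ℂ} {l : ℤ}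
    {Y S : ℝ} (hY : 0 < Y) (hS : Y ≤ S) {t : ℝ} {b : Eis} (hb : cfo h χ l Y t b ≠ 0) :
    b ∈ primBall ⌊Real.exp R * S⌋₊ := by
  have h1 := cfa_nm_le hR hY (right_ne_zero_of_mul hb)
  rw [mem_primBall] at h1 ⊢
  refine ⟨h1.1.trans (Nat.floor_le_floor ?_), h1.2⟩
  gcongr

lemma sq_sub_seq (q : Eis) (a b : Eis → ℂ) :
    sq q (fun n => a n - b n) = fun n => sq q a n - sq q b n := by
  funext n
  unfold TP320.sq
  split_ifs <;> simp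

lemma fs_sq {a : Eis → ℂ} (ha : FS a) (q : Eis) : FS (sq q a) where
  fin := ha.fin.subset fun n hn h0 => hn (by
    have h0' : a n = 0 := h0
    unfold TP320.sq; rw [h0']; simp)
  prim := fun m hm => ha.prim m (fun h0 => hm (by unfold TP320.sq; rw [h0]; simp))

open Classical in
/-- one shape, pieces at their own scale -/
theorem CS_w2o_split (h : ℝ → ℝ) {M : Eis} {χ : Eis → ℂ} (hχ : HC M χ) (l : ℤ) {Y1 Y2 t1 t2 : ℝ}
    (hY1 : 0 < Y1) (hY2 : 0 < Y2) {N1 N2 : ℕ} (hN1 : ∀ x, cfo h χ l Y1 t1 x ≠ 0 → x ∈ primBall N1)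
    (hN2 : ∀ x, cfo h χ l Y2 t2 x ≠ 0 → x ∈ primBall N2) (k : Eis) :
    CS (w2o h χ l Y1 Y2 t1 t2) k = ∑ u ∈ (primBall (N1 * N2)).filter Pf, ∑ d ∈ dvs u,
      (sy k u * (go χ l d * go χ l (u / d))) *
        CS (sq u (w2o h χ l (Y1 / nm d) (Y2 / nm (u / d)) t1 t2)) k := by
  unfold w2o
  rw [CS_conv_split hN1 hN2 k]
  refine Finset.sum_congr rfl fun u hu => Finset.sum_congr rfl fun d hd => ?_
  rw [Finset.mem_filter, mem_primBall] at hu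
  rw [sub_cfo h hχ l (isPrim_of_mem_dvs hd) hY1 t1, sub_cfo h hχ l (prim_div hu.1.2 hd) hY2 t2]
  have e : conv (fun x => go χ l d * cfo h χ l (Y1 / nm d) t1 x)
      (fun x => go χ l (u / d) * cfo h χ l (Y2 / nm (u / d)) t2 x) =
      fun n => (go χ l d * go χ l (u / d)) *
        conv (cfo h χ l (Y1 / nm d) t1) (cfo h χ l (Y2 / nm (u / d)) t2) n := by
    funext n
    exact conv_smul _ _ _ _ n
  rw [e, sq_smul, CS_smul]
  ring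

open Classical in
/-- **the difference of two shapes**: common sub-shapes -/
theorem CS_D2_split {h : ℝ → ℝ} (hh : HasCompactSupport h) {M : Eis} {χ : Eis → ℂ} (hχ : HC M χ)
    (l : ℤ) {Y1 Y2 Z1 Z2 t1 t2 : ℝ}
    (hY1 : 0 < Y1) (hY2 : 0 < Y2) (hZ1 : 0 < Z1) (hZ2 : 0 < Z2) {N1 N2 : ℕ}
    (hN1 : ∀ x, cfo h χ l Y1 t1 x ≠ 0 → x ∈ primBall N1)
    (hN2 : ∀ x, cfo h χ l Y2 t2 x ≠ 0 → x ∈ primBall N2)
    (hN3 : ∀ x, cfo h χ l Z1 t1 x ≠ 0 → x ∈ primBall N1)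
    (hN4 : ∀ x, cfo h χ l Z2 t2 x ≠ 0 → x ∈ primBall N2) (k : Eis) :
    CS (D2 h χ l Y1 Y2 Z1 Z2 t1 t2) k = ∑ u ∈ (primBall (N1 * N2)).filter Pf, ∑ d ∈ dvs u,
      (sy k u * (go χ l d * go χ l (u / d))) *
        CS (sq u (D2 h χ l (Y1 / nm d) (Y2 / nm (u / d)) (Z1 / nm d) (Z2 / nm (u / d)) t1 t2)) k := by
  have h1 := CS_sub_seq (fs_w2o hh χ l Y1 Y2 t1 t2) (fs_w2o hh χ l Z1 Z2 t1 t2) k
  have h2 : CS (D2 h χ l Y1 Y2 Z1 Z2 t1 t2) k =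
      CS (w2o h χ l Y1 Y2 t1 t2) k - CS (w2o h χ l Z1 Z2 t1 t2) k := h1
  rw [h2, CS_w2o_split h hχ l hY1 hY2 hN1 hN2 k, CS_w2o_split h hχ l hZ1 hZ2 hN3 hN4 k,
    ← Finset.sum_sub_distrib]
  refine Finset.sum_congr rfl fun u hu => ?_
  rw [← Finset.sum_sub_distrib]
  refine Finset.sum_congr rfl fun d hd => ?_
  rw [← mul_sub]
  congr 1
  have e1 : sq u (D2 h χ l (Y1 / nm d) (Y2 / nm (u / d)) (Z1 / nm d) (Z2 / nm (u / d)) t1 t2) =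
      fun n => sq u (w2o h χ l (Y1 / nm d) (Y2 / nm (u / d)) t1 t2) n -
        sq u (w2o h χ l (Z1 / nm d) (Z2 / nm (u / d)) t1 t2) n := sq_sub_seq _ _ _
  rw [e1, CS_sub_seq (fs_sq (fs_w2o hh χ l _ _ t1 t2) u) (fs_sq (fs_w2o hh χ l _ _ t1 t2) u)]

/-! ### the moment inequality -/

open Classical in
/-- abstract form of the Cauchy step -/
lemma sq_step {ε : ℝ} (hε : 0 < ε) : ∃ S1 : ℝ, 0 ≤ S1 ∧
    ∀ (X : ℕ) (T : Finset Eis) (F : Eis → ℂ) (G : Eis → Eis → Eis → ℂ) (cf : Eis → Eis → Eis → ℂ)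
      (A : ℝ), 0 ≤ A →
      (∀ k ∈ T, F k = ∑ u ∈ (primBall X).filter Pf, ∑ d ∈ dvs u, cf u d k * G u d k) →
      (∀ u d k, IsPrim u → d ∈ dvs u → ‖cf u d k‖ ≤ 1) →
      (∀ u d, IsPrim u → nm u ≤ X → d ∈ dvs u →
        ∑ k ∈ T, ‖G u d k‖ ^ 2 ≤ A * (nm u : ℝ)⁻¹) →
      ∑ k ∈ T, ‖F k‖ ^ 2 ≤ S1 ^ 2 * (X : ℝ) ^ ε * A := by
  obtain ⟨Ct, hCt, htau⟩ := tau_le_rpow (ε := ε / 4) (by positivity)
  obtain ⟨C1, hC1, hpf⟩ := sum_pf_le (δ := ε / 4) (by positivity)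
  set S1 := Ct * C1 with hS1
  have hS10 : 0 ≤ S1 := by positivity
  refine ⟨S1, hS10, ?_⟩
  intro X T F G cf A hA hF hcf hyp
  set I := ((primBall X).filter Pf).sigma (fun u => dvs u) with hI
  have hmemI : ∀ x ∈ I, IsPrim x.1 ∧ nm x.1 ≤ X ∧ x.2 ∈ dvs x.1 := by
    intro x hx
    rw [hI, Finset.mem_sigma, Finset.mem_filter, mem_primBall] at hx
    exact ⟨hx.1.1.2, hx.1.1.1, hx.2⟩
  have hpos : ∀ x ∈ I, (0 : ℝ) < nm x.1 := fun x hx => by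
    exact_mod_cast nm_pos.2 (hmemI x hx).1.ne_zero
  have hSum : ∑ x ∈ I, (nm x.1 : ℝ) ^ (-(1 / 2 + ε / 2)) ≤ S1 := by
    rw [hI, Finset.sum_sigma]
    calc ∑ u ∈ (primBall X).filter Pf, ∑ _d ∈ dvs u, (nm u : ℝ) ^ (-(1 / 2 + ε / 2))
        = ∑ u ∈ (primBall X).filter Pf, (tau u : ℝ) * (nm u : ℝ) ^ (-(1 / 2 + ε / 2)) := by
          refine Finset.sum_congr rfl fun u _ => ?_
          rw [Finset.sum_const, nsmul_eq_mul, tau]
      _ ≤ ∑ u ∈ (primBall X).filter Pf, Ct * (nm u : ℝ) ^ (-(1 / 2 + ε / 4)) := by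
          refine Finset.sum_le_sum fun u hu => ?_
          rw [Finset.mem_filter, mem_primBall] at hu
          have hu0 : (0 : ℝ) < nm u := by exact_mod_cast nm_pos.2 hu.1.2.ne_zero
          calc (tau u : ℝ) * (nm u : ℝ) ^ (-(1 / 2 + ε / 2))
              ≤ (Ct * (nm u : ℝ) ^ (ε / 4)) * (nm u : ℝ) ^ (-(1 / 2 + ε / 2)) := by
                have := htau u hu.1.2.ne_zero
                gcongr
            _ = Ct * (nm u : ℝ) ^ (-(1 / 2 + ε / 4)) := by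
                rw [mul_assoc, ← Real.rpow_add hu0]
                congr 2; ring
      _ = Ct * ∑ u ∈ (primBall X).filter Pf, (nm u : ℝ) ^ (-(1 / 2 + ε / 4)) := by
          rw [Finset.mul_sum]
      _ ≤ Ct * C1 := by
          have := hpf X
          gcongr
  have hpt : ∀ k ∈ T, ‖F k‖ ^ 2 ≤
      S1 * ∑ x ∈ I, (nm x.1 : ℝ) ^ (1 / 2 + ε / 2) * ‖G x.1 x.2 k‖ ^ 2 := by
    intro k hk
    rw [hF k hk, Finset.sum_sigma']
    refine (cauchy_w I (fun x => (nm x.1 : ℝ) ^ (1 / 2 + ε / 2)) (fun x hx => by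
      have := hpos x hx; positivity)
      (fun x => cf x.1 x.2 k) (fun x => G x.1 x.2 k) (fun x hx => ?_)).trans ?_
    · obtain ⟨h1, _, h3⟩ := hmemI x hx
      exact hcf _ _ _ h1 h3
    · have h1 : ∑ x ∈ I, ((nm x.1 : ℝ) ^ (1 / 2 + ε / 2))⁻¹ ≤ S1 := by
        refine le_trans (le_of_eq (Finset.sum_congr rfl fun x hx => ?_)) hSum
        rw [Real.rpow_neg (hpos x hx).le]
      have h2 : 0 ≤ ∑ x ∈ I, (nm x.1 : ℝ) ^ (1 / 2 + ε / 2) * ‖G x.1 x.2 k‖ ^ 2 :=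
        Finset.sum_nonneg fun x _ => by positivity
      gcongr
  have hVC : ∑ k ∈ T, ‖F k‖ ^ 2 ≤
      S1 * ∑ x ∈ I, (nm x.1 : ℝ) ^ (1 / 2 + ε / 2) * ∑ k ∈ T, ‖G x.1 x.2 k‖ ^ 2 := by
    refine (Finset.sum_le_sum hpt).trans (le_of_eq ?_)
    rw [← Finset.mul_sum, Finset.sum_comm]
    congr 1
    exact Finset.sum_congr rfl fun x _ => by rw [Finset.mul_sum]
  have hZle : ∀ x ∈ I, (nm x.1 : ℝ) ^ (1 / 2 + ε / 2) * ∑ k ∈ T, ‖G x.1 x.2 k‖ ^ 2 ≤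
      A * ((X : ℝ) ^ ε * (nm x.1 : ℝ) ^ (-(1 / 2 + ε / 2))) := by
    intro x hx
    obtain ⟨h1, h2, h3⟩ := hmemI x hx
    have hx0 := hpos x hx
    have hxX : (nm x.1 : ℝ) ≤ X := by exact_mod_cast h2
    have hb := hyp x.1 x.2 h1 h2 h3
    calc (nm x.1 : ℝ) ^ (1 / 2 + ε / 2) * ∑ k ∈ T, ‖G x.1 x.2 k‖ ^ 2
        ≤ (nm x.1 : ℝ) ^ (1 / 2 + ε / 2) * (A * (nm x.1 : ℝ)⁻¹) := by gcongr
      _ = A * ((nm x.1 : ℝ) ^ ε * (nm x.1 : ℝ) ^ (-(1 / 2 + ε / 2))) := by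
          rw [← Real.rpow_neg_one, ← Real.rpow_add hx0]
          have : (nm x.1 : ℝ) ^ (1 / 2 + ε / 2) * (A * (nm x.1 : ℝ) ^ (-1 : ℝ)) =
              A * ((nm x.1 : ℝ) ^ (1 / 2 + ε / 2) * (nm x.1 : ℝ) ^ (-1 : ℝ)) := by ring
          rw [this, ← Real.rpow_add hx0]
          congr 2; ring
      _ ≤ _ := by gcongr
  calc ∑ k ∈ T, ‖F k‖ ^ 2
      ≤ S1 * ∑ x ∈ I, (nm x.1 : ℝ) ^ (1 / 2 + ε / 2) * ∑ k ∈ T, ‖G x.1 x.2 k‖ ^ 2 := hVC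
    _ ≤ S1 * ∑ x ∈ I, A * ((X : ℝ) ^ ε * (nm x.1 : ℝ) ^ (-(1 / 2 + ε / 2))) :=
        mul_le_mul_of_nonneg_left (Finset.sum_le_sum hZle) hS10
    _ = S1 * (A * ((X : ℝ) ^ ε * ∑ x ∈ I, (nm x.1 : ℝ) ^ (-(1 / 2 + ε / 2)))) := by
        rw [← Finset.mul_sum, ← Finset.mul_sum]
    _ ≤ S1 * (A * ((X : ℝ) ^ ε * S1)) := by gcongr
    _ = _ := by ring

lemma nm_split {u d : Eis} (hd : d ∈ dvs u) : (nm u : ℝ) = nm d * nm (u / d) := by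
  conv_lhs => rw [← mul_div_of_mem hd, nm_mul]
  push_cast
  rfl

lemma cf_le {M : Eis} {χ : Eis → ℂ} (hχ : HC M χ) (l : ℤ) {u d : Eis} (k : Eis) (hu : IsPrim u)
    (hd : d ∈ dvs u) : ‖sy k u * (go χ l d * go χ l (u / d))‖ ≤ 1 := by
  rw [norm_mul, norm_mul]
  have a1 : ‖sy k u‖ ≤ 1 := Two939.norm_sy_le hu
  have a2 := norm_go_le hχ l (isPrim_of_mem_dvs hd)
  have a3 := norm_go_le hχ l (prim_div hu hd)
  calc ‖sy k u‖ * (‖go χ l d‖ * ‖go χ l (u / d)‖) ≤ 1 * (1 * 1) := by gcongr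
    _ = 1 := by ring

open Classical in
/-- **natural → squarefree for the difference of two shapes**, any finite set of `k`. -/
theorem nat_sqD {h : ℝ → ℝ} {c : ℝ} (hpu : PU h c) {ε : ℝ} (hε : 0 < ε) : ∃ C : ℝ, 0 < C ∧
    ∀ (M : Eis) (χ : Eis → ℂ), HC M χ → ∀ (l : ℤ) (T : Finset Eis)
      (Y1 Y2 Z1 Z2 t1 t2 A : ℝ), 0 < Y1 → 0 < Y2 → 0 < Z1 → 0 < Z2 → 0 ≤ A →
      (∀ a1 a2 : Eis, IsPrim a1 → IsPrim a2 →
        (nm (a1 * a2) : ℝ) ≤ C * (max Y1 Z1 * max Y2 Z2) →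
        ∑ k ∈ T, ‖CS (sq (a1 * a2) (D2 h χ l (Y1 / nm a1) (Y2 / nm a2) (Z1 / nm a1) (Z2 / nm a2)
          t1 t2)) k‖ ^ 2 ≤ A * (Y1 * Y2 / (nm a1 * nm a2))) →
      ∑ k ∈ T, ‖Df h χ l k Y1 Y2 Z1 Z2 t1 t2‖ ^ 2 ≤
        C * (1 + max Y1 Z1 * max Y2 Z2) ^ ε * (A * (Y1 * Y2)) := by
  obtain ⟨R, hR0, hR⟩ := exists_R (cs_cx hpu.cs)
  obtain ⟨S1, hS1, hstep⟩ := sq_step hε
  set E := Real.exp (2 * R) with hE
  have hE0 : 0 < E := Real.exp_pos _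
  refine ⟨E + S1 ^ 2 * E ^ ε + 1, by positivity, ?_⟩
  intro M χ hχ l T Y1 Y2 Z1 Z2 t1 t2 A hY1 hY2 hZ1 hZ2 hA hyp
  set m1 := max Y1 Z1 with hm1
  set m2 := max Y2 Z2 with hm2
  have hm10 : 0 < m1 := lt_max_of_lt_left hY1
  have hm20 : 0 < m2 := lt_max_of_lt_left hY2
  set N1 := ⌊Real.exp R * m1⌋₊
  set N2 := ⌊Real.exp R * m2⌋₊
  set X := N1 * N2 with hX
  have hXle : (X : ℝ) ≤ E * (m1 * m2) := by
    rw [hX]
    push_cast
    have h1 : (N1 : ℝ) ≤ Real.exp R * m1 := Nat.floor_le (by positivity)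
    have h2 : (N2 : ℝ) ≤ Real.exp R * m2 := Nat.floor_le (by positivity)
    calc (N1 : ℝ) * N2 ≤ (Real.exp R * m1) * (Real.exp R * m2) := by gcongr
      _ = (Real.exp R * Real.exp R) * (m1 * m2) := by ring
      _ = E * (m1 * m2) := by rw [← Real.exp_add, hE]; congr 2; ring
  have h0 := hstep X T (fun k => Df h χ l k Y1 Y2 Z1 Z2 t1 t2)
    (fun u d k => CS (sq u (D2 h χ l (Y1 / nm d) (Y2 / nm (u / d)) (Z1 / nm d) (Z2 / nm (u / d))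
      t1 t2)) k)
    (fun u d k => sy k u * (go χ l d * go χ l (u / d))) (A * (Y1 * Y2)) (by positivity)
    (fun k _ => by
      rw [← CS_D2 hpu.cs]
      exact CS_D2_split hpu.cs hχ l hY1 hY2 hZ1 hZ2
        (fun x hx => cfo_mem hR hY1 (le_max_left _ _) hx)
        (fun x hx => cfo_mem hR hY2 (le_max_left _ _) hx)
        (fun x hx => cfo_mem hR hZ1 (le_max_right _ _) hx)
        (fun x hx => cfo_mem hR hZ2 (le_max_right _ _) hx) k)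
    (fun u d k hu hd => cf_le hχ l k hu hd)
    (fun u d hu hn hd => by
      have hp1 := isPrim_of_mem_dvs hd
      have hp2 := prim_div hu hd
      have hn' : (nm u : ℝ) ≤ E * (m1 * m2) := le_trans (by exact_mod_cast hn) hXle
      have h1 := hyp d (u / d) hp1 hp2 (by
        rw [mul_div_of_mem hd]
        refine hn'.trans ?_
        gcongr
        have : 0 ≤ S1 ^ 2 * E ^ ε := by positivity
        linarith)
      rw [mul_div_of_mem hd] at h1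
      refine h1.trans (le_of_eq ?_)
      rw [nm_split hd]
      field_simp)
  refine h0.trans ?_
  have hX1 : (X : ℝ) ^ ε ≤ E ^ ε * (1 + m1 * m2) ^ ε := by
    rw [← Real.mul_rpow hE0.le (by positivity)]
    refine Real.rpow_le_rpow (Nat.cast_nonneg _) (hXle.trans ?_) hε.le
    gcongr
    linarith
  have hA' : 0 ≤ A * (Y1 * Y2) := by positivity
  have hP : 0 ≤ (1 + m1 * m2) ^ ε := by positivity
  calc S1 ^ 2 * (X : ℝ) ^ ε * (A * (Y1 * Y2))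
      ≤ S1 ^ 2 * (E ^ ε * (1 + m1 * m2) ^ ε) * (A * (Y1 * Y2)) := by gcongr
    _ = (S1 ^ 2 * E ^ ε) * (1 + m1 * m2) ^ ε * (A * (Y1 * Y2)) := by ring
    _ ≤ (E + S1 ^ 2 * E ^ ε + 1) * (1 + m1 * m2) ^ ε * (A * (Y1 * Y2)) := by
        gcongr
        linarith

open Classical in
/-- **natural → squarefree for one shape**, any finite set of `k`. -/
theorem nat_sqT {h : ℝ → ℝ} {c : ℝ} (hpu : PU h c) {ε : ℝ} (hε : 0 < ε) : ∃ C : ℝ, 0 < C ∧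
    ∀ (M : Eis) (χ : Eis → ℂ), HC M χ → ∀ (l : ℤ) (T : Finset Eis)
      (Y1 Y2 t1 t2 A : ℝ), 0 < Y1 → 0 < Y2 → 0 ≤ A →
      (∀ a1 a2 : Eis, IsPrim a1 → IsPrim a2 → (nm (a1 * a2) : ℝ) ≤ C * (Y1 * Y2) →
        ∑ k ∈ T, ‖CS (sq (a1 * a2) (w2 h χ l (Y1 / nm a1) (Y2 / nm a2) t1 t2)) k‖ ^ 2 ≤
          A * (Y1 * Y2 / (nm a1 * nm a2))) →
      ∑ k ∈ T, ‖P h χ l k Y1 t1‖ ^ 2 * ‖P h χ l k Y2 t2‖ ^ 2 ≤
        C * (1 + Y1 * Y2) ^ ε * (A * (Y1 * Y2)) := by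
  obtain ⟨R, hR0, hR⟩ := exists_R (cs_cx hpu.cs)
  obtain ⟨S1, hS1, hstep⟩ := sq_step hε
  set E := Real.exp (2 * R) with hE
  have hE0 : 0 < E := Real.exp_pos _
  refine ⟨E + S1 ^ 2 * E ^ ε + 1, by positivity, ?_⟩
  intro M χ hχ l T Y1 Y2 t1 t2 A hY1 hY2 hA hyp
  set N1 := ⌊Real.exp R * Y1⌋₊
  set N2 := ⌊Real.exp R * Y2⌋₊
  set X := N1 * N2 with hX
  have hXle : (X : ℝ) ≤ E * (Y1 * Y2) := by
    rw [hX]
    push_cast
    have h1 : (N1 : ℝ) ≤ Real.exp R * Y1 := Nat.floor_le (by positivity)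
    have h2 : (N2 : ℝ) ≤ Real.exp R * Y2 := Nat.floor_le (by positivity)
    calc (N1 : ℝ) * N2 ≤ (Real.exp R * Y1) * (Real.exp R * Y2) := by gcongr
      _ = (Real.exp R * Real.exp R) * (Y1 * Y2) := by ring
      _ = E * (Y1 * Y2) := by rw [← Real.exp_add, hE]; congr 2; ring
  have h0 := hstep X T (fun k => CS (w2 h χ l Y1 Y2 t1 t2) k)
    (fun u d k => CS (sq u (w2 h χ l (Y1 / nm d) (Y2 / nm (u / d)) t1 t2)) k)
    (fun u d k => sy k u * (gc χ l t1 d * gc χ l t2 (u / d))) (A * (Y1 * Y2)) (by positivity)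
    (fun k _ => CS_w2_split h hχ l hY1 hY2 (fun x hx => cfa_nm_le hR hY1 hx)
      (fun x hx => cfa_nm_le hR hY2 hx) k)
    (fun u d k hu hd => by
      rw [norm_mul, norm_mul]
      have a1 : ‖sy k u‖ ≤ 1 := Two939.norm_sy_le hu
      have a2 := norm_gc_le hχ l t1 (isPrim_of_mem_dvs hd)
      have a3 := norm_gc_le hχ l t2 (prim_div hu hd)
      calc ‖sy k u‖ * (‖gc χ l t1 d‖ * ‖gc χ l t2 (u / d)‖) ≤ 1 * (1 * 1) := by gcongr
        _ = 1 := by ring)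
    (fun u d hu hn hd => by
      have hp1 := isPrim_of_mem_dvs hd
      have hp2 := prim_div hu hd
      have hn' : (nm u : ℝ) ≤ E * (Y1 * Y2) := le_trans (by exact_mod_cast hn) hXle
      have h1 := hyp d (u / d) hp1 hp2 (by
        rw [mul_div_of_mem hd]
        refine hn'.trans ?_
        gcongr
        have : 0 ≤ S1 ^ 2 * E ^ ε := by positivity
        linarith)
      rw [mul_div_of_mem hd] at h1
      refine h1.trans (le_of_eq ?_)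
      rw [nm_split hd]
      field_simp)
  have e1 : ∑ k ∈ T, ‖P h χ l k Y1 t1‖ ^ 2 * ‖P h χ l k Y2 t2‖ ^ 2 =
      ∑ k ∈ T, ‖CS (w2 h χ l Y1 Y2 t1 t2) k‖ ^ 2 := by
    refine Finset.sum_congr rfl fun k _ => ?_
    unfold w2
    rw [CS_conv (fs_cfa hpu.cs χ l Y1 t1) (fs_cfa hpu.cs χ l Y2 t2), ← P_eq_CS, ← P_eq_CS,
      norm_mul, mul_pow]
  rw [e1]
  refine h0.trans ?_
  have hX1 : (X : ℝ) ^ ε ≤ E ^ ε * (1 + Y1 * Y2) ^ ε := by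
    rw [← Real.mul_rpow hE0.le (by positivity)]
    refine Real.rpow_le_rpow (Nat.cast_nonneg _) (hXle.trans ?_) hε.le
    gcongr
    linarith
  have hA' : 0 ≤ A * (Y1 * Y2) := by positivity
  have hP : 0 ≤ (1 + Y1 * Y2) ^ ε := by positivity
  calc S1 ^ 2 * (X : ℝ) ^ ε * (A * (Y1 * Y2))
      ≤ S1 ^ 2 * (E ^ ε * (1 + Y1 * Y2) ^ ε) * (A * (Y1 * Y2)) := by gcongr
    _ = (S1 ^ 2 * E ^ ε) * (1 + Y1 * Y2) ^ ε * (A * (Y1 * Y2)) := by ring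
    _ ≤ (E + S1 ^ 2 * E ^ ε + 1) * (1 + Y1 * Y2) ^ ε * (A * (Y1 * Y2)) := by
        gcongr
        linarith

end Crest.Agent.R017.TPD813
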