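import Crest.Agent.R017.TPEc_411
import Crest.Agent.R017.TxDefs_939

/-!
# Row 17: exceptional two-factor theorem, squarefree → natural over a subset of the `k` (helper411)

`PP_leS`, `sq_natS` : `PP_le`, `sq_nat` of TPEb/TPEc for an arbitrary finite set of `k`.
`sq_natN` : over the nonprincipal `k` (`bn`, `Wn` of TxDefs_939).
-/

set_option autoImplicit false

noncomputable section

open Complex MeasureTheory Filter Topology
open scoped ContDiff ComplexConjugate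

namespace Crest.Agent.R017.TXE411

open Crest.Agent.R012 Crest.Agent.R012.Eis Crest.Agent.R012.LS2 Crest.Agent.R012.Gauss880
open Crest.Agent.R012.Weight600 (osc norm_osc ker)
open Crest.Agent.R012.PSer47 Crest.Agent.R012.Div277 Crest.Agent.R012.Mob705
open Crest.Agent.R017.End699 Crest.Agent.R017.FE47 Crest.Agent.R017.Two939
open Crest.Agent.R017.TP320 (conv w2 VC)
open Crest.Agent.R017.CM106 (CS)
open Crest.Agent.R017.TPE411

/-- `PP_le` for an arbitrary finite set of `k` -/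
theorem PP_leS {h : ℝ → ℝ} {c : ℝ} (hpu : PU h c) (Mx : ℝ) : ∃ E C : ℝ, 1 ≤ E ∧ 0 ≤ C ∧
    ∀ (M : Eis) (χ : Eis → ℂ), HC M χ → ∀ (l : ℤ) (T : Finset Eis) (K t1 t2 A Y1 Y2 : ℝ),
      0 ≤ K → 0 < Y1 →
      0 < Y2 → 0 ≤ A →
      (∀ Z1 Z2 s1 s2 : ℝ, 1 ≤ Z1 → Z1 ≤ E * Y1 → 1 ≤ Z2 → Z2 ≤ E * Y2 →
        ∑ k ∈ T, ‖P h χ l k Z1 (t1 + s1)‖ ^ 2 * ‖P h χ l k Z2 (t2 + s2)‖ ^ 2 ≤
          A * ((1 + |s1|) * (1 + |s2|)) ^ Mx * (K * Z1 * Z2)) →
      ∑ k ∈ T, ‖P h χ l k Y1 t1‖ ^ 2 * ‖P h χ l k Y2 t2‖ ^ 2 ≤ C * A * (K * Y1 * Y2) := by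
  obtain ⟨R, hR0, hR⟩ := exists_R (cs_cx hpu.cs)
  have hc := hpu.cpos
  have hki := Weight600.ker_integrable (cd_cx hpu.cd) (cs_cx hpu.cs)
  set I0 := ∫ u, ‖ker (cx h) u‖ with hI0
  have hI0n : 0 ≤ I0 := integral_nonneg fun _ => norm_nonneg _
  set IM := ∫ u : ℝ, ‖ker (cx h) u‖ * (1 + |u|) ^ Mx with hIM
  have hIMn : 0 ≤ IM := integral_nonneg fun _ => by positivity
  have hkM := integrable_ker_rpow hpu Mx
  set W : ℝ := 4 * R / c + 1 with hW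
  have hW0 : 0 ≤ W := by positivity
  refine ⟨Real.exp (2 * R), (W * I0) * (W * I0) * (W * W) * (IM * IM) *
    (Real.exp (2 * R) * Real.exp (2 * R)), Real.one_le_exp (by positivity), by positivity, ?_⟩
  intro M χ hχ l T K t1 t2 A Y1 Y2 hK hY1 hY2 hA hyp
  obtain ⟨S1, hS1, hS1', hc1⟩ := scales hc hR0 (Real.log Y1)
  obtain ⟨S2, hS2, hS2', hc2⟩ := scales hc hR0 (Real.log Y2)
  have hsz : ∀ {Y : ℝ}, 0 < Y → ∀ n : ℕ, |c * n - Real.log Y| ≤ 2 * R →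
      1 ≤ Real.exp (c * n) ∧ Real.exp (c * n) ≤ Real.exp (2 * R) * Y := by
    intro Y hY n hn
    refine ⟨Real.one_le_exp (by positivity), ?_⟩
    have h1 := (abs_le.mp hn).2
    calc Real.exp (c * n) ≤ Real.exp (2 * R + Real.log Y) := Real.exp_le_exp.mpr (by linarith)
      _ = _ := by rw [Real.exp_add, Real.exp_log hY]
  set J1 : Eis → ℕ → ℝ := fun k n => ∫ u : ℝ, ‖ker (cx h) u‖ *
    ‖P h χ l k (Real.exp (c * n)) (t1 + u)‖ ^ 2 with hJ1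
  set J2 : Eis → ℕ → ℝ := fun k n => ∫ u : ℝ, ‖ker (cx h) u‖ *
    ‖P h χ l k (Real.exp (c * n)) (t2 + u)‖ ^ 2 with hJ2
  have hint : ∀ (k : Eis) (n : ℕ) (t : ℝ), Integrable (fun u : ℝ => ‖ker (cx h) u‖ *
      ‖P h χ l k (Real.exp (c * n)) (t + u)‖ ^ 2) := by
    intro k n t
    obtain ⟨C, hC0, hC⟩ := norm_P_bdd hpu hχ l k (Real.exp_pos (c * n))
    have hcont : Continuous fun u => P h χ l k (Real.exp (c * n)) (t + u) :=
      (continuous_P hpu.cs χ l k (Real.exp (c * n))).comp (continuous_const.add continuous_id)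
    exact hki.norm.mul_bdd (c := C ^ 2) (hcont.norm.pow 2).aestronglyMeasurable
      (Eventually.of_forall fun u => by
        rw [norm_pow, norm_norm]
        have := hC (t + u)
        gcongr)
  have hJ1n : ∀ k n, 0 ≤ J1 k n := fun k n => integral_nonneg fun _ => by positivity
  have hJ2n : ∀ k n, 0 ≤ J2 k n := fun k n => integral_nonneg fun _ => by positivity
  -- pointwise
  have hpt : ∀ k : Eis, ‖P h χ l k Y1 t1‖ ^ 2 * ‖P h χ l k Y2 t2‖ ^ 2 ≤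
      (W * I0) * (W * I0) * ∑ n1 ∈ S1, ∑ n2 ∈ S2, J1 k n1 * J2 k n2 := by
    intro k
    have a1 := P_sep_sq hpu hχ l hR S1 hS1 k t1
    have a2 := P_sep_sq hpu hχ l hR S2 hS2 k t2
    have b1 : ‖P h χ l k Y1 t1‖ ^ 2 ≤ (W * I0) * ∑ n ∈ S1, J1 k n := by
      refine a1.trans ?_
      have : 0 ≤ ∑ n ∈ S1, J1 k n := Finset.sum_nonneg fun n _ => hJ1n k n
      exact mul_le_mul_of_nonneg_right (mul_le_mul_of_nonneg_right hc1 hI0n) this
    have b2 : ‖P h χ l k Y2 t2‖ ^ 2 ≤ (W * I0) * ∑ n ∈ S2, J2 k n := by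
      refine a2.trans ?_
      have : 0 ≤ ∑ n ∈ S2, J2 k n := Finset.sum_nonneg fun n _ => hJ2n k n
      exact mul_le_mul_of_nonneg_right (mul_le_mul_of_nonneg_right hc2 hI0n) this
    calc ‖P h χ l k Y1 t1‖ ^ 2 * ‖P h χ l k Y2 t2‖ ^ 2
        ≤ ((W * I0) * ∑ n ∈ S1, J1 k n) * ((W * I0) * ∑ n ∈ S2, J2 k n) :=
          mul_le_mul b1 b2 (by positivity) ((by positivity : (0 : ℝ) ≤ _).trans b1)
      _ = (W * I0) * (W * I0) * ((∑ n ∈ S1, J1 k n) * ∑ n ∈ S2, J2 k n) := by ring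
      _ = _ := by rw [Finset.sum_mul_sum]
  -- one pair of scales
  have hpair : ∀ n1 ∈ S1, ∀ n2 ∈ S2, ∑ k ∈ T, J1 k n1 * J2 k n2 ≤
      (IM * IM) * (A * (K * Real.exp (c * n1) * Real.exp (c * n2))) := by
    intro n1 hn1 n2 hn2
    obtain ⟨p1, p2⟩ := hsz hY1 n1 (hS1' n1 hn1)
    obtain ⟨p3, p4⟩ := hsz hY2 n2 (hS2' n2 hn2)
    set B : ℝ := A * (K * Real.exp (c * n1) * Real.exp (c * n2)) with hB
    have hB0 : 0 ≤ B := by positivity
    -- inner integral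
    have hin : ∀ u : ℝ, ∑ k ∈ T, ‖P h χ l k (Real.exp (c * n1)) (t1 + u)‖ ^ 2 * J2 k n2 ≤
        (1 + |u|) ^ Mx * (IM * B) := by
      intro u
      have e1 : ∑ k ∈ T, ‖P h χ l k (Real.exp (c * n1)) (t1 + u)‖ ^ 2 * J2 k n2 =
          ∫ v : ℝ, ‖ker (cx h) v‖ * ∑ k ∈ T, ‖P h χ l k (Real.exp (c * n1)) (t1 + u)‖ ^ 2 *
            ‖P h χ l k (Real.exp (c * n2)) (t2 + v)‖ ^ 2 := by
        have e2 : ∀ k ∈ T, ‖P h χ l k (Real.exp (c * n1)) (t1 + u)‖ ^ 2 * J2 k n2 =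
            ∫ v : ℝ, ‖P h χ l k (Real.exp (c * n1)) (t1 + u)‖ ^ 2 * (‖ker (cx h) v‖ *
              ‖P h χ l k (Real.exp (c * n2)) (t2 + v)‖ ^ 2) := by
          intro k _
          rw [integral_const_mul]
        rw [Finset.sum_congr rfl e2, ← integral_finsetSum _ fun k _ => (hint k n2 t2).const_mul _]
        congr 1
        funext v
        rw [Finset.mul_sum]
        refine Finset.sum_congr rfl fun k _ => ?_
        ring
      rw [e1]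
      have e3 : (1 + |u|) ^ Mx * (IM * B) = ∫ v : ℝ, (‖ker (cx h) v‖ * (1 + |v|) ^ Mx) *
          ((1 + |u|) ^ Mx * B) := by
        rw [integral_mul_const]; ring
      rw [e3]
      apply integral_mono
      · have hh : Integrable (fun v : ℝ => ∑ k ∈ T,
            ‖P h χ l k (Real.exp (c * n1)) (t1 + u)‖ ^ 2 * (‖ker (cx h) v‖ *
              ‖P h χ l k (Real.exp (c * n2)) (t2 + v)‖ ^ 2)) :=
          integrable_finsetSum _ fun k _ => (hint k n2 t2).const_mul _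
        refine hh.congr (Eventually.of_forall fun v => ?_)
        simp only
        rw [Finset.mul_sum]
        refine Finset.sum_congr rfl fun k _ => ?_
        ring
      · exact hkM.mul_const _
      · intro v
        simp only
        have h3 := hyp _ _ u v p1 p2 p3 p4
        rw [Real.mul_rpow (by positivity) (by positivity)] at h3
        calc ‖ker (cx h) v‖ * ∑ k ∈ T, ‖P h χ l k (Real.exp (c * n1)) (t1 + u)‖ ^ 2 *
              ‖P h χ l k (Real.exp (c * n2)) (t2 + v)‖ ^ 2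
            ≤ ‖ker (cx h) v‖ * (A * ((1 + |u|) ^ Mx * (1 + |v|) ^ Mx) *
              (K * Real.exp (c * n1) * Real.exp (c * n2))) :=
              mul_le_mul_of_nonneg_left h3 (norm_nonneg _)
          _ = _ := by rw [hB]; ring
    have e1 : ∑ k ∈ T, J1 k n1 * J2 k n2 = ∫ u : ℝ, ‖ker (cx h) u‖ *
        ∑ k ∈ T, ‖P h χ l k (Real.exp (c * n1)) (t1 + u)‖ ^ 2 * J2 k n2 := by
      have e2 : ∀ k ∈ T, J1 k n1 * J2 k n2 = ∫ u : ℝ, (‖ker (cx h) u‖ *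
          ‖P h χ l k (Real.exp (c * n1)) (t1 + u)‖ ^ 2) * J2 k n2 := by
        intro k _
        rw [integral_mul_const]
      rw [Finset.sum_congr rfl e2, ← integral_finsetSum _ fun k _ => (hint k n1 t1).mul_const _]
      congr 1
      funext u
      rw [Finset.mul_sum]
      refine Finset.sum_congr rfl fun k _ => ?_
      ring
    rw [e1]
    have e3 : (IM * IM) * B = ∫ u : ℝ, (‖ker (cx h) u‖ * (1 + |u|) ^ Mx) * (IM * B) := by
      rw [integral_mul_const]; ring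
    rw [e3]
    apply integral_mono
    · have hh : Integrable (fun u : ℝ => ∑ k ∈ T, (‖ker (cx h) u‖ *
          ‖P h χ l k (Real.exp (c * n1)) (t1 + u)‖ ^ 2) * J2 k n2) :=
        integrable_finsetSum _ fun k _ => (hint k n1 t1).mul_const _
      refine hh.congr (Eventually.of_forall fun u => ?_)
      simp only
      rw [Finset.mul_sum]
      refine Finset.sum_congr rfl fun k _ => ?_
      ring
    · exact hkM.mul_const _
    · intro u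
      simp only
      rw [mul_assoc]
      exact mul_le_mul_of_nonneg_left (hin u) (norm_nonneg _)
  calc ∑ k ∈ T, ‖P h χ l k Y1 t1‖ ^ 2 * ‖P h χ l k Y2 t2‖ ^ 2
      ≤ ∑ k ∈ T, (W * I0) * (W * I0) * ∑ n1 ∈ S1, ∑ n2 ∈ S2, J1 k n1 * J2 k n2 :=
        Finset.sum_le_sum fun k _ => hpt k
    _ = (W * I0) * (W * I0) * ∑ n1 ∈ S1, ∑ n2 ∈ S2, ∑ k ∈ T, J1 k n1 * J2 k n2 := by
        rw [← Finset.mul_sum]
        congr 1
        rw [Finset.sum_comm]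
        refine Finset.sum_congr rfl fun n1 _ => ?_
        rw [Finset.sum_comm]
    _ ≤ (W * I0) * (W * I0) * ∑ _n1 ∈ S1, ∑ _n2 ∈ S2, (IM * IM) *
          (A * (K * (Real.exp (2 * R) * Y1) * (Real.exp (2 * R) * Y2))) := by
        refine mul_le_mul_of_nonneg_left ?_ (by positivity)
        refine Finset.sum_le_sum fun n1 hn1 => Finset.sum_le_sum fun n2 hn2 => ?_
        obtain ⟨_, p2⟩ := hsz hY1 n1 (hS1' n1 hn1)
        obtain ⟨_, p4⟩ := hsz hY2 n2 (hS2' n2 hn2)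
        refine (hpair n1 hn1 n2 hn2).trans ?_
        gcongr
    _ = (W * I0) * (W * I0) * ((S1.card : ℝ) * S2.card) * ((IM * IM) *
          (A * (K * (Real.exp (2 * R) * Y1) * (Real.exp (2 * R) * Y2)))) := by
        rw [Finset.sum_const, Finset.sum_const, nsmul_eq_mul, nsmul_eq_mul]; ring
    _ ≤ (W * I0) * (W * I0) * (W * W) * ((IM * IM) *
          (A * (K * (Real.exp (2 * R) * Y1) * (Real.exp (2 * R) * Y2)))) := by
        gcongr
    _ = _ := by ring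

/-- `sq_nat` for an arbitrary finite set of `k` -/
theorem sq_natS {h : ℝ → ℝ} {c : ℝ} (hpu : PU h c) {ε : ℝ} (hε : 0 < ε) (Mx : ℝ) :
    ∃ C : ℝ, 0 < C ∧ ∀ (M : Eis) (χ : Eis → ℂ), HC M χ → ∀ (l : ℤ) (T : Finset Eis) (K Z1 Z2 t1 t2 A : ℝ),
      0 < K → 0 < Z1 → 0 < Z2 → 0 ≤ A → ∀ q : Eis, q ≠ 0 →
      (∀ Z1' Z2' s1 s2 : ℝ, 1 ≤ Z1' → Z1' ≤ C * (1 + Z1) → 1 ≤ Z2' → Z2' ≤ C * (1 + Z2) →
        ∑ k ∈ T, ‖P h χ l k Z1' (t1 + s1)‖ ^ 2 * ‖P h χ l k Z2' (t2 + s2)‖ ^ 2 ≤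
          A * ((1 + |s1|) * (1 + |s2|)) ^ Mx * (K * Z1' * Z2')) →
      ∑ k ∈ T, ‖CS (TP320.sq q (w2 h χ l Z1 Z2 t1 t2)) k‖ ^ 2 ≤
        C * ((nm q : ℝ) * (1 + Z1) * (1 + Z2)) ^ ε * A * K * Z1 * Z2 := by
  obtain ⟨E, C0, hE, hC0, hPP⟩ := PP_leS hpu Mx
  obtain ⟨R, hR0, hR⟩ := exists_R (cs_cx hpu.cs)
  set δ : ℝ := ε / 10 with hδd
  have hδ : 0 < δ := by positivity
  obtain ⟨Cw, hCw, hw⟩ := sum_wt_le hδ
  set C : ℝ := C0 * (Cw ^ 2 * (Real.exp R) ^ ε) + E with hCd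
  have hCC : C0 * (Cw ^ 2 * (Real.exp R) ^ ε) ≤ C := by rw [hCd]; linarith
  have hEC : E ≤ C := by
    rw [hCd]
    have : 0 ≤ C0 * (Cw ^ 2 * (Real.exp R) ^ ε) := by positivity
    linarith
  have hC1 : 1 ≤ C := hE.trans hEC
  refine ⟨C, by linarith, fun M χ hχ l T K Z1 Z2 t1 t2 A hK hZ1 hZ2 hA q hq hyp => ?_⟩
  have hq1 : (1 : ℝ) ≤ nm q := by exact_mod_cast nm_pos.mpr hq
  -- the cut-off
  set X : ℝ := Real.exp R * ((1 + Z1) * (1 + Z2)) with hX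
  have heR : 1 ≤ Real.exp R := Real.one_le_exp hR0
  have hX1 : 1 ≤ X := by
    rw [hX]
    have : 1 ≤ (1 + Z1) * (1 + Z2) := by nlinarith
    nlinarith
  set N : ℕ := ⌊X⌋₊ with hN
  have hN1 : 1 ≤ N := Nat.le_floor (by simpa using hX1)
  have hNX : (N : ℝ) ≤ X := Nat.floor_le (by linarith)
  have hsup : ∀ {Z : ℝ}, 0 < Z → Z ≤ (1 + Z1) * (1 + Z2) → SupN (cx h) (Real.log Z) N := by
    intro Z hZ hZle
    refine supN_of hR ?_
    rw [Real.exp_add, Real.exp_log hZ]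
    calc Z * Real.exp R ≤ (1 + Z1) * (1 + Z2) * Real.exp R := by gcongr
      _ = X := by rw [hX]; ring
      _ < N + 1 := Nat.lt_floor_add_one X
  have hs1 := hsup hZ1 (by nlinarith)
  have hs2 := hsup hZ2 (by nlinarith)
  -- the individual second moments
  have hyp' : ∀ {Y1 Y2 : ℝ}, 0 < Y1 → Y1 ≤ Z1 → 0 < Y2 → Y2 ≤ Z2 →
      ∑ k ∈ T, ‖P h χ l k Y1 t1‖ ^ 2 * ‖P h χ l k Y2 t2‖ ^ 2 ≤ C0 * A * (K * Y1 * Y2) := by
    intro Y1 Y2 hY1 hY1Z hY2 hY2Z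
    refine hPP M χ hχ l T K t1 t2 A Y1 Y2 hK.le hY1 hY2 hA ?_
    intro Z1' Z2' s1 s2 a1 a2 a3 a4
    have h1 : Z1' ≤ C * (1 + Z1) := a2.trans (by
      calc E * Y1 ≤ C * Z1 := by gcongr
        _ ≤ C * (1 + Z1) := by nlinarith)
    have h2 : Z2' ≤ C * (1 + Z2) := a4.trans (by
      calc E * Y2 ≤ C * Z2 := by gcongr
        _ ≤ C * (1 + Z2) := by nlinarith)
    exact hyp Z1' Z2' s1 s2 a1 h1 a3 h2
  -- pointwise bound
  set rj : (Σ _ : Eis, (Eis × Eis) × (Eis × Eis)) → Eis → ℝ := fun j k =>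
    ‖P h χ l k (Z1 / nm (A1 j)) t1‖ * ‖P h χ l k (Z2 / nm (A2 j)) t2‖ with hrj
  have hrj0 : ∀ j k, 0 ≤ rj j k := fun j k => by positivity
  have hpt : ∀ k : Eis, ‖CS (TP320.sq q (w2 h χ l Z1 Z2 t1 t2)) k‖ ≤ ∑ j ∈ JJ q N, rj j k := by
    intro k
    rw [CS_sq_eq hpu.cs hχ l hq hs1 hs2 t1 t2 k]
    refine (norm_sum_le _ _).trans (Finset.sum_le_sum fun j hj => ?_)
    have b1 := norm_fac_le (h := h) hχ l k hZ1 t1 (isPrim_A1 hj)
    have b2 := norm_fac_le (h := h) hχ l k hZ2 t2 (isPrim_A2 hj)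
    rw [norm_mul, norm_mul]
    calc _ ≤ 1 * (‖P h χ l k (Z1 / nm (A1 j)) t1‖ * ‖P h χ l k (Z2 / nm (A2 j)) t2‖) :=
          mul_le_mul (norm_mj_le q j) (mul_le_mul b1 b2 (norm_nonneg _) (norm_nonneg _))
            (by positivity) zero_le_one
      _ = rj j k := one_mul _
  have hmom : ∀ j ∈ JJ q N, ∑ k ∈ T, rj j k ^ 2 ≤ C0 * A * (K * Z1 * Z2) * (wt j * wt j) := by
    intro j hj
    have n1 := one_le_nm (isPrim_A1 hj)
    have n2 := one_le_nm (isPrim_A2 hj)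
    have h3 := hyp' (Y1 := Z1 / nm (A1 j)) (Y2 := Z2 / nm (A2 j)) (by positivity)
      (div_le_self hZ1.le n1) (by positivity) (div_le_self hZ2.le n2)
    have e1 : ∑ k ∈ T, rj j k ^ 2 = ∑ k ∈ T,
        ‖P h χ l k (Z1 / nm (A1 j)) t1‖ ^ 2 * ‖P h χ l k (Z2 / nm (A2 j)) t2‖ ^ 2 :=
      Finset.sum_congr rfl fun k _ => by rw [hrj]; ring
    rw [e1]
    refine h3.trans (le_of_eq ?_)
    rw [wt_sq hj, mul_inv]
    have : (nm (A1 j) : ℝ) ≠ 0 := by linarith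
    have : (nm (A2 j) : ℝ) ≠ 0 := by linarith
    field_simp
  set W : ℝ := ∑ j ∈ JJ q N, wt j with hW
  have hW0 : 0 ≤ W := Finset.sum_nonneg fun j hj => (wt_pos hj).le
  have hmain : ∑ k ∈ T, ‖CS (TP320.sq q (w2 h χ l Z1 Z2 t1 t2)) k‖ ^ 2 ≤ W * (W * (C0 * A * (K * Z1 * Z2))) := by
    calc ∑ k ∈ T, ‖CS (TP320.sq q (w2 h χ l Z1 Z2 t1 t2)) k‖ ^ 2
        ≤ ∑ k ∈ T, W * ∑ j ∈ JJ q N, (wt j)⁻¹ * rj j k ^ 2 := by
          refine Finset.sum_le_sum fun k _ => ?_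
          refine (pow_le_pow_left₀ (norm_nonneg _) (hpt k) 2).trans ?_
          refine Finset.sum_sq_le_sum_mul_sum_of_sq_le_mul _ (fun j hj => (wt_pos hj).le)
            (fun j hj => ?_) fun j hj => ?_
          · have := (wt_pos hj).le
            positivity
          · have := (wt_pos hj).ne'
            rw [← mul_assoc, mul_inv_cancel₀ this, one_mul]
      _ = W * ∑ j ∈ JJ q N, (wt j)⁻¹ * ∑ k ∈ T, rj j k ^ 2 := by
          rw [← Finset.mul_sum]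
          congr 1
          rw [Finset.sum_comm]
          refine Finset.sum_congr rfl fun j _ => ?_
          rw [Finset.mul_sum]
      _ ≤ W * ∑ j ∈ JJ q N, wt j * (C0 * A * (K * Z1 * Z2)) := by
          refine mul_le_mul_of_nonneg_left (Finset.sum_le_sum fun j hj => ?_) hW0
          have hp := wt_pos hj
          calc (wt j)⁻¹ * ∑ k ∈ T, rj j k ^ 2
              ≤ (wt j)⁻¹ * (C0 * A * (K * Z1 * Z2) * (wt j * wt j)) := by
                have := hmom j hj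
                gcongr
            _ = _ := by field_simp
      _ = _ := by rw [← Finset.sum_mul]
  have hWle : W ≤ Cw * ((nm q : ℝ) ^ (2 * δ) * (N : ℝ) ^ (5 * δ)) := hw q N hq hN1
  have hN0 : (0 : ℝ) ≤ N := Nat.cast_nonneg _
  have hWW : W * W ≤ Cw ^ 2 * ((Real.exp R) ^ ε * ((nm q : ℝ) * (1 + Z1) * (1 + Z2)) ^ ε) := by
    calc W * W ≤ (Cw * ((nm q : ℝ) ^ (2 * δ) * (N : ℝ) ^ (5 * δ))) *
          (Cw * ((nm q : ℝ) ^ (2 * δ) * (N : ℝ) ^ (5 * δ))) :=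
          mul_le_mul hWle hWle hW0 (by positivity)
      _ = Cw ^ 2 * (((nm q : ℝ) ^ (2 * δ) * (nm q : ℝ) ^ (2 * δ)) *
          ((N : ℝ) ^ (5 * δ) * (N : ℝ) ^ (5 * δ))) := by ring
      _ = Cw ^ 2 * ((nm q : ℝ) ^ (4 * δ) * (N : ℝ) ^ ε) := by
          rw [← Real.rpow_add (by linarith), ← Real.rpow_add (by exact_mod_cast hN1)]
          congr 3 <;> [skip; skip]
          · ring_nf
          · rw [hδd]; ring
      _ ≤ Cw ^ 2 * ((nm q : ℝ) ^ ε * X ^ ε) := by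
          have h4 : (nm q : ℝ) ^ (4 * δ) ≤ (nm q : ℝ) ^ ε :=
            Real.rpow_le_rpow_of_exponent_le hq1 (by rw [hδd]; linarith)
          have h5 : (N : ℝ) ^ ε ≤ X ^ ε := Real.rpow_le_rpow hN0 hNX hε.le
          have h6 : 0 ≤ (nm q : ℝ) ^ ε := by positivity
          have h7 : 0 ≤ (N : ℝ) ^ ε := by positivity
          have h8 := mul_le_mul h4 h5 h7 h6
          have h9 : 0 ≤ Cw ^ 2 := by positivity
          exact mul_le_mul_of_nonneg_left h8 h9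
      _ = _ := by
          rw [hX, Real.mul_rpow (by positivity) (by positivity), mul_assoc (nm q : ℝ),
            Real.mul_rpow (x := (nm q : ℝ)) (by positivity) (by positivity)]
          ring
  calc ∑ k ∈ T, ‖CS (TP320.sq q (w2 h χ l Z1 Z2 t1 t2)) k‖ ^ 2 ≤ W * (W * (C0 * A * (K * Z1 * Z2))) := hmain
    _ = W * W * (C0 * (A * (K * Z1 * Z2))) := by ring
    _ ≤ (Cw ^ 2 * ((Real.exp R) ^ ε * ((nm q : ℝ) * (1 + Z1) * (1 + Z2)) ^ ε)) *
        (C0 * (A * (K * Z1 * Z2))) := mul_le_mul_of_nonneg_right hWW (by positivity)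
    _ = (C0 * (Cw ^ 2 * (Real.exp R) ^ ε)) *
        (((nm q : ℝ) * (1 + Z1) * (1 + Z2)) ^ ε * (A * (K * Z1 * Z2))) := by ring
    _ ≤ C * (((nm q : ℝ) * (1 + Z1) * (1 + Z2)) ^ ε * (A * (K * Z1 * Z2))) :=
        mul_le_mul_of_nonneg_right hCC (by positivity)
    _ = _ := by ring


/-- squarefree → natural over the nonprincipal `k` -/
theorem sq_natN {h : ℝ → ℝ} {c : ℝ} (hpu : PU h c) {ε : ℝ} (hε : 0 < ε) (Mx : ℝ) :
    ∃ C : ℝ, 0 < C ∧ ∀ (M : Eis) (χ : Eis → ℂ), HC M χ → ∀ (l : ℤ) (K Z1 Z2 t1 t2 A : ℝ),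
      0 < K → 0 < Z1 → 0 < Z2 → 0 ≤ A → ∀ q : Eis, q ≠ 0 →
      (∀ Z1' Z2' s1 s2 : ℝ, 1 ≤ Z1' → Z1' ≤ C * (1 + Z1) → 1 ≤ Z2' → Z2' ≤ C * (1 + Z2) →
        Wn h M χ l K Z1' Z2' (t1 + s1) (t2 + s2) ≤ A * ((1 + |s1|) * (1 + |s2|)) ^ Mx) →
      ∑ k ∈ bn M χ l K, ‖CS (TP320.sq q (w2 h χ l Z1 Z2 t1 t2)) k‖ ^ 2 ≤
        C * ((nm q : ℝ) * (1 + Z1) * (1 + Z2)) ^ ε * A * K * Z1 * Z2 := by
  obtain ⟨C, hC, hb⟩ := sq_natS hpu hε Mx
  refine ⟨C, hC, fun M χ hχ l K Z1 Z2 t1 t2 A hK hZ1 hZ2 hA q hq hyp => ?_⟩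
  refine hb M χ hχ l (bn M χ l K) K Z1 Z2 t1 t2 A hK hZ1 hZ2 hA q hq ?_
  intro Z1' Z2' s1 s2 a1 a2 a3 a4
  have h3 := hyp Z1' Z2' s1 s2 a1 a2 a3 a4
  unfold Wn at h3
  have hpos : 0 < K * Z1' * Z2' := by positivity
  rwa [div_le_iff₀ hpos] at h3

end Crest.Agent.R017.TXE411
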