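import Crest.Agent.R017.TXE1_411
import Crest.Agent.R017.TPD_813

/-!
# Row 17: exceptional two-factor theorem, squarefree → natural for shape differences (helper411)

* `w2o`, `D2`  : the two-piece sequence at its own scale, the difference of two shapes
* `CS_D2_eq`   : `CS (sq q D2) k` through natural differences `Df` (exact, pointwise in `k`)
* `sq_natD`    : the second moment over any finite set of `k`, exact sub-shapes
* `sq_natO`    : the same for one shape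
-/

set_option autoImplicit false

noncomputable section

open Complex MeasureTheory Filter Topology
open scoped ContDiff ComplexConjugate

namespace Crest.Agent.R017.TXE411

open Crest.Agent.R012 Crest.Agent.R012.Eis Crest.Agent.R012.LS2 Crest.Agent.R012.Gauss880
open Crest.Agent.R012.Weight600 (osc norm_osc ker)
open Crest.Agent.R012.PSer47 Crest.Agent.R012.Div277 Crest.Agent.R012.Mob705
open Crest.Agent.R017.End699 Crest.Agent.R017.FE47 Crest.Agent.R017.Two939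
open Crest.Agent.R017.TP320 (conv w2 VC)
open Crest.Agent.R017.CM106 (CS)
open Crest.Agent.R017.TPE411

/-- the two-piece sequence at its own scale -/
def w2o (h : ℝ → ℝ) (χ : Eis → ℂ) (l : ℤ) (Y1 Y2 t1 t2 : ℝ) : Eis → ℂ :=
  conv (cfo h χ l Y1 t1) (cfo h χ l Y2 t2)

/-- the difference of two shapes -/
def D2 (h : ℝ → ℝ) (χ : Eis → ℂ) (l : ℤ) (Y1 Y2 Z1 Z2 t1 t2 : ℝ) (n : Eis) : ℂ :=
  w2o h χ l Y1 Y2 t1 t2 n - w2o h χ l Z1 Z2 t1 t2 n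

lemma w2o_eq (h : ℝ → ℝ) (χ : Eis → ℂ) (l : ℤ) (Y1 Y2 t1 t2 : ℝ) (n : Eis) :
    w2o h χ l Y1 Y2 t1 t2 n =
      (osc t1 (-Real.log Y1) * osc t2 (-Real.log Y2)) * w2 h χ l Y1 Y2 t1 t2 n := by
  unfold w2o w2
  exact TPD813.conv_smul _ _ _ _ n

lemma fs_sq {α : Eis → ℂ} (hα : CM106.FS α) (q : Eis) : CM106.FS (TP320.sq q α) where
  fin := by
    refine hα.fin.subset fun n hn h0 => hn ?_
    unfold TP320.sq
    have h0' : α n = 0 := h0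
    rw [h0']
    split_ifs <;> rfl
  prim n hn := by
    unfold TP320.sq at hn
    by_contra h0
    apply hn
    rw [if_neg (fun h => h0 h.1)]

lemma CS_sub {α β : Eis → ℂ} (hα : CM106.FS α) (hβ : CM106.FS β) (k : Eis) :
    CS (fun n => α n - β n) k = CS α k - CS β k := by
  unfold CS
  rw [← (hα.summable _).tsum_sub (hβ.summable _)]
  exact tsum_congr fun m => by ring

lemma fs_smul {α : Eis → ℂ} (hα : CM106.FS α) (c : ℂ) : CM106.FS (fun n => c * α n) where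
  fin := by
    refine hα.fin.subset fun n hn h0 => hn ?_
    have h0' : α n = 0 := h0
    simp only [h0', mul_zero]
  prim n hn := hα.prim n (right_ne_zero_of_mul hn)

/-- the shifted factor at its own scale -/
lemma fac_own (h : ℝ → ℝ) {χ : Eis → ℂ} (l : ℤ) (k : Eis) {Y : ℝ} (hY : 0 < Y) (t : ℝ) {a : Eis}
    (ha : IsPrim a) :
    osc t (-Real.log Y) * fac (cx h) (XK χ (sy k) l) (Real.log Y) t a =
      XK χ (sy k) l a * Po h χ l k (Y / nm a) t := by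
  have h2 := one_le_nm ha
  unfold fac Po P
  rw [Real.log_div hY.ne' (by linarith)]
  have e1 : -(Real.log Y - Real.log (nm a)) = -Real.log Y + Real.log (nm a) := by ring
  rw [e1, Weight600.osc_add_right]
  ring

/-- **the exact identity** for one shape at its own scale -/
theorem CS_w2o_eq {h : ℝ → ℝ} (hh : HasCompactSupport h) {M : Eis} {χ : Eis → ℂ} (hχ : HC M χ)
    (l : ℤ) {q : Eis} (hq : q ≠ 0) {Y1 Y2 : ℝ} {N : ℕ} (hY1 : 0 < Y1) (hY2 : 0 < Y2)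
    (h1 : SupN (cx h) (Real.log Y1) N) (h2 : SupN (cx h) (Real.log Y2) N) (t1 t2 : ℝ) (k : Eis) :
    CS (TP320.sq q (w2o h χ l Y1 Y2 t1 t2)) k =
      ∑ j ∈ JJ q N, mj q j * (XK χ (sy k) l (A1 j) * XK χ (sy k) l (A2 j)) *
        (Po h χ l k (Y1 / nm (A1 j)) t1 * Po h χ l k (Y2 / nm (A2 j)) t2) := by
  have e0 : TP320.sq q (w2o h χ l Y1 Y2 t1 t2) = fun n =>
      (osc t1 (-Real.log Y1) * osc t2 (-Real.log Y2)) * TP320.sq q (w2 h χ l Y1 Y2 t1 t2) n := by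
    rw [← TPD813.sq_smul]
    congr 1
    funext n
    exact w2o_eq h χ l Y1 Y2 t1 t2 n
  rw [e0, TPD813.CS_smul, CS_sq_eq hh hχ l hq h1 h2, Finset.mul_sum]
  refine Finset.sum_congr rfl fun j hj => ?_
  have a1 := fac_own h (χ := χ) l k hY1 t1 (isPrim_A1 hj)
  have a2 := fac_own h (χ := χ) l k hY2 t2 (isPrim_A2 hj)
  calc (osc t1 (-Real.log Y1) * osc t2 (-Real.log Y2)) * (mj q j *
        (fac (cx h) (XK χ (sy k) l) (Real.log Y1) t1 (A1 j) *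
          fac (cx h) (XK χ (sy k) l) (Real.log Y2) t2 (A2 j)))
      = mj q j * ((osc t1 (-Real.log Y1) * fac (cx h) (XK χ (sy k) l) (Real.log Y1) t1 (A1 j)) *
          (osc t2 (-Real.log Y2) * fac (cx h) (XK χ (sy k) l) (Real.log Y2) t2 (A2 j))) := by
        ring
    _ = _ := by rw [a1, a2]; ring

/-- **the exact identity** for a difference of shapes -/
theorem CS_D2_eq {h : ℝ → ℝ} (hh : HasCompactSupport h) {M : Eis} {χ : Eis → ℂ} (hχ : HC M χ)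
    (l : ℤ) {q : Eis} (hq : q ≠ 0) {Y1 Y2 Z1 Z2 : ℝ} {N : ℕ} (hY1 : 0 < Y1) (hY2 : 0 < Y2)
    (hZ1 : 0 < Z1) (hZ2 : 0 < Z2) (h1 : SupN (cx h) (Real.log Y1) N)
    (h2 : SupN (cx h) (Real.log Y2) N) (h3 : SupN (cx h) (Real.log Z1) N)
    (h4 : SupN (cx h) (Real.log Z2) N) (t1 t2 : ℝ) (k : Eis) :
    CS (TP320.sq q (D2 h χ l Y1 Y2 Z1 Z2 t1 t2)) k =
      ∑ j ∈ JJ q N, mj q j * (XK χ (sy k) l (A1 j) * XK χ (sy k) l (A2 j)) *
        Df h χ l k (Y1 / nm (A1 j)) (Y2 / nm (A2 j)) (Z1 / nm (A1 j)) (Z2 / nm (A2 j)) t1 t2 := by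
  have hfs : ∀ U1 U2 : ℝ, CM106.FS (TP320.sq q (w2o h χ l U1 U2 t1 t2)) := by
    intro U1 U2
    refine fs_sq ?_ q
    have e : w2o h χ l U1 U2 t1 t2 = fun n =>
      (osc t1 (-Real.log U1) * osc t2 (-Real.log U2)) * w2 h χ l U1 U2 t1 t2 n := by
      funext n
      exact w2o_eq h χ l U1 U2 t1 t2 n
    rw [e]
    exact fs_smul (TPD813.fs_w2 hh χ l U1 U2 t1 t2) _
  have e0 : TP320.sq q (D2 h χ l Y1 Y2 Z1 Z2 t1 t2) = fun n =>
      TP320.sq q (w2o h χ l Y1 Y2 t1 t2) n - TP320.sq q (w2o h χ l Z1 Z2 t1 t2) n := by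
    funext n
    unfold TP320.sq D2
    split_ifs
    · rfl
    · rw [sub_zero]
  rw [e0, CS_sub (hfs _ _) (hfs _ _), CS_w2o_eq hh hχ l hq hY1 hY2 h1 h2,
    CS_w2o_eq hh hχ l hq hZ1 hZ2 h3 h4, ← Finset.sum_sub_distrib]
  refine Finset.sum_congr rfl fun j _ => ?_
  unfold Df
  ring

/-- Cauchy–Schwarz over the index set, summed over any finite set of `k` -/
lemma sum_JJ {q : Eis} {N : ℕ} (T : Finset Eis) (F : Eis → ℂ)
    (r : (Σ _ : Eis, (Eis × Eis) × (Eis × Eis)) → Eis → ℝ) {B : ℝ}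
    (hF : ∀ k ∈ T, ‖F k‖ ≤ ∑ j ∈ JJ q N, r j k)
    (hB : ∀ j ∈ JJ q N, ∑ k ∈ T, r j k ^ 2 ≤ B * (wt j * wt j)) :
    ∑ k ∈ T, ‖F k‖ ^ 2 ≤ (∑ j ∈ JJ q N, wt j) * (∑ j ∈ JJ q N, wt j) * B := by
  set W : ℝ := ∑ j ∈ JJ q N, wt j with hW
  have hW0 : 0 ≤ W := Finset.sum_nonneg fun j hj => (wt_pos hj).le
  calc ∑ k ∈ T, ‖F k‖ ^ 2 ≤ ∑ k ∈ T, W * ∑ j ∈ JJ q N, (wt j)⁻¹ * r j k ^ 2 := by
        refine Finset.sum_le_sum fun k hk => ?_
        refine (pow_le_pow_left₀ (norm_nonneg _) (hF k hk) 2).trans ?_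
        refine Finset.sum_sq_le_sum_mul_sum_of_sq_le_mul _ (fun j hj => (wt_pos hj).le)
          (fun j hj => ?_) fun j hj => ?_
        · have := (wt_pos hj).le
          positivity
        · have := (wt_pos hj).ne'
          rw [← mul_assoc, mul_inv_cancel₀ this, one_mul]
    _ = W * ∑ j ∈ JJ q N, (wt j)⁻¹ * ∑ k ∈ T, r j k ^ 2 := by
        rw [← Finset.mul_sum]
        congr 1
        rw [Finset.sum_comm]
        refine Finset.sum_congr rfl fun j _ => ?_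
        rw [Finset.mul_sum]
    _ ≤ W * ∑ j ∈ JJ q N, wt j * B := by
        refine mul_le_mul_of_nonneg_left (Finset.sum_le_sum fun j hj => ?_) hW0
        have hp := wt_pos hj
        calc (wt j)⁻¹ * ∑ k ∈ T, r j k ^ 2 ≤ (wt j)⁻¹ * (B * (wt j * wt j)) := by
              have := hB j hj
              gcongr
          _ = _ := by field_simp
    _ = _ := by rw [← Finset.sum_mul]; ring

lemma norm_XK_le {M : Eis} {χ : Eis → ℂ} (hχ : HC M χ) (l : ℤ) (k : Eis) {a : Eis}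
    (ha : IsPrim a) : ‖XK χ (sy k) l a‖ ≤ 1 := (isChar_XK hχ l k).norm_le ha

lemma norm_coef_le {M : Eis} {χ : Eis → ℂ} (hχ : HC M χ) (l : ℤ) (k : Eis) {q : Eis} {N : ℕ}
    {j : Σ _ : Eis, (Eis × Eis) × (Eis × Eis)} (hj : j ∈ JJ q N) :
    ‖mj q j * (XK χ (sy k) l (A1 j) * XK χ (sy k) l (A2 j))‖ ≤ 1 := by
  have h1 := norm_XK_le hχ l k (isPrim_A1 hj)
  have h2 := norm_XK_le hχ l k (isPrim_A2 hj)
  rw [norm_mul, norm_mul]
  exact mul_le_one' (norm_mj_le q j) (by positivity) (mul_le_one' h1 (norm_nonneg _) h2)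

/-- the sum of the weights at the cut-off `e^R S` -/
lemma wt_total {ε : ℝ} (hε : 0 < ε) (R : ℝ) : ∃ C : ℝ, 0 < C ∧ ∀ (q : Eis) (S : ℝ), q ≠ 0 →
    1 ≤ S → 1 ≤ ⌊Real.exp R * S⌋₊ →
    (∑ j ∈ JJ q ⌊Real.exp R * S⌋₊, wt j) * (∑ j ∈ JJ q ⌊Real.exp R * S⌋₊, wt j) ≤
      C * ((nm q : ℝ) * S) ^ ε := by
  set δ : ℝ := ε / 10 with hδd
  have hδ : 0 < δ := by positivity
  obtain ⟨Cw, hCw, hw⟩ := sum_wt_le hδ
  refine ⟨Cw ^ 2 * (Real.exp R) ^ ε + 1, by positivity, fun q S hq hS hN1 => ?_⟩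
  have hq1 : (1 : ℝ) ≤ nm q := by exact_mod_cast nm_pos.mpr hq
  have hX0 : 0 ≤ Real.exp R * S := by positivity
  set N : ℕ := ⌊Real.exp R * S⌋₊ with hN
  have hNX : (N : ℝ) ≤ Real.exp R * S := Nat.floor_le hX0
  have hN0 : (0 : ℝ) ≤ N := Nat.cast_nonneg _
  set W : ℝ := ∑ j ∈ JJ q N, wt j with hW
  have hW0 : 0 ≤ W := Finset.sum_nonneg fun j hj => (wt_pos hj).le
  have hWle : W ≤ Cw * ((nm q : ℝ) ^ (2 * δ) * (N : ℝ) ^ (5 * δ)) := hw q N hq hN1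
  calc W * W ≤ (Cw * ((nm q : ℝ) ^ (2 * δ) * (N : ℝ) ^ (5 * δ))) *
        (Cw * ((nm q : ℝ) ^ (2 * δ) * (N : ℝ) ^ (5 * δ))) :=
        mul_le_mul hWle hWle hW0 (by positivity)
    _ = Cw ^ 2 * (((nm q : ℝ) ^ (2 * δ) * (nm q : ℝ) ^ (2 * δ)) *
        ((N : ℝ) ^ (5 * δ) * (N : ℝ) ^ (5 * δ))) := by ring
    _ = Cw ^ 2 * ((nm q : ℝ) ^ (4 * δ) * (N : ℝ) ^ ε) := by
        rw [← Real.rpow_add (by linarith), ← Real.rpow_add (by exact_mod_cast hN1)]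
        congr 3 <;> [skip; skip]
        · ring_nf
        · rw [hδd]; ring
    _ ≤ Cw ^ 2 * ((nm q : ℝ) ^ ε * (Real.exp R * S) ^ ε) := by
        have h4 : (nm q : ℝ) ^ (4 * δ) ≤ (nm q : ℝ) ^ ε :=
          Real.rpow_le_rpow_of_exponent_le hq1 (by rw [hδd]; linarith)
        have h5 : (N : ℝ) ^ ε ≤ (Real.exp R * S) ^ ε := Real.rpow_le_rpow hN0 hNX hε.le
        have h6 : 0 ≤ (nm q : ℝ) ^ ε := by positivity
        have h7 : 0 ≤ (N : ℝ) ^ ε := by positivity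
        have h8 := mul_le_mul h4 h5 h7 h6
        have h9 : 0 ≤ Cw ^ 2 := by positivity
        exact mul_le_mul_of_nonneg_left h8 h9
    _ = (Cw ^ 2 * (Real.exp R) ^ ε) * ((nm q : ℝ) * S) ^ ε := by
        rw [Real.mul_rpow (by positivity) (by linarith),
          Real.mul_rpow (x := (nm q : ℝ)) (by positivity) (by linarith)]
        ring
    _ ≤ _ := by
        have : 0 ≤ ((nm q : ℝ) * S) ^ ε := by positivity
        nlinarith

/-- support at the cut-off -/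
lemma supN_cut {h : ℝ → ℝ} {R : ℝ} (hR : ∀ u, cx h u ≠ 0 → |u| ≤ R) {Z S : ℝ} (hZ : 0 < Z)
    (hZS : Z ≤ S) : SupN (cx h) (Real.log Z) ⌊Real.exp R * S⌋₊ := by
  refine supN_of hR ?_
  rw [Real.exp_add, Real.exp_log hZ]
  calc Z * Real.exp R ≤ Real.exp R * S := by
        rw [mul_comm]
        gcongr
    _ < _ := Nat.lt_floor_add_one _

lemma wt_sq' {q : Eis} {N : ℕ} {j : Σ _ : Eis, (Eis × Eis) × (Eis × Eis)} (hj : j ∈ JJ q N)
    (A Y1 Y2 : ℝ) : A * (Y1 * Y2 / (nm (A1 j) * nm (A2 j))) = A * (Y1 * Y2) * (wt j * wt j) := by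
  have n1 := one_le_nm (isPrim_A1 hj)
  have n2 := one_le_nm (isPrim_A2 hj)
  rw [wt_sq hj, mul_inv]
  have : (nm (A1 j) : ℝ) ≠ 0 := by linarith
  have : (nm (A2 j) : ℝ) ≠ 0 := by linarith
  field_simp

/-- **squarefree → natural for a difference of shapes** (exact sub-shapes, same heights) -/
theorem sq_natD {h : ℝ → ℝ} {c : ℝ} (hpu : PU h c) {ε : ℝ} (hε : 0 < ε) :
    ∃ C : ℝ, 0 < C ∧ ∀ (M : Eis) (χ : Eis → ℂ), HC M χ → ∀ (l : ℤ) (T : Finset Eis)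
      (Y1 Y2 Z1 Z2 t1 t2 A : ℝ), 0 < Y1 → 0 < Y2 → 0 < Z1 → 0 < Z2 → 0 ≤ A →
      ∀ q : Eis, q ≠ 0 →
      (∀ a1 a2 : Eis, IsPrim a1 → IsPrim a2 →
        ∑ k ∈ T, ‖Df h χ l k (Y1 / nm a1) (Y2 / nm a2) (Z1 / nm a1) (Z2 / nm a2) t1 t2‖ ^ 2 ≤
          A * (Y1 * Y2 / (nm a1 * nm a2))) →
      ∑ k ∈ T, ‖CS (TP320.sq q (D2 h χ l Y1 Y2 Z1 Z2 t1 t2)) k‖ ^ 2 ≤
        C * ((nm q : ℝ) * ((1 + Y1) * (1 + Y2) * ((1 + Z1) * (1 + Z2)))) ^ ε * A * (Y1 * Y2) := by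
  obtain ⟨R, hR0, hR⟩ := exists_R (cs_cx hpu.cs)
  obtain ⟨C, hC, hw⟩ := wt_total hε R
  refine ⟨C, hC, fun M χ hχ l T Y1 Y2 Z1 Z2 t1 t2 A hY1 hY2 hZ1 hZ2 hA q hq hyp => ?_⟩
  set S : ℝ := (1 + Y1) * (1 + Y2) * ((1 + Z1) * (1 + Z2)) with hS
  have hS1 : 1 ≤ S := by
    rw [hS]
    exact one_le_mul_of_one_le_of_one_le
      (one_le_mul_of_one_le_of_one_le (by linarith) (by linarith))
      (one_le_mul_of_one_le_of_one_le (by linarith) (by linarith))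
  have hYS : Y1 ≤ S ∧ Y2 ≤ S ∧ Z1 ≤ S ∧ Z2 ≤ S := by
    have key : ∀ a b c d : ℝ, 0 < a → 0 < b → 0 < c → 0 < d →
        a ≤ (1 + a) * (1 + b) * ((1 + c) * (1 + d)) := by
      intro a b c d ha hb hc hd
      calc a ≤ (1 + a) * 1 * (1 * 1) := by linarith
        _ ≤ (1 + a) * (1 + b) * ((1 + c) * (1 + d)) := by gcongr <;> linarith
    refine ⟨key _ _ _ _ hY1 hY2 hZ1 hZ2, ?_, ?_, ?_⟩
    · refine (key _ _ _ _ hY2 hY1 hZ1 hZ2).trans (le_of_eq ?_); rw [hS]; ring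
    · refine (key _ _ _ _ hZ1 hZ2 hY1 hY2).trans (le_of_eq ?_); rw [hS]; ring
    · refine (key _ _ _ _ hZ2 hZ1 hY1 hY2).trans (le_of_eq ?_); rw [hS]; ring
  have hN1 : 1 ≤ ⌊Real.exp R * S⌋₊ := by
    refine Nat.le_floor ?_
    have := Real.one_le_exp hR0
    push_cast
    nlinarith
  refine (sum_JJ (q := q) (N := ⌊Real.exp R * S⌋₊) T _ (fun j k =>
    ‖Df h χ l k (Y1 / nm (A1 j)) (Y2 / nm (A2 j)) (Z1 / nm (A1 j)) (Z2 / nm (A2 j)) t1 t2‖)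
    (B := A * (Y1 * Y2)) ?_ ?_).trans ?_
  · intro k _
    rw [CS_D2_eq hpu.cs hχ l hq hY1 hY2 hZ1 hZ2 (supN_cut hR hY1 hYS.1)
      (supN_cut hR hY2 hYS.2.1) (supN_cut hR hZ1 hYS.2.2.1) (supN_cut hR hZ2 hYS.2.2.2) t1 t2 k]
    refine (norm_sum_le _ _).trans (Finset.sum_le_sum fun j hj => ?_)
    rw [norm_mul]
    exact mul_le_of_le_one_left (norm_nonneg _) (norm_coef_le hχ l k hj)
  · intro j hj
    rw [← wt_sq' hj A Y1 Y2]
    exact hyp (A1 j) (A2 j) (isPrim_A1 hj) (isPrim_A2 hj)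
  · have h1 := hw q S hq hS1 hN1
    have h2 : 0 ≤ A * (Y1 * Y2) := by positivity
    calc _ ≤ C * ((nm q : ℝ) * S) ^ ε * (A * (Y1 * Y2)) := mul_le_mul_of_nonneg_right h1 h2
      _ = _ := by ring

/-- **squarefree → natural for one shape** (exact sub-shapes, same heights) -/
theorem sq_natO {h : ℝ → ℝ} {c : ℝ} (hpu : PU h c) {ε : ℝ} (hε : 0 < ε) :
    ∃ C : ℝ, 0 < C ∧ ∀ (M : Eis) (χ : Eis → ℂ), HC M χ → ∀ (l : ℤ) (T : Finset Eis)
      (Y1 Y2 t1 t2 A : ℝ), 0 < Y1 → 0 < Y2 → 0 ≤ A → ∀ q : Eis, q ≠ 0 →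
      (∀ a1 a2 : Eis, IsPrim a1 → IsPrim a2 →
        ∑ k ∈ T, ‖P h χ l k (Y1 / nm a1) t1‖ ^ 2 * ‖P h χ l k (Y2 / nm a2) t2‖ ^ 2 ≤
          A * (Y1 * Y2 / (nm a1 * nm a2))) →
      ∑ k ∈ T, ‖CS (TP320.sq q (w2o h χ l Y1 Y2 t1 t2)) k‖ ^ 2 ≤
        C * ((nm q : ℝ) * ((1 + Y1) * (1 + Y2))) ^ ε * A * (Y1 * Y2) := by
  obtain ⟨R, hR0, hR⟩ := exists_R (cs_cx hpu.cs)
  obtain ⟨C, hC, hw⟩ := wt_total hε R
  refine ⟨C, hC, fun M χ hχ l T Y1 Y2 t1 t2 A hY1 hY2 hA q hq hyp => ?_⟩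
  set S : ℝ := (1 + Y1) * (1 + Y2) with hS
  have hS1 : 1 ≤ S := one_le_mul_of_one_le_of_one_le (by linarith) (by linarith)
  have hYS1 : Y1 ≤ S := by rw [hS]; nlinarith
  have hYS2 : Y2 ≤ S := by rw [hS]; nlinarith
  have hN1 : 1 ≤ ⌊Real.exp R * S⌋₊ := by
    refine Nat.le_floor ?_
    have := Real.one_le_exp hR0
    push_cast
    nlinarith
  refine (sum_JJ (q := q) (N := ⌊Real.exp R * S⌋₊) T _ (fun j k =>
    ‖P h χ l k (Y1 / nm (A1 j)) t1‖ * ‖P h χ l k (Y2 / nm (A2 j)) t2‖)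
    (B := A * (Y1 * Y2)) ?_ ?_).trans ?_
  · intro k _
    rw [CS_w2o_eq hpu.cs hχ l hq hY1 hY2 (supN_cut hR hY1 hYS1) (supN_cut hR hY2 hYS2) t1 t2 k]
    refine (norm_sum_le _ _).trans (Finset.sum_le_sum fun j hj => ?_)
    rw [norm_mul, norm_mul (Po h χ l k _ t1), norm_Po, norm_Po]
    exact mul_le_of_le_one_left (by positivity) (norm_coef_le hχ l k hj)
  · intro j hj
    rw [← wt_sq' hj A Y1 Y2]
    refine le_trans (le_of_eq ?_) (hyp (A1 j) (A2 j) (isPrim_A1 hj) (isPrim_A2 hj))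
    exact Finset.sum_congr rfl fun k _ => by ring
  · have h1 := hw q S hq hS1 hN1
    have h2 : 0 ≤ A * (Y1 * Y2) := by positivity
    calc _ ≤ C * ((nm q : ℝ) * S) ^ ε * (A * (Y1 * Y2)) := mul_le_mul_of_nonneg_right h1 h2
      _ = _ := by ring

end Crest.Agent.R017.TXE411
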