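import Crest.Agent.R017.TXE2_411

/-!
# Row 17: exceptional two-factor theorem, nonprincipal and principal `k` together (helper411)

* `CubeB h M χ l` : the bound for a shape difference at the principal `k` (791's cube bound)
* `CubeN M χ l`   : the number of principal `k`
* `VC_D2_le`, `VC_w2o_le` : second moment over all `k` of the squarefree sequences, from `Wn`
-/

set_option autoImplicit false

noncomputable section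

open Complex MeasureTheory Filter Topology
open scoped ContDiff ComplexConjugate

namespace Crest.Agent.R017.TXE411

open Crest.Agent.R012 Crest.Agent.R012.Eis Crest.Agent.R012.LS2 Crest.Agent.R012.Gauss880
open Crest.Agent.R012.Weight600 (osc norm_osc ker)
open Crest.Agent.R012.PSer47 Crest.Agent.R012.Div277 Crest.Agent.R012.Mob705
open Crest.Agent.R017.End699 Crest.Agent.R017.FE47 Crest.Agent.R017.Two939
open Crest.Agent.R017.Sup271 (NPm)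
open Crest.Agent.R017.TP320 (conv w2 VC)
open Crest.Agent.R017.CM106 (CS)
open Crest.Agent.R017.TPE411

/-- the difference of two shapes at the principal `k` -/
def CubeB (h : ℝ → ℝ) (M : Eis) (χ : Eis → ℂ) (l : ℤ) : Prop :=
  ∀ ε : ℝ, 0 < ε → ∃ C J : ℝ, 1 ≤ C ∧ 0 ≤ J ∧ ∀ k : Eis, k ≠ 0 → ¬ NPm M χ l k →
    ∀ Y1 Y2 Z1 Z2 t1 t2 : ℝ, 0 < Y1 → 0 < Y2 → 0 < Z1 → 0 < Z2 → Y1 * Y2 = Z1 * Z2 →
      ‖Df h χ l k Y1 Y2 Z1 Z2 t1 t2‖ ≤ C * (nm k : ℝ) ^ ε * ((1 + |t1|) * (1 + |t2|)) ^ J *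
        min (Y1 * Y2) (Y1 + Y2 + Z1 + Z2)

open Classical in
/-- the principal members -/
def bp (M : Eis) (χ : Eis → ℂ) (l : ℤ) (K : ℝ) : Finset Eis :=
  (bl K).filter fun k => ¬ NPm M χ l k

/-- the number of the principal members -/
def CubeN (M : Eis) (χ : Eis → ℂ) (l : ℤ) : Prop :=
  ∃ C : ℝ, 1 ≤ C ∧ ∀ K : ℝ, 1 ≤ K → ((bp M χ l K).card : ℝ) ≤ C * K ^ (1 / 3 : ℝ)

lemma mem_bp {M : Eis} {χ : Eis → ℂ} {l : ℤ} {K : ℝ} (hK : 0 ≤ K) {k : Eis} :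
    k ∈ bp M χ l K ↔ (k ≠ 0 ∧ (nm k : ℝ) ≤ K) ∧ ¬ NPm M χ l k := by
  classical
  unfold bp
  rw [Finset.mem_filter, mem_bl hK]

lemma sum_split (M : Eis) (χ : Eis → ℂ) (l : ℤ) (K : ℝ) (f : Eis → ℝ) :
    ∑ k ∈ bl K, f k = ∑ k ∈ bn M χ l K, f k + ∑ k ∈ bp M χ l K, f k := by
  classical
  unfold bn bp
  exact (Finset.sum_filter_add_sum_filter_not (bl K) _ f).symm

/-- a difference over the nonprincipal members -/
lemma sum_bn_Df (h : ℝ → ℝ) (M : Eis) (χ : Eis → ℂ) (l : ℤ) {K Y1 Y2 Z1 Z2 t1 t2 B : ℝ}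
    (hK : 0 < K) (h1 : 0 < Y1) (h2 : 0 < Y2) (h3 : 0 < Z1) (h4 : 0 < Z2)
    (hYZ : Y1 * Y2 = Z1 * Z2) (b1 : Wn h M χ l K Y1 Y2 t1 t2 ≤ B)
    (b2 : Wn h M χ l K Z1 Z2 t1 t2 ≤ B) :
    ∑ k ∈ bn M χ l K, ‖Df h χ l k Y1 Y2 Z1 Z2 t1 t2‖ ^ 2 ≤ 4 * B * K * (Y1 * Y2) := by
  unfold Wn at b1 b2
  rw [div_le_iff₀ (by positivity)] at b1 b2
  calc ∑ k ∈ bn M χ l K, ‖Df h χ l k Y1 Y2 Z1 Z2 t1 t2‖ ^ 2
      ≤ ∑ k ∈ bn M χ l K, (2 * (‖P h χ l k Y1 t1‖ ^ 2 * ‖P h χ l k Y2 t2‖ ^ 2) +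
          2 * (‖P h χ l k Z1 t1‖ ^ 2 * ‖P h χ l k Z2 t2‖ ^ 2)) := by
        refine Finset.sum_le_sum fun k _ => ?_
        have e1 : ‖P h χ l k Y1 t1‖ ^ 2 * ‖P h χ l k Y2 t2‖ ^ 2 =
            ‖Po h χ l k Y1 t1 * Po h χ l k Y2 t2‖ ^ 2 := by
          rw [norm_mul, norm_Po, norm_Po, mul_pow]
        have e2 : ‖P h χ l k Z1 t1‖ ^ 2 * ‖P h χ l k Z2 t2‖ ^ 2 =
            ‖Po h χ l k Z1 t1 * Po h χ l k Z2 t2‖ ^ 2 := by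
          rw [norm_mul, norm_Po, norm_Po, mul_pow]
        rw [e1, e2]
        unfold Df
        set x := Po h χ l k Y1 t1 * Po h χ l k Y2 t2
        set y := Po h χ l k Z1 t1 * Po h χ l k Z2 t2
        have h0 := norm_sub_le x y
        have h9 := norm_nonneg (x - y)
        calc ‖x - y‖ ^ 2 ≤ (‖x‖ + ‖y‖) ^ 2 := by gcongr
          _ ≤ _ := by nlinarith [sq_nonneg (‖x‖ - ‖y‖)]
    _ = 2 * (∑ k ∈ bn M χ l K, ‖P h χ l k Y1 t1‖ ^ 2 * ‖P h χ l k Y2 t2‖ ^ 2) +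
          2 * (∑ k ∈ bn M χ l K, ‖P h χ l k Z1 t1‖ ^ 2 * ‖P h χ l k Z2 t2‖ ^ 2) := by
        rw [Finset.sum_add_distrib, Finset.mul_sum, Finset.mul_sum]
    _ ≤ 2 * (B * (K * Y1 * Y2)) + 2 * (B * (K * Z1 * Z2)) := by
        gcongr
    _ = 2 * (B * (K * (Y1 * Y2))) + 2 * (B * (K * (Z1 * Z2))) := by ring
    _ = _ := by rw [← hYZ]; ring

/-- a difference over the principal members -/
lemma sum_bp_Df {h : ℝ → ℝ} {M : Eis} {χ : Eis → ℂ} {l : ℤ} {Cb Jb Cn ε : ℝ} (hCb : 1 ≤ Cb)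
    (hε : 0 ≤ ε)
    (hb : ∀ k : Eis, k ≠ 0 → ¬ NPm M χ l k →
      ∀ Y1 Y2 Z1 Z2 t1 t2 : ℝ, 0 < Y1 → 0 < Y2 → 0 < Z1 → 0 < Z2 → Y1 * Y2 = Z1 * Z2 →
      ‖Df h χ l k Y1 Y2 Z1 Z2 t1 t2‖ ≤ Cb * (nm k : ℝ) ^ ε * ((1 + |t1|) * (1 + |t2|)) ^ Jb *
        min (Y1 * Y2) (Y1 + Y2 + Z1 + Z2))
    (hn : ∀ K : ℝ, 1 ≤ K → ((bp M χ l K).card : ℝ) ≤ Cn * K ^ (1 / 3 : ℝ))
    {K Y1 Y2 Z1 Z2 : ℝ} (t1 t2 : ℝ) (hK : 1 ≤ K) (h1 : 0 < Y1) (h2 : 0 < Y2) (h3 : 0 < Z1)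
    (h4 : 0 < Z2) (hYZ : Y1 * Y2 = Z1 * Z2) {p : ℝ}
    (hp : min (Y1 * Y2) (Y1 + Y2 + Z1 + Z2) ≤ p) :
    ∑ k ∈ bp M χ l K, ‖Df h χ l k Y1 Y2 Z1 Z2 t1 t2‖ ^ 2 ≤
      Cn * Cb ^ 2 * K ^ (2 * ε) * ((1 + |t1|) * (1 + |t2|)) ^ (2 * Jb) * K ^ (1 / 3 : ℝ) * p *
        (Y1 * Y2) := by
  have hK0 : 0 < K := by linarith
  set T : ℝ := (1 + |t1|) * (1 + |t2|) with hT
  have hT0 : 0 < T := by positivity
  set m : ℝ := min (Y1 * Y2) (Y1 + Y2 + Z1 + Z2) with hm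
  have hm0 : 0 < m := by
    rw [hm]
    exact lt_min (by positivity) (by positivity)
  have hmN : m ≤ Y1 * Y2 := min_le_left _ _
  have hpt : ∀ k ∈ bp M χ l K, ‖Df h χ l k Y1 Y2 Z1 Z2 t1 t2‖ ^ 2 ≤
      (Cb * K ^ ε * T ^ Jb) ^ 2 * (p * (Y1 * Y2)) := by
    intro k hk
    rw [mem_bp hK0.le] at hk
    have h5 := hb k hk.1.1 hk.2 Y1 Y2 Z1 Z2 t1 t2 h1 h2 h3 h4 hYZ
    have h6 : (nm k : ℝ) ^ ε ≤ K ^ ε := Real.rpow_le_rpow (by positivity) hk.1.2 hε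
    have h7 : ‖Df h χ l k Y1 Y2 Z1 Z2 t1 t2‖ ≤ Cb * K ^ ε * T ^ Jb * m := by
      refine h5.trans ?_
      gcongr
    calc ‖Df h χ l k Y1 Y2 Z1 Z2 t1 t2‖ ^ 2 ≤ (Cb * K ^ ε * T ^ Jb * m) ^ 2 := by gcongr
      _ = (Cb * K ^ ε * T ^ Jb) ^ 2 * (m * m) := by ring
      _ ≤ (Cb * K ^ ε * T ^ Jb) ^ 2 * (p * (Y1 * Y2)) := by
          have : 0 ≤ p := hm0.le.trans hp
          gcongr
  have hp0 : 0 ≤ p := hm0.le.trans hp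
  calc ∑ k ∈ bp M χ l K, ‖Df h χ l k Y1 Y2 Z1 Z2 t1 t2‖ ^ 2
      ≤ ∑ _k ∈ bp M χ l K, (Cb * K ^ ε * T ^ Jb) ^ 2 * (p * (Y1 * Y2)) :=
        Finset.sum_le_sum hpt
    _ = (bp M χ l K).card * ((Cb * K ^ ε * T ^ Jb) ^ 2 * (p * (Y1 * Y2))) := by
        rw [Finset.sum_const, nsmul_eq_mul]
    _ ≤ (Cn * K ^ (1 / 3 : ℝ)) * ((Cb * K ^ ε * T ^ Jb) ^ 2 * (p * (Y1 * Y2))) := by
        have := hn K hK
        gcongr
    _ = _ := by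
        have e1 : K ^ (2 * ε) = (K ^ ε) ^ 2 := by
          rw [← Real.rpow_natCast, ← Real.rpow_mul hK0.le]; congr 1; push_cast; ring
        have e2 : T ^ (2 * Jb) = (T ^ Jb) ^ 2 := by
          rw [← Real.rpow_natCast, ← Real.rpow_mul hT0.le]; congr 1; push_cast; ring
        rw [e1, e2]
        ring

/-- **all `k`, a difference of shapes** -/
theorem VC_D2_le {h : ℝ → ℝ} {c : ℝ} (hpu : PU h c) {M : Eis} {χ : Eis → ℂ} (hχ : HC M χ) (l : ℤ)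
    (hB : CubeB h M χ l) (hN : CubeN M χ l) {ε : ℝ} (hε : 0 < ε) :
    ∃ C J : ℝ, 1 ≤ C ∧ 0 ≤ J ∧ ∀ (K Y1 Y2 Z1 Z2 t1 t2 B : ℝ), 1 ≤ K → 0 < Y1 → 0 < Y2 →
      0 < Z1 → 0 < Z2 → Y1 * Y2 = Z1 * Z2 → 0 ≤ B → ∀ q : Eis, q ≠ 0 →
      (∀ a1 a2 : Eis, IsPrim a1 → IsPrim a2 →
        Wn h M χ l K (Y1 / nm a1) (Y2 / nm a2) t1 t2 ≤ B ∧
        Wn h M χ l K (Z1 / nm a1) (Z2 / nm a2) t1 t2 ≤ B) →
      VC K (TP320.sq q (D2 h χ l Y1 Y2 Z1 Z2 t1 t2)) ≤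
        C * (K * nm q * ((1 + Y1) * (1 + Y2) * ((1 + Z1) * (1 + Z2)))) ^ ε *
          (B + ((1 + |t1|) * (1 + |t2|)) ^ J * K ^ (-(2 / 3) : ℝ) *
            min (Y1 * Y2) (Y1 + Y2 + Z1 + Z2)) * (K * (Y1 * Y2)) := by
  obtain ⟨Cb, Jb, hCb, hJb, hb⟩ := hB (ε / 2) (by positivity)
  obtain ⟨Cn, hCn, hn⟩ := hN
  obtain ⟨C0, hC0, hs⟩ := sq_natD hpu hε
  refine ⟨(C0 + 1) * (4 + Cn * Cb ^ 2), 2 * Jb, ?_, by positivity, ?_⟩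
  · have h1 : 1 ≤ C0 + 1 := by linarith
    have h2 : 0 ≤ Cn * Cb ^ 2 := by positivity
    nlinarith
  intro K Y1 Y2 Z1 Z2 t1 t2 B hK hY1 hY2 hZ1 hZ2 hYZ hB0 q hq hyp
  have hK0 : 0 < K := by linarith
  have hq1 : (1 : ℝ) ≤ nm q := by exact_mod_cast nm_pos.mpr hq
  set T : ℝ := (1 + |t1|) * (1 + |t2|) with hT
  have hT0 : 0 < T := by positivity
  set p : ℝ := min (Y1 * Y2) (Y1 + Y2 + Z1 + Z2) with hp
  have hp0 : 0 < p := by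
    rw [hp]; exact lt_min (by positivity) (by positivity)
  set S : ℝ := (1 + Y1) * (1 + Y2) * ((1 + Z1) * (1 + Z2)) with hS
  have hS1 : 1 ≤ S := by
    rw [hS]
    exact one_le_mul_of_one_le_of_one_le
      (one_le_mul_of_one_le_of_one_le (by linarith) (by linarith))
      (one_le_mul_of_one_le_of_one_le (by linarith) (by linarith))
  set A : ℝ := (4 + Cn * Cb ^ 2) * K ^ ε * (B * K + T ^ (2 * Jb) * K ^ (1 / 3 : ℝ) * p) with hA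
  have hA0 : 0 ≤ A := by positivity
  have hKe : 1 ≤ K ^ ε := Real.one_le_rpow hK hε.le
  have h1 : ∑ k ∈ bl K, ‖CS (TP320.sq q (D2 h χ l Y1 Y2 Z1 Z2 t1 t2)) k‖ ^ 2 ≤
      C0 * ((nm q : ℝ) * S) ^ ε * A * (Y1 * Y2) := by
    refine hs M χ hχ l (bl K) Y1 Y2 Z1 Z2 t1 t2 A hY1 hY2 hZ1 hZ2 hA0 q hq ?_
    intro a1 a2 p1 p2
    have n1 := one_le_nm p1
    have n2 := one_le_nm p2
    have g1 : 0 < (nm a1 : ℝ) := by linarith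
    have g2 : 0 < (nm a2 : ℝ) := by linarith
    have hYZ' : Y1 / nm a1 * (Y2 / nm a2) = Z1 / nm a1 * (Z2 / nm a2) := by
      rw [div_mul_div_comm, div_mul_div_comm, hYZ]
    have eN : Y1 / nm a1 * (Y2 / nm a2) = Y1 * Y2 / (nm a1 * nm a2) := by
      rw [div_mul_div_comm]
    obtain ⟨b1, b2⟩ := hyp a1 a2 p1 p2
    rw [sum_split M χ l K, ← eN]
    have hmin : min (Y1 / nm a1 * (Y2 / nm a2)) (Y1 / nm a1 + Y2 / nm a2 + Z1 / nm a1 +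
        Z2 / nm a2) ≤ p := by
      rw [hp]
      refine min_le_min ?_ ?_
      · have e1 := div_le_self hY1.le n1
        have e2 := div_le_self hY2.le n2
        gcongr
      · have e1 := div_le_self hY1.le n1
        have e2 := div_le_self hY2.le n2
        have e3 := div_le_self hZ1.le n1
        have e4 := div_le_self hZ2.le n2
        linarith
    have s1 := sum_bn_Df h M χ l (t1 := t1) (t2 := t2) hK0 (div_pos hY1 g1) (div_pos hY2 g2)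
      (div_pos hZ1 g1) (div_pos hZ2 g2) hYZ' b1 b2
    have s2 := sum_bp_Df hCb (by positivity : (0 : ℝ) ≤ ε / 2) hb hn t1 t2 hK (div_pos hY1 g1)
      (div_pos hY2 g2) (div_pos hZ1 g1) (div_pos hZ2 g2) hYZ' hmin
    have e5 : K ^ (2 * (ε / 2)) = K ^ ε := by congr 1; ring
    rw [e5] at s2
    refine (add_le_add s1 s2).trans ?_
    rw [hA]
    set N' : ℝ := Y1 / nm a1 * (Y2 / nm a2) with hN'
    have hN0 : 0 ≤ N' := by positivity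
    have k1 : 4 * B * K * N' ≤ 4 * K ^ ε * (B * K) * N' := by
      have : 0 ≤ 4 * B * K * N' := by positivity
      calc 4 * B * K * N' = 4 * 1 * (B * K) * N' := by ring
        _ ≤ _ := by gcongr
    have z1 : 0 ≤ 4 * K ^ ε * (T ^ (2 * Jb) * K ^ (1 / 3 : ℝ) * p) * N' := by positivity
    have z2 : 0 ≤ Cn * Cb ^ 2 * K ^ ε * (B * K) * N' := by positivity
    calc 4 * B * K * N' + Cn * Cb ^ 2 * K ^ ε * T ^ (2 * Jb) * K ^ (1 / 3 : ℝ) * p * N'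
        ≤ 4 * K ^ ε * (B * K) * N' +
          Cn * Cb ^ 2 * K ^ ε * T ^ (2 * Jb) * K ^ (1 / 3 : ℝ) * p * N' := by linarith
      _ ≤ 4 * K ^ ε * (B * K) * N' +
          Cn * Cb ^ 2 * K ^ ε * T ^ (2 * Jb) * K ^ (1 / 3 : ℝ) * p * N' +
          (4 * K ^ ε * (T ^ (2 * Jb) * K ^ (1 / 3 : ℝ) * p) * N' +
            Cn * Cb ^ 2 * K ^ ε * (B * K) * N') := by linarith
      _ = _ := by ring
  unfold VC
  refine h1.trans ?_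
  have e6 : (K * nm q * S) ^ ε = K ^ ε * ((nm q : ℝ) * S) ^ ε := by
    rw [mul_assoc, Real.mul_rpow hK0.le (by positivity)]
  have e7 : K ^ (1 / 3 : ℝ) = K ^ (-(2 / 3) : ℝ) * K := by
    nth_rewrite 3 [← Real.rpow_one K]
    rw [← Real.rpow_add hK0]
    norm_num
  rw [e6, hA, e7]
  have hfac : 0 ≤ (4 + Cn * Cb ^ 2) * K ^ ε * ((nm q : ℝ) * S) ^ ε *
      (B * K + T ^ (2 * Jb) * (K ^ (-(2 / 3) : ℝ) * K) * p) * (Y1 * Y2) := by positivity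
  calc C0 * ((nm q : ℝ) * S) ^ ε * ((4 + Cn * Cb ^ 2) * K ^ ε *
        (B * K + T ^ (2 * Jb) * (K ^ (-(2 / 3) : ℝ) * K) * p)) * (Y1 * Y2)
      = C0 * ((4 + Cn * Cb ^ 2) * K ^ ε * ((nm q : ℝ) * S) ^ ε *
      (B * K + T ^ (2 * Jb) * (K ^ (-(2 / 3) : ℝ) * K) * p) * (Y1 * Y2)) := by ring
    _ ≤ (C0 + 1) * ((4 + Cn * Cb ^ 2) * K ^ ε * ((nm q : ℝ) * S) ^ ε *
      (B * K + T ^ (2 * Jb) * (K ^ (-(2 / 3) : ℝ) * K) * p) * (Y1 * Y2)) := by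
        apply mul_le_mul_of_nonneg_right _ hfac
        linarith
    _ = _ := by ring

/-- **all `k`, one shape** -/
theorem VC_w2o_le {h : ℝ → ℝ} {c : ℝ} (hpu : PU h c) {M : Eis} {χ : Eis → ℂ} (hχ : HC M χ) (l : ℤ)
    (hN : CubeN M χ l) {ε : ℝ} (hε : 0 < ε) :
    ∃ C : ℝ, 1 ≤ C ∧ ∀ (K Y1 Y2 t1 t2 B : ℝ), 1 ≤ K → 0 < Y1 → 0 < Y2 → 0 ≤ B →
      ∀ q : Eis, q ≠ 0 →
      (∀ a1 a2 : Eis, IsPrim a1 → IsPrim a2 →
        Wn h M χ l K (Y1 / nm a1) (Y2 / nm a2) t1 t2 ≤ B) →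
      VC K (TP320.sq q (w2o h χ l Y1 Y2 t1 t2)) ≤
        C * ((nm q : ℝ) * ((1 + Y1) * (1 + Y2))) ^ ε *
          (B + K ^ (-(2 / 3) : ℝ) * (Y1 * Y2)) * (K * (Y1 * Y2)) := by
  obtain ⟨Cn, hCn, hn⟩ := hN
  obtain ⟨C0, hC0, hs⟩ := sq_natO hpu hε
  obtain ⟨Cp, hCp, hP⟩ := norm_P_le hpu
  refine ⟨(C0 + 1) * (1 + Cn * Cp ^ 4), ?_, ?_⟩
  · have h1 : 1 ≤ C0 + 1 := by linarith
    have h2 : 0 ≤ Cn * Cp ^ 4 := by positivity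
    nlinarith
  intro K Y1 Y2 t1 t2 B hK hY1 hY2 hB0 q hq hyp
  have hK0 : 0 < K := by linarith
  have hq1 : (1 : ℝ) ≤ nm q := by exact_mod_cast nm_pos.mpr hq
  set A : ℝ := (1 + Cn * Cp ^ 4) * (B * K + K ^ (1 / 3 : ℝ) * (Y1 * Y2)) with hA
  have hA0 : 0 ≤ A := by positivity
  have h1 : ∑ k ∈ bl K, ‖CS (TP320.sq q (w2o h χ l Y1 Y2 t1 t2)) k‖ ^ 2 ≤
      C0 * ((nm q : ℝ) * ((1 + Y1) * (1 + Y2))) ^ ε * A * (Y1 * Y2) := by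
    refine hs M χ hχ l (bl K) Y1 Y2 t1 t2 A hY1 hY2 hA0 q hq ?_
    intro a1 a2 p1 p2
    have n1 := one_le_nm p1
    have n2 := one_le_nm p2
    have g1 : 0 < (nm a1 : ℝ) := by linarith
    have g2 : 0 < (nm a2 : ℝ) := by linarith
    have eN : Y1 / nm a1 * (Y2 / nm a2) = Y1 * Y2 / (nm a1 * nm a2) := by
      rw [div_mul_div_comm]
    have b1 := hyp a1 a2 p1 p2
    unfold Wn at b1
    rw [div_le_iff₀ (by positivity)] at b1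
    rw [sum_split M χ l K, ← eN]
    set N' : ℝ := Y1 / nm a1 * (Y2 / nm a2) with hN'
    have hN0 : 0 ≤ N' := by positivity
    have hNN : N' ≤ Y1 * Y2 := by
      have e1 := div_le_self hY1.le n1
      have e2 := div_le_self hY2.le n2
      rw [hN']
      gcongr
    have s2 : ∑ k ∈ bp M χ l K, ‖P h χ l k (Y1 / nm a1) t1‖ ^ 2 *
        ‖P h χ l k (Y2 / nm a2) t2‖ ^ 2 ≤ Cn * Cp ^ 4 * K ^ (1 / 3 : ℝ) * (Y1 * Y2) * N' := by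
      calc ∑ k ∈ bp M χ l K, ‖P h χ l k (Y1 / nm a1) t1‖ ^ 2 *
            ‖P h χ l k (Y2 / nm a2) t2‖ ^ 2
          ≤ ∑ _k ∈ bp M χ l K, (Cp * (Y1 / nm a1)) ^ 2 * (Cp * (Y2 / nm a2)) ^ 2 := by
            refine Finset.sum_le_sum fun k _ => ?_
            have c1 := hP M χ hχ l k (Y1 / nm a1) t1 (div_pos hY1 g1)
            have c2 := hP M χ hχ l k (Y2 / nm a2) t2 (div_pos hY2 g2)
            gcongr
        _ = (bp M χ l K).card * (Cp ^ 4 * (N' * N')) := by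
            rw [Finset.sum_const, nsmul_eq_mul, hN']; ring
        _ ≤ (Cn * K ^ (1 / 3 : ℝ)) * (Cp ^ 4 * ((Y1 * Y2) * N')) := by
            have := hn K hK
            gcongr
        _ = _ := by ring
    have s1 : ∑ k ∈ bn M χ l K, ‖P h χ l k (Y1 / nm a1) t1‖ ^ 2 *
        ‖P h χ l k (Y2 / nm a2) t2‖ ^ 2 ≤ B * K * N' := by
      refine b1.trans (le_of_eq ?_)
      rw [hN']; ring
    refine (add_le_add s1 s2).trans ?_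
    rw [hA]
    have z1 : 0 ≤ K ^ (1 / 3 : ℝ) * (Y1 * Y2) * N' := by positivity
    have z2 : 0 ≤ Cn * Cp ^ 4 * (B * K) * N' := by positivity
    calc B * K * N' + Cn * Cp ^ 4 * K ^ (1 / 3 : ℝ) * (Y1 * Y2) * N'
        ≤ B * K * N' + Cn * Cp ^ 4 * K ^ (1 / 3 : ℝ) * (Y1 * Y2) * N' +
          (K ^ (1 / 3 : ℝ) * (Y1 * Y2) * N' + Cn * Cp ^ 4 * (B * K) * N') := by linarith
      _ = _ := by ring
  unfold VC
  refine h1.trans ?_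
  have e7 : K ^ (1 / 3 : ℝ) = K ^ (-(2 / 3) : ℝ) * K := by
    nth_rewrite 3 [← Real.rpow_one K]
    rw [← Real.rpow_add hK0]
    norm_num
  rw [hA, e7]
  have hfac : 0 ≤ (1 + Cn * Cp ^ 4) * ((nm q : ℝ) * ((1 + Y1) * (1 + Y2))) ^ ε *
      (B * K + K ^ (-(2 / 3) : ℝ) * K * (Y1 * Y2)) * (Y1 * Y2) := by positivity
  calc C0 * ((nm q : ℝ) * ((1 + Y1) * (1 + Y2))) ^ ε * ((1 + Cn * Cp ^ 4) *
        (B * K + K ^ (-(2 / 3) : ℝ) * K * (Y1 * Y2))) * (Y1 * Y2)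
      = C0 * ((1 + Cn * Cp ^ 4) * ((nm q : ℝ) * ((1 + Y1) * (1 + Y2))) ^ ε *
      (B * K + K ^ (-(2 / 3) : ℝ) * K * (Y1 * Y2)) * (Y1 * Y2)) := by ring
    _ ≤ (C0 + 1) * ((1 + Cn * Cp ^ 4) * ((nm q : ℝ) * ((1 + Y1) * (1 + Y2))) ^ ε *
      (B * K + K ^ (-(2 / 3) : ℝ) * K * (Y1 * Y2)) * (Y1 * Y2)) := by
        apply mul_le_mul_of_nonneg_right _ hfac
        linarith
    _ = _ := by ring

end Crest.Agent.R017.TXE411
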