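import Crest.Agent.R017.TXE3_411
import Crest.Agent.R017.TXC2_791
import Crest.Agent.R017.TX4_939
import Crest.Agent.R017.GR3_106

/-!
# Row 17: exceptional two-factor theorem, `PoisG` (1): bridges (helper411)

* `cubeB`, `cubeN` : `CubeB`, `CubeN` hold
* `VC_gen`         : the second moment of `dw` (difference or single shape) from `Wn`
* `VG_gen`         : `tdc` through `VG` of `dw`
-/

set_option autoImplicit false

noncomputable section

open Complex MeasureTheory Filter Topology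
open scoped ContDiff ComplexConjugate

namespace Crest.Agent.R017.TXG411

open Crest.Agent.R012 Crest.Agent.R012.Eis Crest.Agent.R012.LS2 Crest.Agent.R012.Gauss880
open Crest.Agent.R012.Weight600 (osc norm_osc ker)
open Crest.Agent.R012.PSer47 Crest.Agent.R012.Div277
open Crest.Agent.R017.End699 Crest.Agent.R017.FE47
open Crest.Agent.R017.Two939 (Wn Wd W2 T2 Td Df TDf Po cfo cfa)
open Crest.Agent.R017.Sup271 (NPm)
open Crest.Agent.R017.TP320 (conv VC VG dw co df DG TGo DI)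
open Crest.Agent.R017.CM106 (CS TG)
open Crest.Agent.R017.TXE411 (CubeB CubeN bp w2o D2)
open Crest.Agent.R017.TXC791 (wdc tdc PoisG)
open Crest.Agent.R017.TwoEx791 (Qd)

/-- the cube bound -/
theorem cubeB {h : ℝ → ℝ} {c : ℝ} (hpu : PU h c) {M : Eis} {χ : Eis → ℂ} (hχ : HC M χ) (l : ℤ) :
    CubeB h M χ l := by
  intro ε hε
  obtain ⟨C, hC1, hC⟩ := TXC791.Df_le hpu hε
  have hM := hχ.q0
  have hM1 : (1 : ℝ) ≤ nm M := by exact_mod_cast nm_pos.mpr hM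
  refine ⟨C * (nm M : ℝ) ^ ε, 3, ?_, by norm_num, ?_⟩
  · have h1 : 1 ≤ (nm M : ℝ) ^ ε := Real.one_le_rpow hM1 hε.le
    nlinarith
  intro k hk hp Y1 Y2 Z1 Z2 t1 t2 h1 h2 h3 h4 hYZ
  have := hC M χ hχ l k hk hp Y1 Y2 Z1 Z2 t1 t2 h1 h2 h3 h4 hYZ
  refine this.trans (le_of_eq ?_)
  unfold TXC791.sk
  have e1 : ((1 + |t1|) * (1 + |t2|)) ^ (3 : ℝ) = ((1 + |t1|) * (1 + |t2|)) ^ 3 := by
    rw [← Real.rpow_natCast]; norm_num
  rw [e1, Real.mul_rpow (by positivity) (by positivity)]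
  ring

/-- the number of the principal members -/
theorem cubeN {M : Eis} {χ : Eis → ℂ} (hχ : HC M χ) (l : ℤ) : CubeN M χ l := by
  refine ⟨18, by norm_num, fun K hK => ?_⟩
  have hK0 : 0 ≤ K := by linarith
  refine TXC791.card_prin hχ l hK0 _ fun k hk => ?_
  rw [TXE411.mem_bp hK0] at hk
  exact ⟨(mem_bl hK0).2 hk.1, hk.2⟩

lemma co_cfo (h : ℝ → ℝ) (χ : Eis → ℂ) (l : ℤ) {Y : ℝ} (hY : 0 < Y) (t : ℝ) :
    co h χ l (Real.log Y) t = cfo h χ l Y t := by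
  funext b
  unfold cfo
  rw [TP320.co_eq, Real.exp_log hY]

lemma co_exp (h : ℝ → ℝ) (χ : Eis → ℂ) (l : ℤ) (y t : ℝ) :
    co h χ l y t = cfo h χ l (Real.exp y) t := by
  rw [← co_cfo h χ l (Real.exp_pos y) t, Real.log_exp]

lemma dw_D2 (h : ℝ → ℝ) (χ : Eis → ℂ) (l : ℤ) (z1 z2 δ t1 t2 : ℝ) :
    dw h χ l z1 z2 δ t1 t2 = D2 h χ l (Real.exp z1) (Real.exp z2) (Real.exp (z1 + δ))
      (Real.exp (z2 - δ)) t1 t2 := by
  funext n
  unfold dw D2 w2o
  rw [co_exp, co_exp, co_exp, co_exp]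

/-- a piece of negative length vanishes -/
lemma co_neg {h : ℝ → ℝ} {χ : Eis → ℂ} {l : ℤ} {R : ℝ} (hR : ∀ u, cx h u ≠ 0 → |u| ≤ R)
    {y t : ℝ} (hy : y < -R) (b : Eis) : co h χ l y t b = 0 := by
  by_contra h0
  have hb : IsPrim b := by by_contra h1; exact h0 (TP320.co_prim h1)
  have h2 := TP320.co_supp hR h0
  have h3 : 0 ≤ Real.log (nm b) := TP320.log_nm_nonneg' hb
  rw [abs_le] at h2
  linarith [h2.2]

lemma conv_zero_left (f : Eis → ℂ) {g : Eis → ℂ} (hg : ∀ b, g b = 0) (n : Eis) :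
    conv g f n = 0 := by
  unfold conv
  exact Finset.sum_eq_zero fun d _ => by rw [hg, zero_mul]

lemma dw_w2o {h : ℝ → ℝ} {χ : Eis → ℂ} {l : ℤ} {R : ℝ} (hR : ∀ u, cx h u ≠ 0 → |u| ≤ R)
    {z1 z2 δ t1 t2 : ℝ} (hδ : z1 + δ < -R) :
    dw h χ l z1 z2 δ t1 t2 = w2o h χ l (Real.exp z1) (Real.exp z2) t1 t2 := by
  funext n
  unfold dw w2o
  rw [conv_zero_left _ (co_neg hR hδ) n, sub_zero, co_exp, co_exp]

/-- the shape difference of the parameter of the family -/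
def dl (R : ℝ) (o : Bool) (q : Qd) : ℝ :=
  if o = true then Real.log q.Z1 - Real.log q.Y1 else -Real.log q.Y1 - R

lemma TGo_neg {h : ℝ → ℝ} {χ : Eis → ℂ} {l : ℤ} {R : ℝ} (hR : ∀ u, cx h u ≠ 0 → |u| ≤ R)
    (k : Eis) {y1 y2 t1 t2 : ℝ} (hy : y1 < -R) : TGo h χ l k y1 y2 t1 t2 = 0 := by
  unfold TGo TP320.tgo
  simp only [co_neg hR hy, zero_mul, tsum_zero]

/-- the functional `tdc` through `VG` of the family -/
theorem VG_gen {h : ℝ → ℝ} (hh : HasCompactSupport h) (χ : Eis → ℂ) (l : ℤ) {R : ℝ}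
    (hR : ∀ u, cx h u ≠ 0 → |u| ≤ R) {R' : ℝ} (hR' : R < R') (o : Bool) (L : ℝ) {q : Qd}
    (hq : q.Ok) (t1 t2 : ℝ) :
    tdc h χ l o L q t1 t2 = VG L (TP320.sq 1 (dw h χ l (Real.log q.Y1) (Real.log q.Y2) (dl R' o q)
      t1 t2)) / (L * q.N) := by
  have e0 : ∀ k, TG (TP320.sq 1 (dw h χ l (Real.log q.Y1) (Real.log q.Y2) (dl R' o q) t1 t2)) k =
      DG h χ l k (Real.log q.Y1) (Real.log q.Y2) (dl R' o q) t1 t2 := by
    intro k
    rw [TP320.TG_sq_dw hh, one_pow, mul_one]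
  unfold VG
  simp_rw [e0]
  unfold tdc Qd.N dl
  cases o
  · simp only [Bool.false_eq_true, if_false]
    unfold T2
    rw [← mul_assoc]
    congr 1
    refine Finset.sum_congr rfl fun k _ => ?_
    unfold DG
    rw [TGo_neg hR k (by linarith : Real.log q.Y1 + (-Real.log q.Y1 - R') < -R), sub_zero,
      TP320.TGo_eq, Real.exp_log hq.Y1, Real.exp_log hq.Y2, norm_mul, norm_mul, norm_osc,
      norm_osc, one_mul, one_mul]
  · simp only [if_true]
    unfold Td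
    rw [← mul_assoc]
    congr 1
    refine Finset.sum_congr rfl fun k _ => ?_
    rw [TP320.DG_eq_TDf h χ l k hq.Y1 hq.Y2 hq.Z1 hq.Z2 hq.eq t1 t2]

end Crest.Agent.R017.TXG411
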