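import Crest.Agent.R017.TXC2_791
import Crest.Agent.R017.TX1_939
import Crest.Agent.R017.Two7_939

/-!
# Row 17: exceptional two-factor theorem, cube monotonicity on the Gauss side (1) (helper791)

`TQ` : the difference of two shapes (`o = true`) or the single shape (`o = false`), each smooth
sum at its own scale.
`TQ_prime` : splitting off a prime, the same coefficients for both shapes.
`TQ_sep`, `TQ_sep_sq` : change of the first scale, the same coefficients for both shapes.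
-/

set_option autoImplicit false

noncomputable section

open Complex MeasureTheory Filter Topology
open scoped ContDiff

namespace Crest.Agent.R017.TXM791

open Crest.Agent.R012 Crest.Agent.R012.Eis Crest.Agent.R012.LS2 Crest.Agent.R012.Gauss880
open Crest.Agent.R012.Weight600 (osc norm_osc ker)
open Crest.Agent.R012.PSer47 Crest.Agent.R012.Div277
open Crest.Agent.R017.End699 Crest.Agent.R017.FE47 Crest.Agent.R017.Two939
open Crest.Agent.R017.TwoEx791 Crest.Agent.R017.TXC791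
open Crest.Agent.R017.TP320 (gs cd_gs cs_gs co co_eq co_prim Kco gridZ mem_gridZ gridZ_le
  norm_co_indep continuous_co co_expand)

/-- the bilinear sum at its own scale -/
def To (h : ℝ → ℝ) (χ : Eis → ℂ) (l : ℤ) (k : Eis) (Y1 Y2 t1 t2 : ℝ) : ℂ :=
  osc t1 (-Real.log Y1) * osc t2 (-Real.log Y2) * TG h χ l k Y1 Y2 t1 t2

/-- difference or single shape -/
def TQ (h : ℝ → ℝ) (χ : Eis → ℂ) (l : ℤ) (o : Bool) (k : Eis) (q : Qd) (t1 t2 : ℝ) : ℂ :=
  To h χ l k q.Y1 q.Y2 t1 t2 - (if o = true then 1 else 0) * To h χ l k q.Z1 q.Z2 t1 t2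

lemma norm_To (h : ℝ → ℝ) (χ : Eis → ℂ) (l : ℤ) (k : Eis) (Y1 Y2 t1 t2 : ℝ) :
    ‖To h χ l k Y1 Y2 t1 t2‖ = ‖TG h χ l k Y1 Y2 t1 t2‖ := by
  unfold To
  rw [norm_mul, norm_mul, norm_osc, norm_osc, one_mul, one_mul]

lemma tdc_eq (h : ℝ → ℝ) (χ : Eis → ℂ) (l : ℤ) (o : Bool) (L : ℝ) (q : Qd) (t1 t2 : ℝ) :
    tdc h χ l o L q t1 t2 =
      (∑ k ∈ bl L, ‖TQ h χ l o k q t1 t2‖ ^ 2) / (L * q.Y1 * q.Y2) := by
  unfold tdc TQ
  split_ifs with ho
  · unfold Td TDf To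
    congr 1
    refine Finset.sum_congr rfl fun k _ => ?_
    rw [one_mul]
  · unfold T2
    congr 1
    refine Finset.sum_congr rfl fun k _ => ?_
    rw [zero_mul, sub_zero, norm_To]

lemma tdc_nonneg (h : ℝ → ℝ) (χ : Eis → ℂ) (l : ℤ) (o : Bool) {L : ℝ} (hL : 0 ≤ L) {q : Qd}
    (hq : q.Ok) (t1 t2 : ℝ) : 0 ≤ tdc h χ l o L q t1 t2 := by
  rw [tdc_eq]
  have := hq.Y1
  have := hq.Y2
  positivity

/-- exchange of the two variables -/
def sw (q : Qd) : Qd := ⟨q.Y2, q.Y1, q.Z2, q.Z1⟩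

/-- change of the first scale -/
def sc (q : Qd) (r : ℝ) : Qd := ⟨q.Y1 * r, q.Y2, q.Z1 * r, q.Z2⟩

lemma sw_ok {q : Qd} (h : q.Ok) : (sw q).Ok :=
  ⟨h.Y2, h.Y1, h.Z2, h.Z1, by
    have := h.eq
    unfold sw
    simp only
    rw [mul_comm q.Y2, mul_comm q.Z2, this]⟩

lemma sc_ok {q : Qd} (h : q.Ok) {r : ℝ} (hr : 0 < r) : (sc q r).Ok :=
  ⟨mul_pos h.Y1 hr, h.Y2, mul_pos h.Z1 hr, h.Z2, by
    have := h.eq
    unfold sc
    simp only
    linear_combination r * this⟩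

lemma sw_sw (q : Qd) : sw (sw q) = q := rfl

lemma To_symm (h : ℝ → ℝ) (χ : Eis → ℂ) (l : ℤ) (k : Eis) (Y1 Y2 t1 t2 : ℝ) :
    To h χ l k Y1 Y2 t1 t2 = To h χ l k Y2 Y1 t2 t1 := by
  unfold To
  rw [TG_symm]
  ring

lemma TQ_sw (h : ℝ → ℝ) (χ : Eis → ℂ) (l : ℤ) (o : Bool) (k : Eis) (q : Qd) (t1 t2 : ℝ) :
    TQ h χ l o k (sw q) t2 t1 = TQ h χ l o k q t1 t2 := by
  unfold TQ sw
  simp only
  rw [To_symm h χ l k q.Y2, To_symm h χ l k q.Z2]

lemma tdc_sw (h : ℝ → ℝ) (χ : Eis → ℂ) (l : ℤ) (o : Bool) (L : ℝ) (q : Qd) (t1 t2 : ℝ) :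
    tdc h χ l o L (sw q) t2 t1 = tdc h χ l o L q t1 t2 := by
  rw [tdc_eq, tdc_eq]
  congr 1
  · exact Finset.sum_congr rfl fun k _ => by rw [TQ_sw]
  · unfold sw; simp only; ring

/-! ### splitting off a prime -/

/-- the common coefficient -/
def c0 (χ : Eis → ℂ) (l : ℤ) (k p : Eis) : ℂ :=
  (χ p * ang l p) * (G p * (starRingEnd ℂ) (sy k p))

lemma norm_c0_le {M : Eis} {χ : Eis → ℂ} (hχ : HC M χ) (l : ℤ) (k : Eis) {p : Eis}
    (hp : IsPrim p) : ‖c0 χ l k p‖ ≤ 1 := by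
  unfold c0
  rw [norm_mul, norm_mul, norm_mul, RCLike.norm_conj]
  have h1 := hχ.char.norm_le hp
  have h2 : ‖ang l p‖ ≤ 1 := (ang_isChar l).norm_le hp
  have h3 := norm_G_le syG hp
  have h4 := norm_sy_le (k := k) hp
  calc ‖χ p‖ * ‖ang l p‖ * (‖G p‖ * ‖sy k p‖) ≤ 1 * 1 * (1 * 1) := by gcongr
    _ = 1 := by ring

/-- `TG_prime` with the coefficients -/
theorem TG_prime' {h : ℝ → ℝ} (hh : HasCompactSupport h) {M : Eis} {χ : Eis → ℂ} (hχ : HC M χ)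
    (l : ℤ) (k : Eis) {Y1 Y2 : ℝ} (hY1 : 0 < Y1) (hY2 : 0 < Y2) (t1 t2 : ℝ) {p : Eis}
    (hp : IsPrim p) (hpp : Prime p) :
    TG h χ l k Y1 Y2 t1 t2 = TG h χ l (k * p ^ 3) Y1 Y2 t1 t2 +
      (c0 χ l k p * osc t1 (Real.log (nm p))) * TG h χ l (k * p) (Y1 / nm p) Y2 t1 t2 +
      (c0 χ l k p * osc t2 (Real.log (nm p))) * TG h χ l (k * p) Y1 (Y2 / nm p) t1 t2 := by
  classical
  have hS := summable_tg hh χ l k Y1 Y2 t1 t2
  have hS3 := summable_tg hh χ l (k * p ^ 3) Y1 Y2 t1 t2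
  have hSa : Summable (fun q : Eis × Eis => if p ∣ q.1 then tg h χ l k Y1 Y2 t1 t2 q else 0) := by
    obtain ⟨N, hN⟩ := tg_support hh χ l Y1 Y2
    refine summable_of_ne_finset_zero (s := primBall N ×ˢ primBall N) fun q hq => ?_
    split_ifs
    · by_contra h0; exact hq (hN k t1 t2 q h0)
    · rfl
  have hSb : Summable (fun q : Eis × Eis => if p ∣ q.2 then tg h χ l k Y1 Y2 t1 t2 q else 0) := by
    obtain ⟨N, hN⟩ := tg_support hh χ l Y1 Y2
    refine summable_of_ne_finset_zero (s := primBall N ×ˢ primBall N) fun q hq => ?_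
    split_ifs
    · by_contra h0; exact hq (hN k t1 t2 q h0)
    · rfl
  have ea : ∑' q : Eis × Eis, (if p ∣ q.1 then tg h χ l k Y1 Y2 t1 t2 q else 0) =
      (c0 χ l k p * osc t1 (Real.log (nm p))) * TG h χ l (k * p) (Y1 / nm p) Y2 t1 t2 := by
    have hinj : Function.Injective (fun q : Eis × Eis => ((p * q.1, q.2) : Eis × Eis)) := by
      intro a b hab
      simp only [Prod.mk.injEq] at hab
      exact Prod.ext (mul_left_cancel₀ hp.ne_zero hab.1) hab.2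
    have hsup : Function.support (fun q : Eis × Eis => if p ∣ q.1 then
        tg h χ l k Y1 Y2 t1 t2 q else 0) ⊆
        Set.range (fun q : Eis × Eis => ((p * q.1, q.2) : Eis × Eis)) := by
      intro q hq
      by_cases hd : p ∣ q.1
      · obtain ⟨c, hc⟩ := hd
        exact ⟨(c, q.2), by simp [← hc]⟩
      · exfalso; apply hq; simp [hd]
    rw [← hinj.tsum_eq hsup, TG_eq, ← tsum_mul_left]
    refine tsum_congr fun q => ?_
    rw [if_pos (dvd_mul_right p q.1)]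
    rw [tg_shift1 hχ l k hY1 Y2 t1 t2 hp q.1 q.2]
    unfold c0
    ring
  have eb : ∑' q : Eis × Eis, (if p ∣ q.2 then tg h χ l k Y1 Y2 t1 t2 q else 0) =
      (c0 χ l k p * osc t2 (Real.log (nm p))) * TG h χ l (k * p) Y1 (Y2 / nm p) t1 t2 := by
    have hinj : Function.Injective (fun q : Eis × Eis => ((q.1, p * q.2) : Eis × Eis)) := by
      intro a b hab
      simp only [Prod.mk.injEq] at hab
      exact Prod.ext hab.1 (mul_left_cancel₀ hp.ne_zero hab.2)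
    have hsup : Function.support (fun q : Eis × Eis => if p ∣ q.2 then
        tg h χ l k Y1 Y2 t1 t2 q else 0) ⊆
        Set.range (fun q : Eis × Eis => ((q.1, p * q.2) : Eis × Eis)) := by
      intro q hq
      by_cases hd : p ∣ q.2
      · obtain ⟨c, hc⟩ := hd
        exact ⟨(q.1, c), by simp [← hc]⟩
      · exfalso; apply hq; simp [hd]
    rw [← hinj.tsum_eq hsup, TG_eq, ← tsum_mul_left]
    refine tsum_congr fun q => ?_
    rw [if_pos (dvd_mul_right p q.2)]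
    rw [tg_shift2 hχ l k hY2 Y1 t1 t2 hp q.1 q.2]
    unfold c0
    ring
  rw [TG_eq, tsum_congr fun q => tg_split l k Y1 Y2 t1 t2 hp hpp q,
    Summable.tsum_add hS3 (hSa.add hSb), Summable.tsum_add hSa hSb, ea, eb, ← TG_eq]
  ring

lemma To_prime {h : ℝ → ℝ} (hh : HasCompactSupport h) {M : Eis} {χ : Eis → ℂ} (hχ : HC M χ)
    (l : ℤ) (k : Eis) {Y1 Y2 : ℝ} (hY1 : 0 < Y1) (hY2 : 0 < Y2) (t1 t2 : ℝ) {p : Eis}
    (hp : IsPrim p) (hpp : Prime p) :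
    To h χ l k Y1 Y2 t1 t2 = To h χ l (k * p ^ 3) Y1 Y2 t1 t2 +
      c0 χ l k p * To h χ l (k * p) (Y1 * (nm p : ℝ)⁻¹) Y2 t1 t2 +
      c0 χ l k p * To h χ l (k * p) Y1 (Y2 * (nm p : ℝ)⁻¹) t1 t2 := by
  have hp1 := one_le_nm hp
  have hp0 : (0 : ℝ) < nm p := by linarith
  have e : ∀ (t Y : ℝ), 0 < Y → osc t (-Real.log (Y / nm p)) =
      osc t (Real.log (nm p)) * osc t (-Real.log Y) := by
    intro t Y hY
    rw [← Weight600.osc_add_right, Real.log_div hY.ne' hp0.ne']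
    congr 1
    ring
  unfold To
  rw [TG_prime' hh hχ l k hY1 hY2 t1 t2 hp hpp, ← div_eq_mul_inv, ← div_eq_mul_inv,
    e t1 Y1 hY1, e t2 Y2 hY2]
  ring

/-- **splitting off a prime** -/
theorem TQ_prime {h : ℝ → ℝ} (hh : HasCompactSupport h) {M : Eis} {χ : Eis → ℂ} (hχ : HC M χ)
    (l : ℤ) (o : Bool) (k : Eis) {q : Qd} (hq : q.Ok) (t1 t2 : ℝ) {p : Eis}
    (hp : IsPrim p) (hpp : Prime p) :
    TQ h χ l o k q t1 t2 = TQ h χ l o (k * p ^ 3) q t1 t2 +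
      c0 χ l k p * TQ h χ l o (k * p) (sc q (nm p : ℝ)⁻¹) t1 t2 +
      c0 χ l k p * TQ h χ l o (k * p) (sc (sw q) (nm p : ℝ)⁻¹) t2 t1 := by
  rw [← TQ_sw h χ l o (k * p) (sc (sw q) (nm p : ℝ)⁻¹)]
  unfold TQ sc sw
  simp only
  rw [To_prime hh hχ l k hq.Y1 hq.Y2 t1 t2 hp hpp, To_prime hh hχ l k hq.Z1 hq.Z2 t1 t2 hp hpp]
  ring

/-! ### change of the first scale -/

/-- one variable -/
lemma co_sep {h : ℝ → ℝ} {c : ℝ} (hpu : PU h c) {M : Eis} {χ : Eis → ℂ} (hχ : HC M χ) (l : ℤ)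
    {R : ℝ} (hR : ∀ u, cx h u ≠ 0 → |u| ≤ R) (y δ t : ℝ) (hδ : |δ| ≤ 1) (b : Eis) :
    co h χ l (y + δ) t b = ∑ n ∈ gridZ c R, ∫ u : ℝ, (ker (gs h 0) u * osc (t + u) (c * n - δ)) *
      co h χ l (y + c * n) (t + u) b := by
  by_cases hb : IsPrim b
  swap
  · rw [co_prim hb]
    symm
    refine Finset.sum_eq_zero fun n _ => ?_
    have : ∀ u, co h χ l (y + c * n) (t + u) b = 0 := fun u => co_prim hb
    simp [this]
  have h1 := co_expand hpu hχ l hR 0 (y + δ) δ t 0 isPrim_one hb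
    (by rw [nm_one]; push_cast; rw [Real.log_one, zero_sub, abs_neg]; exact hδ) (gridZ c R)
    (fun n hn => mem_gridZ hpu.cpos n hn)
  have e1 : TP320.tws 0 0 (y + δ) b = 1 := by
    unfold TP320.tws
    simp [Weight600.osc]
  rw [one_mul, e1, mul_one] at h1
  rw [h1]
  refine Finset.sum_congr rfl fun n _ => ?_
  congr 1
  funext u
  have e2 : Kco χ l 0 t 0 δ c n u 1 = osc (t + u) (c * n - δ) := by
    unfold Kco
    rw [hχ.char.one, (ang_isChar l).one, nm_one]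
    push_cast
    rw [Real.log_one]
    have e3 : osc (t + u) 0 = 1 := by simp [Weight600.osc]
    have e4 : -δ + c * (n : ℝ) = c * n - δ := by ring
    rw [e3, e4]
    simp
  have e5 : y + δ + (-δ + c * (n : ℝ)) = y + c * n := by ring
  have e6 : t + 0 + u = t + u := by ring
  rw [e2, e5, e6]
  ring

/-- the summand at its own scale -/
def tgo (h : ℝ → ℝ) (χ : Eis → ℂ) (l : ℤ) (k : Eis) (y1 y2 t1 t2 : ℝ) (p : Eis × Eis) : ℂ :=
  co h χ l y1 t1 p.1 * co h χ l y2 t2 p.2 *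
    (G (p.1 * p.2) * (starRingEnd ℂ) (sy k (p.1 * p.2)))

lemma tgo_eq (h : ℝ → ℝ) (χ : Eis → ℂ) (l : ℤ) (k : Eis) (y1 y2 t1 t2 : ℝ) (p : Eis × Eis) :
    tgo h χ l k y1 y2 t1 t2 p = osc t1 (-y1) * osc t2 (-y2) *
      tg h χ l k (Real.exp y1) (Real.exp y2) t1 t2 p := by
  unfold tgo tg
  rw [co_eq, co_eq]
  ring

/-- one box for finitely many scales -/
lemma To_box {h : ℝ → ℝ} (hh : HasCompactSupport h) (χ : Eis → ℂ) (l : ℤ) {ι : Type*}
    (S : Finset ι) (y1 y2 : ι → ℝ) : ∃ N : ℕ, ∀ i ∈ S, ∀ (k : Eis) (t1 t2 : ℝ),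
      To h χ l k (Real.exp (y1 i)) (Real.exp (y2 i)) t1 t2 =
      ∑ p ∈ primBall N ×ˢ primBall N, tgo h χ l k (y1 i) (y2 i) t1 t2 p := by
  classical
  have hex : ∀ i : ι, ∃ N : ℕ, ∀ (k : Eis) (t1 t2 : ℝ) (p : Eis × Eis),
      tg h χ l k (Real.exp (y1 i)) (Real.exp (y2 i)) t1 t2 p ≠ 0 → p ∈ primBall N ×ˢ primBall N :=
    fun i => tg_support hh χ l (Real.exp (y1 i)) (Real.exp (y2 i))
  choose Nn hNn using hex
  refine ⟨S.sup Nn, fun i hi k t1 t2 => ?_⟩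
  unfold To
  rw [Real.log_exp, Real.log_exp, TG_eq, tsum_eq_sum (s := primBall (S.sup Nn) ×ˢ primBall (S.sup Nn)),
    Finset.mul_sum]
  · exact Finset.sum_congr rfl fun p _ => (tgo_eq h χ l k (y1 i) (y2 i) t1 t2 p).symm
  · intro p hp
    by_contra h0
    apply hp
    have h1 := hNn i k t1 t2 p h0
    have h2 : Nn i ≤ S.sup Nn := Finset.le_sup hi
    rw [Finset.mem_product, mem_primBall, mem_primBall] at h1 ⊢
    exact ⟨⟨h1.1.1.trans h2, h1.1.2⟩, ⟨h1.2.1.trans h2, h1.2.2⟩⟩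

lemma continuous_tgo (h : ℝ → ℝ) (χ : Eis → ℂ) (l : ℤ) (k : Eis) (y1 y2 t2 : ℝ) (p : Eis × Eis) :
    Continuous fun t => tgo h χ l k y1 y2 t t2 p := by
  unfold tgo
  exact ((continuous_co h χ l y1 p.1).mul continuous_const).mul continuous_const

lemma norm_tgo_indep (h : ℝ → ℝ) (χ : Eis → ℂ) (l : ℤ) (k : Eis) (y1 y2 t1 t2 : ℝ)
    (p : Eis × Eis) : ‖tgo h χ l k y1 y2 t1 t2 p‖ = ‖tgo h χ l k y1 y2 0 0 p‖ := by
  unfold tgo
  rw [norm_mul, norm_mul, norm_co_indep h χ l y1 t1, norm_co_indep h χ l y2 t2, ← norm_mul,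
    ← norm_mul]

lemma integrable_tgo {h : ℝ → ℝ} (χ : Eis → ℂ) (l : ℤ) (k : Eis)
    (y1 y2 t1 t2 e : ℝ) (p : Eis × Eis) {κ : ℝ → ℂ} (hκ : Integrable κ) :
    Integrable (fun u : ℝ => (κ u * osc (t1 + u) e) * tgo h χ l k y1 y2 (t1 + u) t2 p) := by
  have h1 : ∀ u : ℝ, (κ u * osc (t1 + u) e) * tgo h χ l k y1 y2 (t1 + u) t2 p =
      κ u * (osc (t1 + u) e * tgo h χ l k y1 y2 (t1 + u) t2 p) := fun u => by ring
  simp_rw [h1]
  refine hκ.mul_bdd (c := ‖tgo h χ l k y1 y2 0 0 p‖) ?_ (Eventually.of_forall fun u => ?_)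
  · apply Continuous.aestronglyMeasurable
    exact ((Weight600.continuous_osc_left _).comp (continuous_const.add continuous_id)).mul
      ((continuous_tgo h χ l k y1 y2 t2 p).comp (continuous_const.add continuous_id))
  · rw [norm_mul, norm_osc, one_mul, norm_tgo_indep]

/-- change of the first scale, bilinear sum -/
lemma To_sep {h : ℝ → ℝ} {c : ℝ} (hpu : PU h c) {M : Eis} {χ : Eis → ℂ} (hχ : HC M χ) (l : ℤ)
    {R : ℝ} (hR : ∀ u, cx h u ≠ 0 → |u| ≤ R) (k : Eis) {Y Y2 : ℝ} (hY : 0 < Y) (hY2 : 0 < Y2)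
    (δ t1 t2 : ℝ) (hδ : |δ| ≤ 1) :
    To h χ l k (Y * Real.exp δ) Y2 t1 t2 = ∑ n ∈ gridZ c R, ∫ u : ℝ,
      (ker (gs h 0) u * osc (t1 + u) (c * n - δ)) *
        To h χ l k (Y * Real.exp (c * n)) Y2 (t1 + u) t2 := by
  classical
  set y := Real.log Y with hy
  set y2 := Real.log Y2 with hy2
  have eY : ∀ a : ℝ, Y * Real.exp a = Real.exp (y + a) := fun a => by
    rw [Real.exp_add, hy, Real.exp_log hY]
  have eY2 : Y2 = Real.exp y2 := by rw [hy2, Real.exp_log hY2]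
  have hki : Integrable (ker (gs h 0)) :=
    Weight600.ker_integrable (cd_gs hpu.cd 0) (cs_gs hpu.cs 0)
  obtain ⟨N, hN⟩ := To_box hpu.cs χ l (insert none ((gridZ c R).image some))
    (fun i : Option ℤ => y + (match i with | none => δ | some n => c * (n : ℝ))) (fun _ => y2)
  have h0 := hN none (by simp) k t1 t2
  have h1 : ∀ n ∈ gridZ c R, ∀ t1 t2 : ℝ, To h χ l k (Real.exp (y + c * n)) (Real.exp y2) t1 t2 =
      ∑ p ∈ primBall N ×ˢ primBall N, tgo h χ l k (y + c * n) y2 t1 t2 p := fun n hn t1 t2 =>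
    hN (some n) (by simp [hn]) k t1 t2
  simp only at h0
  simp_rw [eY]
  rw [eY2, h0]
  have e1 : ∀ n ∈ gridZ c R, ∫ u : ℝ, (ker (gs h 0) u * osc (t1 + u) (c * n - δ)) *
        To h χ l k (Real.exp (y + c * n)) (Real.exp y2) (t1 + u) t2 =
      ∑ p ∈ primBall N ×ˢ primBall N, ∫ u : ℝ, (ker (gs h 0) u * osc (t1 + u) (c * n - δ)) *
        tgo h χ l k (y + c * n) y2 (t1 + u) t2 p := by
    intro n hn
    rw [← integral_finsetSum _ fun p _ => integrable_tgo χ l k _ _ t1 t2 _ p hki]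
    congr 1
    funext u
    rw [h1 n hn, Finset.mul_sum]
  rw [Finset.sum_congr rfl e1, Finset.sum_comm]
  refine Finset.sum_congr rfl fun p _ => ?_
  unfold tgo
  rw [co_sep hpu hχ l hR y δ t1 hδ p.1, Finset.sum_mul, Finset.sum_mul]
  refine Finset.sum_congr rfl fun n _ => ?_
  rw [← integral_mul_const, ← integral_mul_const]
  congr 1
  funext u
  ring

lemma continuous_To1 {h : ℝ → ℝ} (hh : HasCompactSupport h) (χ : Eis → ℂ) (l : ℤ) (k : Eis)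
    (Y1 Y2 t2 : ℝ) : Continuous fun t => To h χ l k Y1 Y2 t t2 := by
  unfold To
  exact ((Weight600.continuous_osc_left _).mul continuous_const).mul
    (continuous_TG1 hh χ l k Y1 Y2 t2)

lemma continuous_TQ1 {h : ℝ → ℝ} (hh : HasCompactSupport h) (χ : Eis → ℂ) (l : ℤ) (o : Bool)
    (k : Eis) (q : Qd) (t2 : ℝ) : Continuous fun t => TQ h χ l o k q t t2 := by
  unfold TQ
  exact (continuous_To1 hh χ l k _ _ t2).sub (continuous_const.mul (continuous_To1 hh χ l k _ _ t2))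

lemma norm_To_bdd {h : ℝ → ℝ} (hh : HasCompactSupport h) (χ : Eis → ℂ) (l : ℤ) (k : Eis)
    (Y1 Y2 : ℝ) : ∃ C : ℝ, ∀ t1 t2, ‖To h χ l k Y1 Y2 t1 t2‖ ≤ C := by
  obtain ⟨C, hC⟩ := norm_TG_bdd hh χ l k Y1 Y2
  exact ⟨C, fun t1 t2 => by rw [norm_To]; exact hC t1 t2⟩

lemma norm_TQ_bdd {h : ℝ → ℝ} (hh : HasCompactSupport h) (χ : Eis → ℂ) (l : ℤ) (o : Bool)
    (k : Eis) (q : Qd) : ∃ C : ℝ, ∀ t1 t2, ‖TQ h χ l o k q t1 t2‖ ≤ C := by
  obtain ⟨C1, h1⟩ := norm_To_bdd hh χ l k q.Y1 q.Y2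
  obtain ⟨C2, h2⟩ := norm_To_bdd hh χ l k q.Z1 q.Z2
  refine ⟨C1 + C2, fun t1 t2 => ?_⟩
  unfold TQ
  refine (norm_sub_le _ _).trans (add_le_add (h1 t1 t2) ?_)
  rw [norm_mul]
  refine (mul_le_of_le_one_left (norm_nonneg _) ?_).trans (h2 t1 t2)
  split_ifs
  · simp
  · simp

/-- change of the first scale -/
lemma TQ_sep {h : ℝ → ℝ} {c : ℝ} (hpu : PU h c) {M : Eis} {χ : Eis → ℂ} (hχ : HC M χ) (l : ℤ)
    {R : ℝ} (hR : ∀ u, cx h u ≠ 0 → |u| ≤ R) (o : Bool) (k : Eis) {q : Qd} (hq : q.Ok)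
    (δ t1 t2 : ℝ) (hδ : |δ| ≤ 1) :
    TQ h χ l o k (sc q (Real.exp δ)) t1 t2 = ∑ n ∈ gridZ c R, ∫ u : ℝ,
      (ker (gs h 0) u * osc (t1 + u) (c * n - δ)) *
        TQ h χ l o k (sc q (Real.exp (c * n))) (t1 + u) t2 := by
  have hki : Integrable (ker (gs h 0)) :=
    Weight600.ker_integrable (cd_gs hpu.cd 0) (cs_gs hpu.cs 0)
  have hint : ∀ (A B e : ℝ), Integrable (fun u : ℝ => (ker (gs h 0) u * osc (t1 + u) e) *
      To h χ l k A B (t1 + u) t2) := by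
    intro A B e
    obtain ⟨C, hC⟩ := norm_To_bdd hpu.cs χ l k A B
    have h1 : ∀ u : ℝ, (ker (gs h 0) u * osc (t1 + u) e) * To h χ l k A B (t1 + u) t2 =
        ker (gs h 0) u * (osc (t1 + u) e * To h χ l k A B (t1 + u) t2) := fun u => by ring
    simp_rw [h1]
    refine hki.mul_bdd (c := C) ?_ (Eventually.of_forall fun u => ?_)
    · apply Continuous.aestronglyMeasurable
      exact ((Weight600.continuous_osc_left _).comp (continuous_const.add continuous_id)).mul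
        ((continuous_To1 hpu.cs χ l k A B t2).comp (continuous_const.add continuous_id))
    · rw [norm_mul, norm_osc, one_mul]
      exact hC _ _
  unfold TQ sc
  simp only
  rw [To_sep hpu hχ l hR k hq.Y1 hq.Y2 δ t1 t2 hδ, To_sep hpu hχ l hR k hq.Z1 hq.Z2 δ t1 t2 hδ,
    Finset.mul_sum, ← Finset.sum_sub_distrib]
  refine Finset.sum_congr rfl fun n _ => ?_
  rw [← integral_const_mul, ← integral_sub (hint _ _ _) ((hint _ _ _).const_mul _)]
  congr 1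
  funext u
  ring

/-- the square of an integral -/
lemma int_sq_le {κ F : ℝ → ℂ} (hκ : Integrable κ) (hF : Continuous F)
    (hb : ∃ C : ℝ, ∀ u, ‖F u‖ ≤ C) :
    ‖∫ u, κ u * F u‖ ^ 2 ≤ (∫ u, ‖κ u‖) * ∫ u, ‖κ u‖ * ‖F u‖ ^ 2 := by
  obtain ⟨C, hC⟩ := hb
  have hI : 0 ≤ ∫ u, ‖κ u‖ := integral_nonneg fun _ => norm_nonneg _
  have i1 : Integrable (fun u : ℝ => ‖κ u‖ * ‖F u‖) :=
    hκ.norm.mul_bdd (c := C) hF.norm.aestronglyMeasurable
      (Eventually.of_forall fun u => by rw [norm_norm]; exact hC _)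
  have i2 : Integrable (fun u : ℝ => ‖κ u‖ * ‖F u‖ ^ 2) :=
    hκ.norm.mul_bdd (c := C ^ 2) (hF.norm.pow 2).aestronglyMeasurable
      (Eventually.of_forall fun u => by
        rw [norm_pow, norm_norm]
        have := hC u
        gcongr)
  have h1 : ‖∫ u : ℝ, κ u * F u‖ ≤ ∫ u : ℝ, ‖κ u‖ * ‖F u‖ := by
    refine (norm_integral_le_integral_norm _).trans (le_of_eq ?_)
    congr 1
    funext u
    rw [norm_mul]
  have h2 : 0 ≤ ∫ u : ℝ, ‖κ u‖ * ‖F u‖ := integral_nonneg fun _ => by positivity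
  refine (pow_le_pow_left₀ (norm_nonneg _) h1 2).trans ?_
  refine sq_le_of_forall h2 hI fun θ hθ => ?_
  rw [← integral_const_mul, ← integral_const_mul, ← integral_const_mul, ← integral_add
    (hκ.norm.const_mul _) (i2.const_mul _)]
  apply integral_mono (i1.const_mul _) ((hκ.norm.const_mul _).add (i2.const_mul _))
  intro u
  simp only [Pi.add_apply]
  set x := ‖F u‖
  have h3 : 2 * x ≤ θ + θ⁻¹ * x ^ 2 := by
    have h4 : 0 ≤ θ⁻¹ * (θ - x) ^ 2 := by positivity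
    have h5 : θ⁻¹ * (θ - x) ^ 2 = θ - 2 * x + θ⁻¹ * x ^ 2 := by field_simp; ring
    linarith
  nlinarith [mul_le_mul_of_nonneg_left h3 (norm_nonneg (κ u))]

/-- square form -/
lemma TQ_sep_sq {h : ℝ → ℝ} {c : ℝ} (hpu : PU h c) {M : Eis} {χ : Eis → ℂ} (hχ : HC M χ) (l : ℤ)
    {R : ℝ} (hR : ∀ u, cx h u ≠ 0 → |u| ≤ R) (o : Bool) (k : Eis) {q : Qd} (hq : q.Ok)
    (δ t1 t2 : ℝ) (hδ : |δ| ≤ 1) :
    ‖TQ h χ l o k (sc q (Real.exp δ)) t1 t2‖ ^ 2 ≤
      ((gridZ c R).card : ℝ) * (∫ u, ‖ker (gs h 0) u‖) * ∑ n ∈ gridZ c R, ∫ u : ℝ,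
        ‖ker (gs h 0) u‖ * ‖TQ h χ l o k (sc q (Real.exp (c * n))) (t1 + u) t2‖ ^ 2 := by
  have hki : Integrable (ker (gs h 0)) :=
    Weight600.ker_integrable (cd_gs hpu.cd 0) (cs_gs hpu.cs 0)
  rw [TQ_sep hpu hχ l hR o k hq δ t1 t2 hδ]
  refine (CR2.norm_sum_sq_le_card (gridZ c R) _).trans ?_
  rw [mul_assoc]
  have hcard0 : (0 : ℝ) ≤ ((gridZ c R).card : ℝ) := Nat.cast_nonneg _
  refine mul_le_mul_of_nonneg_left ?_ hcard0
  rw [Finset.mul_sum]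
  refine Finset.sum_le_sum fun n _ => ?_
  obtain ⟨C, hC⟩ := norm_TQ_bdd hpu.cs χ l o k (sc q (Real.exp (c * n)))
  have h1 := int_sq_le (κ := ker (gs h 0))
    (F := fun u => osc (t1 + u) (c * n - δ) * TQ h χ l o k (sc q (Real.exp (c * n))) (t1 + u) t2)
    hki (((Weight600.continuous_osc_left _).comp (continuous_const.add continuous_id)).mul
      ((continuous_TQ1 hpu.cs χ l o k _ t2).comp (continuous_const.add continuous_id)))
    ⟨C, fun u => by rw [norm_mul, norm_osc, one_mul]; exact hC _ _⟩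
  simp only [norm_mul, norm_osc, one_mul] at h1
  refine le_trans (le_of_eq ?_) h1
  congr 2
  congr 1
  funext u
  ring

end Crest.Agent.R017.TXM791
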