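import Crest.Agent.R017.TXM1_791

/-!
# Row 17: exceptional two-factor theorem, cube monotonicity on the Gauss side (2) (helper791)

`monoG_ex` : `MonoG (tdc h χ l)`.
-/

set_option autoImplicit false

noncomputable section

open Complex MeasureTheory Filter Topology
open scoped ContDiff

namespace Crest.Agent.R017.TXM791

open Crest.Agent.R012 Crest.Agent.R012.Eis Crest.Agent.R012.LS2 Crest.Agent.R012.Gauss880
open Crest.Agent.R012.Weight600 (osc norm_osc ker)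
open Crest.Agent.R012.PSer47 Crest.Agent.R012.Div277
open Crest.Agent.R017.End699 Crest.Agent.R017.FE47 Crest.Agent.R017.Two939
open Crest.Agent.R017.TwoEx791 Crest.Agent.R017.TXC791
open Crest.Agent.R017.TP320 (gs cd_gs cs_gs co co_eq co_prim Kco gridZ mem_gridZ gridZ_le
  norm_co_indep continuous_co co_expand)

lemma three_sq {a x y z : ℝ} (ha : 0 ≤ a) (h : a ≤ x + y + z) :
    a ^ 2 ≤ 3 * (x ^ 2 + y ^ 2 + z ^ 2) := by
  have h1 : a ^ 2 ≤ (x + y + z) ^ 2 := by gcongr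
  nlinarith [sq_nonneg (x - y), sq_nonneg (y - z), sq_nonneg (x - z)]

lemma fin_aux {a b C : ℝ} (hC : 0 ≤ C) (ha : 0 ≤ a) (hb : 0 ≤ b) :
    a + 2 * C * b ≤ (1 + 2 * C) * (a + b) := by
  nlinarith [mul_nonneg hC ha, mul_nonneg hC hb]

lemma fin_aux2 {P0 C4 C3 X Y : ℝ} (hP : 0 ≤ P0) (hX : 0 ≤ X * Y) :
    C4 * X * ((1 + 2 * C3) * Y) ≤ (P0 + C4 * (1 + 2 * C3)) * (X * Y) := by
  nlinarith [mul_nonneg hP hX]

/-- unnormalised second moment -/
def UQ (h : ℝ → ℝ) (χ : Eis → ℂ) (l : ℤ) (o : Bool) (L : ℝ) (q : Qd) (t1 t2 : ℝ) : ℝ :=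
  ∑ k ∈ bl L, ‖TQ h χ l o k q t1 t2‖ ^ 2

lemma UQ_eq (h : ℝ → ℝ) (χ : Eis → ℂ) (l : ℤ) (o : Bool) {L : ℝ} (hL : 0 < L) {q : Qd}
    (hq : q.Ok) (t1 t2 : ℝ) :
    UQ h χ l o L q t1 t2 = (L * q.Y1 * q.Y2) * tdc h χ l o L q t1 t2 := by
  have := hq.Y1
  have := hq.Y2
  rw [tdc_eq]
  unfold UQ
  field_simp

/-- the second part, first variable, all primes of one range -/
lemma part_leQ {h : ℝ → ℝ} {c : ℝ} (hpu : PU h c) {Mo : Eis} {χ : Eis → ℂ} (hχ : HC Mo χ) (l : ℤ)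
    {R : ℝ} (hR : ∀ u, cx h u ≠ 0 → |u| ≤ R) {M : ℝ} (_hM : 0 ≤ M) : ∃ C : ℝ, 0 ≤ C ∧
    ∀ (o : Bool) (P : Finset Eis) (L : ℝ) (q : Qd) (P0 t1 t2 B D : ℝ), 0 < L → q.Ok → 1 ≤ P0 →
      0 ≤ B → 0 ≤ D →
      (∀ p ∈ P, IsPrim p ∧ P0 / Real.exp 1 ≤ nm p ∧ (nm p : ℝ) ≤ P0) →
      (∀ k ∈ bl (L * P0), (tau k : ℝ) ≤ D) →
      (∀ r s : ℝ, |r| ≤ 2 * R + 1 + c →
        tdc h χ l o (L * P0) (sc (sc q P0⁻¹) (Real.exp r)) (t1 + s) t2 ≤ B * (1 + |s|) ^ M) →
      ∑ p ∈ P, ∑ k ∈ bl L, ‖TQ h χ l o (k * p) (sc q (nm p : ℝ)⁻¹) t1 t2‖ ^ 2 ≤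
        C * D * B * (L * q.Y1 * q.Y2) := by
  classical
  have hcd := cd_gs hpu.cd 0
  have hcs := cs_gs hpu.cs 0
  have hki := Weight600.ker_integrable hcd hcs
  set K : ℕ := ⌈M⌉₊ + 2 with hK
  obtain ⟨Ck, hCk, hdec⟩ := Weight600.ker_decay hcd hcs K
  set I0 := ∫ u, ‖ker (gs h 0) u‖ with hI0
  have hI0n : 0 ≤ I0 := integral_nonneg fun _ => norm_nonneg _
  set I2 := ∫ s : ℝ, ((1 + |s|) ^ 2)⁻¹ with hI2
  have hI2n : 0 ≤ I2 := integral_nonneg fun _ => by positivity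
  have hc := hpu.cpos
  set S := gridZ c R with hS
  set W : ℝ := (S.card : ℝ) with hW
  have hW0 : 0 ≤ W := by positivity
  refine ⟨W ^ 2 * I0 * (Ck * I2 * Real.exp (2 * R + 1 + c)), by positivity, ?_⟩
  intro o P L q P0 t1 t2 B D hL hq hP0 hB hD hP hDk hT
  have hY1 := hq.Y1
  have hY2 := hq.Y2
  have hP00 : 0 < P0 := by linarith
  set q0 := sc q P0⁻¹ with hq0
  have hq0ok : q0.Ok := sc_ok hq (by positivity)
  -- pointwise
  have hpt : ∀ p ∈ P, ∀ k : Eis, ‖TQ h χ l o (k * p) (sc q (nm p : ℝ)⁻¹) t1 t2‖ ^ 2 ≤ W * I0 *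
      ∑ n ∈ S, ∫ u : ℝ, ‖ker (gs h 0) u‖ *
        ‖TQ h χ l o (k * p) (sc q0 (Real.exp (c * n))) (t1 + u) t2‖ ^ 2 := by
    intro p hp k
    obtain ⟨hpp, h1, h2⟩ := hP p hp
    have hp1 := one_le_nm hpp
    have hp0 : (0 : ℝ) < nm p := by linarith
    set δ := Real.log (P0 / nm p) with hδ
    have e1 : sc q (nm p : ℝ)⁻¹ = sc q0 (Real.exp δ) := by
      rw [hδ, Real.exp_log (by positivity), hq0]
      unfold sc
      simp only [Qd.mk.injEq, true_and, and_true]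
      constructor <;> field_simp
    have h3 : |δ| ≤ 1 := by
      rw [abs_of_nonneg]
      · rw [hδ, Real.log_le_iff_le_exp (by positivity), div_le_iff₀ hp0]
        rw [div_le_iff₀ (Real.exp_pos 1)] at h1
        linarith
      · apply Real.log_nonneg
        rw [one_le_div hp0]; exact h2
    rw [e1]
    exact TQ_sep_sq hpu hχ l hR o (k * p) hq0ok δ t1 t2 h3
  have hint : ∀ (n : ℤ) (k : Eis), Integrable (fun u : ℝ => ‖ker (gs h 0) u‖ *
      ‖TQ h χ l o k (sc q0 (Real.exp (c * n))) (t1 + u) t2‖ ^ 2) := by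
    intro n k
    obtain ⟨C, hC⟩ := norm_TQ_bdd hpu.cs χ l o k (sc q0 (Real.exp (c * n)))
    have hcont : Continuous fun u => TQ h χ l o k (sc q0 (Real.exp (c * n))) (t1 + u) t2 :=
      (continuous_TQ1 hpu.cs χ l o k _ t2).comp (continuous_const.add continuous_id)
    exact hki.norm.mul_bdd (c := C ^ 2) (hcont.norm.pow 2).aestronglyMeasurable
      (Eventually.of_forall fun u => by
        rw [norm_pow, norm_norm]
        have := hC (t1 + u) t2
        gcongr)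
  -- one scale
  have hscale : ∀ n ∈ S, ∑ p ∈ P, ∑ k ∈ bl L, ∫ u : ℝ, ‖ker (gs h 0) u‖ *
        ‖TQ h χ l o (k * p) (sc q0 (Real.exp (c * n))) (t1 + u) t2‖ ^ 2 ≤
      D * (Ck * I2 * Real.exp (2 * R + 1 + c)) * B * (L * q.Y1 * q.Y2) := by
    intro n hn
    have hnW := gridZ_le hc hn
    have hokn : (sc q0 (Real.exp (c * n))).Ok := sc_ok hq0ok (Real.exp_pos _)
    have hm := merge (fun p hp => (hP p hp).1) hL.le one_ne_zero hP00.le
      (fun p hp => by rw [pow_one]; exact (hP p hp).2.2)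
      (f := fun k => ∫ u : ℝ, ‖ker (gs h 0) u‖ *
        ‖TQ h χ l o k (sc q0 (Real.exp (c * n))) (t1 + u) t2‖ ^ 2)
      (fun k => integral_nonneg fun u => by positivity) hDk
    simp only [pow_one] at hm
    refine hm.trans ?_
    rw [← integral_finsetSum _ fun k _ => hint n k]
    have hlen : (sc q0 (Real.exp (c * n))).Y1 * P0 ≤ Real.exp (2 * R + 1 + c) * q.Y1 := by
      have e1 : (sc q0 (Real.exp (c * n))).Y1 * P0 = Real.exp (c * n) * q.Y1 := by
        rw [hq0]; unfold sc; simp only; field_simp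
      rw [e1]
      have : Real.exp (c * n) ≤ Real.exp (2 * R + 1 + c) :=
        Real.exp_le_exp.mpr ((le_abs_self _).trans hnW)
      gcongr
    have hY1n : 0 < (sc q0 (Real.exp (c * n))).Y1 := hokn.Y1
    have hY2n : (sc q0 (Real.exp (c * n))).Y2 = q.Y2 := rfl
    have h1 : ∫ u : ℝ, ∑ k ∈ bl (L * P0), ‖ker (gs h 0) u‖ *
        ‖TQ h χ l o k (sc q0 (Real.exp (c * n))) (t1 + u) t2‖ ^ 2 ≤
        ∫ u : ℝ, (Ck * B * (L * P0 * (sc q0 (Real.exp (c * n))).Y1 * q.Y2)) *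
          ((1 + |u|) ^ 2)⁻¹ := by
      apply integral_mono (integrable_finsetSum _ fun k _ => hint n k)
        ((integrable_wt le_rfl).const_mul _)
      intro u
      have hu1 : 1 ≤ 1 + |u| := by linarith [abs_nonneg u]
      have hu0 : 0 < 1 + |u| := by linarith
      beta_reduce
      rw [← Finset.mul_sum]
      have h2 : ∑ k ∈ bl (L * P0), ‖TQ h χ l o k (sc q0 (Real.exp (c * n))) (t1 + u) t2‖ ^ 2 =
          (L * P0 * (sc q0 (Real.exp (c * n))).Y1 * q.Y2) *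
            tdc h χ l o (L * P0) (sc q0 (Real.exp (c * n))) (t1 + u) t2 :=
        UQ_eq h χ l o (by positivity) hokn _ _
      rw [h2]
      have h3 := hT (c * n) u hnW
      have h4 := hdec u
      have h5 : ‖ker (gs h 0) u‖ ≤ Ck * ((1 + |u|) ^ K)⁻¹ := by
        rw [← div_eq_mul_inv, le_div_iff₀ (by positivity)]
        exact h4
      have h6 : ((1 + |u|) ^ K)⁻¹ * (1 + |u|) ^ M ≤ ((1 + |u|) ^ 2)⁻¹ := by
        rw [← Real.rpow_natCast (1 + |u|) K, ← Real.rpow_neg hu0.le, ← Real.rpow_add hu0,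
          ← Real.rpow_natCast (1 + |u|) 2, ← Real.rpow_neg hu0.le]
        apply Real.rpow_le_rpow_of_exponent_le hu1
        have := Nat.le_ceil M
        rw [hK]
        push_cast
        linarith
      calc ‖ker (gs h 0) u‖ * ((L * P0 * (sc q0 (Real.exp (c * n))).Y1 * q.Y2) *
            tdc h χ l o (L * P0) (sc q0 (Real.exp (c * n))) (t1 + u) t2)
          ≤ (Ck * ((1 + |u|) ^ K)⁻¹) * ((L * P0 * (sc q0 (Real.exp (c * n))).Y1 * q.Y2) *
            (B * (1 + |u|) ^ M)) := by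
            have hTn := tdc_nonneg h χ l o (L := L * P0) (by positivity) hokn (t1 + u) t2
            gcongr
        _ = (Ck * B * (L * P0 * (sc q0 (Real.exp (c * n))).Y1 * q.Y2)) *
            (((1 + |u|) ^ K)⁻¹ * (1 + |u|) ^ M) := by
            ring
        _ ≤ _ := by gcongr
    calc D * ∫ u : ℝ, ∑ k ∈ bl (L * P0), ‖ker (gs h 0) u‖ *
        ‖TQ h χ l o k (sc q0 (Real.exp (c * n))) (t1 + u) t2‖ ^ 2
        ≤ D * ∫ u : ℝ, (Ck * B * (L * P0 * (sc q0 (Real.exp (c * n))).Y1 * q.Y2)) *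
          ((1 + |u|) ^ 2)⁻¹ := by gcongr
      _ = D * ((Ck * B * (L * ((sc q0 (Real.exp (c * n))).Y1 * P0) * q.Y2)) * I2) := by
          rw [integral_const_mul]; ring
      _ ≤ D * ((Ck * B * (L * (Real.exp (2 * R + 1 + c) * q.Y1) * q.Y2)) * I2) := by gcongr
      _ = _ := by ring
  -- assembly
  calc ∑ p ∈ P, ∑ k ∈ bl L, ‖TQ h χ l o (k * p) (sc q (nm p : ℝ)⁻¹) t1 t2‖ ^ 2
      ≤ ∑ p ∈ P, ∑ k ∈ bl L, W * I0 * ∑ n ∈ S, ∫ u : ℝ, ‖ker (gs h 0) u‖ *
        ‖TQ h χ l o (k * p) (sc q0 (Real.exp (c * n))) (t1 + u) t2‖ ^ 2 :=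
        Finset.sum_le_sum fun p hp => Finset.sum_le_sum fun k _ => hpt p hp k
    _ = W * I0 * ∑ n ∈ S, ∑ p ∈ P, ∑ k ∈ bl L, ∫ u : ℝ, ‖ker (gs h 0) u‖ *
        ‖TQ h χ l o (k * p) (sc q0 (Real.exp (c * n))) (t1 + u) t2‖ ^ 2 := by
        simp_rw [← Finset.mul_sum]
        congr 1
        calc _ = ∑ p ∈ P, ∑ n ∈ S, ∑ k ∈ bl L, ∫ u : ℝ, ‖ker (gs h 0) u‖ *
              ‖TQ h χ l o (k * p) (sc q0 (Real.exp (c * n))) (t1 + u) t2‖ ^ 2 :=
              Finset.sum_congr rfl fun p _ => Finset.sum_comm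
          _ = _ := Finset.sum_comm
    _ ≤ W * I0 * ∑ n ∈ S, D * (Ck * I2 * Real.exp (2 * R + 1 + c)) * B * (L * q.Y1 * q.Y2) := by
        gcongr with n hn
        exact hscale n hn
    _ = W * I0 * (W * (D * (Ck * I2 * Real.exp (2 * R + 1 + c)) * B * (L * q.Y1 * q.Y2))) := by
        rw [Finset.sum_const, nsmul_eq_mul]
    _ = _ := by ring

/-- **cube monotonicity on the Gauss side for the differences** -/
theorem monoG_ex {h : ℝ → ℝ} {c : ℝ} (hpu : PU h c) {M : Eis} {χ : Eis → ℂ} (hχ : HC M χ)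
    (l : ℤ) : MonoG (tdc h χ l) := by
  classical
  intro ε Mx hε hMx
  obtain ⟨R, hR0, hR⟩ := exists_R (cs_cx hpu.cs)
  obtain ⟨C3, hC3, hpart⟩ := part_leQ hpu hχ l hR hMx
  set ε0 : ℝ := ε / 4 with hε0d
  have hε0 : 0 < ε0 := by positivity
  obtain ⟨Ct, hCt, htau⟩ := tau_le_rpow (ε := ε0 / 3) (by positivity)
  obtain ⟨c0', hc0, κ0, hκ0, hcard⟩ := PLow271.card_shortP (a := -1) (b := 0) (by norm_num)
  set P0 : ℝ := Real.exp κ0 with hP0d
  have hP0 : 0 < P0 := Real.exp_pos _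
  have hc := hpu.cpos
  set E : ℝ := Real.exp (2 * R + 1 + c) with hE
  have hE1 : 1 ≤ E := Real.one_le_exp (by positivity)
  have hE0 : 0 < E := by linarith
  set C4 : ℝ := 3 * Ct / (c0' * ε0) with hC4
  have hC40 : 0 ≤ C4 := by positivity
  set CC : ℝ := E + (P0 + C4 * (1 + 2 * C3)) with hCC
  have hCC1 : 1 ≤ CC := by
    have : 0 ≤ P0 + C4 * (1 + 2 * C3) := by positivity
    linarith
  have hCCE : E ≤ CC := by
    have : 0 ≤ P0 + C4 * (1 + 2 * C3) := by positivity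
    linarith
  have hCCr : P0 + C4 * (1 + 2 * C3) ≤ CC := by linarith
  refine ⟨CC, 0, hCC1, le_rfl, ?_⟩
  intro o L q P t1 t2 B1 B2 hL hq hP hB1 hB2 hH1 hH2
  rw [Real.rpow_zero, mul_one]
  have hL0 : 0 < L := by linarith
  have hY10 := hq.Y1
  have hY20 := hq.Y2
  have hPp : 0 < P := by linarith
  have hsz := hq.one_le_sz
  have hX : 1 ≤ L * P * q.sz := one_le_mul_of_one_le_of_one_le
    (one_le_mul_of_one_le_of_one_le hL hP) hsz
  set X := L * P * q.sz with hXd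
  have hX0 : 0 < X := by linarith
  have hXε : 1 ≤ X ^ ε := Real.one_le_rpow hX hε.le
  have hCX : E ≤ CC * X ^ ε := hCCE.trans (le_mul_of_one_le_right (by linarith) hXε)
  have hCX1 : 1 ≤ CC * X ^ ε := hE1.trans hCX
  have hP3 : 1 ≤ P ^ 3 := one_le_pow₀ hP
  have hLP3 : 0 < L * P ^ 3 := by positivity
  -- the long family
  have hlong : tdc h χ l o (L * P ^ 3) q t1 t2 ≤ B1 := by
    have h1 := hH1 (L * P ^ 3) 0 0 le_rfl (le_mul_of_one_le_left hLP3.le hCX1)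
    simpa using h1
  have hU3 : UQ h χ l o (L * P ^ 3) q t1 t2 ≤ (L * q.Y1 * q.Y2) * (P ^ 3 * B1) := by
    rw [UQ_eq h χ l o hLP3 hq]
    calc L * P ^ 3 * q.Y1 * q.Y2 * tdc h χ l o (L * P ^ 3) q t1 t2
        ≤ L * P ^ 3 * q.Y1 * q.Y2 * B1 := by gcongr
      _ = _ := by ring
  have hN0 : 0 < L * q.Y1 * q.Y2 := by positivity
  have hT2 : tdc h χ l o L q t1 t2 = UQ h χ l o L q t1 t2 / (L * q.Y1 * q.Y2) := tdc_eq ..
  have hB20 : 0 ≤ B2 / P := by positivity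
  have hB10 : 0 ≤ P ^ 2 * B1 := by positivity
  have hXB : 0 ≤ X ^ ε * (P ^ 2 * B1 + B2 / P) := by positivity
  suffices hmain : tdc h χ l o L q t1 t2 ≤
      (P0 + C4 * (1 + 2 * C3)) * (X ^ ε * (P ^ 2 * B1 + B2 / P)) by
    refine hmain.trans ?_
    rw [mul_assoc]
    gcongr
  by_cases hPP : P < P0
  · -- short range of `P`
    have h1 : UQ h χ l o L q t1 t2 ≤ UQ h χ l o (L * P ^ 3) q t1 t2 := by
      unfold UQ
      refine Finset.sum_le_sum_of_subset_of_nonneg ?_ fun k _ _ => by positivity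
      intro k hk
      rw [mem_bl hL0.le] at hk
      rw [mem_bl hLP3.le]
      exact ⟨hk.1, hk.2.trans (le_mul_of_one_le_right hL0.le hP3)⟩
    have h2 : tdc h χ l o L q t1 t2 ≤ P ^ 3 * B1 := by
      rw [hT2, div_le_iff₀ hN0]
      calc UQ h χ l o L q t1 t2 ≤ (L * q.Y1 * q.Y2) * (P ^ 3 * B1) := h1.trans hU3
        _ = _ := by ring
    calc tdc h χ l o L q t1 t2 ≤ P ^ 3 * B1 := h2
      _ = P * (1 * (P ^ 2 * B1)) := by ring
      _ ≤ P0 * (X ^ ε * (P ^ 2 * B1)) := by gcongr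
      _ ≤ (P0 + C4 * (1 + 2 * C3)) * (X ^ ε * (P ^ 2 * B1 + B2 / P)) := by
          have : 0 ≤ C4 * (1 + 2 * C3) := by positivity
          gcongr
          · linarith
          · linarith
  · -- many primes
    have hPge : P0 ≤ P := not_lt.mp hPP
    set κ := Real.log P with hκ
    have hPe : Real.exp κ = P := Real.exp_log hPp
    have hκκ : κ0 ≤ κ := by
      rw [← Real.log_exp κ0]
      exact Real.log_le_log (Real.exp_pos _) hPge
    have hκ1 : 1 ≤ κ := hκ0.trans hκκ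
    have hκpos : 0 < κ := by linarith
    set Ps := PLow271.shortP (-1) 0 κ with hPs
    have hmem : ∀ p ∈ Ps, (Prime p ∧ IsPrim p) ∧ P / Real.exp 1 ≤ nm p ∧ (nm p : ℝ) ≤ P := by
      intro p hp
      rw [hPs, PLow271.mem_shortP] at hp
      refine ⟨hp.1, ?_, ?_⟩
      · have h1 := hp.2.1
        rw [Real.exp_add, hPe, Real.exp_neg] at h1
        rw [div_eq_mul_inv]
        exact h1.le
      · have h1 := hp.2.2
        rw [add_zero, hPe] at h1
        exact h1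
    -- the number of primes
    have hPX : P ≤ X := by
      rw [hXd]
      calc P = 1 * P * 1 := by ring
        _ ≤ L * P * q.sz := by gcongr
    have hLX : L ≤ X := by
      rw [hXd]
      calc L = L * 1 * 1 := by ring
        _ ≤ L * P * q.sz := by gcongr
    have hcardP : c0' * ε0 * P / X ^ ε0 ≤ (Ps.card : ℝ) := by
      have h1 := hcard κ hκκ
      rw [hPe] at h1
      refine le_trans ?_ h1
      have h2 : κ ≤ X ^ ε0 / ε0 := by
        calc κ ≤ P ^ ε0 / ε0 := Real.log_le_rpow_div hPp.le hε0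
          _ ≤ X ^ ε0 / ε0 := by gcongr
      rw [show c0' * (P / κ) = (c0' * P) / κ by ring, div_le_div_iff₀ (by positivity) hκpos]
      have h3 : ε0 * κ ≤ X ^ ε0 := by
        rw [le_div_iff₀ hε0] at h2; linarith
      calc c0' * ε0 * P * κ = c0' * P * (ε0 * κ) := by ring
        _ ≤ c0' * P * X ^ ε0 := by gcongr
    have hcardpos : 0 < (Ps.card : ℝ) := lt_of_lt_of_le (by positivity) hcardP
    -- divisor bound
    set D := Ct * X ^ (2 * ε0) with hD
    have hXe : 0 < X ^ (2 * ε0) := by positivity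
    have hD0 : 0 ≤ D := by positivity
    have htauX : ∀ k : Eis, k ≠ 0 → (nm k : ℝ) ≤ X ^ (4 : ℕ) → (tau k : ℝ) ≤ D := by
      intro k hk hkX
      have hk0 : (0 : ℝ) ≤ nm k := by positivity
      calc (tau k : ℝ) ≤ Ct * (nm k : ℝ) ^ (ε0 / 3) := htau k hk
        _ ≤ Ct * (X ^ (4 : ℕ)) ^ (ε0 / 3) := by gcongr
        _ = Ct * X ^ (4 * (ε0 / 3)) := by
            rw [← Real.rpow_natCast X 4, ← Real.rpow_mul hX0.le]; norm_num
        _ ≤ D := by
            rw [hD]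
            have := Real.rpow_le_rpow_of_exponent_le hX (show 4 * (ε0 / 3) ≤ 2 * ε0 by linarith)
            gcongr
    have hD3 : ∀ k ∈ bl (L * P ^ 3), (tau k : ℝ) ≤ D := by
      intro k hk
      rw [mem_bl hLP3.le] at hk
      refine htauX k hk.1 (hk.2.trans ?_)
      calc L * P ^ 3 ≤ X * X ^ 3 := by gcongr
        _ = X ^ (4 : ℕ) := by ring
    have hD1 : ∀ k ∈ bl (L * P), (tau k : ℝ) ≤ D := by
      intro k hk
      rw [mem_bl (by positivity)] at hk
      refine htauX k hk.1 (hk.2.trans ?_)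
      calc L * P ≤ X * X := by gcongr
        _ = X ^ 2 := by ring
        _ ≤ X ^ (4 : ℕ) := pow_le_pow_right₀ hX (by norm_num)
    -- pointwise splitting
    have hsplit : ∀ p ∈ Ps, ∀ k : Eis, ‖TQ h χ l o k q t1 t2‖ ^ 2 ≤
        3 * (‖TQ h χ l o (k * p ^ 3) q t1 t2‖ ^ 2 +
          ‖TQ h χ l o (k * p) (sc q (nm p : ℝ)⁻¹) t1 t2‖ ^ 2 +
          ‖TQ h χ l o (k * p) (sc (sw q) (nm p : ℝ)⁻¹) t2 t1‖ ^ 2) := by
      intro p hp k
      obtain ⟨⟨hpp, hpr⟩, -, -⟩ := hmem p hp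
      have heq := TQ_prime hpu.cs hχ l o k hq t1 t2 hpr hpp
      have hc1 := norm_c0_le hχ l k hpr
      have hn : ‖TQ h χ l o k q t1 t2‖ ≤ ‖TQ h χ l o (k * p ^ 3) q t1 t2‖ +
          ‖TQ h χ l o (k * p) (sc q (nm p : ℝ)⁻¹) t1 t2‖ +
          ‖TQ h χ l o (k * p) (sc (sw q) (nm p : ℝ)⁻¹) t2 t1‖ := by
        rw [heq]
        refine (norm_add_le _ _).trans ?_
        refine add_le_add ((norm_add_le _ _).trans (add_le_add le_rfl ?_)) ?_
        · rw [norm_mul]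
          exact mul_le_of_le_one_left (norm_nonneg _) hc1
        · rw [norm_mul]
          exact mul_le_of_le_one_left (norm_nonneg _) hc1
      exact three_sq (norm_nonneg _) hn
    -- the three parts
    have m1 : ∑ p ∈ Ps, ∑ k ∈ bl L, ‖TQ h χ l o (k * p ^ 3) q t1 t2‖ ^ 2 ≤
        D * UQ h χ l o (L * P ^ 3) q t1 t2 :=
      merge (fun p hp => (hmem p hp).1.2) hL0.le three_ne_zero (by positivity)
        (fun p hp => by
          have := (hmem p hp).2.2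
          gcongr) (f := fun k => ‖TQ h χ l o k q t1 t2‖ ^ 2) (fun k => by positivity) hD3
    -- the short family
    have hfam : ∀ (q' : Qd) (s1 s2 : ℝ), Qd.Sub E P q q' →
        tdc h χ l o (L * P) q' (t1 + s1) (t2 + s2) ≤ B2 * ((1 + |s1|) * (1 + |s2|)) ^ Mx := by
      intro q' s1 s2 hs
      have hLP : 1 ≤ L * P := one_le_mul_of_one_le_of_one_le hL hP
      refine hH2 (L * P) q' s1 s2 hLP (le_mul_of_one_le_left (by linarith) hCX1) ?_ ?_
      · calc L * P ≤ X := by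
              rw [hXd]
              exact le_mul_of_one_le_right (by linarith) hsz
          _ = X ^ 1 := (pow_one X).symm
          _ ≤ X ^ 20 := pow_le_pow_right₀ hX (by norm_num)
          _ ≤ CC * X ^ 20 := le_mul_of_one_le_left (by positivity) hCC1
      · exact ⟨hs.ok, hs.Y1.trans (mul_le_mul_of_nonneg_right hCX hq.Y1.le),
          hs.Y2.trans (mul_le_mul_of_nonneg_right hCX hq.Y2.le),
          hs.Z1.trans (mul_le_mul_of_nonneg_right hCX hq.Z1.le),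
          hs.Z2.trans (mul_le_mul_of_nonneg_right hCX hq.Z2.le),
          hs.le.trans (mul_le_mul_of_nonneg_right hCX hq.N_pos.le),
          hs.ge.trans (mul_le_mul_of_nonneg_right hCX (mul_pos hs.ok.N_pos hPp).le)⟩
    -- sub-shapes
    have hsub : ∀ (q : Qd), q.Ok → ∀ r : ℝ, |r| ≤ 2 * R + 1 + c →
        Qd.Sub E P q (sc (sc q P⁻¹) (Real.exp r)) := by
      intro q hq r hr
      rw [abs_le] at hr
      have hr1 : Real.exp r ≤ E := Real.exp_le_exp.mpr hr.2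
      have hr2 : 1 ≤ E * Real.exp r := by
        rw [hE, ← Real.exp_add]
        exact Real.one_le_exp (by linarith)
      have a1 := hq.Y1
      have a2 := hq.Y2
      have a3 := hq.Z1
      have a4 := hq.Z2
      have hPi : P⁻¹ ≤ 1 := inv_le_one_of_one_le₀ hP
      have hr0 := Real.exp_pos r
      have hN := hq.N_pos
      have eN : (sc (sc q P⁻¹) (Real.exp r)).N * P = Real.exp r * q.N := by
        unfold sc Qd.N
        simp only
        field_simp
      refine ⟨sc_ok (sc_ok hq (by positivity)) hr0, ?_, ?_, ?_, ?_, ?_, ?_⟩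
      · unfold sc
        simp only
        calc q.Y1 * P⁻¹ * Real.exp r ≤ q.Y1 * 1 * E := by gcongr
          _ = _ := by ring
      · unfold sc
        simp only
        exact le_mul_of_one_le_left a2.le hE1
      · unfold sc
        simp only
        calc q.Z1 * P⁻¹ * Real.exp r ≤ q.Z1 * 1 * E := by gcongr
          _ = _ := by ring
      · unfold sc
        simp only
        exact le_mul_of_one_le_left a4.le hE1
      · rw [eN]; gcongr
      · rw [eN, ← mul_assoc]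
        exact le_mul_of_one_le_left hN.le hr2
    have hsubsw : ∀ q q' : Qd, Qd.Sub E P (sw q) q' → Qd.Sub E P q (sw q') := by
      intro q q' hs
      have e1 : (sw q').N = q'.N := mul_comm _ _
      have e2 : (sw q).N = q.N := mul_comm _ _
      refine ⟨sw_ok hs.ok, hs.Y2, hs.Y1, hs.Z2, hs.Z1, ?_, ?_⟩
      · have := hs.le
        rw [e2] at this
        rw [e1]; exact this
      · have := hs.ge
        rw [e2] at this
        rw [e1]; exact this
    have m2 := hpart o Ps L q P t1 t2 B2 D hL0 hq hP hB2 hD0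
      (fun p hp => ⟨(hmem p hp).1.2, (hmem p hp).2.1, (hmem p hp).2.2⟩) hD1
      (fun r s hr => by
        have h1 := hfam _ s 0 (hsub q hq r hr)
        simpa using h1)
    have m3 := hpart o Ps L (sw q) P t2 t1 B2 D hL0 (sw_ok hq) hP hB2 hD0
      (fun p hp => ⟨(hmem p hp).1.2, (hmem p hp).2.1, (hmem p hp).2.2⟩) hD1
      (fun r s hr => by
        have h1 := hfam _ 0 s (hsubsw q _ (hsub (sw q) (sw_ok hq) r hr))
        rw [tdc_sw] at h1
        simpa using h1)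
    -- total
    have htot : (Ps.card : ℝ) * UQ h χ l o L q t1 t2 ≤
        3 * (D * ((L * q.Y1 * q.Y2) * (P ^ 3 * B1)) + C3 * D * B2 * (L * q.Y1 * q.Y2) +
          C3 * D * B2 * (L * q.Y2 * q.Y1)) := by
      calc (Ps.card : ℝ) * UQ h χ l o L q t1 t2 =
            ∑ p ∈ Ps, ∑ k ∈ bl L, ‖TQ h χ l o k q t1 t2‖ ^ 2 := by
            rw [Finset.sum_const, nsmul_eq_mul]; rfl
        _ ≤ ∑ p ∈ Ps, ∑ k ∈ bl L, 3 * (‖TQ h χ l o (k * p ^ 3) q t1 t2‖ ^ 2 +
          ‖TQ h χ l o (k * p) (sc q (nm p : ℝ)⁻¹) t1 t2‖ ^ 2 +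
          ‖TQ h χ l o (k * p) (sc (sw q) (nm p : ℝ)⁻¹) t2 t1‖ ^ 2) :=
            Finset.sum_le_sum fun p hp => Finset.sum_le_sum fun k _ => hsplit p hp k
        _ = 3 * (∑ p ∈ Ps, ∑ k ∈ bl L, ‖TQ h χ l o (k * p ^ 3) q t1 t2‖ ^ 2 +
            ∑ p ∈ Ps, ∑ k ∈ bl L, ‖TQ h χ l o (k * p) (sc q (nm p : ℝ)⁻¹) t1 t2‖ ^ 2 +
            ∑ p ∈ Ps, ∑ k ∈ bl L, ‖TQ h χ l o (k * p) (sc (sw q) (nm p : ℝ)⁻¹) t2 t1‖ ^ 2) := by
            simp_rw [← Finset.mul_sum, Finset.sum_add_distrib]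
        _ ≤ _ := by
            have m1' : ∑ p ∈ Ps, ∑ k ∈ bl L, ‖TQ h χ l o (k * p ^ 3) q t1 t2‖ ^ 2 ≤
                D * ((L * q.Y1 * q.Y2) * (P ^ 3 * B1)) := m1.trans (by gcongr)
            have m3' : ∑ p ∈ Ps, ∑ k ∈ bl L, ‖TQ h χ l o (k * p) (sc (sw q) (nm p : ℝ)⁻¹) t2 t1‖ ^ 2
                ≤ C3 * D * B2 * (L * q.Y2 * q.Y1) := m3
            linarith
    have hXe0 : 0 < X ^ ε0 := by positivity
    have hfin : tdc h χ l o L q t1 t2 ≤
        C4 * X ^ (3 * ε0) * (P ^ 2 * B1 + 2 * C3 * (B2 / P)) := by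
      rw [hT2, div_le_iff₀ hN0]
      have h1 : c0' * ε0 * P / X ^ ε0 * UQ h χ l o L q t1 t2 ≤
          3 * D * (L * q.Y1 * q.Y2) * (P ^ 3 * B1 + 2 * C3 * B2) := by
        have hU0 : 0 ≤ UQ h χ l o L q t1 t2 := Finset.sum_nonneg fun k _ => by positivity
        calc c0' * ε0 * P / X ^ ε0 * UQ h χ l o L q t1 t2 ≤
              (Ps.card : ℝ) * UQ h χ l o L q t1 t2 := by gcongr
          _ ≤ _ := htot
          _ = _ := by ring
      have h2 : UQ h χ l o L q t1 t2 ≤ (X ^ ε0 / (c0' * ε0 * P)) *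
          (3 * D * (L * q.Y1 * q.Y2) * (P ^ 3 * B1 + 2 * C3 * B2)) := by
        have hpos : 0 < c0' * ε0 * P / X ^ ε0 := by positivity
        have e1 : UQ h χ l o L q t1 t2 = (X ^ ε0 / (c0' * ε0 * P)) *
            (c0' * ε0 * P / X ^ ε0 * UQ h χ l o L q t1 t2) := by
          field_simp
        rw [e1]
        gcongr
      refine h2.trans (le_of_eq ?_)
      have e3 : X ^ (3 * ε0) = X ^ ε0 * X ^ (2 * ε0) := by
        rw [← Real.rpow_add hX0]; congr 1; ring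
      rw [hC4, hD, e3]
      field_simp
    calc tdc h χ l o L q t1 t2 ≤ C4 * X ^ (3 * ε0) * (P ^ 2 * B1 + 2 * C3 * (B2 / P)) := hfin
      _ ≤ C4 * X ^ ε * ((1 + 2 * C3) * (P ^ 2 * B1 + B2 / P)) := by
          have h1 : X ^ (3 * ε0) ≤ X ^ ε :=
            Real.rpow_le_rpow_of_exponent_le hX (by rw [hε0d]; linarith)
          have h2 : P ^ 2 * B1 + 2 * C3 * (B2 / P) ≤ (1 + 2 * C3) * (P ^ 2 * B1 + B2 / P) :=
            fin_aux hC3 hB10 hB20
          exact mul_le_mul (mul_le_mul_of_nonneg_left h1 hC40) h2 (by positivity) (by positivity)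
      _ ≤ _ := fin_aux2 hP0.le hXB

end Crest.Agent.R017.TXM791
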