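import Crest.Agent.R017.E3W0_271
import Crest.Agent.R017.E3Nh_146
import Crest.Agent.R017.S8pd_146
import Crest.Agent.R017.P10e_146

/-!
# Row 17, R8 / P1, class N (helper722): the T-half of the cubes between the cuts

* `LVn_cmp`, `hN_cmp` : change of `H`, of its exponent
* `tfN` : the frame `Tf` of helper146 at the datum
* `CTN` : the T-claims (conclusion of helper146's `cellT_of`)
* `FrD`, **`frN`** : the facts of a child of `Dom8 (ParS A d)` for `E3N146.thA`, `thB`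
* **`tcN`** : helper271's `TcN`; **`tnN`** : helper271's `TnN`
-/

set_option autoImplicit false
set_option linter.unusedVariables false

noncomputable section

open Finset
open scoped Classical

namespace Crest.Agent.R017.TcN722

open Crest.Agent.R012 Crest.Agent.R012.Eis
open Crest.Agent.R012.LS2 (S mem_S)
open Crest.Agent.R017.CM106
open Crest.Agent.R017.C70 (JC OKJ JW okJ_JW)
open Crest.Agent.R017.HP842 (Pc pc sqc alL)
open Crest.Agent.R017.B770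
open Crest.Agent.R017.FE47 (PU cx SM)
open Crest.Agent.R017.Prov71
open Crest.Agent.R017.ER911
open Crest.Agent.R017.Leg381 (Pf alF SF LF natl alF_natl)
open Crest.Agent.R017.XG702 (Pcs)
open Crest.Agent.R017.XT71 (Sys Win mx)
open Crest.Agent.R017.I1146 (LN Dom CellS Adm_list dom_list ds)
open Crest.Agent.R017.E1551 (Adm)
open Crest.Agent.R017.E3Z548 (TN TN_nonneg JV JVc FH FH_nonneg LVn LVn_nonneg)
open Crest.Agent.R017.E3Kc548 (LI afT)
open Crest.Agent.R017.RnP571 (hJ)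
open Crest.Agent.R017.E5B71 Crest.Agent.R017.E5L770
open Crest.Agent.R017.P1l54
open Crest.Agent.R017.P1t54 (ParS LS0)
open Crest.Agent.R017.P10146
open Crest.Agent.R017.TM708 (T5 K5 FE2L PD R5)
open Crest.Agent.R017.E3N146 (Tf ShT thA thB afT_eq)
open Crest.Agent.R017.E3W271 (OuN TnN TcN HD JD)

/-! ### change of `H` -/

lemma rp_le {x y u e : ℝ} (hx : 0 ≤ x) (hy : 0 ≤ y) (h : x ≤ Real.exp u * y) (he : 0 ≤ e) :
    x ^ e ≤ Real.exp (u * e) * y ^ e := by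
  calc x ^ e ≤ (Real.exp u * y) ^ e := Real.rpow_le_rpow hx h he
    _ = Real.exp u ^ e * y ^ e := Real.mul_rpow (Real.exp_pos u).le hy
    _ = _ := by rw [← Real.exp_mul]

lemma LVn_cmp {af : Eis → Eis → Eis → ℂ} {Ds EE : Finset Eis}
    {c Y K H H' V V' E1 B G1 s : ℝ} (hs : 0 ≤ s) (hK : 0 < K) (hH : 0 < H) (hH' : 0 < H')
    (hV : 0 < V) (hV' : 0 < V') (hE1 : 0 ≤ E1) (hG : 0 ≤ G1) (h1 : H ≤ Real.exp s * H')
    (h2 : H' ≤ Real.exp s * H) :
    LVn af Ds EE c Y K H V V' E1 B G1 0 ≤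
      Real.exp (2 * s) * LVn af Ds EE c Y K H' V V' E1 B G1 0 := by
  have hne : ∀ e : Eis, (0 : ℝ) ≤ nm e := fun e => Nat.cast_nonneg _
  have t0 := TN_nonneg af hne Ds EE (om := fun _ => (1 : ℝ))
    (fun _ => zero_le_one) {1} (JVc c V) id
  have t1 := TN_nonneg af hne Ds EE (om := fun γ => (nm γ : ℝ)⁻¹)
    (fun _ => by positivity) (primBall ⌊Y⌋₊) (JV c V) (fun _ => 1)
  have t2 := TN_nonneg af hne Ds EE (om := fun γ => (nm γ : ℝ) ^ (-(1 / 2) : ℝ))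
    (fun _ => by positivity) (primBall ⌊Y⌋₊) (JV c V) (fun _ => 1)
  have t4 := FH_nonneg hK.le hH'.le hV.le
  set F' := FH K H' V with hF'
  have hS1 : 1 ≤ Real.exp s := Real.one_le_exp hs
  have hS0 : 0 < Real.exp s := Real.exp_pos s
  have hmono : ∀ u : ℝ, u ≤ s → Real.exp u ≤ Real.exp s := fun u hu => Real.exp_le_exp.2 hu
  have f1 : FH K H V ≤ Real.exp s * F' := by
    rw [hF']
    unfold FH
    have e1 : Real.exp (-s) * (H' * V) ≤ H * V := by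
      have : Real.exp (-s) * H' ≤ H := by
        rw [Real.exp_neg, inv_mul_le_iff₀ hS0]
        exact h2
      calc Real.exp (-s) * (H' * V) = Real.exp (-s) * H' * V := by ring
        _ ≤ H * V := mul_le_mul_of_nonneg_right this hV.le
    have e2 : (H * V) ^ (-(1 / 3) : ℝ) ≤ (Real.exp (-s) * (H' * V)) ^ (-(1 / 3) : ℝ) :=
      Real.rpow_le_rpow_of_nonpos (by positivity) e1 (by norm_num)
    have e3 : (Real.exp (-s) * (H' * V)) ^ (-(1 / 3) : ℝ) =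
        Real.exp (s / 3) * (H' * V) ^ (-(1 / 3) : ℝ) := by
      rw [Real.mul_rpow (Real.exp_pos _).le (by positivity), ← Real.exp_mul]
      congr 2
      ring
    rw [e3] at e2
    have e4 : (H * V) ^ (-(1 / 3) : ℝ) ≤ Real.exp s * (H' * V) ^ (-(1 / 3) : ℝ) := by
      refine e2.trans (mul_le_mul_of_nonneg_right (hmono _ (by linarith)) (by positivity))
    calc _ ≤ K ^ (2 / 3 : ℝ) * (Real.exp s * (H' * V) ^ (-(1 / 3) : ℝ)) :=
          mul_le_mul_of_nonneg_left e4 (by positivity)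
      _ = _ := by ring
  have a1 : (H * (V / V')) ^ (1 / 3 : ℝ) ≤ Real.exp s * (H' * (V / V')) ^ (1 / 3 : ℝ) := by
    refine (rp_le (u := s) (by positivity) (y := H' * (V / V')) (by positivity) ?_
      (by norm_num)).trans ?_
    · rw [← mul_assoc]
      exact mul_le_mul_of_nonneg_right h1 (by positivity)
    · exact mul_le_mul_of_nonneg_right (hmono _ (by linarith)) (by positivity)
  have a2 : (H * V ^ 2 * V' * E1 ^ 3 * B ^ 2 / K ^ 2) ^ (1 / 3 : ℝ) ≤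
      Real.exp s * (H' * V ^ 2 * V' * E1 ^ 3 * B ^ 2 / K ^ 2) ^ (1 / 3 : ℝ) := by
    refine (rp_le (u := s) (by positivity) (y := H' * V ^ 2 * V' * E1 ^ 3 * B ^ 2 / K ^ 2)
      (by positivity) ?_ (by norm_num)).trans ?_
    · have e : H * V ^ 2 * V' * E1 ^ 3 * B ^ 2 / K ^ 2 =
          H * (V ^ 2 * V' * E1 ^ 3 * B ^ 2 / K ^ 2) := by ring
      have e' : Real.exp s * (H' * V ^ 2 * V' * E1 ^ 3 * B ^ 2 / K ^ 2) =
          Real.exp s * H' * (V ^ 2 * V' * E1 ^ 3 * B ^ 2 / K ^ 2) := by ring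
      rw [e, e']
      exact mul_le_mul_of_nonneg_right h1 (by positivity)
    · exact mul_le_mul_of_nonneg_right (hmono _ (by linarith)) (by positivity)
  have hsq : H ^ 2 * V ^ 3 / K ^ 2 ≤ Real.exp (2 * s) * (H' ^ 2 * V ^ 3 / K ^ 2) := by
    have e : Real.exp (2 * s) = Real.exp s ^ 2 := by
      rw [← Real.exp_nat_mul]; norm_num
    have e1 : H ^ 2 ≤ (Real.exp s * H') ^ 2 := pow_le_pow_left₀ hH.le h1 2
    have e2 : H ^ 2 * V ^ 3 / K ^ 2 = H ^ 2 * (V ^ 3 / K ^ 2) := by ring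
    have e3 : Real.exp (2 * s) * (H' ^ 2 * V ^ 3 / K ^ 2) =
        (Real.exp s * H') ^ 2 * (V ^ 3 / K ^ 2) := by rw [e]; ring
    rw [e2, e3]
    exact mul_le_mul_of_nonneg_right e1 (by positivity)
  have a3 : (H ^ 2 * V ^ 3 / K ^ 2) ^ (1 / 3 : ℝ) ≤
      Real.exp s * (H' ^ 2 * V ^ 3 / K ^ 2) ^ (1 / 3 : ℝ) := by
    refine (rp_le (u := 2 * s) (by positivity) (by positivity) hsq (by norm_num)).trans ?_
    exact mul_le_mul_of_nonneg_right (hmono _ (by linarith)) (by positivity)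
  have a4 : (H ^ 2 * V ^ 3 / K ^ 2) ^ (1 / 2 : ℝ) ≤
      Real.exp s * (H' ^ 2 * V ^ 3 / K ^ 2) ^ (1 / 2 : ℝ) := by
    refine (rp_le (u := 2 * s) (by positivity) (by positivity) hsq (by norm_num)).trans ?_
    exact mul_le_mul_of_nonneg_right (hmono _ (by linarith)) (by positivity)
  unfold LVn
  rw [← hF']
  set T0 := TN af (fun e => (nm e : ℝ)) Ds EE (fun _ => 1) {1} (JVc c V) id
  set T1 := TN af (fun e => (nm e : ℝ)) Ds EE (fun γ => (nm γ : ℝ)⁻¹) (primBall ⌊Y⌋₊) (JV c V)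
    (fun _ => 1)
  set T2 := TN af (fun e => (nm e : ℝ)) Ds EE (fun γ => (nm γ : ℝ) ^ (-(1 / 2) : ℝ))
    (primBall ⌊Y⌋₊) (JV c V) (fun _ => 1)
  set xa := (H * (V / V')) ^ (1 / 3 : ℝ)
  set xa' := (H' * (V / V')) ^ (1 / 3 : ℝ)
  set xb := (H * V ^ 2 * V' * E1 ^ 3 * B ^ 2 / K ^ 2) ^ (1 / 3 : ℝ)
  set xb' := (H' * V ^ 2 * V' * E1 ^ 3 * B ^ 2 / K ^ 2) ^ (1 / 3 : ℝ)
  set xc := (H ^ 2 * V ^ 3 / K ^ 2) ^ (1 / 3 : ℝ)
  set xc' := (H' ^ 2 * V ^ 3 / K ^ 2) ^ (1 / 3 : ℝ)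
  set xd := (H ^ 2 * V ^ 3 / K ^ 2) ^ (1 / 2 : ℝ)
  set xd' := (H' ^ 2 * V ^ 3 / K ^ 2) ^ (1 / 2 : ℝ)
  have n1 : 0 ≤ xa' := Real.rpow_nonneg (by positivity) _
  have n2 : 0 ≤ xb' := Real.rpow_nonneg (by positivity) _
  have n3 : 0 ≤ xc' := Real.rpow_nonneg (by positivity) _
  have n4 : 0 ≤ xd' := Real.rpow_nonneg (by positivity) _
  have m1 : 0 ≤ xa := Real.rpow_nonneg (by positivity) _
  have m2 : 0 ≤ xb := Real.rpow_nonneg (by positivity) _
  have m3 : 0 ≤ xc := Real.rpow_nonneg (by positivity) _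
  have m4 : 0 ≤ xd := Real.rpow_nonneg (by positivity) _
  have w0 : 0 ≤ V' / K * (E1 ^ 2 * B ^ 2 * G1) := by positivity
  have b0 : (1 + xa * (V' / K) * (E1 ^ 2 * B ^ 2 * G1) + xb) * T0 ≤
      Real.exp s * ((1 + xa' * (V' / K) * (E1 ^ 2 * B ^ 2 * G1) + xb') * T0) := by
    refine le_trans (mul_le_mul_of_nonneg_right (b := 1 + xa * (V' / K) *
      (E1 ^ 2 * B ^ 2 * G1) + xb) (c := Real.exp s * (1 + xa' * (V' / K) *
      (E1 ^ 2 * B ^ 2 * G1) + xb')) ?_ t0) (le_of_eq (mul_assoc _ _ _))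
    have := mul_le_mul_of_nonneg_right a1 w0
    have e1 : xa * (V' / K) * (E1 ^ 2 * B ^ 2 * G1) = xa * (V' / K * (E1 ^ 2 * B ^ 2 * G1)) := by
      ring
    have e2 : Real.exp s * (1 + xa' * (V' / K) * (E1 ^ 2 * B ^ 2 * G1) + xb') =
        Real.exp s + Real.exp s * xa' * (V' / K * (E1 ^ 2 * B ^ 2 * G1)) + Real.exp s * xb' := by
      ring
    rw [e1, e2]
    linarith
  have b1 : (1 + xc) * T1 ≤ Real.exp s * ((1 + xc') * T1) := by
    rw [← mul_assoc]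
    refine mul_le_mul_of_nonneg_right ?_ t1
    have e2 : Real.exp s * (1 + xc') = Real.exp s + Real.exp s * xc' := by ring
    rw [e2]
    linarith
  have b2 : xd * T2 ≤ Real.exp s * (xd' * T2) := by
    rw [← mul_assoc]
    exact mul_le_mul_of_nonneg_right a4 t2
  have p0 : 0 ≤ (1 + xa * (V' / K) * (E1 ^ 2 * B ^ 2 * G1) + xb) * T0 := by
    refine mul_nonneg ?_ t0
    have : 0 ≤ xa * (V' / K * (E1 ^ 2 * B ^ 2 * G1)) := mul_nonneg m1 w0
    have e1 : xa * (V' / K) * (E1 ^ 2 * B ^ 2 * G1) = xa * (V' / K * (E1 ^ 2 * B ^ 2 * G1)) := by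
      ring
    rw [e1]
    linarith
  have p1 : 0 ≤ (1 + xc) * T1 := mul_nonneg (by linarith) t1
  have p2 : 0 ≤ xd * T2 := mul_nonneg m4 t2
  have e2s : Real.exp (2 * s) = Real.exp s * Real.exp s := by
    rw [← Real.exp_add]; congr 1; ring
  rw [e2s, add_zero, add_zero]
  calc _ ≤ (Real.exp s * F') * (Real.exp s * ((1 + xa' * (V' / K) * (E1 ^ 2 * B ^ 2 * G1) +
        xb') * T0 + (1 + xc') * T1 + xd' * T2)) := by
        refine mul_le_mul f1 ?_ (by linarith) (by positivity)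
        have e : Real.exp s * ((1 + xa' * (V' / K) * (E1 ^ 2 * B ^ 2 * G1) +
          xb') * T0 + (1 + xc') * T1 + xd' * T2) =
          Real.exp s * ((1 + xa' * (V' / K) * (E1 ^ 2 * B ^ 2 * G1) + xb') * T0) +
          Real.exp s * ((1 + xc') * T1) + Real.exp s * (xd' * T2) := by ring
        rw [e]
        linarith
    _ = _ := by ring

lemma hN_cmp {cc l p x x' E E' s : ℝ} {i : ℕ} {d : Eis} (h1 : |x - x'| ≤ s) (h2 : |E - E'| ≤ s) :
    E3N146.hN cc l p x E i d ≤ E3N146.hN cc l p x' E' i d + 4 * s := by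
  have hs : 0 ≤ s := (abs_nonneg _).trans h1
  obtain ⟨a1, a2⟩ := abs_le.1 h1
  obtain ⟨b1, b2⟩ := abs_le.1 h2
  unfold E3N146.hN
  split_ifs with h
  · unfold RnP571.hJ
    refine max_le ?_ ?_
    · have := le_max_left (l / 64) (4 / 3 * (p - Real.log (nm d)) - l + x' - 3 * E')
      linarith
    · have := le_max_right (l / 64) (4 / 3 * (p - Real.log (nm d)) - l + x' - 3 * E')
      linarith
  · linarith

/-! ### the frame -/

lemma tfN {κ N x L δ l n vt : ℝ} (hL : 0 < L) (hδ : 0 ≤ δ) (hδ' : δ ≤ 1 / 10000000)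
    (hκ0 : 8 / 9 ≤ κ) (hN0 : 3 / 4 * κ ≤ N) (hN1 : N ≤ 84 / 103 * κ) (hx0 : 0 ≤ x)
    (hx : x = 0 ∨ (x ≤ 1 / 36 * κ ∧ x + 7 / 10 * N ≤ 199 / 360 * κ ∧ N + x ≤ 15 / 19 * κ))
    (hl : |l - κ * L| ≤ δ * L) (hlo : (κ / 2 - 2 * x) * L - 4 * (δ * L) ≤ n)
    (hhi : n ≤ (N + x) * L + 4 * (δ * L))
    (hvt : vt ≤ (min (2 * N - κ) (3 / 4 * N) + 11 / 5 * x) * L + 30 * (δ * L)) :
    Tf l (N * L + 3 / 4 * (δ * L)) (max 0 (x * L - 2 * (δ * L)))
      (max 0 (5 / 4 * (N * L + 3 / 4 * (δ * L)) - l)) vt n (40 * (δ * L)) := by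
  obtain ⟨l1, l2⟩ := abs_le.1 hl
  have hδL : 0 ≤ δ * L := by positivity
  have hδL' : δ * L ≤ 1 / 10000000 * L := mul_le_mul_of_nonneg_right hδ' hL.le
  have kL := mul_le_mul_of_nonneg_right hκ0 hL.le
  have N0L := mul_le_mul_of_nonneg_right hN0 hL.le
  have N1L := mul_le_mul_of_nonneg_right hN1 hL.le
  have x0L := mul_nonneg hx0 hL.le
  have m1 := mul_le_mul_of_nonneg_right (min_le_left (2 * N - κ) (3 / 4 * N)) hL.le
  have m2 := mul_le_mul_of_nonneg_right (min_le_right (2 * N - κ) (3 / 4 * N)) hL.le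
  have M0 := le_max_left 0 (x * L - 2 * (δ * L))
  have M1 := le_max_right 0 (x * L - 2 * (δ * L))
  refine ⟨by linarith, M0, by linarith, ?_, le_max_left _ _, le_max_right _ _, by linarith,
    by linarith, by linarith, by linarith, by linarith, by linarith⟩
  rcases le_total (x * L - 2 * (δ * L)) 0 with h | h
  · left
    rw [max_eq_left h]
    exact ⟨by linarith, Or.inl rfl⟩
  · rcases hx with hx | ⟨h1, h2, h3⟩
    · left
      have : x * L - 2 * (δ * L) = 0 := by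
        refine le_antisymm ?_ h
        rw [hx]
        linarith
      rw [this, max_self]
      exact ⟨by linarith, Or.inl rfl⟩
    · right
      rw [max_eq_right h]
      have h1L := mul_le_mul_of_nonneg_right h1 hL.le
      have h2L := mul_le_mul_of_nonneg_right h2 hL.le
      exact ⟨by linarith, by linarith, by linarith⟩

/-- the lines of the size -/
lemma topN {κ N x L δ τ vt cs : ℝ} (hL : 0 < L) (hδ : 0 ≤ δ) (hδτ : 100 * δ ≤ τ)
    (hδ' : δ ≤ 1 / 10000000) (hκ0 : 8 / 9 ≤ κ) (hκ1 : κ ≤ 1)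
    (hN0 : 3 / 4 * κ ≤ N) (hN1 : N ≤ 84 / 103 * κ) (hx0 : 0 ≤ x)
    (hx : x = 0 ∨ (x ≤ 1 / 36 * κ ∧ x + 7 / 10 * N ≤ 199 / 360 * κ ∧ N + x ≤ 15 / 19 * κ))
    (hvt : vt ≤ (min (2 * N - κ) (3 / 4 * N) + 11 / 5 * x) * L + 30 * (δ * L))
    (hcs : cs ≤ δ * L) :
    vt + cs ≤ (min (2 * N - κ) (3 / 4 * N) + 5 * x + τ) * L ∧
      vt + cs ≤ (max κ (5 / 4 * N) - N / 2 - x + 3 * 0 + τ) * L ∧ vt + cs ≤ L ∧
      (N + x) * L + 4 * (δ * L) ≤ L := by
  have hδL : 0 ≤ δ * L := by positivity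
  have hδL' : δ * L ≤ 1 / 10000000 * L := mul_le_mul_of_nonneg_right hδ' hL.le
  have hτL : 100 * (δ * L) ≤ τ * L := by
    have := mul_le_mul_of_nonneg_right hδτ hL.le
    linarith
  have kL := mul_le_mul_of_nonneg_right hκ0 hL.le
  have k1L := mul_le_mul_of_nonneg_right hκ1 hL.le
  have N0L := mul_le_mul_of_nonneg_right hN0 hL.le
  have N1L := mul_le_mul_of_nonneg_right hN1 hL.le
  have x0L := mul_nonneg hx0 hL.le
  have m1 := mul_le_mul_of_nonneg_right (min_le_left (2 * N - κ) (3 / 4 * N)) hL.le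
  have m2 := mul_le_mul_of_nonneg_right (min_le_right (2 * N - κ) (3 / 4 * N)) hL.le
  have g1 := mul_le_mul_of_nonneg_right (le_max_left κ (5 / 4 * N)) hL.le
  have g2 := mul_le_mul_of_nonneg_right (le_max_right κ (5 / 4 * N)) hL.le
  have hxx : x * L = 0 ∨ (x * L ≤ 1 / 36 * (κ * L) ∧ x * L + 7 / 10 * (N * L) ≤
      199 / 360 * (κ * L) ∧ N * L + x * L ≤ 15 / 19 * (κ * L)) := by
    rcases hx with hx | ⟨h1, h2, h3⟩
    · left; rw [hx, zero_mul]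
    · right
      have h1L := mul_le_mul_of_nonneg_right h1 hL.le
      have h2L := mul_le_mul_of_nonneg_right h2 hL.le
      have h3L := mul_le_mul_of_nonneg_right h3 hL.le
      exact ⟨by linarith, by linarith, by linarith⟩
  refine ⟨by linarith, ?_, ?_, ?_⟩
  · rcases hxx with h | ⟨h1, h2, h3⟩
    · rcases le_total (5 / 4 * (N * L)) (κ * L) with hc | hc <;> linarith
    · linarith
  · rcases hxx with h | ⟨h1, h2, h3⟩ <;> linarith
  · rcases hxx with h | ⟨h1, h2, h3⟩ <;> linarith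

variable {Λ : Type*}

/-- **the T-claims with the own family** (conclusion of helper146's `cellT_of`) -/
def CTN (π : Λ → DPar) (h : ℝ → ℝ) (D5 : Set (Fin 5 → ℝ)) (ℓ : (Fin 5 → ℝ) → ℝ) : Prop :=
  ∀ ε : ℝ, 0 < ε → ∃ τ : ℝ, 0 < τ ∧ τ ≤ ε ∧ ∀ (lam : Λ) (N : ℕ) (B : ℝ),
    ∃ M₀ : ℕ, ∀ r : ℝ, 0 ≤ r → ∃ X₀ : ℝ, 1 < X₀ ∧ ∀ X : ℝ, X₀ ≤ X → ∀ b ∈ D5, ∀ (q : Eis)
      (us : Fin 3 → Pq) (gs : List Pq) (κ H : ℝ), PD X τ B H N b q us gs κ → ∀ T θ : ℝ, 0 ≤ θ →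
      T ≤ (T5 b + τ) * Real.log X →
      T ≤ (K5 b - (b 1 + b 2 + b 3) / 2 - b 4 + 3 * θ + τ) * Real.log X →
      ∀ M : ℝ, (M₀ : ℝ) ≤ M → ∀ E k5 x um : ℝ, |k5 - K5 b * Real.log X| ≤ τ * Real.log X →
      |x - b 4 * Real.log X| ≤ τ * Real.log X →
      min (us 0).z (min (us 1).z (us 2).z) ≤ um + τ * Real.log X →
      CellS h (π lam) q ([us 0, us 1, us 2] ++ gs) (X ^ B) r M T E
        (H ^ M₀ * X ^ (θ + ℓ b + ε)) (ShT k5 x um (LN ([us 0, us 1, us 2] ++ gs)))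

/-- the parent of a configuration -/
def pr8 (q : ((Fin 3 ⊕ Fin 5) ⊕ Fin 3 → ℝ) × (Kd → ℝ)) : Fin 3 ⊕ Fin 5 → ℝ :=
  fun i => q.1 (.inl i)

/-- the length of the frame -/
def NT (δ L : ℝ) (p : Fin 3 ⊕ Fin 5 → ℝ) : ℝ := cN p * L + 3 / 4 * (δ * L)

/-- the share of the frame -/
def xT (δ L : ℝ) (p : Fin 3 ⊕ Fin 5 → ℝ) : ℝ := max 0 (cx' p * L - 2 * (δ * L))

/-- the excess of the frame -/
def eT (δ L l : ℝ) (p : Fin 3 ⊕ Fin 5 → ℝ) : ℝ := max 0 (5 / 4 * NT δ L p - l)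

/-- the top level of the frame -/
def vT (a : Bc) : ℝ := 1 + nO a.1 * Real.log 2

/-- **the facts of a child** -/
structure FrD (π : Λ → DPar) (h : ℝ → ℝ) (Rh : ℝ) (ℓ : (Fin 5 → ℝ) → ℝ)
    (cc B₂ M r δ ε X : ℝ) (lam : Λ × Eis) (N : ℕ) (a : Bc) (qs : List Pq)
    (q : ((Fin 3 ⊕ Fin 5) ⊕ Fin 3 → ℝ) × (Kd → ℝ)) : Prop where
  X3 : 3 ≤ X
  len : (cl a qs).length ≤ N + 3
  cz : ∀ p ∈ cl a qs, 0 ≤ p.z ∧ p.z ≤ Real.log X
  Y1 : 1 ≤ Yc Rh a qs
  YX : Yc Rh a qs ≤ X ^ B₂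
  WX : cc * Real.exp (vT a) * (nm lam.2 : ℝ) ^ 2 ≤ X
  tf : Tf a.1.l (NT δ (Real.log X) (pr8 q)) (xT δ (Real.log X) (pr8 q))
    (eT δ (Real.log X) a.1.l (pr8 q)) (vT a) (LN (cl a qs)) (40 * (δ * Real.log X))
  kl : |a.1.l - cκ (pr8 q) * Real.log X| ≤ δ * Real.log X
  zl : |a.1.z - xT δ (Real.log X) (pr8 q)| ≤ 3 * (δ * Real.log X)
  Al : |a3 a.1 - NT δ (Real.log X) (pr8 q)| ≤ 4 * (δ * Real.log X)
  nl : |LN (cl a qs) - (∑ i : Fin 3, q.1 (.inr i) + q.2 .am) * Real.log X| ≤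
    4 * (δ * Real.log X)
  cell : ∃ F : ℝ, 0 ≤ F ∧ F ≤ X ^ (ℓ (bP (pr8 q)) + 2 * ε) ∧
    CellS h (π lam.1) 1 (cl a qs) (X ^ B₂) r M
      (Real.log (cc * Real.exp (vT a) * (nm lam.2 : ℝ) ^ 2)) (B₂ * Real.log X) F
      (ShT (a.1.l + eT δ (Real.log X) a.1.l (pr8 q)) (xT δ (Real.log X) (pr8 q))
        (min (a.2 0).z (min (a.2 1).z (a.2 2).z)) (LN (cl a qs)))
  dom : Dom ((nm lam.2 : ℝ) ^ 2) ((ds lam.2).card : ℝ)
    (sqc 1 (alF 1 1 (π lam.1) h (natl (cl a qs)))) (alC π h lam a qs)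
  adm : Adm (Yc Rh a qs) (Real.exp (LN (cl a qs))) (2 * (((N + 3 : ℕ) : ℝ) * Rh))
    (alC π h lam a qs)

set_option maxHeartbeats 2000000 in
/-- **the frame of a child** -/
theorem frN {π : Λ → DPar} {h : ℝ → ℝ} {c₀ : ℝ} (hpu : PU h c₀) (hP : ∀ lam, (π lam).OK)
    {Rh : ℝ} (hRh0 : 0 ≤ Rh) (hRh : ∀ u, cx h u ≠ 0 → |u| ≤ Rh) {A d : ℝ} (hd : 0 ≤ d)
    (hd1 : d ≤ 1 / 8) (hA1 : 16 * (1 - A) ≤ d) {ℓ : (Fin 5 → ℝ) → ℝ}
    (hCT : CTN π h D5 ℓ) {ε δ₀ : ℝ} (hε : 0 < ε) (hδ₀ : 0 < δ₀) :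
    ∃ δ : ℝ, 0 < δ ∧ δ ≤ δ₀ ∧ δ ≤ 1 / 10000000 ∧
    ∀ (lam : Λ × Eis) (N : ℕ) (B cc : ℝ), 1 ≤ cc → lam.2 ≠ 0 →
    ∃ B₂ M : ℝ, 1 ≤ B₂ ∧ 0 ≤ M ∧ ∀ r : ℝ, 0 ≤ r →
    ∃ δ' : ℝ, 0 < δ' ∧ ∃ X₀ : ℝ, 1 < X₀ ∧ ∀ X : ℝ, X₀ ≤ X → ∀ (a : Bc) (qs : List Pq),
      qs.length ≤ N → (∀ p ∈ qs, Dq.lump p ∨ Dq.nl X p ≤ δ) → ∀ q ∈ Dom8 (ParS A d),
      Win S8 q.1 δ N B δ' X a → (∀ t, |Dq.mass X qs t - q.2 t| ≤ δ) → Dq.Good X δ' B qs →
      (∀ p ∈ qs, Dq.lump p → (S8.ev X a, Dq.nl X p) ∈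
        (∅ : Set (((Fin 3 ⊕ Fin 5) ⊕ Fin 3 → ℝ) × ℝ))) →
      okC (π lam.1) lam.2 a qs → FrD π h Rh ℓ cc B₂ M r δ ε X lam N a qs q := by
  obtain ⟨τ, hτ, hτε, hCT⟩ := hCT ε hε
  obtain ⟨δ, hδ, hδ1, hδ2, hδτ⟩ : ∃ δ : ℝ, 0 < δ ∧ δ ≤ δ₀ ∧ δ ≤ 1 / 10000000 ∧ δ ≤ τ / 100 :=
    ⟨min δ₀ (min (1 / 10000000) (τ / 100)), lt_min hδ₀ (lt_min (by norm_num) (by positivity)),
      min_le_left _ _, (min_le_right _ _).trans (min_le_left _ _),
      (min_le_right _ _).trans (min_le_right _ _)⟩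
  refine ⟨δ, hδ, hδ1, hδ2, ?_⟩
  intro lam N B cc hcc hs0
  set B₂ : ℝ := max B 3 with hB₂
  have hB3 : 3 ≤ B₂ := le_max_right _ _
  have hB0 : 0 < B₂ := by linarith
  obtain ⟨M₀, hCT⟩ := hCT lam.1 N B₂
  refine ⟨B₂, M₀, by linarith, Nat.cast_nonneg _, fun r hr => ?_⟩
  obtain ⟨X₁, hX₁, hCT⟩ := hCT r hr
  set δ' : ℝ := ε / ((M₀ : ℝ) + 1) with hδ'
  have hM0 : (0 : ℝ) ≤ M₀ := Nat.cast_nonneg _
  have hδ'0 : 0 < δ' := by positivity
  have hsn : (1 : ℝ) ≤ (nm lam.2 : ℝ) ^ 2 := one_le_pow₀ (by exact_mod_cast nm_pos.2 hs0)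
  set cs : ℝ := Real.log cc + Real.log ((nm lam.2 : ℝ) ^ 2) with hcs
  have hcc0 : 0 < cc := by linarith
  have hcs0 : 0 ≤ cs := add_nonneg (Real.log_nonneg hcc) (Real.log_nonneg hsn)
  set Q : ℝ := 2 + (((N + 3 : ℕ) : ℝ) * Rh + 1) + (cs + 3) / δ with hQ
  have hQ1 : 0 ≤ ((N + 3 : ℕ) : ℝ) * Rh + 1 := by positivity
  have hQ2 : 0 ≤ (cs + 3) / δ := by positivity
  refine ⟨δ', hδ'0, max X₁ (Real.exp Q), hX₁.trans_le (le_max_left _ _), ?_⟩
  intro X hX a qs hlen hgl q hq hw hm hg hl hok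
  have hX1' : X₁ ≤ X := (le_max_left _ _).trans hX
  have hXQ : Real.exp Q ≤ X := (le_max_right _ _).trans hX
  have hX1 : 1 < X := by linarith
  have hX0 : 0 < X := by linarith
  obtain ⟨hF8, hPD⟩ := s8_frame (P := π lam.1) (s := lam.2) (τ := τ) hX1 hδ.le (by linarith)
    hδ'0.le hlen hgl hq hw hm hg hl hok
  set L := Real.log X with hL
  have hQL : Q ≤ L := by
    have := Real.log_le_log (Real.exp_pos Q) hXQ
    rwa [Real.log_exp] at this
  have hL2 : 2 ≤ L := by linarith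
  have hL0 : 0 < L := by linarith
  have hX3 : 3 ≤ X := by
    have h1 : Real.exp 2 ≤ X := (Real.exp_le_exp.2 (by linarith)).trans hXQ
    have h2 := Real.add_one_le_exp 2
    linarith
  have hcsL : cs + 3 ≤ δ * L := by
    have h1 : (cs + 3) / δ ≤ L := by linarith
    rw [div_le_iff₀ hδ] at h1
    linarith
  have hδL : 0 ≤ δ * L := by positivity
  have hτL : 100 * (δ * L) ≤ τ * L := by
    have := mul_le_mul_of_nonneg_right (show 100 * δ ≤ τ by linarith) hL0.le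
    linarith
  have hlog2 : 0 < Real.log 2 := Real.log_pos (by norm_num)
  have hlog2' : Real.log 2 ≤ 1 := by
    have := Real.log_two_lt_d9
    linarith
  obtain ⟨hbok, hsm, hlmp, hamq⟩ := hok
  have hpar : pr8 q ∈ ParS A d := hq.1
  set p : Fin 3 ⊕ Fin 5 → ℝ := pr8 q with hp
  have hF8' : F8 X δ L p (∑ i : Fin 3, q.1 (.inr i) + q.2 .am) a qs := hF8
  have hPD' : PD X τ B₂ (X ^ δ') N (bP p) 1 a.2 qs a.1.l := hPD
  obtain ⟨k0, k1, u4, u34, u23, y27, n0, n1, x0, hx⟩ := sq_facts hd hd1 hA1 hpar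
  set n := LN (cl a qs) with hn
  obtain ⟨kl1, kl2⟩ := abs_le.1 hF8'.hκ
  obtain ⟨zl1, zl2⟩ := abs_le.1 hF8'.hx
  obtain ⟨Al1, Al2⟩ := abs_le.1 hF8'.hN
  have x0L := mul_nonneg x0 hL0.le
  have htop0 : 0 ≤ top5 p := by
    unfold E5L770.top5
    have : 0 ≤ min (2 * cN p - cκ p) (3 / 4 * cN p) := le_min (by linarith) (by linarith)
    linarith
  have hvt : vT a ≤ (min (2 * cN p - cκ p) (3 / 4 * cN p) + 11 / 5 * cx' p) * L +
      30 * (δ * L) := by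
    have h1 := hF8'.top
    rw [max_eq_right htop0] at h1
    unfold vT
    unfold E5L770.top5 at h1
    have e : (nO a.1 : ℝ) * Real.log 2 = Real.log 2 * nO a.1 := mul_comm _ _
    rw [e]
    linarith
  have hTf := tfN (κ := cκ p) (N := cN p) (x := cx' p) (L := L) (δ := δ) (l := a.1.l) (n := n)
    (vt := vT a) hL0 hδ.le hδ2 k0 n0 n1 x0 hx hF8'.hκ hF8'.lo hF8'.hi hvt
  obtain ⟨T1, T2, T3, T4⟩ := topN (κ := cκ p) (N := cN p) (x := cx' p) (L := L) (δ := δ)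
    (τ := τ) (vt := vT a) (cs := cs) hL0 hδ.le (by linarith) hδ2 k0 k1 n0 n1 x0 hx hvt
    (by linarith)
  have hnL : n ≤ L := hF8'.hi.trans T4
  have hlT : Real.log (cc * Real.exp (vT a) * (nm lam.2 : ℝ) ^ 2) = vT a + cs := by
    rw [Real.log_mul (by positivity) (by positivity),
      Real.log_mul hcc0.ne' (Real.exp_pos _).ne', Real.log_exp, hcs]
    ring
  have hxT : |xT δ L p - cx' p * L| ≤ 2 * (δ * L) := by
    unfold xT
    rw [abs_le]
    have M0 := le_max_left 0 (cx' p * L - 2 * (δ * L))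
    have M1 := le_max_right 0 (cx' p * L - 2 * (δ * L))
    constructor
    · linarith
    · have : max 0 (cx' p * L - 2 * (δ * L)) ≤ cx' p * L := max_le x0L (by linarith)
      linarith
  have hcz : ∀ p' ∈ cl a qs, 0 ≤ p'.z := by
    intro p' hp'
    unfold cl at hp'
    rcases List.mem_append.1 hp' with h1 | h1
    · obtain ⟨i, rfl⟩ := List.mem_ofFn.1 h1
      exact (hlmp i).2
    · exact (hg p' h1).2.2
  have hlen3 : (cl a qs).length ≤ N + 3 := by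
    unfold cl
    rw [List.length_append, List.length_ofFn]
    omega
  have hn0 : 0 ≤ n := by
    rw [hn]
    unfold LN
    refine List.sum_nonneg fun x hx => ?_
    obtain ⟨p', hp', rfl⟩ := List.mem_map.1 hx
    exact hcz p' hp'
  have hlR : ((cl a qs).length : ℝ) * Rh ≤ ((N + 3 : ℕ) : ℝ) * Rh :=
    mul_le_mul_of_nonneg_right (by exact_mod_cast hlen3) hRh0
  have hdom := dom_list (hP lam.1) h hsm 1 (cl a qs)
  refine ⟨hX3, hlen3, ?_, ?_, ?_, ?_, hTf, hF8'.hκ, ?_, ?_, hF8'.hn, ?_, hdom, ?_⟩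
  · intro p' hp'
    refine ⟨hcz p' hp', le_trans ?_ hnL⟩
    rw [hn]
    unfold LN
    refine List.single_le_sum ?_ _ (List.mem_map.2 ⟨p', hp', rfl⟩)
    intro x hx
    obtain ⟨p'', hp'', rfl⟩ := List.mem_map.1 hx
    exact hcz p'' hp''
  · refine Real.one_le_exp ?_
    have : 0 ≤ ((cl a qs).length : ℝ) * Rh := by positivity
    linarith
  · rw [Real.rpow_def_of_pos hX0, ← hL]
    refine Real.exp_le_exp.2 ?_
    have : L * 3 ≤ L * B₂ := mul_le_mul_of_nonneg_left hB3 hL0.le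
    linarith
  · rw [← Real.exp_log (show 0 < cc * Real.exp (vT a) * (nm lam.2 : ℝ) ^ 2 by positivity),
      ← Real.exp_log hX0, hlT]
    exact Real.exp_le_exp.2 T3
  · obtain ⟨g1, g2⟩ := abs_le.1 hxT
    rw [abs_le]
    constructor <;> linarith
  · unfold NT
    rw [abs_le]
    constructor <;> linarith
  · refine ⟨(X ^ δ') ^ M₀ * X ^ (0 + ℓ (bP p) + ε), by positivity, ?_, ?_⟩
    · rw [← Real.rpow_natCast, ← Real.rpow_mul hX0.le, ← Real.rpow_add hX0]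
      refine Real.rpow_le_rpow_of_exponent_le hX1.le ?_
      have h1 : δ' * M₀ ≤ ε := by
        rw [hδ', div_mul_eq_mul_div, div_le_iff₀ (by positivity)]
        nlinarith
      linarith
    · have key := hCT X hX1' (bP p) (bP_mem hd hd1 hA1 hpar) 1 a.2 qs a.1.l (X ^ δ') hPD'
        (Real.log (cc * Real.exp (vT a) * (nm lam.2 : ℝ) ^ 2)) 0 le_rfl
        (by rw [hlT]; exact T1) (by rw [hlT]; exact T2) M₀ le_rfl (B₂ * Real.log X)
        (a.1.l + eT δ L a.1.l p) (xT δ L p) (min (a.2 0).z (min (a.2 1).z (a.2 2).z))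
        (by
          have hK5 : K5 (bP p) = max (cκ p) (5 / 4 * cN p) := rfl
          have e1 : a.1.l + eT δ L a.1.l p = max a.1.l (5 / 4 * NT δ L p) := by
            unfold eT
            rw [← max_add_add_left, add_zero, add_sub_cancel]
          rw [hK5, e1, ← hL, max_mul_of_nonneg _ _ hL0.le]
          refine (abs_max_sub_max_le_max _ _ _ _).trans (max_le ?_ ?_)
          · linarith [hF8'.hκ]
          · have e : 5 / 4 * NT δ L p - 5 / 4 * cN p * L = 15 / 16 * (δ * L) := by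
              unfold NT; ring
            rw [e, abs_of_nonneg (by positivity)]
            linarith)
        (by
          show |xT δ L p - cx' p * Real.log X| ≤ _
          rw [← hL]
          linarith)
        (by rw [← hL]; linarith [show 0 ≤ τ * L by positivity])
      have hcl : [a.2 0, a.2 1, a.2 2] ++ qs = cl a qs := by
        unfold cl
        simp [List.ofFn_succ]
      rw [hcl] at key
      exact key
  · have hadm1 := Adm_list (h := h) (N := N + 3) hRh0 hRh (π lam.1) 1 (ps := cl a qs)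
      hlen3 (Y := max (Yc Rh a qs) (Real.exp (n + ((N + 3 : ℕ) : ℝ) * Rh))) (le_max_right _ _)
    have hadm2 := Adm_list (h := h) (N := (cl a qs).length) hRh0 hRh (π lam.1) 1 (ps := cl a qs)
      le_rfl (Y := Yc Rh a qs) (Real.exp_le_exp.2 (by linarith))
    have hne : ∀ m, alC π h lam a qs m ≠ 0 →
        sqc 1 (alF 1 1 (π lam.1) h (natl (cl a qs))) m ≠ 0 := by
      intro m hm h0
      apply hm
      have := hdom.le m
      rw [h0, norm_zero] at this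
      exact norm_le_zero_iff.1 this
    exact ⟨fun m hm => hadm2.sup m (hne m hm), fun m hm => hadm1.win m (hne m hm)⟩

/-! ### the levels -/

lemma mem_LI_le {n i : ℕ} (h : i ∈ LI (1 / 10) (2 ^ n)) : (i : ℝ) ≤ 1 + n * Real.log 2 := by
  have h1 := (mem_filter.1 h).2.2
  have h2 : Real.exp (i : ℝ) ≤ Real.exp (1 + n * Real.log 2) := by
    rw [Real.exp_add, Real.exp_nat_mul, Real.exp_log (by norm_num)]
    exact h1
  exact Real.exp_le_exp.1 h2

lemma card_LI_le {n : ℕ} : ((LI (1 / 10) (2 ^ n)).card : ℝ) ≤ n * Real.log 2 + 2 := by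
  have hlog2 : 0 < Real.log 2 := Real.log_pos (by norm_num)
  have h1 : (LI (1 / 10) (2 ^ n)).card ≤ ⌈Real.log ((2 : ℝ) ^ n)⌉₊ + 1 := by
    refine (card_filter_le _ _).trans ?_
    rw [card_range]
  have h2 : Real.log ((2 : ℝ) ^ n) = n * Real.log 2 := by rw [Real.log_pow]
  have h3 := (Nat.ceil_lt_add_one (a := Real.log ((2 : ℝ) ^ n)) (by rw [h2]; positivity)).le
  have h4 : ((LI (1 / 10) (2 ^ n)).card : ℝ) ≤ (⌈Real.log ((2 : ℝ) ^ n)⌉₊ : ℝ) + 1 := by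
    exact_mod_cast h1
  rw [h2] at h3 h4
  linarith

/-- the divisors of the classes -/
lemma JD_mem {a : Bc} {B₂ X : ℝ} (hB : Real.exp (vT a) ≤ X ^ B₂) :
    ∀ d ∈ (JD a).image Prod.fst, IsPrim d ∧ (nm d : ℝ) ≤ X ^ B₂ := by
  intro d hd
  obtain ⟨x, hx, rfl⟩ := mem_image.1 hd
  unfold JD JW at hx
  have h1 := (mem_filter.1 hx).1
  rw [mem_product, mem_primBall] at h1
  refine ⟨h1.1.2, ?_⟩
  have h2 : (nm x.1 : ℝ) ≤ Real.sqrt (2 ^ nO a.1) :=
    (Nat.cast_le.2 h1.1.1).trans (Nat.floor_le (Real.sqrt_nonneg _))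
  have h3 : (1 : ℝ) ≤ 2 ^ nO a.1 := one_le_pow₀ (by norm_num)
  have h4 : Real.sqrt (2 ^ nO a.1) ≤ 2 ^ nO a.1 := by
    rw [Real.sqrt_le_left (by positivity)]
    nlinarith
  have h5 : (2 : ℝ) ^ nO a.1 ≤ Real.exp (vT a) := by
    unfold vT
    rw [Real.exp_add, Real.exp_nat_mul, Real.exp_log (by norm_num)]
    exact le_mul_of_one_le_left (by positivity) (Real.one_le_exp zero_le_one)
  linarith

lemma HD_eq (cc : ℝ) (a : Bc) (qs : List Pq) (i : ℕ) (d e : Eis) : HD cc a qs i d e =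
    Real.exp (E3N146.hN cc a.1.l (LN (cl a qs)) a.1.z (max 0 (5 / 4 * a3 a.1 - a.1.l)) i d) := rfl

/-- the sum over the levels -/
lemma fin_le {C F X ε δ L l n e8 ℓ κ pq ex eT : ℝ} {k : ℕ} (hX0 : 0 < X)
    (hL : L = Real.log X) (hL0 : 0 < L) (hC : 0 ≤ C) (hF : 0 ≤ F)
    (hFle : F ≤ X ^ (ℓ + 2 * (ε / 16))) (hk : (k : ℝ) * C ≤ X ^ (ε / 8))
    (hδ : 0 ≤ δ) (hδε : δ ≤ ε / 20000) (hl : l ≤ κ * L + δ * L) (hn : n ≤ pq * L + 4 * (δ * L))
    (he : eT ≤ ex * L + 10 * (δ * L)) (hE : κ + pq + ex + ℓ ≤ e8) :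
    (k : ℝ) * (Real.exp (2 * (20 * (δ * L))) * (C * X ^ (ε / 16) * F *
      Real.exp (l + n + eT + 20 * (40 * (δ * L))))) ≤ X ^ (e8 + ε) := by
  have hXe : ∀ z : ℝ, X ^ z = Real.exp (z * L) := fun z => by
    rw [Real.rpow_def_of_pos hX0, ← hL, mul_comm]
  have hδL : 0 ≤ δ * L := by positivity
  have hδεL : 2000 * (δ * L) ≤ ε / 10 * L := by
    have := mul_le_mul_of_nonneg_right hδε hL0.le
    linarith
  have hEL := mul_le_mul_of_nonneg_right hE hL0.le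
  calc (k : ℝ) * (Real.exp (2 * (20 * (δ * L))) * (C * X ^ (ε / 16) * F *
      Real.exp (l + n + eT + 20 * (40 * (δ * L))))) =
      ((k : ℝ) * C) * X ^ (ε / 16) * F * (Real.exp (2 * (20 * (δ * L))) *
        Real.exp (l + n + eT + 20 * (40 * (δ * L)))) := by ring
    _ ≤ X ^ (ε / 8) * X ^ (ε / 16) * X ^ (ℓ + 2 * (ε / 16)) * (Real.exp (2 * (20 * (δ * L))) *
        Real.exp (l + n + eT + 20 * (40 * (δ * L)))) := by gcongr
    _ = Real.exp (ε / 8 * L + ε / 16 * L + (ℓ + 2 * (ε / 16)) * L + (2 * (20 * (δ * L)) +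
        (l + n + eT + 20 * (40 * (δ * L))))) := by
        rw [hXe, hXe, hXe, ← Real.exp_add, ← Real.exp_add, ← Real.exp_add, ← Real.exp_add]
    _ ≤ Real.exp ((e8 + ε) * L) := by
        refine Real.exp_le_exp.2 ?_
        linarith
    _ = X ^ (e8 + ε) := (hXe _).symm

set_option maxHeartbeats 2000000 in
/-- **helper271's `TcN`** : the T-half of the cubes between the cuts -/
theorem tcN {π : Λ → DPar} {h : ℝ → ℝ} {c₀ : ℝ} (hpu : PU h c₀) (hP : ∀ lam, (π lam).OK)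
    {Rh : ℝ} (hRh0 : 0 ≤ Rh) (hRh : ∀ u, cx h u ≠ 0 → |u| ≤ Rh) {e0 : ℝ} (he0 : 0 ≤ e0)
    (he0' : e0 ≤ 1 / 64) {A d : ℝ} (hd : 0 ≤ d)
    (hd1 : d ≤ 1 / 8) (hA1 : 16 * (1 - A) ≤ d) {ℓ : (Fin 5 → ℝ) → ℝ} (hCT : CTN π h D5 ℓ)
    {L0 : (Fin 3 ⊕ Fin 5 → ℝ) → ℝ}
    (hL0 : ∀ p ∈ ParS A d, max 0 (5 / 4 * cN p - cκ p) + ℓ (bP p) ≤ L0 p) :
    TcN π h e0 (ParS A d) L0 := by
  intro ε hε
  obtain ⟨δ, hδ, hδ1, hδ2, HF⟩ := frN hpu hP hRh0 hRh hd hd1 hA1 hCT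
    (ε := ε / 16) (δ₀ := ε / 20000) (by positivity) (by positivity)
  refine ⟨δ, hδ, fun lam N B cc hcc => ?_⟩
  by_cases hs0 : lam.2 = 0
  · refine ⟨1, one_pos, 2, by norm_num, ?_⟩
    intro X hX a qs _ _ q _ _ _ _ _ hok
    exact absurd hs0 hok.2.1.1
  obtain ⟨B₂, M, hB₂, hM, HF⟩ := HF lam N B cc hcc hs0
  have hsn : (1 : ℝ) ≤ (nm lam.2 : ℝ) ^ 2 := one_le_pow₀ (by exact_mod_cast nm_pos.2 hs0)
  obtain ⟨C, r, hC, hr, G⟩ := thB hpu (N + 3) (R := 2 * (((N + 3 : ℕ) : ℝ) * Rh)) (by positivity)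
    (ε := ε / 16) (M := M) (B₂ := B₂) (by positivity) hM (by linarith)
    (ν := (nm lam.2 : ℝ) ^ 2) (Dd := ((ds lam.2).card : ℝ)) hsn (Nat.cast_nonneg _)
  obtain ⟨δ', hδ', X₁, hX₁, HF⟩ := HF r hr
  have hlc : 0 ≤ Real.log cc := Real.log_nonneg hcc
  set C' : ℝ := (16 / ε + 2) * C with hC'
  have hC'0 : 0 ≤ C' := by positivity
  have hlC' : 0 ≤ Real.log (C' + 1) := Real.log_nonneg (by linarith)
  set Q : ℝ := 2 + (4 * Real.log cc + 4) / δ + 16 * Real.log (C' + 1) / ε with hQ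
  have hQ1 : 0 ≤ (4 * Real.log cc + 4) / δ := by positivity
  have hQ2 : 0 ≤ 16 * Real.log (C' + 1) / ε := by positivity
  refine ⟨δ', hδ', max X₁ (Real.exp Q), hX₁.trans_le (le_max_left _ _), ?_⟩
  intro X hX a qs hlen hgl q hq hw hm hg hl hok Yg
  have hX1' : X₁ ≤ X := (le_max_left _ _).trans hX
  have hXQ : Real.exp Q ≤ X := (le_max_right _ _).trans hX
  have hX1 : 1 < X := by linarith
  have hX0 : 0 < X := by linarith
  have FR := HF X hX1' a qs hlen hgl q hq hw hm hg hl hok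
  obtain ⟨X3, len, cz, Y1, YX, WX, tf, kl, zl, Al, nl, ⟨F, hF0, hFle, cell⟩, dom, adm⟩ := FR
  set L := Real.log X with hL
  have hQL : Q ≤ L := by
    have := Real.log_le_log (Real.exp_pos Q) hXQ
    rwa [Real.log_exp] at this
  have hL0' : 0 < L := by linarith
  have hLt : 4 * Real.log cc + 4 ≤ δ * L := by
    have h1 : (4 * Real.log cc + 4) / δ ≤ L := by linarith
    rw [div_le_iff₀ hδ] at h1
    linarith
  have hδL : 0 ≤ δ * L := by positivity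
  have hCX : C' ≤ X ^ (ε / 16) := by
    have h1 : 16 * Real.log (C' + 1) / ε ≤ L := by linarith
    rw [div_le_iff₀ hε] at h1
    have h2 : C' + 1 ≤ X ^ (ε / 16) := by
      rw [Real.rpow_def_of_pos hX0, ← hL, ← Real.exp_log (show 0 < C' + 1 by linarith)]
      exact Real.exp_le_exp.2 (by linarith)
    linarith
  have hlog12 : Real.log 12 ≤ 40 * (δ * L) := by
    have h1 : Real.log 12 ≤ 12 - 1 := Real.log_le_sub_one_of_pos (by norm_num)
    linarith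
  set p : Fin 3 ⊕ Fin 5 → ℝ := pr8 q with hp
  have hpar : p ∈ ParS A d := hq.1
  have hl0 : 0 < a.1.l := tf.k0
  set n := LN (cl a qs) with hn
  -- sizes
  have hcc0 : 0 < cc := by linarith
  have hvX : Real.exp (vT a) ≤ X := by
    have h1 : Real.exp (vT a) ≤ cc * Real.exp (vT a) * (nm lam.2 : ℝ) ^ 2 := by
      have h2 : Real.exp (vT a) ≤ cc * Real.exp (vT a) :=
        le_mul_of_one_le_left (Real.exp_pos _).le hcc
      exact h2.trans (le_mul_of_one_le_right (by positivity) hsn)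
    exact h1.trans WX
  have hXB : X ≤ X ^ B₂ := by
    calc X = X ^ (1 : ℝ) := (Real.rpow_one X).symm
      _ ≤ X ^ B₂ := Real.rpow_le_rpow_of_exponent_le hX1.le hB₂
  have hDs := JD_mem (a := a) (hvX.trans hXB)
  set Ds := (JD a).image Prod.fst with hDsd
  set E0 := Real.exp (e0 * a.1.l) with hE0
  have hvL : vT a ≤ L := by
    have := Real.log_le_log (Real.exp_pos _) hvX
    rwa [Real.log_exp] at this
  have he0l : e0 * a.1.l ≤ a.1.l / 64 := by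
    have := mul_le_mul_of_nonneg_right he0' hl0.le
    linarith
  have hE0X : E0 ≤ X ^ B₂ := by
    refine le_trans ?_ hXB
    rw [← Real.exp_log hX0, ← hL]
    refine Real.exp_le_exp.2 ?_
    obtain ⟨k1, k2⟩ := abs_le.1 kl
    have h1 := (sq_facts hd hd1 hA1 hpar).2.1
    have h2 := mul_le_mul_of_nonneg_right h1 hL0'.le
    have h3 := mul_le_mul_of_nonneg_right hδ2 hL0'.le
    linarith
  -- the change of `H`
  obtain ⟨z1, z2⟩ := abs_le.1 zl
  obtain ⟨A1, A2⟩ := abs_le.1 Al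
  have hee : |max 0 (5 / 4 * a3 a.1 - a.1.l) - eT δ L a.1.l p| ≤ 5 * (δ * L) := by
    unfold eT
    refine (abs_max_sub_max_le_max _ _ _ _).trans (max_le ?_ ?_)
    · rw [sub_zero, abs_zero]; linarith
    · rw [abs_le]
      constructor <;> linarith
  have hzz : |a.1.z - xT δ L p| ≤ 5 * (δ * L) := by
    rw [abs_le]
    constructor <;> linarith
  have hHc : ∀ (i : ℕ) (d e : Eis), HD cc a qs i d e ≤ Real.exp (20 * (δ * L)) *
      Real.exp (E3N146.hN cc a.1.l n (xT δ L p) (eT δ L a.1.l p) i d) := by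
    intro i d e
    rw [HD_eq, ← Real.exp_add]
    refine Real.exp_le_exp.2 ?_
    have := hN_cmp (cc := cc) (l := a.1.l) (p := n) (i := i) (d := d) hzz hee
    linarith
  have hHc' : ∀ (i : ℕ) (d e : Eis), Real.exp (E3N146.hN cc a.1.l n (xT δ L p)
      (eT δ L a.1.l p) i d) ≤ Real.exp (20 * (δ * L)) * HD cc a qs i d e := by
    intro i d e
    rw [HD_eq, ← Real.exp_add]
    refine Real.exp_le_exp.2 ?_
    rw [abs_sub_comm] at hzz hee
    have := hN_cmp (cc := cc) (l := a.1.l) (p := n) (i := i) (d := d) hzz hee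
    linarith
  -- one level
  have hone : ∀ i ∈ LI (1 / 10) (2 ^ nO a.1), ∑ f ∈ S E0, ∑ d ∈ Ds,
      (nm f : ℝ)⁻¹ * LVn (fun d _ n => alC π h lam a qs (d * n)) {d} {f} cc Yg
          (Real.exp a.1.l) (HD cc a qs i d f) (Real.exp i) (Real.exp i)
          (Real.exp (a.1.l / 20)) 1 1 0 ≤ Real.exp (2 * (20 * (δ * L))) *
        (C * X ^ (ε / 16) * F *
          Real.exp (a.1.l + n + eT δ L a.1.l p + 20 * (40 * (δ * L)))) := by
    intro i hi
    have hiv : (i : ℝ) ≤ vT a := mem_LI_le hi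
    have hle : Real.exp i ≤ Real.exp (vT a) := Real.exp_le_exp.2 hiv
    have hle2 : cc * Real.exp i * (nm lam.2 : ℝ) ^ 2 ≤
        cc * Real.exp (vT a) * (nm lam.2 : ℝ) ^ 2 := by gcongr
    have key := G X X3 (π lam.1) (hP lam.1) 1 (cl a qs) len cz (Yc Rh a qs) cc
      (Real.log (cc * Real.exp (vT a) * (nm lam.2 : ℝ) ^ 2)) F a.1.l (NT δ L p) (xT δ L p)
      (eT δ L a.1.l p) a.1.l (xT δ L p) (eT δ L a.1.l p) (40 * (δ * L)) (vT a) (min (a.2 0).z (min (a.2 1).z (a.2 2).z))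
      (e0 * a.1.l) (a.1.l / 20) i Y1 YX hcc (hle2.trans WX)
      (Real.log_le_log (by positivity) hle2) hF0 tf
      (by rw [sub_self, abs_zero]; positivity) (by rw [sub_self, abs_zero]; positivity)
      (by rw [sub_self, abs_zero]; positivity) hiv (by linarith) hlog12 (by positivity)
      (by linarith) hE0X cell (alC π h lam a qs) dom adm Ds
      (fun d _ n => alC π h lam a qs (d * n)) Yg hDs (fun d _ e _ => rfl) (by linarith)
    refine le_trans ?_ (mul_le_mul_of_nonneg_left key (Real.exp_pos _).le)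
    rw [sum_comm, mul_sum]
    refine sum_le_sum fun d hd' => ?_
    rw [mul_sum]
    refine sum_le_sum fun f hf => ?_
    have h1 := LVn_cmp (af := fun d _ n => alC π h lam a qs (d * n)) (Ds := {d}) (EE := {f})
      (c := cc) (Y := Yg) (K := Real.exp a.1.l) (V := Real.exp i) (V' := Real.exp i)
      (E1 := Real.exp (a.1.l / 20)) (B := 1) (G1 := 1) (s := 20 * (δ * L)) (by positivity)
      (Real.exp_pos _) (by rw [HD_eq]; exact Real.exp_pos _) (Real.exp_pos _) (Real.exp_pos _)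
      (Real.exp_pos _) (Real.exp_pos _).le zero_le_one (hHc i d f) (hHc' i d f)
    have h2 := mul_le_mul_of_nonneg_left h1 (show (0 : ℝ) ≤ (nm f : ℝ)⁻¹ by positivity)
    refine h2.trans (le_of_eq ?_)
    ring
  show ∑ f ∈ S E0, ∑ i ∈ LI (1 / 10) (2 ^ nO a.1), ∑ d ∈ Ds,
      (nm f : ℝ)⁻¹ * LVn (fun d _ n => alC π h lam a qs (d * n)) {d} {f} cc Yg
          (Real.exp a.1.l) (HD cc a qs i d f) (Real.exp i) (Real.exp i)
          (Real.exp (a.1.l / 20)) 1 1 0 ≤ X ^ (E8 L0 q + ε)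
  rw [sum_comm]
  refine (sum_le_sum hone).trans ?_
  rw [sum_const, nsmul_eq_mul]
  have hcard : ((LI (1 / 10) (2 ^ nO a.1)).card : ℝ) * C ≤ X ^ (ε / 8) := by
    have h1 := card_LI_le (n := nO a.1)
    have h2 : ((LI (1 / 10) (2 ^ nO a.1)).card : ℝ) ≤ L + 2 := by
      have : (nO a.1 : ℝ) * Real.log 2 ≤ L := by
        have e : vT a = 1 + nO a.1 * Real.log 2 := rfl
        linarith
      linarith
    have h3 := Real.log_le_rpow_div hX0.le (show 0 < ε / 16 by positivity)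
    have h4 : 1 ≤ X ^ (ε / 16) := Real.one_le_rpow hX1.le (by positivity)
    have h5 : X ^ (ε / 16) / (ε / 16) = 16 / ε * X ^ (ε / 16) := by field_simp
    rw [h5, ← hL] at h3
    calc ((LI (1 / 10) (2 ^ nO a.1)).card : ℝ) * C ≤ (L + 2) * C :=
          mul_le_mul_of_nonneg_right h2 hC
      _ ≤ ((16 / ε + 2) * X ^ (ε / 16)) * C := by
          refine mul_le_mul_of_nonneg_right ?_ hC
          linarith
      _ = C' * X ^ (ε / 16) := by rw [hC']; ring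
      _ ≤ X ^ (ε / 16) * X ^ (ε / 16) := mul_le_mul_of_nonneg_right hCX (by positivity)
      _ = X ^ (ε / 8) := by rw [← Real.rpow_add hX0]; congr 1; ring
  obtain ⟨k1, k2⟩ := abs_le.1 kl
  obtain ⟨n1, n2⟩ := abs_le.1 nl
  have hk0 : 0 < cκ p := by have := (sq_facts hd hd1 hA1 hpar).1; linarith
  refine fin_le (κ := cκ p) (pq := ∑ i : Fin 3, q.1 (.inr i) + q.2 .am)
    (ex := max 0 (5 / 4 * cN p - cκ p)) (ℓ := ℓ (bP p)) hX0 hL hL0' hC hF0 hFle
    hcard hδ.le hδ1 (by linarith) (by linarith) ?_ ?_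
  · unfold eT
    have h1 := mul_le_mul_of_nonneg_right (le_max_left 0 (5 / 4 * cN p - cκ p)) hL0'.le
    have h2 := mul_le_mul_of_nonneg_right (le_max_right 0 (5 / 4 * cN p - cκ p)) hL0'.le
    refine max_le (by linarith) ?_
    unfold NT
    linarith
  · have h1 := hL0 p hpar
    have e8 : E8 L0 q = cκ p + ∑ i : Fin 3, q.1 (.inr i) + q.2 .am + L0 p := rfl
    rw [e8]
    linarith

set_option maxHeartbeats 2000000 in
/-- **helper271's `TnN`** : the T-half of the Gram sum -/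
theorem tnN {π : Λ → DPar} {h : ℝ → ℝ} {c₀ : ℝ} (hpu : PU h c₀) (hP : ∀ lam, (π lam).OK)
    {Rh : ℝ} (hRh0 : 0 ≤ Rh) (hRh : ∀ u, cx h u ≠ 0 → |u| ≤ Rh) {e0 : ℝ} (he0 : 0 ≤ e0)
    (he0' : e0 ≤ 1 / 64) {A d : ℝ} (hd : 0 ≤ d)
    (hd1 : d ≤ 1 / 8) (hA1 : 16 * (1 - A) ≤ d) {ℓ : (Fin 5 → ℝ) → ℝ} (hCT : CTN π h D5 ℓ)
    {L0 : (Fin 3 ⊕ Fin 5 → ℝ) → ℝ}
    (hL0 : ∀ p ∈ ParS A d, max 0 (5 / 4 * cN p - cκ p) + ℓ (bP p) ≤ L0 p) :
    TnN π h e0 (ParS A d) L0 := by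
  intro ε hε
  obtain ⟨δ, hδ, hδ1, hδ2, HF⟩ := frN hpu hP hRh0 hRh hd hd1 hA1 hCT
    (ε := ε / 16) (δ₀ := ε / 20000) (by positivity) (by positivity)
  refine ⟨δ, hδ, fun lam N B cc hcc => ?_⟩
  by_cases hs0 : lam.2 = 0
  · refine ⟨1, one_pos, 2, by norm_num, ?_⟩
    intro X hX a qs _ _ q _ _ _ _ _ hok
    exact absurd hs0 hok.2.1.1
  obtain ⟨B₂, M, hB₂, hM, HF⟩ := HF lam N B cc hcc hs0
  have hsn : (1 : ℝ) ≤ (nm lam.2 : ℝ) ^ 2 := one_le_pow₀ (by exact_mod_cast nm_pos.2 hs0)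
  obtain ⟨C, r, hC, hr, G⟩ := thA hpu (N + 3) (R := 2 * (((N + 3 : ℕ) : ℝ) * Rh)) (by positivity)
    (ε := ε / 16) (M := M) (B₂ := B₂) (by positivity) hM (by linarith)
    (ν := (nm lam.2 : ℝ) ^ 2) (Dd := ((ds lam.2).card : ℝ)) hsn (Nat.cast_nonneg _)
  obtain ⟨δ', hδ', X₁, hX₁, HF⟩ := HF r hr
  have hlc : 0 ≤ Real.log cc := Real.log_nonneg hcc
  set C' : ℝ := (16 / ε + 2) * C with hC'
  have hC'0 : 0 ≤ C' := by positivity
  have hlC' : 0 ≤ Real.log (C' + 1) := Real.log_nonneg (by linarith)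
  set Q : ℝ := 2 + (4 * Real.log cc + 4) / δ + 16 * Real.log (C' + 1) / ε with hQ
  have hQ1 : 0 ≤ (4 * Real.log cc + 4) / δ := by positivity
  have hQ2 : 0 ≤ 16 * Real.log (C' + 1) / ε := by positivity
  refine ⟨δ', hδ', max X₁ (Real.exp Q), hX₁.trans_le (le_max_left _ _), ?_⟩
  intro X hX a qs hlen hgl q hq hw hm hg hl hok Yg
  have hX1' : X₁ ≤ X := (le_max_left _ _).trans hX
  have hXQ : Real.exp Q ≤ X := (le_max_right _ _).trans hX
  have hX1 : 1 < X := by linarith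
  have hX0 : 0 < X := by linarith
  have FR := HF X hX1' a qs hlen hgl q hq hw hm hg hl hok
  obtain ⟨X3, len, cz, Y1, YX, WX, tf, kl, zl, Al, nl, ⟨F, hF0, hFle, cell⟩, dom, adm⟩ := FR
  set L := Real.log X with hL
  have hQL : Q ≤ L := by
    have := Real.log_le_log (Real.exp_pos Q) hXQ
    rwa [Real.log_exp] at this
  have hL0' : 0 < L := by linarith
  have hLt : 4 * Real.log cc + 4 ≤ δ * L := by
    have h1 : (4 * Real.log cc + 4) / δ ≤ L := by linarith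
    rw [div_le_iff₀ hδ] at h1
    linarith
  have hδL : 0 ≤ δ * L := by positivity
  have hCX : C' ≤ X ^ (ε / 16) := by
    have h1 : 16 * Real.log (C' + 1) / ε ≤ L := by linarith
    rw [div_le_iff₀ hε] at h1
    have h2 : C' + 1 ≤ X ^ (ε / 16) := by
      rw [Real.rpow_def_of_pos hX0, ← hL, ← Real.exp_log (show 0 < C' + 1 by linarith)]
      exact Real.exp_le_exp.2 (by linarith)
    linarith
  have hlog12 : Real.log 12 ≤ 40 * (δ * L) := by
    have h1 : Real.log 12 ≤ 12 - 1 := Real.log_le_sub_one_of_pos (by norm_num)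
    linarith
  set p : Fin 3 ⊕ Fin 5 → ℝ := pr8 q with hp
  have hpar : p ∈ ParS A d := hq.1
  have hl0 : 0 < a.1.l := tf.k0
  set n := LN (cl a qs) with hn
  -- sizes
  have hcc0 : 0 < cc := by linarith
  have hvX : Real.exp (vT a) ≤ X := by
    have h1 : Real.exp (vT a) ≤ cc * Real.exp (vT a) * (nm lam.2 : ℝ) ^ 2 := by
      have h2 : Real.exp (vT a) ≤ cc * Real.exp (vT a) :=
        le_mul_of_one_le_left (Real.exp_pos _).le hcc
      exact h2.trans (le_mul_of_one_le_right (by positivity) hsn)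
    exact h1.trans WX
  have hXB : X ≤ X ^ B₂ := by
    calc X = X ^ (1 : ℝ) := (Real.rpow_one X).symm
      _ ≤ X ^ B₂ := Real.rpow_le_rpow_of_exponent_le hX1.le hB₂
  have hDs := JD_mem (a := a) (hvX.trans hXB)
  set Ds := (JD a).image Prod.fst with hDsd
  set E0 := Real.exp (e0 * a.1.l) with hE0
  have hvL : vT a ≤ L := by
    have := Real.log_le_log (Real.exp_pos _) hvX
    rwa [Real.log_exp] at this
  have he0l : e0 * a.1.l ≤ a.1.l / 64 := by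
    have := mul_le_mul_of_nonneg_right he0' hl0.le
    linarith
  have hE0X : E0 ≤ X ^ B₂ := by
    refine le_trans ?_ hXB
    rw [← Real.exp_log hX0, ← hL]
    refine Real.exp_le_exp.2 ?_
    obtain ⟨k1, k2⟩ := abs_le.1 kl
    have h1 := (sq_facts hd hd1 hA1 hpar).2.1
    have h2 := mul_le_mul_of_nonneg_right h1 hL0'.le
    have h3 := mul_le_mul_of_nonneg_right hδ2 hL0'.le
    linarith
  -- the change of `H`
  obtain ⟨z1, z2⟩ := abs_le.1 zl
  obtain ⟨A1, A2⟩ := abs_le.1 Al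
  have hee : |max 0 (5 / 4 * a3 a.1 - a.1.l) - eT δ L a.1.l p| ≤ 5 * (δ * L) := by
    unfold eT
    refine (abs_max_sub_max_le_max _ _ _ _).trans (max_le ?_ ?_)
    · rw [sub_zero, abs_zero]; linarith
    · rw [abs_le]
      constructor <;> linarith
  have hzz : |a.1.z - xT δ L p| ≤ 5 * (δ * L) := by
    rw [abs_le]
    constructor <;> linarith
  have hHc : ∀ (i : ℕ) (d e : Eis), HD cc a qs i d e ≤ Real.exp (20 * (δ * L)) *
      Real.exp (E3N146.hN cc a.1.l n (xT δ L p) (eT δ L a.1.l p) i d) := by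
    intro i d e
    rw [HD_eq, ← Real.exp_add]
    refine Real.exp_le_exp.2 ?_
    have := hN_cmp (cc := cc) (l := a.1.l) (p := n) (i := i) (d := d) hzz hee
    linarith
  have hHc' : ∀ (i : ℕ) (d e : Eis), Real.exp (E3N146.hN cc a.1.l n (xT δ L p)
      (eT δ L a.1.l p) i d) ≤ Real.exp (20 * (δ * L)) * HD cc a qs i d e := by
    intro i d e
    rw [HD_eq, ← Real.exp_add]
    refine Real.exp_le_exp.2 ?_
    rw [abs_sub_comm] at hzz hee
    have := hN_cmp (cc := cc) (l := a.1.l) (p := n) (i := i) (d := d) hzz hee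
    linarith
  have hVt : Real.exp 1 * 2 ^ nO a.1 = Real.exp (vT a) := by
    unfold vT
    rw [Real.exp_add, Real.exp_nat_mul, Real.exp_log (by norm_num)]
  have hprim : ∀ m, alC π h lam a qs m ≠ 0 → IsPrim m := fun m hm0 =>
    ((mem_S (by linarith)).1 (adm.sup m hm0)).2.1
  -- one level
  have hone : ∀ i ∈ LI (1 / 10) (2 ^ nO a.1), ∑ d ∈ Ds, ∑ e ∈ S E0,
      LVn (afT (alC π h lam a qs) E0) {d} {e} cc Yg
          (Real.exp a.1.l) (HD cc a qs i d e) (Real.exp i) (Real.exp 1 * 2 ^ nO a.1)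
          (Real.exp (a.1.l / 30)) 2 (Real.sqrt (cc * Real.exp i)) 0 ≤
        Real.exp (2 * (20 * (δ * L))) *
        (C * X ^ (ε / 16) * F *
          Real.exp (a.1.l + n + eT δ L a.1.l p + 20 * (40 * (δ * L)))) := by
    intro i hi
    have hiv : (i : ℝ) ≤ vT a := mem_LI_le hi
    have hle : Real.exp i ≤ Real.exp (vT a) := Real.exp_le_exp.2 hiv
    have hle2 : cc * Real.exp i * (nm lam.2 : ℝ) ^ 2 ≤
        cc * Real.exp (vT a) * (nm lam.2 : ℝ) ^ 2 := by gcongr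
    have key := G X X3 (π lam.1) (hP lam.1) 1 (cl a qs) len cz (Yc Rh a qs) cc
      (Real.log (cc * Real.exp (vT a) * (nm lam.2 : ℝ) ^ 2)) F a.1.l (NT δ L p) (xT δ L p)
      (eT δ L a.1.l p) a.1.l (xT δ L p) (eT δ L a.1.l p) (40 * (δ * L)) (vT a) (min (a.2 0).z (min (a.2 1).z (a.2 2).z))
      (e0 * a.1.l) (a.1.l / 30) i Y1 YX hcc (hle2.trans WX)
      (Real.log_le_log (by positivity) hle2) hF0 tf
      (by rw [sub_self, abs_zero]; positivity) (by rw [sub_self, abs_zero]; positivity)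
      (by rw [sub_self, abs_zero]; positivity) hiv (by linarith) hlog12
      (by linarith) cell (alC π h lam a qs) dom adm Ds
      (afT (alC π h lam a qs) E0) Yg (Real.exp 1 * 2 ^ nO a.1) (Real.sqrt (cc * Real.exp i)) hDs
      (fun d hd' e he => afT_eq hprim (hDs d hd').1 he) hVt rfl (by linarith)
    refine le_trans ?_ (mul_le_mul_of_nonneg_left key (Real.exp_pos _).le)
    rw [mul_sum]
    refine sum_le_sum fun d hd' => ?_
    rw [mul_sum]
    refine sum_le_sum fun f hf => ?_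
    exact LVn_cmp (af := afT (alC π h lam a qs) E0) (Ds := {d}) (EE := {f})
      (c := cc) (Y := Yg) (K := Real.exp a.1.l) (V := Real.exp i)
      (V' := Real.exp 1 * 2 ^ nO a.1)
      (E1 := Real.exp (a.1.l / 30)) (B := 2) (G1 := Real.sqrt (cc * Real.exp i))
      (s := 20 * (δ * L)) (by positivity)
      (Real.exp_pos _) (by rw [HD_eq]; exact Real.exp_pos _) (Real.exp_pos _) (Real.exp_pos _)
      (by positivity) (Real.exp_pos _).le (Real.sqrt_nonneg _) (hHc i d f) (hHc' i d f)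
  show ∑ i ∈ LI (1 / 10) (2 ^ nO a.1), ∑ d ∈ Ds, ∑ e ∈ S E0,
      LVn (afT (alC π h lam a qs) E0) {d} {e} cc Yg
          (Real.exp a.1.l) (HD cc a qs i d e) (Real.exp i) (Real.exp 1 * 2 ^ nO a.1)
          (Real.exp (a.1.l / 30)) 2 (Real.sqrt (cc * Real.exp i)) 0 ≤ X ^ (E8 L0 q + ε)
  refine (sum_le_sum hone).trans ?_
  rw [sum_const, nsmul_eq_mul]
  have hcard : ((LI (1 / 10) (2 ^ nO a.1)).card : ℝ) * C ≤ X ^ (ε / 8) := by
    have h1 := card_LI_le (n := nO a.1)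
    have h2 : ((LI (1 / 10) (2 ^ nO a.1)).card : ℝ) ≤ L + 2 := by
      have : (nO a.1 : ℝ) * Real.log 2 ≤ L := by
        have e : vT a = 1 + nO a.1 * Real.log 2 := rfl
        linarith
      linarith
    have h3 := Real.log_le_rpow_div hX0.le (show 0 < ε / 16 by positivity)
    have h4 : 1 ≤ X ^ (ε / 16) := Real.one_le_rpow hX1.le (by positivity)
    have h5 : X ^ (ε / 16) / (ε / 16) = 16 / ε * X ^ (ε / 16) := by field_simp
    rw [h5, ← hL] at h3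
    calc ((LI (1 / 10) (2 ^ nO a.1)).card : ℝ) * C ≤ (L + 2) * C :=
          mul_le_mul_of_nonneg_right h2 hC
      _ ≤ ((16 / ε + 2) * X ^ (ε / 16)) * C := by
          refine mul_le_mul_of_nonneg_right ?_ hC
          linarith
      _ = C' * X ^ (ε / 16) := by rw [hC']; ring
      _ ≤ X ^ (ε / 16) * X ^ (ε / 16) := mul_le_mul_of_nonneg_right hCX (by positivity)
      _ = X ^ (ε / 8) := by rw [← Real.rpow_add hX0]; congr 1; ring
  obtain ⟨k1, k2⟩ := abs_le.1 kl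
  obtain ⟨n1, n2⟩ := abs_le.1 nl
  have hk0 : 0 < cκ p := by have := (sq_facts hd hd1 hA1 hpar).1; linarith
  refine fin_le (κ := cκ p) (pq := ∑ i : Fin 3, q.1 (.inr i) + q.2 .am)
    (ex := max 0 (5 / 4 * cN p - cκ p)) (ℓ := ℓ (bP p)) hX0 hL hL0' hC hF0 hFle
    hcard hδ.le hδ1 (by linarith) (by linarith) ?_ ?_
  · unfold eT
    have h1 := mul_le_mul_of_nonneg_right (le_max_left 0 (5 / 4 * cN p - cκ p)) hL0'.le
    have h2 := mul_le_mul_of_nonneg_right (le_max_right 0 (5 / 4 * cN p - cκ p)) hL0'.le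
    refine max_le (by linarith) ?_
    unfold NT
    linarith
  · have h1 := hL0 p hpar
    have e8 : E8 L0 q = cκ p + ∑ i : Fin 3, q.1 (.inr i) + q.2 .am + L0 p := rfl
    rw [e8]
    linarith

/-! ### at `LS0 d` -/

/-- the T-claims from helper708's claims -/
theorem ctN_of {π : Λ → DPar} {h : ℝ → ℝ} {c₀ : ℝ} (hpu : PU h c₀) (hP : ∀ lam, (π lam).OK)
    {d : ℝ} {rr : EF} (R : ExpRules (7 / 8 + d) rr (ex Dq fun lam => Sp (π lam) h)) (hd : 0 ≤ d)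
    (hd1 : d ≤ 1 / 40)
    (hFE : FE2L (ex Dq fun lam => S0p (π lam) h) D5 fun b => 3 / 4 * d * b 0) :
    CTN π h D5 fun b => 3 / 4 * d * b 0 := by
  intro ε hε
  have hℓ : Continuous fun b : Fin 5 → ℝ => 3 / 4 * d * b 0 := by fun_prop
  have hℓ0 : ∀ b ∈ D5, (0 : ℝ) ≤ 3 / 4 * d * b 0 := by
    rintro b ⟨h1, -⟩
    have := h1.k0
    positivity
  exact E3N146.cellT_of hpu hP R hd hd1 D5_compact (fun b hb => hb.1) hℓ hℓ0 hFE hε

/-- **`TnN` and `TcN` of `E3U`, class N**, at `LS0 d` -/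
theorem tN_of {π : Λ → DPar} {h : ℝ → ℝ} {c₀ : ℝ} (hpu : PU h c₀) (hP : ∀ lam, (π lam).OK)
    {d : ℝ} {rr : EF} (R : ExpRules (7 / 8 + d) rr (ex Dq fun lam => Sp (π lam) h)) (hd : 0 ≤ d)
    (hd1 : d ≤ 1 / 40) {Rh : ℝ} (hRh0 : 0 ≤ Rh) (hRh : ∀ u, cx h u ≠ 0 → |u| ≤ Rh) {e0 : ℝ}
    (he0 : 0 ≤ e0) (he0' : e0 ≤ 1 / 64) {A : ℝ} (hA1 : 16 * (1 - A) ≤ d)
    (hFE : FE2L (ex Dq fun lam => S0p (π lam) h) D5 fun b => 3 / 4 * d * b 0) :
    TnN π h e0 (ParS A d) (LS0 d) ∧ TcN π h e0 (ParS A d) (LS0 d) := by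
  have hCT := ctN_of hpu hP R hd hd1 hFE
  have hL0 : ∀ p ∈ ParS A d, max 0 (5 / 4 * cN p - cκ p) + 3 / 4 * d * (bP p) 0 ≤ LS0 d p :=
    fun p _ => le_rfl
  exact ⟨tnN hpu hP hRh0 hRh he0 he0' hd (by linarith) hA1 hCT hL0,
    tcN hpu hP hRh0 hRh he0 he0' hd (by linarith) hA1 hCT hL0⟩

end Crest.Agent.R017.TcN722
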