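import Crest.Agent.R017.TkB_545

/-!
# Row 17, section B, leaf L1 (part): explicit values of `tk k (p^j) 1`

* `WW b = ang 1 b * conj (sy 2 b) * eps2 b`
* `tk_pow_six` : `6 ∣ j` : `tk k (p^j) 1 = WW (p^j) (1 - 1/q) q^s 1[p^s ∣ k]`, `s = sE j`
* `tk_pow_four` : `tk (p^{3r} k) (p^{4r+1}) 1 = WW q^{3r-1} conj (tw sy6 (4r+1) 1 p) conj (tw sy (4r+1) k p)`
* `tk_pow_four_zero`, `tk_pow_zero` : vanishing
-/

set_option autoImplicit false

noncomputable section

open Complex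
open scoped ComplexConjugate

namespace Crest.Agent.R017.Tk545

open Crest.Agent.R012 Crest.Agent.R012.Eis Crest.Agent.R012.Mob705 Crest.Agent.R012.Gauss880
open Crest.Agent.R017.FE47 Crest.Agent.R017.Sx440 Crest.Agent.R017.Sx545 Crest.Agent.R017.B770
open Crest.Agent.R017.PT858 Crest.Agent.R017.LS848

variable {b c p : Eis}

/-- the unimodular factor of `hN`. -/
def WW (b : Eis) : ℂ := ang 1 b * conj (sy 2 b) * eps2 b

lemma norm_WW (hb : Sm 2 b) : ‖WW b‖ = 1 := by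
  unfold WW
  rw [norm_mul, norm_mul, norm_ang 1 hb.ne_zero, Complex.norm_conj,
    norm_sy_two hb.prim (hb.od dvd_rfl), norm_eps2 hb.prim (hb.od dvd_rfl)]
  norm_num

/-- `tk k b 1` as a plain exponential sum. -/
lemma tk_one_eq (k : Eis) (hb : Sm 2 b) : tk k b 1 = WW b / (nm b : ℂ) *
    sumMod b (fun a => conj (gs6 (a ^ 4) b) * eC (toC (-k) * toC a / toC b)) := by
  have hb0 := hb.ne_zero
  have hs := sqrt_nm_ne hb0
  unfold tk
  have e1 : ∀ a : Eis, hN a b * sy a 1 * eC (-(toC a * toC k / (toC b * toC 1))) =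
      (WW b / (Real.sqrt (nm b) : ℂ)) *
        (conj (gs6 (a ^ 4) b) * eC (toC (-k) * toC a / toC b)) := by
    intro a
    have e2 : sy a 1 = 1 := res_sy.one_right a
    have e3 : -(toC a * toC k / (toC b * toC 1)) = toC (-k) * toC a / toC b := by
      rw [map_one, map_neg]; ring
    rw [e2, e3]
    unfold hN WW
    ring
  rw [mul_one, sumMod_congr e1, sumMod_mul_left hb0, G_one, nm_one']
  have h9 : ((Real.sqrt (nm b) : ℝ) : ℂ) * (Real.sqrt (nm b) : ℝ) = (nm b : ℂ) :=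
    sqrt_mul_self_C hb0
  simp only [map_one, Nat.cast_one, mul_one]
  rw [← h9]
  field_simp

lemma sy6_four (hp : Sm 2 p) (u : Eis) : conj (sy6 u p) ^ 4 = sy u p :=
  conj_sy6_pow_four dvd_rfl hp u

/-- the case `6 ∣ j`. -/
theorem tk_pow_six (k : Eis) (hp : Sm 2 p) (hpp : Prime p) {j : ℕ} (hj : 6 ∣ j) (hj1 : 1 ≤ j) :
    tk k (p ^ j) 1 = open Classical in if p ^ sE j ∣ k then
      WW (p ^ j) * ((1 - (nm p : ℂ)⁻¹) * (nm p : ℂ) ^ sE j) else 0 := by
  classical
  have hp0 := hp.ne_zero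
  have hs : sE j = j - (j + 3) / 4 := by unfold sE; rw [if_neg (by omega)]
  set v := (j + 3) / 4 with hv
  have hvj : v ≤ j := by omega
  have hsv : p ^ j = p ^ v * p ^ sE j := by rw [← pow_add]; congr 1; omega
  have hpj := hp.pow j
  have hnp : (nm p : ℂ) ≠ 0 := by exact_mod_cast (nm_pos.mpr hp0).ne'
  have e1 : ∀ a : Eis, conj (gs6 (a ^ 4) (p ^ j)) * eC (toC (-k) * toC a / toC (p ^ j)) =
      ((nm p : ℂ) ^ (j - 1) * (nm p - 1)) *
        (if p ^ v ∣ a then eC (toC (-k) * toC a / toC (p ^ j)) else 0) := by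
    intro a
    by_cases h : p ^ v ∣ a
    · obtain ⟨t, rfl⟩ := h
      rw [if_pos (dvd_mul_right _ _)]
      have h1 : gs6 ((p ^ v * t) ^ 4) (p ^ j) = (nm p : ℂ) ^ (j - 1) * (nm p - 1) := by
        have h2 : (p ^ v * t) ^ 4 = t ^ 4 * p ^ (4 * v) := by ring
        rw [h2]
        have := res_sy6.gR_table_le (r := t ^ 4) hp hpp hj1 (show j ≤ 4 * v by omega)
        rw [if_pos hj] at this
        exact this
      rw [h1]
      simp only [map_mul, map_pow, map_sub, map_natCast, map_one]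
    · rw [if_neg h, mul_zero]
      have h1 : gs6 (a ^ 4) (p ^ j) = 0 := by
        have ha0 : a ≠ 0 := fun h' => h (h' ▸ dvd_zero _)
        obtain ⟨w, t, ht, hat⟩ := WfDvdMonoid.max_power_factor (a₀ := a) (x := p) ha0
          hpp.irreducible
        have hwv : w < v := by
          by_contra hcon
          exact h (hat ▸ (pow_dvd_pow p (by omega)).mul_right t)
        have h2 : a ^ 4 = t ^ 4 * p ^ (4 * w) := by rw [hat]; ring
        have h3 : ¬ p ∣ t ^ 4 := fun h' => ht (hpp.dvd_of_dvd_pow h')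
        rw [h2]
        exact res_sy6.gR_table_ge hp h3 (by omega)
      rw [h1, map_zero, zero_mul]
  rw [tk_one_eq k hpj, sumMod_congr e1, sumMod_mul_left hpj.ne_zero]
  have h7 : sumMod (p ^ j) (fun a => if p ^ v ∣ a then eC (toC (-k) * toC a / toC (p ^ j)) else 0) =
      if p ^ sE j ∣ k then (nm p : ℂ) ^ sE j else 0 := by
    rw [hsv]
    have hv0 : p ^ v ≠ 0 := pow_ne_zero _ hp0
    have hv0' := Po581.toC_ne_zero hv0
    rw [sumMod_multiples hv0 (pow_ne_zero _ hp0) (pmod_eC (-k) _)]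
    have h8 : ∀ u : Eis, eC (toC (-k) * toC (p ^ v * u) / toC (p ^ v * p ^ sE j)) =
        eC (toC (-k) * toC u / toC (p ^ sE j)) := by
      intro u
      congr 1
      rw [map_mul toC (p ^ v) u, map_mul toC (p ^ v) (p ^ sE j)]
      field_simp
    rw [sumMod_congr h8, sumMod_eC_of_not_lam_dvd (hp.pow _).not_lam_dvd, nm_pow]
    push_cast
    simp only [dvd_neg]
  rw [h7, nm_pow]
  obtain ⟨i, rfl⟩ : ∃ i, j = i + 1 := ⟨j - 1, by omega⟩
  split_ifs
  · push_cast
    field_simp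
    ring
  · ring

/-- the case `j ≢ 1 (4)`, `6 ∤ j`. -/
theorem tk_pow_zero (k : Eis) (hp : Sm 2 p) (hpp : Prime p) {j : ℕ} (hj : ¬ 6 ∣ j)
    (hj1 : j % 4 ≠ 1) : tk k (p ^ j) 1 = 0 := by
  have hp0 := hp.ne_zero
  have hpj := hp.pow j
  have hj2 : 1 ≤ j := by
    rcases Nat.eq_zero_or_pos j with h | h
    · exact absurd (h ▸ dvd_zero 6) hj
    · exact h
  have e1 : ∀ a : Eis, conj (gs6 (a ^ 4) (p ^ j)) * eC (toC (-k) * toC a / toC (p ^ j)) =
      0 * (1 : ℂ) := by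
    intro a
    have h1 : gs6 (a ^ 4) (p ^ j) = 0 := by
      by_cases ha0 : a = 0
      · rw [ha0, zero_pow (by norm_num)]
        have := res_sy6.gR_zero_pow hp hpp hj2
        rw [if_neg hj] at this
        exact this
      obtain ⟨w, t, ht, hat⟩ := WfDvdMonoid.max_power_factor (a₀ := a) (x := p) ha0
        hpp.irreducible
      have h2 : a ^ 4 = t ^ 4 * p ^ (4 * w) := by rw [hat]; ring
      have h3 : ¬ p ∣ t ^ 4 := fun h' => ht (hpp.dvd_of_dvd_pow h')
      rw [h2]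
      rcases Nat.lt_or_ge (4 * w) j with h4 | h4
      · exact res_sy6.gR_table_ge hp h3 (by omega)
      · have := res_sy6.gR_table_le (r := t ^ 4) hp hpp hj2 h4
        rw [if_neg hj] at this
        exact this
    rw [h1, map_zero, zero_mul, zero_mul]
  rw [tk_one_eq k hpj, sumMod_congr e1, sumMod_mul_left hpj.ne_zero, zero_mul, mul_zero]

open Classical in
lemma sumMod_pow_split {q m d : Eis} (hm : m ≠ 0) (hd : d ≠ 0) (hq : q = m * d) {F : Eis → ℂ}
    (hF : PMod q F) :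
    sumMod q (fun a => if m ∣ a then F a else 0) = sumMod d (fun u => F (m * u)) := by
  subst hq; exact sumMod_multiples hm hd hF

/-- the case `j = 4 r + 1`, general form. -/
lemma tk_pow_four_aux (k : Eis) (hp : Sm 2 p) (hpp : Prime p) (r : ℕ) :
    tk k (p ^ (4 * r + 1)) 1 = WW (p ^ (4 * r + 1)) / (nm p : ℂ) *
      conj (tw sy6 (4 * r + 1) 1 p) *
      sumMod (p ^ (3 * r + 1)) (fun u => conj (sy u p) ^ (4 * r + 1) *
        eC (toC (-k) * toC u / toC (p ^ (3 * r + 1)))) := by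
  classical
  have hp0 := hp.ne_zero
  have hpj := hp.pow (4 * r + 1)
  have hnp : (nm p : ℂ) ≠ 0 := by exact_mod_cast (nm_pos.mpr hp0).ne'
  have h6 : ¬ 6 ∣ 4 * r + 1 := by omega
  have hsv : p ^ (4 * r + 1) = p ^ r * p ^ (3 * r + 1) := by rw [← pow_add]; congr 1; omega
  have hr0 : p ^ r ≠ 0 := pow_ne_zero _ hp0
  have hr0' := Po581.toC_ne_zero hr0
  -- the sextic Gauss sum
  have hg : ∀ u : Eis, gs6 ((p ^ r * u) ^ 4) (p ^ (4 * r + 1)) =
      (nm p : ℂ) ^ (4 * r) * (sy u p ^ (4 * r + 1) * tw sy6 (4 * r + 1) 1 p) := by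
    intro u
    have h2 : (p ^ r * u) ^ 4 = u ^ 4 * p ^ (4 * r) := by ring
    have h3 : gs6 ((p ^ r * u) ^ 4) (p ^ (4 * r + 1)) =
        (nm p : ℂ) ^ (4 * r) * tw sy6 (4 * r + 1) (u ^ 4) p := by
      rw [h2]; exact res_sy6.gR_table_succ (u ^ 4) hp (4 * r)
    rw [h3]
    congr 1
    by_cases hu : p ∣ u
    · rw [res_sy6.tw_of_dvd hp hpp h6 (dvd_pow hu (by norm_num)),
        Char766.sy_eq_zero hp.prim (fun h' => (Res.isCoprime_iff_not_dvd hpp u).mp h' hu),
        zero_pow (by omega), zero_mul]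
    · have hu' : IsCoprime (u ^ 4) p := ((Res.isCoprime_iff_not_dvd hpp u).mpr hu).pow_left
      have := res_sy6.tw_mul_left hp (j := 4 * r + 1) (by omega) 1 hu'
      rw [one_mul] at this
      rw [this]
      congr 1
      rw [sy6_pow_left hp.prim (hp.od dvd_rfl), map_pow, sy6_four hp]
  have e1 : ∀ a : Eis, conj (gs6 (a ^ 4) (p ^ (4 * r + 1))) *
      eC (toC (-k) * toC a / toC (p ^ (4 * r + 1))) =
      (if p ^ r ∣ a then (conj (gs6 (a ^ 4) (p ^ (4 * r + 1))) *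
      eC (toC (-k) * toC a / toC (p ^ (4 * r + 1)))) else 0) := by
    intro a
    by_cases h : p ^ r ∣ a
    · rw [if_pos h]
    · rw [if_neg h]
      have h1 : gs6 (a ^ 4) (p ^ (4 * r + 1)) = 0 := by
        have ha0 : a ≠ 0 := fun h' => h (h' ▸ dvd_zero _)
        obtain ⟨w, t, ht, hat⟩ := WfDvdMonoid.max_power_factor (a₀ := a) (x := p) ha0
          hpp.irreducible
        have hwv : w < r := by
          by_contra hcon
          exact h (hat ▸ (pow_dvd_pow p (by omega)).mul_right t)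
        have h2 : a ^ 4 = t ^ 4 * p ^ (4 * w) := by rw [hat]; ring
        have h3 : ¬ p ∣ t ^ 4 := fun h' => ht (hpp.dvd_of_dvd_pow h')
        rw [h2]
        exact res_sy6.gR_table_ge hp h3 (by omega)
      rw [h1, map_zero, zero_mul]
  have hper : PMod (p ^ (4 * r + 1)) (fun a => conj (gs6 (a ^ 4) (p ^ (4 * r + 1))) *
      eC (toC (-k) * toC a / toC (p ^ (4 * r + 1)))) := by
    refine PMod.mul ?_ (pmod_eC (-k) _)
    intro x t
    have h3 : gs6 ((x + p ^ (4 * r + 1) * t) ^ 4) (p ^ (4 * r + 1)) =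
        gs6 (x ^ 4) (p ^ (4 * r + 1)) := by
      refine gsum_congr (dvd_trans ?_ (sub_dvd_pow_sub_pow _ _ 4))
      exact ⟨t, by ring⟩
    simp only [h3]
  rw [tk_one_eq k hpj, sumMod_congr e1]
  rw [sumMod_pow_split hr0 (pow_ne_zero _ hp0) hsv hper]
  have h8 : ∀ u : Eis, conj (gs6 ((p ^ r * u) ^ 4) (p ^ (4 * r + 1))) *
      eC (toC (-k) * toC (p ^ r * u) / toC (p ^ (4 * r + 1))) =
      ((nm p : ℂ) ^ (4 * r) * conj (tw sy6 (4 * r + 1) 1 p)) *
        (conj (sy u p) ^ (4 * r + 1) *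
        eC (toC (-k) * toC u / toC (p ^ (3 * r + 1)))) := by
    intro u
    have e : toC (-k) * toC (p ^ r * u) / toC (p ^ (4 * r + 1)) =
        toC (-k) * toC u / toC (p ^ (3 * r + 1)) := by
      rw [hsv, map_mul toC (p ^ r) u, map_mul toC (p ^ r) (p ^ (3 * r + 1))]
      field_simp
    rw [e, hg]
    simp only [map_mul, map_pow, map_natCast]
    ring
  rw [sumMod_congr h8, sumMod_mul_left (pow_ne_zero _ hp0), nm_pow]
  push_cast
  rw [pow_succ (nm p : ℂ) (4 * r)]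
  field_simp

/-- the case `j = 4 r + 1`, vanishing. -/
theorem tk_pow_four_zero (hp : Sm 2 p) (hpp : Prime p) (r : ℕ) {k : Eis}
    (hk : ¬ p ^ (3 * r) ∣ k) : tk k (p ^ (4 * r + 1)) 1 = 0 := by
  rw [tk_pow_four_aux k hp hpp]
  have h := (res_sy.conj).sum_prime_pow (4 * r + 1) (-k) (sm_one_iff.mpr hp.prim) (3 * r)
  rw [if_neg (by rwa [dvd_neg])] at h
  rw [h, mul_zero]

/-- the case `j = 4 r + 1`, explicit value. -/
theorem tk_pow_four (k : Eis) (hp : Sm 2 p) (hpp : Prime p) (r : ℕ) :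
    tk (p ^ (3 * r) * k) (p ^ (4 * r + 1)) 1 = WW (p ^ (4 * r + 1)) * (nm p : ℂ) ^ (3 * r) *
      ((nm p : ℂ)⁻¹ * conj (tw sy6 (4 * r + 1) 1 p) * conj (tw sy (4 * r + 1) k p)) := by
  have hp0 := hp.ne_zero
  rw [tk_pow_four_aux _ hp hpp]
  have h := (res_sy.conj).sum_prime_pow (4 * r + 1) (-(p ^ (3 * r) * k)) (sm_one_iff.mpr hp.prim)
    (3 * r)
  rw [if_pos (by rw [dvd_neg]; exact dvd_mul_right _ _)] at h
  rw [h]
  have h2 : sumMod p (fun a => conj (sy a p) ^ (4 * r + 1) *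
      eC (toC (-(p ^ (3 * r) * k)) * toC a / toC (p ^ (3 * r + 1)))) =
      conj (tw sy (4 * r + 1) k p) := by
    unfold tw
    rw [conj_gsum hp0]
    unfold gsum
    refine sumMod_congr fun a => ?_
    have e1 : conj (sy a p ^ (4 * r + 1)) = conj (sy a p) ^ (4 * r + 1) := map_pow _ _ _
    beta_reduce
    rw [e1]
    congr 2
    have := Po581.toC_ne_zero (pow_ne_zero (3 * r) hp0)
    have hp' := Po581.toC_ne_zero hp0
    rw [map_neg, map_neg, map_mul toC (p ^ (3 * r)) k, pow_succ p (3 * r),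
      map_mul toC (p ^ (3 * r)) p]
    field_simp
  rw [h2]
  ring

/-- bound for the last factor. -/
lemma norm_tw_sy_le (hp : Sm 2 p) {j : ℕ} (hj : j ≠ 0) (k : Eis) :
    ‖tw sy j k p‖ ≤ nm p := by
  have := norm_gsum_le hp.ne_zero (res_sy.isCh_pow (sm_one_iff.mpr hp.prim) hj) k
  exact this

lemma norm_tw_sy6 (hp : Sm 2 p) (hpp : Prime p) {j : ℕ} (hj : ¬ 6 ∣ j) :
    ‖tw sy6 j 1 p‖ = Real.sqrt (nm p) := by
  have h := res_sy6.norm_tw_sq hp hpp hj (s := 1) (fun h => hpp.not_isUnit (isUnit_of_dvd_one h))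
  rw [← h, Real.sqrt_sq (norm_nonneg _)]

end Crest.Agent.R017.Tk545
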