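import Crest.Agent.R017.TkE_545
import Crest.Agent.R017.TkAlg_545
import Crest.Agent.R017.PowS_571
import Crest.Agent.R012.LS2Pr_381

/-!
# Row 17, section B: explicit values of `tk k b 1` for powerful `b` (helper848)

`tk (d³ x) b 1 = ∏_{p ∣ b} (k0 + k1 prin0 p x) · sy x e`, `d = dd b`, `e = ee b`, and `0` if `d³ ∤ k`.
-/

set_option autoImplicit false

noncomputable section

open Complex
open scoped ComplexConjugate

namespace Crest.Agent.R017.TkPow848

open Crest.Agent.R012 Crest.Agent.R012.Eis Crest.Agent.R012.Mob705 Crest.Agent.R012.Gauss880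
open Crest.Agent.R012.Div277
open Crest.Agent.R017.End699 Crest.Agent.R017.Sx440 Crest.Agent.R017.Sx545 Crest.Agent.R017.B770
open Crest.Agent.R017.FE47 Crest.Agent.R017.LS848 Crest.Agent.R017.Tk545
open Crest.Agent.R017.Eul571 Crest.Agent.R017.PowS571 Crest.Agent.R017.Asm986

/-! ### exponents -/

/-- exponent of `d` -/
def dE (j : ℕ) : ℕ := sE j / 3

lemma sE_four (r : ℕ) : sE (4 * r + 1) = 3 * r := by
  unfold sE; rw [if_pos (by omega)]; omega

lemma dE_four (r : ℕ) : dE (4 * r + 1) = r := by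
  unfold dE; rw [sE_four]; omega

lemma sE_six {j : ℕ} (h : j % 6 = 0) : sE j = 3 * dE j ∨ sE j = 3 * dE j + 1 := by
  have h1 : sE j = j - (j + 3) / 4 := by unfold sE; rw [if_neg (by omega)]
  unfold dE
  omega

lemma dE_le (j : ℕ) : 3 * dE j ≤ sE j := by unfold dE; omega

/-! ### local values -/

/-- the constant at `p^j` -/
def cst (p : Eis) (j : ℕ) : ℂ := WW (p ^ j) * (nm p : ℂ) ^ (sE j)

/-- local coefficient of `1` -/
def k0 (p : Eis) (j : ℕ) : ℂ :=
  if j % 6 = 0 then cst p j * (1 - (nm p : ℂ)⁻¹)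
  else if j % 4 = 1 then
    if 3 ∣ j then cst p j * ((nm p : ℂ)⁻¹ * conj (tw sy6 j 1 p)) * ((nm p : ℂ) - 1)
    else cst p j * ((nm p : ℂ)⁻¹ * conj (tw sy6 j 1 p)) * conj (tw sy j 1 p)
  else 0

/-- local coefficient of `prin0 p` -/
def k1 (p : Eis) (j : ℕ) : ℂ :=
  if j % 6 = 0 then
    if sE j = 3 * dE j then 0 else -(cst p j * (1 - (nm p : ℂ)⁻¹))
  else if j % 4 = 1 then
    if 3 ∣ j then -(cst p j * ((nm p : ℂ)⁻¹ * conj (tw sy6 j 1 p)) * (nm p : ℂ))
    else 0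
  else 0

/-- the local part of `e` -/
def eL (p : Eis) (j : ℕ) : Eis := if j % 4 = 1 ∧ ¬ 3 ∣ j then p ^ j else 1

lemma prin0_prime {p : Eis} (hp : Prime p) (x : Eis) :
    prin0 p x = open Classical in if p ∣ x then 0 else 1 := by
  classical
  unfold prin0
  by_cases h : p ∣ x
  · rw [if_pos h, if_neg (fun h' => (Res.isCoprime_iff_not_dvd hp x).mp h' h)]
  · rw [if_neg h, if_pos ((Res.isCoprime_iff_not_dvd hp x).mpr h)]

/-- vanishing -/
theorem tk_loc_zero {p : Eis} (hp : Sm 2 p) (hpp : Prime p) {j : ℕ} (hj : 2 ≤ j) {k : Eis}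
    (hk : ¬ p ^ (3 * dE j) ∣ k) : tk k (p ^ j) 1 = 0 := by
  by_cases h6 : 6 ∣ j
  · rw [tk_pow_six k hp hpp h6 (by omega), if_neg]
    exact fun h => hk ((pow_dvd_pow p (dE_le j)).trans h)
  by_cases h4 : j % 4 = 1
  · obtain ⟨r, rfl⟩ : ∃ r, j = 4 * r + 1 := ⟨j / 4, by omega⟩
    rw [dE_four] at hk
    exact tk_pow_four_zero hp hpp r hk
  · exact tk_pow_zero k hp hpp h6 h4

/-- the explicit value -/
theorem tk_loc {p : Eis} (hp : Sm 2 p) (hpp : Prime p) {j : ℕ} (hj : 2 ≤ j) (x : Eis) :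
    tk (p ^ (3 * dE j) * x) (p ^ j) 1 = (k0 p j + k1 p j * prin0 p x) * sy x (eL p j) := by
  classical
  have hp0 := hp.ne_zero
  have hnp : (nm p : ℂ) ≠ 0 := by exact_mod_cast (nm_pos.mpr hp0).ne'
  by_cases h6 : 6 ∣ j
  · have h6' : j % 6 = 0 := by omega
    have h4 : ¬ (j % 4 = 1 ∧ ¬ 3 ∣ j) := by omega
    have he : eL p j = 1 := by unfold eL; rw [if_neg h4]
    rw [tk_pow_six _ hp hpp h6 (by omega), he, res_sy.one_right, mul_one]
    unfold k0 k1
    rw [if_pos h6', if_pos h6']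
    rcases sE_six h6' with h | h
    · rw [if_pos h, zero_mul, add_zero, if_pos (by rw [h]; exact dvd_mul_right _ _)]
      unfold cst; ring
    · rw [if_neg (show ¬ sE j = 3 * dE j by omega)]
      have e1 : p ^ sE j ∣ p ^ (3 * dE j) * x ↔ p ∣ x := by
        rw [h, pow_succ]
        exact mul_dvd_mul_iff_left (pow_ne_zero _ hp0)
      rw [prin0_prime hpp]
      by_cases hx : p ∣ x
      · rw [if_pos (e1.mpr hx), if_pos hx]
        unfold cst; ring
      · rw [if_neg (fun h' => hx (e1.mp h')), if_neg hx]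
        unfold cst; ring
  by_cases h4 : j % 4 = 1
  · have h6' : ¬ j % 6 = 0 := by omega
    obtain ⟨r, rfl⟩ : ∃ r, j = 4 * r + 1 := ⟨j / 4, by omega⟩
    have hs := sE_four r
    rw [dE_four, tk_pow_four x hp hpp r]
    unfold k0 k1 cst
    rw [if_neg h6', if_neg h6', if_pos h4, if_pos h4, hs]
    by_cases h3 : 3 ∣ 4 * r + 1
    · have he : eL p (4 * r + 1) = 1 := by unfold eL; rw [if_neg (by tauto)]
      rw [if_pos h3, if_pos h3, he, res_sy.one_right, mul_one,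
        res_sy.tw_of_dvd_exp (sm_one_iff.mpr hp.prim) hpp (by omega) h3 x, prin0_prime hpp]
      split_ifs with hx
      · simp only [map_sub, map_natCast, map_one]; ring
      · simp only [map_sub, map_zero, map_one]
        field_simp
        ring
    · have he : eL p (4 * r + 1) = p ^ (4 * r + 1) := by unfold eL; rw [if_pos ⟨h4, h3⟩]
      rw [if_neg h3, if_neg h3, he, zero_mul, add_zero]
      have h5 : conj (tw sy (4 * r + 1) x p) =
          conj (tw sy (4 * r + 1) 1 p) * sy x (p ^ (4 * r + 1)) := by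
        by_cases hx : p ∣ x
        · rw [res_sy.tw_of_dvd (sm_one_iff.mpr hp.prim) hpp h3 hx,
            (res_sy.eq_zero x (p ^ (4 * r + 1)) (sm_one_iff.mpr (hp.prim.pow _))).mpr, mul_zero,
            map_zero]
          intro h'
          exact (Res.isCoprime_iff_not_dvd hpp x).mp
            (h'.of_isCoprime_of_dvd_right (dvd_pow_self p (by omega))) hx
        · have hc := (Res.isCoprime_iff_not_dvd hpp x).mpr hx
          have := res_sy.tw_mul_left (sm_one_iff.mpr hp.prim) (j := 4 * r + 1) (by omega) 1 hc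
          rw [one_mul] at this
          rw [this, map_mul, map_pow, Complex.conj_conj,
            res_sy.pow_right x (sm_one_iff.mpr hp.prim)]
          ring
      rw [h5]
      ring
  · have h6' : ¬ j % 6 = 0 := by omega
    rw [tk_pow_zero _ hp hpp h6 h4]
    unfold k0 k1
    rw [if_neg h6', if_neg h6', if_neg h4, if_neg h4]
    ring

/-! ### global values -/

/-- `d` -/
def dd (b : Eis) : Eis := mulf (fun p j => p ^ dE j) b

/-- `e` -/
def ee (b : Eis) : Eis := mulf eL b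

lemma eL_pow (p : Eis) (j : ℕ) : ∃ n, eL p j = p ^ n ∧ n ≤ j := by
  unfold eL
  split_ifs
  · exact ⟨j, rfl, le_rfl⟩
  · exact ⟨0, (pow_zero p).symm, Nat.zero_le _⟩

lemma isPrim_mulf {φ : Eis → ℕ → Eis} (h : ∀ p j, ∃ n, φ p j = p ^ n) (b : Eis) :
    IsPrim (mulf φ b) := by
  unfold mulf
  refine Finset.prod_induction _ IsPrim (fun a b ha hb => ha.mul hb) isPrim_one ?_
  intro p hp
  obtain ⟨n, hn⟩ := h p (multiplicity p b)
  rw [hn]
  exact (isPP_of_mem_pp hp).isPrim.pow _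

lemma coprime_mulf {φ : Eis → ℕ → Eis} (h : ∀ p j, ∃ n, φ p j = p ^ n) {b x : Eis}
    (hbx : IsCoprime b x) : IsCoprime (mulf φ b) x := by
  unfold mulf
  refine IsCoprime.prod_left fun p hp => ?_
  obtain ⟨n, hn⟩ := h p (multiplicity p b)
  rw [hn]
  exact (hbx.of_isCoprime_of_dvd_left (dvd_of_mem_pp hp)).pow_left

lemma hdd (p : Eis) (j : ℕ) : ∃ n, p ^ dE j = p ^ n := ⟨_, rfl⟩

lemma hee (p : Eis) (j : ℕ) : ∃ n, eL p j = p ^ n := by
  obtain ⟨n, h, _⟩ := eL_pow p j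
  exact ⟨n, h⟩

lemma isPrim_dd (b : Eis) : IsPrim (dd b) := isPrim_mulf hdd b
lemma isPrim_ee (b : Eis) : IsPrim (ee b) := isPrim_mulf hee b
lemma coprime_dd {b x : Eis} (h : IsCoprime b x) : IsCoprime (dd b) x := coprime_mulf hdd h
lemma coprime_ee {b x : Eis} (h : IsCoprime b x) : IsCoprime (ee b) x := coprime_mulf hee h

lemma prin0_mul_left {u q : Eis} (h : IsCoprime u q) (x : Eis) : prin0 q (u * x) = prin0 q x := by
  classical
  unfold prin0
  have : IsCoprime (u * x) q ↔ IsCoprime x q :=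
    ⟨fun h' => h'.of_mul_left_right, fun h' => h.mul_left h'⟩
  simp only [this]

lemma sy_cube_left {u c : Eis} (hc : IsPrim c) (h : IsCoprime u c) (x : Eis) :
    sy (u ^ 3 * x) c = sy x c := by
  have hc' := sm_one_iff.mpr hc
  rw [res_sy.mul_left _ _ _ hc', res_sy.pow_left u hc', res_sy.pow_eq u c hc' h, one_mul]

lemma mulf_congr {X : Type*} [CommMonoid X] {φ φ' : Eis → ℕ → X} {b : Eis}
    (h : ∀ p ∈ pp b, ∀ j, φ p j = φ' p j) : mulf φ b = mulf φ' b := by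
  unfold mulf
  exact Finset.prod_congr rfl fun p hp => h p hp _

/-- the global values -/
theorem tk_glob : ∀ b, Sm 2 b → Pf b → (∀ k, ¬ dd b ^ 3 ∣ k → tk k b 1 = 0) ∧
    ∀ x, tk (dd b ^ 3 * x) b 1 =
      mulf (fun p j => k0 p j + k1 p j * prin0 p x) b * sy x (ee b) := by
  intro b hb
  refine Sm.induction_coprime (m := 2) (P := fun b => Pf b →
    (∀ k, ¬ dd b ^ 3 ∣ k → tk k b 1 = 0) ∧ ∀ x, tk (dd b ^ 3 * x) b 1 =
      mulf (fun p j => k0 p j + k1 p j * prin0 p x) b * sy x (ee b)) ?_ ?_ b hb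
  · intro _
    have h1 : dd 1 = 1 := mulf_one _
    have h2 : ee 1 = 1 := mulf_one _
    refine ⟨fun k hk => ?_, fun x => ?_⟩
    · rw [h1, one_pow] at hk
      exact absurd (one_dvd k) hk
    · rw [tkAlg.one, h2, mulf_one, res_sy.one_right, one_mul]
  · intro p j b₁ hp hpp hj hb₁ hpb₁ ih hPf
    have hPP : Mob705.IsPP p := ⟨hp.1, hpp⟩
    obtain ⟨h2, hPf₁⟩ := pf_mul hPP hj hpb₁ hPf
    obtain ⟨ih1, ih2⟩ := ih hPf₁
    have hcop : IsCoprime b₁ p := (Res.isCoprime_iff_not_dvd hpp b₁).mpr hpb₁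
    have hm : ∀ k, tk k (p ^ j * b₁) 1 = tk k (p ^ j) 1 * tk k b₁ 1 := by
      intro k
      have h := tkAlg.mul k (p ^ j) b₁ 1 1 (hp.pow j) hb₁ (Sm.one 2) (Sm.one 2)
        (by rw [mul_one, mul_one]; exact Res.coprime_pow hpp hpb₁ j)
      rwa [mul_one] at h
    have hd : dd (p ^ j * b₁) = p ^ dE j * dd b₁ := mulf_mul _ hPP hj hb₁.ne_zero hpb₁
    have he : ee (p ^ j * b₁) = eL p j * ee b₁ := mulf_mul _ hPP hj hb₁.ne_zero hpb₁
    have hcd : IsCoprime (dd b₁) p := coprime_dd hcop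
    have hce : IsCoprime (ee b₁) p := coprime_ee hcop
    constructor
    · intro k hk
      rw [hm]
      by_cases h1 : p ^ (3 * dE j) ∣ k
      · have h3 : ¬ dd b₁ ^ 3 ∣ k := by
          intro h3
          apply hk
          rw [hd, mul_pow, ← pow_mul, mul_comm (dE j) 3]
          exact (hcd.symm.pow).mul_dvd h1 h3
        rw [ih1 k h3, mul_zero]
      · rw [tk_loc_zero hp hpp h2 h1, zero_mul]
    · intro x
      have e1 : dd (p ^ j * b₁) ^ 3 * x = p ^ (3 * dE j) * (dd b₁ ^ 3 * x) := by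
        rw [hd]; ring
      have e2 : dd (p ^ j * b₁) ^ 3 * x = dd b₁ ^ 3 * ((p ^ dE j) ^ 3 * x) := by
        rw [hd]; ring
      have e3 : sy (dd b₁ ^ 3 * x) (eL p j) = sy x (eL p j) := by
        obtain ⟨n, hn⟩ := hee p j
        rw [hn]
        exact sy_cube_left (hp.prim.pow n) hcd.pow_right x
      have e4 : sy ((p ^ dE j) ^ 3 * x) (ee b₁) = sy x (ee b₁) :=
        sy_cube_left (isPrim_ee b₁) hce.symm.pow_left x
      have e5 : mulf (fun q i => k0 q i + k1 q i * prin0 q ((p ^ dE j) ^ 3 * x)) b₁ =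
          mulf (fun q i => k0 q i + k1 q i * prin0 q x) b₁ := by
        refine mulf_congr fun q hq i => ?_
        have hqp : IsCoprime ((p ^ dE j) ^ 3) q := by
          refine (IsCoprime.pow_left (IsCoprime.pow_left ?_))
          refine hPP.isCoprime (isPP_of_mem_pp hq) ?_
          rintro rfl
          exact hpb₁ (dvd_of_mem_pp hq)
        rw [prin0_mul_left hqp]
      rw [hm]
      calc tk (dd (p ^ j * b₁) ^ 3 * x) (p ^ j) 1 * tk (dd (p ^ j * b₁) ^ 3 * x) b₁ 1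
          = tk (p ^ (3 * dE j) * (dd b₁ ^ 3 * x)) (p ^ j) 1 *
            tk (dd b₁ ^ 3 * ((p ^ dE j) ^ 3 * x)) b₁ 1 := by rw [e1, ← e2, ← e1]
        _ = _ := by
            rw [tk_loc hp hpp h2, ih2, e3, e4, e5, prin0_mul_left (hcd.pow_left), he,
              res_sy.mul_right x _ _ (sm_one_iff.mpr ?_) (sm_one_iff.mpr (isPrim_ee b₁)),
              mulf_mul _ hPP hj hb₁.ne_zero hpb₁]
            · ring
            · obtain ⟨n, hn⟩ := hee p j
              rw [hn]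
              exact hp.prim.pow n

/-! ### expansion of the product -/

open Classical in
/-- the set of the squarefree primary divisors of `b` -/
def EE (b : Eis) : Finset Eis := (pp b).powerset.image LS2.pr

open Classical in
/-- the coefficients -/
def kk (b t : Eis) : ℂ :=
  ∏ q ∈ pp b, if q ∣ t then k1 q (multiplicity q b) else k0 q (multiplicity q b)

lemma isPS_pp (b : Eis) : LS2.IsPS (pp b) := fun _ hp => isPP_of_mem_pp hp

lemma mem_EE {b t : Eis} : t ∈ EE b ↔ ∃ P, P ⊆ pp b ∧ LS2.pr P = t := by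
  classical
  unfold EE
  rw [Finset.mem_image]
  simp only [Finset.mem_powerset]

lemma EE_prim {b t : Eis} (h : t ∈ EE b) : IsPrim t ∧ Squarefree t := by
  obtain ⟨P, hP, rfl⟩ := mem_EE.mp h
  have := (isPS_pp b).mono hP
  exact ⟨this.prim, this.squarefree⟩

lemma EE_dvd {b t : Eis} (h : t ∈ EE b) : t ∣ b := by
  classical
  obtain ⟨P, hP, rfl⟩ := mem_EE.mp h
  exact (((isPS_pp b).mono hP).pr_dvd_iff b).mpr fun p hp => dvd_of_mem_pp (hP hp)

open Classical in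
lemma sum_EE {X : Type*} [AddCommMonoid X] (b : Eis) (f : Eis → X) :
    ∑ t ∈ EE b, f t = ∑ P ∈ (pp b).powerset, f (LS2.pr P) := by
  unfold EE
  rw [Finset.sum_image]
  intro P hP Q hQ h
  rw [Finset.mem_coe, Finset.mem_powerset] at hP hQ
  exact LS2.pr_injOn ((isPS_pp b).mono hP) ((isPS_pp b).mono hQ) h

lemma prin0_pr {P : Finset Eis} (hP : LS2.IsPS P) (x : Eis) :
    prin0 (LS2.pr P) x = ∏ q ∈ P, prin0 q x := by
  classical
  unfold prin0
  by_cases h : IsCoprime x (LS2.pr P)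
  · rw [if_pos h]
    symm
    apply Finset.prod_eq_one
    intro q hq
    rw [if_pos]
    exact (Res.isCoprime_iff_not_dvd (hP q hq).2 x).mpr ((hP.isCoprime_iff x).mp h q hq)
  · rw [if_neg h]
    symm
    rw [hP.isCoprime_iff x] at h
    push Not at h
    obtain ⟨q, hq, hqx⟩ := h
    refine Finset.prod_eq_zero hq ?_
    rw [if_neg (fun h' => (Res.isCoprime_iff_not_dvd (hP q hq).2 x).mp h' hqx)]

open Classical in
lemma kk_pr {b : Eis} {P : Finset Eis} (hP : P ⊆ pp b) :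
    kk b (LS2.pr P) = (∏ q ∈ P, k1 q (multiplicity q b)) *
      ∏ q ∈ pp b \ P, k0 q (multiplicity q b) := by
  unfold kk
  have h1 := (isPS_pp b).mono hP
  rw [← Finset.prod_sdiff hP, mul_comm]
  congr 1
  · refine Finset.prod_congr rfl fun q hq => ?_
    rw [if_pos ((h1.dvd_iff (h1 q hq)).mpr hq)]
  · refine Finset.prod_congr rfl fun q hq => ?_
    rw [Finset.mem_sdiff] at hq
    rw [if_neg (fun h => hq.2 ((h1.dvd_iff (isPP_of_mem_pp hq.1)).mp h))]

/-- the expansion -/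
theorem mulf_eq_sum (b x : Eis) : mulf (fun p j => k0 p j + k1 p j * prin0 p x) b =
    ∑ t ∈ EE b, kk b t * prin0 t x := by
  classical
  rw [sum_EE]
  unfold mulf
  have h1 : ∀ q ∈ pp b, k0 q (multiplicity q b) + k1 q (multiplicity q b) * prin0 q x =
      k1 q (multiplicity q b) * prin0 q x + k0 q (multiplicity q b) := fun q _ => by ring
  rw [Finset.prod_congr rfl h1, Finset.prod_add]
  refine Finset.sum_congr rfl fun P hP => ?_
  rw [Finset.mem_powerset] at hP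
  rw [kk_pr hP, prin0_pr ((isPS_pp b).mono hP), Finset.prod_mul_distrib]
  ring

/-- sum of the absolute values -/
theorem sum_norm_kk (b : Eis) : ∑ t ∈ EE b, ‖kk b t‖ =
    mulf (fun p j => ‖k1 p j‖ + ‖k0 p j‖) b := by
  classical
  rw [sum_EE]
  unfold mulf
  rw [Finset.prod_add]
  refine Finset.sum_congr rfl fun P hP => ?_
  rw [Finset.mem_powerset] at hP
  rw [kk_pr hP, norm_mul, norm_prod, norm_prod]

/-! ### bounds -/

/-- the local bound -/
def w0 (p : Eis) (j : ℕ) : ℝ :=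
  if j % 4 = 1 ∨ j % 6 = 0 then 2 * Real.sqrt (nm p) * (nm p : ℝ) ^ sE j else 0

lemma w0_nonneg (p : Eis) (j : ℕ) : 0 ≤ w0 p j := by
  unfold w0
  split_ifs
  · positivity
  · exact le_rfl

/-- the bound -/
def Wt (b : Eis) : ℝ := mulf w0 b

lemma Wt_nonneg (b : Eis) : 0 ≤ Wt b := Finset.prod_nonneg fun _ _ => w0_nonneg _ _

lemma norm_cst {p : Eis} (hp : Sm 2 p) (j : ℕ) : ‖cst p j‖ = (nm p : ℝ) ^ sE j := by
  unfold cst
  rw [norm_mul, norm_WW (hp.pow j), norm_pow, Complex.norm_natCast, one_mul]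

lemma norm_kloc {p : Eis} (hp : Sm 2 p) (hpp : Prime p) {j : ℕ} (hj : 1 ≤ j) :
    ‖k1 p j‖ + ‖k0 p j‖ ≤ w0 p j := by
  have hq : (4 : ℝ) ≤ nm p := by exact_mod_cast IsPP.four_le_nm ⟨hp.1, hpp⟩
  have hq0 : (0 : ℝ) < nm p := by linarith
  have hs1 : (1 : ℝ) ≤ Real.sqrt (nm p) := Real.one_le_sqrt.mpr (by linarith)
  have hss : Real.sqrt (nm p) * Real.sqrt (nm p) = nm p := Real.mul_self_sqrt hq0.le
  have hc := norm_cst hp j
  have hqs : 0 ≤ (nm p : ℝ) ^ sE j := by positivity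
  unfold k1 k0 w0
  by_cases h6 : j % 6 = 0
  · rw [if_pos h6, if_pos h6, if_pos (Or.inr h6)]
    have e0 : ‖(1 : ℂ) - (nm p : ℂ)⁻¹‖ ≤ 1 := by
      have : (1 : ℂ) - (nm p : ℂ)⁻¹ = ((1 - (nm p : ℝ)⁻¹ : ℝ) : ℂ) := by push_cast; ring
      rw [this, Complex.norm_real, Real.norm_eq_abs, abs_of_nonneg]
      · have : 0 < (nm p : ℝ)⁻¹ := by positivity
        linarith
      · rw [sub_nonneg]
        exact inv_le_one_of_one_le₀ (by linarith)
    have e1 : ‖cst p j * (1 - (nm p : ℂ)⁻¹)‖ ≤ (nm p : ℝ) ^ sE j := by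
      rw [norm_mul, hc]
      exact mul_le_of_le_one_right hqs e0
    have e2 : ‖(if sE j = 3 * dE j then 0 else -(cst p j * (1 - (nm p : ℂ)⁻¹)) : ℂ)‖ ≤
        (nm p : ℝ) ^ sE j := by
      split_ifs
      · rw [norm_zero]; exact hqs
      · rw [norm_neg]; exact e1
    nlinarith
  rw [if_neg h6, if_neg h6]
  by_cases h4 : j % 4 = 1
  · rw [if_pos h4, if_pos h4, if_pos (Or.inl h4)]
    have e3 : ‖(nm p : ℂ)⁻¹ * conj (tw sy6 j 1 p)‖ = (nm p : ℝ)⁻¹ * Real.sqrt (nm p) := by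
      rw [norm_mul, Complex.norm_conj, norm_tw_sy6 hp hpp (by omega), norm_inv,
        Complex.norm_natCast]
    have hi : (nm p : ℝ)⁻¹ * nm p = 1 := inv_mul_cancel₀ hq0.ne'
    by_cases h3 : 3 ∣ j
    · rw [if_pos h3, if_pos h3, norm_neg, norm_mul, norm_mul, norm_mul _ ((nm p : ℂ) - 1),
        norm_mul (cst p j), e3, hc, Complex.norm_natCast]
      have e4 : ‖(nm p : ℂ) - 1‖ ≤ nm p := by
        have : (nm p : ℂ) - 1 = (((nm p : ℝ) - 1 : ℝ) : ℂ) := by push_cast; ring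
        rw [this, Complex.norm_real, Real.norm_eq_abs, abs_of_nonneg (by linarith)]
        linarith
      calc (nm p : ℝ) ^ sE j * ((nm p : ℝ)⁻¹ * Real.sqrt (nm p)) * (nm p : ℝ) +
            (nm p : ℝ) ^ sE j * ((nm p : ℝ)⁻¹ * Real.sqrt (nm p)) * ‖(nm p : ℂ) - 1‖
          ≤ (nm p : ℝ) ^ sE j * ((nm p : ℝ)⁻¹ * Real.sqrt (nm p)) * (nm p : ℝ) +
            (nm p : ℝ) ^ sE j * ((nm p : ℝ)⁻¹ * Real.sqrt (nm p)) * (nm p : ℝ) := by gcongr
        _ = 2 * Real.sqrt (nm p) * (nm p : ℝ) ^ sE j * ((nm p : ℝ)⁻¹ * nm p) := by ring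
        _ = _ := by rw [hi, mul_one]
    · rw [if_neg h3, if_neg h3, norm_zero, zero_add, norm_mul, norm_mul, e3, hc,
        Complex.norm_conj]
      have e5 : ‖tw sy j 1 p‖ ≤ nm p := norm_tw_sy_le hp (by omega) 1
      calc (nm p : ℝ) ^ sE j * ((nm p : ℝ)⁻¹ * Real.sqrt (nm p)) * ‖tw sy j 1 p‖
          ≤ (nm p : ℝ) ^ sE j * ((nm p : ℝ)⁻¹ * Real.sqrt (nm p)) * (nm p : ℝ) := by gcongr
        _ = Real.sqrt (nm p) * (nm p : ℝ) ^ sE j * ((nm p : ℝ)⁻¹ * nm p) := by ring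
        _ ≤ _ := by
            rw [hi, mul_one]
            have : 0 ≤ Real.sqrt (nm p) * (nm p : ℝ) ^ sE j := by positivity
            linarith
  · rw [if_neg h4, if_neg h4, norm_zero, if_neg (by tauto), add_zero]

theorem sum_kk_le {b : Eis} (hb : Sm 2 b) : ∑ t ∈ EE b, ‖kk b t‖ ≤ Wt b := by
  rw [sum_norm_kk]
  unfold Wt mulf
  refine Finset.prod_le_prod (fun p _ => by positivity) fun p hp => ?_
  have hPP := isPP_of_mem_pp hp
  have hpb := dvd_of_mem_pp hp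
  refine norm_kloc (hb.of_dvd hPP.isPrim hpb) hPP.prime ?_
  have h1 := (FiniteMultiplicity.of_prime_left hPP.prime hb.ne_zero).le_multiplicity_of_pow_dvd
    (k := 1) (by rwa [pow_one])
  exact h1

/-! ### summability -/

open Classical in
/-- the summand -/
def FW (α σ : ℝ) (b : Eis) : ℝ :=
  if Pf b then Wt b * (nm (dd b) : ℝ) ^ (-α) * (nm b : ℝ) ^ (-σ) else 0

lemma FW_nonneg (α σ : ℝ) (b : Eis) : 0 ≤ FW α σ b := by
  unfold FW
  split_ifs
  · have := Wt_nonneg b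
    positivity
  · exact le_rfl

lemma FW_mul (α σ : ℝ) {p b : Eis} (hp : Mob705.IsPP p) {k : ℕ} (hk : 1 ≤ k) (hb : Sm 2 b)
    (hpb : ¬ p ∣ b) : FW α σ (p ^ k * b) ≤ FW α σ (p ^ k) * FW α σ b := by
  by_cases hPf : Pf (p ^ k * b)
  · obtain ⟨h2, hPf₁⟩ := pf_mul hp hk hpb hPf
    have hpk := pf_pow hp h2
    unfold FW
    rw [if_pos hPf, if_pos hPf₁, if_pos hpk]
    have hS : dd (p ^ k * b) = dd (p ^ k) * dd b := by
      rw [show dd (p ^ k * b) = p ^ dE k * dd b from mulf_mul _ hp hk hb.ne_zero hpb,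
        show dd (p ^ k) = p ^ dE k from mulf_pow _ hp hk]
    have ho : Wt (p ^ k * b) = Wt (p ^ k) * Wt b := by
      rw [show Wt (p ^ k * b) = w0 p k * Wt b from mulf_mul _ hp hk hb.ne_zero hpb,
        show Wt (p ^ k) = w0 p k from mulf_pow _ hp hk]
    rw [hS, ho, nm_mul, nm_mul]
    push_cast
    rw [Real.mul_rpow (Nat.cast_nonneg _) (Nat.cast_nonneg _),
      Real.mul_rpow (by positivity) (Nat.cast_nonneg _)]
    apply le_of_eq
    ring
  · unfold FW
    rw [if_neg hPf]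
    have := FW_nonneg α σ (p ^ k)
    have := FW_nonneg α σ b
    unfold FW at *
    positivity

/-- good exponents: local decay -/
def DecW (α σ : ℝ) : Prop := ∀ j : ℕ, 2 ≤ j → (j % 4 = 1 ∨ j % 6 = 0) →
  (sE j : ℝ) + 1 / 2 - α * dE j - σ * j ≤ -(11 / 10) - ((j : ℝ) - 5) / 20 ∧ 5 ≤ j

lemma FW_pow_le {α σ : ℝ} (hD : DecW α σ) {p : Eis} (hp : Mob705.IsPP p) {j : ℕ} (hj : 1 ≤ j) :
    FW α σ (p ^ j) ≤ (nm p : ℝ) ^ (-(11 / 10 : ℝ)) * (2 * (((4 : ℝ) ^ (-(1 / 20 : ℝ))) ^ j *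
        ((4 : ℝ) ^ (1 / 20 : ℝ)) ^ 5)) := by
  have hq : (4 : ℝ) ≤ nm p := by exact_mod_cast IsPP.four_le_nm hp
  have hq0 : (0 : ℝ) < nm p := by linarith
  have hR : 0 ≤ (nm p : ℝ) ^ (-(11 / 10 : ℝ)) * (2 * (((4 : ℝ) ^ (-(1 / 20 : ℝ))) ^ j *
        ((4 : ℝ) ^ (1 / 20 : ℝ)) ^ 5)) := by positivity
  unfold FW
  by_cases h1 : j = 1
  · subst h1
    rw [if_neg]
    · exact hR
    · intro h
      have h2 := h p hp.prime (by rw [pow_one])
      rw [pow_one, pow_two] at h2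
      have h3 : p * p ∣ p * 1 := by rwa [mul_one]
      exact hp.prime.not_isUnit (isUnit_of_dvd_one ((mul_dvd_mul_iff_left hp.ne_zero).mp h3))
  have h2 : 2 ≤ j := by omega
  rw [if_pos (pf_pow hp h2), show dd (p ^ j) = p ^ dE j from mulf_pow _ hp hj,
    show Wt (p ^ j) = w0 p j from mulf_pow _ hp hj]
  unfold w0
  by_cases hs : j % 4 = 1 ∨ j % 6 = 0
  · obtain ⟨he, h5⟩ := hD j h2 hs
    have h5' : (5 : ℝ) ≤ j := by exact_mod_cast h5
    rw [if_pos hs, nm_pow, nm_pow]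
    push_cast
    calc 2 * Real.sqrt (nm p) * (nm p : ℝ) ^ sE j * ((nm p : ℝ) ^ dE j) ^ (-α) *
          ((nm p : ℝ) ^ j) ^ (-σ)
        = 2 * (nm p : ℝ) ^ ((sE j : ℝ) + 1 / 2 - α * dE j - σ * j) := by
          rw [Real.sqrt_eq_rpow, ← Real.rpow_natCast, ← Real.rpow_natCast, ← Real.rpow_mul hq0.le,
            ← Real.rpow_natCast, ← Real.rpow_mul hq0.le, mul_assoc, mul_assoc, mul_assoc,
            ← Real.rpow_add hq0, ← Real.rpow_add hq0, ← Real.rpow_add hq0]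
          congr 2; ring
      _ ≤ 2 * (nm p : ℝ) ^ (-(11 / 10) - ((j : ℝ) - 5) / 20) := by
          gcongr
          linarith
      _ = (nm p : ℝ) ^ (-(11 / 10 : ℝ)) * (2 * (nm p : ℝ) ^ (-(((j : ℝ) - 5) / 20))) := by
          rw [show -(11 / 10 : ℝ) - ((j : ℝ) - 5) / 20 = -(11 / 10) + -(((j : ℝ) - 5) / 20) by ring,
            Real.rpow_add hq0]; ring
      _ ≤ (nm p : ℝ) ^ (-(11 / 10 : ℝ)) * (2 * (4 : ℝ) ^ (-(((j : ℝ) - 5) / 20))) := by
          refine mul_le_mul_of_nonneg_left ?_ (by positivity)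
          refine mul_le_mul_of_nonneg_left ?_ (by norm_num)
          exact Real.rpow_le_rpow_of_nonpos (by norm_num) hq (by linarith)
      _ = _ := by
          congr 2
          rw [← Real.rpow_natCast, ← Real.rpow_mul (by norm_num), ← Real.rpow_natCast,
            ← Real.rpow_mul (by norm_num), ← Real.rpow_add (by norm_num)]
          congr 1
          push_cast
          ring
  · rw [if_neg hs, zero_mul, zero_mul]
    exact hR

open Classical in
theorem summable_FW {α σ : ℝ} (hD : DecW α σ) :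
    Summable (fun b => if Sm 2 b ∧ Pf b then
      Wt b * (nm (dd b) : ℝ) ^ (-α) * (nm b : ℝ) ^ (-σ) else 0) := by
  obtain ⟨U, hU0, hU⟩ := sum_nm_rpow_le (s := 11 / 10) (by norm_num)
  set r : ℝ := (4 : ℝ) ^ (-(1 / 20 : ℝ)) with hr
  set c5 : ℝ := ((4 : ℝ) ^ (1 / 20 : ℝ)) ^ 5 with hc5
  have hr0 : 0 ≤ r := by positivity
  have hr1 : r < 1 := Real.rpow_lt_one_of_one_lt_of_neg (by norm_num) (by norm_num)
  have hc50 : 0 ≤ c5 := by positivity
  have h1r : 0 < 1 - r := by linarith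
  set D : ℝ := 2 * ((1 - r)⁻¹ * c5) with hDd
  have hD0 : 0 ≤ D := by positivity
  have hmain := eul_sum_le (m := 2) (F := FW α σ)
    (u := fun p => (nm p : ℝ) ^ (-(11 / 10 : ℝ)) * D) (U := U * D)
    (fun b _ => FW_nonneg α σ b)
    (by
      unfold FW
      have h1 : dd 1 = 1 := mulf_one _
      have h2 : Wt 1 = 1 := mulf_one _
      rw [h1, h2]
      split_ifs
      · simp
      · norm_num)
    (fun p k b hp hpp hk hb hpb => FW_mul α σ ⟨hp.1, hpp⟩ hk hb hpb)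
    (by
      intro p hp hpp K
      calc ∑ k ∈ Finset.Icc 1 K, FW α σ (p ^ k)
          ≤ ∑ k ∈ Finset.Icc 1 K, (nm p : ℝ) ^ (-(11 / 10 : ℝ)) * (2 * (r ^ k * c5)) :=
            Finset.sum_le_sum fun k hk => FW_pow_le hD ⟨hp.1, hpp⟩ (Finset.mem_Icc.mp hk).1
        _ = (nm p : ℝ) ^ (-(11 / 10 : ℝ)) * (2 * ((∑ k ∈ Finset.Icc 1 K, r ^ k) * c5)) := by
            rw [Finset.sum_mul, Finset.mul_sum, Finset.mul_sum]
        _ ≤ (nm p : ℝ) ^ (-(11 / 10 : ℝ)) * (2 * ((1 - r)⁻¹ * c5)) := by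
            refine mul_le_mul_of_nonneg_left (mul_le_mul_of_nonneg_left
              (mul_le_mul_of_nonneg_right ?_ hc50) (by norm_num)) (by positivity)
            rw [← tsum_geometric_of_lt_one hr0 hr1]
            exact (summable_geometric_of_lt_one hr0 hr1).sum_le_tsum _ (fun k _ => by positivity))
    (by
      intro P _
      rw [← Finset.sum_mul]
      exact mul_le_mul_of_nonneg_right (hU P) hD0)
  have hnn : ∀ b, 0 ≤ (if Sm 2 b ∧ Pf b then
      Wt b * (nm (dd b) : ℝ) ^ (-α) * (nm b : ℝ) ^ (-σ) else 0) := by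
    intro b
    split_ifs
    · have := Wt_nonneg b
      positivity
    · exact le_rfl
  refine summable_of_sum_le (c := Real.exp (U * D)) hnn fun u => ?_
  set X : ℕ := u.sup nm with hX
  calc ∑ b ∈ u, (if Sm 2 b ∧ Pf b then
        Wt b * (nm (dd b) : ℝ) ^ (-α) * (nm b : ℝ) ^ (-σ) else 0)
      = ∑ b ∈ u.filter (Sm 2), FW α σ b := by
        rw [Finset.sum_filter]
        refine Finset.sum_congr rfl fun b _ => ?_
        unfold FW
        by_cases h1 : Sm 2 b <;> by_cases h2 : Pf b <;> simp [h1, h2]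
    _ ≤ ∑ b ∈ (primBall X).filter (Sm 2), FW α σ b := by
        refine Finset.sum_le_sum_of_subset_of_nonneg ?_ (fun b _ _ => FW_nonneg α σ b)
        intro b hb
        rw [Finset.mem_filter] at hb ⊢
        refine ⟨mem_primBall.mpr ⟨?_, hb.2.1⟩, hb.2⟩
        exact Finset.le_sup (f := nm) hb.1
    _ ≤ Real.exp (U * D) := hmain X

lemma sE_dE {j : ℕ} (h : j % 4 = 1 ∨ j % 6 = 0) :
    ((sE j : ℝ) ≤ 3 * dE j + 1) ∧ (3 * (dE j : ℝ) ≤ sE j) := by
  have h1 : sE j ≤ 3 * dE j + 1 := by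
    rcases h with h | h
    · obtain ⟨r, rfl⟩ : ∃ r, j = 4 * r + 1 := ⟨j / 4, by omega⟩
      rw [dE_four, sE_four]; omega
    · rcases sE_six h with h | h <;> omega
  have h2 := dE_le j
  exact ⟨by exact_mod_cast h1, by exact_mod_cast h2⟩

/-- first monomial -/
lemma dec1 : DecW 3 (1 / 2) := by
  intro j h2 h
  have h5 : 5 ≤ j := by omega
  have h5' : (5 : ℝ) ≤ j := by exact_mod_cast h5
  refine ⟨?_, h5⟩
  obtain ⟨e1, e2⟩ := sE_dE h
  rcases eq_or_ne j 5 with rfl | h5'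
  · have h3 : sE 5 = 3 := by decide
    have h4 : dE 5 = 1 := by decide
    rw [h3, h4]
    norm_num
  · have h6 : 6 ≤ j := by omega
    have h6' : (6 : ℝ) ≤ j := by exact_mod_cast h6
    linarith

/-- second monomial -/
lemma dec2 : DecW (3 / 2) (3 / 4) := by
  intro j h2 h
  have h5 : 5 ≤ j := by omega
  have h5' : (5 : ℝ) ≤ j := by exact_mod_cast h5
  refine ⟨?_, h5⟩
  obtain ⟨e1, e2⟩ := sE_dE h
  have e3 := sE_le' j
  rcases eq_or_ne j 5 with rfl | h5'
  · have h3 : sE 5 = 3 := by decide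
    have h4 : dE 5 = 1 := by decide
    rw [h3, h4]
    norm_num
  · have h6 : 6 ≤ j := by omega
    have h6' : (6 : ℝ) ≤ j := by exact_mod_cast h6
    linarith

/-- third monomial -/
lemma dec3 {σ : ℝ} (hσ : 7 / 8 < σ) : DecW (1 / 2) σ := by
  intro j h2 h
  have h5 : 5 ≤ j := by omega
  have h5' : (5 : ℝ) ≤ j := by exact_mod_cast h5
  refine ⟨?_, h5⟩
  obtain ⟨e1, e2⟩ := sE_dE h
  have e3 := sE_le' j
  have hσj : 7 / 8 * (j : ℝ) ≤ σ * j := by nlinarith
  rcases eq_or_ne j 5 with rfl | h5'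
  · have h3 : sE 5 = 3 := by decide
    have h4 : dE 5 = 1 := by decide
    rw [h3, h4]
    norm_num at hσj ⊢
    linarith
  rcases eq_or_ne j 6 with rfl | h6'
  · have h3 : sE 6 = 4 := by decide
    have h4 : dE 6 = 1 := by decide
    rw [h3, h4]
    norm_num at hσj ⊢
    linarith
  · have h9 : 9 ≤ j := by omega
    have h9' : (9 : ℝ) ≤ j := by exact_mod_cast h9
    linarith

/-! ### properties of `d`, `e`, `t` -/

lemma multiplicity_pos {b p : Eis} (hb : b ≠ 0) (hp : p ∈ pp b) : 1 ≤ multiplicity p b :=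
  (FiniteMultiplicity.of_prime_left (isPP_of_mem_pp hp).prime hb).le_multiplicity_of_pow_dvd
    (k := 1) (by rw [pow_one]; exact dvd_of_mem_pp hp)

/-- `e ∣ b` -/
lemma ee_dvd {b : Eis} (hb : Sm 2 b) : ee b ∣ b := by
  refine Sm.induction_coprime (m := 2) (P := fun b => ee b ∣ b) ?_ ?_ b hb
  · have h2 : ee 1 = 1 := mulf_one _
    rw [h2]
  · intro p j b₁ hp hpp hj hb₁ hpb₁ ih
    have he : ee (p ^ j * b₁) = eL p j * ee b₁ :=
      mulf_mul _ ⟨hp.1, hpp⟩ hj hb₁.ne_zero hpb₁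
    obtain ⟨n, hn, hnj⟩ := eL_pow p j
    rw [he, hn]
    exact mul_dvd_mul (pow_dvd_pow p hnj) ih

/-- `d³ ∣ b` -/
lemma dd_dvd {b : Eis} (hb : Sm 2 b) : dd b ^ 3 ∣ b := by
  refine Sm.induction_coprime (m := 2) (P := fun b => dd b ^ 3 ∣ b) ?_ ?_ b hb
  · have h2 : dd 1 = 1 := mulf_one _
    rw [h2, one_pow]
  · intro p j b₁ hp hpp hj hb₁ hpb₁ ih
    have he : dd (p ^ j * b₁) = p ^ dE j * dd b₁ :=
      mulf_mul _ ⟨hp.1, hpp⟩ hj hb₁.ne_zero hpb₁
    rw [he, mul_pow, ← pow_mul]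
    refine mul_dvd_mul (pow_dvd_pow p ?_) ih
    have h1 := dE_le j
    have h2 : sE j ≤ j := by unfold sE; split_ifs <;> omega
    omega

/-- every prime of `e` occurs to the power `5` -/
lemma ee_five {b : Eis} (hb : Sm 2 b) : Pf b → ∀ p, Prime p → p ∣ ee b → p ^ 5 ∣ ee b := by
  refine Sm.induction_coprime (m := 2)
    (P := fun b => Pf b → ∀ p, Prime p → p ∣ ee b → p ^ 5 ∣ ee b) ?_ ?_ b hb
  · intro _ p hp h
    have h2 : ee 1 = 1 := mulf_one _
    rw [h2] at h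
    exact absurd (isUnit_of_dvd_one h) hp.not_isUnit
  · intro q j b₁ hq hqq hj hb₁ hqb₁ ih hPf p hp h
    have hPP : Mob705.IsPP q := ⟨hq.1, hqq⟩
    obtain ⟨h2, hPf₁⟩ := pf_mul hPP hj hqb₁ hPf
    have he : ee (q ^ j * b₁) = eL q j * ee b₁ := mulf_mul _ hPP hj hb₁.ne_zero hqb₁
    rw [he] at h ⊢
    rcases hp.dvd_or_dvd h with h3 | h3
    · refine Dvd.dvd.mul_right ?_ _
      unfold eL at h3 ⊢
      split_ifs at h3 ⊢ with h4
      · have h5 := hp.dvd_of_dvd_pow h3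
        exact (pow_dvd_pow_of_dvd h5 5).trans (pow_dvd_pow q (by omega))
      · exact absurd (isUnit_of_dvd_one h3) hp.not_isUnit
    · exact (ih hPf₁ p hp h3).mul_left _

/-- the final form: explicit values at powerful `b` -/
theorem tk_eq_sum {b : Eis} (hb : Sm 2 b) (hP : Pf b) (k : Eis) :
    tk k b 1 = open Classical in if dd b ^ 3 ∣ k then
      (∑ t ∈ EE b, kk b t * prin0 t (k / dd b ^ 3)) * sy (k / dd b ^ 3) (ee b) else 0 := by
  classical
  obtain ⟨h1, h2⟩ := tk_glob b hb hP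
  split_ifs with h
  · have h3 : dd b ^ 3 * (k / dd b ^ 3) = k :=
      EuclideanDomain.mul_div_cancel' (pow_ne_zero _ (isPrim_dd b).ne_zero) h
    conv_lhs => rw [← h3]
    rw [h2, mulf_eq_sum]
  · exact h1 k h

end Crest.Agent.R017.TkPow848
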