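import Crest.Agent.R017.DgHA_290

/-!
# Row 17, REST, class E (helper48): the real lines of the `T`-side of a difference

* `lineTx`, `lineSx`, `lineLx` : helper290's lines with the three numbers `shN`
-/

set_option autoImplicit false
set_option linter.unusedVariables false

noncomputable section

namespace Crest.Agent.R017.TnHs48

open Crest.Agent.R017.RnP571 (Dh)
open Crest.Agent.R017.RstQ702 (LR XS tS)
open Crest.Agent.R017.RstX290
open Crest.Agent.R017.RST405 (Fr Gt_le)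
open Crest.Agent.R017.OwA90 (Gt)
open Crest.Agent.R017.DgHX290 (shN)

variable {k y₃ y₄ u x D t p v m γ d b w z Z s0 h : ℝ}

lemma fr_of (H : Ef k y₃ y₄ u x D t p v m) (hd : d = D / k) (γ0 : 0 ≤ γ) (γ1 : 2 * γ ≤ v + t) :
    Fr k y₃ y₄ u x D t p v γ d :=
  ⟨H.hD, H.t0, H.t1, H.p3, by have := H.p1; have := H.m0; linarith, H.v1, H.v2, γ0, γ1, hd⟩

/-- **the `T`-line** -/
theorem lineTx (H : Ef k y₃ y₄ u x D t p v m) (hh : Hc k v p γ (XS (y₃ + y₄ + u) k x) t h)
    (hd : d = D / k) (γ0 : 0 ≤ γ) (γ1 : 2 * γ ≤ v + t) (b0 : 0 ≤ b) (w0 : 0 ≤ w)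
    (hw : w ≤ v - 2 * γ + t) (hz : z ≤ y₃ + t) (hZ : Z ≤ 1883 / 10000 * k + t)
    (hs : 17 / 100 * k - m - t ≤ s0) :
    2 / 3 * k - h / 3 + shN d p z Z s0 γ b w + 4 / 3 * γ - w / 3 - p / 3 ≤
      k + p + LR (y₃ + y₄ + u) k D x + 10 * t := by
  have hF : Fr k y₃ y₄ u x D t p v γ d := fr_of H hd γ0 γ1
  obtain ⟨B, hB, B0, Bb, n0, hn⟩ := hF.blk b0
  have t0 := H.t0
  -- own number
  have h1 : 2 / 3 * k - h / 3 + Gt d (w + min b (p - γ)) (max 0 (p - γ - b)) z + 4 / 3 * γ -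
      w / 3 - p / 3 ≤ k + p + LR (y₃ + y₄ + u) k D x + 10 * t := by
    rw [← hB]
    rw [hn] at n0 ⊢
    have hl := hF.loss (n := p - γ - B) (by linarith)
    obtain ⟨w1, w2, w3, w4⟩ := hF.v_le
    rcases Gt_le (l := w + B) (z := z) n0 hF.d0 with hg | hg
    · obtain ⟨⟨k0, u4, y43, u0, y3, N1, near, x0, adm, d0, d1⟩, t0, t1, m0, p1, p2, p3, v1, v2,
        v3, v4⟩ := H
      obtain ⟨ha, hb⟩ := hh
      unfold RstQ702.LR
      unfold RstQ702.XS at ha hb
      have L0 := le_max_left 0 (5 / 4 * (y₃ + y₄ + u) - k)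
      generalize max 0 (5 / 4 * (y₃ + y₄ + u) - k) = Lm at *
      generalize Gt d (w + B) (p - γ - B) z = G at *
      generalize 2 / 3 * d * (p - γ - B) = W at *
      rcases hb with ⟨hb1, hb2⟩ | ⟨hb1, hb2⟩ <;>
      rcases adm with ⟨a0, rfl | a1⟩ | ⟨a1, a2, a3⟩ <;> linarith
    · have key := tN_le (l := w + B) (b := B) (n := p - γ - B) (z := z) H hh γ0 B0 (by linarith)
        (by linarith) n0 (by linarith) hz
      rw [← hd] at key
      linarith
  -- flat number
  have h2 : 2 / 3 * k - h / 3 + (max ((w + min b (p - γ)) + max 0 (p - γ - b) +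
      min Z (max 0 (p - γ - b) / 3)) (5 / 3 * max 0 (p - γ - b) + (w + min b (p - γ)) / 3)) +
      4 / 3 * γ - w / 3 - p / 3 ≤ k + p + LR (y₃ + y₄ + u) k D x + 10 * t := by
    rw [← hB]
    rw [hn] at n0 ⊢
    have key := tF_le3 (l := w + B) (b := B) (n := p - γ - B) (Z := Z)
      (T := max ((w + B) + (p - γ - B) + min Z ((p - γ - B) / 3))
        (5 / 3 * (p - γ - B) + (w + B) / 3)) H hh γ0 B0 (by linarith) (by linarith) n0
      (by linarith) hZ (by
        rcases max_choice ((w + B) + (p - γ - B) + min Z ((p - γ - B) / 3))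
          (5 / 3 * (p - γ - B) + (w + B) / 3) with h | h
        · left
          rw [h]
          have := min_le_left Z ((p - γ - B) / 3)
          linarith
        · right
          rw [h])
    linarith
  -- bias
  have h3 : 2 / 3 * k - h / 3 + (5 / 3 * p + (2 / 3 * (w + b) - 5 / 3 * (γ + b) -
      max 0 (s0 - (γ + b)))) + 4 / 3 * γ - w / 3 - p / 3 ≤
      k + p + LR (y₃ + y₄ + u) k D x + 10 * t := by
    have e1 := le_max_left 0 (s0 - (γ + b))
    have e2 := le_max_right 0 (s0 - (γ + b))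
    have key := tB_le (l := w + b) (b := b) (T := 5 / 3 * p + (2 / 3 * (w + b) -
      5 / 3 * (γ + b) - max 0 (s0 - (γ + b)))) (s0 := s0) H hh γ0 b0 (by linarith) (by linarith)
      hs (by linarith) (by linarith)
    linarith
  unfold DgHX290.shN
  rcases max_choice (max (Gt d (w + min b (p - γ)) (max 0 (p - γ - b)) z)
    (max ((w + min b (p - γ)) + max 0 (p - γ - b) + min Z (max 0 (p - γ - b) / 3))
      (5 / 3 * max 0 (p - γ - b) + (w + min b (p - γ)) / 3)))
    (5 / 3 * p + (2 / 3 * (w + b) - 5 / 3 * (γ + b) - max 0 (s0 - (γ + b)))) with h' | h'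
  · rw [h']
    rcases max_choice (Gt d (w + min b (p - γ)) (max 0 (p - γ - b)) z)
      (max ((w + min b (p - γ)) + max 0 (p - γ - b) + min Z (max 0 (p - γ - b) / 3))
      (5 / 3 * max 0 (p - γ - b) + (w + min b (p - γ)) / 3)) with h'' | h''
    · rw [h'']; exact h1
    · rw [h'']; exact h2
  · rw [h']; exact h3

/-- **the `LS`-line** -/
theorem lineSx (H : Ef k y₃ y₄ u x D t p v m)
    (hd : d = D / k) (γ0 : 0 ≤ γ) (γ1 : 2 * γ ≤ v + t) (b0 : 0 ≤ b) (w0 : 0 ≤ w)
    (hw : w ≤ v - 2 * γ + t) (hz : z ≤ y₃ + t) (hZ : Z ≤ 1883 / 10000 * k + t)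
    (hs : 17 / 100 * k - m - t ≤ s0) :
    2 / 3 * v + k / 20 + shN d p z Z s0 γ b w + 2 * γ - p / 3 ≤
      k + p + LR (y₃ + y₄ + u) k D x + 10 * t := by
  have hF : Fr k y₃ y₄ u x D t p v γ d := fr_of H hd γ0 γ1
  obtain ⟨B, hB, B0, Bb, n0, hn⟩ := hF.blk b0
  have t0 := H.t0
  have h1 := hF.lineS b0 w0 hw hz
  unfold RST405.Sh at h1
  have h2 : 2 / 3 * v + k / 20 + (max ((w + min b (p - γ)) + max 0 (p - γ - b) +
      min Z (max 0 (p - γ - b) / 3)) (5 / 3 * max 0 (p - γ - b) + (w + min b (p - γ)) / 3)) +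
      2 * γ - p / 3 ≤ k + p + LR (y₃ + y₄ + u) k D x + 10 * t := by
    rw [← hB]
    rw [hn] at n0 ⊢
    refine sF_le3 (l := w + B) (b := B) (n := p - γ - B) (Z := Z) H γ0 B0 (by linarith)
      (by linarith) hZ ?_
    rcases max_choice ((w + B) + (p - γ - B) + min Z ((p - γ - B) / 3))
      (5 / 3 * (p - γ - B) + (w + B) / 3) with h | h
    · left
      rw [h]
      have := min_le_left Z ((p - γ - B) / 3)
      linarith
    · right
      rw [h]
  have h3 : 2 / 3 * v + k / 20 + (5 / 3 * p + (2 / 3 * (w + b) - 5 / 3 * (γ + b) -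
      max 0 (s0 - (γ + b)))) + 2 * γ - p / 3 ≤
      k + p + LR (y₃ + y₄ + u) k D x + 10 * t := by
    have e1 := le_max_left 0 (s0 - (γ + b))
    have e2 := le_max_right 0 (s0 - (γ + b))
    exact sB_le (l := w + b) (b := b) (s0 := s0) H γ0 b0 (by linarith)
      hs (by linarith) (by linarith)
  unfold DgHX290.shN
  rcases max_choice (max (Gt d (w + min b (p - γ)) (max 0 (p - γ - b)) z)
    (max ((w + min b (p - γ)) + max 0 (p - γ - b) + min Z (max 0 (p - γ - b) / 3))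
      (5 / 3 * max 0 (p - γ - b) + (w + min b (p - γ)) / 3)))
    (5 / 3 * p + (2 / 3 * (w + b) - 5 / 3 * (γ + b) - max 0 (s0 - (γ + b)))) with h' | h'
  · rw [h']
    rcases max_choice (Gt d (w + min b (p - γ)) (max 0 (p - γ - b)) z)
      (max ((w + min b (p - γ)) + max 0 (p - γ - b) + min Z (max 0 (p - γ - b) / 3))
      (5 / 3 * max 0 (p - γ - b) + (w + min b (p - γ)) / 3)) with h'' | h''
    · rw [h'']; exact h1
    · rw [h'']; exact h2
  · rw [h']; exact h3

end Crest.Agent.R017.TnHs48
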