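import Crest.Agent.R017.TnHl_48
import Crest.Agent.R017.E3Tb_744

/-!
# Row 17, REST, class E (helper48): the `T`-side of one level of a difference

* `hX_lip`, `hX_near` : the exponent of `H`
* **`tnH_1`** : `Σ_d Σ_e (N e)⁻¹ LVn`, one level `i`, one datum near a box point
-/

set_option autoImplicit false
set_option linter.unusedVariables false

noncomputable section

open Finset
open scoped Classical

namespace Crest.Agent.R017.TnHs48

open Crest.Agent.R012 Crest.Agent.R012.Eis Crest.Agent.R012.MC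
open Crest.Agent.R012.LS2 (S mem_S)
open Crest.Agent.R017.E1551 (Adm)
open Crest.Agent.R017.B770
open Crest.Agent.R017.E3Z548 (FH FH_nonneg LVn)
open Crest.Agent.R017.TNj90 (JBc)
open Crest.Agent.R017.RnP571 (Dh)
open Crest.Agent.R017.RstQ702 (LR XS tS)
open Crest.Agent.R017.RstX290
open Crest.Agent.R017.DgHX290 (shN)
open Crest.Agent.R017.E3Nx744 (tnG_1 tnG_0)

lemma hX_near {k kA p γ s sA t₁ : ℝ} (hk : |kA - k| ≤ t₁) (hs : |sA - s| ≤ 9 * t₁) :
    |hX kA p γ sA - hX k p γ s| ≤ 10 * t₁ := by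
  obtain ⟨k1, k2⟩ := abs_le.1 hk
  obtain ⟨s1, s2⟩ := abs_le.1 hs
  have h0 : 0 ≤ t₁ := le_trans (abs_nonneg _) hk
  have a1 := le_max_left (k / 64) (4 / 3 * (p - γ) - k + s)
  have a2 := le_max_right (k / 64) (4 / 3 * (p - γ) - k + s)
  have b1 := le_max_left (kA / 64) (4 / 3 * (p - γ) - kA + sA)
  have b2 := le_max_right (kA / 64) (4 / 3 * (p - γ) - kA + sA)
  unfold RstX290.hX
  rw [abs_le]
  constructor
  · have : max (k / 64) (4 / 3 * (p - γ) - k + s) ≤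
        max (kA / 64) (4 / 3 * (p - γ) - kA + sA) + 10 * t₁ := by
      refine max_le ?_ ?_ <;> linarith
    linarith
  · have : max (kA / 64) (4 / 3 * (p - γ) - kA + sA) ≤
        max (k / 64) (4 / 3 * (p - γ) - k + s) + 10 * t₁ := by
      refine max_le ?_ ?_ <;> linarith
    linarith

lemma hX_lip (k p s a b : ℝ) : |hX k p a s - hX k p b s| ≤ 4 * |a - b| := by
  have h1 := le_abs_self (a - b)
  have h2 := neg_abs_le (a - b)
  have h3 := abs_nonneg (a - b)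
  have a1 := le_max_left (k / 64) (4 / 3 * (p - a) - k + s)
  have a2 := le_max_right (k / 64) (4 / 3 * (p - a) - k + s)
  have b1 := le_max_left (k / 64) (4 / 3 * (p - b) - k + s)
  have b2 := le_max_right (k / 64) (4 / 3 * (p - b) - k + s)
  unfold RstX290.hX
  rw [abs_le]
  constructor
  · have : max (k / 64) (4 / 3 * (p - b) - k + s) ≤
        max (k / 64) (4 / 3 * (p - a) - k + s) + 4 * |a - b| := by
      refine max_le ?_ ?_ <;> linarith
    linarith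
  · have : max (k / 64) (4 / 3 * (p - a) - k + s) ≤
        max (k / 64) (4 / 3 * (p - b) - k + s) + 4 * |a - b| := by
      refine max_le ?_ ?_ <;> linarith
    linarith

lemma hc_large {k y₃ y₄ u x D t p v m γ h : ℝ} (H : Ef k y₃ y₄ u x D t p v m)
    (hγ : k / 6 - t ≤ γ) (hh : k + γ - 2 * v - t ≤ h) :
    Hc k v p γ (XS (y₃ + y₄ + u) k x) t h := by
  refine ⟨?_, Or.inr ⟨hγ, hh⟩⟩
  refine le_trans ?_ hh
  obtain ⟨⟨k0, u4, y43, u0, y3, N1, near, x0, adm, d0, d1⟩, t0, t1, m0, p1, p2, p3, v1, v2,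
    v3, v4⟩ := H
  have hL1 := le_max_left 0 (5 / 4 * (y₃ + y₄ + u) - k)
  unfold RstQ702.XS
  generalize max 0 (5 / 4 * (y₃ + y₄ + u) - k) = L at *
  rcases adm with ⟨a0, rfl | a1⟩ | ⟨a1, a2, a3⟩ <;> linarith

set_option maxHeartbeats 1600000 in
/-- **one level, all square parts** -/
theorem tnH_1 {R : ℝ} (hR : 0 ≤ R) {ε J B₂ cc : ℝ} (hε : 0 < ε) (hJ' : 0 ≤ J) (hB₂ : 0 < B₂)
    (hcc : 1 ≤ cc) :
    ∃ C : ℝ, 0 ≤ C ∧ ∀ X : ℝ, 3 ≤ X →
      ∀ (i : ℕ) (k y₃ y₄ u x D t t₁ p m dl z Z s0 kA sA C₀ E0 Y F : ℝ) (al : Eis → ℂ),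
      Ef k y₃ y₄ u x D t p i m → dl = D / k → z ≤ y₃ + t → Z ≤ 1883 / 10000 * k + t →
      17 / 100 * k - m - t ≤ s0 → 0 ≤ t₁ → 40 * t₁ ≤ t → |kA - k| ≤ t₁ →
      |sA - XS (y₃ + y₄ + u) k x| ≤ 9 * t₁ → 0 ≤ kA → Real.log cc ≤ C₀ → 2 * C₀ ≤ t →
      0 < E0 → E0 ≤ X ^ B₂ → 1 ≤ Y → Y ≤ X ^ B₂ → cc * Real.exp i ≤ X ^ B₂ → 0 ≤ F →
      JBc Y (cc * Real.exp i) F J (shN dl p z Z s0) al → Adm Y (Real.exp p) R al →
      ∀ (Ds EE : Finset Eis) (H : Eis → Eis → ℝ) (Yg : ℝ),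
      (∀ d ∈ Ds, IsPrim d ∧ (nm d : ℝ) ≤ X ^ B₂) → (∀ e ∈ EE, e ∈ S E0) →
      (∀ d e, 0 < H d e) →
      (∀ d e, Real.log (nm d) ≤ kA / 6 → H d e = Real.exp (hX kA p (Real.log (nm d)) sA)) →
      (∀ d e, kA / 6 < Real.log (nm d) →
        H d e = Real.exp (kA + Real.log (nm d) - 2 * i - C₀)) →
      ∑ d ∈ Ds, ∑ e ∈ EE, (nm e : ℝ)⁻¹ * LVn (fun d _ n => al (d * n)) {d} {e} cc Yg
          (Real.exp kA) (H d e) (Real.exp i) (Real.exp i) (Real.exp (kA / 20)) 1 1 0 ≤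
        C * X ^ ε * F * Real.exp (k + p + LR (y₃ + y₄ + u) k D x + 12 * t) := by
  obtain ⟨C1, hC1, G1⟩ := tnG_1 hR hε hJ' hB₂ hcc
  obtain ⟨C0, hC0, G0⟩ := tnG_0 hR hε hJ' hB₂ hcc
  refine ⟨C1 + C1 + C0, by positivity, ?_⟩
  intro X hX3 i k y₃ y₄ u x D t t₁ p m dl z Z s0 kA sA C₀ E0 Y F al hE hdl hz hZ hs ht1 ht40 hkA
    hsA hkA0 hC₀ hC₀t hE0 hE0X hY1 hYu hWi hF hJB hadm Ds EE H Yg hDs hEE hH hHs hHl
  have hlc : 0 ≤ Real.log cc := Real.log_nonneg hcc
  obtain ⟨hk1, hk2⟩ := abs_le.1 hkA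
  obtain ⟨hs1, hs2⟩ := abs_le.1 hsA
  have ht0 := hE.t0
  have hk0 := hE.hD.k0
  set Sh := shN dl p z Z s0 with hSh
  set T := k + p + LR (y₃ + y₄ + u) k D x with hT
  set m' : ℝ := T + 11 * t + p / 3 with hm'
  have hδ0 : ∀ d ∈ Ds, 0 ≤ Real.log (nm d) := fun d hd =>
    Real.log_nonneg (by exact_mod_cast nm_pos.2 (hDs d hd).1.ne_zero)
  set Dg := Ds.filter fun d => 2 * Real.log (nm d) ≤ Real.log cc + i with hDg
  have hg0 : ∀ d ∈ Dg, 0 ≤ Real.log (nm d) := fun d hd => hδ0 d (mem_filter.1 hd).1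
  have hg1 : ∀ d ∈ Dg, 2 * Real.log (nm d) ≤ Real.log cc + i := fun d hd => (mem_filter.1 hd).2
  have hgp : ∀ d ∈ Dg, Real.log (nm d) + k / 100 ≤ p := fun d hd =>
    (fr_of (γ := Real.log (nm d)) hE hdl (hg0 d hd) (by have := hg1 d hd; linarith)).v_le.2.2.1
  -- the lines of the cube-free numbers
  have hSl : ∀ d ∈ Dg, ∀ b w : ℝ, 0 ≤ b → 0 ≤ w →
      w ≤ Real.log cc + i - 2 * Real.log (nm d) →
      2 / 3 * i + kA / 20 + Sh (Real.log (nm d)) b w +
        2 * Real.log (nm d) - max 0 (b - Real.log E0) ≤ m' := by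
    intro d hd b w hb hw hwv
    have h1 := lineSx (b := b) (w := w) (γ := Real.log (nm d)) hE hdl (hg0 d hd)
      (by have := hg1 d hd; linarith) hb hw (by linarith) hz hZ hs
    have h2 := le_max_left 0 (b - Real.log E0)
    rw [← hSh] at h1
    linarith
  have hLl : ∀ d ∈ Dg, ∀ b w : ℝ, 0 ≤ b → 0 ≤ w →
      w ≤ Real.log cc + i - 2 * Real.log (nm d) →
      2 / 3 * i - kA / 3 + 2 * (kA / 20) + Sh (Real.log (nm d)) b w +
        2 * Real.log (nm d) - max 0 (b - Real.log E0) ≤ m' := by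
    intro d hd b w hb hw hwv
    have h1 := hSl d hd b w hb hw hwv
    linarith
  have hTl : ∀ d ∈ Dg, ∀ b w h : ℝ, Hc k i p (Real.log (nm d)) (XS (y₃ + y₄ + u) k x) t h →
      0 ≤ b → 0 ≤ w → w ≤ Real.log cc + i - 2 * Real.log (nm d) →
      2 / 3 * kA - h / 3 + Sh (Real.log (nm d)) b w +
        4 / 3 * Real.log (nm d) - max 0 (b - Real.log E0) - w / 3 ≤ m' := by
    intro d hd b w h hh hb hw hwv
    have h1 := lineTx (b := b) (w := w) (γ := Real.log (nm d)) hE hh hdl (hg0 d hd)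
      (by have := hg1 d hd; linarith) hb hw (by linarith) hz hZ hs
    have h2 := le_max_left 0 (b - Real.log E0)
    rw [← hSh] at h1
    linarith
  have hhs : ∀ d ∈ Dg, Hc k i p (Real.log (nm d)) (XS (y₃ + y₄ + u) k x) t
      (hX kA p (Real.log (nm d)) sA) := by
    intro d hd
    obtain ⟨g1, g2⟩ := hX_ge kA p (Real.log (nm d)) sA
    have g3 := hgp d hd
    refine ⟨by linarith, Or.inl ⟨by linarith, by linarith⟩⟩
  have k1 := G1 X hX3 p Y i E0 F Sh hY1 hYu hWi hE0 hE0X hF al hJB hadm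
    (Dg.filter fun d => Real.log (nm d) ≤ kA / 6) EE m' kA (kA / 20) Yg t
    (fun z => hX kA p z sA) (fun d _ n => al (d * n)) H ht0 (fun a b => hX_lip kA p sA a b)
    (fun d hd => hDs d (mem_filter.1 (mem_filter.1 hd).1).1) hEE
    (fun d hd e he => rfl) hH
    (fun d hd e he => hHs d e (mem_filter.1 hd).2)
    (fun d hd => by
      have h1 := (mem_filter.1 hd).1
      have h2 := thX hE (δ := Real.log (nm d)) (hg0 d h1)
      have h3 := (abs_le.1 (hX_near (p := p) (γ := Real.log (nm d)) hkA hsA)).2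
      linarith)
    (fun d hd b w hb hw hwv => hTl d (mem_filter.1 hd).1 b w _ (hhs d (mem_filter.1 hd).1)
      hb hw hwv)
    (fun d hd => hLl d (mem_filter.1 hd).1)
    (fun d hd => hSl d (mem_filter.1 hd).1)
  have k2 := G1 X hX3 p Y i E0 F Sh hY1 hYu hWi hE0 hE0X hF al hJB hadm
    (Dg.filter fun d => ¬ Real.log (nm d) ≤ kA / 6) EE m' kA (kA / 20) Yg t
    (fun z => kA + z - 2 * i - C₀) (fun d _ n => al (d * n)) H ht0
    (fun a b => by
      rw [show kA + a - 2 * (i : ℝ) - C₀ - (kA + b - 2 * i - C₀) = a - b by ring]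
      have := abs_nonneg (a - b)
      linarith)
    (fun d hd => hDs d (mem_filter.1 (mem_filter.1 hd).1).1) hEE
    (fun d hd e he => rfl) hH
    (fun d hd e he => hHl d e (not_le.1 (mem_filter.1 hd).2))
    (fun d hd => by
      have h1 := hg1 d (mem_filter.1 hd).1
      linarith)
    (fun d hd b w hb hw hwv => by
      have h6 := not_le.1 (mem_filter.1 hd).2
      refine hTl d (mem_filter.1 hd).1 b w _ (hc_large hE (by linarith) ?_) hb hw hwv
      linarith)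
    (fun d hd => hLl d (mem_filter.1 hd).1)
    (fun d hd => hSl d (mem_filter.1 hd).1)
  have k3 := G0 X hX3 p Y i E0 F Sh hY1 hYu hWi hE0 hE0X hF al hJB hadm
    (Ds.filter fun d => ¬ 2 * Real.log (nm d) ≤ Real.log cc + i) EE (m' + t) (Real.exp kA)
    (Real.exp i) (Real.exp (kA / 20)) 1 1 Yg (fun d _ n => al (d * n)) H
    (fun d hd => hDs d (mem_filter.1 hd).1) hEE
    (fun d hd e he => rfl) hH (Real.exp_pos _)
    (fun d hd => not_le.1 (mem_filter.1 hd).2) (fun d hd e he => by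
      have := hH d e
      unfold E3N146.cLS
      positivity)
  have hme : Real.exp (-(p / 3)) * Real.exp (m' + t) = Real.exp (T + 12 * t) := by
    rw [← Real.exp_add]
    congr 1
    rw [hm']
    ring
  rw [← sum_filter_add_sum_filter_not Ds fun d => 2 * Real.log (nm d) ≤ Real.log cc + i,
    ← sum_filter_add_sum_filter_not (Ds.filter fun d => 2 * Real.log (nm d) ≤ Real.log cc + i)
      fun d => Real.log (nm d) ≤ kA / 6]
  refine (add_le_add (add_le_add k1 k2) k3).trans (le_of_eq ?_)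
  rw [mul_assoc _ (Real.exp (-(p / 3))), mul_assoc _ (Real.exp (-(p / 3))), hme]
  ring

end Crest.Agent.R017.TnHs48
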