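import Crest.Agent.R017.TnHm_48

/-!
# Row 17, REST, class E (helper48): the `T`-side of all levels `i` of one level `j` of a difference

* **`tnH_2`** : `Σ_e Σ_i Σ_d (N e)⁻¹ LVn`, one datum near a box point
-/

set_option autoImplicit false
set_option linter.unusedVariables false

noncomputable section

open Finset
open scoped Classical

namespace Crest.Agent.R017.TnHs48

open Crest.Agent.R012 Crest.Agent.R012.Eis Crest.Agent.R012.MC
open Crest.Agent.R012.LS2 (S mem_S)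
open Crest.Agent.R017.E1551 (Adm)
open Crest.Agent.R017.B770
open Crest.Agent.R017.E3Kc548 (LI)
open Crest.Agent.R017.E3Z548 (FH FH_nonneg LVn)
open Crest.Agent.R017.TNj90 (JBc)
open Crest.Agent.R017.RnP571 (Dh)
open Crest.Agent.R017.RstQ702 (LR XS tS)
open Crest.Agent.R017.RstX290
open Crest.Agent.R017.DgHX290 (shN)

set_option maxHeartbeats 1600000 in
/-- **all levels `i`**, one datum near a box point -/
theorem tnH_2 {R : ℝ} (hR : 0 ≤ R) {ε J cc : ℝ} (hε : 0 < ε) (hJ' : 0 ≤ J) (hcc : 1 ≤ cc) :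
    ∃ C : ℝ, 0 ≤ C ∧ ∀ X : ℝ, 3 ≤ X → 2 ≤ Real.log X →
      ∀ (j : ℕ) (k y₃ y₄ u x D t t₁ p m dl z Z s0 kA sA e0 F : ℝ) (al : Eis → ℂ),
      (∀ w : ℝ, w ≤ Real.log (2 ^ j * 2) + 1 → Ef k y₃ y₄ u x D t p w m) → dl = D / k →
      z ≤ y₃ + t → Z ≤ 1883 / 10000 * k + t →
      17 / 100 * k - m - t ≤ s0 → 0 ≤ t₁ → 40 * t₁ ≤ t → |kA - k| ≤ t₁ →
      |sA - XS (y₃ + y₄ + u) k x| ≤ 9 * t₁ → 0 ≤ kA → 2 * (Real.log cc + 1) ≤ t →
      t ≤ Real.log X / 1000 → k ≤ Real.log X → 0 ≤ e0 → e0 ≤ 1 / 64 → 0 ≤ F →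
      (∀ W : ℝ, 0 < W → Real.log W ≤ 9 / 10 * Real.log X →
        JBc (X ^ (3 : ℝ)) W F J (shN dl p z Z s0) al) → Adm (X ^ (3 : ℝ)) (Real.exp p) R al →
      ∀ (Ds EE : Finset Eis) (H : ℕ → Eis → Eis → ℝ) (Yg : ℝ),
      (∀ d ∈ Ds, IsPrim d ∧ (nm d : ℝ) ≤ X ^ (3 : ℝ)) →
      (∀ e ∈ EE, e ∈ S (Real.exp (e0 * kA))) → (∀ i d e, 0 < H i d e) →
      (∀ i d e, Real.log (nm d) ≤ kA / 6 → H i d e = Real.exp (hX kA p (Real.log (nm d)) sA)) →
      (∀ i d e, kA / 6 < Real.log (nm d) →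
        H i d e = Real.exp (kA + Real.log (nm d) - 2 * i - (Real.log cc + 1))) →
      ∑ e ∈ EE, ∑ i ∈ LI (2 ^ j / 4) (2 ^ j * 2), ∑ d ∈ Ds, (nm e : ℝ)⁻¹ *
        LVn (fun d _ n => al (d * n)) {d} {e} cc Yg
          (Real.exp kA) (H i d e) (Real.exp i) (Real.exp i) (Real.exp (kA / 20)) 1 1 0 ≤
        C * X ^ ε * F * Real.exp (k + p + LR (y₃ + y₄ + u) k D x + 12 * t) := by
  obtain ⟨C', hC', HX⟩ := tnH_1 hR (half_pos hε) hJ' (show (0 : ℝ) < 3 by norm_num) hcc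
  refine ⟨C' * (4 / ε), by positivity, ?_⟩
  intro X hX3 hL2 j k y₃ y₄ u x D t t₁ p m dl z Z s0 kA sA e0 F al hEf hdl hz hZ hs ht1 ht40 hkA
    hsA hkA0 hcct htX hkX he00 he0 hF hJB hadm Ds EE H Yg hDs hEE hH hHs hHl
  have hX0 : 0 < X := by linarith
  have hX1 : 1 < X := by linarith
  have hlc : 0 ≤ Real.log cc := Real.log_nonneg hcc
  obtain ⟨hk1, hk2⟩ := abs_le.1 hkA
  have hXe : ∀ r : ℝ, X ^ r = Real.exp (Real.log X * r) := fun r => by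
    rw [Real.rpow_def_of_pos hX0]
  set L := Real.log X with hL
  set v : ℝ := Real.log (2 ^ j * 2) with hvd
  have hvn : 0 ≤ v := Real.log_nonneg (by
    have : (1 : ℝ) ≤ 2 ^ j := one_le_pow₀ (by norm_num)
    linarith)
  have hE0X : Real.exp (e0 * kA) ≤ X ^ (3 : ℝ) := by
    rw [hXe]
    refine Real.exp_le_exp.2 ?_
    have h1 : e0 * kA ≤ 1 / 64 * kA := mul_le_mul_of_nonneg_right he0 hkA0
    linarith
  have hY1 : (1 : ℝ) ≤ X ^ (3 : ℝ) := Real.one_le_rpow hX1.le (by norm_num)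
  set T : ℝ := k + p + LR (y₃ + y₄ + u) k D x + 12 * t with hT
  have hone : ∀ i ∈ LI (2 ^ j / 4) (2 ^ j * 2), ∑ d ∈ Ds, ∑ e ∈ EE, (nm e : ℝ)⁻¹ *
      LVn (fun d _ n => al (d * n)) {d} {e} cc Yg
          (Real.exp kA) (H i d e) (Real.exp i) (Real.exp i) (Real.exp (kA / 20)) 1 1 0 ≤
      C' * X ^ (ε / 2) * F * Real.exp T := by
    intro i hi
    obtain ⟨-, -, hi3⟩ := E3Kc548.mem_LI hi
    have hiv : (i : ℝ) ≤ v + 1 := by
      have h1 := Real.log_le_log (Real.exp_pos _) hi3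
      rw [Real.log_exp, Real.log_mul (Real.exp_pos 1).ne' (by positivity), Real.log_exp] at h1
      linarith
    have hi0 : (0 : ℝ) ≤ i := Nat.cast_nonneg i
    have hEi := hEf i hiv
    have hti := hEi.t0
    obtain ⟨wi, -, -, -⟩ := (fr_of hEi hdl le_rfl (by linarith)).v_le
    have hW : 0 < cc * Real.exp i := by positivity
    have hlW : Real.log (cc * Real.exp i) = Real.log cc + i := by
      rw [Real.log_mul (by positivity) (Real.exp_pos _).ne', Real.log_exp]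
    have hW9 : Real.log cc + i ≤ 9 / 10 * L := by linarith
    have hWX : cc * Real.exp i ≤ X ^ (3 : ℝ) := by
      rw [hXe, ← Real.exp_log hW, hlW]
      exact Real.exp_le_exp.2 (by linarith)
    exact HX X hX3 i k y₃ y₄ u x D t t₁ p m dl z Z s0 kA sA (Real.log cc + 1)
      (Real.exp (e0 * kA)) (X ^ (3 : ℝ)) F al hEi hdl hz hZ hs ht1 ht40 hkA hsA hkA0
      (by linarith) hcct (Real.exp_pos _) hE0X hY1 le_rfl hWX hF (hJB _ hW (by rw [hlW]; exact hW9))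
      hadm Ds EE (H i) Yg hDs hEE (hH i) (hHs i) (hHl i)
  -- the number of levels
  have hvL : v ≤ 8 / 10 * L := by
    have hEv := hEf v (by linarith)
    have h0 := hEv.t0
    obtain ⟨wi, -, -, -⟩ := (fr_of hEv hdl le_rfl (by linarith)).v_le
    linarith
  have hcard : ((LI (2 ^ j / 4) (2 ^ j * 2)).card : ℝ) ≤ 4 / ε * X ^ (ε / 2) := by
    have h1 : (LI (2 ^ j / 4) (2 ^ j * 2)).card ≤ ⌈Real.log ((2 : ℝ) ^ j * 2)⌉₊ + 1 :=
      (card_filter_le _ _).trans (by rw [card_range])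
    have h2 : ((LI (2 ^ j / 4) (2 ^ j * 2)).card : ℝ) ≤
        (⌈Real.log ((2 : ℝ) ^ j * 2)⌉₊ : ℝ) + 1 := by
      exact_mod_cast h1
    have h4 := (Nat.ceil_lt_add_one hvn).le
    have h5 := Real.log_le_rpow_div hX0.le (show 0 < ε / 2 by positivity)
    have h6 : X ^ (ε / 2) / (ε / 2) = 2 / ε * X ^ (ε / 2) := by
      field_simp
    have h7 : ((LI (2 ^ j / 4) (2 ^ j * 2)).card : ℝ) ≤ 2 * L := by linarith
    have h8 : 4 / ε * X ^ (ε / 2) = 2 * (2 / ε * X ^ (ε / 2)) := by ring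
    rw [h8, ← h6]
    linarith
  have hsw : ∑ e ∈ EE, ∑ i ∈ LI (2 ^ j / 4) (2 ^ j * 2), ∑ d ∈ Ds, (nm e : ℝ)⁻¹ *
        LVn (fun d _ n => al (d * n)) {d} {e} cc Yg
          (Real.exp kA) (H i d e) (Real.exp i) (Real.exp i) (Real.exp (kA / 20)) 1 1 0 =
      ∑ i ∈ LI (2 ^ j / 4) (2 ^ j * 2), ∑ d ∈ Ds, ∑ e ∈ EE, (nm e : ℝ)⁻¹ *
        LVn (fun d _ n => al (d * n)) {d} {e} cc Yg
          (Real.exp kA) (H i d e) (Real.exp i) (Real.exp i) (Real.exp (kA / 20)) 1 1 0 := by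
    rw [sum_comm]
    exact sum_congr rfl fun i _ => sum_comm
  rw [hsw]
  refine (sum_le_sum hone).trans ?_
  rw [sum_const, nsmul_eq_mul]
  have hXX : X ^ (ε / 2) * X ^ (ε / 2) = X ^ ε := by
    rw [← Real.rpow_add hX0]; congr 1; ring
  calc ((LI (2 ^ j / 4) (2 ^ j * 2)).card : ℝ) * (C' * X ^ (ε / 2) * F * Real.exp T)
      ≤ (4 / ε * X ^ (ε / 2)) * (C' * X ^ (ε / 2) * F * Real.exp T) := by gcongr
    _ = C' * (4 / ε) * (X ^ (ε / 2) * X ^ (ε / 2)) * F * Real.exp T := by ring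
    _ = _ := by rw [hXX]

end Crest.Agent.R017.TnHs48
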