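import Crest.Agent.R017.C6Glue_325
import Crest.Agent.R017.Roots6_741

/-!
# Row 17, T.2 : **the tree for six big lumps** (helper325)

`tree6 : TreeW lw2 6`: the roots of `Roots6_741`, the certificates `C6a_325` .. `C6m_325`.
-/

set_option autoImplicit false

namespace Crest.Agent.R017.C6_325

open Crest.Agent.R017.CovFar74 Crest.Agent.R017.CovChk74 Crest.Agent.R017.Cov499
  Crest.Agent.R017.CovMap702 Crest.Agent.R017.CovGlue741

section roots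

variable (w : Fin 6 → ℝ) (v : ℝ)

theorem mem1 (h : 1 ≤ 2 * w 0) :
    ∀ ψ ∈ X1, 0 ≤ ev ψ (pt w v) := by
  intro ψ hψ
  simp only [X1, List.mem_cons, List.not_mem_nil, or_false] at hψ
  have e0 : pt w v 0 = 1 := rfl
  have e1 : pt w v 1 = w 0 := pt_at w v 0 (by omega)
  have e2 : pt w v 2 = w 1 := pt_at w v 1 (by omega)
  have e3 : pt w v 3 = w 2 := pt_at w v 2 (by omega)
  have e4 : pt w v 4 = w 3 := pt_at w v 3 (by omega)
  have e5 : pt w v 5 = w 4 := pt_at w v 4 (by omega)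
  have e6 : pt w v 6 = w 5 := pt_at w v 5 (by omega)
  subst hψ
  simp only [ev_cons, ev_nil, e0, Nat.reduceAdd, e1]
  push_cast
  linarith

theorem mem2 (h : 2 ≤ 9 * w 2 ∧ 2 * w 0 ≤ 1) :
    ∀ ψ ∈ X2, 0 ≤ ev ψ (pt w v) := by
  intro ψ hψ
  obtain ⟨g0, g1⟩ := h
  simp only [X2, List.mem_cons, List.not_mem_nil, or_false] at hψ
  have e0 : pt w v 0 = 1 := rfl
  have e1 : pt w v 1 = w 0 := pt_at w v 0 (by omega)
  have e2 : pt w v 2 = w 1 := pt_at w v 1 (by omega)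
  have e3 : pt w v 3 = w 2 := pt_at w v 2 (by omega)
  have e4 : pt w v 4 = w 3 := pt_at w v 3 (by omega)
  have e5 : pt w v 5 = w 4 := pt_at w v 4 (by omega)
  have e6 : pt w v 6 = w 5 := pt_at w v 5 (by omega)
  rcases hψ with rfl | rfl <;>
    simp only [ev_cons, ev_nil, e0, Nat.reduceAdd, e1, e2, e3, e4, e5, e6] <;> push_cast <;>
    linarith

theorem mem3 (h : 2 ≤ 9 * w 1 ∧ 4 ≤ 27 * w 3 ∧ 9 * w 2 ≤ 2 ∧ 2 * w 0 ≤ 1) :
    ∀ ψ ∈ X3, 0 ≤ ev ψ (pt w v) := by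
  intro ψ hψ
  obtain ⟨g0, g1, g2, g3⟩ := h
  simp only [X3, List.mem_cons, List.not_mem_nil, or_false] at hψ
  have e0 : pt w v 0 = 1 := rfl
  have e1 : pt w v 1 = w 0 := pt_at w v 0 (by omega)
  have e2 : pt w v 2 = w 1 := pt_at w v 1 (by omega)
  have e3 : pt w v 3 = w 2 := pt_at w v 2 (by omega)
  have e4 : pt w v 4 = w 3 := pt_at w v 3 (by omega)
  have e5 : pt w v 5 = w 4 := pt_at w v 4 (by omega)
  have e6 : pt w v 6 = w 5 := pt_at w v 5 (by omega)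
  rcases hψ with rfl | rfl | rfl | rfl <;>
    simp only [ev_cons, ev_nil, e0, Nat.reduceAdd, e1, e2, e3, e4, e5, e6] <;> push_cast <;>
    linarith

theorem mem4 (h : 2 ≤ 9 * w 1 ∧ 1 ≤ 3 * w 0 ∧ 27 * w 3 ≤ 4 ∧ 9 * w 2 ≤ 2 ∧ 2 * w 0 ≤ 1) :
    ∀ ψ ∈ X4, 0 ≤ ev ψ (pt w v) := by
  intro ψ hψ
  obtain ⟨g0, g1, g2, g3, g4⟩ := h
  simp only [X4, List.mem_cons, List.not_mem_nil, or_false] at hψ
  have e0 : pt w v 0 = 1 := rfl
  have e1 : pt w v 1 = w 0 := pt_at w v 0 (by omega)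
  have e2 : pt w v 2 = w 1 := pt_at w v 1 (by omega)
  have e3 : pt w v 3 = w 2 := pt_at w v 2 (by omega)
  have e4 : pt w v 4 = w 3 := pt_at w v 3 (by omega)
  have e5 : pt w v 5 = w 4 := pt_at w v 4 (by omega)
  have e6 : pt w v 6 = w 5 := pt_at w v 5 (by omega)
  rcases hψ with rfl | rfl | rfl | rfl | rfl <;>
    simp only [ev_cons, ev_nil, e0, Nat.reduceAdd, e1, e2, e3, e4, e5, e6] <;> push_cast <;>
    linarith

theorem mem5 (h : 2 ≤ 9 * w 0 ∧ 1 ≤ 5 * w 3 ∧ 4 ≤ 27 * w 4 ∧ 9 * w 1 ≤ 2 ∧ 3 * w 0 ≤ 1) :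
    ∀ ψ ∈ X5, 0 ≤ ev ψ (pt w v) := by
  intro ψ hψ
  obtain ⟨g0, g1, g2, g3, g4⟩ := h
  simp only [X5, List.mem_cons, List.not_mem_nil, or_false] at hψ
  have e0 : pt w v 0 = 1 := rfl
  have e1 : pt w v 1 = w 0 := pt_at w v 0 (by omega)
  have e2 : pt w v 2 = w 1 := pt_at w v 1 (by omega)
  have e3 : pt w v 3 = w 2 := pt_at w v 2 (by omega)
  have e4 : pt w v 4 = w 3 := pt_at w v 3 (by omega)
  have e5 : pt w v 5 = w 4 := pt_at w v 4 (by omega)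
  have e6 : pt w v 6 = w 5 := pt_at w v 5 (by omega)
  rcases hψ with rfl | rfl | rfl | rfl | rfl <;>
    simp only [ev_cons, ev_nil, e0, Nat.reduceAdd, e1, e2, e3, e4, e5, e6] <;> push_cast <;>
    linarith

theorem mem6 (h : 2 ≤ 9 * w 0 ∧ 1 ≤ 5 * w 2 ∧ 4 ≤ 27 * w 5 ∧ 9 * w 1 ≤ 2 ∧ 5 * w 3 ≤ 1 ∧ 3 * w 0 ≤ 1) :
    ∀ ψ ∈ X6, 0 ≤ ev ψ (pt w v) := by
  intro ψ hψ
  obtain ⟨g0, g1, g2, g3, g4, g5⟩ := h
  simp only [X6, List.mem_cons, List.not_mem_nil, or_false] at hψ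
  have e0 : pt w v 0 = 1 := rfl
  have e1 : pt w v 1 = w 0 := pt_at w v 0 (by omega)
  have e2 : pt w v 2 = w 1 := pt_at w v 1 (by omega)
  have e3 : pt w v 3 = w 2 := pt_at w v 2 (by omega)
  have e4 : pt w v 4 = w 3 := pt_at w v 3 (by omega)
  have e5 : pt w v 5 = w 4 := pt_at w v 4 (by omega)
  have e6 : pt w v 6 = w 5 := pt_at w v 5 (by omega)
  rcases hψ with rfl | rfl | rfl | rfl | rfl | rfl <;>
    simp only [ev_cons, ev_nil, e0, Nat.reduceAdd, e1, e2, e3, e4, e5, e6] <;> push_cast <;>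
    linarith

theorem mem7 (h : 2 ≤ 9 * w 0 ∧ 4 ≤ 21 * w 3 ∧ 1 ≤ 5 * w 1 ∧ 4 ≤ 27 * w 5 ∧ 9 * w 1 ≤ 2 ∧ 5 * w 2 ≤ 1 ∧
      3 * w 0 ≤ 1) :
    ∀ ψ ∈ X7, 0 ≤ ev ψ (pt w v) := by
  intro ψ hψ
  obtain ⟨g0, g1, g2, g3, g4, g5, g6⟩ := h
  simp only [X7, List.mem_cons, List.not_mem_nil, or_false] at hψ
  have e0 : pt w v 0 = 1 := rfl
  have e1 : pt w v 1 = w 0 := pt_at w v 0 (by omega)
  have e2 : pt w v 2 = w 1 := pt_at w v 1 (by omega)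
  have e3 : pt w v 3 = w 2 := pt_at w v 2 (by omega)
  have e4 : pt w v 4 = w 3 := pt_at w v 3 (by omega)
  have e5 : pt w v 5 = w 4 := pt_at w v 4 (by omega)
  have e6 : pt w v 6 = w 5 := pt_at w v 5 (by omega)
  rcases hψ with rfl | rfl | rfl | rfl | rfl | rfl | rfl <;>
    simp only [ev_cons, ev_nil, e0, Nat.reduceAdd, e1, e2, e3, e4, e5, e6] <;> push_cast <;>
    linarith

theorem mem8 (h : 1 ≤ 3 * w 0 ∧ 4 ≤ 27 * w 3 ∧ 9 * w 1 ≤ 2 ∧ 2 * w 0 ≤ 1) :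
    ∀ ψ ∈ X8, 0 ≤ ev ψ (pt w v) := by
  intro ψ hψ
  obtain ⟨g0, g1, g2, g3⟩ := h
  simp only [X8, List.mem_cons, List.not_mem_nil, or_false] at hψ
  have e0 : pt w v 0 = 1 := rfl
  have e1 : pt w v 1 = w 0 := pt_at w v 0 (by omega)
  have e2 : pt w v 2 = w 1 := pt_at w v 1 (by omega)
  have e3 : pt w v 3 = w 2 := pt_at w v 2 (by omega)
  have e4 : pt w v 4 = w 3 := pt_at w v 3 (by omega)
  have e5 : pt w v 5 = w 4 := pt_at w v 4 (by omega)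
  have e6 : pt w v 6 = w 5 := pt_at w v 5 (by omega)
  rcases hψ with rfl | rfl | rfl | rfl <;>
    simp only [ev_cons, ev_nil, e0, Nat.reduceAdd, e1, e2, e3, e4, e5, e6] <;> push_cast <;>
    linarith

theorem mem9 (h : 1 ≤ 3 * w 0 ∧ 1 ≤ 6 * w 1 ∧ 4 ≤ 27 * w 2 ∧ 27 * w 3 ≤ 4 ∧ 9 * w 1 ≤ 2 ∧ 2 * w 0 ≤ 1) :
    ∀ ψ ∈ X9, 0 ≤ ev ψ (pt w v) := by
  intro ψ hψ
  obtain ⟨g0, g1, g2, g3, g4, g5⟩ := h
  simp only [X9, List.mem_cons, List.not_mem_nil, or_false] at hψ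
  have e0 : pt w v 0 = 1 := rfl
  have e1 : pt w v 1 = w 0 := pt_at w v 0 (by omega)
  have e2 : pt w v 2 = w 1 := pt_at w v 1 (by omega)
  have e3 : pt w v 3 = w 2 := pt_at w v 2 (by omega)
  have e4 : pt w v 4 = w 3 := pt_at w v 3 (by omega)
  have e5 : pt w v 5 = w 4 := pt_at w v 4 (by omega)
  have e6 : pt w v 6 = w 5 := pt_at w v 5 (by omega)
  rcases hψ with rfl | rfl | rfl | rfl | rfl | rfl <;>
    simp only [ev_cons, ev_nil, e0, Nat.reduceAdd, e1, e2, e3, e4, e5, e6] <;> push_cast <;>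
    linarith

end roots

/-- **Tree 6** -/
theorem tree6 : TreeW lw2 6 := by
  intro w hw hlo hhi hS hN hP
  have h1 : ∀ j, w j ≤ 1 := fun j => (hhi j).trans (by norm_num)
  have key : ∃ X : List Form, CertT 6 false (X ++ rootA 6) ∧ CertT 6 false (X ++ rootB 6) ∧
      ∀ v, ∀ ψ ∈ X, 0 ≤ ev ψ (pt w v) := by
    rcases Roots6741.roots6 w hw hlo hS hP with h | h | h | h | h | h | h | h | h
    · exact ⟨X1, topA1, topB1, fun v => mem1 w v h⟩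
    · exact ⟨X2, topA2, topB2, fun v => mem2 w v h⟩
    · exact ⟨X3, topA3, topB3, fun v => mem3 w v h⟩
    · exact ⟨X4, topA4, topB4, fun v => mem4 w v h⟩
    · exact ⟨X5, topA5, topB5, fun v => mem5 w v h⟩
    · exact ⟨X6, topA6, topB6, fun v => mem6 w v h⟩
    · exact ⟨X7, topA7, topB7, fun v => mem7 w v h⟩
    · exact ⟨X8, topA8, topB8, fun v => mem8 w v h⟩
    · exact ⟨X9, topA9, topB9, fun v => mem9 w v h⟩
  obtain ⟨X, hA, hB, hX⟩ := key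
  refine ⟨fun v v0 v1 => hA.cov0 w v hS (by linarith) ?_,
    fun v v0 v1 hv => Or.inl (hB.cov0 w v hS (by linarith) ?_)⟩
  · intro ψ hψ
    rcases List.mem_append.1 hψ with h | h
    · exact hX v ψ h
    · exact rootA_mem (by norm_num) hw hlo h1 hS hN v0 v1 ψ h
  · intro ψ hψ
    rcases List.mem_append.1 hψ with h | h
    · exact hX v ψ h
    · exact rootB_mem (by norm_num) hw hlo h1 hS hN v0 v1 hv ψ h

/-- the direct form -/
theorem treeD6 (hE : EyP) : TreeD lw2 6 := treeD_of_tree hE tree6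

end Crest.Agent.R017.C6_325
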