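import Crest.Agent.R017.CovMap2_702
import Crest.Agent.R017.CovEight_301

/-!
# Row 17, T.2 : the tree of eight lumps, in the direct form (helper301)
-/

set_option autoImplicit false

noncomputable section

namespace Crest.Agent.R017.TreeD8_301

open Crest.Agent.R017.ER911 Crest.Agent.R017.Hull741 Crest.Agent.R017.CovM59
  Crest.Agent.R017.CovSmall741 Crest.Agent.R017.CovGlue741 Crest.Agent.R017.ExpC702
  Crest.Agent.R017.Prov71 Crest.Agent.R017.Cone59 Crest.Agent.R017.CovBig954
  Crest.Agent.R017.HC777 Crest.Agent.R017.Cov499 Crest.Agent.R017.CovNear177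
  Crest.Agent.R017.CovMap702 Crest.Agent.R017.CovEight301

/-- **boxes with exactly eight big lumps and `Σ P > 1`** -/
theorem treeD_eight {l : ℝ → ℝ} (h1 : ∀ u, u ≤ 4 / 27 → 1 / (2 * l u) ≤ 1 / 9)
    (h2 : ∀ u, u ≤ 1 / 6 → 1 / (2 * l u) ≤ 1 / 7)
    (h3 : ∀ u, u ≤ 2 / 9 → 1 / (2 * l u) ≤ 1 / 6) : TreeD l 8 := by
  intro d e₀ t P r s s₀ rc bc B N u hu hs _ _ hk hP
  have ht3 : t ≤ 1 / 3 := by linarith [P.t3]
  have hd0 := P.d0
  have hde := P.de
  obtain ⟨k, ι, hι, hanti, hmem⟩ := exists_sorted u (Finset.univ.filter fun j => 13 / 100 < u j)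
  have himg : (Finset.univ.filter fun j => 13 / 100 < u j) = Finset.univ.image ι := by
    classical
    ext j
    rw [hmem]
    simp
  have hk8 : k = 8 := by
    classical
    rw [← hk, himg, Finset.card_image_of_injective _ hι, Finset.card_univ, Fintype.card_fin]
  subst hk8
  have hw : ∀ i, 13 / 100 < u (ι i) := by
    intro i
    have h := (hmem (ι i)).2 ⟨i, rfl⟩
    simpa using h
  refine covM_eight B.cpl B.rules B.lv hd0.le (by linarith) P.t0.le ht3 (fun j => (hu j).le) hs
    ι hι hanti (fun i => (hw i).le) (reg8_of_sumP h1 h2 h3 hanti ?_)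
  classical
  rw [himg, Finset.sum_image fun a _ b _ h => hι h] at hP
  exact hP

/-- **the tree of eight lumps for `lw`** -/
theorem treeD8 : TreeD lw 8 := by
  refine treeD_eight (fun u hu => ?_) (fun u hu => ?_) fun u hu => ?_
  · unfold lw
    rw [if_pos hu]
    norm_num
  · unfold lw
    split_ifs
    · norm_num
    · norm_num
  · unfold lw
    split_ifs
    · norm_num
    · norm_num
    · norm_num

/-- **the tree of eight lumps for `lw2`** -/
theorem treeD8_2 : TreeD lw2 8 := by
  have e5 : ∀ u : ℝ, 4 / 27 < u → 1 / (2 * (2 / (3 * u))) = 3 / 4 * u := by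
    intro u hu
    have : u ≠ 0 := by linarith
    field_simp
    ring
  refine treeD_eight (fun u hu => ?_) (fun u hu => ?_) fun u hu => ?_
  · unfold lw2
    rw [if_pos hu]
    norm_num
  · unfold lw2
    split_ifs <;> first | (exfalso; linarith) | norm_num
  · unfold lw2
    split_ifs with c1 c2 c3
    · norm_num
    · norm_num
    · rw [e5 u (not_le.1 c1)]
      linarith
    · norm_num

end Crest.Agent.R017.TreeD8_301
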