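import Crest.Agent.R017.Loc3_266
import Crest.Agent.R017.Sx1_440

/-!
# Row 17, sextic route: twist of an abstract row function by `α(c) β(d)` modulo `m`

`k y = κ(y r₀ + h s₁)` periodic modulo `M` (e.g. `M = h N₀`), `(m, N₀) = 1`.

* `tw_coprime` : `(h, m) = 1`, unit row: `S = S_κ · conj α(d₀) conj β(c₀) (αβ)(±h) K` (pure CRT).
* `tw_nonunit_c`, `tw_nonunit_d` : a prime `p ∣ m` divides `c₀` resp. `d₀` : `S = 0`.
* `tw_vanish` : `(h, m) ≠ 1` and `αβ σ(·,h₂)` never trivial near `p` (`NH`): `S = 0`.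
Normal form of the rows: `c = y c₀ + h c₁`, `d = y d₀ + h d₁`, `c₀ d₁ - d₀ c₁ = 1`;
`..'`-versions: `c = h A + y c₀`, `d = h B + y d₀`, `A d₀ - B c₀ = 1`.
-/

set_option autoImplicit false

noncomputable section

open Complex
open scoped ComplexConjugate

namespace Crest.Agent.R017.Tw266

open Crest.Agent.R012 Crest.Agent.R012.Eis Crest.Agent.R012.Gauss880 Crest.Agent.R017.Loc266
open Crest.Agent.R017.Sx440

variable {m N0 : Eis} {α β k : Eis → ℂ}

/-- product of functions with coprime periods -/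
theorem sumMod_mul_of_coprime {a b : Eis} (ha : a ≠ 0) (hb : b ≠ 0) (hab : IsCoprime a b)
    {f g : Eis → ℂ} (hf : PMod a f) (hg : PMod b g) :
    sumMod (a * b) (fun x => f x * g x) = sumMod a f * sumMod b g := by
  have hP : PMod (a * b) (fun x => f x * g x) :=
    (hf.mono (dvd_mul_right a b)).mul (hg.mono (dvd_mul_left b a))
  rw [sumMod_crt_mul (f := fun x => f (b * x)) (g := fun y => g (a * y)) ha hb _ hab hP]
  · rw [sumMod_mul_coprime ha hf hab.symm, sumMod_mul_coprime hb hg hab]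
  · intro x y
    have e1 : f (b * x + a * y) = f (b * x) := hf _ _
    have e2 : g (b * x + a * y) = g (a * y) := by
      rw [add_comm]; exact hg _ _
    rw [e1, e2]

/-- `(h, m) = 1`, unit row. -/
theorem tw_coprime (hm : m ≠ 0) {M : Eis} (hM : M ≠ 0) (hMm : IsCoprime M m) (hα : IsCh m α)
    (hβ : IsCh m β) (hk : PMod M k) {h c0 d0 c1 d1 : Eis}
    (hdet : c0 * d1 - d0 * c1 = 1) (hc0 : IsCoprime c0 m) (hd0 : IsCoprime d0 m)
    (hh : IsCoprime h m) :
    sumMod (M * m) (fun y => k y * (α (y * c0 + h * c1) * β (y * d0 + h * d1)))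
      = sumMod M k * (conj (α d0) * conj (β c0) * (α h * β h) * Ks α β m) := by
  rw [sumMod_mul_of_coprime hM hm hMm hk (per_cd hα hβ c0 d0 c1 d1 h),
    loc_coprime hm hα hβ hdet hc0 hd0 hh]

/-- a prime `p ∣ m` divides `c₀`. -/
theorem tw_nonunit_c (hm : m ≠ 0) {M : Eis} (hM : M ≠ 0) (hα : IsCh m α) (hβ : IsCh m β)
    (hprp : Prp m β) (hk : PMod M k) {h : Eis} (hMh : ∀ p, Prime p → p ∣ m → p ∣ M → p ∣ h)
    {c0 d0 c1 d1 : Eis} (hdet : c0 * d1 - d0 * c1 = 1) {p : Eis} (hp : Prime p) (hpm : p ∣ m)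
    (hc0 : p ∣ c0) :
    sumMod (M * m) (fun y => k y * (α (y * c0 + h * c1) * β (y * d0 + h * d1))) = 0 := by
  have hN : M * m ≠ 0 := mul_ne_zero hM hm
  by_cases hph : p ∣ h
  · exact loc_nonunit_h hN hα hp hpm hc0 hph k β
  · obtain ⟨m', hm'⟩ := hpm
    have hpM : ¬ p ∣ M := fun h' => hph (hMh p hp ⟨m', hm'⟩ h')
    refine loc_nonunit_c (t := M * m') (r := M) hN (dvd_mul_left m M) hα hβ
      (hk.mono (dvd_mul_right M m)) hp ⟨m', hm'⟩ hprp ?_ ?_ ?_ hc0 ?_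
    · rw [hm']; ring
    · exact (hp.irreducible.coprime_iff_not_dvd.mpr hpM).symm
    · intro x y
      rw [show x + M * m' * y = x + M * (m' * y) by ring]
      exact hk _ _
    · obtain ⟨e, rfl⟩ := hc0
      exact ⟨-c1, e * d1, by linear_combination hdet⟩

/-- a prime `p ∣ m` divides `d₀`. -/
theorem tw_nonunit_d (hm : m ≠ 0) {M : Eis} (hM : M ≠ 0) (hα : IsCh m α) (hβ : IsCh m β)
    (hprp : Prp m α) (hk : PMod M k) {h : Eis} (hMh : ∀ p, Prime p → p ∣ m → p ∣ M → p ∣ h)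
    {c0 d0 c1 d1 : Eis} (hdet : c0 * d1 - d0 * c1 = 1) {p : Eis} (hp : Prime p) (hpm : p ∣ m)
    (hd0 : p ∣ d0) :
    sumMod (M * m) (fun y => k y * (α (y * c0 + h * c1) * β (y * d0 + h * d1))) = 0 := by
  have hN : M * m ≠ 0 := mul_ne_zero hM hm
  by_cases hph : p ∣ h
  · exact loc_nonunit_h' hN hβ hp hpm hd0 hph k α
  · obtain ⟨m', hm'⟩ := hpm
    have hpM : ¬ p ∣ M := fun h' => hph (hMh p hp ⟨m', hm'⟩ h')
    refine loc_nonunit_d (t := M * m') (r := M) hN (dvd_mul_left m M) hα hβ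
      (hk.mono (dvd_mul_right M m)) hp ⟨m', hm'⟩ hprp ?_ ?_ ?_ hd0 ?_
    · rw [hm']; ring
    · exact (hp.irreducible.coprime_iff_not_dvd.mpr hpM).symm
    · intro x y
      rw [show x + M * m' * y = x + M * (m' * y) by ring]
      exact hk _ _
    · obtain ⟨e, rfl⟩ := hd0
      exact ⟨d1, -(e * c1), by linear_combination hdet⟩

/-! ### `(h, m) ≠ 1` -/

/-- the facts on the symbol at the primes of `m`. -/
structure TSy (σ : Eis → Eis → ℂ) (m : Eis) : Prop where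
  mul_right : ∀ x c d : Eis, c ≠ 0 → d ≠ 0 → σ x (c * d) = σ x c * σ x d
  one : ∀ u c : Eis, c ≠ 0 → (∀ q, Prime q → q ∣ c → q ∣ u - 1) →
    (∀ q, Prime q → q ∣ c → q ∣ m) → σ u c = 1
  congr : ∀ p x y : Eis, Prime p → p ∣ m → p ∣ x - y → σ x p = σ y p

/-- `ψ` is not of Hilbert type at any `p ∣ m` : for every `p ∣ m` and every `j` there is `u`,
`u ≡ 1 mod m/p`, with `σ(u,p)^j ψ(u) ≠ 1`. -/
def NH (σ : Eis → Eis → ℂ) (m : Eis) (ψ : Eis → ℂ) : Prop :=
  ∀ p, Prime p → p ∣ m → ∀ j : ℕ, ∃ u, IsCoprime u m ∧ m ∣ (u - 1) * p ∧ σ u p ^ j * ψ u ≠ 1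

/-- `p² ∣ m` : primitive suffices. -/
lemma nh_of_prp {σ : Eis → Eis → ℂ} {ψ : Eis → ℂ} (hm : m ≠ 0) (H : TSy σ m) (hp : Prp m ψ)
    (hs : ∀ p, Prime p → p ∣ m → (p ^ 2 ∣ m ∨ ∀ j : ℕ, ∃ u, IsCoprime u m ∧ m ∣ (u - 1) * p ∧
      σ u p ^ j * ψ u ≠ 1)) : NH σ m ψ := by
  intro p hpp hpm j
  rcases hs p hpp hpm with h | h
  · obtain ⟨u, hu, hd, h1⟩ := hp p hpp hpm
    refine ⟨u, hu, hd, ?_⟩
    have hp0 := hpp.ne_zero
    have hpu : p ∣ u - 1 := by
      obtain ⟨e, he⟩ := h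
      obtain ⟨t, ht⟩ := hd
      refine ⟨e * t, mul_left_cancel₀ hp0 ?_⟩
      rw [he] at ht
      linear_combination ht
    have : σ u p = 1 := by
      refine H.one u p hp0 (fun q hq hqp => ?_) (fun q hq hqp => hqp.trans hpm)
      exact ((hq.associated_of_dvd hpp hqp).dvd).trans hpu
    rwa [this, one_pow, one_mul]
  · exact h j

lemma exists_pow_mul {p h : Eis} (hp : Prime p) (hh : h ≠ 0) :
    ∃ (j : ℕ) (h3 : Eis), h = p ^ j * h3 ∧ ¬ p ∣ h3 := by
  obtain ⟨j, h3, h4, h5⟩ := WfDvdMonoid.max_power_factor hh hp.irreducible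
  exact ⟨j, h3, h5, h4⟩

lemma pow_right {σ : Eis → Eis → ℂ} (H : TSy σ m) (x : Eis) {c : Eis} (hc : c ≠ 0) (j : ℕ) :
    σ x (c ^ j) = σ x c ^ j := by
  induction j with
  | zero =>
    rw [pow_zero, pow_zero]
    exact H.one x 1 one_ne_zero (fun q hq h => absurd (isUnit_of_dvd_one h) hq.not_isUnit)
      (fun q hq h => absurd (isUnit_of_dvd_one h) hq.not_isUnit)
  | succ j ih => rw [pow_succ, H.mul_right _ _ _ (pow_ne_zero j hc) hc, ih, pow_succ]

/-- The sum vanishes if a prime `p ∣ m` divides `h`. -/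
theorem tw_vanish {σ : Eis → Eis → ℂ} (hm : m ≠ 0) (H : TSy σ m) (hα : IsCh m α) (hβ : IsCh m β)
    (hψ : NH σ m (fun x => α x * β x)) {h1 h2 : Eis} (hh1 : h1 ≠ 0) (hh2 : h2 ≠ 0)
    (hN0 : N0 ≠ 0) (hN0m : IsCoprime N0 m) (hh1m : IsCoprime h1 m)
    (hh2m : ∀ q, Prime q → q ∣ h2 → q ∣ m) (hne : ¬ IsUnit h2)
    (hk : PMod (h1 * h2 * N0) k)
    (hK : ∀ u, IsCoprime u (h1 * h2 * N0) → h1 * N0 ∣ u - 1 → ∀ y, k (u * y) = σ u h2 * k y)
    (c0 d0 c1 d1 : Eis) :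
    sumMod (h1 * h2 * N0 * m) (fun y => k y * (α (y * c0 + h1 * h2 * c1) *
      β (y * d0 + h1 * h2 * d1))) = 0 := by
  have hN : h1 * h2 * N0 ≠ 0 := mul_ne_zero (mul_ne_zero hh1 hh2) hN0
  have hNm : h1 * h2 * N0 * m ≠ 0 := mul_ne_zero hN hm
  obtain ⟨p, hp, hph⟩ : ∃ p, Prime p ∧ p ∣ h2 := by
    obtain ⟨p, hp, hd⟩ := WfDvdMonoid.exists_irreducible_factor hne hh2
    exact ⟨p, hp.prime, hd⟩
  have hpm := hh2m p hp hph
  have hp0 := hp.ne_zero
  obtain ⟨j, h3, he, h3p⟩ := exists_pow_mul hp hh2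
  have hh3 : h3 ≠ 0 := by rintro rfl; exact h3p (dvd_zero _)
  obtain ⟨u0, hu0, hd0', hu1⟩ := hψ p hp hpm j
  -- `u ≡ u0 mod m`, `u ≡ 1 mod h1 N0`
  have hcop : IsCoprime (h1 * N0) m := hh1m.mul_left hN0m
  obtain ⟨a, b, hab⟩ := hcop
  set u : Eis := u0 + m * (b * (1 - u0)) with hu
  have hum : m ∣ u - u0 := ⟨b * (1 - u0), by rw [hu]; ring⟩
  have huN : h1 * N0 ∣ u - 1 := ⟨a * (u0 - 1), by rw [hu]; linear_combination (u0 - 1) * (-hab)⟩
  have hucm : IsCoprime u m := by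
    obtain ⟨x, y, hxy⟩ := hu0
    refine ⟨x, y - x * (b * (1 - u0)), ?_⟩
    rw [hu]; linear_combination hxy
  have hucN : IsCoprime u (h1 * N0) := by
    obtain ⟨t, ht⟩ := huN
    exact ⟨1, -t, by linear_combination ht⟩
  have hch2 : IsCoprime u h2 := by
    refine isCoprime_of_prime_dvd (fun h' => hh2 h'.2) (fun q hq h4 h5 => ?_)
    have h6 : IsCoprime q q := IsCoprime.of_isCoprime_of_dvd_left
      (IsCoprime.of_isCoprime_of_dvd_right hucm (hh2m q hq h5)) h4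
    exact hq.not_isUnit (isCoprime_self.mp h6)
  have huall : IsCoprime u (h1 * h2 * N0) := by
    have := (hucN.mul_right hch2)
    rwa [show h1 * N0 * h2 = h1 * h2 * N0 by ring] at this
  -- value of the symbol
  have hqm : ∀ q, Prime q → q ∣ h3 → q ∣ u - 1 := by
    intro q hq hq3
    have hq2 : q ∣ h2 := by rw [he]; exact hq3.mul_left _
    have hqm := hh2m q hq hq2
    have hqp : ¬ q ∣ p := fun h' => h3p (((hq.associated_of_dvd hp h').symm.dvd).trans hq3)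
    have h7 : q ∣ (u0 - 1) * p := hqm.trans hd0'
    have h8 : q ∣ u0 - 1 := (hq.dvd_or_dvd h7).resolve_right hqp
    have h9 : u - 1 = (u - u0) + (u0 - 1) := by ring
    rw [h9]
    exact dvd_add (hqm.trans hum) h8
  have hσ : σ u h2 = σ u0 p ^ j := by
    rw [he, H.mul_right _ _ _ (pow_ne_zero j hp0) hh3, pow_right H u hp0 j,
      H.one u h3 hh3 hqm (fun q hq hq3 => hh2m q hq (by rw [he]; exact hq3.mul_left _)), mul_one,
      H.congr p u u0 hp hpm (hpm.trans hum)]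
  refine loc_vanish (u := u) (γ := σ u h2) hNm (dvd_mul_left m _) hα hβ
    (hk.mono (dvd_mul_right _ m)) (huall.mul_right hucm) (hK u huall huN) ?_ ?_ c0 d0 c1 d1
  · have h9 : (u - 1) * (h1 * h2) = (u - u0) * (h1 * h2) + (u0 - 1) * (h1 * h2) := by ring
    rw [h9]
    refine dvd_add (hum.mul_right _) ?_
    obtain ⟨h2', rfl⟩ := hph
    rw [show (u0 - 1) * (h1 * (p * h2')) = (u0 - 1) * p * (h1 * h2') by ring]
    exact hd0'.mul_right _
  · rw [hσ, hα.per.congr hum, hβ.per.congr hum]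
    exact hu1

/-! ### the sextic symbol -/

lemma sy2_eq_one {u c : Eis} (h : ∀ q, Prime q → q ∣ c → q ∣ u - 1) : sy2 u c = 1 := by
  unfold sy2
  apply Multiset.prod_eq_one
  intro x hx
  obtain ⟨q, hq, rfl⟩ := Multiset.mem_map.mp hx
  have hc0 : c ≠ 0 := by
    rintro rfl
    rw [UniqueFactorizationMonoid.factors_zero] at hq
    exact absurd hq (Multiset.notMem_zero q)
  have hqp : Prime q := UniqueFactorizationMonoid.prime_of_factor q hq
  have hqd : q ∣ c := UniqueFactorizationMonoid.dvd_of_mem_factors hq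
  have hqu := h q hqp hqd
  unfold sy20
  have h1 : ¬ q ∣ u := by
    intro h2
    have h6 : q ∣ 1 := by
      have : (1 : Eis) = u - (u - 1) := by ring
      rw [this]; exact dvd_sub h2 hqu
    exact hqp.not_isUnit (isUnit_of_dvd_one h6)
  rw [if_neg h1, if_pos]
  have := sub_dvd_pow_sub_pow u 1 ((nm q - 1) / 2)
  rw [one_pow] at this
  exact hqu.trans this

lemma sy6_eq_one {u c : Eis} (h : ∀ q, Prime q → q ∣ c → q ∣ u - 1) : sy6 u c = 1 := by
  unfold sy6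
  rw [sy2_eq_one h, sy_eq_one h, map_one, mul_one]

/-- for `m` prime to `6`. -/
theorem tsy_sy6 (hm2 : Od m) (hml : ¬ lam ∣ m) : TSy sy6 m where
  mul_right x c d hc hd := sy6_mul_right x hc hd
  one u c _ h _ := sy6_eq_one h
  congr p x y hp hpm h := by
    have h2 : Od p := hm2.of_dvd hpm
    have hl : ¬ lam ∣ p := fun h' => hml (h'.trans hpm)
    obtain ⟨u, hu⟩ := exists_unit_mul_isPrim hl
    have hass : Associated p (u * p) := by
      rw [mul_comm]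
      exact ⟨u, rfl⟩
    have e1 : ∀ z, sy6 z p = sy6 z (u * p) := by
      intro z
      unfold sy6
      rw [sy2_assoc_right z hass, Sym645.sy_assoc_right z hass]
    have h2' : Od (u * p) := (od_of_isUnit u.isUnit).mul h2
    rw [e1, e1]
    exact sy6_congr hu h2' ((hass.symm.dvd).trans h)

end Crest.Agent.R017.Tw266
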