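import Crest.Agent.R017.Tw3A_541

/-!
# Row 17, twisted cubic F1 (helper541), part B: the law of the rows `a4 j ⊗ rb`
-/

set_option autoImplicit false

noncomputable section

open Complex
open scoped ComplexConjugate

namespace Crest.Agent.R017.Tw3

open Crest.Agent.R012 Crest.Agent.R012.Eis Crest.Agent.R012.Gauss880 Crest.Agent.R017.Loc266
open Crest.Agent.R012.Sym645 (prim_nm_mod)
open Crest.Agent.R017.Tw266 (NH sumMod_mul_of_coprime)
open Crest.Agent.R017.Rw266 (ivN ivN_spec ivN_congr ivN_mul ea_congr_right cop_congr iv_unique)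
open Crest.Agent.R017.Orth681 Crest.Agent.R017.F1 Crest.Agent.R017.Glue681

variable {m x : Eis} {ψ : Eis → ℂ}

/-! ### the level-three factor -/

/-- `a4 j` on the line of the representative `g4 i` -/
def al4 (i j : Fin 4) (h y : Eis) : ℂ := a4 j (rmulS (h, y) (g4 i))

lemma al4_cases (i j : Fin 4) :
    (i = j ∧ ∀ h y, al4 i j h y = aI (h, y)) ∨
    (i ≠ j ∧ ∃ t e : Eis, inL t ∧ (e = 1 ∨ e = -1) ∧ ∀ h y, al4 i j h y = aF t (e * h, y)) := by
  unfold al4
  by_cases hij : i = j
  · left
    refine ⟨hij, fun h y => ?_⟩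
    subst hij
    by_cases hi : i = 0
    · subst hi
      have : g4 0 = 1 := rfl
      rw [this, rmulS_one]; rfl
    · rw [a4_pos hi, g4_pos hi, rmulS_gt]
      exact pt_same (inL3 (t4_cases i)) h y
  · right
    refine ⟨hij, ?_⟩
    by_cases hi : i = 0
    · subst hi
      have hj : j ≠ 0 := fun h => hij h.symm
      refine ⟨t4 j, 1, inL3 (t4_cases j), Or.inl rfl, fun h y => ?_⟩
      have : g4 0 = 1 := rfl
      rw [this, rmulS_one, a4_pos hj, one_mul]
    · by_cases hj : j = 0
      · subst hj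
        refine ⟨0, -1, by simp [inL], Or.inr rfl, fun h y => ?_⟩
        rw [g4_pos hi, rmulS_gt, neg_one_mul]
        exact pt_inf (t4_cases i) h y
      · obtain ⟨e, he, h3⟩ := diff_cases hi hj hij
        refine ⟨1, e, by simp [inL], he, fun h y => ?_⟩
        rw [g4_pos hi, a4_pos hj, rmulS_gt]
        exact pt_ne (inL3 (t4_cases j)) h3 he h y

lemma aI_mulS {k : Eis} (hk : IsPrim k) (h y : Eis) : aI (k * h, y) = conj (sy y k) * aI (h, y) := by
  classical
  have h3 : (3 : Eis) ∣ k * h ↔ (3 : Eis) ∣ h :=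
    ⟨fun h' => (hk.isCoprime_three.symm).dvd_of_dvd_mul_left h', fun h' => h'.mul_left k⟩
  by_cases hh : (3 : Eis) ∣ h
  · rw [aI_dvd hh, aI_dvd (h3.mpr hh)]
    by_cases hy : IsPrim y
    · rw [if_pos hy, if_pos hy, Sym645.sy_mul_left (prim_nm_mod hy), map_mul,
        Sym645.sy_reciprocity hk hy]
    · rw [if_neg hy, if_neg hy, mul_zero]
  · rw [aI_not_dvd hh, aI_not_dvd (fun h' => hh (h3.mp h')), mul_zero]

lemma aF_mulS {t k : Eis} (ht : inL t) (hk : IsPrim k) (h y : Eis) :
    aF t (k * h, y) = conj (sy y k) * aF t (h, y) := by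
  classical
  by_cases hh : IsPrim h
  · rw [aF_prim hh ht, aF_prim (hk.mul hh) ht]
    have e : (3 : Eis) ∣ y - t * (k * h) ↔ (3 : Eis) ∣ y - t * h := by
      apply three_dvd_congr
      obtain ⟨s, hs⟩ := hk
      exact ⟨-(t * h * s), by linear_combination (-(t * h)) * hs⟩
    simp only [e]
    by_cases h3 : (3 : Eis) ∣ y - t * h
    · rw [if_pos h3, if_pos h3, Sym645.sy_mul_right _ hk.ne_zero hh.ne_zero, map_mul]
    · rw [if_neg h3, if_neg h3, mul_zero]
  · rw [aF_not_prim hh, aF_not_prim (fun h' => hh (h'.of_mul_left hk)), mul_zero]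

lemma al4_mulS (i j : Fin 4) {k : Eis} (hk : IsPrim k) (h y : Eis) :
    al4 i j (k * h) y = conj (sy y k) * al4 i j h y := by
  rcases al4_cases i j with ⟨-, H⟩ | ⟨-, t, e, ht, -, H⟩
  · rw [H, H]; exact aI_mulS hk h y
  · rw [H, H, show e * (k * h) = k * (e * h) by ring]; exact aF_mulS ht hk _ y

lemma pmod_al4 (i j : Fin 4) (h : Eis) : PMod (h * 3) (al4 i j h) :=
  pmod_of_reg (cof4 j) (reg4 i) h

/-- the sum of the level-three factor -/
def V4 (i j : Fin 4) (h : Eis) : ℂ := sumMod (h * 3) (al4 i j h)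

lemma V4_sym {i j : Fin 4} {h : Eis} (h0 : h ≠ 0) :
    V4 i j h + V4 i j (-h) = if i = j then AA h + AA (-h) else AP h + AP (-h) := by
  by_cases hij : i = j
  · subst hij
    rw [if_pos rfl]
    unfold V4 al4
    rw [sumW_same, sumW_same]
  · rw [if_neg hij]
    unfold V4 al4
    rcases sumW_ne hij with H | H
    · rw [H h h0, H (-h) (neg_ne_zero.mpr h0)]
    · rw [H h h0, H (-h) (neg_ne_zero.mpr h0), neg_neg, add_comm]

/-! ### the product rows -/

/-- `a4 j ⊗ rb` -/
def A4 (m x : Eis) (ψ : Eis → ℂ) (j : Fin 4) (r : Eis × Eis) : ℂ := a4 j r * rb m x ψ r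

/-- **The law.** -/
theorem law_A4 (T : TwD m ψ) {i j : Fin 4} {g : SLE} (hi : a4 i (br g) ≠ 0)
    (hc : IsCoprime (br g).1 m) {h : Eis} (h0 : h ≠ 0) :
    Glue681.SA (3 * m) (A4 m x ψ j) g h =
      V4 i j h * (ψ (-x) * ψ h * gl (fun z => conj (ψ z)) 1 m) *
        A4 m x (fun z => conj (ψ z)) i (br g) := by
  obtain ⟨x0, γ, hg⟩ := red4 hi
  set g1 : SLE := g4 i * (γ : SLE) with hg1
  have hgg : g = up x0 * g1 := by rw [hg, hg1, mul_assoc]
  have hbr : br g = br g1 := by rw [hgg, br_up_mul]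
  set A := g1 0 0 with hA
  set B := g1 0 1 with hB
  set c0 := g1 1 0 with hc0
  set d0 := g1 1 1 with hd0
  have hdet : A * d0 - B * c0 = 1 := sdet g1
  have hbr2 : br g = (c0, d0) := hbr
  rw [hbr2] at hc
  simp only at hc
  have hrow : ∀ y, rmulS (h, y) g = rmulS (h, y + h * x0) g1 := by
    intro y
    rw [hgg, rmulS_mul]
    congr 1
    simp only [rmulS, up, mk2_00, mk2_01, mk2_10, mk2_11]
    ext1
    · simp
    · simp only; ring
  have hlin : ∀ y, rmulS (h, y) g1 = (h * A + y * c0, h * B + y * d0) := fun y => rfl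
  have ha : ∀ y, a4 j (rmulS (h, y) g1) = conj (chi3 γ) * al4 i j h y := by
    intro y
    rw [hg1, rmulS_mul]
    exact (cof4 j).equiv γ _
  have hai : a4 i (br g) = conj (chi3 γ) := by
    rw [hbr, hg1, br_mul, (cof4 i).equiv γ, a4_g4, mul_one]
  have hm3 : h * (3 * m) ≠ 0 := mul_ne_zero h0 (mul_ne_zero three_ne_zero' T.m0)
  have h3 : h * 3 ≠ 0 := mul_ne_zero h0 three_ne_zero'
  -- the summand
  have e1 : ∀ y, A4 m x ψ j (rmulS (h, y) g) =
      (conj (chi3 γ) * ea m x (d0 * ivN m c0)) *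
        (al4 i j h (y + h * x0) * th m x ψ h c0 (h * A + (y + h * x0) * c0)) := by
    intro y
    unfold A4
    rw [hrow, ha, hlin, rb_line T.m0 T.ch hdet hc]
    ring
  have hPt := pmod_th (x := x) T.m0 T.ch h c0
  have hPt2 : PMod m (fun y => th m x ψ h c0 (h * A + y * c0)) := by
    intro y t
    have : h * A + (y + m * t) * c0 = (h * A + y * c0) + m * (t * c0) := by ring
    simp only
    rw [this]
    exact hPt _ _
  have hPa := pmod_al4 i j h
  have hP : PMod (h * (3 * m)) (fun y => al4 i j h y * th m x ψ h c0 (h * A + y * c0)) := by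
    have e : h * (3 * m) = (h * 3) * m := by ring
    rw [e]
    exact (hPa.mono (dvd_mul_right _ _)).mul (hPt2.mono (dvd_mul_left _ _))
  unfold Glue681.SA
  rw [sumMod_congr e1, sumMod_mul_left hm3,
    sumMod_shift hm3 (f := fun y => al4 i j h y * th m x ψ h c0 (h * A + y * c0)) hP (h * x0)]
  have hR : A4 m x (fun z => conj (ψ z)) i (br g) =
      conj (chi3 γ) * (conj (ψ c0) * ea m x (d0 * ivN m c0)) := by
    unfold A4
    rw [hai, hbr2]
    rfl
  rw [hR]
  have hsum : sumMod m (fun y => th m x ψ h c0 (h * A + y * c0)) =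
      ψ (-x) * ψ h * conj (ψ c0) * gl (fun z => conj (ψ z)) 1 m := by
    rw [← sum_th_pure T h c0 hc, ← sumMod_shift T.m0 hPt (h * A),
      ← sumMod_mul_coprime T.m0 (hPt.comp_add (h * A)) hc]
    exact sumMod_congr fun y => by rw [show c0 * y + h * A = h * A + y * c0 by ring]
  by_cases hh : IsCoprime h m
  · -- coprime case
    have hcop : IsCoprime (h * 3) m := by
      refine hh.mul_left ?_
      refine isCoprime_of_prime_dvd (fun h' => three_ne_zero' h'.1) (fun q hq h1 h2 => ?_)
      have hql : q ∣ lam := by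
        have : q ∣ lam ^ 2 := h1.trans three_dvd_lam_sq
        exact hq.dvd_of_dvd_pow this
      exact T.lm ((hq.associated_of_dvd prime_lam hql).symm.dvd.trans h2)
    have e : h * (3 * m) = (h * 3) * m := by ring
    rw [e, sumMod_mul_of_coprime h3 T.m0 hcop hPa hPt2, hsum]
    unfold V4
    ring
  · -- the sum vanishes
    rw [T.ch.zero h hh, mul_zero, zero_mul, mul_zero, zero_mul]
    obtain ⟨h1, h2, he, hc1, hd2⟩ := exists_split m h0
    have h10 : h1 ≠ 0 := by rintro rfl; exact h0 (by rw [he, zero_mul])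
    have h20 : h2 ≠ 0 := by rintro rfl; exact h0 (by rw [he, mul_zero])
    have hl2 : ¬ lam ∣ h2 := fun h' => T.lm (hd2 lam prime_lam h')
    obtain ⟨u, hu⟩ := exists_unit_mul_isPrim hl2
    set k : Eis := u * h2 with hk
    set h' : Eis := ((u⁻¹ : Eisˣ) : Eis) * h1 with hh'
    have huu : ((u⁻¹ : Eisˣ) : Eis) * (u : Eis) = 1 := Units.inv_mul u
    have hek : h = k * h' := by
      rw [he, hk, hh']; linear_combination (-(h1 * h2)) * huu
    have hpk : ∀ p, Prime p → p ∣ k → p ∣ m := by
      intro p hp hpk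
      rcases hp.dvd_or_dvd hpk with h3 | h3
      · exact absurd (isUnit_of_dvd_unit h3 u.isUnit) hp.not_isUnit
      · exact hd2 p hp h3
    have hc' : IsCoprime h' m := (isCoprime_of_isUnit (u⁻¹).isUnit m).mul_left hc1
    have hku : ∃ p, Prime p ∧ p ∣ k := by
      by_contra hcon
      push Not at hcon
      have hkunit : IsUnit k := by
        by_contra hnu
        obtain ⟨p, hp, hpk⟩ := WfDvdMonoid.exists_irreducible_factor hnu hu.ne_zero
        exact hcon p hp.prime hpk
      apply hh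
      rw [hek]
      exact (isCoprime_of_isUnit hkunit m).mul_left hc'
    have h'0 : h' ≠ 0 := mul_ne_zero (Units.ne_zero _) h10
    have e2 : ∀ y, al4 i j h y * th m x ψ h c0 (h * A + y * c0) =
        al4 i j h' y * (conj (sy y k) * th m x ψ h c0 (h * A + y * c0)) := by
      intro y
      have := al4_mulS i j hu h' y
      rw [← hek] at this
      rw [this]; ring
    rw [sumMod_congr e2]
    have hcop : IsCoprime (h' * 3) (m * k) := by
      have h3m : IsCoprime (3 : Eis) m := by
        refine isCoprime_of_prime_dvd (fun h' => three_ne_zero' h'.1) (fun q hq h1 h2 => ?_)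
        have hql : q ∣ lam := by
          have : q ∣ lam ^ 2 := h1.trans three_dvd_lam_sq
          exact hq.dvd_of_dvd_pow this
        exact T.lm ((hq.associated_of_dvd prime_lam hql).symm.dvd.trans h2)
      have hhk : IsCoprime h' k := by
        refine isCoprime_of_prime_dvd (fun h'' => h'0 h''.1) (fun q hq h1 h2 => ?_)
        have h3 : IsCoprime q q := IsCoprime.of_isCoprime_of_dvd_left
          (IsCoprime.of_isCoprime_of_dvd_right hc' (hpk q hq h2)) h1
        exact hq.not_isUnit (isCoprime_self.mp h3)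
      exact ((hc'.mul_left h3m).mul_right (hhk.mul_left (hu.isCoprime_three.symm)))
    have e3 : h * (3 * m) = (h' * 3) * (m * k) := by rw [hek]; ring
    have hPk : PMod (m * k) (fun y => conj (sy y k) * th m x ψ h c0 (h * A + y * c0)) := by
      refine PMod.mul (PMod.mono (c := k) ?_ (dvd_mul_left _ _)) (hPt2.mono (dvd_mul_right _ _))
      intro y t
      simp only
      rw [Sym645.sy_congr (prim_nm_mod hu) (x := y + k * t) (y := y) ⟨t, by ring⟩]
    rw [e3, sumMod_mul_of_coprime (mul_ne_zero h'0 three_ne_zero')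
      (mul_ne_zero T.m0 hu.ne_zero) hcop (pmod_al4 i j h') hPk,
      sum_th_zero T hu hpk hku ⟨h', hek⟩ hc, mul_zero, mul_zero]

end Crest.Agent.R017.Tw3
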