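import Crest.Agent.R017.Tw3B_541

/-!
# Row 17, twisted cubic F1 (helper541), part C: the vector pair
-/

set_option autoImplicit false

noncomputable section

open Complex MeasureTheory Set
open scoped ComplexConjugate

namespace Crest.Agent.R017.Tw3

open Crest.Agent.R012 Crest.Agent.R012.Eis Crest.Agent.R012.Gauss880 Crest.Agent.R012.Mob705
open Crest.Agent.R012.K695 (det2 n2 Vec EC rowv)
open Crest.Agent.R017.Orth681
open Crest.Agent.R017.F1 (PL AA AP Ac scl Ac_sym_cube Ac_not_cube AA_eq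
  AA_zero AP_zero AP_prim AA_cube AP_cube PL_nonneg PL_le_one PE_lam_mul three_dvd_cube
  not_three_dvd_cube PE_neg not_cube_neg unit_cube)
open Crest.Agent.R017.Xn590 Crest.Agent.R017.Glue681 Crest.Agent.R017.GlueV266

variable {m x : Eis} {ψ : Eis → ℂ}

/-! ### the three weights -/

def U0 (h : Eis) : ℂ := (Ac h + Ac (-h)) / (3 * nm h)
def Us (h : Eis) : ℂ := (AA h + AA (-h)) / nm h
def Ud (h : Eis) : ℂ := (AP h + AP (-h)) / nm h

lemma nmC_ne {h : Eis} (h0 : h ≠ 0) : (nm h : ℂ) ≠ 0 := by exact_mod_cast (nm_pos.mpr h0).ne'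

lemma U0_cube {n : Eis} (hn : n ≠ 0) : U0 (n ^ 3) = (PL n : ℂ) := by
  unfold U0
  rw [Ac_sym_cube hn]
  have h1 := nmC_ne (pow_ne_zero 3 hn)
  push_cast
  field_simp

lemma Us_cube {n : Eis} (hn : n ≠ 0) (hl : lam ∣ n) : Us (n ^ 3) = 2 * (PE n : ℂ) := by
  unfold Us
  have h1 := nmC_ne (pow_ne_zero 3 hn)
  have e : -(n ^ 3) = (-n) ^ 3 := by ring
  rw [AA_cube hn hl, e, AA_cube (neg_ne_zero.mpr hn) ((dvd_neg).mpr hl), PE_neg hn, ← e, nm_neg]
  push_cast
  field_simp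
  ring

lemma Us_cube' {n : Eis} (hn : n ≠ 0) (hl : ¬ lam ∣ n) : Us (n ^ 3) = 0 := by
  unfold Us
  have h3 := not_three_dvd_cube hl
  rw [AA_zero (pow_ne_zero 3 hn) h3, AA_zero (neg_ne_zero.mpr (pow_ne_zero 3 hn))
    (fun h => h3 ((dvd_neg).mp h)), add_zero, zero_div]

lemma Ud_cube {n : Eis} (hn : n ≠ 0) (hl : lam ∣ n) : Ud (n ^ 3) = 0 := by
  unfold Ud
  have h3 := three_dvd_cube hl
  rw [AP_zero (pow_ne_zero 3 hn) (fun h => F1.not_three_prim h h3),
    AP_zero (neg_ne_zero.mpr (pow_ne_zero 3 hn))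
      (fun h => F1.not_three_prim h ((dvd_neg).mpr h3)), add_zero, zero_div]

lemma Ud_cube' {n : Eis} (hn : n ≠ 0) (hl : ¬ lam ∣ n) : Ud (n ^ 3) = (PE n : ℂ) := by
  unfold Ud
  have h1 := nmC_ne (pow_ne_zero 3 hn)
  rcases F1.prim_or_neg hl with hp | hp
  · rw [AP_cube hl hp, AP_zero (neg_ne_zero.mpr (pow_ne_zero 3 hn)) (F1.not_prim_neg hp)]
    push_cast
    field_simp
    ring
  · have hl' : ¬ lam ∣ -n := fun h => hl ((dvd_neg).mp h)
    have e : -(n ^ 3) = (-n) ^ 3 := by ring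
    have hz : AP (n ^ 3) = 0 := AP_zero (pow_ne_zero 3 hn) (by
      have := F1.not_prim_neg hp
      rwa [neg_neg] at this)
    rw [hz, zero_add, e, AP_cube hl' (by rw [← e]; exact hp), PE_neg hn, ← e, nm_neg]
    push_cast
    field_simp

lemma U_ncube {h : Eis} (h0 : h ≠ 0) (hn : ¬ ∃ e, h = e ^ 3) : U0 h = 0 ∧ Us h = 0 ∧ Ud h = 0 := by
  have hn' := not_cube_neg hn
  have h0' := neg_ne_zero.mpr h0
  have a1 := Ac_not_cube h0 hn
  have a2 := Ac_not_cube h0' hn'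
  have hA : ∀ z : Eis, z ≠ 0 → Ac z = 0 → AA z = 0 := by
    intro z hz hAc
    by_cases h3 : (3 : Eis) ∣ z
    · rw [AA_eq h3, hAc]
    · exact AA_zero hz h3
  have hP : ∀ z : Eis, z ≠ 0 → Ac z = 0 → AP z = 0 := by
    intro z hz hAc
    by_cases hp : IsPrim z
    · rw [AP_prim hp, hAc, mul_zero]
    · exact AP_zero hz hp
  unfold U0 Us Ud
  rw [a1, a2, hA h h0 a1, hA (-h) h0' a2, hP h h0 a1, hP (-h) h0' a2]
  simp

lemma bdd_U : Bdd U0 ∧ Bdd Us ∧ Bdd Ud := by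
  have key : ∀ h : Eis, ‖U0 h‖ ≤ 1 ∧ ‖Us h‖ ≤ 2 ∧ ‖Ud h‖ ≤ 1 := by
    intro h
    by_cases h0 : h = 0
    · subst h0
      simp [U0, Us, Ud]
    by_cases hn : ∃ e, h = e ^ 3
    · obtain ⟨n, rfl⟩ := hn
      have hn0 : n ≠ 0 := by rintro rfl; exact h0 (by simp)
      have p1 := (PE_pos n).le
      have p2 := PE_le_one n
      refine ⟨?_, ?_, ?_⟩
      · rw [U0_cube hn0, Complex.norm_real, Real.norm_eq_abs, abs_of_nonneg (PL_nonneg n)]
        exact PL_le_one n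
      · by_cases hl : lam ∣ n
        · rw [Us_cube hn0 hl, norm_mul, Complex.norm_real, Real.norm_eq_abs, abs_of_nonneg p1]
          norm_num
          linarith
        · rw [Us_cube' hn0 hl]; norm_num
      · by_cases hl : lam ∣ n
        · rw [Ud_cube hn0 hl]; norm_num
        · rw [Ud_cube' hn0 hl, Complex.norm_real, Real.norm_eq_abs, abs_of_nonneg p1]
          exact p2
    · obtain ⟨h1, h2, h3⟩ := U_ncube h0 hn
      rw [h1, h2, h3]; norm_num
  exact ⟨⟨1, fun h => (key h).1⟩, ⟨2, fun h => (key h).2.1⟩, ⟨1, fun h => (key h).2.2⟩⟩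

lemma ncube_lam {t : Eis} (hn : ¬ ∃ e, t = e ^ 3) : ¬ ∃ e, lam ^ 3 * t = e ^ 3 := by
  rintro ⟨e, he⟩
  have h1 : lam ∣ e := by
    have : lam ∣ e ^ 3 := by
      rw [← he]; exact (dvd_pow_self lam (by norm_num)).mul_right t
    exact prime_lam.dvd_of_dvd_pow this
  obtain ⟨f, rfl⟩ := h1
  apply hn
  refine ⟨f, mul_left_cancel₀ (pow_ne_zero 3 lam_ne_zero) ?_⟩
  rw [he]; ring

/-- the values at `λ³ t`, `t` a cube -/
lemma U_lam {n : Eis} (hn : n ≠ 0) :
    U0 (lam ^ 3 * n ^ 3) = (2 / 3) * (PE n : ℂ) ∧ Us (lam ^ 3 * n ^ 3) = 2 * (PE n : ℂ) ∧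
      Ud (lam ^ 3 * n ^ 3) = 0 := by
  have hln : lam * n ≠ 0 := mul_ne_zero lam_ne_zero hn
  have e : lam ^ 3 * n ^ 3 = (lam * n) ^ 3 := by ring
  have hd : lam ∣ lam * n := dvd_mul_right _ _
  rw [e, U0_cube hln, Us_cube hln hd, Ud_cube hln hd, PE_lam_mul hn]
  refine ⟨?_, rfl, rfl⟩
  unfold F1.PL
  rw [if_pos hd, PE_lam_mul hn]
  push_cast
  ring

/-- linear relations between the weights, valid for every `t ≠ 0` -/
lemma U_rel {t : Eis} (ht : t ≠ 0) :
    Us (lam ^ 3 * t) = 3 * U0 (lam ^ 3 * t) ∧ Ud (lam ^ 3 * t) = 0 ∧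
    Us t + 2 * Ud t = Us (lam ^ 3 * t) ∧ Us t = 3 * U0 t - 3 * Ud t ∧
    3 * U0 (lam ^ 3 * t) = 3 * U0 t - Ud t := by
  by_cases hn : ∃ e, t = e ^ 3
  · obtain ⟨n, rfl⟩ := hn
    have hn0 : n ≠ 0 := by rintro rfl; exact ht (by simp)
    obtain ⟨h1, h2, h3⟩ := U_lam hn0
    rw [h1, h2, h3, U0_cube hn0]
    by_cases hl : lam ∣ n
    · rw [Us_cube hn0 hl, Ud_cube hn0 hl]
      unfold F1.PL
      rw [if_pos hl]
      push_cast
      refine ⟨by ring, rfl, by ring, by ring, by ring⟩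
    · rw [Us_cube' hn0 hl, Ud_cube' hn0 hl]
      unfold F1.PL
      rw [if_neg hl]
      push_cast
      refine ⟨by ring, rfl, by ring, by ring, by ring⟩
  · have h0 : lam ^ 3 * t ≠ 0 := mul_ne_zero (pow_ne_zero 3 lam_ne_zero) ht
    obtain ⟨h1, h2, h3⟩ := U_ncube ht hn
    obtain ⟨h4, h5, h6⟩ := U_ncube h0 (ncube_lam hn)
    rw [h1, h2, h3, h4, h5, h6]
    norm_num

lemma U_not {h : Eis} (h0 : h ≠ 0) (hd : ¬ lam ^ 3 ∣ h) : Us h = 0 ∧ Ud h = U0 h := by
  by_cases hn : ∃ e, h = e ^ 3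
  · obtain ⟨n, rfl⟩ := hn
    have hn0 : n ≠ 0 := by rintro rfl; exact h0 (by simp)
    have hl : ¬ lam ∣ n := fun h' => hd (pow_dvd_pow_of_dvd h' 3)
    rw [Us_cube' hn0 hl, Ud_cube' hn0 hl, U0_cube hn0]
    unfold F1.PL
    rw [if_neg hl]
    simp
  · obtain ⟨h1, h2, h3⟩ := U_ncube h0 hn
    rw [h1, h2, h3]
    exact ⟨rfl, rfl⟩

/-! ### operators -/

section ops

variable {s : ℂ} {W0 W0' : Eis → ℂ} {F0 F0' : Vec → ℂ} {b : Eis}

lemma bdd_cm {U : Eis → ℂ} (hU : Bdd U) (r : ℂ) : Bdd (fun h => r * U h) := by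
  obtain ⟨K, hK⟩ := hU
  exact ⟨‖r‖ * K, fun h => by
    rw [norm_mul]; exact mul_le_mul_of_nonneg_left (hK h) (norm_nonneg _)⟩

lemma bdd_ad {U W : Eis → ℂ} (hU : Bdd U) (hW : Bdd W) : Bdd (fun h => U h + W h) := by
  obtain ⟨K, hK⟩ := hU
  obtain ⟨L, hL⟩ := hW
  exact ⟨K + L, fun h => (norm_add_le _ _).trans (add_le_add (hK h) (hL h))⟩

lemma opW_step (hp : PairW s W0 W0' F0 F0') (hb : b ≠ 0) {W : Eis → ℂ} (bW : Bdd W) {r c1 c2 : ℂ}
    (h : ∀ t, t ≠ 0 → W t + r * shf b W t = c1 * W0 t + c2 * shf b W0 t)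
    {M : K695.Frm} (hM : det2 M ≠ 0) :
    opW W (fun u => F0 u + r * dil (toC b) F0 u) M =
      scl (det2 M) (fun u => c1 * F0' u + c2 * dil (toC b)⁻¹ F0' u) M.2 := by
  have hbC : toC b ≠ 0 := by rwa [Ne, toC_eq_zero]
  have hA := adm_tst hp.tst
  have hdM : det2 ((toC b • M.1, M.2) : K695.Frm) ≠ 0 := by
    rw [det2_fst]; exact mul_ne_zero hbC hM
  rw [opW_addF bW hA (adm_tst (tst_smul _ (tst_dil hbC hp.tst))) hM, opW_smulF]
  have e1 : opW W (dil (toC b) F0) M = opW (shf b W) F0 M := by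
    rw [opW_shf hb]
    classical
    unfold opW
    refine tsum_congr fun h => ?_
    split_ifs
    · rfl
    · rw [IL_dil hbC, IL_fst]
  rw [e1, ← opW_smulW (shf b W), ← opW_addW bW (bdd_cm (bdd_shf bW) r) hA hM,
    opW_congr h, opW_addW (bdd_cm hp.bW c1) (bdd_cm (bdd_shf hp.bW) c2) hA hM, opW_smulW,
    opW_smulW, opW_shf hb, hp.m1 M hM, hp.m1 _ hdM, det2_fst, scl_mul]
  unfold F1.scl
  ring

/-- the dual operators in the frame `(b⁻¹ η, ζ)`. -/
lemma opW_dualstep (hb : b ≠ 0) {F' : Vec → ℂ} (hF' : TstN s F') {U : Eis → ℂ} (bU : Bdd U)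
    (c1 c2 : ℂ) {M : K695.Frm} (hM : det2 M ≠ 0) :
    opW U (scl (det2 M) (fun u => c1 * F' u + c2 * dil (toC b)⁻¹ F' u)) M =
      opW (fun h => c1 * shf b U h + c2 * U h) (scl (det2 M) F')
        ((toC b)⁻¹ • M.1, M.2) := by
  have hbC : toC b ≠ 0 := by rwa [Ne, toC_eq_zero]
  set δ := det2 M with hδ
  have hA : Adm (scl δ F') := (adm_tst hF').scl hM
  set X : K695.Frm := ((toC b)⁻¹ • M.1, M.2) with hX
  have hdX : det2 X = (toC b)⁻¹ * δ := det2_fst _ M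
  have hX0 : det2 X ≠ 0 := by rw [hdX]; exact mul_ne_zero (inv_ne_zero hbC) hM
  have hbX : ((toC b • X.1, X.2) : K695.Frm) = M := by
    rw [hX]
    simp only [smul_smul, mul_inv_cancel₀ hbC, one_smul]
  have e0 : scl δ (fun u => c1 * F' u + c2 * dil (toC b)⁻¹ F' u) =
      fun u => c1 * scl δ F' u + c2 * dil (toC b)⁻¹ (scl δ F') u := by
    rw [scl_add, scl_smul, scl_smul, scl_dil]
  have hadm : ∀ (r : ℂ) {G : Vec → ℂ}, Adm G → Adm (fun u => r * G u) := by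
    intro r G hG
    refine ⟨continuous_const.mul hG.cont, ?_⟩
    obtain ⟨C, hC⟩ := hG.dec
    refine ⟨‖r‖ * C, fun u => ?_⟩
    rw [norm_mul, mul_assoc]
    exact mul_le_mul_of_nonneg_left (hC u) (norm_nonneg r)
  rw [e0, opW_addF bU (hadm c1 hA) (hadm c2 (adm_dil (inv_ne_zero hbC) hA)) hM, opW_smulF,
    opW_smulF]
  have e1 : opW U (dil (toC b)⁻¹ (scl δ F')) M = opW U (scl δ F') X := by
    classical
    unfold opW
    refine tsum_congr fun h => ?_
    split_ifs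
    · rfl
    · rw [IL_dil (inv_ne_zero hbC), hX, IL_fst]
  have e2 : opW U (scl δ F') M = opW (shf b U) (scl δ F') X := by
    rw [opW_shf hb, hbX]
  rw [e1, e2, ← opW_smulW, ← opW_smulW,
    ← opW_addW (bdd_cm (bdd_shf bU) c1) (bdd_cm bU c2) hA hX0]

/-- the values of the base pair in the frame `(b⁻¹ η, ζ)`. -/
lemma opW_base_dual (hp : PairW s W0 W0' F0 F0') (hb : b ≠ 0) (d1 d2 : ℂ)
    {M : K695.Frm} (hM : det2 M ≠ 0) :
    opW (fun h => d1 * shf b W0' h + d2 * W0' h) (scl (det2 M) F0') ((toC b)⁻¹ • M.1, M.2) =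
      d1 * F0 M.2 + d2 * dil (toC b) F0 M.2 := by
  have hbC : toC b ≠ 0 := by rwa [Ne, toC_eq_zero]
  set δ := det2 M with hδ
  have hA : Adm (scl δ F0') := (adm_tst hp.tst').scl hM
  set X : K695.Frm := ((toC b)⁻¹ • M.1, M.2) with hX
  have hdX : det2 X = (toC b)⁻¹ * δ := det2_fst _ M
  have hX0 : det2 X ≠ 0 := by rw [hdX]; exact mul_ne_zero (inv_ne_zero hbC) hM
  have hbX : ((toC b • X.1, X.2) : K695.Frm) = M := by
    rw [hX]
    simp only [smul_smul, mul_inv_cancel₀ hbC, one_smul]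
  rw [opW_addW (bdd_cm (bdd_shf hp.bW') d1) (bdd_cm hp.bW' d2) hA hX0, opW_smulW, opW_smulW,
    opW_shf hb, hbX, hp.m2 M hM]
  have e4 : opW W0' (scl δ F0') X = dil (toC b) F0 M.2 := by
    set Z : K695.Frm := (toC b • X.1, toC b • X.2) with hZ
    have hdZ : det2 Z = toC b * δ := by
      have : det2 Z = toC b * (toC b * det2 X) := by
        rw [hZ]; unfold det2; simp; ring
      rw [this, hdX]
      field_simp
    have hZ0 : det2 Z ≠ 0 := by rw [hdZ]; exact mul_ne_zero hbC hM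
    have h3 := hp.m2 Z hZ0
    have hn : ‖toC b‖ ≠ 0 := norm_ne_zero_iff.mpr hbC
    have hn' : ((‖toC b‖ : ℝ) : ℂ) ≠ 0 := by exact_mod_cast hn
    have h4 : opW W0' (scl (det2 Z) F0') Z =
        (((‖toC b‖ ^ 2)⁻¹ : ℝ) : ℂ) * opW W0' (scl δ F0') X := by
      classical
      unfold opW
      rw [← tsum_mul_left]
      refine tsum_congr fun h => ?_
      have h5 : IL (scl (det2 Z) F0') Z (toC h) =
          (((‖toC b‖ ^ 2)⁻¹ : ℝ) : ℂ) * IL (scl δ F0') X (toC h) := by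
        unfold IL
        rw [← integral_const_mul]
        refine integral_congr_ae (Filter.Eventually.of_forall fun x => ?_)
        simp only
        rw [hdZ, hZ]
        unfold F1.scl
        simp only
        rw [norm_mul, mul_pow, mul_inv]
        have h6 : (toC b * δ)⁻¹ • (toC h • toC b • X.1 + x • toC b • X.2) =
            δ⁻¹ • (toC h • X.1 + x • X.2) := by
          rw [smul_comm (toC h), smul_comm x, ← smul_add, smul_smul]
          congr 1
          field_simp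
        rw [h6]
        push_cast
        ring
      rw [h5]
      split_ifs <;> ring
    rw [h4] at h3
    unfold dil
    have hZ2 : Z.2 = toC b • M.2 := by rw [hZ, hX]
    rw [hZ2] at h3
    rw [← h3]
    push_cast
    field_simp
  rw [e4]

end ops

/-! ### the vector pair -/

/-- the left test function -/
def Fl (y : ℂ) (F0 : Vec → ℂ) (u : Vec) : ℂ := F0 u + (-(y / 3)) * dil (toC (lam ^ 3)) F0 u

/-- the right test functions: `F'_k = c₁ F₀' + c₂ dil(λ⁻³) F₀'` -/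
def kc1 (j0 k : Fin 4) : ℂ := if k = j0 then 0 else 1 / 3
def kc2 (y : ℂ) (j0 k : Fin 4) : ℂ := if k = j0 then 2 * y / 3 else -(y / 3)

def Fr (y : ℂ) (j0 : Fin 4) (F0' : Vec → ℂ) (k : Fin 4) (u : Vec) : ℂ :=
  kc1 j0 k * F0' u + kc2 y j0 k * dil (toC (lam ^ 3))⁻¹ F0' u

/-- the weights -/
def Wk (w : ℂ) (ψ : Eis → ℂ) (j0 k : Fin 4) (h : Eis) : ℂ :=
  (w / 3) * (ψ h * (if k = j0 then Us h else Ud h))

lemma bdd_psi (hm : m ≠ 0) (hψ : IsCh m ψ) {U : Eis → ℂ} (hU : Bdd U) :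
    Bdd (fun h => ψ h * U h) := by
  obtain ⟨K, hK⟩ := hU
  refine ⟨K, fun h => ?_⟩
  rw [norm_mul]
  have h1 := hψ.norm_le_one hm h
  calc ‖ψ h‖ * ‖U h‖ ≤ 1 * ‖U h‖ := mul_le_mul_of_nonneg_right h1 (norm_nonneg _)
    _ ≤ K := by rw [one_mul]; exact hK h

lemma bdd_Wk (hm : m ≠ 0) (hψ : IsCh m ψ) (w : ℂ) (j0 k : Fin 4) : Bdd (Wk w ψ j0 k) := by
  unfold Wk
  apply bdd_cm
  by_cases h : k = j0
  · simp only [if_pos h]; exact bdd_psi hm hψ bdd_U.2.1
  · simp only [if_neg h]; exact bdd_psi hm hψ bdd_U.2.2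

/-- **The vector pair.** -/
theorem pairV_tw (hm : m ≠ 0) (hlm : ¬ lam ∣ m) (hψ : IsCh m ψ) {s w w' : ℂ} {F0 F0' : Vec → ℂ}
    (hp : PairW s (fun h => w * (ψ h * U0 h)) (fun h => w' * (conj (ψ h) * U0 h)) F0 F0')
    (j0 : Fin 4) :
    PairV s j0 (fun k h => Wk w ψ j0 k h)
      (fun k n h => Wk w' (fun z => conj (ψ z)) n k h)
      (Fl (ψ (lam ^ 3)) F0) (Fr (ψ (lam ^ 3)) j0 F0') := by
  have hb : (lam ^ 3 : Eis) ≠ 0 := pow_ne_zero 3 lam_ne_zero
  have hbC : toC (lam ^ 3) ≠ 0 := toC_ne_zero hb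
  have hcl : IsCoprime (lam ^ 3 : Eis) m :=
    ((prime_lam.irreducible.coprime_iff_not_dvd.mpr hlm)).pow_left
  set y : ℂ := ψ (lam ^ 3) with hy
  have hyy : y * conj y = 1 := hψ.mul_conj_self hm hcl
  refine ⟨fun k => bdd_Wk hm hψ _ _ _, fun k n => bdd_Wk hm hψ.conj _ _ _, ?_, ?_, ?_, ?_⟩
  · exact tst_add hp.tst (tst_smul _ (tst_dil hbC hp.tst))
  · intro k
    exact tst_add (tst_smul _ hp.tst') (tst_smul _ (tst_dil (inv_ne_zero hbC) hp.tst'))
  · intro k M hM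
    unfold Fl Fr
    refine opW_step hp hb (bdd_Wk hm hψ w j0 k) (fun t ht => ?_) hM
    unfold Wk kc1 kc2
    by_cases hd : lam ^ 3 ∣ t
    · obtain ⟨r, rfl⟩ := hd
      have hr : r ≠ 0 := right_ne_zero_of_mul ht
      rw [shf_mul hb, shf_mul hb, hψ.mul, ← hy]
      obtain ⟨r1, r2, r3, r4, r5⟩ := U_rel hr
      by_cases hk : k = j0
      · simp only [if_pos hk]
        rw [r1]
        linear_combination (w / 3 * y * ψ r) * (r5 - (1 / 3) * r4)
      · simp only [if_neg hk]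
        rw [r2]
        linear_combination (-(w / 9 * y * ψ r)) * r5
    · rw [shf_not hd, shf_not hd]
      obtain ⟨r1, r2⟩ := U_not ht hd
      by_cases hk : k = j0
      · simp only [if_pos hk]
        rw [r1]; ring
      · simp only [if_neg hk]
        rw [r2]; ring
  · intro n M hM
    unfold Fr
    have e1 : ∀ k, opW (Wk w' (fun z => conj (ψ z)) n k) (scl (det2 M)
        (fun u => kc1 j0 k * F0' u + kc2 y j0 k * dil (toC (lam ^ 3))⁻¹ F0' u)) M =
        opW (fun h => kc1 j0 k * shf (lam ^ 3) (Wk w' (fun z => conj (ψ z)) n k) h +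
          kc2 y j0 k * Wk w' (fun z => conj (ψ z)) n k h) (scl (det2 M) F0')
          ((toC (lam ^ 3))⁻¹ • M.1, M.2) := fun k =>
      opW_dualstep hb hp.tst' (bdd_Wk hm hψ.conj _ _ _) _ _ hM
    have hX0 : det2 (((toC (lam ^ 3))⁻¹ • M.1, M.2) : K695.Frm) ≠ 0 := by
      rw [det2_fst]; exact mul_ne_zero (inv_ne_zero hbC) hM
    have hA : Adm (scl (det2 M) F0') := (adm_tst hp.tst').scl hM
    simp only [e1]
    rw [← opW_sumW Finset.univ (fun k => bdd_ad (bdd_cm (bdd_shf (bdd_Wk hm hψ.conj _ _ _)) _)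
      (bdd_cm (bdd_Wk hm hψ.conj _ _ _) _)) hA hX0]
    have e2 : ∀ h : Eis, h ≠ 0 →
        (∑ k, (kc1 j0 k * shf (lam ^ 3) (Wk w' (fun z => conj (ψ z)) n k) h +
          kc2 y j0 k * Wk w' (fun z => conj (ψ z)) n k h)) =
        (if n = j0 then 1 else 0) * shf (lam ^ 3) (fun h => w' * (conj (ψ h) * U0 h)) h +
          (if n = j0 then -(y / 3) else 0) * (w' * (conj (ψ h) * U0 h)) := by
      intro h h0
      by_cases hd : lam ^ 3 ∣ h
      · obtain ⟨r, rfl⟩ := hd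
        have hr : r ≠ 0 := right_ne_zero_of_mul h0
        simp only [shf_mul hb]
        obtain ⟨r1, r2, r3, r4, r5⟩ := U_rel hr
        unfold Wk kc1 kc2
        simp only [hψ.mul, ← hy, map_mul]
        rw [r2, r1] at *
        generalize Us r = S at *
        generalize Ud r = D at *
        generalize U0 r = U at *
        generalize U0 (lam ^ 3 * r) = U' at *
        generalize conj (ψ r) = p at *
        have hS : S = 3 * U - 3 * D := r4
        have hU' : U' = U - D / 3 := by linear_combination (1 / 3) * r5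
        subst hS
        subst hU'
        have hy' : conj y * y = 1 := by rw [mul_comm]; exact hyy
        fin_cases j0 <;> fin_cases n <;> simp [Fin.sum_univ_four] <;>
          first
          | linear_combination (w' * p * (U - D / 3)) * hy'
          | linear_combination (-(w' / 3) * p * (U - D / 3)) * hy'
      · simp only [shf_not hd]
        obtain ⟨r1, r2⟩ := U_not h0 hd
        unfold Wk kc1 kc2
        rw [r1, r2]
        fin_cases j0 <;> fin_cases n <;> simp [Fin.sum_univ_four] <;> ring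
    rw [opW_congr e2, opW_base_dual hp hb _ _ hM]
    unfold Fl
    split_ifs <;> ring

end Crest.Agent.R017.Tw3
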