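import Crest.Agent.R017.Tw3C_541
import Crest.Agent.R017.Coef2_92
import Crest.Agent.R017.XnAll_960
import Crest.Agent.R017.Glue3_681

/-!
# Row 17, twisted cubic F1 (helper541), part D: the glue and the coefficients
-/

set_option autoImplicit false

noncomputable section

open Complex MeasureTheory Set
open scoped ComplexConjugate SchwartzMap

namespace Crest.Agent.R017.Tw3

open Crest.Agent.R012 Crest.Agent.R012.Eis Crest.Agent.R012.Gauss880 Crest.Agent.R012.Mob705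
open Crest.Agent.R012.Sym645 (prim_nm_mod)
open Crest.Agent.R012.K695 (det2 n2 Vec EC rowv)
open Crest.Agent.R012.Parseval499 (par covol frq s3 covol_pos toC_s3_ne)
open Crest.Agent.R017.Orth681 Crest.Agent.R017.F1 Crest.Agent.R017.Loc266
open Crest.Agent.R017.Xn590 Crest.Agent.R017.GlueV266
open Crest.Agent.R017.Rw266 (ivN ivN_spec ivN_congr)
open Crest.Agent.R017.Glue681 (SA PairW BaseW pair_base UnitOne opW)

variable {m x : Eis} {ψ : Eis → ℂ}

/-! ### the multiplier -/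

lemma GN_le (m : Eis) : GN (3 * m) ≤ GN 3 := by
  intro g hg
  have h := mem_GN.mp hg
  have h3 : (3 : Eis) ∣ 3 * m := dvd_mul_right _ _
  exact mem_GN.mpr ⟨h3.trans h.1, h3.trans h.2.1, h3.trans h.2.2.1, h3.trans h.2.2.2⟩

def inc (m : Eis) (g : GN (3 * m)) : GN 3 := Subgroup.inclusion (GN_le m) g

lemma coe_inc (g : GN (3 * m)) : ((inc m g : GN 3) : SLE) = (g : SLE) :=
  Subgroup.coe_inclusion (GN_le m) g

def chiM (m : Eis) (g : GN (3 * m)) : ℂ := chi3 (inc m g)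

lemma norm_chiM (g : GN (3 * m)) : ‖chiM m g‖ = 1 := norm_chi3 _

lemma rmulS_gam (g : GN (3 * m)) (r : Eis × Eis) :
    m ∣ (rmulS r (g : SLE)).1 - r.1 ∧ m ∣ (rmulS r (g : SLE)).2 - r.2 := by
  have h := mem_GN.mp g.2
  have hd : m ∣ 3 * m := dvd_mul_left _ _
  constructor
  · have : (rmulS r (g : SLE)).1 - r.1 = r.1 * ((g : SLE) 0 0 - 1) + r.2 * (g : SLE) 1 0 := by
      simp only [rmulS]; ring
    rw [this]
    exact dvd_add ((hd.trans h.1).mul_left _) ((hd.trans h.2.2.1).mul_left _)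
  · have : (rmulS r (g : SLE)).2 - r.2 = r.1 * (g : SLE) 0 1 + r.2 * ((g : SLE) 1 1 - 1) := by
      simp only [rmulS]; ring
    rw [this]
    exact dvd_add ((hd.trans h.2.1).mul_left _) ((hd.trans h.2.2.2).mul_left _)

lemma inc_equiv (j : Fin 4) (g : GN (3 * m)) (r : Eis × Eis) :
    a4 j (rmulS r (g : SLE)) = conj (chiM m g) * a4 j r := by
  have h3 := (cof4 j).equiv (inc m g) r
  rw [coe_inc] at h3
  exact h3

lemma rb_gam (hm : m ≠ 0) (hψ : IsCh m ψ) (g : GN (3 * m)) (r : Eis × Eis) :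
    rb m x ψ (rmulS r (g : SLE)) = rb m x ψ r :=
  rb_congr hm hψ (rmulS_gam g r).1 (rmulS_gam g r).2

lemma norm_A4_le (hm : m ≠ 0) (hψ : IsCh m ψ) (j : Fin 4) (r : Eis × Eis) :
    ‖A4 m x ψ j r‖ ≤ 1 := by
  unfold A4
  rw [norm_mul]
  calc ‖a4 j r‖ * ‖rb m x ψ r‖ ≤ 1 * 1 :=
        mul_le_mul (norm_a4_le j r) (norm_rb_le hm hψ r) (norm_nonneg _) zero_le_one
    _ = 1 := one_mul 1

lemma cof_A4 (hm : m ≠ 0) (hψ : IsCh m ψ) (j : Fin 4) : Cof (3 * m) (chiM m) (A4 m x ψ j) where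
  bdd := ⟨1, fun r => norm_A4_le hm hψ j r⟩
  cop r h := a2_cop (a4_ne (left_ne_zero_of_mul h))
  equiv g r := by
    unfold A4
    rw [rb_gam hm hψ g r, inc_equiv j g r, mul_assoc]

/-! ### the rows -/

/-- the relevant rows -/
def RG (m : Eis) (g : SLE) : Prop := (∃ i, a4 i (br g) ≠ 0) ∧ IsCoprime (br g).1 m

lemma rg_of_ne (hψ : IsCh m ψ) {j : Fin 4} {g : SLE} (h : A4 m x ψ j (br g) ≠ 0) : RG m g := by
  refine ⟨⟨j, left_ne_zero_of_mul h⟩, ?_⟩
  by_contra hc
  apply right_ne_zero_of_mul h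
  unfold rb
  rw [hψ.zero _ hc, zero_mul]

lemma a4_disj {i k : Fin 4} {r : Eis × Eis} (h : a4 i r ≠ 0) (hk : k ≠ i) : a4 k r = 0 := by
  classical
  by_contra hne
  by_cases hi : i = 0
  · subst hi
    have h3 : (3 : Eis) ∣ r.1 := by
      by_contra hc
      apply h
      change aI r = 0
      unfold aI
      rw [if_neg hc]
    apply hne
    rw [a4_pos hk]
    unfold aF
    rw [if_neg (fun h' => h'.1 h3)]
  · rw [a4_pos hi] at h
    have hci : ¬ (3 : Eis) ∣ r.1 ∧ (3 : Eis) ∣ r.2 - t4 i * r.1 := by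
      by_contra hc
      apply h
      unfold aF
      rw [if_neg hc]
    by_cases hk0 : k = 0
    · subst hk0
      apply hne
      change aI r = 0
      unfold aI
      rw [if_neg hci.1]
    · rw [a4_pos hk0] at hne
      have hck : ¬ (3 : Eis) ∣ r.1 ∧ (3 : Eis) ∣ r.2 - t4 k * r.1 := by
        by_contra hc
        apply hne
        unfold aF
        rw [if_neg hc]
      obtain ⟨e, he, h3⟩ := diff_cases hi hk0 (fun h' => hk h'.symm)
      apply hci.1
      have h4 : (3 : Eis) ∣ e * r.1 := by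
        obtain ⟨a, ha⟩ := hci.2
        obtain ⟨b, hb⟩ := hck.2
        obtain ⟨c, hc⟩ := h3
        exact ⟨b - a - c * r.1, by linear_combination hb - ha - r.1 * hc⟩
      rcases he with rfl | rfl
      · rwa [one_mul] at h4
      · rwa [neg_one_mul, dvd_neg] at h4

lemma unit_A4 {g : SLE} (hg : RG m g) (j : Fin 4) : UnitAt (A4 m x ψ j) g := by
  intro y hy
  obtain ⟨⟨i, hi⟩, -⟩ := hg
  have h1 : a4 j (rmulS (0, y) g) ≠ 0 := left_ne_zero_of_mul hy
  have hu : IsUnit y := unit_of_cop (fun r hr => a2_cop (a4_ne hr)) g h1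
  obtain ⟨x0, γ, hgg⟩ := red4 hi
  have h2 : rmulS (0, y) g = rmulS (rmulS (0, y) (g4 i)) (γ : SLE) := by
    rw [hgg, rmulS_mul, rmulS_mul]
    congr 2
    simp [rmulS, up]
  rw [h2, (cof4 j).equiv γ] at h1
  have h3 : al4 i j 0 y ≠ 0 := right_ne_zero_of_mul h1
  refine K695.prim_eq_one_of_isUnit ?_ hu
  by_contra hp
  apply h3
  rcases al4_cases i j with ⟨-, H⟩ | ⟨-, t, e, ht, he, H⟩
  · rw [H, aI_dvd (dvd_zero _), if_neg hp]
  · rw [H, mul_zero]
    exact aF_not_prim (by simp [IsPrim, Eis.three_dvd_iff]) _ _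

/-! ### the law -/

/-- the constant of the law -/
def tc (m x : Eis) (ψ : Eis → ℂ) : ℂ := ψ (-x) * gl (fun z => conj (ψ z)) 1 m

lemma psi_neg_sq (hψ : IsCh m ψ) : ψ (-1) * ψ (-1) = 1 := by
  rw [← hψ.mul, neg_one_mul, neg_neg, hψ.one]

theorem lawV_A4 (T : TwD m ψ) (j0 : Fin 4) :
    LawV (3 * m) (RG m) (ψ (-1))
      (fun k h => (tc m x ψ / 2) * (ψ h * (if k = j0 then Us h else Ud h)))
      (A4 m x ψ j0) (fun k => A4 m x (fun z => conj (ψ z)) k) := by
  classical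
  intro g hg h h0
  obtain ⟨⟨i, hi⟩, hc⟩ := hg
  have h0' := neg_ne_zero.mpr h0
  have hss := psi_neg_sq T.ch
  rw [law_A4 T hi hc h0, law_A4 T hi hc h0', Finset.sum_eq_single i]
  · have e1 : ψ (-h) = ψ (-1) * ψ h := by rw [← T.ch.mul]; congr 1; ring
    have e2 := V4_sym (i := i) (j := j0) h0
    have hn := nmC_ne h0
    rw [e1]
    simp only
    have e3 : (if i = j0 then Us h else Ud h) * nm h = V4 i j0 h + V4 i j0 (-h) := by
      rw [e2]
      unfold Us Ud
      split_ifs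
      · field_simp
      · field_simp
    unfold tc
    set R := A4 m x (fun z => conj (ψ z)) i (br g)
    set τ := gl (fun z => conj (ψ z)) 1 m
    linear_combination (-(ψ (-x) * τ * ψ h * R)) * e3 +
      (V4 i j0 (-h) * ψ (-x) * ψ h * τ * R) * hss
  · intro k _ hk
    simp only
    have : A4 m x (fun z => conj (ψ z)) k (br g) = 0 := by
      unfold A4
      rw [a4_disj hi hk, zero_mul]
    rw [this, mul_zero]
  · intro h; exact absurd (Finset.mem_univ _) h

/-! ### constants -/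

lemma conj_neg_one (hψ : IsCh m ψ) : conj (ψ (-1)) = ψ (-1) := by
  have h1 := psi_neg_sq hψ
  have h2 : ψ (-1) = 1 ∨ ψ (-1) = -1 := by
    have : (ψ (-1) - 1) * (ψ (-1) + 1) = 0 := by linear_combination h1
    rcases mul_eq_zero.mp this with h | h
    · left; exact sub_eq_zero.mp h
    · right; exact eq_neg_of_add_eq_zero_left h
  rcases h2 with h | h <;> rw [h] <;> simp

lemma s_cases (hψ : IsCh m ψ) : ψ (-1) = 1 ∨ ψ (-1) = -1 := by
  have h1 := psi_neg_sq hψ
  have : (ψ (-1) - 1) * (ψ (-1) + 1) = 0 := by linear_combination h1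
  rcases mul_eq_zero.mp this with h | h
  · left; exact sub_eq_zero.mp h
  · right; exact eq_neg_of_add_eq_zero_left h

lemma gl_conj (T : TwD m ψ) : gl (fun z => conj (ψ z)) 1 m = ψ (-1) * conj (gl ψ 1 m) := by
  have h1 : conj (gl ψ 1 m) = gl (fun z => conj (ψ z)) (-1) m := by
    unfold gl
    rw [sumMod_star T.m0]
    refine sumMod_congr fun z => ?_
    rw [map_mul, star_ea]
  rw [h1, gl_prim T.m0 T.ch.conj (prm_self T).conj (-1), Complex.conj_conj, ← mul_assoc,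
    psi_neg_sq T.ch, one_mul]

lemma tc_mul (T : TwD m ψ) (hx : IsCoprime x m) :
    tc m x ψ * tc m x (fun z => conj (ψ z)) = ψ (-1) * nm m := by
  unfold tc
  have h1 : ψ (-x) * conj (ψ (-x)) = 1 := T.ch.mul_conj_self T.m0 hx.neg_left
  have h2 : gl ψ 1 m * conj (gl ψ 1 m) = nm m := by
    rw [Complex.mul_conj, Complex.normSq_eq_norm_sq, norm_gl_sq T.m0 T.ch (prm_self T)]
    push_cast
    rfl
  simp only [Complex.conj_conj]
  rw [gl_conj T]
  change ψ (-x) * (ψ (-1) * conj (gl ψ 1 m)) * (conj (ψ (-x)) * gl ψ 1 m) = _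
  linear_combination (ψ (-1) * gl ψ 1 m * conj (gl ψ 1 m)) * h1 + ψ (-1) * h2

end Crest.Agent.R017.Tw3
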