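import Crest.Agent.R017.Tw3D_541
import Crest.Agent.R017.XnAll_960

/-!
# Row 17, twisted cubic F1 (helper541), part E: constants, base pair, the glue
-/

set_option autoImplicit false

noncomputable section

open Complex MeasureTheory Set
open scoped ComplexConjugate SchwartzMap

namespace Crest.Agent.R017.Tw3

open Crest.Agent.R012 Crest.Agent.R012.Eis Crest.Agent.R012.Gauss880 Crest.Agent.R012.Mob705
open Crest.Agent.R012.Sym645 (prim_nm_mod)
open Crest.Agent.R012.K695 (det2 n2 Vec EC rowv)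
open Crest.Agent.R012.Parseval499 (par covol frq s3 covol_pos toC_s3_ne)
open Crest.Agent.R017.Orth681 Crest.Agent.R017.F1 Crest.Agent.R017.Loc266
open Crest.Agent.R017.Xn590 Crest.Agent.R017.GlueV266
open Crest.Agent.R017.Rw266 (ivN ivN_spec ivN_congr)
open Crest.Agent.R017.Glue681 (SA PairW BaseW pair_base UnitOne opW)

variable {m x : Eis} {ψ : Eis → ℂ}

/-! ### the character ξ = ψ³ -/

/-- `ξ = ψ³` -/
def xi3 (ψ : Eis → ℂ) (z : Eis) : ℂ := ψ z ^ 3

lemma isCh_xi3 (hψ : IsCh m ψ) : IsCh m (xi3 ψ) where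
  one := by unfold xi3; rw [hψ.one, one_pow]
  mul a b := by unfold xi3; rw [hψ.mul, mul_pow]
  per a t := by unfold xi3; rw [hψ.per]
  zero a h := by unfold xi3; rw [hψ.zero a h]; norm_num

lemma xi3_conj (ψ : Eis → ℂ) : xi3 (fun z => conj (ψ z)) = fun z => conj (xi3 ψ z) := by
  funext z; unfold xi3; rw [map_pow]

/-- the Poisson constant -/
def pc (m : Eis) (ψ : Eis → ℂ) : ℂ := ((2 / (Real.sqrt 3 * nm m) : ℝ) : ℂ) * gl (xi3 ψ) 1 m

theorem xiP3 (T : TwD m ψ) : XiP (xi3 ψ) (toC sq3 * toC m) (pc m ψ) where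
  mul := (isCh_xi3 T.ch).mul
  le1 := (isCh_xi3 T.ch).norm_le_one T.m0
  κ0 := mul_ne_zero (toC_ne_zero sq3_ne_zero) (toC_ne_zero T.m0)
  c0 := by
    have hm : nm m ≠ 0 := (nm_pos.mpr T.m0).ne'
    have hτ : gl (xi3 ψ) 1 m ≠ 0 := by
      intro h0
      have := norm_gl_sq T.m0 (isCh_xi3 T.ch) (prm_of_prp T.m0 T.p3)
      rw [h0] at this
      simp at this
      exact hm (by exact_mod_cast this.symm)
    refine mul_ne_zero ?_ hτ
    have h3 : Real.sqrt 3 ≠ 0 := by positivity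
    have h4 : (nm m : ℝ) ≠ 0 := by exact_mod_cast hm
    exact_mod_cast div_ne_zero two_ne_zero (mul_ne_zero h3 h4)
  pois F := by
    have h := Tau671.poisson_pf (f := F) (Tau671.PF.of_schwartz F) T.m0 (isCh_xi3 T.ch).per
    rw [h]
    unfold pc
    rw [mul_assoc, ← tsum_mul_left (a := gl (xi3 ψ) 1 m)]
    congr 1
    refine tsum_congr fun k => ?_
    have e : sumMod m (fun a => xi3 ψ a * eC (toC k * toC a / (toC sq3 * toC m))) =
        conj (xi3 ψ k) * gl (xi3 ψ) 1 m :=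
      gl_prim T.m0 (isCh_xi3 T.ch) (prm_of_prp T.m0 T.p3) k
    rw [e]; ring

/-! ### the constants of the pair -/

/-- `w = (3/2) tc / covol` -/
def wc (m x : Eis) (ψ : Eis → ℂ) : ℂ := (3 / 2) * ((covol (toC (3 * m)) : ℂ)⁻¹ * tc m x ψ)

lemma covol_3m (m : Eis) : covol (toC (3 * m)) = 9 * nm m * (Real.sqrt 3 / 2) := by
  unfold covol
  rw [norm_toC_sq, nm_mul]
  have : nm 3 = 9 := by decide
  rw [this]
  push_cast
  ring

lemma wc_mul (T : TwD m ψ) (hx : IsCoprime x m) :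
    wc m x ψ * wc m x (fun z => conj (ψ z)) * (27 * nm m) = ψ (-1) := by
  have h1 := tc_mul T hx
  have h2 : ((covol (toC (3 * m)) : ℝ) : ℂ) ^ 2 = (243 / 4) * (nm m : ℂ) ^ 2 := by
    rw [covol_3m]
    have h3 : ((Real.sqrt 3 : ℝ) : ℂ) ^ 2 = 3 := by
      rw [← Complex.ofReal_pow, Real.sq_sqrt (by norm_num)]; norm_num
    push_cast
    linear_combination (81 / 4 * (nm m : ℂ) ^ 2) * h3
  have hn : (nm m : ℂ) ≠ 0 := nmC_ne T.m0
  have hc : ((covol (toC (3 * m)) : ℝ) : ℂ) ≠ 0 := by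
    intro h0
    rw [h0] at h2
    have : (nm m : ℂ) ^ 2 = 0 := by
      linear_combination (-(4 / 243 : ℂ)) * h2
    exact hn (pow_eq_zero_iff (two_ne_zero) |>.mp this)
  unfold wc
  set cv : ℂ := ((covol (toC (3 * m)) : ℝ) : ℂ) with hcv
  have e : (3 / 2) * (cv⁻¹ * tc m x ψ) * ((3 / 2) * (cv⁻¹ * tc m x (fun z => conj (ψ z)))) *
      (27 * nm m) = (9 / 4 * 27 * nm m) * (tc m x ψ * tc m x (fun z => conj (ψ z))) *
        (cv ^ 2)⁻¹ := by
    rw [pow_two, mul_inv]; ring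
  rw [e, h1, h2]
  field_simp
  ring

theorem xnC_tw (T : TwD m ψ) (hx : IsCoprime x m) :
    XnC 3 (ψ (-1)) (toC sq3 * toC m) (1 / 2) (toC 1) (wc m x ψ)
      (wc m x (fun z => conj (ψ z))) where
  n2 := by norm_num
  s1 := s_cases T.ch
  V0 := by norm_num
  h0 := toC_ne_zero one_ne_zero
  cst := by
    rw [norm_kap]
    have h := wc_mul T hx
    push_cast
    linear_combination (1 / 4 : ℂ) * h

theorem baseW_tw (hψ : IsCh m ψ) (w : ℂ) :
    BaseW 3 1 (ψ (-1)) w (xi3 ψ) (fun h => w * (ψ h * U0 h)) where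
  pow j hj := by
    rw [one_mul, U0_cube hj]
    have : ψ (j ^ 3) = xi3 ψ j := by
      unfold xi3
      rw [pow_succ, pow_two, hψ.mul, hψ.mul]
      ring
    rw [this]
  par h := by
    have e1 : ψ (-h) = ψ (-1) * ψ h := by rw [← hψ.mul]; congr 1; ring
    have e2 : U0 (-h) = U0 h := by
      unfold U0
      rw [neg_neg, nm_neg, add_comm]
    rw [e1, e2]; ring
  supp h h0 hne := by
    have h1 : U0 h ≠ 0 := fun h' => hne (by rw [h']; simp)
    by_contra hc
    push Not at hc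
    exact h1 (U_ncube h0 (fun ⟨e, he⟩ => (hc e).1 (by rw [one_mul]; exact he))).1

theorem pair0 (T : TwD m ψ) (hx : IsCoprime x m) {f : ℂ → ℂ}
    (hf : DatN 3 (ψ (-1)) (xi3 ψ) f) (k : 𝓢(ℂ, ℂ)) :
    PairW (ψ (-1)) (fun h => wc m x ψ * (ψ h * U0 h))
      (fun h => wc m x (fun z => conj (ψ z)) * (conj (ψ h) * U0 h))
      (FPn 3 (xi3 ψ) f k) (FOn 3 (xi3 ψ) (1 / 2) (toC 1) (wc m x ψ) f k) := by
  have h2 : BaseW 3 1 (ψ (-1)) (wc m x (fun z => conj (ψ z))) (fun j => conj (xi3 ψ j))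
      (fun h => wc m x (fun z => conj (ψ z)) * (conj (ψ h) * U0 h)) := by
    have := baseW_tw T.ch.conj (wc m x (fun z => conj (ψ z)))
    rw [xi3_conj, conj_neg_one T.ch] at this
    exact this
  exact pair_base (n := 3) (by norm_num) (dvd_refl 3) one_ne_zero (s_cases T.ch)
    (baseW_tw T.ch _) h2 (bdd_cm (bdd_psi T.m0 T.ch bdd_U.1) _)
    (bdd_cm (bdd_psi T.m0 T.ch.conj bdd_U.1) _) (V := 1 / 2) (by norm_num)
    (by push_cast; ring) (by push_cast; ring)
    (Xn960.pairThmN 3 _ _ _ _ _ _ _ _ (xiP3 T) (xnC_tw T hx) f k hf)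

/-! ### the glue -/

theorem glue_tw (T : TwD m ψ) (hx : IsCoprime x m) {f : ℂ → ℂ}
    (hf : DatN 3 (ψ (-1)) (xi3 ψ) f) (k : 𝓢(ℂ, ℂ)) (j0 : Fin 4) {M : K695.Frm}
    (hM : det2 M ≠ 0) :
    EC (A4 m x ψ j0) (Fl (ψ (lam ^ 3)) (FPn 3 (xi3 ψ) f k)) M =
      ∑ i, EC (A4 m x (fun z => conj (ψ z)) i) (scl (det2 M) (Fr (ψ (lam ^ 3)) j0
        (FOn 3 (xi3 ψ) (1 / 2) (toC 1) (wc m x ψ) f k) i)) M := by
  classical
  have h30 : (3 : Eis) ≠ 0 := by decide
  have hN : (3 * m : Eis) ≠ 0 := mul_ne_zero h30 T.m0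
  refine glueV hN (χ := chiM m) norm_chiM (s := ψ (-1)) (Rg := RG m)
    (W := fun k h => (tc m x ψ / 2) * (ψ h * (if k = j0 then Us h else Ud h)))
    (W' := fun k n h => (tc m x (fun z => conj (ψ z)) / 2) *
      (conj (ψ h) * (if n = k then Us h else Ud h)))
    (m₀ := j0) (am := fun n => A4 m x ψ n) rfl (cof_A4 T.m0 T.ch j0)
    (fun k => cof_A4 T.m0 T.ch.conj k) (fun g h => rg_of_ne T.ch h)
    (fun k g h => rg_of_ne T.ch.conj h) (lawV_A4 T j0) ?_ (fun g hg => unit_A4 hg j0)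
    (fun k g hg => unit_A4 hg k) ?_ hM
  · intro k
    have h := lawV_A4 (x := x) T.conj k
    simp only [conj_neg_one T.ch, Complex.conj_conj] at h
    exact h
  · have hp := pairV_tw T.m0 T.lm T.ch (pair0 T hx hf k) j0
    have e1 : (fun k h => (covol (toC (3 * m)) : ℂ)⁻¹ *
        ((tc m x ψ / 2) * (ψ h * (if k = j0 then Us h else Ud h)))) =
        fun k h => Wk (wc m x ψ) ψ j0 k h := by
      funext k h
      unfold Wk wc
      ring
    have e2 : (fun k n h => (covol (toC (3 * m)) : ℂ)⁻¹ *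
        ((tc m x (fun z => conj (ψ z)) / 2) * (conj (ψ h) * (if n = k then Us h else Ud h)))) =
        fun (k n : Fin 4) h => Wk (wc m x (fun z => conj (ψ z))) (fun z => conj (ψ z)) n k h := by
      funext k n h
      unfold Wk wc
      simp only [eq_comm (a := n) (b := k)]
      ring
    rw [e1, e2]
    exact hp

end Crest.Agent.R017.Tw3
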