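import Crest.Agent.R017.Tw3E_541
import Crest.Agent.R017.Coef2_92
import Crest.Agent.R017.Glue3_681
import Crest.Agent.R017.F1Cln_180

/-!
# Row 17, twisted cubic F1 (helper541), part F: the coefficient identity
-/

set_option autoImplicit false

noncomputable section

open Complex MeasureTheory Set
open scoped ComplexConjugate SchwartzMap

namespace Crest.Agent.R017.Tw3

open Crest.Agent.R012 Crest.Agent.R012.Eis Crest.Agent.R012.Gauss880 Crest.Agent.R012.Mob705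
open Crest.Agent.R012.Sym645 (prim_nm_mod)
open Crest.Agent.R012.K695 (det2 n2 Vec EC rowv)
open Crest.Agent.R012.Parseval499 (par covol frq s3 covol_pos toC_s3_ne)
open Crest.Agent.R017.Orth681 Crest.Agent.R017.F1 Crest.Agent.R017.Loc266
open Crest.Agent.R017.Xn590 Crest.Agent.R017.GlueV266
open Crest.Agent.R017.Rw266 (ivN ivN_spec ivN_congr)
open Crest.Agent.R017.Glue681 (SA PairW BaseW pair_base UnitOne opW)

open Crest.Agent.R017.Glue681 (CS_of_DatN FPn_add FPn_smul dil_FPn FOn_add FOn_smul dil_FOn)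
open Crest.Agent.R017.Xi590 (CS)
open Crest.Agent.R012.Four813 (phat)

variable {m x : Eis} {ψ : Eis → ℂ}

/-! ### the functions -/

def bb : ℂ := toC (lam ^ 3)

lemma bb_ne : bb ≠ 0 := toC_ne_zero (pow_ne_zero 3 lam_ne_zero)

/-- the left function -/
def flf (y : ℂ) (f : ℂ → ℂ) (x : ℂ) : ℂ :=
  f x + (-(y / 3)) * (((‖bb‖ ^ 2 : ℝ) : ℂ) * f (bb * x))

/-- the right functions -/
def frf (y : ℂ) (j0 k : Fin 4) (f : ℂ → ℂ) (x : ℂ) : ℂ :=
  kc1 j0 k * f x + kc2 y j0 k * (((‖bb‖ ^ 2 : ℝ) : ℂ) * f (bb * x))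

variable {s : ℂ} {ξ : Eis → ℂ} {f : ℂ → ℂ}

lemma datN_flf (hf : DatN 3 s ξ f) (y : ℂ) : DatN 3 s ξ (flf y f) :=
  Glue681.DatN.add (by norm_num) hf (Glue681.DatN.smul (Glue681.DatN.smul (Glue681.DatN.dil (by norm_num) hf bb_ne) _) _)

lemma datN_frf (hf : DatN 3 s ξ f) (y : ℂ) (j0 k : Fin 4) : DatN 3 s ξ (frf y j0 k f) :=
  Glue681.DatN.add (by norm_num) (Glue681.DatN.smul hf _)
    (Glue681.DatN.smul (Glue681.DatN.smul (Glue681.DatN.dil (by norm_num) hf bb_ne) _) _)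

lemma Fl_FPn (hf : DatN 3 s ξ f) (y : ℂ) (k : ℂ → ℂ) :
    Fl y (FPn 3 ξ f k) = FPn 3 ξ (flf y f) k := by
  funext z
  have h1 : CS f := CS_of_DatN hf
  have h2 : CS (fun x => (-(y / 3)) * (((‖bb‖ ^ 2 : ℝ) : ℂ) * f (bb * x))) :=
    CS_of_DatN (Glue681.DatN.smul (Glue681.DatN.smul (Glue681.DatN.dil (n := 3) (by norm_num) hf bb_ne) _) _)
  unfold Fl flf
  rw [FPn_add (by norm_num) h1 h2, FPn_smul, FPn_smul]
  have := dil_FPn (n := 3) (ξ := ξ) bb_ne f k z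
  unfold bb at this ⊢
  rw [this]

lemma Fr_FOn {κ c₁ : ℂ} {V : ℝ} {h0 B B' : ℂ} (X : XiP ξ κ c₁) (C : XnC 3 s κ V h0 B B')
    (hf : DatN 3 s ξ f) (y : ℂ) (j0 i : Fin 4) (k : 𝓢(ℂ, ℂ)) :
    Fr y j0 (FOn 3 ξ V h0 B f k) i = FOn 3 ξ V h0 B (frf y j0 i f) k := by
  funext z
  unfold Fr frf
  rw [FOn_add X C (Glue681.DatN.smul hf _)
    (Glue681.DatN.smul (Glue681.DatN.smul (Glue681.DatN.dil (n := 3) (by norm_num) hf bb_ne) _) _), FOn_smul, FOn_smul,
    FOn_smul]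
  have := dil_FOn (n := 3) (ξ := ξ) (V := V) (h0 := h0) (B := B) bb_ne f k z
  unfold bb at this ⊢
  rw [this]

/-! ### the coefficient identity -/

lemma per_A4 (hm : m ≠ 0) (hψ : IsCh m ψ) (j : Fin 4) (c : Eis) :
    PMod (3 * m * c) (fun d => A4 m x ψ j (c, d)) := by
  intro d t
  unfold A4
  simp only
  have h1 := pmod_a4 j c d (m * t)
  simp only at h1
  have e : d + 3 * m * c * t = d + 3 * c * (m * t) := by ring
  have h2 : rb m x ψ (c, d + 3 * m * c * t) = rb m x ψ (c, d) :=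
    rb_congr hm hψ (by simp) ⟨3 * c * t, by simp only; ring⟩
  rw [h2, e, h1]

lemma scl_one (F : Vec → ℂ) : scl 1 F = F := by
  funext u
  unfold F1.scl
  simp

theorem coef_tw (T : TwD m ψ) (hx : IsCoprime x m) {f : ℂ → ℂ}
    (hf : DatN 3 (ψ (-1)) (xi3 ψ) f) (j0 : Fin 4) {ν : Eis} (hν : ν ≠ 0) :
    Coef92.LS 3 (xi3 ψ) (flf (ψ (lam ^ 3)) f) (A4 m x ψ j0) (3 * m) ν =
      ∑ i, Coef92.RS 3 (xi3 ψ) (1 / 2) (toC 1) (wc m x ψ) (frf (ψ (lam ^ 3)) j0 i f)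
        (A4 m x (fun z => conj (ψ z)) i) (3 * m) ν := by
  classical
  have h30 : (3 : Eis) ≠ 0 := by decide
  have hN : (3 * m : Eis) ≠ 0 := mul_ne_zero h30 T.m0
  have X := xiP3 T
  have C := xnC_tw T hx
  obtain ⟨k, hk⟩ := Coef92.exists_phat_ne (frq (toC (3 * m)) ν)
  have hL := datN_flf hf (ψ (lam ^ 3))
  have hR := fun i => datN_frf hf (ψ (lam ^ 3)) j0 i
  have PL0 := Xn960.pairThmN 3 _ _ _ _ _ _ _ _ X C _ k hL
  have PR0 := fun i => Xn960.pairThmN 3 _ _ _ _ _ _ _ _ X C _ k (hR i)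
  obtain ⟨K, hK⟩ := (cof_A4 (x := x) T.m0 T.ch j0).bdd
  have hK' := fun i => (cof_A4 (x := x) T.m0 T.ch.conj i).bdd
  choose K' hK' using hK'
  have h1 := Coef92.coef_FP (k := k) (a := A4 m x ψ j0) PL0.tst hK hN
    (fun c _ => per_A4 T.m0 T.ch j0 c) hν
  have h2 := fun i => Coef92.coef_FO (k := k) (a := A4 m x (fun z => conj (ψ z)) i) coefThmN X C
    (hR i) (PR0 i).tst' (hK' i) hN (fun c _ => per_A4 T.m0 T.ch.conj i c) hν
  have h3 : ∫ z in par (toC (3 * m)), EC (A4 m x ψ j0)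
        (FPn 3 (xi3 ψ) (flf (ψ (lam ^ 3)) f) k) (Coef92.stF z) *
          eC (-(frq (toC (3 * m)) ν * z)) =
      ∫ z in par (toC (3 * m)), ∑ i, EC (A4 m x (fun z => conj (ψ z)) i)
        (FOn 3 (xi3 ψ) (1 / 2) (toC 1) (wc m x ψ) (frf (ψ (lam ^ 3)) j0 i f) k) (Coef92.stF z) *
          eC (-(frq (toC (3 * m)) ν * z)) := by
    refine integral_congr_ae (Filter.Eventually.of_forall fun z => ?_)
    simp only
    have hg := glue_tw T hx hf k j0 (M := Coef92.stF z) (by rw [Coef92.det2_stF]; exact one_ne_zero)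
    rw [Fl_FPn hf, Coef92.det2_stF] at hg
    simp only [scl_one, Fr_FOn X C hf] at hg
    rw [hg, Finset.sum_mul]
  rw [h1, integral_finsetSum] at h3
  · simp only [h2] at h3
    rw [← Finset.sum_mul] at h3
    exact mul_right_cancel₀ hk h3
  · intro i _
    have hi := integrable_line hN (cof_A4 (x := x) T.m0 T.ch.conj i).bdd
      (Glue681.tfd_const (PR0 i).tst') 1 (M := (((1, 0), (0, 1)) : K695.Frm)) (by unfold K695.det2; simp)
    have e1 : (fun z : ℂ => ED (A4 m x (fun z => conj (ψ z)) i) (fun _ u => FOn 3 (xi3 ψ) (1 / 2)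
        (toC 1) (wc m x ψ) (frf (ψ (lam ^ 3)) j0 i f) k u)
        ((1 : SLE)⁻¹ • ((((1, 0) : Vec) + z • ((0, 1) : Vec), ((0, 1) : Vec)) : K695.Frm))) =
        fun z : ℂ => EC (A4 m x (fun z => conj (ψ z)) i) (FOn 3 (xi3 ψ) (1 / 2)
        (toC 1) (wc m x ψ) (frf (ψ (lam ^ 3)) j0 i f) k) (Coef92.stF z) := by
      funext z
      rw [inv_one, one_smul]
      unfold ED Coef92.stF
      congr 1
      ext <;> simp
    rw [e1] at hi
    refine hi.mul_bdd (c := 1) ?_ ?_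
    · exact (Parseval499.continuous_eC.comp (by fun_prop)).aestronglyMeasurable
    · exact Filter.Eventually.of_forall fun z => (Parseval499.norm_eC _).le

end Crest.Agent.R017.Tw3
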