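import Crest.Agent.R017.Tw3F_541

/-!
# Row 17, twisted cubic F1 (helper541), part O: the odd parity `s = -ψ(-1)`

The dual character is `ξ = ψ³ χ_λ` with `χ_λ` the quadratic character modulo `λ`; the 4×4 law is a
skew conference matrix.
-/

set_option autoImplicit false

noncomputable section

open Complex MeasureTheory Set
open scoped ComplexConjugate SchwartzMap

namespace Crest.Agent.R017.Tw3

open Crest.Agent.R012 Crest.Agent.R012.Eis Crest.Agent.R012.Gauss880 Crest.Agent.R012.Mob705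
open Crest.Agent.R012.Sym645 (prim_nm_mod)
open Crest.Agent.R012.K695 (det2 n2 Vec EC rowv)
open Crest.Agent.R012.Parseval499 (par covol frq s3 covol_pos toC_s3_ne)
open Crest.Agent.R017.Orth681 Crest.Agent.R017.F1 Crest.Agent.R017.Loc266
open Crest.Agent.R017.Xn590 Crest.Agent.R017.GlueV266
open Crest.Agent.R017.Rw266 (ivN ivN_spec ivN_congr cop_congr)
open Crest.Agent.R017.Glue681 (PairW BaseW pair_base opW adm_tst opW_smulW opW_smulF scl_smul
  tst_smul Bdd CS_of_DatN FPn_add FPn_smul dil_FPn FOn_add FOn_smul dil_FOn)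

variable {m x : Eis} {ψ : Eis → ℂ}

lemma crt_pm {p m : Eis} (h : IsCoprime p m) (x y : Eis) : ∃ u, p ∣ u - x ∧ m ∣ u - y := by
  obtain ⟨a, b, hab⟩ := h
  refine ⟨x * (b * m) + y * (a * p), ⟨a * (y - x), ?_⟩, ⟨b * (x - y), ?_⟩⟩
  · linear_combination x * hab
  · linear_combination y * hab

lemma cop_of_congr {p u x : Eis} (h : p ∣ u - x) (hx : IsCoprime x p) : IsCoprime u p :=
  (cop_congr h).mpr hx

/-! ### the skew matrix -/

def e4 (i j : Fin 4) : ℂ :=
  ![![0, 1, 1, 1], ![-1, 0, -1, 1], ![-1, 1, 0, -1], ![-1, -1, 1, 0]] i j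

def f4 (i j : Fin 4) : Eis :=
  ![![0, 1, 1, 1], ![-1, 0, -1, 1], ![-1, 1, 0, -1], ![-1, -1, 1, 0]] i j

lemma e4_self (i : Fin 4) : e4 i i = 0 := by fin_cases i <;> rfl

lemma e4_cases {i j : Fin 4} (hij : i ≠ j) :
    (e4 i j = 1 ∧ f4 i j = 1) ∨ (e4 i j = -1 ∧ f4 i j = -1) := by
  fin_cases i <;> fin_cases j <;> first
    | exact absurd rfl hij
    | exact Or.inl ⟨rfl, rfl⟩
    | exact Or.inr ⟨rfl, rfl⟩

lemma f4_diff {i j : Fin 4} (hi : i ≠ 0) (hj : j ≠ 0) (hij : i ≠ j) :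
    (3 : Eis) ∣ (t4 i - t4 j) - f4 i j := by
  fin_cases i <;> fin_cases j <;> first
    | exact absurd rfl hi
    | exact absurd rfl hj
    | exact absurd rfl hij
    | skip
  · exact ⟨0, by simp [t4, f4]⟩
  · exact ⟨0, by simp [t4, f4]⟩
  · exact ⟨0, by simp [t4, f4]⟩
  · exact ⟨1, by simp only [t4, f4]; simp; ring⟩
  · exact ⟨0, by simp [t4, f4]⟩
  · exact ⟨-1, by simp only [t4, f4]; simp; ring⟩

lemma e4_sq (n j0 : Fin 4) : ∑ k, e4 n k * e4 k j0 = if n = j0 then -3 else 0 := by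
  fin_cases n <;> fin_cases j0 <;> simp [Fin.sum_univ_four, e4] <;> norm_num

lemma V4_val {i j : Fin 4} (hij : i ≠ j) {h : Eis} (h0 : h ≠ 0) :
    V4 i j h = AP (f4 i j * h) := by
  unfold V4 al4
  by_cases hi : i = 0
  · subst hi
    have hj : j ≠ 0 := hij.symm
    have e : f4 0 j = 1 := by fin_cases j <;> first | exact absurd rfl hj | rfl
    rw [e, one_mul, mul_comm, ← sum_aF (inL3 (t4_cases j)) h0]
    refine sumMod_congr fun y => ?_
    have : g4 0 = 1 := rfl
    rw [this, rmulS_one, a4_pos hj]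
  · by_cases hj : j = 0
    · subst hj
      have e : f4 i 0 = -1 := by fin_cases i <;> first | exact absurd rfl hi | rfl
      rw [e, neg_one_mul, mul_comm]
      unfold AP
      rw [← sum_neg_arg h0 (pmod_aF 0 (-h))]
      refine sumMod_congr fun y => ?_
      rw [g4_pos hi, rmulS_gt]
      exact pt_inf (t4_cases i) h y
    · have h3 := f4_diff hi hj hij
      have he : f4 i j = 1 ∨ f4 i j = -1 := by
        rcases e4_cases hij with h | h
        · exact Or.inl h.2
        · exact Or.inr h.2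
      have hpt : ∀ h y, a4 j (rmulS (h, y) (g4 i)) = aF 1 (f4 i j * h, y) := by
        intro h y
        rw [g4_pos hi, a4_pos hj, rmulS_gt]
        exact pt_ne (inL3 (t4_cases j)) h3 he h y
      rcases he with he | he
      · rw [he, one_mul, mul_comm, ← sum_aF (t := 1) (by simp [inL]) h0]
        refine sumMod_congr fun y => ?_
        rw [hpt, he, one_mul]
      · rw [he, neg_one_mul, mul_comm, ← sum_aF (t := 1) (by simp [inL]) (neg_ne_zero.mpr h0),
          ← sum_neg_arg h0 (pmod_aF 1 (-h))]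
        refine sumMod_congr fun y => ?_
        rw [hpt, he, neg_one_mul]

/-! ### the odd weight -/

def Uo (h : Eis) : ℂ := (AP h - AP (-h)) / nm h

lemma V4_asym {i j : Fin 4} {h : Eis} (h0 : h ≠ 0) :
    V4 i j h - V4 i j (-h) = e4 i j * (Uo h * nm h) := by
  have h0' := neg_ne_zero.mpr h0
  have hn := nmC_ne h0
  have e : Uo h * nm h = AP h - AP (-h) := by unfold Uo; field_simp
  rw [e]
  by_cases hij : i = j
  · subst hij
    rw [e4_self, zero_mul]
    unfold V4 al4
    rw [sumW_same, sumW_same]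
    by_cases h3 : (3 : Eis) ∣ h
    · by_cases hc : ∃ e, h = e ^ 3
      · obtain ⟨n, rfl⟩ := hc
        have hn0 : n ≠ 0 := by rintro rfl; exact h0 (by simp)
        have hl : lam ∣ n := by
          by_contra hl
          exact not_three_dvd_cube hl h3
        have e' : -(n ^ 3) = (-n) ^ 3 := by ring
        rw [AA_cube hn0 hl, e', AA_cube (neg_ne_zero.mpr hn0) ((dvd_neg).mpr hl), PE_neg hn0,
          ← e', nm_neg, sub_self]
      · rw [AA_eq h3, AA_eq ((dvd_neg).mpr h3), Ac_not_cube h0 hc,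
          Ac_not_cube h0' (not_cube_neg hc), sub_self]
    · rw [AA_zero h0 h3, AA_zero h0' (fun h => h3 ((dvd_neg).mp h)), sub_self]
  · rw [V4_val hij h0, V4_val hij h0']
    rcases e4_cases hij with ⟨h1, h2⟩ | ⟨h1, h2⟩
    · rw [h1, h2, one_mul, one_mul, one_mul]
    · rw [h1, h2, neg_one_mul, neg_one_mul, neg_neg]; ring

/-! ### the quadratic character modulo `λ` -/

def c3 (a : ZMod 3) : ℤ := if a = 0 then 0 else if a = 1 then 1 else -1

lemma c3_mul : ∀ a b : ZMod 3, c3 (a * b) = c3 a * c3 b := by decide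
lemma c3_cube : ∀ a : ZMod 3, c3 (a ^ 3) = c3 a := by decide
lemma c3_neg : ∀ a : ZMod 3, c3 (-a) = -c3 a := by decide
lemma c3_abs : ∀ a : ZMod 3, c3 a = 0 ∨ c3 a = 1 ∨ c3 a = -1 := by decide

def chL (z : Eis) : ℂ := (c3 (resL z) : ℂ)

lemma resL_lam : resL lam = 0 := by
  rw [resL_apply]; decide

lemma chL_mul (a b : Eis) : chL (a * b) = chL a * chL b := by
  unfold chL; rw [map_mul, c3_mul]; push_cast; rfl

lemma chL_one : chL 1 = 1 := by
  unfold chL; rw [map_one]; simp [c3]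

lemma chL_cube (z : Eis) : chL (z ^ 3) = chL z := by
  unfold chL; rw [map_pow, c3_cube]

lemma chL_neg (z : Eis) : chL (-z) = -chL z := by
  unfold chL; rw [map_neg, c3_neg]; push_cast; rfl

lemma chL_congr {a b : Eis} (h : lam ∣ a - b) : chL a = chL b := by
  obtain ⟨t, ht⟩ := h
  have : a = b + lam * t := by linear_combination ht
  unfold chL
  rw [this, map_add, map_mul, resL_lam, zero_mul, add_zero]

lemma chL_zero {z : Eis} (h : lam ∣ z) : chL z = 0 := by
  obtain ⟨t, rfl⟩ := h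
  unfold chL
  rw [map_mul, resL_lam, zero_mul]
  simp [c3]

lemma chL_prim {z : Eis} (h : IsPrim z) : chL z = 1 := by
  have h3 : lam ∣ (3 : Eis) := by
    rw [lam_dvd_iff]; decide
  rw [chL_congr (b := 1) (h3.trans h), chL_one]

lemma conj_chL (z : Eis) : conj (chL z) = chL z := by
  unfold chL; exact map_intCast _ _

lemma Uo_cube {n : Eis} (hn : n ≠ 0) : Uo (n ^ 3) = chL n * (PL n : ℂ) := by
  unfold Uo
  have h1 := nmC_ne (pow_ne_zero 3 hn)
  by_cases hl : lam ∣ n
  · have h3 := three_dvd_cube hl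
    rw [AP_zero (pow_ne_zero 3 hn) (fun h => F1.not_three_prim h h3),
      AP_zero (neg_ne_zero.mpr (pow_ne_zero 3 hn))
        (fun h => F1.not_three_prim h ((dvd_neg).mpr h3)), chL_zero hl]
    simp
  · have hP : F1.PL n = PE n := by unfold F1.PL; rw [if_neg hl, one_mul]
    rw [hP]
    rcases F1.prim_or_neg hl with hp | hp
    · rw [AP_cube hl hp, AP_zero (neg_ne_zero.mpr (pow_ne_zero 3 hn)) (F1.not_prim_neg hp),
        ← chL_cube, chL_prim hp]
      push_cast
      field_simp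
      ring
    · have hl' : ¬ lam ∣ -n := fun h => hl ((dvd_neg).mp h)
      have e : -(n ^ 3) = (-n) ^ 3 := by ring
      have hz : AP (n ^ 3) = 0 := AP_zero (pow_ne_zero 3 hn) (by
        have := F1.not_prim_neg hp
        rwa [neg_neg] at this)
      have hc : chL n = -1 := by
        have h2 := chL_prim hp
        rw [chL_neg, chL_cube] at h2
        linear_combination -h2
      rw [hz, hc, zero_sub, e, AP_cube hl' (by rw [← e]; exact hp), PE_neg hn, ← e, nm_neg]
      push_cast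
      field_simp

lemma Uo_ncube {h : Eis} (h0 : h ≠ 0) (hn : ¬ ∃ e, h = e ^ 3) : Uo h = 0 := by
  have hP : ∀ z : Eis, z ≠ 0 → Ac z = 0 → AP z = 0 := by
    intro z hz hAc
    by_cases hp : IsPrim z
    · rw [AP_prim hp, hAc, mul_zero]
    · exact AP_zero hz hp
  unfold Uo
  rw [hP h h0 (Ac_not_cube h0 hn), hP (-h) (neg_ne_zero.mpr h0)
    (Ac_not_cube (neg_ne_zero.mpr h0) (not_cube_neg hn))]
  simp

lemma norm_chL_le (z : Eis) : ‖chL z‖ ≤ 1 := by
  unfold chL
  rcases c3_abs (resL z) with h | h | h <;> rw [h] <;> simp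

lemma bdd_Uo : Bdd Uo := by
  refine ⟨1, fun h => ?_⟩
  by_cases h0 : h = 0
  · subst h0; simp [Uo]
  by_cases hn : ∃ e, h = e ^ 3
  · obtain ⟨n, rfl⟩ := hn
    have hn0 : n ≠ 0 := by rintro rfl; exact h0 (by simp)
    rw [Uo_cube hn0, norm_mul, Complex.norm_real, Real.norm_eq_abs, abs_of_nonneg (PL_nonneg n)]
    calc ‖chL n‖ * PL n ≤ 1 * 1 := mul_le_mul (norm_chL_le n) (PL_le_one n) (PL_nonneg n) zero_le_one
      _ = 1 := one_mul 1
  · rw [Uo_ncube h0 hn]; norm_num

/-! ### the character `ξ = ψ³ χ_λ` -/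

def xo (ψ : Eis → ℂ) (z : Eis) : ℂ := ψ z ^ 3 * chL z

lemma xo_conj (ψ : Eis → ℂ) : xo (fun z => conj (ψ z)) = fun z => conj (xo ψ z) := by
  funext z; unfold xo; rw [map_mul, map_pow, conj_chL]

lemma isCh_xo (hψ : IsCh m ψ) : IsCh (m * lam) (xo ψ) where
  one := by unfold xo; rw [hψ.one, one_pow, chL_one, one_mul]
  mul a b := by unfold xo; rw [hψ.mul, mul_pow, chL_mul]; ring
  per a t := by
    unfold xo
    rw [show a + m * lam * t = a + m * (lam * t) by ring, hψ.per,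
      chL_congr (a := a + m * (lam * t)) (b := a) ⟨m * t, by ring⟩]
  zero a h := by
    unfold xo
    by_cases hm : IsCoprime a m
    · have hl : ¬ IsCoprime a lam := fun hl => h (hm.mul_right hl)
      have : lam ∣ a := by
        by_contra hd
        exact hl ((prime_lam.irreducible.coprime_iff_not_dvd.mpr hd).symm)
      rw [chL_zero this, mul_zero]
    · rw [hψ.zero a hm]; simp

lemma prm_xo (T : TwD m ψ) : Prm (m * lam) (xo ψ) := by
  have hcl : IsCoprime m lam := (prime_lam.irreducible.coprime_iff_not_dvd.mpr T.lm).symm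
  refine prm_of_prp (mul_ne_zero T.m0 lam_ne_zero) fun p hp hd => ?_
  rcases hp.dvd_or_dvd hd with h | h
  · obtain ⟨u, hu, hd', h1⟩ := T.p3 p hp h
    obtain ⟨v, hv1, hv2⟩ := crt_pm hcl u 1
    have hvm : IsCoprime v m := cop_of_congr hv1 hu
    have hvl : IsCoprime v lam := cop_of_congr hv2 isCoprime_one_left
    refine ⟨v, hvm.mul_right hvl, ?_, ?_⟩
    · refine hcl.mul_dvd ?_ (hv2.mul_right p)
      have : (v - 1) * p = (v - u) * p + (u - 1) * p := by ring
      rw [this]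
      exact dvd_add (hv1.mul_right p) hd'
    · unfold xo
      rw [chL_congr hv2, chL_one, mul_one, T.ch.per.congr hv1]
      exact h1
  · obtain ⟨v, hv1, hv2⟩ := crt_pm hcl 1 (-1)
    have hvm : IsCoprime v m := cop_of_congr hv1 isCoprime_one_left
    have hvl : IsCoprime v lam := cop_of_congr hv2 isCoprime_one_left.neg_left
    have hlp : lam ∣ p := ((hp.associated_of_dvd prime_lam h).symm).dvd
    refine ⟨v, hvm.mul_right hvl, ?_, ?_⟩
    · exact hcl.mul_dvd (hv1.mul_right p) (hlp.mul_left _)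
    · unfold xo
      rw [chL_congr hv2, chL_neg, chL_one, T.ch.per.congr hv1, T.ch.one]
      norm_num

/-- Poisson summation for a primitive character, as `XiP` -/
theorem xiP_of {M : Eis} (hM : M ≠ 0) {ξ : Eis → ℂ} (h : IsCh M ξ) (hp : Prm M ξ) :
    XiP ξ (toC sq3 * toC M) (((2 / (Real.sqrt 3 * nm M) : ℝ) : ℂ) * gl ξ 1 M) where
  mul := h.mul
  le1 := h.norm_le_one hM
  κ0 := mul_ne_zero (toC_ne_zero sq3_ne_zero) (toC_ne_zero hM)
  c0 := by
    have hm : nm M ≠ 0 := (nm_pos.mpr hM).ne'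
    have hτ : gl ξ 1 M ≠ 0 := by
      intro h0
      have := norm_gl_sq hM h hp
      rw [h0] at this
      simp at this
      exact hm (by exact_mod_cast this.symm)
    refine mul_ne_zero ?_ hτ
    have h3 : Real.sqrt 3 ≠ 0 := by positivity
    have h4 : (nm M : ℝ) ≠ 0 := by exact_mod_cast hm
    exact_mod_cast div_ne_zero two_ne_zero (mul_ne_zero h3 h4)
  pois F := by
    have h1 := Tau671.poisson_pf (f := F) (Tau671.PF.of_schwartz F) hM h.per
    rw [h1, mul_assoc, ← tsum_mul_left (a := gl ξ 1 M)]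
    congr 1
    refine tsum_congr fun k => ?_
    have e : sumMod M (fun a => ξ a * eC (toC k * toC a / (toC sq3 * toC M))) =
        conj (ξ k) * gl ξ 1 M := gl_prim hM h hp k
    rw [e]; ring

lemma nm_lam : nm lam = 3 := by decide

theorem xnC_odd (T : TwD m ψ) (hx : IsCoprime x m) :
    XnC 3 (-ψ (-1)) (toC sq3 * toC (m * lam)) (1 / 2) (toC 1) (wc m x ψ / 3)
      (-wc m x (fun z => conj (ψ z))) where
  n2 := by norm_num
  s1 := by
    rcases s_cases T.ch with h | h
    · right; rw [h]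
    · left; rw [h, neg_neg]
  V0 := by norm_num
  h0 := toC_ne_zero one_ne_zero
  cst := by
    rw [norm_kap, nm_mul, nm_lam]
    have h := wc_mul T hx
    push_cast
    linear_combination (-(1 / 4 : ℂ)) * h

theorem baseW_odd (hψ : IsCh m ψ) (w : ℂ) :
    BaseW 3 1 (-ψ (-1)) w (xo ψ) (fun h => w * (ψ h * Uo h)) where
  pow j hj := by
    rw [one_mul, Uo_cube hj]
    have : ψ (j ^ 3) = ψ j ^ 3 := by
      rw [pow_succ, pow_two, hψ.mul, hψ.mul]
      ring
    rw [this]
    unfold xo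
    ring
  par h := by
    have e1 : ψ (-h) = ψ (-1) * ψ h := by rw [← hψ.mul]; congr 1; ring
    have e2 : Uo (-h) = -Uo h := by
      unfold Uo
      rw [neg_neg, nm_neg]
      ring
    rw [e1, e2]; ring
  supp h h0 hne := by
    have h1 : Uo h ≠ 0 := fun h' => hne (by rw [h']; simp)
    by_contra hc
    push Not at hc
    exact h1 (Uo_ncube h0 (fun ⟨e, he⟩ => (hc e).1 (by rw [one_mul]; exact he)))

theorem pair0o (T : TwD m ψ) (hx : IsCoprime x m) {f : ℂ → ℂ}
    (hf : DatN 3 (-ψ (-1)) (xo ψ) f) (k : 𝓢(ℂ, ℂ)) :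
    PairW (-ψ (-1)) (fun h => wc m x ψ / 3 * (ψ h * Uo h))
      (fun h => -wc m x (fun z => conj (ψ z)) * (conj (ψ h) * Uo h))
      (FPn 3 (xo ψ) f k) (FOn 3 (xo ψ) (1 / 2) (toC 1) (wc m x ψ / 3) f k) := by
  have h2 : BaseW 3 1 (-ψ (-1)) (-wc m x (fun z => conj (ψ z))) (fun j => conj (xo ψ j))
      (fun h => -wc m x (fun z => conj (ψ z)) * (conj (ψ h) * Uo h)) := by
    have := baseW_odd T.ch.conj (-wc m x (fun z => conj (ψ z)))
    rw [xo_conj, conj_neg_one T.ch] at this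
    exact this
  exact pair_base (n := 3) (by norm_num) (dvd_refl 3) one_ne_zero (xnC_odd T hx).s1
    (baseW_odd T.ch _) h2 (bdd_cm (bdd_psi T.m0 T.ch bdd_Uo) _)
    (bdd_cm (bdd_psi T.m0 T.ch.conj bdd_Uo) _) (V := 1 / 2) (by norm_num)
    (by push_cast; ring) (by push_cast; ring)
    (Xn960.pairThmN 3 _ _ _ _ _ _ _ _ (xiP_of (mul_ne_zero T.m0 lam_ne_zero) (isCh_xo T.ch)
      (prm_xo T)) (xnC_odd T hx) f k hf)

/-! ### law, vector pair, glue -/

theorem lawV_A4o (T : TwD m ψ) (j0 : Fin 4) :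
    LawV (3 * m) (RG m) (-ψ (-1))
      (fun k h => (tc m x ψ / 2) * (ψ h * (e4 k j0 * Uo h)))
      (A4 m x ψ j0) (fun k => A4 m x (fun z => conj (ψ z)) k) := by
  classical
  intro g hg h h0
  obtain ⟨⟨i, hi⟩, hc⟩ := hg
  have h0' := neg_ne_zero.mpr h0
  have hss := psi_neg_sq T.ch
  rw [law_A4 T hi hc h0, law_A4 T hi hc h0', Finset.sum_eq_single i]
  · have e1 : ψ (-h) = ψ (-1) * ψ h := by rw [← T.ch.mul]; congr 1; ring
    have e2 := V4_asym (i := i) (j := j0) h0
    rw [e1]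
    simp only
    unfold tc
    set R := A4 m x (fun z => conj (ψ z)) i (br g)
    set τ := gl (fun z => conj (ψ z)) 1 m
    linear_combination (ψ (-x) * τ * ψ h * R) * e2 -
      (V4 i j0 (-h) * ψ (-x) * ψ h * τ * R) * hss
  · intro k _ hk
    simp only
    have : A4 m x (fun z => conj (ψ z)) k (br g) = 0 := by
      unfold A4
      rw [a4_disj hi hk, zero_mul]
    rw [this, mul_zero]
  · intro h; exact absurd (Finset.mem_univ _) h

theorem pairV_odd {s : ℂ} {W0 W0' : Eis → ℂ} {F0 F0' : Vec → ℂ}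
    (hp : PairW s W0 W0' F0 F0') (j0 : Fin 4) :
    PairV s j0 (fun k h => e4 k j0 * W0 h) (fun k n h => (e4 n k * (-(1 / 3))) * W0' h)
      F0 (fun k u => e4 k j0 * F0' u) := by
  refine ⟨fun k => bdd_cm hp.bW _, fun k n => bdd_cm hp.bW' _, hp.tst,
    fun k => tst_smul _ hp.tst', ?_, ?_⟩
  · intro k M hM
    rw [opW_smulW, hp.m1 M hM, Glue681.scl_smul]
  · intro n M hM
    have e1 : ∀ k, opW (fun h => (e4 n k * (-(1 / 3))) * W0' h)
        (scl (det2 M) (fun u => e4 k j0 * F0' u)) M =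
        (-(1 / 3)) * (e4 n k * e4 k j0) * F0 M.2 := by
      intro k
      rw [opW_smulW]
      have e2 : scl (det2 M) (fun u => e4 k j0 * F0' u) = fun u => e4 k j0 * scl (det2 M) F0' u :=
        Glue681.scl_smul _ _ _
      rw [e2, opW_smulF, hp.m2 M hM]
      ring
    simp only [e1]
    rw [← Finset.sum_mul, ← Finset.mul_sum, e4_sq]
    split_ifs <;> ring

theorem glue_odd (T : TwD m ψ) (hx : IsCoprime x m) {f : ℂ → ℂ}
    (hf : DatN 3 (-ψ (-1)) (xo ψ) f) (k : 𝓢(ℂ, ℂ)) (j0 : Fin 4) {M : K695.Frm}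
    (hM : det2 M ≠ 0) :
    EC (A4 m x ψ j0) (FPn 3 (xo ψ) f k) M =
      ∑ i, EC (A4 m x (fun z => conj (ψ z)) i) (scl (det2 M) (fun u => e4 i j0 *
        FOn 3 (xo ψ) (1 / 2) (toC 1) (wc m x ψ / 3) f k u)) M := by
  classical
  have h30 : (3 : Eis) ≠ 0 := by decide
  have hN : (3 * m : Eis) ≠ 0 := mul_ne_zero h30 T.m0
  refine glueV hN (χ := chiM m) norm_chiM (s := -ψ (-1)) (Rg := RG m)
    (W := fun k h => (tc m x ψ / 2) * (ψ h * (e4 k j0 * Uo h)))
    (W' := fun k n h => (tc m x (fun z => conj (ψ z)) / 2) * (conj (ψ h) * (e4 n k * Uo h)))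
    (m₀ := j0) (am := fun n => A4 m x ψ n) rfl (cof_A4 T.m0 T.ch j0)
    (fun k => cof_A4 T.m0 T.ch.conj k) (fun g h => rg_of_ne T.ch h)
    (fun k g h => rg_of_ne T.ch.conj h) (lawV_A4o T j0) ?_ (fun g hg => unit_A4 hg j0)
    (fun k g hg => unit_A4 hg k) ?_ hM
  · intro k
    have h := lawV_A4o (x := x) T.conj k
    simp only [conj_neg_one T.ch, Complex.conj_conj] at h
    exact h
  · have hp := pairV_odd (pair0o T hx hf k) j0
    have e1 : (fun k h => (covol (toC (3 * m)) : ℂ)⁻¹ *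
        ((tc m x ψ / 2) * (ψ h * (e4 k j0 * Uo h)))) =
        fun k h => e4 k j0 * (wc m x ψ / 3 * (ψ h * Uo h)) := by
      funext k h
      unfold wc
      ring
    have e2 : (fun k n h => (covol (toC (3 * m)) : ℂ)⁻¹ *
        ((tc m x (fun z => conj (ψ z)) / 2) * (conj (ψ h) * (e4 n k * Uo h)))) =
        fun (k n : Fin 4) h => (e4 n k * (-(1 / 3))) *
          (-wc m x (fun z => conj (ψ z)) * (conj (ψ h) * Uo h)) := by
      funext k n h
      unfold wc
      ring
    rw [e1, e2]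
    exact hp

theorem coef_odd (T : TwD m ψ) (hx : IsCoprime x m) {f : ℂ → ℂ}
    (hf : DatN 3 (-ψ (-1)) (xo ψ) f) (j0 : Fin 4) {ν : Eis} (hν : ν ≠ 0) :
    Coef92.LS 3 (xo ψ) f (A4 m x ψ j0) (3 * m) ν =
      ∑ i, Coef92.RS 3 (xo ψ) (1 / 2) (toC 1) (wc m x ψ / 3) (fun z => e4 i j0 * f z)
        (A4 m x (fun z => conj (ψ z)) i) (3 * m) ν := by
  classical
  have h30 : (3 : Eis) ≠ 0 := by decide
  have hN : (3 * m : Eis) ≠ 0 := mul_ne_zero h30 T.m0
  have X := xiP_of (mul_ne_zero T.m0 lam_ne_zero) (isCh_xo T.ch) (prm_xo T)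
  have C := xnC_odd T hx
  obtain ⟨k, hk⟩ := Coef92.exists_phat_ne (frq (toC (3 * m)) ν)
  have hR := fun i : Fin 4 => Glue681.DatN.smul hf (e4 i j0)
  have PL0 := Xn960.pairThmN 3 _ _ _ _ _ _ _ _ X C _ k hf
  have PR0 := fun i => Xn960.pairThmN 3 _ _ _ _ _ _ _ _ X C _ k (hR i)
  obtain ⟨K, hK⟩ := (cof_A4 (x := x) T.m0 T.ch j0).bdd
  have hK' := fun i => (cof_A4 (x := x) T.m0 T.ch.conj i).bdd
  choose K' hK' using hK'
  have h1 := Coef92.coef_FP (k := k) (a := A4 m x ψ j0) PL0.tst hK hN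
    (fun c _ => per_A4 T.m0 T.ch j0 c) hν
  have h2 := fun i => Coef92.coef_FO (k := k) (a := A4 m x (fun z => conj (ψ z)) i) coefThmN X C
    (hR i) (PR0 i).tst' (hK' i) hN (fun c _ => per_A4 T.m0 T.ch.conj i c) hν
  have eF : ∀ i : Fin 4, (fun u => e4 i j0 *
      FOn 3 (xo ψ) (1 / 2) (toC 1) (wc m x ψ / 3) f k u) =
      FOn 3 (xo ψ) (1 / 2) (toC 1) (wc m x ψ / 3) (fun z => e4 i j0 * f z) k := by
    intro i
    funext u
    rw [FOn_smul]
  have h3 : ∫ z in par (toC (3 * m)), EC (A4 m x ψ j0)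
        (FPn 3 (xo ψ) f k) (Coef92.stF z) *
          eC (-(frq (toC (3 * m)) ν * z)) =
      ∫ z in par (toC (3 * m)), ∑ i, EC (A4 m x (fun z => conj (ψ z)) i)
        (FOn 3 (xo ψ) (1 / 2) (toC 1) (wc m x ψ / 3) (fun z => e4 i j0 * f z) k) (Coef92.stF z) *
          eC (-(frq (toC (3 * m)) ν * z)) := by
    refine integral_congr_ae (Filter.Eventually.of_forall fun z => ?_)
    simp only
    have hg := glue_odd T hx hf k j0 (M := Coef92.stF z)
      (by rw [Coef92.det2_stF]; exact one_ne_zero)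
    rw [Coef92.det2_stF] at hg
    simp only [scl_one, eF] at hg
    rw [hg, Finset.sum_mul]
  rw [h1, integral_finsetSum] at h3
  · simp only [h2] at h3
    rw [← Finset.sum_mul] at h3
    exact mul_right_cancel₀ hk h3
  · intro i _
    have hi := integrable_line hN (cof_A4 (x := x) T.m0 T.ch.conj i).bdd
      (Glue681.tfd_const (PR0 i).tst') 1 (M := (((1, 0), (0, 1)) : K695.Frm))
      (by unfold K695.det2; simp)
    have e1 : (fun z : ℂ => ED (A4 m x (fun z => conj (ψ z)) i) (fun _ u => FOn 3 (xo ψ) (1 / 2)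
        (toC 1) (wc m x ψ / 3) (fun z => e4 i j0 * f z) k u)
        ((1 : SLE)⁻¹ • ((((1, 0) : Vec) + z • ((0, 1) : Vec), ((0, 1) : Vec)) : K695.Frm))) =
        fun z : ℂ => EC (A4 m x (fun z => conj (ψ z)) i) (FOn 3 (xo ψ) (1 / 2)
        (toC 1) (wc m x ψ / 3) (fun z => e4 i j0 * f z) k) (Coef92.stF z) := by
      funext z
      rw [inv_one, one_smul]
      unfold ED Coef92.stF
      congr 1
      ext <;> simp
    rw [e1] at hi
    refine hi.mul_bdd (c := 1) ?_ ?_
    · exact (Parseval499.continuous_eC.comp (by fun_prop)).aestronglyMeasurable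
    · exact Filter.Eventually.of_forall fun z => (Parseval499.norm_eC _).le

end Crest.Agent.R017.Tw3
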