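import Crest.Agent.R017.Tw3G_541
import Crest.Agent.R017.Tw3O_541
import Crest.Agent.R017.XiI2_590

/-!
# Row 17, twisted cubic F1 (helper541), part H: the explicit functional equations

`F1_even` (`s = φ(-1)`), `F1_odd` (`s = -φ(-1)`), for `m` primary, `φ` modulo `m` with `φ³` primitive,
every frequency `ν ≠ 0` prime to `m`.
-/

set_option autoImplicit false

noncomputable section

open Complex MeasureTheory Set
open scoped ComplexConjugate SchwartzMap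

namespace Crest.Agent.R017.Tw3

open Crest.Agent.R012 Crest.Agent.R012.Eis Crest.Agent.R012.Gauss880 Crest.Agent.R012.Mob705
open Crest.Agent.R012.Sym645 (prim_nm_mod)
open Crest.Agent.R012.K695 (det2 n2 Vec EC rowv)
open Crest.Agent.R012.Parseval499 (par covol frq s3 covol_pos toC_s3_ne eC_toC_div_s3)
open Crest.Agent.R017.F1 hiding SA scl dil
open Crest.Agent.R017.Loc266
open Crest.Agent.R017.Xn590
open Crest.Agent.R017.Xi590 (CS)
open Crest.Agent.R017.Glue681 (CS_of_DatN summable_fPn fPn_add fPn_smul fPn_dil fOn_add fOn_smul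
  fOn_dil)
open Crest.Agent.R017.FE47 (SM BM)

variable {m x : Eis} {φ : Eis → ℂ}

/-! ### the twist by `(·/m)_3` -/

/-- `ψ = φ (·/m)_3` -/
def up3 (m : Eis) (φ : Eis → ℂ) (c : Eis) : ℂ := φ c * sy c m

/-- the dual character `(·/m)_3 conj φ` -/
def du (m : Eis) (φ : Eis → ℂ) (c : Eis) : ℂ := sy c m * conj (φ c)

lemma isCh_up3 (hm : IsPrim m) (hφ : IsCh m φ) : IsCh m (up3 m φ) where
  one := by
    unfold up3
    rw [sy_eq_one (fun q _ _ => by simp), mul_one, hφ.one]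
  mul a b := by
    unfold up3
    rw [Sym645.sy_mul_left (prim_nm_mod hm), hφ.mul]; ring
  per a t := by
    unfold up3
    rw [hφ.per, Sym645.sy_congr (prim_nm_mod hm) (x := a + m * t) (y := a) ⟨t, by ring⟩]
  zero a ha := by
    unfold up3
    rw [hφ.zero a ha, zero_mul]

lemma sy_nrm (hm : IsPrim m) {c : Eis} (hc : IsCoprime c m) : sy c m * conj (sy c m) = 1 := by
  rw [Complex.mul_conj, Complex.normSq_eq_norm_sq,
    Sym645.norm_sy_of_isCoprime (prim_nm_mod hm) hc]; simp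

lemma sy_sq_conj (hm : IsPrim m) {c : Eis} (hc : IsCoprime c m) :
    conj (sy c m) * conj (sy c m) = sy c m := by
  have h1 := Sym645.sy_cube (prim_nm_mod hm) hc
  have h2 := sy_nrm hm hc
  linear_combination (sy c m * conj (sy c m) + 1) * sy c m * h2 +
    (-(conj (sy c m) * conj (sy c m))) * h1

lemma up3_cube (hm : IsPrim m) (hφ : IsCh m φ) (c : Eis) : up3 m φ c ^ 3 = φ c ^ 3 := by
  unfold up3
  by_cases hc : IsCoprime c m
  · rw [mul_pow, Sym645.sy_cube (prim_nm_mod hm) hc, mul_one]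
  · rw [hφ.zero c hc]; simp

lemma twD_up3 (hm : IsPrim m) (T : TwD m φ) : TwD m (up3 m φ) where
  m0 := T.m0
  lm := T.lm
  ch := isCh_up3 hm T.ch
  p3 := by
    have : (fun z => up3 m φ z ^ 3) = fun z => φ z ^ 3 := funext (up3_cube hm T.ch)
    rw [this]
    exact T.p3

lemma twc_up3 (hm : IsPrim m) (hφ : IsCh m φ) : twc m (up3 m φ) = φ := by
  funext c
  unfold twc up3
  by_cases hc : IsCoprime c m
  · linear_combination φ c * sy_nrm hm hc
  · rw [hφ.zero c hc]; ring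

lemma twc_conj_up3 (hm : IsPrim m) (hφ : IsCh m φ) :
    twc m (fun z => conj (up3 m φ z)) = du m φ := by
  funext c
  unfold twc up3 du
  simp only [map_mul]
  by_cases hc : IsCoprime c m
  · linear_combination conj (φ c) * sy_sq_conj hm hc
  · rw [hφ.zero c hc]; simp

lemma sy_neg_one' (hm : IsPrim m) : sy (-1) m = 1 := by
  have h1 : sy (-1) m ^ 3 = 1 := Sym645.sy_cube (prim_nm_mod hm) isCoprime_one_left.neg_left
  have h2 : sy (-1) m * sy (-1) m = 1 := by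
    rw [← Sym645.sy_mul_left (prim_nm_mod hm), neg_one_mul, neg_neg]
    exact sy_eq_one (fun q _ _ => by simp)
  linear_combination h1 - sy (-1) m * h2

lemma up3_neg_one (hm : IsPrim m) : up3 m φ (-1) = φ (-1) := by
  unfold up3; rw [sy_neg_one' hm, mul_one]

lemma xi3_up3 (hm : IsPrim m) (hφ : IsCh m φ) : xi3 (up3 m φ) = xi3 φ :=
  funext (up3_cube hm hφ)

lemma xo_up3 (hm : IsPrim m) (hφ : IsCh m φ) : xo (up3 m φ) = xo φ := by
  funext z
  unfold xo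
  rw [up3_cube hm hφ]

lemma up3_lam3 (hm : IsPrim m) (hφ : IsCh m φ) : up3 m φ (lam ^ 3) = xi3 φ lam := by
  have h := isCh_up3 hm hφ
  have e : up3 m φ (lam ^ 3) = up3 m φ lam ^ 3 := by
    rw [pow_succ, pow_two, h.mul, h.mul]; ring
  rw [e, up3_cube hm hφ]; rfl

/-! ### the constant -/

/-- the constant of the functional equation -/
def K0 (m : Eis) (φ : Eis → ℂ) : ℂ :=
  (3 / 2) * ((covol (toC (3 * m)) : ℂ)⁻¹ *
    (conj (up3 m φ 3) * gl (fun z => conj (up3 m φ z)) 1 m))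

lemma exists_x (hm : IsPrim m) {ν : Eis} (hν : IsCoprime ν m) :
    ∃ x, m ∣ 3 * x + ν ∧ IsCoprime x m := by
  obtain ⟨a, b, hab⟩ := hm.isCoprime_three
  refine ⟨-(b * ν), ⟨ν * a, by linear_combination (-ν) * hab⟩, ?_⟩
  have h1 : IsCoprime b m := ⟨3, a, by linear_combination hab⟩
  exact (h1.mul_left hν).neg_left

lemma wc_up3 (hm : IsPrim m) (hφ : IsCh m φ) {ν : Eis} (hx : m ∣ 3 * x + ν) :
    wc m x (up3 m φ) = K0 m φ * (φ ν * sy ν m) := by
  have hψ := isCh_up3 hm hφ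
  have h1 : up3 m φ 3 * up3 m φ (-x) = φ ν * sy ν m := by
    rw [← hψ.mul]
    change _ = up3 m φ ν
    apply hψ.per.congr
    obtain ⟨t, ht⟩ := hx
    exact ⟨-t, by linear_combination -ht⟩
  have h2 : up3 m φ 3 * conj (up3 m φ 3) = 1 :=
    hψ.mul_conj_self hm.ne_zero hm.isCoprime_three.symm
  unfold wc K0 tc
  rw [← h1]
  linear_combination (-(3 / 2) * (covol (toC (3 * m)) : ℂ)⁻¹ * up3 m φ (-x) *
    gl (fun z => conj (up3 m φ z)) 1 m) * h2

/-! ### `Cw` -/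

lemma summable_Cw {w : Eis → ℂ} (hw : ∀ c, ‖w c‖ ≤ 1) (u : Eis) {g : ℂ → ℂ} (h : Dc g) :
    open Classical in
    Summable fun d : Eis => if IsPrim d then w d * conj (gs u d) * g (toC d) else 0 := by
  classical
  refine Summable.of_norm_bounded (summable_Cg u h).norm fun d => ?_
  split_ifs with hd
  · rw [mul_assoc, norm_mul]
    calc ‖w d‖ * ‖conj (gs u d) * g (toC d)‖ ≤ 1 * ‖conj (gs u d) * g (toC d)‖ :=
          mul_le_mul_of_nonneg_right (hw d) (norm_nonneg _)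
      _ = _ := one_mul _
  · rfl

lemma Cw_add {w : Eis → ℂ} (hw : ∀ c, ‖w c‖ ≤ 1) (u : Eis) {g h : ℂ → ℂ} (hg : Dc g) (hh : Dc h) :
    Cw w u (fun z => g z + h z) = Cw w u g + Cw w u h := by
  unfold Cw
  rw [← (summable_Cw hw u hg).tsum_add (summable_Cw hw u hh)]
  refine tsum_congr fun d => ?_
  split_ifs
  · ring
  · rw [add_zero]

lemma Cw_const_mul (w : Eis → ℂ) (u : Eis) (a : ℂ) (g : ℂ → ℂ) :
    Cw w u (fun z => a * g z) = a * Cw w u g := by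
  unfold Cw
  rw [← tsum_mul_left]
  refine tsum_congr fun d => ?_
  split_ifs
  · ring
  · rw [mul_zero]

lemma Cw_congr (w : Eis → ℂ) (u : Eis) {g h : ℂ → ℂ}
    (e : ∀ d : Eis, IsPrim d → g (toC d) = h (toC d)) : Cw w u g = Cw w u h := by
  unfold Cw
  refine tsum_congr fun d => ?_
  split_ifs with hd
  · rw [e d hd]
  · rfl

variable {n : ℕ} {s : ℂ} {ξ : Eis → ℂ} {κ c₁ : ℂ} {V : ℝ} {h0 B B' : ℂ} {f : ℂ → ℂ}

lemma fOn_B (n : ℕ) (ξ : Eis → ℂ) (V : ℝ) (h0 B : ℂ) (f : ℂ → ℂ) :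
    fOn n ξ V h0 B f = fun z => B * fOn n ξ V h0 1 f z := by
  classical
  funext z
  unfold fOn
  ring

lemma Cw_B (w : Eis → ℂ) (u : Eis) (v : ℂ) (n : ℕ) (ξ : Eis → ℂ) (V : ℝ) (h0 B : ℂ) (f : ℂ → ℂ) :
    Cw w u (rc (fOn n ξ V h0 B f) v) = B * Cw w u (rc (fOn n ξ V h0 1 f) v) := by
  rw [← Cw_const_mul]
  apply Cw_congr
  intro d _
  rw [fOn_B]
  unfold rc
  ring

lemma Cw_split {w : Eis → ℂ} (hw : ∀ c, ‖w c‖ ≤ 1) (u : Eis) {v : ℂ} (hv : v ≠ 0)
    (X : XiP ξ κ c₁) (C : XnC 3 s κ V h0 B B') (hf : DatN 3 s ξ f) (a b : ℂ) :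
    Cw w u (rc (fOn 3 ξ V h0 B (fun z => a * f z + b * (((‖bb‖ ^ 2 : ℝ) : ℂ) * f (bb * z)))) v) =
      a * Cw w u (rc (fOn 3 ξ V h0 B f) v) + b * Cw w u (rc (fOn 3 ξ V h0 B f) (bb * v)) := by
  obtain ⟨D, hD⟩ := decThmN 3 s ξ κ c₁ V h0 B B' X C f hf 4
  have hbv : bb * v ≠ 0 := mul_ne_zero bb_ne hv
  have d1 := (rc_dc (fun y hy => (hD y hy).1) hv).const_mul a
  have d2 := (rc_dc (fun y hy => (hD y hy).1) hbv).const_mul b
  rw [← Cw_const_mul, ← Cw_const_mul, ← Cw_add hw u d1 d2]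
  apply Cw_congr
  intro d hd
  have hdC : toC d ≠ 0 := toC_ne_zero hd.ne_zero
  have hz : v / toC d ≠ 0 := div_ne_zero hv hdC
  have hn : ((‖bb‖ ^ 2 : ℝ) : ℂ) ≠ 0 := by
    exact_mod_cast (pow_pos (norm_pos_iff.mpr bb_ne) 2).ne'
  have e1 : fOn 3 ξ V h0 B (fun z => a * f z + b * (((‖bb‖ ^ 2 : ℝ) : ℂ) * f (bb * z)))
      (v / toC d) = a * fOn 3 ξ V h0 B f (v / toC d) + b * fOn 3 ξ V h0 B f (bb * (v / toC d)) := by
    rw [fOn_add (by norm_num) X.le1 C.h0 (CS_of_DatN (Glue681.DatN.smul hf a))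
      (CS_of_DatN (Glue681.DatN.smul (Glue681.DatN.smul
        (Glue681.DatN.dil (n := 3) (by norm_num) hf bb_ne) _) b)) hz, fOn_smul, fOn_smul, fOn_smul,
      fOn_dil bb_ne, Complex.ofReal_inv]
    linear_combination (b * fOn 3 ξ V h0 B f (bb * (v / toC d))) * mul_inv_cancel₀ hn
  unfold rc
  rw [e1, mul_div_assoc bb]
  ring

/-! ### the left side -/

open Classical in
/-- `Σ_{e ≡ 1 (3)} ξ(e) N(e)² f(e³ x)` -/
def fPr (ξ : Eis → ℂ) (f : ℂ → ℂ) (x : ℂ) : ℂ :=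
  ∑' e : Eis, if IsPrim e then ξ e * ((nm e : ℂ) ^ 2 * f (toC e ^ 3 * x)) else 0

/-- primary elements from all elements -/
lemma tsum_prim_of_all' {G : Eis → ℂ} (hG : Summable G)
    (hu : ∀ u e, IsUnit u → G (u * e) = G e) : open Classical in
    (∑' e : Eis, if IsPrim e then G e else 0) =
      (1 / 6 : ℂ) * (∑' e : Eis, G e - ∑' e : Eis, G (lam * e)) := by
  classical
  have h1 := XiI590.tsum_units (M := 3) dvd_rfl hG hu
  have h2 : (∑' e : Eis, if Sx545.Sm 3 e then G e else 0) =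
      ∑' e : Eis, if IsPrim e then G e else 0 := by
    refine tsum_congr fun e => ?_
    by_cases h : IsPrim e
    · rw [if_pos h, if_pos ⟨h, h.isCoprime_three⟩]
    · rw [if_neg h, if_neg (fun h' => h h'.1)]
  have hinj : Function.Injective (fun e : Eis => lam * e) := mul_right_injective₀ lam_ne_zero
  have h3 : (∑' e : Eis, G (lam * e)) = ∑' e : Eis, if lam ∣ e then G e else 0 := by
    have := hinj.tsum_eq (f := fun e : Eis => if lam ∣ e then G e else 0) ?_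
    · rw [← this]
      refine tsum_congr fun e => ?_
      rw [if_pos (dvd_mul_right _ _)]
    · intro e he
      rw [Function.mem_support] at he
      by_cases h : lam ∣ e
      · obtain ⟨t, rfl⟩ := h
        exact ⟨t, rfl⟩
      · rw [if_neg h] at he
        exact absurd rfl he
  have h4 : ∀ e : Eis, (if IsCoprime e 3 then G e else 0) =
      G e - (if lam ∣ e then G e else 0) := by
    intro e
    have hc : IsCoprime e 3 ↔ ¬ lam ∣ e := by
      constructor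
      · intro h hd
        have h3 : lam ∣ (3 : Eis) := by rw [lam_dvd_iff]; decide
        exact prime_lam.not_isUnit (h.isUnit_of_dvd' hd h3)
      · intro h
        obtain ⟨u, hu⟩ := exists_unit_mul_isPrim h
        exact IsCoprime.of_mul_left_right hu.isCoprime_three
    by_cases h : lam ∣ e
    · rw [if_pos h, if_neg (fun h' => hc.mp h' h), sub_self]
    · rw [if_neg h, if_pos (hc.mpr h), sub_zero]
  have hs : Summable fun e : Eis => if lam ∣ e then G e else 0 := by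
    refine (hG.indicator {e | lam ∣ e}).congr fun e => ?_
    by_cases h : lam ∣ e
    · rw [if_pos h, Set.indicator_of_mem (show e ∈ {e | lam ∣ e} from h)]
    · rw [if_neg h, Set.indicator_of_notMem (show e ∉ {e | lam ∣ e} from h)]
  rw [h2, tsum_congr h4, hG.tsum_sub hs, ← h3] at h1
  rw [h1]
  ring

theorem fPr_eq (hξ : ∀ a b, ξ (a * b) = ξ a * ξ b) (hf : DatN 3 s ξ f)
    (hu : ∀ u, IsUnit u → ξ u * (if u ^ 3 = 1 then 1 else s) = 1) (x : ℂ) :
    fPr ξ f x = fPn 3 ξ f x - 9 * ξ lam * fPn 3 ξ f (bb * x) := by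
  classical
  have hS := summable_fPn (ξ := ξ) (n := 3) (by norm_num) (CS_of_DatN hf) x
  have e0 : fPr ξ f x = ∑' e : Eis, if IsPrim e then
      ξ e * ((nm e : ℂ) ^ (3 - 1) * f (toC e ^ 3 * x)) else 0 := rfl
  rw [e0, tsum_prim_of_all' hS]
  · unfold fPn
    have e1 : ∀ e : Eis, ξ (lam * e) * ((nm (lam * e) : ℂ) ^ (3 - 1) * f (toC (lam * e) ^ 3 * x)) =
        9 * ξ lam * (ξ e * ((nm e : ℂ) ^ (3 - 1) * f (toC e ^ 3 * (bb * x)))) := by
      intro e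
      rw [hξ, nm_mul, nm_lam, map_mul toC, mul_pow (toC lam)]
      have : toC lam ^ 3 * toC e ^ 3 * x = toC e ^ 3 * (bb * x) := by
        unfold bb
        rw [map_pow]; ring
      rw [this]
      push_cast
      ring
    rw [tsum_congr e1, tsum_mul_left]
    ring
  · intro u e hu'
    have h1 : nm (u * e) = nm e := by rw [nm_mul, isUnit_iff.mp hu', one_mul]
    have h3 := hu u hu'
    rw [h1, hξ]
    rcases unit_cube hu' with h | h
    · rw [if_pos h, mul_one] at h3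
      rw [map_mul toC, mul_pow (toC u), ← map_pow toC, h, map_one, one_mul, h3, one_mul]
    · have hne : ¬ u ^ 3 = 1 := by
        rw [h]; decide
      rw [if_neg hne] at h3
      have e2 : toC (u * e) ^ 3 * x = -(toC e ^ 3 * x) := by
        rw [map_mul toC, mul_pow (toC u), ← map_pow toC, h, map_neg, map_one]; ring
      rw [e2, hf.par]
      linear_combination (ξ e * ((nm e : ℂ) ^ (3 - 1) * f (toC e ^ 3 * x))) * h3

lemma nm_bb : ‖bb‖ ^ 2 = 27 := by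
  unfold bb
  rw [norm_toC_sq]
  have : nm (lam ^ 3) = 27 := by decide
  rw [this]; norm_num

lemma fPn_flf (hf : DatN 3 s ξ f) (y x : ℂ) :
    fPn 3 ξ (flf y f) x = fPn 3 ξ f x - 9 * y * fPn 3 ξ f (bb * x) := by
  have h1 : CS f := CS_of_DatN hf
  have h2 : CS (fun x => (-(y / 3)) * (((‖bb‖ ^ 2 : ℝ) : ℂ) * f (bb * x))) :=
    CS_of_DatN (Glue681.DatN.smul (Glue681.DatN.smul
      (Glue681.DatN.dil (n := 3) (by norm_num) hf bb_ne) _) _)
  unfold flf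
  rw [fPn_add (by norm_num) h1 h2, fPn_smul, fPn_smul, fPn_dil, nm_bb]
  push_cast
  ring

lemma unit_cond3 (hφ : IsCh m φ) {u : Eis} (hu : IsUnit u) :
    xi3 φ u * (if u ^ 3 = 1 then 1 else φ (-1)) = 1 := by
  have e : xi3 φ u = φ (u ^ 3) := by
    unfold xi3
    rw [pow_succ u, pow_two u, hφ.mul, hφ.mul]; ring
  rw [e]
  rcases unit_cube hu with h | h
  · rw [if_pos h, h, hφ.one, mul_one]
  · have hne : ¬ u ^ 3 = 1 := by rw [h]; decide
    rw [if_neg hne, h]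
    exact psi_neg_sq hφ

lemma unit_condo (hφ : IsCh m φ) {u : Eis} (hu : IsUnit u) :
    xo φ u * (if u ^ 3 = 1 then 1 else -φ (-1)) = 1 := by
  have h1 := unit_cond3 hφ hu
  have e : xo φ u = xi3 φ u * chL u := rfl
  rw [e]
  rcases unit_cube hu with h | h
  · rw [if_pos h] at h1 ⊢
    have : chL u = 1 := by rw [← chL_cube, h, chL_one]
    rw [this]; linear_combination h1
  · have hne : ¬ u ^ 3 = 1 := by rw [h]; decide
    rw [if_neg hne] at h1 ⊢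
    have : chL u = -1 := by rw [← chL_cube, h, chL_neg, chL_one]
    rw [this]; linear_combination h1

lemma fPr_xo (φ : Eis → ℂ) (f : ℂ → ℂ) (x : ℂ) : fPr (xo φ) f x = fPr (xi3 φ) f x := by
  classical
  unfold fPr
  refine tsum_congr fun e => ?_
  split_ifs with h
  · have : xo φ e = xi3 φ e := by unfold xo xi3; rw [chL_prim h, mul_one]
    rw [this]
  · rfl

/-! ### the functional equations -/

lemma norm_du_le (hm : IsPrim m) (hφ : IsCh m φ) (c : Eis) : ‖du m φ c‖ ≤ 1 := by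
  unfold du
  rw [norm_mul, RCLike.norm_conj]
  calc ‖sy c m‖ * ‖φ c‖ ≤ 1 * 1 := mul_le_mul (Sym645.norm_sy_le_one (prim_nm_mod hm) _)
        (hφ.norm_le_one hm.ne_zero c) (norm_nonneg _) zero_le_one
    _ = 1 := one_mul 1

lemma eC_t2 (ν : Eis) : eC (toC (t4 2 * ν) / (toC s3 * 3)) = eC (frq 3 ν) := by
  have : t4 2 = 1 := rfl
  rw [this, one_mul, mul_comm (toC s3) 3]; rfl

lemma eC_t3 (ν : Eis) : eC (toC (t4 3 * ν) / (toC s3 * 3)) = eC (-frq 3 ν) := by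
  have : t4 3 = -1 := rfl
  rw [this, neg_one_mul, map_neg, neg_div, mul_comm (toC s3) 3]; rfl

lemma eC_t1 (ν : Eis) : eC (toC (t4 1 * ν) / (toC s3 * 3)) = 1 := by
  have : t4 1 = 0 := rfl
  rw [this, zero_mul, map_zero, zero_div, Parseval499.eC_zero]

/-- **The twisted functional equation, even parity.** -/
theorem F1_even (hm : IsPrim m) (T : TwD m φ) (hf : DatN 3 (φ (-1)) (xi3 φ) f) {ν : Eis}
    (hν0 : ν ≠ 0) (hν : IsCoprime ν m) :
    Cw φ ν (fPr (xi3 φ) f) = K0 m φ * (φ ν * sy ν m) *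
      ((2 * xi3 φ lam / 3) * Cw (du m φ) ν
          (rc (fOn 3 (xi3 φ) (1 / 2) (toC 1) 1 f) (bb * frq (toC (3 * m)) ν)) +
        (eC (frq 3 ν) + eC (-frq 3 ν)) *
          ((1 / 3) * Cw (du m φ) ν
            (rc (fOn 3 (xi3 φ) (1 / 2) (toC 1) 1 f) (frq (toC (3 * m)) ν)) -
          (xi3 φ lam / 3) * Cw (du m φ) ν
            (rc (fOn 3 (xi3 φ) (1 / 2) (toC 1) 1 f) (bb * frq (toC (3 * m)) ν))) +
        ∑ δ ∈ Dl ν, Lam δ ν * (((nm δ : ℝ)⁻¹ : ℝ) : ℂ) * (du m φ δ *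
          ((1 / 3) * Cw (du m φ) (δ * ν)
            (rc (fOn 3 (xi3 φ) (1 / 2) (toC 1) 1 f) (frq (toC (3 * m)) ν / toC δ)) -
          (xi3 φ lam / 3) * Cw (du m φ) (δ * ν)
            (rc (fOn 3 (xi3 φ) (1 / 2) (toC 1) 1 f) (bb * (frq (toC (3 * m)) ν / toC δ)))))) := by
  classical
  obtain ⟨x, hx, hxm⟩ := exists_x hm hν
  have T' := twD_up3 hm T
  have hψ := T'.ch
  have hm0 := nmC_ne hm.ne_zero
  have h3m : (3 * m : Eis) ≠ 0 := three_mul_ne hm.ne_zero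
  have hv := Coef92.frq_ne_zero h3m hν0
  have hf' : DatN 3 (up3 m φ (-1)) (xi3 (up3 m φ)) f := by
    rw [up3_neg_one hm, xi3_up3 hm T.ch]; exact hf
  have X := xiP3 T'
  have C := xnC_tw T' hxm
  have hR := fun i : Fin 4 => datN_frf hf' (up3 m φ (lam ^ 3)) 1 i
  have key := coef_tw T' hxm hf' 1 hν0
  obtain ⟨D, hD⟩ := decThmN 3 _ _ _ _ _ _ _ _ X C _ (hR 0) 4
  rw [LS_eval hm hψ hx, Fin.sum_univ_four,
    RS_zero hm hψ.conj hν0 hx (fun y hy => (hD y hy).1),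
    RS_pos hm hψ.conj hx (by decide), RS_pos hm hψ.conj hx (by decide),
    RS_pos hm hψ.conj hx (by decide), twc_conj_up3 hm T.ch, twc_up3 hm T.ch, eC_t1, eC_t2,
    eC_t3, ← mul_add, ← mul_add, ← mul_add] at key
  have key2 := mul_left_cancel₀ hm0 key
  have hdu := norm_du_le hm T.ch
  have sp : ∀ (i : Fin 4) (u : Eis) (v : ℂ), v ≠ 0 →
      Cw (du m φ) u (rc (fOn 3 (xi3 (up3 m φ)) (1 / 2) (toC 1) (wc m x (up3 m φ))
        (frf (up3 m φ (lam ^ 3)) 1 i f)) v) = (K0 m φ * (φ ν * sy ν m)) *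
      (kc1 1 i * Cw (du m φ) u (rc (fOn 3 (xi3 φ) (1 / 2) (toC 1) 1 f) v) +
       kc2 (xi3 φ lam) 1 i * Cw (du m φ) u
        (rc (fOn 3 (xi3 φ) (1 / 2) (toC 1) 1 f) (bb * v))) := by
    intro i u v hv
    have h1 := Cw_split hdu u hv X C hf' (kc1 1 i) (kc2 (up3 m φ (lam ^ 3)) 1 i)
    have h2 : frf (up3 m φ (lam ^ 3)) 1 i f = fun z => kc1 1 i * f z +
        kc2 (up3 m φ (lam ^ 3)) 1 i * (((‖bb‖ ^ 2 : ℝ) : ℂ) * f (bb * z)) := rfl
    rw [h2, h1, Cw_B, Cw_B _ _ (bb * v), wc_up3 hm T.ch hx, xi3_up3 hm T.ch, up3_lam3 hm T.ch]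
    ring
  have eL : Cw φ ν (fPn 3 (xi3 (up3 m φ)) (flf (up3 m φ (lam ^ 3)) f)) =
      Cw φ ν (fPr (xi3 φ) f) := by
    apply Cw_congr
    intro d _
    rw [xi3_up3 hm T.ch, up3_lam3 hm T.ch, fPn_flf hf,
      fPr_eq (isCh_xi3 T.ch).mul hf (fun u hu => unit_cond3 T.ch hu)]
  rw [eL] at key2
  rw [key2, sp 1 _ _ hv, sp 2 _ _ hv, sp 3 _ _ hv]
  have e0 : ∑ δ ∈ Dl ν, Lam δ ν * (((nm δ : ℝ)⁻¹ : ℝ) : ℂ) * (du m φ δ *
      Cw (du m φ) (δ * ν) (rc (fOn 3 (xi3 (up3 m φ)) (1 / 2) (toC 1) (wc m x (up3 m φ))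
        (frf (up3 m φ (lam ^ 3)) 1 0 f)) (frq (toC (3 * m)) ν / toC δ))) =
      (K0 m φ * (φ ν * sy ν m)) * ∑ δ ∈ Dl ν, Lam δ ν * (((nm δ : ℝ)⁻¹ : ℝ) : ℂ) * (du m φ δ *
          ((1 / 3) * Cw (du m φ) (δ * ν)
            (rc (fOn 3 (xi3 φ) (1 / 2) (toC 1) 1 f) (frq (toC (3 * m)) ν / toC δ)) -
          (xi3 φ lam / 3) * Cw (du m φ) (δ * ν)
            (rc (fOn 3 (xi3 φ) (1 / 2) (toC 1) 1 f) (bb * (frq (toC (3 * m)) ν / toC δ))))) := by
    rw [Finset.mul_sum]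
    refine Finset.sum_congr rfl fun δ hδ => ?_
    have hδ0 : δ ≠ 0 := ((mem_Dl hν0).mp hδ).1.1
    rw [sp 0 _ _ (div_ne_zero hv (toC_ne_zero hδ0))]
    have k1 : kc1 1 0 = 1 / 3 := by simp [kc1]
    have k2 : kc2 (xi3 φ lam) 1 0 = -(xi3 φ lam / 3) := by simp [kc2]
    rw [k1, k2]
    ring
  rw [e0]
  have k1 : kc1 1 1 = 0 := by simp [kc1]
  have k2 : kc1 1 2 = 1 / 3 := by simp [kc1]
  have k3 : kc1 1 3 = 1 / 3 := by simp [kc1]
  have k4 : kc2 (xi3 φ lam) 1 1 = 2 * xi3 φ lam / 3 := by simp [kc2]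
  have k5 : kc2 (xi3 φ lam) 1 2 = -(xi3 φ lam / 3) := by simp [kc2]
  have k6 : kc2 (xi3 φ lam) 1 3 = -(xi3 φ lam / 3) := by simp [kc2]
  rw [k1, k2, k3, k4, k5, k6]
  ring

/-- **The twisted functional equation, odd parity.** -/
theorem F1_odd (hm : IsPrim m) (T : TwD m φ) (hf : DatN 3 (-φ (-1)) (xo φ) f) {ν : Eis}
    (hν0 : ν ≠ 0) (hν : IsCoprime ν m) :
    Cw φ ν (fPr (xi3 φ) f) = (K0 m φ / 3) * (φ ν * sy ν m) *
      ((eC (frq 3 ν) - eC (-frq 3 ν)) * Cw (du m φ) ν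
          (rc (fOn 3 (xo φ) (1 / 2) (toC 1) 1 f) (frq (toC (3 * m)) ν)) +
        ∑ δ ∈ Dl ν, Lam δ ν * (((nm δ : ℝ)⁻¹ : ℝ) : ℂ) * (du m φ δ *
          Cw (du m φ) (δ * ν)
            (rc (fOn 3 (xo φ) (1 / 2) (toC 1) 1 f) (frq (toC (3 * m)) ν / toC δ)))) := by
  classical
  obtain ⟨x, hx, hxm⟩ := exists_x hm hν
  have T' := twD_up3 hm T
  have hψ := T'.ch
  have hm0 := nmC_ne hm.ne_zero
  have h3m : (3 * m : Eis) ≠ 0 := three_mul_ne hm.ne_zero
  have hf' : DatN 3 (-up3 m φ (-1)) (xo (up3 m φ)) f := by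
    rw [up3_neg_one hm, xo_up3 hm T.ch]; exact hf
  have X := xiP_of (mul_ne_zero T'.m0 lam_ne_zero) (isCh_xo T'.ch) (prm_xo T')
  have C := xnC_odd T' hxm
  have hR := fun i : Fin 4 => Glue681.DatN.smul hf' (e4 i 1)
  have key := coef_odd T' hxm hf' 1 hν0
  obtain ⟨D, hD⟩ := decThmN 3 _ _ _ _ _ _ _ _ X C _ (hR 0) 4
  rw [LS_eval hm hψ hx, Fin.sum_univ_four,
    RS_zero hm hψ.conj hν0 hx (fun y hy => (hD y hy).1),
    RS_pos hm hψ.conj hx (by decide), RS_pos hm hψ.conj hx (by decide),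
    RS_pos hm hψ.conj hx (by decide), twc_conj_up3 hm T.ch, twc_up3 hm T.ch, eC_t1, eC_t2,
    eC_t3, ← mul_add, ← mul_add, ← mul_add] at key
  have key2 := mul_left_cancel₀ hm0 key
  have sp : ∀ (i : Fin 4) (u : Eis) (v : ℂ),
      Cw (du m φ) u (rc (fOn 3 (xo (up3 m φ)) (1 / 2) (toC 1) (wc m x (up3 m φ) / 3)
        (fun z => e4 i 1 * f z)) v) = (K0 m φ / 3 * (φ ν * sy ν m)) * (e4 i 1 *
      Cw (du m φ) u (rc (fOn 3 (xo φ) (1 / 2) (toC 1) 1 f) v)) := by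
    intro i u v
    have h1 : Cw (du m φ) u (rc (fOn 3 (xo (up3 m φ)) (1 / 2) (toC 1) (wc m x (up3 m φ) / 3)
        (fun z => e4 i 1 * f z)) v) = e4 i 1 * Cw (du m φ) u (rc (fOn 3 (xo (up3 m φ)) (1 / 2)
        (toC 1) (wc m x (up3 m φ) / 3) f) v) := by
      rw [← Cw_const_mul]
      apply Cw_congr
      intro d _
      unfold rc
      rw [fOn_smul]
      ring
    rw [h1, Cw_B, wc_up3 hm T.ch hx, xo_up3 hm T.ch]
    ring
  have eL : Cw φ ν (fPn 3 (xo (up3 m φ)) f) = Cw φ ν (fPr (xi3 φ) f) := by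
    apply Cw_congr
    intro d _
    rw [xo_up3 hm T.ch, ← fPr_xo,
      fPr_eq (isCh_xo T.ch).mul hf (fun u hu => unit_condo T.ch hu)]
    have : xo φ lam = 0 := by unfold xo; rw [chL_zero (dvd_refl _), mul_zero]
    rw [this]; ring
  rw [eL] at key2
  rw [key2]
  simp only [sp]
  have k0 : e4 0 1 = 1 := rfl
  have k1 : e4 1 1 = 0 := rfl
  have k2 : e4 2 1 = 1 := rfl
  have k3 : e4 3 1 = -1 := rfl
  rw [k0, k1, k2, k3]
  have e0 : ∑ δ ∈ Dl ν, Lam δ ν * (((nm δ : ℝ)⁻¹ : ℝ) : ℂ) * (du m φ δ *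
      ((K0 m φ / 3 * (φ ν * sy ν m)) * (1 * Cw (du m φ) (δ * ν)
        (rc (fOn 3 (xo φ) (1 / 2) (toC 1) 1 f) (frq (toC (3 * m)) ν / toC δ))))) =
      (K0 m φ / 3 * (φ ν * sy ν m)) * ∑ δ ∈ Dl ν, Lam δ ν * (((nm δ : ℝ)⁻¹ : ℝ) : ℂ) *
        (du m φ δ * Cw (du m φ) (δ * ν)
          (rc (fOn 3 (xo φ) (1 / 2) (toC 1) 1 f) (frq (toC (3 * m)) ν / toC δ))) := by
    rw [Finset.mul_sum]
    refine Finset.sum_congr rfl fun δ hδ => ?_
    ring
  rw [e0]
  ring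

end Crest.Agent.R017.Tw3
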