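import Crest.Agent.R017.Tw3H_541
import Crest.Agent.R017.CD7_47

/-!
# Row 17, twisted cubic F1 (helper541), part I: `EvenAll`
-/

set_option autoImplicit false

noncomputable section

open Complex MeasureTheory Set
open scoped ComplexConjugate SchwartzMap

namespace Crest.Agent.R017.Tw3

open Crest.Agent.R012 Crest.Agent.R012.Eis Crest.Agent.R012.Gauss880
open Crest.Agent.R012.Parseval499 (frq s3 toC_s3_ne)
open Crest.Agent.R017.F1 hiding SA scl dil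
open Crest.Agent.R017.Xn590
open Crest.Agent.R017.CD47 (LPr Cgt dph GenId EvenId EvenAll gE)

variable {m : Eis} {φ : Eis → ℂ} {f : ℂ → ℂ}

lemma cw_cgt (w : Eis → ℂ) (u : Eis) (g : ℂ → ℂ) : Cgt w u g = Cw w u g := by
  classical
  unfold Cgt Cw
  refine tsum_congr fun c => ?_
  split_ifs <;> rfl

lemma lpr_cw (φ : Eis → ℂ) (ν : Eis) (f : ℂ → ℂ) : LPr φ ν f = Cw φ ν (fPr (xi3 φ) f) := by
  classical
  unfold LPr Cw fPr xi3
  refine tsum_congr fun c => ?_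
  split_ifs
  · congr 1
    refine tsum_congr fun e => ?_
    split_ifs
    · ring
    · rfl
  · rfl

/-- decay of `ρ` -/
lemma dec_rho (T : TwD m φ) (hf : DatN 3 (φ (-1)) (xi3 φ) f) :
    ∃ D : ℝ, ∀ u : ℂ, u ≠ 0 → ‖fOn 3 (xi3 φ) (1 / 2) (toC 1) 1 f u‖ ≤ D * ‖u‖ ^ 4 := by
  have C := xnC_tw (x := 1) T isCoprime_one_left
  obtain ⟨D, hD⟩ := decThmN 3 _ _ _ _ _ _ _ _ (xiP3 T) C _ hf 4
  have hw : wc m 1 φ ≠ 0 := by
    intro h0
    have h := wc_mul (x := 1) T isCoprime_one_left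
    rw [h0, zero_mul, zero_mul] at h
    have h2 := psi_neg_sq T.ch
    rw [← h] at h2
    simp at h2
  have hn : 0 < ‖wc m 1 φ‖ := norm_pos_iff.mpr hw
  refine ⟨D / ‖wc m 1 φ‖, fun u hu => ?_⟩
  have h1 := (hD u hu).1
  rw [fOn_B] at h1
  simp only at h1
  rw [norm_mul] at h1
  rw [div_mul_eq_mul_div, le_div_iff₀ hn]
  linarith

theorem evenAll : EvenAll := by
  intro m φ hm T
  refine ⟨1 / 2, toC 1, 1, xi3 φ lam, K0 m φ, _, _, xiP3 T, toC_ne_zero one_ne_zero, ?_⟩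
  intro f hf ν hν0 hν
  have hf' : DatN 3 (φ (-1)) (xi3 φ) f := hf
  have h := F1_even hm T hf' hν0 hν
  obtain ⟨D, hD⟩ := dec_rho T hf'
  set ρ : ℂ → ℂ := fOn 3 (xi3 φ) (1 / 2) (toC 1) 1 f with hρ
  set y := xi3 φ lam with hy
  have hmC : toC m ≠ 0 := toC_ne_zero hm.ne_zero
  have hνC : toC ν ≠ 0 := toC_ne_zero hν0
  have hs := toC_s3_ne
  have hb : bb = -(3 * toC s3) := by
    unfold bb
    rw [map_pow, lam_cube]
  -- the split of `g`
  have sg : ∀ (u : Eis) (t v : ℂ), t ≠ 0 → v = t / (3 * toC s3) →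
      Cgt (dph m φ) u (rc (gE y ρ) t) =
        (1 / 3) * Cw (du m φ) u (rc ρ v) - (y / 3) * Cw (du m φ) u (rc ρ (bb * v)) := by
    intro u t v ht hv
    have hv0 : v ≠ 0 := by
      rw [hv]; exact div_ne_zero ht (mul_ne_zero (by norm_num) hs)
    have hbv : bb * v = -t := by
      rw [hb, hv]; field_simp
    have hnt : -t ≠ 0 := neg_ne_zero.mpr ht
    have d1 := (rc_dc hD hv0).const_mul (1 / 3)
    have d2 := (rc_dc hD hnt).const_mul (-(y / 3))
    have e := Cw_add (norm_du_le hm T.ch) u d1 d2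
    rw [Cw_const_mul, Cw_const_mul] at e
    rw [hbv, cw_cgt]
    have e2 : (1 / 3) * Cw (du m φ) u (rc ρ v) - (y / 3) * Cw (du m φ) u (rc ρ (-t)) =
        (1 / 3) * Cw (du m φ) u (rc ρ v) + (-(y / 3)) * Cw (du m φ) u (rc ρ (-t)) := by ring
    rw [e2, ← e]
    apply Cw_congr
    intro d hd
    have hdC : toC d ≠ 0 := toC_ne_zero hd.ne_zero
    unfold rc gE
    have e3 : v / toC d = t / toC d / (3 * toC s3) := by
      rw [hv]; field_simp
    rw [e3, neg_div]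
    ring
  have hv : frq (toC (3 * m)) ν = toC ν / toC m / (3 * toC s3) := by
    unfold frq
    rw [map_mul, toC_three']
    field_simp
  have ht : toC ν / toC m ≠ 0 := div_ne_zero hνC hmC
  have g1 : Cgt (dph m φ) ν (rc (fun z => ρ (-z)) (toC ν / toC m)) =
      Cw (du m φ) ν (rc ρ (bb * frq (toC (3 * m)) ν)) := by
    rw [cw_cgt]
    apply Cw_congr
    intro d hd
    have : bb * frq (toC (3 * m)) ν = -(toC ν / toC m) := by
      rw [hb, hv]; field_simp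
    rw [this]
    unfold rc
    rw [neg_div]
  change LPr φ ν f = K0 m φ * φ ν * sy ν m * ((2 * y / 3) *
      Cgt (dph m φ) ν (rc (fun z => ρ (-z)) (toC ν / toC m)) +
      (1 * eC (frq 3 ν) + 1 * eC (-frq 3 ν)) *
        Cgt (dph m φ) ν (rc (gE y ρ) (toC ν / toC m)) +
      1 * ∑ δ ∈ Dl ν, Lam δ ν * (nm δ : ℂ)⁻¹ * dph m φ δ *
        Cgt (dph m φ) (δ * ν) (rc (gE y ρ) (toC ν / (toC m * toC δ))))
  rw [lpr_cw, h, g1, sg ν _ _ ht hv]
  have e0 : ∑ δ ∈ Dl ν, Lam δ ν * (nm δ : ℂ)⁻¹ * dph m φ δ *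
        Cgt (dph m φ) (δ * ν) (rc (gE y ρ) (toC ν / (toC m * toC δ))) =
      ∑ δ ∈ Dl ν, Lam δ ν * (((nm δ : ℝ)⁻¹ : ℝ) : ℂ) * (du m φ δ *
          ((1 / 3) * Cw (du m φ) (δ * ν) (rc ρ (frq (toC (3 * m)) ν / toC δ)) -
          (y / 3) * Cw (du m φ) (δ * ν) (rc ρ (bb * (frq (toC (3 * m)) ν / toC δ))))) := by
    refine Finset.sum_congr rfl fun δ hδ => ?_
    have hδ0 : δ ≠ 0 := ((mem_Dl hν0).mp hδ).1.1
    have hδC : toC δ ≠ 0 := toC_ne_zero hδ0
    rw [sg (δ * ν) (toC ν / (toC m * toC δ)) (frq (toC (3 * m)) ν / toC δ)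
      (div_ne_zero hνC (mul_ne_zero hmC hδC)) (by rw [hv]; field_simp)]
    have e4 : dph m φ δ = du m φ δ := rfl
    rw [e4]
    push_cast
    ring
  rw [e0]
  ring

end Crest.Agent.R017.Tw3
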