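import Crest.Agent.R017.Tw3F_541
import Crest.Agent.R017.Hi3_681

/-!
# Row 17, twisted cubic F1, wrong parity (helper266), part 1: law and vector pair

`s = -ψ(-1)`, level `3m`: the symmetrised law of `A4` is `e4 i j (AP h - AP (-h))`, `e4` a skew
conference matrix of order 4.
-/

set_option autoImplicit false

noncomputable section

open Complex MeasureTheory Set
open scoped ComplexConjugate

namespace Crest.Agent.R017.Tw3P266

open Crest.Agent.R012 Crest.Agent.R012.Eis Crest.Agent.R012.Gauss880 Crest.Agent.R012.Mob705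
open Crest.Agent.R012.Sym645 (prim_nm_mod)
open Crest.Agent.R012.K695 (det2 n2 Vec EC rowv)
open Crest.Agent.R017.Orth681 Crest.Agent.R017.F1 Crest.Agent.R017.Loc266
open Crest.Agent.R017.Xn590 Crest.Agent.R017.GlueV266 Crest.Agent.R017.Tw3
open Crest.Agent.R017.Glue681

variable {m x : Eis} {ψ : Eis → ℂ}

/-! ### the matrix -/

/-- skew conference matrix of order 4 -/
def e4 (i j : Fin 4) : ℤ := ![![0, 1, 1, 1], ![-1, 0, -1, 1], ![-1, 1, 0, -1], ![-1, -1, 1, 0]] i j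

lemma e4_self : ∀ i, e4 i i = 0 := by decide

lemma e4_zero_left : ∀ j, j ≠ 0 → e4 0 j = 1 := by decide

lemma e4_zero_right : ∀ i, i ≠ 0 → e4 i 0 = -1 := by decide

lemma e4_sum : ∀ n j : Fin 4, ∑ k, e4 n k * e4 k j = if n = j then -3 else 0 := by decide

lemma e4_skew : ∀ i j : Fin 4, e4 j i = -e4 i j := by decide

lemma e4_abs : ∀ i j : Fin 4, e4 i j = 0 ∨ e4 i j = 1 ∨ e4 i j = -1 := by decide

lemma diff_e4 {i j : Fin 4} (hi : i ≠ 0) (hj : j ≠ 0) (hij : i ≠ j) :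
    (e4 i j = 1 ∧ (3 : Eis) ∣ (t4 i - t4 j) - 1) ∨ (e4 i j = -1 ∧ (3 : Eis) ∣ (t4 i - t4 j) - -1) := by
  fin_cases i <;> fin_cases j <;> first
    | exact absurd rfl hi
    | exact absurd rfl hj
    | exact absurd rfl hij
    | skip
  · exact Or.inr ⟨rfl, ⟨0, by simp [t4]⟩⟩
  · exact Or.inl ⟨rfl, ⟨0, by simp [t4]⟩⟩
  · exact Or.inl ⟨rfl, ⟨0, by simp [t4]⟩⟩
  · exact Or.inr ⟨rfl, ⟨1, by simp only [t4]; simp; ring⟩⟩
  · exact Or.inr ⟨rfl, ⟨0, by simp [t4]⟩⟩
  · exact Or.inl ⟨rfl, ⟨-1, by simp only [t4]; simp; ring⟩⟩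

/-! ### the level-three sums -/

lemma V4_def (i j : Fin 4) (h : Eis) :
    V4 i j h = sumMod (h * 3) (fun y => a4 j (rmulS (h, y) (g4 i))) := rfl

lemma V4_ne {i j : Fin 4} (hij : i ≠ j) :
    (e4 i j = 1 ∧ ∀ h : Eis, h ≠ 0 → V4 i j h = AP h) ∨
    (e4 i j = -1 ∧ ∀ h : Eis, h ≠ 0 → V4 i j h = AP (-h)) := by
  by_cases hi : i = 0
  · subst hi
    left
    have hj : j ≠ 0 := hij.symm
    refine ⟨e4_zero_left j hj, fun h h0 => ?_⟩
    rw [V4_def, mul_comm, ← sum_aF (inL3 (t4_cases j)) h0]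
    refine sumMod_congr fun y => ?_
    have : g4 0 = 1 := rfl
    rw [this, rmulS_one, a4_pos hj]
  · by_cases hj : j = 0
    · subst hj
      right
      refine ⟨e4_zero_right i hi, fun h h0 => ?_⟩
      rw [V4_def, mul_comm]
      unfold AP
      rw [← sum_neg_arg h0 (pmod_aF 0 (-h))]
      refine sumMod_congr fun y => ?_
      rw [g4_pos hi, rmulS_gt]
      exact pt_inf (t4_cases i) h y
    · rcases diff_e4 hi hj hij with ⟨h1, h3⟩ | ⟨h1, h3⟩
      · left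
        refine ⟨h1, fun h h0 => ?_⟩
        rw [V4_def, mul_comm, ← sum_aF (t := 1) (by simp [inL]) h0]
        refine sumMod_congr fun y => ?_
        rw [g4_pos hi, a4_pos hj, rmulS_gt,
          pt_ne (inL3 (t4_cases j)) h3 (Or.inl rfl) h y, one_mul]
      · right
        refine ⟨h1, fun h h0 => ?_⟩
        rw [V4_def, mul_comm, ← sum_aF (t := 1) (by simp [inL]) (neg_ne_zero.mpr h0),
          ← sum_neg_arg h0 (pmod_aF 1 (-h))]
        refine sumMod_congr fun y => ?_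
        rw [g4_pos hi, a4_pos hj, rmulS_gt,
          pt_ne (inL3 (t4_cases j)) h3 (Or.inr rfl) h y, neg_one_mul]

lemma aI_neg (h y : Eis) : aI (-h, y) = aI (h, y) := by
  classical
  by_cases h3 : (3 : Eis) ∣ h
  · rw [aI_dvd h3, aI_dvd ((dvd_neg).mpr h3)]
    by_cases hy : IsPrim y
    · rw [if_pos hy, if_pos hy, Sym645.sy_neg (prim_nm_mod hy)]
    · rw [if_neg hy, if_neg hy]
  · rw [aI_not_dvd h3, aI_not_dvd (fun h' => h3 ((dvd_neg).mp h'))]

lemma AA_neg {h : Eis} (h0 : h ≠ 0) : AA (-h) = AA h := by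
  unfold AA
  rw [← sum_neg_arg h0 (pmod_aI (-h))]
  exact sumMod_congr fun y => aI_neg h y

/-- **the antisymmetric part** -/
lemma V4_anti (i j : Fin 4) {h : Eis} (h0 : h ≠ 0) :
    V4 i j h - V4 i j (-h) = (e4 i j : ℂ) * (AP h - AP (-h)) := by
  have h0' := neg_ne_zero.mpr h0
  by_cases hij : i = j
  · subst hij
    rw [e4_self, V4_def, V4_def, sumW_same, sumW_same, AA_neg h0]
    simp
  · rcases V4_ne hij with ⟨h1, H⟩ | ⟨h1, H⟩
    · rw [h1, H h h0, H (-h) h0']; simp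
    · rw [h1, H h h0, H (-h) h0', neg_neg]; push_cast; ring

/-! ### the weight -/

/-- the odd weight -/
def Uo (h : Eis) : ℂ := (AP h - AP (-h)) / nm h

lemma Uo_neg (h : Eis) : Uo (-h) = -Uo h := by
  unfold Uo
  rw [neg_neg, nm_neg]; ring

lemma Uo_ncube {h : Eis} (h0 : h ≠ 0) (hn : ¬ ∃ e, h = e ^ 3) : Uo h = 0 := by
  have hn' := not_cube_neg hn
  have h0' := neg_ne_zero.mpr h0
  have a1 := Ac_not_cube h0 hn
  have a2 := Ac_not_cube h0' hn'
  have hP : ∀ z : Eis, z ≠ 0 → Ac z = 0 → AP z = 0 := by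
    intro z hz hAc
    by_cases hp : IsPrim z
    · rw [AP_prim hp, hAc, mul_zero]
    · exact AP_zero hz hp
  unfold Uo
  rw [hP h h0 a1, hP (-h) h0' a2]
  simp

lemma Uo_lam {n : Eis} (hn : n ≠ 0) (hl : lam ∣ n) : Uo (n ^ 3) = 0 := by
  unfold Uo
  have h3 := three_dvd_cube hl
  rw [AP_zero (pow_ne_zero 3 hn) (fun h => F1.not_three_prim h h3),
    AP_zero (neg_ne_zero.mpr (pow_ne_zero 3 hn))
      (fun h => F1.not_three_prim h ((dvd_neg).mpr h3)), sub_zero, zero_div]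

lemma Uo_prim {n : Eis} (hl : ¬ lam ∣ n) (hp : IsPrim (n ^ 3)) : Uo (n ^ 3) = (PE n : ℂ) := by
  have hn : n ≠ 0 := by rintro rfl; exact hl (dvd_zero _)
  unfold Uo
  have h1 := nmC_ne (pow_ne_zero 3 hn)
  rw [AP_cube hl hp, AP_zero (neg_ne_zero.mpr (pow_ne_zero 3 hn)) (F1.not_prim_neg hp)]
  push_cast
  field_simp
  ring

lemma Uo_nprim {n : Eis} (hl : ¬ lam ∣ n) (hp : IsPrim (-(n ^ 3))) :
    Uo (n ^ 3) = -(PE n : ℂ) := by
  have hn : n ≠ 0 := by rintro rfl; exact hl (dvd_zero _)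
  have hl' : ¬ lam ∣ -n := fun h => hl ((dvd_neg).mp h)
  have e : -(n ^ 3) = (-n) ^ 3 := by ring
  have h1 := Uo_prim hl' (by rw [← e]; exact hp)
  rw [← e, Uo_neg, PE_neg hn] at h1
  linear_combination -h1

lemma bdd_Uo : Bdd Uo := by
  refine ⟨1, fun h => ?_⟩
  by_cases h0 : h = 0
  · subst h0; simp [Uo]
  by_cases hn : ∃ e, h = e ^ 3
  · obtain ⟨n, rfl⟩ := hn
    have hn0 : n ≠ 0 := by rintro rfl; exact h0 (by simp)
    have p1 := (PE_pos n).le
    have p2 := PE_le_one n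
    by_cases hl : lam ∣ n
    · rw [Uo_lam hn0 hl]; norm_num
    · rcases F1.prim_or_neg hl with hp | hp
      · rw [Uo_prim hl hp, Complex.norm_real, Real.norm_eq_abs, abs_of_nonneg p1]; exact p2
      · rw [Uo_nprim hl hp, norm_neg, Complex.norm_real, Real.norm_eq_abs, abs_of_nonneg p1]
        exact p2
  · rw [Uo_ncube h0 hn]; norm_num

/-! ### the law -/

/-- **the law, wrong parity** -/
theorem lawV_o (T : TwD m ψ) (j0 : Fin 4) :
    LawV (3 * m) (RG m) (-ψ (-1))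
      (fun k h => (tc m x ψ / 2) * (ψ h * ((e4 k j0 : ℂ) * Uo h)))
      (A4 m x ψ j0) (fun k => A4 m x (fun z => conj (ψ z)) k) := by
  classical
  intro g hg h h0
  obtain ⟨⟨i, hi⟩, hc⟩ := hg
  have h0' := neg_ne_zero.mpr h0
  have hss := psi_neg_sq T.ch
  rw [law_A4 T hi hc h0, law_A4 T hi hc h0', Finset.sum_eq_single i]
  · have e1 : ψ (-h) = ψ (-1) * ψ h := by rw [← T.ch.mul]; congr 1; ring
    have e2 := V4_anti i j0 h0
    have hn := nmC_ne h0
    rw [e1]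
    simp only
    have e3 : ((e4 i j0 : ℂ) * Uo h) * nm h = V4 i j0 h - V4 i j0 (-h) := by
      rw [e2]
      unfold Uo
      field_simp
    unfold tc
    set R := A4 m x (fun z => conj (ψ z)) i (br g)
    set τ := gl (fun z => conj (ψ z)) 1 m
    linear_combination (-(ψ (-x) * τ * ψ h * R)) * e3 -
      (V4 i j0 (-h) * ψ (-x) * ψ h * τ * R) * hss
  · intro k _ hk
    simp only
    have : A4 m x (fun z => conj (ψ z)) k (br g) = 0 := by
      unfold A4
      rw [a4_disj hi hk, zero_mul]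
    rw [this, mul_zero]
  · intro h; exact absurd (Finset.mem_univ _) h

/-! ### the vector pair -/

lemma bdd_wU (hm : m ≠ 0) (hψ : IsCh m ψ) (a : ℂ) (z : ℤ) :
    Bdd (fun h => a * (ψ h * ((z : ℂ) * Uo h))) :=
  bdd_cm (bdd_psi hm hψ (bdd_cm bdd_Uo _)) _

theorem pairV_o (hm : m ≠ 0) (hψ : IsCh m ψ) {s w w' : ℂ} {F0 F0' : Vec → ℂ}
    (hp : PairW s (fun h => w * (ψ h * Uo h)) (fun h => w' * (conj (ψ h) * Uo h)) F0 F0')
    (j0 : Fin 4) :
    PairV s j0 (fun k h => w * (ψ h * ((e4 k j0 : ℂ) * Uo h)))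
      (fun k n h => (-(w' / 3)) * (conj (ψ h) * ((e4 n k : ℂ) * Uo h)))
      F0 (fun k u => (e4 k j0 : ℂ) * F0' u) := by
  refine ⟨fun k => bdd_wU hm hψ _ _, fun k n => bdd_wU hm hψ.conj _ _, hp.tst,
    fun k => tst_smul _ hp.tst', ?_, ?_⟩
  · intro k M hM
    have e1 : (fun h => w * (ψ h * ((e4 k j0 : ℂ) * Uo h))) =
        fun h => (e4 k j0 : ℂ) * (w * (ψ h * Uo h)) := by funext h; ring
    rw [e1, opW_smulW, hp.m1 M hM, scl_smul]
  · intro n M hM
    have e1 : ∀ k, opW (fun h => (-(w' / 3)) * (conj (ψ h) * ((e4 n k : ℂ) * Uo h)))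
        (scl (det2 M) (fun u => (e4 k j0 : ℂ) * F0' u)) M =
        (-(1 / 3) * ((e4 n k * e4 k j0 : ℤ) : ℂ)) * F0 M.2 := by
      intro k
      have e2 : (fun h => (-(w' / 3)) * (conj (ψ h) * ((e4 n k : ℂ) * Uo h))) =
          fun h => (-(1 / 3) * (e4 n k : ℂ)) * (w' * (conj (ψ h) * Uo h)) := by funext h; ring
      rw [e2, opW_smulW, scl_smul, Glue681.opW_smulF, hp.m2 M hM]
      push_cast
      ring
    simp only [e1]
    rw [← Finset.sum_mul, ← Finset.mul_sum, ← Int.cast_sum, e4_sum]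
    by_cases h : n = j0
    · rw [if_pos h, if_pos h]; push_cast; ring
    · rw [if_neg h, if_neg h]; simp

end Crest.Agent.R017.Tw3P266
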