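import Crest.Agent.R017.Tw3P1_266
import Crest.Agent.R017.NL1_64
import Crest.Agent.R017.Cond1_499

/-!
# Row 17, twisted cubic F1, wrong parity (helper266), part 2: `ξ`, constants, glue, coefficients

* `xo ψ z = ψ(z)³ qd z`, `qd` = the quadratic character modulo `√-3`
* `coef_o` : the coefficient identity
-/

set_option autoImplicit false

noncomputable section

open Complex MeasureTheory Set
open scoped ComplexConjugate SchwartzMap

namespace Crest.Agent.R017.Tw3P266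

open Crest.Agent.R012 Crest.Agent.R012.Eis Crest.Agent.R012.Gauss880 Crest.Agent.R012.Mob705
open Crest.Agent.R012.Sym645 (prim_nm_mod)
open Crest.Agent.R012.K695 (det2 n2 Vec EC rowv)
open Crest.Agent.R012.Parseval499 (par covol frq s3 covol_pos toC_s3_ne)
open Crest.Agent.R017.Orth681 Crest.Agent.R017.F1 Crest.Agent.R017.Loc266
open Crest.Agent.R017.Xn590 Crest.Agent.R017.GlueV266 Crest.Agent.R017.Tw3
open Crest.Agent.R017.Glue681

variable {m x : Eis} {ψ : Eis → ℂ}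

/-! ### the quadratic character modulo `√-3` -/

def q3 (a : ZMod 3) : ℤ := ![0, 1, -1] a

lemma q3_mul : ∀ a b : ZMod 3, q3 (a * b) = q3 a * q3 b := by decide

lemma q3_cases : ∀ a : ZMod 3, (a = 0 ∧ q3 a = 0) ∨ (a = 1 ∧ q3 a = 1) ∨ (a = -1 ∧ q3 a = -1) := by
  decide

lemma q3_cube : ∀ a : ZMod 3, a ^ 3 = a := by decide

/-- residue -/
def r3 (z : Eis) : ZMod 3 := (z.re : ZMod 3) + z.im

lemma r3_mul (a b : Eis) : r3 (a * b) = r3 a * r3 b := by
  unfold r3
  rw [re_mul', im_mul']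
  push_cast
  have h3 : (3 : ZMod 3) = 0 := by decide
  linear_combination (-(a.im : ZMod 3) * b.im) * h3

lemma r3_add (a b : Eis) : r3 (a + b) = r3 a + r3 b := by
  unfold r3
  have h1 : (a + b).re = a.re + b.re := rfl
  have h2 : (a + b).im = a.im + b.im := rfl
  rw [h1, h2]
  push_cast
  ring

lemma r3_one : r3 1 = 1 := by decide

lemma r3_sq3 : r3 sq3 = 0 := by decide

lemma r3_congr {a b : Eis} (h : sq3 ∣ a - b) : r3 a = r3 b := by
  obtain ⟨t, ht⟩ := h
  have : a = b + sq3 * t := by linear_combination ht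
  rw [this, r3_add, r3_mul, r3_sq3, zero_mul, add_zero]

/-- the quadratic character modulo `√-3` -/
def qd (z : Eis) : ℂ := ((q3 (r3 z) : ℤ) : ℂ)

lemma qd_mul (a b : Eis) : qd (a * b) = qd a * qd b := by
  unfold qd
  rw [r3_mul, q3_mul]
  push_cast
  rfl

lemma qd_one : qd 1 = 1 := by
  unfold qd
  rw [r3_one]
  have : q3 1 = 1 := rfl
  rw [this]; norm_num

lemma qd_congr {a b : Eis} (h : sq3 ∣ a - b) : qd a = qd b := by
  unfold qd; rw [r3_congr h]

lemma qd_neg_one : qd (-1) = -1 := by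
  unfold qd
  have : q3 (r3 (-1)) = -1 := by decide
  rw [this]; norm_num

lemma conj_qd (z : Eis) : conj (qd z) = qd z := by
  unfold qd
  simp

lemma qd_zero {z : Eis} (h : sq3 ∣ z) : qd z = 0 := by
  unfold qd
  have : r3 z = 0 := by
    obtain ⟨t, rfl⟩ := h
    rw [r3_mul, r3_sq3, zero_mul]
  rw [this]
  have : q3 0 = 0 := rfl
  rw [this]; norm_num

lemma qd_prim {z : Eis} (h : IsPrim z) : qd z = 1 := by
  rw [← qd_one]
  apply qd_congr
  exact Dvd.dvd.trans ⟨-sq3, by linear_combination sq3_sq⟩ h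

/-! ### the character `ξ` -/

/-- `ψ³ qd` -/
def xo (ψ : Eis → ℂ) (z : Eis) : ℂ := ψ z ^ 3 * qd z

lemma xo_conj (ψ : Eis → ℂ) : xo (fun z => conj (ψ z)) = fun z => conj (xo ψ z) := by
  funext z
  unfold xo
  rw [map_mul, map_pow, conj_qd]

lemma sq3_cop (hlm : ¬ lam ∣ m) : IsCoprime sq3 m := by
  refine (LamP64.prime_sq3.irreducible.coprime_iff_not_dvd).mpr fun h => hlm ?_
  exact associated_lam_sq3.dvd.trans h

lemma isCh_xo (hψ : IsCh m ψ) : IsCh (sq3 * m) (xo ψ) where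
  one := by unfold xo; rw [hψ.one, qd_one]; norm_num
  mul a b := by unfold xo; rw [hψ.mul, qd_mul]; ring
  per a t := by
    unfold xo
    have h1 : ψ (a + sq3 * m * t) = ψ a := by
      rw [show a + sq3 * m * t = a + m * (sq3 * t) by ring, hψ.per]
    rw [h1, qd_congr (a := a + sq3 * m * t) (b := a) ⟨m * t, by ring⟩]
  zero a h := by
    unfold xo
    by_cases ha : IsCoprime a m
    · have : sq3 ∣ a := by
        by_contra hn
        exact h (((LamP64.prime_sq3.irreducible.coprime_iff_not_dvd).mpr hn).symm.mul_right ha)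
      rw [qd_zero this, mul_zero]
    · rw [hψ.zero a ha]; ring

lemma prp_xo (T : TwD m ψ) : Prp (sq3 * m) (xo ψ) := by
  have hcop := sq3_cop T.lm
  intro p hp hpm
  have hdiv : ∀ {z : Eis}, sq3 ∣ z → m ∣ z → sq3 * m ∣ z := fun h1 h2 => hcop.mul_dvd h1 h2
  rcases hp.dvd_or_dvd hpm with h | h
  · have hs : sq3 ∣ p := (hp.associated_of_dvd LamP64.prime_sq3 h).symm.dvd
    obtain ⟨u, h1, h2⟩ := Cond499.crt_two hcop (-1) 1
    have hum : IsCoprime u m := Cond499.cop_one_sub h2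
    have hus : IsCoprime u sq3 := by
      refine Cond499.cop_of_sub h1 ?_
      exact isCoprime_of_isUnit isUnit_one.neg _
    refine ⟨u, hus.mul_right hum, hdiv (hs.mul_left _) (h2.mul_right _), ?_⟩
    unfold xo
    have e1 : ψ u = 1 := by rw [T.ch.per.congr h2, T.ch.one]
    rw [e1, qd_congr h1, qd_neg_one]
    norm_num
  · obtain ⟨u0, hu0, hd0, hne⟩ := T.p3 p hp h
    obtain ⟨u, h1, h2⟩ := Cond499.crt_two hcop 1 u0
    have hum : IsCoprime u m := Cond499.cop_of_sub h2 hu0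
    have hus : IsCoprime u sq3 := Cond499.cop_one_sub h1
    refine ⟨u, hus.mul_right hum, hdiv (h1.mul_right _) ?_, ?_⟩
    · have : (u - 1) * p = (u - u0) * p + (u0 - 1) * p := by ring
      rw [this]
      exact dvd_add (h2.mul_right _) hd0
    · unfold xo
      rw [T.ch.per.congr h2, qd_congr h1, qd_one, mul_one]
      exact hne

lemma sm_ne (T : TwD m ψ) : sq3 * m ≠ 0 := mul_ne_zero sq3_ne_zero T.m0

/-- Poisson for a primitive character -/
theorem xiP_prm {n : Eis} (hn : n ≠ 0) {ξ : Eis → ℂ} (h1 : IsCh n ξ) (h2 : Prm n ξ) :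
    XiP ξ (toC sq3 * toC n) (((2 / (Real.sqrt 3 * nm n) : ℝ) : ℂ) * gl ξ 1 n) where
  mul := h1.mul
  le1 := h1.norm_le_one hn
  κ0 := mul_ne_zero (toC_ne_zero sq3_ne_zero) (toC_ne_zero hn)
  c0 := by
    have hm : nm n ≠ 0 := (nm_pos.mpr hn).ne'
    have hτ : gl ξ 1 n ≠ 0 := by
      intro h0
      have := norm_gl_sq hn h1 h2
      rw [h0] at this
      simp at this
      exact hm (by exact_mod_cast this.symm)
    refine mul_ne_zero ?_ hτ
    have h3 : Real.sqrt 3 ≠ 0 := by positivity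
    have h4 : (nm n : ℝ) ≠ 0 := by exact_mod_cast hm
    exact_mod_cast div_ne_zero two_ne_zero (mul_ne_zero h3 h4)
  pois F := by
    have h := Tau671.poisson_pf (f := F) (Tau671.PF.of_schwartz F) hn h1.per
    rw [h, mul_assoc, ← tsum_mul_left (a := gl ξ 1 n)]
    congr 1
    refine tsum_congr fun k => ?_
    have e : sumMod n (fun a => ξ a * eC (toC k * toC a / (toC sq3 * toC n))) =
        conj (ξ k) * gl ξ 1 n :=
      gl_prim hn h1 h2 k
    rw [e]; ring

/-- the Poisson constant -/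
def po (m : Eis) (ψ : Eis → ℂ) : ℂ :=
  ((2 / (Real.sqrt 3 * nm (sq3 * m)) : ℝ) : ℂ) * gl (xo ψ) 1 (sq3 * m)

theorem xiPo (T : TwD m ψ) : XiP (xo ψ) (toC sq3 * toC (sq3 * m)) (po m ψ) :=
  xiP_prm (sm_ne T) (isCh_xo T.ch) (prm_of_prp (sm_ne T) (prp_xo T))

/-! ### the constants -/

/-- `w = tc / (2 covol)` -/
def wo (m x : Eis) (ψ : Eis → ℂ) : ℂ := (1 / 2) * ((covol (toC (3 * m)) : ℂ)⁻¹ * tc m x ψ)

lemma wo_mul (T : TwD m ψ) (hx : IsCoprime x m) :
    wo m x ψ * (-3 * wo m x (fun z => conj (ψ z))) * (27 * (3 * nm m)) = -ψ (-1) := by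
  have h := wc_mul T hx
  have e : ∀ φ : Eis → ℂ, wo m x φ = (1 / 3) * wc m x φ := by
    intro φ; unfold wo wc; ring
  rw [e, e]
  linear_combination -h

theorem xnC_o (T : TwD m ψ) (hx : IsCoprime x m) :
    XnC 3 (-ψ (-1)) (toC sq3 * toC (sq3 * m)) (1 / 2) (toC 1) (wo m x ψ)
      (-3 * wo m x (fun z => conj (ψ z))) where
  n2 := by norm_num
  s1 := by
    rcases s_cases T.ch with h | h
    · right; rw [h]
    · left; rw [h]; norm_num
  V0 := by norm_num
  h0 := toC_ne_zero one_ne_zero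
  cst := by
    have h3 : nm sq3 = 3 := by decide
    rw [norm_kap, nm_mul, h3]
    have h := wo_mul T hx
    push_cast
    linear_combination (1 / 4 : ℂ) * h

lemma Uo_pow (j : Eis) (hj : j ≠ 0) : Uo (j ^ 3) = qd j * (PL j : ℂ) := by
  by_cases hl : lam ∣ j
  · rw [Uo_lam hj hl, qd_zero (associated_lam_sq3.symm.dvd.trans hl), zero_mul]
  · have hPL : PL j = PE j := by
      unfold F1.PL
      rw [if_neg hl, one_mul]
    have h3 : r3 (j ^ 3) = r3 j := by
      rw [pow_succ, pow_two, r3_mul, r3_mul]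
      have := q3_cube (r3 j)
      rw [← this]; ring_nf
      have h9 : ∀ a : ZMod 3, a ^ 9 = a ^ 3 := by decide
      rw [h9]
    have hq : qd (j ^ 3) = qd j := by unfold qd; rw [h3]
    rcases F1.prim_or_neg hl with hp | hp
    · rw [Uo_prim hl hp, hPL, ← hq, qd_prim hp, one_mul]
    · have h4 : qd (j ^ 3) = -1 := by
        have h5 := qd_prim hp
        rw [show -(j ^ 3) = (-1) * j ^ 3 by ring, qd_mul, qd_neg_one] at h5
        linear_combination -h5
      rw [Uo_nprim hl hp, hPL, ← hq, h4]; ring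

theorem baseW_o (hψ : IsCh m ψ) (w : ℂ) :
    BaseW 3 1 (-ψ (-1)) w (xo ψ) (fun h => w * (ψ h * Uo h)) where
  pow j hj := by
    rw [one_mul, Uo_pow j hj]
    have : ψ (j ^ 3) = ψ j ^ 3 := by
      rw [pow_succ, pow_two, hψ.mul, hψ.mul]
      ring
    rw [this]
    unfold xo
    ring
  par h := by
    have e1 : ψ (-h) = ψ (-1) * ψ h := by rw [← hψ.mul]; congr 1; ring
    rw [e1, Uo_neg]; ring
  supp h h0 hne := by
    have h1 : Uo h ≠ 0 := fun h' => hne (by rw [h']; simp)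
    by_contra hc
    push Not at hc
    exact h1 (Uo_ncube h0 (fun ⟨e, he⟩ => (hc e).1 (by rw [one_mul]; exact he)))

theorem pairo (T : TwD m ψ) (hx : IsCoprime x m) {f : ℂ → ℂ}
    (hf : DatN 3 (-ψ (-1)) (xo ψ) f) (k : 𝓢(ℂ, ℂ)) :
    PairW (-ψ (-1)) (fun h => wo m x ψ * (ψ h * Uo h))
      (fun h => (-3 * wo m x (fun z => conj (ψ z))) * (conj (ψ h) * Uo h))
      (FPn 3 (xo ψ) f k) (FOn 3 (xo ψ) (1 / 2) (toC 1) (wo m x ψ) f k) := by
  have h2 : BaseW 3 1 (-ψ (-1)) (-3 * wo m x (fun z => conj (ψ z))) (fun j => conj (xo ψ j))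
      (fun h => (-3 * wo m x (fun z => conj (ψ z))) * (conj (ψ h) * Uo h)) := by
    have := baseW_o T.ch.conj (-3 * wo m x (fun z => conj (ψ z)))
    rw [xo_conj, conj_neg_one T.ch] at this
    exact this
  exact pair_base (n := 3) (by norm_num) (dvd_refl 3) one_ne_zero (xnC_o T hx).s1
    (baseW_o T.ch _) h2 (bdd_cm (bdd_psi T.m0 T.ch bdd_Uo) _)
    (bdd_cm (bdd_psi T.m0 T.ch.conj bdd_Uo) _) (V := 1 / 2) (by norm_num)
    (by push_cast; ring) (by push_cast; ring)
    (Xn960.pairThmN 3 _ _ _ _ _ _ _ _ (xiPo T) (xnC_o T hx) f k hf)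

/-! ### the glue -/

theorem glue_o (T : TwD m ψ) (hx : IsCoprime x m) {f : ℂ → ℂ}
    (hf : DatN 3 (-ψ (-1)) (xo ψ) f) (k : 𝓢(ℂ, ℂ)) (j0 : Fin 4) {M : K695.Frm}
    (hM : det2 M ≠ 0) :
    EC (A4 m x ψ j0) (FPn 3 (xo ψ) f k) M =
      ∑ i, EC (A4 m x (fun z => conj (ψ z)) i) (scl (det2 M) (fun u => (e4 i j0 : ℂ) *
        FOn 3 (xo ψ) (1 / 2) (toC 1) (wo m x ψ) f k u)) M := by
  classical
  have h30 : (3 : Eis) ≠ 0 := by decide
  have hN : (3 * m : Eis) ≠ 0 := mul_ne_zero h30 T.m0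
  refine glueV hN (χ := chiM m) norm_chiM (s := -ψ (-1)) (Rg := RG m)
    (W := fun k h => (tc m x ψ / 2) * (ψ h * ((e4 k j0 : ℂ) * Uo h)))
    (W' := fun k n h => (tc m x (fun z => conj (ψ z)) / 2) *
      (conj (ψ h) * ((e4 n k : ℂ) * Uo h)))
    (m₀ := j0) (am := fun n => A4 m x ψ n) rfl (cof_A4 T.m0 T.ch j0)
    (fun k => cof_A4 T.m0 T.ch.conj k) (fun g h => rg_of_ne T.ch h)
    (fun k g h => rg_of_ne T.ch.conj h) (lawV_o T j0) ?_ (fun g hg => unit_A4 hg j0)
    (fun k g hg => unit_A4 hg k) ?_ hM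
  · intro k
    have h := lawV_o (x := x) T.conj k
    simp only [conj_neg_one T.ch, Complex.conj_conj] at h
    exact h
  · have hp := pairV_o T.m0 T.ch (pairo T hx hf k) j0
    have e1 : (fun k h => (covol (toC (3 * m)) : ℂ)⁻¹ *
        ((tc m x ψ / 2) * (ψ h * ((e4 k j0 : ℂ) * Uo h)))) =
        fun k h => wo m x ψ * (ψ h * ((e4 k j0 : ℂ) * Uo h)) := by
      funext k h
      unfold wo
      ring
    have e2 : (fun k n h => (covol (toC (3 * m)) : ℂ)⁻¹ *
        ((tc m x (fun z => conj (ψ z)) / 2) * (conj (ψ h) * ((e4 n k : ℂ) * Uo h)))) =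
        fun (k n : Fin 4) h => (-((-3 * wo m x (fun z => conj (ψ z))) / 3)) *
          (conj (ψ h) * ((e4 n k : ℂ) * Uo h)) := by
      funext k n h
      unfold wo
      ring
    rw [e1, e2]
    exact hp

/-! ### the coefficient identity -/

/-- **The coefficient identity, wrong parity.** -/
theorem coef_o (T : TwD m ψ) (hx : IsCoprime x m) {f : ℂ → ℂ}
    (hf : DatN 3 (-ψ (-1)) (xo ψ) f) (j0 : Fin 4) {ν : Eis} (hν : ν ≠ 0) :
    Coef92.LS 3 (xo ψ) f (A4 m x ψ j0) (3 * m) ν =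
      ∑ i, (e4 i j0 : ℂ) * Coef92.RS 3 (xo ψ) (1 / 2) (toC 1) (wo m x ψ) f
        (A4 m x (fun z => conj (ψ z)) i) (3 * m) ν := by
  classical
  have h30 : (3 : Eis) ≠ 0 := by decide
  have hN : (3 * m : Eis) ≠ 0 := mul_ne_zero h30 T.m0
  have X := xiPo T
  have C := xnC_o T hx
  obtain ⟨k, hk⟩ := Coef92.exists_phat_ne (frq (toC (3 * m)) ν)
  have P0 := Xn960.pairThmN 3 _ _ _ _ _ _ _ _ X C _ k hf
  obtain ⟨K, hK⟩ := (cof_A4 (x := x) T.m0 T.ch j0).bdd
  have hK' := fun i => (cof_A4 (x := x) T.m0 T.ch.conj i).bdd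
  choose K' hK' using hK'
  have h1 := Coef92.coef_FP (k := k) (a := A4 m x ψ j0) P0.tst hK hN
    (fun c _ => per_A4 T.m0 T.ch j0 c) hν
  have h2 := fun i => Coef92.coef_FO (k := k) (a := A4 m x (fun z => conj (ψ z)) i) coefThmN X C
    hf P0.tst' (hK' i) hN (fun c _ => per_A4 T.m0 T.ch.conj i c) hν
  have h3 : ∫ z in par (toC (3 * m)), EC (A4 m x ψ j0)
        (FPn 3 (xo ψ) f k) (Coef92.stF z) *
          eC (-(frq (toC (3 * m)) ν * z)) =
      ∫ z in par (toC (3 * m)), ∑ i, (e4 i j0 : ℂ) * (EC (A4 m x (fun z => conj (ψ z)) i)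
        (FOn 3 (xo ψ) (1 / 2) (toC 1) (wo m x ψ) f k) (Coef92.stF z) *
          eC (-(frq (toC (3 * m)) ν * z))) := by
    refine integral_congr_ae (Filter.Eventually.of_forall fun z => ?_)
    simp only
    have hg := glue_o T hx hf k j0 (M := Coef92.stF z) (by rw [Coef92.det2_stF]; exact one_ne_zero)
    rw [Coef92.det2_stF] at hg
    simp only [scl_one] at hg
    rw [hg, Finset.sum_mul]
    refine Finset.sum_congr rfl fun i _ => ?_
    have e1 : EC (A4 m x (fun z => conj (ψ z)) i) (fun u => (e4 i j0 : ℂ) *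
        FOn 3 (xo ψ) (1 / 2) (toC 1) (wo m x ψ) f k u) (Coef92.stF z) =
        (e4 i j0 : ℂ) * EC (A4 m x (fun z => conj (ψ z)) i)
          (FOn 3 (xo ψ) (1 / 2) (toC 1) (wo m x ψ) f k) (Coef92.stF z) := by
      unfold EC
      rw [← tsum_mul_left]
      refine tsum_congr fun r => ?_
      ring
    rw [e1]; ring
  rw [h1, integral_finsetSum] at h3
  · simp only [integral_const_mul, h2] at h3
    have e2 : ∀ i, (e4 i j0 : ℂ) * (Coef92.RS 3 (xo ψ) (1 / 2) (toC 1) (wo m x ψ) f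
        (A4 m x (fun z => conj (ψ z)) i) (3 * m) ν *
          Four813.phat k (frq (toC (3 * m)) ν)) =
        ((e4 i j0 : ℂ) * Coef92.RS 3 (xo ψ) (1 / 2) (toC 1) (wo m x ψ) f
        (A4 m x (fun z => conj (ψ z)) i) (3 * m) ν) *
          Four813.phat k (frq (toC (3 * m)) ν) := fun i => by ring
    simp only [e2] at h3
    rw [← Finset.sum_mul] at h3
    exact mul_right_cancel₀ hk h3
  · intro i _
    have hi := integrable_line hN (cof_A4 (x := x) T.m0 T.ch.conj i).bdd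
      (Glue681.tfd_const P0.tst') 1 (M := (((1, 0), (0, 1)) : K695.Frm)) (by unfold K695.det2; simp)
    have e1 : (fun z : ℂ => ED (A4 m x (fun z => conj (ψ z)) i) (fun _ u => FOn 3 (xo ψ) (1 / 2)
        (toC 1) (wo m x ψ) f k u)
        ((1 : SLE)⁻¹ • ((((1, 0) : Vec) + z • ((0, 1) : Vec), ((0, 1) : Vec)) : K695.Frm))) =
        fun z : ℂ => EC (A4 m x (fun z => conj (ψ z)) i) (FOn 3 (xo ψ) (1 / 2)
        (toC 1) (wo m x ψ) f k) (Coef92.stF z) := by
      funext z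
      rw [inv_one, one_smul]
      unfold ED Coef92.stF
      congr 1
      ext <;> simp
    rw [e1] at hi
    refine (hi.mul_bdd (c := 1) ?_ ?_).const_mul _
    · exact (Parseval499.continuous_eC.comp (by fun_prop)).aestronglyMeasurable
    · exact Filter.Eventually.of_forall fun z => (Parseval499.norm_eC _).le

end Crest.Agent.R017.Tw3P266
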