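import Crest.Agent.R017.E4Y_679
import Crest.Agent.R017.ProvI_71

/-!
# Row 17, E4: the parameters of the dual lists (helper61)

* `twP P M' η j` : amplifier `φ conj η ang^{l₁ - j}`, Möbius `ψ conj η² ang^{l₂ - 2 j}`, weight zero
* `twP_OK` : `OK` (case D)
* `chK_tw_am`, `chK_tw_mo` : the characters of the kinds
* `classN_tw_R`, `classN_tw_L` : class N
* `twN` : element of `LamN`
-/

set_option autoImplicit false

noncomputable section

open Complex
open scoped ComplexConjugate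

namespace Crest.Agent.R017.TwP61

open Crest.Agent.R012 Crest.Agent.R012.Eis Crest.Agent.R012.Mob705 Crest.Agent.R012.Gauss880
open Crest.Agent.R012.PSer47 (IsChar)
open Crest.Agent.R017.End699 Crest.Agent.R017.B770 Crest.Agent.R017.Sup271
open Crest.Agent.R017.Prov71 (Kd chK LamN)
open Crest.Agent.R017.E4Y679 (sy_sq sy_four)

/-- the parameters of the dual lists -/
def twP (P : DPar) (M' : Eis) (η : Eis → ℂ) (j : ℤ) : DPar where
  h₀ := P.h₀
  h := P.h
  V := P.V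
  U := fun _ => 0
  n := P.n * M'
  φ := fun b => P.φ b * conj (η b)
  ψ := fun b => P.ψ b * (conj (η b) * conj (η b))
  n₃ := P.n * M'
  χ₃ := prin0 (P.n * M')
  l₁ := P.l₁ - j
  l₂ := P.l₂ - 2 * j
  l₃ := 0

lemma hc_sq {M' : Eis} {η : Eis → ℂ} (h : HC M' η) :
    HC M' (fun b => conj (η b) * conj (η b)) where
  q0 := h.q0
  three := h.three
  char := h.char.conj.mul' h.char.conj
  per a b ha hb hab := by rw [h.per a b ha hb hab]
  van a ha hac := by rw [h.van a ha hac]; simp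

theorem twP_OK {P : DPar} (hP : P.OK) {M' : Eis} {η : Eis → ℂ} (hη : HC M' η) (j : ℤ) :
    (twP P M' η j).OK where
  h₀ := hP.h₀
  h := hP.h
  V := hP.V
  U := ⟨contDiff_const, HasCompactSupport.zero, by
    have h0 : tsupport (fun _ : ℝ => (0 : ℂ)) = ∅ := by
      rw [tsupport_eq_empty_iff]
      rfl
    show tsupport (fun _ : ℝ => (0 : ℂ)) ⊆ _
    rw [h0]
    exact Set.empty_subset _⟩
  n36 := hP.n36.mul_right _
  φ := hP.φ.mul hη.conj
  ψ := hP.ψ.mul (hc_sq hη)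
  χ₃ := hc_prin0 (mul_ne_zero hP.φ.q0 hη.q0) (hP.φ.three.mul_right _)
  rad p _ := Iff.rfl
  cases := Or.inr (Or.inr (Or.inr rfl))

lemma ang_add' {b : Eis} (hb : b ≠ 0) (k l : ℤ) : ang (k + l) b = ang k b * ang l b := by
  have h0 : toC b / (‖toC b‖ : ℂ) ≠ 0 := by
    have h1 : toC b ≠ 0 := fun h => hb (toC_eq_zero.1 h)
    have h2 : (‖toC b‖ : ℂ) ≠ 0 := by
      exact_mod_cast norm_ne_zero_iff.2 h1
    exact div_ne_zero h1 h2
  show (toC b / (‖toC b‖ : ℂ)) ^ (k + l) = _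
  rw [zpow_add₀ h0]
  rfl

lemma ang_sub {b : Eis} (hb : b ≠ 0) (k l : ℤ) : ang (k - l) b = ang k b * conj (ang l b) := by
  rw [sub_eq_add_neg, ang_add' hb, ang_neg_conj l hb]

/-- amplifier -/
theorem chK_tw_am (P : DPar) (M' : Eis) (η : Eis → ℂ) (j : ℤ) {b : Eis} (hb : IsPrim b) :
    chK (twP P M' η j) .am b = chK P .am b * tw η j b := by
  have h0 := hb.ne_zero
  simp only [chK, twP, tw]
  rw [ang_sub h0]
  simp only [map_mul, Complex.conj_conj]
  ring

/-- Möbius side -/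
theorem chK_tw_mo (P : DPar) (M' : Eis) (η : Eis → ℂ) (j : ℤ) {b : Eis} (hb : IsPrim b) :
    chK (twP P M' η j) .mo b = chK P .mo b * (conj (tw η j b) * conj (tw η j b)) := by
  have h0 := hb.ne_zero
  simp only [chK, twP, tw]
  have e : P.l₂ - 2 * j = P.l₂ - j - j := by ring
  rw [e, ang_sub h0, ang_sub h0]
  simp only [map_mul]
  ring

/-- class N, nonzero angular type -/
theorem classN_tw_R {P : DPar} {M' : Eis} {η : Eis → ℂ} {j : ℤ} (h : P.l₂ - 2 * j ≠ 0) :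
    ∀ k : Eis, k ≠ 0 → NPm (twP P M' η j).n (twP P M' η j).ψ (twP P M' η j).l₂ k :=
  fun _ _ => Or.inl h

/-- class N, cubic twist by an `S`-unit -/
theorem classN_tw_L {P : DPar} (hN : ∀ k : Eis, k ≠ 0 → NPm P.n P.ψ P.l₂ k) {M' : Eis}
    {η : Eis → ℂ} {t : Eis} (ht : t ≠ 0) (hrad : ∀ p : Eis, Prime p → p ∣ M' → p ∣ P.n)
    (hM' : M' ≠ 0) (hη : ∀ u, IsPrim u → IsCoprime u (P.n * M') → η u = sy t u) :
    ∀ k : Eis, k ≠ 0 → NPm (twP P M' η 0).n (twP P M' η 0).ψ (twP P M' η 0).l₂ k := by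
  intro k hk
  rcases hN (k * t) (mul_ne_zero hk ht) with h | ⟨a, ha, hac, hne⟩
  · left
    show P.l₂ - 2 * 0 ≠ 0
    simpa using h
  right
  have h1 : IsCoprime a P.n := hac.of_isCoprime_of_dvd_right ⟨9 * (k * t), rfl⟩
  have h2 : IsCoprime a M' := by
    refine isCoprime_of_prime_dvd (fun h' => hM' h'.2) fun p hp hpa hpM => ?_
    exact hp.not_isUnit (h1.isUnit_of_dvd' hpa (hrad p hp hpM))
  have h9 : IsCoprime a (9 * k) := hac.of_isCoprime_of_dvd_right ⟨P.n * t, by ring⟩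
  refine ⟨a, ha, (h1.mul_right h2).mul_right h9, ?_⟩
  intro h0
  apply hne
  have e1 : P.ψ a * (conj (η a) * conj (η a)) * sy k a = 1 := h0
  have e2 : conj (η a) * conj (η a) = sy t a := by
    rw [hη a ha (h1.mul_right h2), sy_sq ha]
    calc sy t a ^ 2 * sy t a ^ 2 = sy t a ^ 4 := by ring
      _ = sy t a := sy_four ha
  show P.ψ a * sy (k * t) a = 1
  rw [Crest.Agent.R012.Char766.sy_mul_left ha, ← e1, e2]
  ring

/-- **the twisted parameters, class N** -/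
def twN (P : LamN) (M' : Eis) (η : Eis → ℂ) (j : ℤ) (hη : HC M' η)
    (hN : ∀ k : Eis, k ≠ 0 →
      NPm (twP P.1 M' η j).n (twP P.1 M' η j).ψ (twP P.1 M' η j).l₂ k) : LamN :=
  ⟨twP P.1 M' η j, twP_OK P.2.1 hη j, hN⟩

/-- the angular condition in case R -/
lemma l₂_ne_of_caseR {P : DPar} (h : P.CaseR) : P.l₂ - 2 * (-P.l₃) ≠ 0 := by
  obtain ⟨h1, h2, h3⟩ := h
  omega

end Crest.Agent.R017.TwP61
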