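import Crest.Agent.R017.Two2_939

/-!
# Row 17: two-factor theorem (3): the rule `flip` (helper939)
-/

set_option autoImplicit false

noncomputable section

open Complex MeasureTheory Filter Topology
open scoped ContDiff

namespace Crest.Agent.R017.Two939

open Crest.Agent.R012 Crest.Agent.R012.Eis Crest.Agent.R012.LS2 Crest.Agent.R012.Gauss880
open Crest.Agent.R012.Po581 Crest.Agent.R012.Div277
open Crest.Agent.R012.Weight600 (osc norm_osc)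
open Crest.Agent.R012.PSer47
open Crest.Agent.R017.End699 Crest.Agent.R017.FE47

/-- averaged fourth power of the family member `k` at the scale `e^κ` -/
def A4 (h : ℝ → ℝ) (χ : Eis → ℂ) (l : ℤ) (k : Eis) (N : ℕ) (κ : ℝ) : ℝ :=
  TN4 h (XK χ (sy k) l) N κ

lemma A4_nonneg (h : ℝ → ℝ) (χ : Eis → ℂ) (l : ℤ) (k : Eis) (N : ℕ) (κ : ℝ) :
    0 ≤ A4 h χ l k N κ := TN4_nonneg _ _ _ _

/-- averaged fourth moment -/
lemma sum_A4 {h : ℝ → ℝ} {c : ℝ} (hpu : PU h c) {M : Eis} {χ : Eis → ℂ} (hχ : HC M χ) (l : ℤ)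
    {N : ℕ} (hN : 2 ≤ N) {K : ℝ} (hK : 0 < K) (κ : ℝ) :
    ∑ k ∈ bl K, A4 h χ l k N κ = (K * Real.exp κ ^ 2) *
      ∫ s : ℝ, ((1 + |s|) ^ N)⁻¹ * V4 h χ l K (Real.exp κ) s := by
  unfold A4 TN4
  rw [← integral_finsetSum]
  · rw [← integral_const_mul]
    congr 1
    funext s
    unfold V4 P
    rw [Real.log_exp, ← Finset.mul_sum]
    have : K * Real.exp κ ^ 2 ≠ 0 := by positivity
    field_simp
  · intro k _
    exact integrable_TN4 hpu.cd.continuous hpu.cs hN (norm_XS_le hχ l k) κ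

lemma integrable_V4 {h : ℝ → ℝ} {c : ℝ} (hpu : PU h c) {M : Eis} {χ : Eis → ℂ} (hχ : HC M χ)
    (l : ℤ) {N : ℕ} (hN : 2 ≤ N) (K : ℝ) (κ : ℝ) :
    Integrable (fun s : ℝ => ((1 + |s|) ^ N)⁻¹ * V4 h χ l K (Real.exp κ) s) := by
  have h1 : (fun s : ℝ => ((1 + |s|) ^ N)⁻¹ * V4 h χ l K (Real.exp κ) s) =
      fun s => ∑ k ∈ bl K, (((1 + |s|) ^ N)⁻¹ * ‖PS (cx h) (XK χ (sy k) l) κ s‖ ^ 4) *
        (K * Real.exp κ ^ 2)⁻¹ := by
    funext s
    unfold V4 P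
    rw [Real.log_exp, ← Finset.sum_mul, ← Finset.mul_sum]
    ring
  rw [h1]
  refine integrable_finsetSum _ fun k _ => ?_
  exact (integrable_TN4 hpu.cd.continuous hpu.cs hN (norm_XS_le hχ l k) κ).mul_const _

/-- the averaged `V4` under a pointwise bound with polynomial growth -/
lemma int_V4_le {h : ℝ → ℝ} {c : ℝ} (hpu : PU h c) {M : Eis} {χ : Eis → ℂ} (hχ : HC M χ) (l : ℤ)
    {Mx : ℝ} {N : ℕ} (hN : Mx + 2 ≤ N) (hN2 : 2 ≤ N) {K B κ : ℝ} (hB1 : 0 ≤ B)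
    (hB : ∀ s, V4 h χ l K (Real.exp κ) s ≤ B * (1 + |s|) ^ Mx) :
    ∫ s : ℝ, ((1 + |s|) ^ N)⁻¹ * V4 h χ l K (Real.exp κ) s ≤
      B * ∫ s : ℝ, ((1 + |s|) ^ 2)⁻¹ := by
  rw [← integral_const_mul]
  apply integral_mono (integrable_V4 hpu hχ l hN2 K κ) ((integrable_wt le_rfl).const_mul B)
  intro s
  have h1 : 1 ≤ 1 + |s| := by linarith [abs_nonneg s]
  have h0 : 0 < 1 + |s| := by linarith
  beta_reduce
  calc ((1 + |s|) ^ N)⁻¹ * V4 h χ l K (Real.exp κ) s ≤ ((1 + |s|) ^ N)⁻¹ * (B * (1 + |s|) ^ Mx) :=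
        mul_le_mul_of_nonneg_left (hB s) (by positivity)
    _ = B * ((1 + |s|) ^ Mx * ((1 + |s|) ^ N)⁻¹) := by ring
    _ ≤ B * ((1 + |s|) ^ 2)⁻¹ := by
        gcongr
        rw [← Real.rpow_natCast (1 + |s|) N, ← Real.rpow_neg h0.le, ← Real.rpow_add h0,
          ← Real.rpow_natCast (1 + |s|) 2, ← Real.rpow_neg h0.le]
        apply Real.rpow_le_rpow_of_exponent_le h1
        push_cast
        linarith

/-- the trivial bound for the averaged `V4` -/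
lemma int_V4_triv {h : ℝ → ℝ} {c : ℝ} (hpu : PU h c) {M : Eis} {χ : Eis → ℂ} (hχ : HC M χ) (l : ℤ)
    {N : ℕ} (hN2 : 2 ≤ N) : ∃ C : ℝ, 0 ≤ C ∧ ∀ K κ : ℝ, 1 ≤ K → 0 ≤ κ →
    ∫ s : ℝ, ((1 + |s|) ^ N)⁻¹ * V4 h χ l K (Real.exp κ) s ≤ C * Real.exp κ ^ 2 := by
  obtain ⟨C, hC, hb⟩ := norm_P_le hpu
  have hI : 0 ≤ ∫ s : ℝ, ((1 + |s|) ^ N)⁻¹ := integral_nonneg fun _ => by positivity
  refine ⟨16 * C ^ 4 * ∫ s : ℝ, ((1 + |s|) ^ N)⁻¹, by positivity, fun K κ hK hκ => ?_⟩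
  have hV : ∀ s, V4 h χ l K (Real.exp κ) s ≤ 16 * C ^ 4 * Real.exp κ ^ 2 := by
    intro s
    have hK0 : 0 < K := by linarith
    unfold V4
    rw [div_le_iff₀ (by positivity)]
    calc ∑ k ∈ bl K, ‖P h χ l k (Real.exp κ) s‖ ^ 4 ≤ ∑ k ∈ bl K, (C * Real.exp κ) ^ 4 := by
          refine Finset.sum_le_sum fun k _ => ?_
          have := hb M χ hχ l k (Real.exp κ) s (Real.exp_pos _)
          gcongr
      _ = (bl K).card * (C * Real.exp κ) ^ 4 := by rw [Finset.sum_const, nsmul_eq_mul]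
      _ ≤ 16 * K * (C * Real.exp κ) ^ 4 := by
          gcongr
          exact CR2.card_bl_le hK0.le
      _ = _ := by ring
  calc ∫ s : ℝ, ((1 + |s|) ^ N)⁻¹ * V4 h χ l K (Real.exp κ) s
      ≤ ∫ s : ℝ, (16 * C ^ 4 * Real.exp κ ^ 2) * ((1 + |s|) ^ N)⁻¹ := by
        apply integral_mono (integrable_V4 hpu hχ l hN2 K κ) ((integrable_wt hN2).const_mul _)
        intro s
        beta_reduce
        have := hV s
        rw [mul_comm]
        gcongr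
    _ = _ := by rw [integral_const_mul]; ring

/-! ### the sum over the dual scales -/

/-- geometric sums of exponentials -/
lemma sum_exp_neg {a : ℝ} (ha : 0 < a) : Summable (fun n : ℕ => Real.exp (-(a * n))) ∧
    ∑' n : ℕ, Real.exp (-(a * n)) = (1 - Real.exp (-a))⁻¹ := by
  have h1 : (fun n : ℕ => Real.exp (-(a * n))) = fun n : ℕ => Real.exp (-a) ^ n := by
    funext n
    rw [← Real.exp_nat_mul]; congr 1; ring
  have h2 : Real.exp (-a) < 1 := Real.exp_lt_one_iff.mpr (by linarith)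
  rw [h1]
  exact ⟨summable_geometric_of_lt_one (Real.exp_pos _).le h2,
    tsum_geometric_of_lt_one (Real.exp_pos _).le h2⟩

/-- weight of the first part -/
lemma wt1 {ε : ℝ} (hε : 0 < ε) {A : ℕ} (hA : 4 * ε ≤ A) {Z R X : ℝ} (hZ : 0 < Z) (hR : 0 < R)
    (hRX : R ≤ X) :
    Z ^ 2 * bw ε A Z (Z / R) ≤ X ^ (4 * ε) * Z ^ (-ε) := by
  unfold bw
  have hz : 0 < Z / R := by positivity
  have h1 : ((1 + Z / R) ^ A)⁻¹ ≤ (Z / R) ^ (-(4 * ε)) := by
    rw [Real.rpow_neg hz.le]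
    apply inv_anti₀ (by positivity)
    calc (Z / R) ^ (4 * ε) ≤ (1 + Z / R) ^ (4 * ε) :=
          Real.rpow_le_rpow hz.le (by linarith) (by positivity)
      _ ≤ (1 + Z / R) ^ (A : ℝ) := Real.rpow_le_rpow_of_exponent_le (by linarith) hA
      _ = _ := Real.rpow_natCast _ _
  have h2 : (Z / R) ^ (-(4 * ε)) = Z ^ (-(4 * ε)) * R ^ (4 * ε) := by
    rw [Real.div_rpow hZ.le hR.le, Real.rpow_neg hR.le (4 * ε), div_inv_eq_mul]
  calc Z ^ 2 * (Z ^ (-2 + 3 * ε) * ((1 + Z / R) ^ A)⁻¹)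
      ≤ Z ^ 2 * (Z ^ (-2 + 3 * ε) * (Z ^ (-(4 * ε)) * R ^ (4 * ε))) := by
        rw [← h2]; gcongr
    _ = R ^ (4 * ε) * (Z ^ (2 : ℝ) * Z ^ (-2 + 3 * ε) * Z ^ (-(4 * ε))) := by
        rw [Real.rpow_two]; ring
    _ = R ^ (4 * ε) * Z ^ (-ε) := by
        rw [← Real.rpow_add hZ, ← Real.rpow_add hZ]; congr 2; ring
    _ ≤ X ^ (4 * ε) * Z ^ (-ε) := by gcongr

/-- weight of the second part -/
lemma wt2 {ε : ℝ} (hε1 : ε ≤ 1 / 2) {p : ℕ} {Z R X δ : ℝ} (hZ : 1 ≤ Z) (hR : 0 < R)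
    (hX : 1 ≤ X) (hRX : R ≤ X) (hp : 5 ≤ δ * p) :
    Z ^ 2 * bw ε (p + 5) Z (Z / R) * (Z ^ 2 * (Z / (X ^ δ * R)) ^ p) ≤ Z ^ (-(1 / 2 : ℝ) ) := by
  unfold bw
  have hZ0 : 0 < Z := by linarith
  have hX0 : 0 < X := by linarith
  have hz : 0 < Z / R := by positivity
  have h1 : ((1 + Z / R) ^ (p + 5))⁻¹ ≤ ((Z / R) ^ (p + 5))⁻¹ := by
    apply inv_anti₀ (by positivity)
    gcongr
    linarith
  have h2 : (Z / (X ^ δ * R)) ^ p = (Z / R) ^ p * (X ^ (δ * p))⁻¹ := by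
    rw [Real.rpow_mul hX0.le, Real.rpow_natCast, ← inv_pow, ← mul_pow]
    congr 1
    field_simp
  have h3 : (X ^ (δ * p))⁻¹ ≤ (X ^ 5)⁻¹ := by
    apply inv_anti₀ (by positivity)
    rw [← Real.rpow_natCast X 5]
    apply Real.rpow_le_rpow_of_exponent_le hX
    push_cast
    exact hp
  calc Z ^ 2 * (Z ^ (-2 + 3 * ε) * ((1 + Z / R) ^ (p + 5))⁻¹) * (Z ^ 2 * (Z / (X ^ δ * R)) ^ p)
      ≤ Z ^ 2 * (Z ^ (-2 + 3 * ε) * ((Z / R) ^ (p + 5))⁻¹) * (Z ^ 2 * ((Z / R) ^ p * (X ^ 5)⁻¹)) := by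
        rw [h2]
        gcongr
    _ = (Z ^ (2 : ℝ) * Z ^ (-2 + 3 * ε) * Z ^ (-(3 : ℝ))) * (R / X) ^ 5 := by
        have e1 : Z ^ (-(3 : ℝ)) = (Z ^ 3)⁻¹ := by
          rw [Real.rpow_neg hZ0.le]; congr 1
          rw [← Real.rpow_natCast]; norm_num
        rw [Real.rpow_two, e1, pow_add]
        field_simp
    _ = Z ^ (-3 + 3 * ε) * (R / X) ^ 5 := by
        rw [← Real.rpow_add hZ0, ← Real.rpow_add hZ0]; congr 2; ring
    _ ≤ Z ^ (-(1 / 2 : ℝ)) * 1 := by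
        have h4 : R / X ≤ 1 := (div_le_one hX0).mpr hRX
        have h5 : (R / X) ^ 5 ≤ 1 := pow_le_one₀ (by positivity) h4
        have h6 : Z ^ (-3 + 3 * ε) ≤ Z ^ (-(1 / 2 : ℝ)) :=
          Real.rpow_le_rpow_of_exponent_le hZ (by linarith)
        exact mul_le_mul h6 h5 (by positivity) (by positivity)
    _ = _ := mul_one _

/-- The sum over the family of the dual side, one scale `X_d`. -/
theorem inner_le {h : ℝ → ℝ} {c : ℝ} (hpu : PU h c) {M : Eis} {χ : Eis → ℂ} (hχ : HC M χ) (l : ℤ)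
    {ε δ Mx : ℝ} (hε : 0 < ε) (hε1 : ε ≤ 1 / 2) {p N : ℕ} (hp : 5 ≤ δ * p)
    (hN : Mx + 2 ≤ N) (hN2 : 2 ≤ N) : ∃ C : ℝ, 0 ≤ C ∧ ∀ K Xd X B : ℝ, 1 ≤ K → 0 < Xd → 1 ≤ X →
      K / Xd ≤ X → 0 ≤ B →
      (∀ n : ℕ, Real.exp (c * n) ≤ X ^ δ * (K / Xd) → ∀ s, V4 h χ l K (Real.exp (c * n)) s ≤
        B * (1 + |s|) ^ Mx) →
      ∑ k ∈ bl K, (1 + Xd ^ 2 * ∑' n : ℕ, bw ε (p + 5) (Real.exp (c * n))
        (Real.exp (c * n) * Xd / K) * A4 h χ l k N (c * n)) ≤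
        C * K * (1 + Xd ^ 2) * (X ^ (4 * ε) * (1 + B)) := by
  obtain ⟨Ct, hCt, htriv⟩ := int_V4_triv hpu hχ l hN2
  set I2 := ∫ s : ℝ, ((1 + |s|) ^ 2)⁻¹ with hI2
  have hI2n : 0 ≤ I2 := integral_nonneg fun _ => by positivity
  have hcε : 0 < c * ε := mul_pos hpu.cpos hε
  have hc2 : 0 < c * (1 / 2) := mul_pos hpu.cpos (by norm_num)
  obtain ⟨hs1, he1⟩ := sum_exp_neg hcε
  obtain ⟨hs2, he2⟩ := sum_exp_neg hc2
  have hG1 : 0 ≤ ∑' n : ℕ, Real.exp (-(c * ε * n)) := tsum_nonneg fun _ => (Real.exp_pos _).le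
  have hG2 : 0 ≤ ∑' n : ℕ, Real.exp (-(c * (1 / 2) * n)) := tsum_nonneg fun _ => (Real.exp_pos _).le
  set G1 := ∑' n : ℕ, Real.exp (-(c * ε * n)) with hG1d
  set G2 := ∑' n : ℕ, Real.exp (-(c * (1 / 2) * n)) with hG2d
  refine ⟨16 + I2 * G1 + Ct * G2, by positivity, fun K Xd X B hK hXd hX hR hB hV => ?_⟩
  have hK0 : 0 < K := by linarith
  have hX0 : 0 < X := by linarith
  have hR0 : 0 < K / Xd := by positivity
  set R := K / Xd with hRd
  have hzR : ∀ n : ℕ, Real.exp (c * n) * Xd / K = Real.exp (c * n) / R := by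
    intro n; rw [hRd]; field_simp
  set b : ℕ → ℝ := fun n => bw ε (p + 5) (Real.exp (c * n)) (Real.exp (c * n) / R) with hb
  have hb0 : ∀ n, 0 ≤ b n := fun n => bw_nonneg (Real.exp_pos _).le (by positivity)
  have hbD : ∀ n : ℕ, b n ≤ Real.exp (-(5 * (-Real.log R))) * Real.exp (-(5 * (c * n))) := by
    intro n
    have : Real.exp (c * n) / R = Real.exp (c * n + -Real.log R) := by
      rw [Real.exp_add, Real.exp_neg, Real.exp_log hR0]; rfl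
    rw [hb]
    simp only
    rw [this]
    exact bw_exp_le hε1 hpu.cpos (by omega) n
  have hsum : ∀ k : Eis, Summable (fun n : ℕ => b n * A4 h χ l k N (c * n)) := fun k =>
    summable_exp_TN4 hpu.cd.continuous hpu.cs hpu.cpos hN2 (norm_XS_le hχ l k) hb0 hbD
  set S : ℕ → ℝ := fun n => ∫ s : ℝ, ((1 + |s|) ^ N)⁻¹ * V4 h χ l K (Real.exp (c * n)) s with hS
  have hS0 : ∀ n, 0 ≤ S n := fun n => integral_nonneg fun s =>
    mul_nonneg (by positivity) (V4_nonneg _ _ _ hK0.le _ _)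
  have hcn : ∀ n : ℕ, 0 ≤ c * n := fun n => mul_nonneg hpu.cpos.le (Nat.cast_nonneg _)
  have hSle : ∀ n : ℕ, S n ≤ B * I2 + Ct * (Real.exp (c * n) ^ 2 *
      (Real.exp (c * n) / (X ^ δ * R)) ^ p) := by
    intro n
    have hpos : 0 ≤ Real.exp (c * n) ^ 2 * (Real.exp (c * n) / (X ^ δ * R)) ^ p := by positivity
    by_cases hn : Real.exp (c * n) ≤ X ^ δ * R
    · have h1 := int_V4_le hpu hχ l hN hN2 hB (hV n hn)
      have h2 : 0 ≤ Ct * (Real.exp (c * n) ^ 2 * (Real.exp (c * n) / (X ^ δ * R)) ^ p) := by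
        positivity
      linarith
    · have h1 := htriv K (c * n) hK (hcn n)
      have h3 : 1 ≤ Real.exp (c * n) / (X ^ δ * R) := by
        rw [one_le_div (by positivity)]
        exact (not_le.mp hn).le
      have h4 : (1 : ℝ) ≤ (Real.exp (c * n) / (X ^ δ * R)) ^ p := one_le_pow₀ h3
      have h5 : 0 ≤ B * I2 := by positivity
      calc S n ≤ Ct * Real.exp (c * n) ^ 2 := h1
        _ = Ct * (Real.exp (c * n) ^ 2 * 1) := by ring
        _ ≤ Ct * (Real.exp (c * n) ^ 2 * (Real.exp (c * n) / (X ^ δ * R)) ^ p) := by gcongr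
        _ ≤ _ := by linarith
  -- interchange
  have e1 : ∑ k ∈ bl K, (1 + Xd ^ 2 * ∑' n : ℕ, bw ε (p + 5) (Real.exp (c * n))
        (Real.exp (c * n) * Xd / K) * A4 h χ l k N (c * n)) =
      (bl K).card + Xd ^ 2 * ∑' n : ℕ, (K * (Real.exp (c * n) ^ 2 * b n)) * S n := by
    rw [Finset.sum_add_distrib, Finset.sum_const, nsmul_eq_mul, mul_one, ← Finset.mul_sum]
    congr 2
    have e2 : ∀ k ∈ bl K, ∑' n : ℕ, bw ε (p + 5) (Real.exp (c * n))
        (Real.exp (c * n) * Xd / K) * A4 h χ l k N (c * n) =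
        ∑' n : ℕ, b n * A4 h χ l k N (c * n) := by
      intro k _
      refine tsum_congr fun n => ?_
      rw [hzR]
    rw [Finset.sum_congr rfl e2, ← Summable.tsum_finsetSum fun k _ => hsum k]
    refine tsum_congr fun n => ?_
    rw [← Finset.mul_sum, sum_A4 hpu hχ l hN2 hK0]
    rw [hS]
    ring
  have hterm : ∀ n : ℕ, (K * (Real.exp (c * n) ^ 2 * b n)) * S n ≤
      K * (X ^ (4 * ε) * B * I2) * Real.exp (-(c * ε * n)) +
        K * Ct * Real.exp (-(c * (1 / 2) * n)) := by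
    intro n
    have hZ1 : 1 ≤ Real.exp (c * n) := Real.one_le_exp (hcn n)
    have hZ0 := Real.exp_pos (c * n)
    have w1 := wt1 hε (A := p + 5) (by push_cast; nlinarith [Nat.cast_nonneg (α := ℝ) p]) hZ0 hR0 hR
    have w2 := wt2 hε1 (p := p) hZ1 hR0 hX hR hp
    have r1 : Real.exp (c * n) ^ (-ε) = Real.exp (-(c * ε * n)) := by
      rw [← Real.exp_mul]; congr 1; ring
    have r2 : Real.exp (c * n) ^ (-(1 / 2 : ℝ)) = Real.exp (-(c * (1 / 2) * n)) := by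
      rw [← Real.exp_mul]; congr 1; ring
    rw [r1] at w1
    rw [r2] at w2
    have hbn : 0 ≤ Real.exp (c * n) ^ 2 * b n := mul_nonneg (by positivity) (hb0 n)
    calc (K * (Real.exp (c * n) ^ 2 * b n)) * S n
        ≤ (K * (Real.exp (c * n) ^ 2 * b n)) * (B * I2 + Ct * (Real.exp (c * n) ^ 2 *
          (Real.exp (c * n) / (X ^ δ * R)) ^ p)) :=
          mul_le_mul_of_nonneg_left (hSle n) (by positivity)
      _ = K * (B * I2) * (Real.exp (c * n) ^ 2 * b n) + K * Ct * (Real.exp (c * n) ^ 2 * b n *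
          (Real.exp (c * n) ^ 2 * (Real.exp (c * n) / (X ^ δ * R)) ^ p)) := by ring
      _ ≤ K * (B * I2) * (X ^ (4 * ε) * Real.exp (-(c * ε * n))) +
          K * Ct * Real.exp (-(c * (1 / 2) * n)) := by
          gcongr
      _ = _ := by ring
  have hSumR : Summable (fun n : ℕ => K * (X ^ (4 * ε) * B * I2) * Real.exp (-(c * ε * n)) +
        K * Ct * Real.exp (-(c * (1 / 2) * n))) := (hs1.mul_left _).add (hs2.mul_left _)
  have hSumL : Summable (fun n : ℕ => (K * (Real.exp (c * n) ^ 2 * b n)) * S n) :=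
    Summable.of_nonneg_of_le (fun n => mul_nonneg (mul_nonneg hK0.le (mul_nonneg (by positivity)
      (hb0 n))) (hS0 n)) hterm hSumR
  have htot : ∑' n : ℕ, (K * (Real.exp (c * n) ^ 2 * b n)) * S n ≤
      K * (X ^ (4 * ε) * B * I2) * G1 + K * Ct * G2 := by
    refine (hSumL.tsum_le_tsum hterm hSumR).trans ?_
    rw [Summable.tsum_add (hs1.mul_left _) (hs2.mul_left _), tsum_mul_left, tsum_mul_left]
  rw [e1]
  have hcard := CR2.card_bl_le hK0.le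
  have hXε : 1 ≤ X ^ (4 * ε) := Real.one_le_rpow hX (by positivity)
  have hXd2 : 0 ≤ Xd ^ 2 := by positivity
  calc ((bl K).card : ℝ) + Xd ^ 2 * ∑' n : ℕ, (K * (Real.exp (c * n) ^ 2 * b n)) * S n
      ≤ 16 * K + Xd ^ 2 * (K * (X ^ (4 * ε) * B * I2) * G1 + K * Ct * G2) := by gcongr
    _ ≤ 16 * K * (1 + Xd ^ 2) * (X ^ (4 * ε) * (1 + B)) +
        (I2 * G1) * K * (1 + Xd ^ 2) * (X ^ (4 * ε) * (1 + B)) +
        (Ct * G2) * K * (1 + Xd ^ 2) * (X ^ (4 * ε) * (1 + B)) := by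
        have hE : 1 ≤ X ^ (4 * ε) * (1 + B) := by nlinarith
        have hE2 : X ^ (4 * ε) * B ≤ X ^ (4 * ε) * (1 + B) := by nlinarith
        have hE0 : 0 ≤ X ^ (4 * ε) * (1 + B) := by linarith
        have t1 : 16 * K ≤ 16 * K * (1 + Xd ^ 2) * (X ^ (4 * ε) * (1 + B)) := by
          calc 16 * K = 16 * K * 1 * 1 := by ring
            _ ≤ _ := by gcongr; linarith
        have t2 : Xd ^ 2 * (K * (X ^ (4 * ε) * B * I2) * G1) ≤
            (I2 * G1) * K * (1 + Xd ^ 2) * (X ^ (4 * ε) * (1 + B)) := by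
          calc Xd ^ 2 * (K * (X ^ (4 * ε) * B * I2) * G1) =
                (I2 * G1) * K * Xd ^ 2 * (X ^ (4 * ε) * B) := by ring
            _ ≤ _ := by gcongr; linarith
        have t3 : Xd ^ 2 * (K * Ct * G2) ≤
            (Ct * G2) * K * (1 + Xd ^ 2) * (X ^ (4 * ε) * (1 + B)) := by
          calc Xd ^ 2 * (K * Ct * G2) = (Ct * G2) * K * Xd ^ 2 * 1 := by ring
            _ ≤ _ := by gcongr; linarith
        calc 16 * K + Xd ^ 2 * (K * (X ^ (4 * ε) * B * I2) * G1 + K * Ct * G2) =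
              16 * K + Xd ^ 2 * (K * (X ^ (4 * ε) * B * I2) * G1) + Xd ^ 2 * (K * Ct * G2) := by ring
          _ ≤ _ := by linarith
    _ = _ := by ring

end Crest.Agent.R017.Two939
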