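import Crest.Agent.R017.TwoDefs_939

/-!
# Row 17: two-factor theorem (5): the Gauss side, prime cubes (helper939)

`TG_prime` : `T_l = T_{l p³} + c₁ T_{l p}(Y₁/p, Y₂) + c₂ T_{l p}(Y₁, Y₂/p)`, `|c_i| ≤ 1`.
-/

set_option autoImplicit false

noncomputable section

open Complex MeasureTheory Filter Topology
open scoped ContDiff

namespace Crest.Agent.R017.Two939

open Crest.Agent.R012 Crest.Agent.R012.Eis Crest.Agent.R012.LS2 Crest.Agent.R012.Gauss880
open Crest.Agent.R012.Weight600 (osc norm_osc)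
open Crest.Agent.R012.PSer47
open Crest.Agent.R017.End699 Crest.Agent.R017.FE47

lemma cfa_support {h : ℝ → ℝ} (hh : HasCompactSupport h) (χ : Eis → ℂ) (l : ℤ) (Y : ℝ) :
    ∃ N : ℕ, ∀ (t : ℝ) (b : Eis), cfa h χ l Y t b ≠ 0 → b ∈ primBall N := by
  obtain ⟨N, hN⟩ := PS_support (cs_cx hh) (Real.log Y)
  refine ⟨N, fun t b hb => ?_⟩
  have hp : IsPrim b := by
    by_contra hp
    apply hb
    unfold cfa
    simp [End699.ext, hp]
  refine hN b hp fun h0 => hb ?_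
  unfold cfa
  rw [h0]; ring

/-- the summand -/
def tg (h : ℝ → ℝ) (χ : Eis → ℂ) (l : ℤ) (k : Eis) (Y1 Y2 t1 t2 : ℝ) (p : Eis × Eis) : ℂ :=
  cfa h χ l Y1 t1 p.1 * cfa h χ l Y2 t2 p.2 *
    (G (p.1 * p.2) * (starRingEnd ℂ) (sy k (p.1 * p.2)))

lemma TG_eq (h : ℝ → ℝ) (χ : Eis → ℂ) (l : ℤ) (k : Eis) (Y1 Y2 t1 t2 : ℝ) :
    TG h χ l k Y1 Y2 t1 t2 = ∑' p : Eis × Eis, tg h χ l k Y1 Y2 t1 t2 p := rfl

lemma tg_support {h : ℝ → ℝ} (hh : HasCompactSupport h) (χ : Eis → ℂ) (l : ℤ) (Y1 Y2 : ℝ) :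
    ∃ N : ℕ, ∀ (k : Eis) (t1 t2 : ℝ) (p : Eis × Eis), tg h χ l k Y1 Y2 t1 t2 p ≠ 0 →
      p ∈ primBall N ×ˢ primBall N := by
  obtain ⟨N1, h1⟩ := cfa_support hh χ l Y1
  obtain ⟨N2, h2⟩ := cfa_support hh χ l Y2
  refine ⟨max N1 N2, fun k t1 t2 p hp => ?_⟩
  unfold tg at hp
  have ha := left_ne_zero_of_mul (left_ne_zero_of_mul hp)
  have hb := right_ne_zero_of_mul (left_ne_zero_of_mul hp)
  have ha' := h1 t1 p.1 ha
  have hb' := h2 t2 p.2 hb
  rw [mem_primBall] at ha' hb'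
  rw [Finset.mem_product, mem_primBall, mem_primBall]
  exact ⟨⟨ha'.1.trans (le_max_left _ _), ha'.2⟩, ⟨hb'.1.trans (le_max_right _ _), hb'.2⟩⟩

lemma summable_tg {h : ℝ → ℝ} (hh : HasCompactSupport h) (χ : Eis → ℂ) (l : ℤ) (k : Eis)
    (Y1 Y2 t1 t2 : ℝ) : Summable (tg h χ l k Y1 Y2 t1 t2) := by
  obtain ⟨N, hN⟩ := tg_support hh χ l Y1 Y2
  refine summable_of_ne_finset_zero (s := primBall N ×ˢ primBall N) fun p hp => ?_
  by_contra h0
  exact hp (hN k t1 t2 p h0)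

lemma TG_eq_sum {h : ℝ → ℝ} (hh : HasCompactSupport h) (χ : Eis → ℂ) (l : ℤ) (Y1 Y2 : ℝ) :
    ∃ N : ℕ, ∀ (k : Eis) (t1 t2 : ℝ), TG h χ l k Y1 Y2 t1 t2 =
      ∑ p ∈ primBall N ×ˢ primBall N, tg h χ l k Y1 Y2 t1 t2 p := by
  obtain ⟨N, hN⟩ := tg_support hh χ l Y1 Y2
  refine ⟨N, fun k t1 t2 => ?_⟩
  rw [TG_eq, tsum_eq_sum]
  intro p hp
  by_contra h0
  exact hp (hN k t1 t2 p h0)

lemma cfa_mul {h : ℝ → ℝ} {M : Eis} {χ : Eis → ℂ} (hχ : HC M χ) (l : ℤ) {p : Eis} (hp : IsPrim p)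
    {Y : ℝ} (hY : 0 < Y) (t : ℝ) (b : Eis) :
    cfa h χ l Y t (p * b) = (χ p * ang l p * osc t (Real.log (nm p))) *
      cfa h χ l (Y / nm p) t b := by
  unfold cfa
  by_cases hb : IsPrim b
  · have hpb : IsPrim (p * b) := hp.mul hb
    have hp1 := one_le_nm hp
    have hb1 := one_le_nm hb
    simp only [End699.ext, if_pos hb, if_pos hpb]
    have e1 : Real.log (nm (p * b)) = Real.log (nm p) + Real.log (nm b) := by
      rw [nm_mul]; push_cast
      rw [Real.log_mul (by linarith) (by linarith)]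
    have e2 : Real.log (nm p) + Real.log (nm b) - Real.log Y =
        Real.log (nm b) - Real.log (Y / nm p) := by
      rw [Real.log_div hY.ne' (by linarith)]; ring
    rw [e1, hχ.char.mul p b hp hb, (ang_isChar l).mul p b hp hb, Weight600.osc_add_right, e2]
    ring
  · have hpb : ¬ IsPrim (p * b) := fun h => hb ((P355.isPrim_mul_iff hp).mp h)
    simp [End699.ext, hb, hpb]

lemma cfa_prim {h : ℝ → ℝ} {χ : Eis → ℂ} {l : ℤ} {Y t : ℝ} {b : Eis} (hb : ¬ IsPrim b) :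
    cfa h χ l Y t b = 0 := by
  unfold cfa
  simp [End699.ext, hb]

lemma cop_iff_prime {p b : Eis} (hp : Prime p) : IsCoprime p b ↔ ¬ p ∣ b :=
  hp.irreducible.coprime_iff_not_dvd

open Classical in
/-- pointwise splitting -/
lemma tg_split {h : ℝ → ℝ} {χ : Eis → ℂ} (l : ℤ) (k : Eis) (Y1 Y2 t1 t2 : ℝ) {p : Eis}
    (hp : IsPrim p) (hpp : Prime p) (q : Eis × Eis) :
    tg h χ l k Y1 Y2 t1 t2 q = tg h χ l (k * p ^ 3) Y1 Y2 t1 t2 q +
      ((if p ∣ q.1 then tg h χ l k Y1 Y2 t1 t2 q else 0) +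
        (if p ∣ q.2 then tg h χ l k Y1 Y2 t1 t2 q else 0)) := by
  by_cases h1 : IsPrim q.1
  swap
  · have h0 : ∀ k, tg h χ l k Y1 Y2 t1 t2 q = 0 := fun k => by
      unfold tg; rw [cfa_prim h1]; ring
    simp [h0]
  by_cases h2 : IsPrim q.2
  swap
  · have h0 : ∀ k, tg h χ l k Y1 Y2 t1 t2 q = 0 := fun k => by
      unfold tg; rw [cfa_prim h2]; ring
    simp [h0]
  have hq := h1.mul h2
  by_cases ha : p ∣ q.1
  · by_cases hb : p ∣ q.2
    · -- not squarefree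
      have hns : ¬ Squarefree (q.1 * q.2) := by
        intro hs
        exact hpp.not_isUnit (hs p (mul_dvd_mul ha hb))
      have h0 : ∀ k, tg h χ l k Y1 Y2 t1 t2 q = 0 := fun k => by
        unfold tg; rw [G_eq_zero syG hq hns]; ring
      simp [h0]
    · have h0 : tg h χ l (k * p ^ 3) Y1 Y2 t1 t2 q = 0 := by
        unfold tg
        have : sy (k * p ^ 3) (q.1 * q.2) = 0 := by
          apply Char766.sy_eq_zero hq
          intro hc
          have h3 : IsCoprime p (q.1 * q.2) :=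
            (hc.of_mul_left_right).of_isCoprime_of_dvd_left (dvd_pow_self p three_ne_zero)
          exact (cop_iff_prime hpp).mp h3 (ha.mul_right q.2)
        rw [this]; simp
      rw [h0, if_pos ha, if_neg hb]; ring
  · by_cases hb : p ∣ q.2
    · have h0 : tg h χ l (k * p ^ 3) Y1 Y2 t1 t2 q = 0 := by
        unfold tg
        have : sy (k * p ^ 3) (q.1 * q.2) = 0 := by
          apply Char766.sy_eq_zero hq
          intro hc
          have h3 : IsCoprime p (q.1 * q.2) :=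
            (hc.of_mul_left_right).of_isCoprime_of_dvd_left (dvd_pow_self p three_ne_zero)
          exact (cop_iff_prime hpp).mp h3 (hb.mul_left q.1)
        rw [this]; simp
      rw [h0, if_neg ha, if_pos hb]; ring
    · rw [if_neg ha, if_neg hb, add_zero, add_zero]
      unfold tg
      have h3 : IsCoprime p (q.1 * q.2) :=
        ((cop_iff_prime hpp).mpr ha).mul_right ((cop_iff_prime hpp).mpr hb)
      rw [Char766.sy_mul_left hq, Char766.sy_cube_left hq h3, mul_one]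

/-- the shifted summand, first variable -/
lemma tg_shift1 {h : ℝ → ℝ} {M : Eis} {χ : Eis → ℂ} (hχ : HC M χ) (l : ℤ) (k : Eis) {Y1 : ℝ}
    (hY1 : 0 < Y1) (Y2 t1 t2 : ℝ) {p : Eis} (hp : IsPrim p) (b c : Eis) :
    tg h χ l k Y1 Y2 t1 t2 (p * b, c) = ((χ p * ang l p * osc t1 (Real.log (nm p))) * (G p *
      (starRingEnd ℂ) (sy k p))) * tg h χ l (k * p) (Y1 / nm p) Y2 t1 t2 (b, c) := by
  unfold tg
  simp only
  rw [cfa_mul hχ l hp hY1]
  by_cases hb : IsPrim b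
  swap
  · rw [cfa_prim hb]; ring
  by_cases hc : IsPrim c
  swap
  · rw [cfa_prim hc]; ring
  have hbc := hb.mul hc
  have e1 : p * b * c = p * (b * c) := by ring
  rw [e1, G_mul_all syG hp hbc, Char766.sy_mul_right hp hbc, Char766.sy_mul_left hbc,
    map_mul, map_mul]
  ring

lemma tg_shift2 {h : ℝ → ℝ} {M : Eis} {χ : Eis → ℂ} (hχ : HC M χ) (l : ℤ) (k : Eis) {Y2 : ℝ}
    (hY2 : 0 < Y2) (Y1 t1 t2 : ℝ) {p : Eis} (hp : IsPrim p) (b c : Eis) :
    tg h χ l k Y1 Y2 t1 t2 (b, p * c) = ((χ p * ang l p * osc t2 (Real.log (nm p))) * (G p *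
      (starRingEnd ℂ) (sy k p))) * tg h χ l (k * p) Y1 (Y2 / nm p) t1 t2 (b, c) := by
  unfold tg
  simp only
  rw [cfa_mul hχ l hp hY2]
  by_cases hb : IsPrim b
  swap
  · rw [cfa_prim hb]; ring
  by_cases hc : IsPrim c
  swap
  · rw [cfa_prim hc]; ring
  have hbc := hb.mul hc
  have e1 : b * (p * c) = p * (b * c) := by ring
  rw [e1, G_mul_all syG hp hbc, Char766.sy_mul_right hp hbc, Char766.sy_mul_left hbc,
    map_mul, map_mul]
  ring

lemma norm_coef_le {M : Eis} {χ : Eis → ℂ} (hχ : HC M χ) (l : ℤ) (k : Eis) (t : ℝ) {p : Eis}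
    (hp : IsPrim p) : ‖(χ p * ang l p * osc t (Real.log (nm p))) * (G p *
      (starRingEnd ℂ) (sy k p))‖ ≤ 1 := by
  rw [norm_mul, norm_mul, norm_mul, norm_mul, norm_osc, RCLike.norm_conj, mul_one]
  have h1 := hχ.char.norm_le hp
  have h2 : ‖ang l p‖ ≤ 1 := (ang_isChar l).norm_le hp
  have h3 := norm_G_le syG hp
  have h4 := norm_sy_le (k := k) hp
  calc ‖χ p‖ * ‖ang l p‖ * (‖G p‖ * ‖sy k p‖) ≤ 1 * 1 * (1 * 1) := by gcongr
    _ = 1 := by ring

/-- **Splitting off a prime.** -/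
theorem TG_prime {h : ℝ → ℝ} (hh : HasCompactSupport h) {M : Eis} {χ : Eis → ℂ} (hχ : HC M χ)
    (l : ℤ) (k : Eis) {Y1 Y2 : ℝ} (hY1 : 0 < Y1) (hY2 : 0 < Y2) (t1 t2 : ℝ) {p : Eis}
    (hp : IsPrim p) (hpp : Prime p) :
    ∃ c1 c2 : ℂ, ‖c1‖ ≤ 1 ∧ ‖c2‖ ≤ 1 ∧ TG h χ l k Y1 Y2 t1 t2 = TG h χ l (k * p ^ 3) Y1 Y2 t1 t2 +
      c1 * TG h χ l (k * p) (Y1 / nm p) Y2 t1 t2 + c2 * TG h χ l (k * p) Y1 (Y2 / nm p) t1 t2 := by
  classical
  refine ⟨_, _, norm_coef_le hχ l k t1 hp, norm_coef_le hχ l k t2 hp, ?_⟩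
  have hS := summable_tg hh χ l k Y1 Y2 t1 t2
  have hS3 := summable_tg hh χ l (k * p ^ 3) Y1 Y2 t1 t2
  have hSa : Summable (fun q : Eis × Eis => if p ∣ q.1 then tg h χ l k Y1 Y2 t1 t2 q else 0) := by
    obtain ⟨N, hN⟩ := tg_support hh χ l Y1 Y2
    refine summable_of_ne_finset_zero (s := primBall N ×ˢ primBall N) fun q hq => ?_
    split_ifs
    · by_contra h0; exact hq (hN k t1 t2 q h0)
    · rfl
  have hSb : Summable (fun q : Eis × Eis => if p ∣ q.2 then tg h χ l k Y1 Y2 t1 t2 q else 0) := by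
    obtain ⟨N, hN⟩ := tg_support hh χ l Y1 Y2
    refine summable_of_ne_finset_zero (s := primBall N ×ˢ primBall N) fun q hq => ?_
    split_ifs
    · by_contra h0; exact hq (hN k t1 t2 q h0)
    · rfl
  have ea : ∑' q : Eis × Eis, (if p ∣ q.1 then tg h χ l k Y1 Y2 t1 t2 q else 0) =
      ((χ p * ang l p * osc t1 (Real.log (nm p))) * (G p * (starRingEnd ℂ) (sy k p))) *
        TG h χ l (k * p) (Y1 / nm p) Y2 t1 t2 := by
    have hinj : Function.Injective (fun q : Eis × Eis => ((p * q.1, q.2) : Eis × Eis)) := by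
      intro a b hab
      simp only [Prod.mk.injEq] at hab
      exact Prod.ext (mul_left_cancel₀ hp.ne_zero hab.1) hab.2
    have hsup : Function.support (fun q : Eis × Eis => if p ∣ q.1 then
        tg h χ l k Y1 Y2 t1 t2 q else 0) ⊆ Set.range (fun q : Eis × Eis => ((p * q.1, q.2) : Eis × Eis)) := by
      intro q hq
      by_cases hd : p ∣ q.1
      · obtain ⟨c, hc⟩ := hd
        exact ⟨(c, q.2), by simp [← hc]⟩
      · exfalso; apply hq; simp [hd]
    rw [← hinj.tsum_eq hsup, TG_eq, ← tsum_mul_left]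
    refine tsum_congr fun q => ?_
    rw [if_pos (dvd_mul_right p q.1)]
    exact tg_shift1 hχ l k hY1 Y2 t1 t2 hp q.1 q.2
  have eb : ∑' q : Eis × Eis, (if p ∣ q.2 then tg h χ l k Y1 Y2 t1 t2 q else 0) =
      ((χ p * ang l p * osc t2 (Real.log (nm p))) * (G p * (starRingEnd ℂ) (sy k p))) *
        TG h χ l (k * p) Y1 (Y2 / nm p) t1 t2 := by
    have hinj : Function.Injective (fun q : Eis × Eis => ((q.1, p * q.2) : Eis × Eis)) := by
      intro a b hab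
      simp only [Prod.mk.injEq] at hab
      exact Prod.ext hab.1 (mul_left_cancel₀ hp.ne_zero hab.2)
    have hsup : Function.support (fun q : Eis × Eis => if p ∣ q.2 then
        tg h χ l k Y1 Y2 t1 t2 q else 0) ⊆ Set.range (fun q : Eis × Eis => ((q.1, p * q.2) : Eis × Eis)) := by
      intro q hq
      by_cases hd : p ∣ q.2
      · obtain ⟨c, hc⟩ := hd
        exact ⟨(q.1, c), by simp [← hc]⟩
      · exfalso; apply hq; simp [hd]
    rw [← hinj.tsum_eq hsup, TG_eq, ← tsum_mul_left]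
    refine tsum_congr fun q => ?_
    rw [if_pos (dvd_mul_right p q.2)]
    exact tg_shift2 hχ l k hY2 Y1 t1 t2 hp q.1 q.2
  rw [TG_eq, tsum_congr fun q => tg_split l k Y1 Y2 t1 t2 hp hpp q,
    Summable.tsum_add hS3 (hSa.add hSb), Summable.tsum_add hSa hSb, ea, eb, ← TG_eq]
  ring

end Crest.Agent.R017.Two939
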