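import Crest.Agent.R017.Two5_939
import Crest.Agent.R017.PLow1_271

/-!
# Row 17: two-factor theorem (6): the rule `monoG` (helper939)
-/

set_option autoImplicit false

noncomputable section

open Complex MeasureTheory Filter Topology
open scoped ContDiff

namespace Crest.Agent.R017.Two939

open Crest.Agent.R012 Crest.Agent.R012.Eis Crest.Agent.R012.LS2 Crest.Agent.R012.Gauss880
open Crest.Agent.R012.Weight600 (osc norm_osc ker)
open Crest.Agent.R012.PSer47 Crest.Agent.R012.Div277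
open Crest.Agent.R017.End699 Crest.Agent.R017.FE47

/-! ### merging over primes -/

open Classical in
lemma sum_mul_pow_le {P : Finset Eis} (hP : ∀ p ∈ P, p ≠ 0) {L B : ℝ} (hL : 0 ≤ L) {j : ℕ}
    (hj : j ≠ 0) (hB : 0 ≤ B) (hPB : ∀ p ∈ P, (nm p : ℝ) ^ j ≤ B) {f : Eis → ℝ}
    (hf : ∀ k, 0 ≤ f k) {D : ℝ} (hD : ∀ k ∈ bl (L * B), ((P.filter (fun p => p ∣ k)).card : ℝ) ≤ D) :
    ∑ p ∈ P, ∑ k ∈ bl L, f (k * p ^ j) ≤ D * ∑ k ∈ bl (L * B), f k := by
  classical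
  have h1 : ∀ p ∈ P, ∑ k ∈ bl L, f (k * p ^ j) ≤ ∑ k ∈ (bl (L * B)).filter (fun k => p ∣ k), f k := by
    intro p hp
    have hp0 := hP p hp
    have hpj : p ^ j ≠ 0 := pow_ne_zero _ hp0
    have hinj : Set.InjOn (fun k => k * p ^ j) (bl L : Set Eis) := fun a _ b _ hab =>
      mul_right_cancel₀ hpj hab
    rw [← Finset.sum_image (f := f) hinj]
    refine Finset.sum_le_sum_of_subset_of_nonneg ?_ fun k _ _ => hf k
    intro q hq
    rw [Finset.mem_image] at hq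
    obtain ⟨k, hk, rfl⟩ := hq
    rw [mem_bl hL] at hk
    rw [Finset.mem_filter, mem_bl (by positivity)]
    refine ⟨⟨mul_ne_zero hk.1 hpj, ?_⟩, (dvd_pow_self p hj).mul_left k⟩
    rw [nm_mul, nm_pow]
    push_cast
    exact mul_le_mul hk.2 (hPB p hp) (by positivity) hL
  calc ∑ p ∈ P, ∑ k ∈ bl L, f (k * p ^ j)
      ≤ ∑ p ∈ P, ∑ k ∈ (bl (L * B)).filter (fun k => p ∣ k), f k := Finset.sum_le_sum h1
    _ = ∑ k ∈ bl (L * B), ((P.filter (fun p => p ∣ k)).card : ℝ) * f k := by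
        simp_rw [Finset.sum_filter]
        rw [Finset.sum_comm]
        refine Finset.sum_congr rfl fun k _ => ?_
        rw [← Finset.sum_filter, Finset.sum_const, nsmul_eq_mul]
    _ ≤ ∑ k ∈ bl (L * B), D * f k := by
        refine Finset.sum_le_sum fun k hk => ?_
        exact mul_le_mul_of_nonneg_right (hD k hk) (hf k)
    _ = _ := by rw [Finset.mul_sum]

/-! ### change of scale -/

/-- partition of unity and Fourier inversion -/
lemma cfa_sep {h : ℝ → ℝ} {c : ℝ} (hpu : PU h c) (χ : Eis → ℂ) (l : ℤ) {R : ℝ}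
    (hR : ∀ u, cx h u ≠ 0 → |u| ≤ R) {Y : ℝ} (S : Finset ℕ)
    (hS : ∀ n : ℕ, |c * n - Real.log Y| ≤ 2 * R → n ∈ S) (t : ℝ) (b : Eis) :
    cfa h χ l Y t b = ∑ n ∈ S, ∫ u : ℝ, (ker (cx h) u * osc u (-Real.log Y)) *
      cfa h χ l (Real.exp (c * n)) (t + u) b := by
  by_cases hb : IsPrim b
  swap
  · rw [cfa_prim hb]
    symm
    refine Finset.sum_eq_zero fun n _ => ?_
    have : ∀ u, cfa h χ l (Real.exp (c * n)) (t + u) b = 0 := fun u => cfa_prim hb
    simp [this]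
  set x := Real.log (nm b) with hx
  have hx0 : 0 ≤ x := log_nm_nonneg hb
  have hR' : ∀ u, h u ≠ 0 → |u| ≤ R := fun u hu => hR u (by
    unfold cx
    exact_mod_cast hu)
  have h1 := hpu.one x hx0
  have h2 : h (x - Real.log Y) = ∑ n ∈ S, h (x - c * n) * h (x - Real.log Y) := by
    have h3 : ∑' n : ℕ, h (x - c * n) * h (x - Real.log Y) =
        ∑ n ∈ S, h (x - c * n) * h (x - Real.log Y) := by
      apply tsum_eq_sum
      intro n hn
      by_contra h0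
      apply hn
      apply hS
      have ha := hR' _ (left_ne_zero_of_mul h0)
      have hb' := hR' _ (right_ne_zero_of_mul h0)
      have : c * n - Real.log Y = (x - Real.log Y) - (x - c * n) := by ring
      rw [this]
      calc |(x - Real.log Y) - (x - c * n)| ≤ |x - Real.log Y| + |x - c * n| := abs_sub _ _
        _ ≤ 2 * R := by linarith
    rw [← h3, tsum_mul_right, h1, one_mul]
  have hinv := Weight600.inversion_smooth (cd_cx hpu.cd) (cs_cx hpu.cs) (x - Real.log Y)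
  have key : ∀ n : ℕ, ∫ u : ℝ, (ker (cx h) u * osc u (-Real.log Y)) *
      cfa h χ l (Real.exp (c * n)) (t + u) b =
      End699.ext χ b * ang l b * (osc t x * ((h (x - c * n) * h (x - Real.log Y) : ℝ) : ℂ)) := by
    intro n
    have e1 : ∀ u : ℝ, (ker (cx h) u * osc u (-Real.log Y)) *
        cfa h χ l (Real.exp (c * n)) (t + u) b =
        (ker (cx h) u * osc u (x - Real.log Y)) *
          (End699.ext χ b * ang l b * (osc t x * (h (x - c * n) : ℂ))) := by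
      intro u
      unfold cfa cx
      rw [Real.log_exp, Weight600.osc_add_left, ← hx]
      have e2 : osc u (x - Real.log Y) = osc u x * osc u (-Real.log Y) := by
        rw [← Weight600.osc_add_right]; rfl
      rw [e2]
      ring
    simp_rw [e1]
    rw [integral_mul_const, hinv]
    unfold cx
    push_cast
    ring
  rw [Finset.sum_congr rfl fun n _ => key n]
  rw [← Finset.mul_sum, ← Finset.mul_sum]
  unfold cfa cx
  rw [← hx]
  conv_lhs => rw [h2]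
  push_cast
  rfl

lemma continuous_cfa (h : ℝ → ℝ) (χ : Eis → ℂ) (l : ℤ) (Y : ℝ) (b : Eis) :
    Continuous fun t => cfa h χ l Y t b := by
  unfold cfa
  exact continuous_const.mul ((Weight600.continuous_osc_left _).mul continuous_const)

lemma continuous_tg1 (h : ℝ → ℝ) (χ : Eis → ℂ) (l : ℤ) (k : Eis) (Y1 Y2 t2 : ℝ) (p : Eis × Eis) :
    Continuous fun t => tg h χ l k Y1 Y2 t t2 p := by
  unfold tg
  exact ((continuous_cfa h χ l Y1 p.1).mul continuous_const).mul continuous_const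

lemma continuous_TG1 {h : ℝ → ℝ} (hh : HasCompactSupport h) (χ : Eis → ℂ) (l : ℤ) (k : Eis)
    (Y1 Y2 t2 : ℝ) : Continuous fun t => TG h χ l k Y1 Y2 t t2 := by
  obtain ⟨N, hN⟩ := TG_eq_sum hh χ l Y1 Y2
  simp_rw [hN k _ t2]
  exact continuous_finsetSum _ fun p _ => continuous_tg1 h χ l k Y1 Y2 t2 p

lemma norm_TG_bdd {h : ℝ → ℝ} (hh : HasCompactSupport h) (χ : Eis → ℂ) (l : ℤ) (k : Eis)
    (Y1 Y2 : ℝ) : ∃ C : ℝ, ∀ t1 t2, ‖TG h χ l k Y1 Y2 t1 t2‖ ≤ C := by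
  obtain ⟨N, hN⟩ := TG_eq_sum hh χ l Y1 Y2
  refine ⟨∑ p ∈ primBall N ×ˢ primBall N, ‖tg h χ l k Y1 Y2 0 0 p‖, fun t1 t2 => ?_⟩
  rw [hN]
  refine (norm_sum_le _ _).trans (le_of_eq (Finset.sum_congr rfl fun p _ => ?_))
  unfold tg cfa
  simp only [norm_mul, norm_osc]

/-- the Gauss side: change of the first scale -/
lemma TG_sep {h : ℝ → ℝ} {c : ℝ} (hpu : PU h c) (χ : Eis → ℂ) (l : ℤ) {R : ℝ}
    (hR : ∀ u, cx h u ≠ 0 → |u| ≤ R) {Y : ℝ} (S : Finset ℕ)
    (hS : ∀ n : ℕ, |c * n - Real.log Y| ≤ 2 * R → n ∈ S) (k : Eis) (Y2 t1 t2 : ℝ) :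
    TG h χ l k Y Y2 t1 t2 = ∑ n ∈ S, ∫ u : ℝ, (ker (cx h) u * osc u (-Real.log Y)) *
      TG h χ l k (Real.exp (c * n)) Y2 (t1 + u) t2 := by
  classical
  obtain ⟨N0, hN0⟩ := tg_support hpu.cs χ l Y Y2
  have hex : ∀ n : ℕ, ∃ N : ℕ, ∀ (k : Eis) (t1 t2 : ℝ) (p : Eis × Eis),
      tg h χ l k (Real.exp (c * n)) Y2 t1 t2 p ≠ 0 → p ∈ primBall N ×ˢ primBall N := fun n =>
    tg_support hpu.cs χ l (Real.exp (c * n)) Y2
  choose Nn hNn using hex
  set N := max N0 (S.sup Nn) with hNd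
  have hmono : ∀ {a : ℕ}, a ≤ N → ∀ p : Eis × Eis, p ∈ primBall a ×ˢ primBall a →
      p ∈ primBall N ×ˢ primBall N := by
    intro a ha p hp
    rw [Finset.mem_product, mem_primBall, mem_primBall] at hp ⊢
    exact ⟨⟨hp.1.1.trans ha, hp.1.2⟩, ⟨hp.2.1.trans ha, hp.2.2⟩⟩
  have e0 : TG h χ l k Y Y2 t1 t2 = ∑ p ∈ primBall N ×ˢ primBall N, tg h χ l k Y Y2 t1 t2 p := by
    rw [TG_eq, tsum_eq_sum]
    intro p hp
    by_contra h0
    exact hp (hmono (le_max_left _ _) p (hN0 k t1 t2 p h0))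
  have en : ∀ n ∈ S, ∀ t, TG h χ l k (Real.exp (c * n)) Y2 t t2 =
      ∑ p ∈ primBall N ×ˢ primBall N, tg h χ l k (Real.exp (c * n)) Y2 t t2 p := by
    intro n hn t
    rw [TG_eq, tsum_eq_sum]
    intro p hp
    by_contra h0
    exact hp (hmono ((Finset.le_sup hn).trans (le_max_right _ _)) p (hNn n k t t2 p h0))
  have hki := Weight600.ker_integrable (cd_cx hpu.cd) (cs_cx hpu.cs)
  have hint : ∀ n : ℕ, ∀ p : Eis × Eis, Integrable (fun u : ℝ =>
      (ker (cx h) u * osc u (-Real.log Y)) * tg h χ l k (Real.exp (c * n)) Y2 (t1 + u) t2 p) := by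
    intro n p
    refine (integrable_mul_osc hki _).mul_bdd (c := ‖tg h χ l k (Real.exp (c * n)) Y2 0 t2 p‖)
      ((continuous_tg1 h χ l k (Real.exp (c * n)) Y2 t2 p).comp
        (continuous_const.add continuous_id)).aestronglyMeasurable
      (Eventually.of_forall fun u => le_of_eq ?_)
    unfold tg cfa
    simp only [norm_mul, norm_osc]
  rw [e0]
  have e1 : ∀ n ∈ S, ∫ u : ℝ, (ker (cx h) u * osc u (-Real.log Y)) *
      TG h χ l k (Real.exp (c * n)) Y2 (t1 + u) t2 = ∑ p ∈ primBall N ×ˢ primBall N,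
      ∫ u : ℝ, (ker (cx h) u * osc u (-Real.log Y)) *
        tg h χ l k (Real.exp (c * n)) Y2 (t1 + u) t2 p := by
    intro n hn
    rw [← integral_finsetSum _ fun p _ => hint n p]
    congr 1
    funext u
    rw [en n hn, Finset.mul_sum]
  rw [Finset.sum_congr rfl e1, Finset.sum_comm]
  refine Finset.sum_congr rfl fun p _ => ?_
  unfold tg
  rw [cfa_sep hpu χ l hR S hS t1 p.1, Finset.sum_mul, Finset.sum_mul]
  refine Finset.sum_congr rfl fun n _ => ?_
  rw [← integral_mul_const, ← integral_mul_const]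
  congr 1
  funext u
  ring

/-- square form -/
lemma TG_sep_sq {h : ℝ → ℝ} {c : ℝ} (hpu : PU h c) (χ : Eis → ℂ) (l : ℤ) {R : ℝ}
    (hR : ∀ u, cx h u ≠ 0 → |u| ≤ R) {Y : ℝ} (S : Finset ℕ)
    (hS : ∀ n : ℕ, |c * n - Real.log Y| ≤ 2 * R → n ∈ S) (k : Eis) (Y2 t1 t2 : ℝ) :
    ‖TG h χ l k Y Y2 t1 t2‖ ^ 2 ≤ (S.card : ℝ) * (∫ u, ‖ker (cx h) u‖) *
      ∑ n ∈ S, ∫ u : ℝ, ‖ker (cx h) u‖ * ‖TG h χ l k (Real.exp (c * n)) Y2 (t1 + u) t2‖ ^ 2 := by
  have hki := Weight600.ker_integrable (cd_cx hpu.cd) (cs_cx hpu.cs)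
  have hI : 0 ≤ ∫ u, ‖ker (cx h) u‖ := integral_nonneg fun _ => norm_nonneg _
  rw [TG_sep hpu χ l hR S hS k Y2 t1 t2]
  refine (CR2.norm_sum_sq_le_card S _).trans ?_
  rw [mul_assoc]
  have hcard0 : (0 : ℝ) ≤ (S.card : ℝ) := Nat.cast_nonneg _
  refine mul_le_mul_of_nonneg_left ?_ hcard0
  rw [Finset.mul_sum]
  refine Finset.sum_le_sum fun n _ => ?_
  obtain ⟨C, hC⟩ := norm_TG_bdd hpu.cs χ l k (Real.exp (c * n)) Y2
  have hcont : Continuous fun u => TG h χ l k (Real.exp (c * n)) Y2 (t1 + u) t2 :=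
    (continuous_TG1 hpu.cs χ l k (Real.exp (c * n)) Y2 t2).comp (continuous_const.add continuous_id)
  have i1 : Integrable (fun u : ℝ => ‖ker (cx h) u‖ *
      ‖TG h χ l k (Real.exp (c * n)) Y2 (t1 + u) t2‖) :=
    hki.norm.mul_bdd (c := C) hcont.norm.aestronglyMeasurable
      (Eventually.of_forall fun u => by rw [norm_norm]; exact hC _ _)
  have i2 : Integrable (fun u : ℝ => ‖ker (cx h) u‖ *
      ‖TG h χ l k (Real.exp (c * n)) Y2 (t1 + u) t2‖ ^ 2) :=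
    hki.norm.mul_bdd (c := C ^ 2) (hcont.norm.pow 2).aestronglyMeasurable
      (Eventually.of_forall fun u => by
        rw [norm_pow, norm_norm]
        have := hC (t1 + u) t2
        gcongr)
  have h1 : ‖∫ u : ℝ, (ker (cx h) u * osc u (-Real.log Y)) *
      TG h χ l k (Real.exp (c * n)) Y2 (t1 + u) t2‖ ≤
      ∫ u : ℝ, ‖ker (cx h) u‖ * ‖TG h χ l k (Real.exp (c * n)) Y2 (t1 + u) t2‖ := by
    refine (norm_integral_le_integral_norm _).trans (le_of_eq ?_)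
    congr 1
    funext u
    rw [norm_mul, norm_mul, norm_osc, mul_one]
  have h2 : 0 ≤ ∫ u : ℝ, ‖ker (cx h) u‖ * ‖TG h χ l k (Real.exp (c * n)) Y2 (t1 + u) t2‖ :=
    integral_nonneg fun _ => by positivity
  refine (pow_le_pow_left₀ (norm_nonneg _) h1 2).trans ?_
  refine sq_le_of_forall h2 hI fun θ hθ => ?_
  rw [← integral_const_mul, ← integral_const_mul, ← integral_const_mul, ← integral_add
    (hki.norm.const_mul _) (i2.const_mul _)]
  apply integral_mono (i1.const_mul _) ((hki.norm.const_mul _).add (i2.const_mul _))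
  intro u
  simp only [Pi.add_apply]
  set x := ‖TG h χ l k (Real.exp (c * n)) Y2 (t1 + u) t2‖
  have h3 : 2 * x ≤ θ + θ⁻¹ * x ^ 2 := by
    have h4 : 0 ≤ θ⁻¹ * (θ - x) ^ 2 := by positivity
    have h5 : θ⁻¹ * (θ - x) ^ 2 = θ - 2 * x + θ⁻¹ * x ^ 2 := by field_simp; ring
    linarith
  nlinarith [mul_le_mul_of_nonneg_left h3 (norm_nonneg (ker (cx h) u))]

/-- symmetry -/
lemma TG_symm (h : ℝ → ℝ) (χ : Eis → ℂ) (l : ℤ) (k : Eis) (Y1 Y2 t1 t2 : ℝ) :
    TG h χ l k Y1 Y2 t1 t2 = TG h χ l k Y2 Y1 t2 t1 := by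
  unfold TG
  rw [← (Equiv.prodComm Eis Eis).tsum_eq]
  refine tsum_congr fun p => ?_
  simp only [Equiv.prodComm_apply, Prod.fst_swap, Prod.snd_swap]
  rw [mul_comm p.2 p.1]
  ring

lemma T2_symm (h : ℝ → ℝ) (χ : Eis → ℂ) (l : ℤ) (L Y1 Y2 t1 t2 : ℝ) :
    T2 h χ l L Y1 Y2 t1 t2 = T2 h χ l L Y2 Y1 t2 t1 := by
  unfold T2
  congr 1
  · exact Finset.sum_congr rfl fun k _ => by rw [TG_symm]
  · ring

end Crest.Agent.R017.Two939
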