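import Mathlib

/-!
# Row 17: the two-factor theorem, abstract contraction (helper320)

`v K Y t`          : normalised fourth moment of the smooth sums of length `Y`, shift `t`,
                     over the (non-cube) family of size `≤ K`;
`w K Z₁ Z₂ t₁ t₂`  : normalised mixed second moment of the products of two smooth sums;
`τ L Y₁ Y₂ t₁ t₂`  : the same on the Gauss sum side.

`Rules v w τ` : the rules (Cauchy, trivial bound, Poisson in both directions, cube monotonicity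
on the Gauss side, functional equation).  `two_factor` : `v K Y t ≤ C (K Y)^ε (1+|t|)^A`.

The exponent of the central loss contracts by the factor `2/3` in every step.
-/

set_option autoImplicit false

noncomputable section

namespace Crest.Agent.R017.Two320

open Real

/-- The rules for the second moments. -/
structure Rules (v : ℝ → ℝ → ℝ → ℝ) (w τ : ℝ → ℝ → ℝ → ℝ → ℝ → ℝ) : Prop where
  /-- Cauchy's inequality for a product of two smooth sums -/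
  cau : ∃ C : ℝ, 0 < C ∧ ∀ K Z1 Z2 t1 t2 : ℝ, 1 ≤ K → 1 ≤ Z1 → 1 ≤ Z2 →
    w K Z1 Z2 t1 t2 ≤ C * (v K Z1 t1 + v K Z2 t2)
  /-- trivial bound -/
  base : ∃ e0 C : ℝ, 0 ≤ e0 ∧ 0 < C ∧ ∀ K Y t : ℝ, 1 ≤ K → 1 ≤ Y → v K Y t ≤ C * Y ^ e0
  /-- Poisson, from the Gauss side to the character side -/
  poisG : ∀ ε M : ℝ, 0 < ε → 0 ≤ M → ∃ C : ℝ, 0 < C ∧ ∀ L Y1 Y2 t1 t2 B : ℝ,
    1 ≤ L → 1 ≤ Y1 → 1 ≤ Y2 → 0 ≤ B →
    (∀ D E F Z1 Z2 K s1 s2 : ℝ, 1 ≤ E → E ≤ D → 1 ≤ F →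
      1 ≤ Z1 → Z1 ≤ (L * Y1 * Y2) ^ ε * Y1 → 1 ≤ Z2 → Z2 ≤ (L * Y1 * Y2) ^ ε * Y2 →
      Z1 * Z2 * (D * F) ≤ (L * Y1 * Y2) ^ ε * (Y1 * Y2) →
      1 ≤ K → K ≤ (L * Y1 * Y2) ^ (10 : ℝ) →
      E / D * w K Z1 Z2 (t1 + s1) (t2 + s2) ≤ B * ((1 + |s1|) * (1 + |s2|)) ^ M) →
    τ L Y1 Y2 t1 t2 ≤ C * (L * Y1 * Y2) ^ ε * (1 + Y1 * Y2 / L * B)
  /-- Poisson, from the character side to the Gauss side -/
  poisC : ∀ ε M : ℝ, 0 < ε → 0 ≤ M → ∃ C : ℝ, 0 < C ∧ ∀ K Y t B : ℝ,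
    1 ≤ K → 1 ≤ Y → 0 ≤ B →
    (∀ D E F Z1 Z2 L s1 s2 : ℝ, 1 ≤ E → E ≤ D → 1 ≤ F →
      1 ≤ Z1 → Z1 ≤ (K * Y) ^ ε * Y → 1 ≤ Z2 → Z2 ≤ (K * Y) ^ ε * Y →
      Z1 * Z2 * (D * F) ≤ (K * Y) ^ ε * Y ^ 2 →
      1 ≤ L → L ≤ (K * Y) ^ (20 : ℝ) →
      F * E ^ 3 * Y ^ 4 ≤ (K * Y) ^ ε * (D ^ 2 * K * L) →
      E / D * τ L Z1 Z2 (t + s1) (t + s2) ≤ B * ((1 + |s1|) * (1 + |s2|)) ^ M) →
    v K Y t ≤ C * (K * Y) ^ ε * (1 + Y ^ 2 / K * B)
  /-- cube monotonicity on the Gauss side, with prime cubes of norm `≍ P` -/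
  monoG : ∀ ε M : ℝ, 0 < ε → 0 ≤ M → ∃ C : ℝ, 0 < C ∧ ∀ L Y1 Y2 P t1 t2 B1 B2 : ℝ,
    1 ≤ L → 1 ≤ Y1 → 1 ≤ Y2 → 1 ≤ P → 0 ≤ B1 → 0 ≤ B2 →
    (∀ L' s1 s2 : ℝ, L * P ^ 3 ≤ L' → L' ≤ (L * P * Y1 * Y2) ^ ε * (L * P ^ 3) →
      τ L' Y1 Y2 (t1 + s1) (t2 + s2) ≤ B1 * ((1 + |s1|) * (1 + |s2|)) ^ M) →
    (∀ L' Z1 Z2 s1 s2 : ℝ, 1 ≤ L' → L * P ≤ (L * P * Y1 * Y2) ^ ε * L' →
      L' ≤ (L * P * Y1 * Y2) ^ (10 : ℝ) →
      1 ≤ Z1 → Z1 ≤ (L * P * Y1 * Y2) ^ ε * Y1 → 1 ≤ Z2 → Z2 ≤ (L * P * Y1 * Y2) ^ ε * Y2 →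
      Z1 * Z2 * P ≤ (L * P * Y1 * Y2) ^ ε * (Y1 * Y2) →
      τ L' Z1 Z2 (t1 + s1) (t2 + s2) ≤ B2 * ((1 + |s1|) * (1 + |s2|)) ^ M) →
    τ L Y1 Y2 t1 t2 ≤ C * (L * P * Y1 * Y2) ^ ε * (P ^ 2 * B1 + B2 / P)
  /-- functional equation -/
  flip : ∀ ε M : ℝ, 0 < ε → 0 ≤ M → ∃ C J : ℝ, 0 < C ∧ 0 ≤ J ∧ ∀ K Y t B : ℝ,
    1 ≤ K → 1 ≤ Y → 0 ≤ B → K ≤ Y ^ 2 →
    (∀ K1 Z s : ℝ, 1 ≤ K1 → K1 ≤ (K * Y) ^ ε * K → 1 ≤ Z → Z ≤ (K * Y) ^ ε * Y →
      Z ^ 2 ≤ (K * Y) ^ ε * K1 → v K1 Z s ≤ B * (1 + |s|) ^ M) →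
    v K Y t ≤ C * (K * Y) ^ ε * (1 + |t|) ^ J * (1 + B)

/-- bound with central loss `e` -/
def Bd (v : ℝ → ℝ → ℝ → ℝ) (e : ℝ) : Prop := ∀ ε : ℝ, 0 < ε → ∃ C A : ℝ, 0 < C ∧ 0 ≤ A ∧
  ∀ K Y t : ℝ, 1 ≤ K → 1 ≤ Y → v K Y t ≤ C * (K * Y) ^ ε * (1 + |t|) ^ A * Y ^ e

/-- first bound on the Gauss side -/
def TB1 (τ : ℝ → ℝ → ℝ → ℝ → ℝ → ℝ) (e : ℝ) : Prop := ∀ ε : ℝ, 0 < ε → ∃ C A : ℝ, 0 < C ∧ 0 ≤ A ∧
  ∀ L Y Y1 Y2 t1 t2 : ℝ, 1 ≤ L → 1 ≤ Y1 → Y1 ≤ Y → 1 ≤ Y2 → Y2 ≤ Y →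
    τ L Y1 Y2 t1 t2 ≤ C * (L * Y) ^ ε * ((1 + |t1|) * (1 + |t2|)) ^ A * (1 + Y1 * Y2 / L * Y ^ e)

/-- second bound on the Gauss side -/
def TB2 (τ : ℝ → ℝ → ℝ → ℝ → ℝ → ℝ) (e : ℝ) : Prop := ∀ ε : ℝ, 0 < ε → ∃ C A : ℝ, 0 < C ∧ 0 ≤ A ∧
  ∀ L Y Y1 Y2 t1 t2 : ℝ, 1 ≤ L → 1 ≤ Y1 → Y1 ≤ Y → 1 ≤ Y2 → Y2 ≤ Y →
    τ L Y1 Y2 t1 t2 ≤ C * (L * Y) ^ ε * ((1 + |t1|) * (1 + |t2|)) ^ A *
      (1 + (Y1 * Y2 / L * Y ^ e) ^ ((2 : ℝ) / 3))

/-! ### elementary lemmas -/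

lemma rpow_le_of_le_rpow {a W s r : ℝ} (ha : 0 ≤ a) (hW : 0 ≤ W) (hr : 0 ≤ r) (h : a ≤ W ^ s) :
    a ^ r ≤ W ^ (s * r) := by
  rw [Real.rpow_mul hW]
  exact Real.rpow_le_rpow ha h hr

lemma one_add_abs_add (t s : ℝ) : 1 + |t + s| ≤ (1 + |t|) * (1 + |s|) := by
  have := abs_add_le t s
  nlinarith [abs_nonneg t, abs_nonneg s, mul_nonneg (abs_nonneg t) (abs_nonneg s)]

lemma pow_add_abs (t s A : ℝ) (hA : 0 ≤ A) :
    (1 + |t + s|) ^ A ≤ (1 + |t|) ^ A * (1 + |s|) ^ A := by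
  rw [← Real.mul_rpow (by positivity) (by positivity)]
  exact Real.rpow_le_rpow (by positivity) (one_add_abs_add t s) hA

lemma pow_two_abs (t1 t2 s1 s2 A : ℝ) (hA : 0 ≤ A) :
    ((1 + |t1 + s1|) * (1 + |t2 + s2|)) ^ A ≤
      ((1 + |t1|) * (1 + |t2|)) ^ A * ((1 + |s1|) * (1 + |s2|)) ^ A := by
  rw [← Real.mul_rpow (by positivity) (by positivity)]
  refine Real.rpow_le_rpow (by positivity) ?_ hA
  have h1 := one_add_abs_add t1 s1
  have h3 := one_add_abs_add t2 s2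
  calc (1 + |t1 + s1|) * (1 + |t2 + s2|) ≤ ((1 + |t1|) * (1 + |s1|)) * ((1 + |t2|) * (1 + |s2|)) :=
        mul_le_mul h1 h3 (by positivity) (by positivity)
    _ = _ := by ring

/-- Bounding one value. -/
lemma vb {C1 ε1 A e K Z t1 t X Y T m V : ℝ} (hC1 : 0 < C1) (h1 : 0 ≤ ε1) (hA : 0 ≤ A)
    (he : 0 ≤ e) (hX : 1 ≤ X) (hK : 0 ≤ K) (hZ : 0 ≤ Z) (hY : 0 ≤ Y)
    (hV : V ≤ C1 * (K * Z) ^ ε1 * (1 + |t1 + t|) ^ A * Z ^ e)
    (hKZ : K * Z ≤ X ^ m) (hZX : Z ≤ X ^ ε1 * Y) (hT : 1 + |t1| ≤ T) :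
    V ≤ C1 * X ^ ((m + e) * ε1) * T ^ A * (1 + |t|) ^ A * Y ^ e := by
  have hX0 : 0 ≤ X := by linarith
  have e1 : (K * Z) ^ ε1 ≤ X ^ (m * ε1) := rpow_le_of_le_rpow (mul_nonneg hK hZ) hX0 h1 hKZ
  have e2 : (1 + |t1 + t|) ^ A ≤ T ^ A * (1 + |t|) ^ A := by
    refine (pow_add_abs t1 t A hA).trans ?_
    exact mul_le_mul_of_nonneg_right (Real.rpow_le_rpow (by positivity) hT hA) (by positivity)
  have e3 : Z ^ e ≤ X ^ (ε1 * e) * Y ^ e := by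
    rw [Real.rpow_mul hX0, ← Real.mul_rpow (by positivity) hY]
    exact Real.rpow_le_rpow hZ hZX he
  have hT0 : 0 ≤ T := by have := abs_nonneg t1; linarith
  have hXp : X ^ ((m + e) * ε1) = X ^ (m * ε1) * X ^ (ε1 * e) := by
    rw [← Real.rpow_add (by linarith)]; congr 1; ring
  calc V ≤ C1 * (K * Z) ^ ε1 * (1 + |t1 + t|) ^ A * Z ^ e := hV
    _ ≤ C1 * X ^ (m * ε1) * (T ^ A * (1 + |t|) ^ A) * (X ^ (ε1 * e) * Y ^ e) := by
        gcongr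
    _ = _ := by rw [hXp]; ring

lemma tb1 {v : ℝ → ℝ → ℝ → ℝ} {w τ : ℝ → ℝ → ℝ → ℝ → ℝ → ℝ} (R : Rules v w τ) {e : ℝ}
    (he : 0 ≤ e) (h : Bd v e) : TB1 τ e := by
  intro ε hε
  obtain ⟨Cc, hCc, hcau⟩ := R.cau
  have ha0 : 0 < 2 * (13 + e) := by positivity
  obtain ⟨ε1, h1, h1', h1a⟩ : ∃ ε1 : ℝ, 0 < ε1 ∧ ε1 ≤ 1 ∧ 2 * (13 + e) * ε1 ≤ ε := by
    refine ⟨min 1 (ε / (2 * (13 + e))), lt_min one_pos (by positivity), min_le_left _ _, ?_⟩
    calc 2 * (13 + e) * min 1 (ε / (2 * (13 + e))) ≤ 2 * (13 + e) * (ε / (2 * (13 + e))) :=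
          mul_le_mul_of_nonneg_left (min_le_right _ _) ha0.le
      _ = ε := by field_simp
  obtain ⟨C1, A, hC1, hA, hb⟩ := h ε1 h1
  obtain ⟨C2, hC2, hp⟩ := R.poisG ε1 A h1 hA
  refine ⟨C2 * (1 + 2 * Cc * C1), A, by positivity, hA, ?_⟩
  intro L Y Y1 Y2 t1 t2 hL hY1 hY1' hY2 hY2'
  have hY : 1 ≤ Y := hY1.trans hY1'
  have hX : 1 ≤ L * Y1 * Y2 := one_le_mul_of_one_le_of_one_le (one_le_mul_of_one_le_of_one_le hL hY1) hY2
  set X := L * Y1 * Y2 with hXdef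
  have hX0 : 0 < X := by linarith
  have hY1X : Y1 ≤ X := by
    rw [hXdef]
    calc Y1 = 1 * Y1 * 1 := by ring
      _ ≤ L * Y1 * Y2 := by gcongr
  have hY2X : Y2 ≤ X := by
    rw [hXdef]
    calc Y2 = 1 * 1 * Y2 := by ring
      _ ≤ L * Y1 * Y2 := by gcongr
  set T := (1 + |t1|) * (1 + |t2|) with hTdef
  have ht1 := abs_nonneg t1
  have ht2 := abs_nonneg t2
  have hT1 : 1 + |t1| ≤ T := by rw [hTdef]; nlinarith
  have hT2 : 1 + |t2| ≤ T := by rw [hTdef]; nlinarith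
  have hT : 1 ≤ T := by linarith
  set P := X ^ ((12 + e) * ε1) * T ^ A with hP
  have hXP : 1 ≤ X ^ ((12 + e) * ε1) := Real.one_le_rpow hX (by positivity)
  have hTP : 1 ≤ T ^ A := Real.one_le_rpow hT hA
  have hP1 : 1 ≤ P := one_le_mul_of_one_le_of_one_le hXP hTP
  have hYe : 0 < Y ^ e := Real.rpow_pos_of_pos (by linarith) _
  have hN : 0 < Y1 * Y2 / L := by positivity
  have key := hp L Y1 Y2 t1 t2 (2 * Cc * C1 * P * Y ^ e) hL hY1 hY2 (by positivity) ?_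
  · have hXL : X ≤ (L * Y) ^ (2 : ℝ) := by
      rw [Real.rpow_two, hXdef]
      calc L * Y1 * Y2 ≤ L * Y * Y := by gcongr
        _ = 1 * (L * Y * Y) := by ring
        _ ≤ L * (L * Y * Y) := by gcongr
        _ = _ := by ring
    have hLY : 1 ≤ L * Y := one_le_mul_of_one_le_of_one_le hL hY
    calc τ L Y1 Y2 t1 t2 ≤ C2 * X ^ ε1 * (1 + Y1 * Y2 / L * (2 * Cc * C1 * P * Y ^ e)) := key
      _ ≤ C2 * X ^ ε1 * ((1 + 2 * Cc * C1) * P * (1 + Y1 * Y2 / L * Y ^ e)) := by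
          gcongr
          have h3 : 0 ≤ Y1 * Y2 / L * Y ^ e * P := by positivity
          have h4 : 0 ≤ 2 * Cc * C1 * P := by positivity
          nlinarith
      _ = C2 * (1 + 2 * Cc * C1) * X ^ ((13 + e) * ε1) * T ^ A * (1 + Y1 * Y2 / L * Y ^ e) := by
          rw [hP, show (13 + e) * ε1 = ε1 + (12 + e) * ε1 by ring, Real.rpow_add hX0]
          ring
      _ ≤ C2 * (1 + 2 * Cc * C1) * (L * Y) ^ ε * T ^ A * (1 + Y1 * Y2 / L * Y ^ e) := by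
          gcongr
          refine (rpow_le_of_le_rpow hX0.le (by linarith) (by positivity) hXL).trans ?_
          exact Real.rpow_le_rpow_of_exponent_le hLY (by nlinarith)
  · intro D E F Z1 Z2 K s1 s2 hE hED hF hZ1 hZ1' hZ2 hZ2' hZZ hK hK'
    have hE0 : 0 < E := by linarith
    have hD0 : 0 < D := by linarith
    have hXe : X ^ ε1 ≤ X := by
      calc X ^ ε1 ≤ X ^ (1 : ℝ) := Real.rpow_le_rpow_of_exponent_le hX h1'
        _ = X := Real.rpow_one X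
    have hX12 : X ^ (12 : ℝ) = X ^ (10 : ℝ) * (X * X) := by
      rw [show (12 : ℝ) = 10 + 2 by norm_num, Real.rpow_add hX0, Real.rpow_two]; ring
    have b1 := vb hC1 h1.le hA he hX (by linarith) (by linarith) (by linarith)
      (hb K Z1 (t1 + s1) hK hZ1) (m := 12) (X := X) (Y := Y) (T := T)
      (by rw [hX12]
          exact mul_le_mul hK' (hZ1'.trans (mul_le_mul hXe hY1X (by linarith) hX0.le))
            (by linarith) (by positivity))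
      (hZ1'.trans (by gcongr)) hT1
    have b2 := vb hC1 h1.le hA he hX (by linarith) (by linarith) (by linarith)
      (hb K Z2 (t2 + s2) hK hZ2) (m := 12) (X := X) (Y := Y) (T := T)
      (by rw [hX12]
          exact mul_le_mul hK' (hZ2'.trans (mul_le_mul hXe hY2X (by linarith) hX0.le))
            (by linarith) (by positivity))
      (hZ2'.trans (by gcongr)) hT2
    have hED' : E / D ≤ 1 := (div_le_one hD0).mpr hED
    have hw := hcau K Z1 Z2 (t1 + s1) (t2 + s2) hK hZ1 hZ2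
    set S := (1 + |s1|) * (1 + |s2|) with hS
    have hs1 := abs_nonneg s1
    have hs2 := abs_nonneg s2
    have hS1 : (1 + |s1|) ^ A ≤ S ^ A :=
      Real.rpow_le_rpow (by positivity) (by rw [hS]; nlinarith) hA
    have hS2 : (1 + |s2|) ^ A ≤ S ^ A :=
      Real.rpow_le_rpow (by positivity) (by rw [hS]; nlinarith) hA
    have hS0 : 0 ≤ S ^ A := le_trans (by positivity) hS1
    set Q := C1 * X ^ ((12 + e) * ε1) * T ^ A * S ^ A * Y ^ e with hQ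
    have hQ0 : 0 ≤ Q := by positivity
    have b1' : v K Z1 (t1 + s1) ≤ Q := b1.trans (by rw [hQ]; gcongr)
    have b2' : v K Z2 (t2 + s2) ≤ Q := b2.trans (by rw [hQ]; gcongr)
    calc E / D * w K Z1 Z2 (t1 + s1) (t2 + s2) ≤ E / D * (Cc * (Q + Q)) := by
          gcongr
          refine hw.trans ?_
          gcongr
      _ ≤ 1 * (Cc * (Q + Q)) := by gcongr
      _ = 2 * Cc * C1 * P * Y ^ e * S ^ A := by rw [hQ, hP]; ring

/-- Choosing a small `ε`. -/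
lemma exists_eps {ε a : ℝ} (hε : 0 < ε) (ha : 0 < a) :
    ∃ ε1 : ℝ, 0 < ε1 ∧ ε1 ≤ 1 ∧ a * ε1 ≤ ε := by
  refine ⟨min 1 (ε / a), lt_min one_pos (by positivity), min_le_left _ _, ?_⟩
  calc a * min 1 (ε / a) ≤ a * (ε / a) := mul_le_mul_of_nonneg_left (min_le_right _ _) ha.le
    _ = ε := by field_simp

/-- Bounding one value on the Gauss side. -/
lemma tbv {C1 ε1 A K t1 t2 s1 s2 W T m V G : ℝ} (hC1 : 0 < C1) (h1 : 0 ≤ ε1) (hA : 0 ≤ A)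
    (hW : 1 ≤ W) (hK : 0 ≤ K) (hG : 0 ≤ G)
    (hV : V ≤ C1 * K ^ ε1 * ((1 + |t1 + s1|) * (1 + |t2 + s2|)) ^ A * G)
    (hKZ : K ≤ W ^ m) (hT : (1 + |t1|) * (1 + |t2|) ≤ T) :
    V ≤ C1 * W ^ (m * ε1) * T ^ A * ((1 + |s1|) * (1 + |s2|)) ^ A * G := by
  have hW0 : 0 ≤ W := by linarith
  have e1 : K ^ ε1 ≤ W ^ (m * ε1) := rpow_le_of_le_rpow hK hW0 h1 hKZ
  have e2 : ((1 + |t1 + s1|) * (1 + |t2 + s2|)) ^ A ≤
      T ^ A * ((1 + |s1|) * (1 + |s2|)) ^ A := by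
    refine (pow_two_abs t1 t2 s1 s2 A hA).trans ?_
    exact mul_le_mul_of_nonneg_right (Real.rpow_le_rpow (by positivity) hT hA) (by positivity)
  have hT0 : 0 ≤ T := le_trans (by positivity) hT
  calc V ≤ C1 * K ^ ε1 * ((1 + |t1 + s1|) * (1 + |t2 + s2|)) ^ A * G := hV
    _ ≤ C1 * W ^ (m * ε1) * (T ^ A * ((1 + |s1|) * (1 + |s2|)) ^ A) * G := by gcongr
    _ = _ := by ring

lemma tb2 {v : ℝ → ℝ → ℝ → ℝ} {w τ : ℝ → ℝ → ℝ → ℝ → ℝ → ℝ} (R : Rules v w τ) {e : ℝ}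
    (he : 0 ≤ e) (h : TB1 τ e) : TB2 τ e := by
  intro ε hε
  obtain ⟨ε1, h1, h1', h1a⟩ := exists_eps hε (a := (3 + e) * (3 + e) + (34 + 11 * e) + (3 + e))
    (by positivity)
  obtain ⟨C1, A, hC1, hA, hb⟩ := h ε1 h1
  obtain ⟨C2, hC2, hp⟩ := R.monoG ε1 A h1 hA
  refine ⟨C2 * (4 * C1), A, by positivity, hA, ?_⟩
  intro L Y Y1 Y2 t1 t2 hL hY1 hY1' hY2 hY2'
  have hY : 1 ≤ Y := hY1.trans hY1'
  set T := (1 + |t1|) * (1 + |t2|) with hTdef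
  have hT0 : 0 ≤ T := by positivity
  set u := Y1 * Y2 / L * Y ^ e with hu
  have hYe : 1 ≤ Y ^ e := Real.one_le_rpow hY he
  have hL0 : 0 < L := by linarith
  have hY0 : 0 < Y := by linarith
  have hu0 : 0 < u := by positivity
  -- the parameter `P`
  set P := max 1 (u ^ ((1 : ℝ) / 3)) with hPdef
  have hP1 : 1 ≤ P := le_max_left _ _
  have hP0 : 0 < P := by linarith
  have hP3 : u ≤ P ^ 3 := by
    calc u = (u ^ ((1 : ℝ) / 3)) ^ 3 := by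
          rw [← Real.rpow_natCast, ← Real.rpow_mul hu0.le]; norm_num
      _ ≤ P ^ 3 := by gcongr; exact le_max_right _ _
  have hP2 : P ^ 2 ≤ 1 + u ^ ((2 : ℝ) / 3) := by
    have h23 : (u ^ ((1 : ℝ) / 3)) ^ 2 = u ^ ((2 : ℝ) / 3) := by
      rw [← Real.rpow_natCast, ← Real.rpow_mul hu0.le]; norm_num
    rcases max_cases (1 : ℝ) (u ^ ((1 : ℝ) / 3)) with ⟨hm, _⟩ | ⟨hm, _⟩
    · rw [hPdef, hm]; have : 0 ≤ u ^ ((2 : ℝ) / 3) := by positivity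
      linarith
    · rw [hPdef, hm, h23]; linarith
  -- the size of `u`
  have huW : u ≤ Y ^ (2 + e) := by
    rw [hu, Real.rpow_add hY0, Real.rpow_two]
    gcongr
    calc Y1 * Y2 / L ≤ Y * Y / 1 := by gcongr
      _ = Y ^ 2 := by ring
  have hPW : P ≤ Y ^ (1 + e) := by
    refine max_le (Real.one_le_rpow hY (by positivity)) ?_
    calc u ^ ((1 : ℝ) / 3) ≤ (Y ^ (2 + e)) ^ ((1 : ℝ) / 3) :=
          Real.rpow_le_rpow hu0.le huW (by norm_num)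
      _ = Y ^ ((2 + e) * (1 / 3)) := by rw [← Real.rpow_mul hY0.le]
      _ ≤ Y ^ (1 + e) := Real.rpow_le_rpow_of_exponent_le hY (by nlinarith)
  set W := L * Y with hWdef
  have hW : 1 ≤ W := one_le_mul_of_one_le_of_one_le hL hY
  have hW0 : 0 < W := by linarith
  have hYW : Y ≤ W := by rw [hWdef]; nlinarith
  have hX : 1 ≤ L * P * Y1 * Y2 := one_le_mul_of_one_le_of_one_le
    (one_le_mul_of_one_le_of_one_le (one_le_mul_of_one_le_of_one_le hL hP1) hY1) hY2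
  set X := L * P * Y1 * Y2 with hXdef
  have hX0 : 0 < X := by linarith
  have hXW : X ≤ W ^ (3 + e) := by
    have h3 : W ^ (3 + e) = W * W * W ^ (1 + e) := by
      rw [show 3 + e = 2 + (1 + e) by ring, Real.rpow_add hW0, Real.rpow_two]; ring
    rw [h3, hXdef]
    have h4 : P ≤ W ^ (1 + e) := hPW.trans (Real.rpow_le_rpow hY0.le hYW (by positivity))
    calc L * P * Y1 * Y2 ≤ L * W ^ (1 + e) * Y * Y := by gcongr
      _ = (L * Y) * Y * W ^ (1 + e) := by ring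
      _ ≤ W * W * W ^ (1 + e) := by gcongr
  have hXe : X ^ ε1 ≤ X := by
    calc X ^ ε1 ≤ X ^ (1 : ℝ) := Real.rpow_le_rpow_of_exponent_le hX h1'
      _ = X := Real.rpow_one X
  have hXe1 : 1 ≤ X ^ ε1 := Real.one_le_rpow hX h1.le
  -- common exponent
  set q := (3 + e) * (2 + e) + (34 + 11 * e) with hq
  have hq0 : 0 ≤ q := by positivity
  have hWq : 1 ≤ W ^ (q * ε1) := Real.one_le_rpow hW (by positivity)
  have key := hp L Y1 Y2 P t1 t2 (2 * C1 * W ^ (q * ε1) * T ^ A)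
    (2 * P * C1 * W ^ (q * ε1) * T ^ A) hL hY1 hY2 hP1 (by positivity) (by positivity) ?_ ?_
  · calc τ L Y1 Y2 t1 t2 ≤ C2 * X ^ ε1 * (P ^ 2 * (2 * C1 * W ^ (q * ε1) * T ^ A) +
          2 * P * C1 * W ^ (q * ε1) * T ^ A / P) := key
      _ = C2 * X ^ ε1 * (2 * C1 * W ^ (q * ε1) * T ^ A * (P ^ 2 + 1)) := by
          field_simp
      _ ≤ C2 * X ^ ε1 * (2 * C1 * W ^ (q * ε1) * T ^ A * (2 * (1 + u ^ ((2 : ℝ) / 3)))) := by
          have hu23 : 0 ≤ u ^ ((2 : ℝ) / 3) := by positivity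
          gcongr
          linarith
      _ ≤ C2 * W ^ ((3 + e) * ε1) * (2 * C1 * W ^ (q * ε1) * T ^ A *
            (2 * (1 + u ^ ((2 : ℝ) / 3)))) := by
          gcongr
          exact rpow_le_of_le_rpow hX0.le hW0.le h1.le hXW
      _ = C2 * (4 * C1) * W ^ ((3 + e) * ε1 + q * ε1) * T ^ A * (1 + u ^ ((2 : ℝ) / 3)) := by
          rw [Real.rpow_add hW0]; ring
      _ ≤ C2 * (4 * C1) * W ^ ε * T ^ A * (1 + u ^ ((2 : ℝ) / 3)) := by
          gcongr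
          rw [hq]; nlinarith [mul_nonneg (by positivity : (0:ℝ) ≤ 3 + e) h1.le]
  · -- the long family
    intro L' s1 s2 hL1 hL2
    have hLP : 1 ≤ L * P ^ 3 := one_le_mul_of_one_le_of_one_le hL (one_le_pow₀ hP1)
    have hL'1 : 1 ≤ L' := hLP.trans hL1
    have hL'0 : 0 < L' := by linarith
    have hG : Y1 * Y2 / L' * Y ^ e ≤ 1 := by
      have h5 : Y1 * Y2 * Y ^ e ≤ L' := by
        calc Y1 * Y2 * Y ^ e = L * u := by rw [hu]; field_simp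
          _ ≤ L * P ^ 3 := by gcongr
          _ ≤ L' := hL1
      calc Y1 * Y2 / L' * Y ^ e = Y1 * Y2 * Y ^ e / L' := by ring
        _ ≤ 1 := (div_le_one hL'0).mpr h5
    have hsz : L' * Y ≤ W ^ (5 * (3 + e) + 1) := by
      have h6 : L * P ^ 3 ≤ X ^ (4 : ℝ) := by
        have hPX : P ≤ X := by
          rw [hXdef]
          calc P = 1 * P * 1 * 1 := by ring
            _ ≤ L * P * Y1 * Y2 := by gcongr
        have hLX : L ≤ X := by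
          rw [hXdef]
          calc L = L * 1 * 1 * 1 := by ring
            _ ≤ L * P * Y1 * Y2 := by gcongr
        calc L * P ^ 3 ≤ X * X ^ 3 := by gcongr
          _ = X ^ (4 : ℝ) := by
            rw [show (4 : ℝ) = ((4 : ℕ) : ℝ) by norm_num, Real.rpow_natCast]; ring
      calc L' * Y ≤ X ^ ε1 * (L * P ^ 3) * W := by gcongr
        _ ≤ X * X ^ (4 : ℝ) * W := by gcongr
        _ = X ^ (5 : ℝ) * W := by
            rw [show (5 : ℝ) = 1 + 4 by norm_num, Real.rpow_add hX0, Real.rpow_one]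
        _ ≤ (W ^ (3 + e)) ^ (5 : ℝ) * W := by
            gcongr
        _ = W ^ (5 * (3 + e) + 1) := by
            rw [← Real.rpow_mul hW0.le, Real.rpow_add hW0, Real.rpow_one]; ring_nf
    have b := tbv hC1 h1.le hA hW (by positivity) (by positivity)
      (hb L' Y Y1 Y2 (t1 + s1) (t2 + s2) hL'1 hY1 hY1' hY2 hY2') hsz le_rfl
    refine b.trans ?_
    have h7 : W ^ ((5 * (3 + e) + 1) * ε1) ≤ W ^ (q * ε1) := by
      refine Real.rpow_le_rpow_of_exponent_le hW ?_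
      gcongr
      rw [hq]; nlinarith
    calc C1 * W ^ ((5 * (3 + e) + 1) * ε1) * T ^ A * ((1 + |s1|) * (1 + |s2|)) ^ A *
          (1 + Y1 * Y2 / L' * Y ^ e)
        ≤ C1 * W ^ (q * ε1) * T ^ A * ((1 + |s1|) * (1 + |s2|)) ^ A * (1 + 1) := by gcongr
      _ = _ := by ring
  · -- the short family
    intro L' Z1 Z2 s1 s2 hL'1 hL'2 hL'3 hZ1 hZ1' hZ2 hZ2' hZZ
    have hL'0 : 0 < L' := by linarith
    have hY' : 1 ≤ X ^ ε1 * Y := one_le_mul_of_one_le_of_one_le hXe1 hY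
    have hG : Z1 * Z2 / L' * (X ^ ε1 * Y) ^ e ≤ X ^ ((2 + e) * ε1) * P := by
      have h8 : (X ^ ε1 * Y) ^ e = X ^ (e * ε1) * Y ^ e := by
        rw [Real.mul_rpow (by positivity) hY0.le, ← Real.rpow_mul hX0.le, mul_comm ε1 e]
      have h9 : X ^ ((2 + e) * ε1) = X ^ ε1 * X ^ ε1 * X ^ (e * ε1) := by
        rw [← Real.rpow_add hX0, ← Real.rpow_add hX0]; congr 1; ring
      rw [h8, h9, div_mul_eq_mul_div, div_le_iff₀ hL'0]
      have h10 : Z1 * Z2 * P ≤ X ^ ε1 * (Y1 * Y2) := hZZ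
      have h11 : Y1 * Y2 * Y ^ e ≤ L * P ^ 3 := by
        calc Y1 * Y2 * Y ^ e = L * u := by rw [hu]; field_simp
          _ ≤ L * P ^ 3 := by gcongr
      have h12 : Z1 * Z2 * Y ^ e * P ≤ X ^ ε1 * X ^ ε1 * L' * P * P := by
        calc Z1 * Z2 * Y ^ e * P = (Z1 * Z2 * P) * Y ^ e := by ring
          _ ≤ (X ^ ε1 * (Y1 * Y2)) * Y ^ e := by gcongr
          _ = X ^ ε1 * (Y1 * Y2 * Y ^ e) := by ring
          _ ≤ X ^ ε1 * (L * P ^ 3) := by gcongr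
          _ = X ^ ε1 * (L * P) * P * P := by ring
          _ ≤ X ^ ε1 * (X ^ ε1 * L') * P * P := by gcongr
          _ = _ := by ring
      have h13 : Z1 * Z2 * Y ^ e ≤ X ^ ε1 * X ^ ε1 * L' * P :=
        le_of_mul_le_mul_right (by linarith) hP0
      calc Z1 * Z2 * (X ^ (e * ε1) * Y ^ e) = X ^ (e * ε1) * (Z1 * Z2 * Y ^ e) := by ring
        _ ≤ X ^ (e * ε1) * (X ^ ε1 * X ^ ε1 * L' * P) := by gcongr
        _ = _ := by ring
    have hsz : L' * (X ^ ε1 * Y) ≤ W ^ (11 * (3 + e) + 1) := by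
      calc L' * (X ^ ε1 * Y) ≤ X ^ (10 : ℝ) * (X * W) := by gcongr
        _ = X ^ (11 : ℝ) * W := by
            rw [show (11 : ℝ) = 10 + 1 by norm_num, Real.rpow_add hX0, Real.rpow_one]; ring
        _ ≤ (W ^ (3 + e)) ^ (11 : ℝ) * W := by gcongr
        _ = W ^ (11 * (3 + e) + 1) := by
            rw [← Real.rpow_mul hW0.le, Real.rpow_add hW0, Real.rpow_one]; ring_nf
    have hZ1Y : Z1 ≤ X ^ ε1 * Y := hZ1'.trans (by gcongr)
    have hZ2Y : Z2 ≤ X ^ ε1 * Y := hZ2'.trans (by gcongr)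
    have b := tbv hC1 h1.le hA hW (by positivity) (by positivity)
      (hb L' (X ^ ε1 * Y) Z1 Z2 (t1 + s1) (t2 + s2) hL'1 hZ1 hZ1Y hZ2 hZ2Y) hsz le_rfl
    refine b.trans ?_
    have h14 : X ^ ((2 + e) * ε1) ≤ W ^ ((3 + e) * ((2 + e) * ε1)) :=
      rpow_le_of_le_rpow hX0.le hW0.le (by positivity) hXW
    have h15 : 1 ≤ X ^ ((2 + e) * ε1) := Real.one_le_rpow hX (by positivity)
    calc C1 * W ^ ((11 * (3 + e) + 1) * ε1) * T ^ A * ((1 + |s1|) * (1 + |s2|)) ^ A *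
          (1 + Z1 * Z2 / L' * (X ^ ε1 * Y) ^ e)
        ≤ C1 * W ^ ((11 * (3 + e) + 1) * ε1) * T ^ A * ((1 + |s1|) * (1 + |s2|)) ^ A *
          (2 * (W ^ ((3 + e) * ((2 + e) * ε1)) * P)) := by
          gcongr
          have h16 : 1 ≤ X ^ ((2 + e) * ε1) * P := one_le_mul_of_one_le_of_one_le h15 hP1
          have h17 : X ^ ((2 + e) * ε1) * P ≤ W ^ ((3 + e) * ((2 + e) * ε1)) * P := by gcongr
          linarith
      _ = 2 * P * C1 * W ^ (q * ε1) * T ^ A * ((1 + |s1|) * (1 + |s2|)) ^ A := by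
          rw [show q * ε1 = (11 * (3 + e) + 1) * ε1 + (3 + e) * ((2 + e) * ε1) by rw [hq]; ring,
            Real.rpow_add hW0]
          ring

/-- the bound obtained from one round, before the functional equation -/
def BdC (v : ℝ → ℝ → ℝ → ℝ) (e : ℝ) : Prop := ∀ ε : ℝ, 0 < ε → ∃ C A : ℝ, 0 < C ∧ 0 ≤ A ∧
  ∀ K Y t : ℝ, 1 ≤ K → 1 ≤ Y → v K Y t ≤ C * (K * Y) ^ ε * (1 + |t|) ^ A *
    (1 + Y ^ 2 / K + (Y ^ 2 / K) ^ ((1 : ℝ) / 3) * Y ^ (2 * e / 3))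

lemma bdC {v : ℝ → ℝ → ℝ → ℝ} {w τ : ℝ → ℝ → ℝ → ℝ → ℝ → ℝ} (R : Rules v w τ) {e : ℝ}
    (he : 0 ≤ e) (h : TB2 τ e) : BdC v e := by
  intro ε hε
  obtain ⟨ε1, h1, h1', h1a⟩ := exists_eps hε (a := 1 + (22 + (2 + e))) (by positivity)
  obtain ⟨C1, A, hC1, hA, hb⟩ := h ε1 h1
  obtain ⟨C2, hC2, hp⟩ := R.poisC ε1 A h1 hA
  refine ⟨C2 * (1 + C1), 2 * A, by positivity, by positivity, ?_⟩
  intro K Y t hK hY
  have hK0 : 0 < K := by linarith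
  have hY0 : 0 < Y := by linarith
  have hX : 1 ≤ K * Y := one_le_mul_of_one_le_of_one_le hK hY
  set X := K * Y with hXdef
  have hX0 : 0 < X := by linarith
  have hYX : Y ≤ X := by rw [hXdef]; nlinarith
  have hXe : X ^ ε1 ≤ X := by
    calc X ^ ε1 ≤ X ^ (1 : ℝ) := Real.rpow_le_rpow_of_exponent_le hX h1'
      _ = X := Real.rpow_one X
  have hXe1 : 1 ≤ X ^ ε1 := Real.one_le_rpow hX h1.le
  set z := K / Y ^ 2 * Y ^ e with hz
  have hz0 : 0 < z := by positivity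
  set T := (1 + |t|) * (1 + |t|) with hTdef
  have hT : 1 ≤ T := by have := abs_nonneg t; rw [hTdef]; nlinarith
  have hTA : T ^ A = (1 + |t|) ^ (2 * A) := by
    rw [hTdef, Real.mul_rpow (by positivity) (by positivity), ← Real.rpow_add (by positivity)]
    congr 1; ring
  set q := 22 + (2 + e) with hq
  have hXq : 1 ≤ X ^ (q * ε1) := Real.one_le_rpow hX (by positivity)
  have hTA1 : 1 ≤ T ^ A := Real.one_le_rpow hT hA
  set B := C1 * X ^ (q * ε1) * T ^ A * (1 + z ^ ((2 : ℝ) / 3)) with hB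
  have hz23 : 0 ≤ z ^ ((2 : ℝ) / 3) := by positivity
  have key := hp K Y t B hK hY (by positivity) ?_
  · have hu : 0 < Y ^ 2 / K := by positivity
    have e3 : Y ^ 2 / K * z ^ ((2 : ℝ) / 3) = (Y ^ 2 / K) ^ ((1 : ℝ) / 3) * Y ^ (2 * e / 3) := by
      have h20 : z = (Y ^ 2 / K)⁻¹ * Y ^ e := by rw [hz]; field_simp
      rw [h20, Real.mul_rpow (by positivity) (by positivity), Real.inv_rpow hu.le,
        ← Real.rpow_mul hY0.le, ← Real.rpow_neg hu.le, ← mul_assoc]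
      congr 1
      · nth_rewrite 1 [← Real.rpow_one (Y ^ 2 / K)]
        rw [← Real.rpow_add hu]; norm_num
      · congr 1; ring
    calc v K Y t ≤ C2 * X ^ ε1 * (1 + Y ^ 2 / K * B) := key
      _ ≤ C2 * X ^ ε1 * ((1 + C1) * X ^ (q * ε1) * T ^ A *
            (1 + Y ^ 2 / K * (1 + z ^ ((2 : ℝ) / 3)))) := by
          gcongr
          rw [hB]
          have hP1 : 1 ≤ X ^ (q * ε1) * T ^ A := one_le_mul_of_one_le_of_one_le hXq hTA1
          have h21 : 0 ≤ Y ^ 2 / K * (1 + z ^ ((2 : ℝ) / 3)) * (X ^ (q * ε1) * T ^ A) := by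
            positivity
          have h22 : 0 ≤ C1 * (X ^ (q * ε1) * T ^ A) := by positivity
          nlinarith
      _ = C2 * (1 + C1) * X ^ ((1 + q) * ε1) * T ^ A *
            (1 + Y ^ 2 / K + (Y ^ 2 / K) ^ ((1 : ℝ) / 3) * Y ^ (2 * e / 3)) := by
          rw [← e3, show (1 + q) * ε1 = ε1 + q * ε1 by ring, Real.rpow_add hX0]; ring
      _ ≤ C2 * (1 + C1) * X ^ ε * (1 + |t|) ^ (2 * A) *
            (1 + Y ^ 2 / K + (Y ^ 2 / K) ^ ((1 : ℝ) / 3) * Y ^ (2 * e / 3)) := by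
          rw [hTA]
          gcongr
  · intro D E F Z1 Z2 L s1 s2 hE hED hF hZ1 hZ1' hZ2 hZ2' hZZ hL hL' hLl
    have hE0 : 0 < E := by linarith
    have hD0 : 0 < D := by linarith
    have hF0 : 0 < F := by linarith
    have hL0 : 0 < L := by linarith
    have hYe' : 1 ≤ X ^ ε1 * Y := one_le_mul_of_one_le_of_one_le hXe1 hY
    have hsz : L * (X ^ ε1 * Y) ≤ X ^ (22 : ℝ) := by
      calc L * (X ^ ε1 * Y) ≤ X ^ (20 : ℝ) * (X * X) := by gcongr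
        _ = X ^ (22 : ℝ) := by
          rw [show (22 : ℝ) = 20 + 2 by norm_num, Real.rpow_add hX0, Real.rpow_two]; ring
    have b := tbv hC1 h1.le hA hX (by positivity) (by positivity)
      (hb L (X ^ ε1 * Y) Z1 Z2 (t + s1) (t + s2) hL hZ1 hZ1' hZ2 hZ2') hsz (le_refl T)
    have hED' : E / D ≤ 1 := (div_le_one hD0).mpr hED
    -- the size of the central quantity
    set y := Z1 * Z2 / L * (X ^ ε1 * Y) ^ e with hy
    have hy0 : 0 ≤ y := by positivity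
    have h9 : X ^ ((2 + e) * ε1) = X ^ ε1 * X ^ ε1 * X ^ (e * ε1) := by
      rw [← Real.rpow_add hX0, ← Real.rpow_add hX0]; congr 1; ring
    have h8 : (X ^ ε1 * Y) ^ e = X ^ (e * ε1) * Y ^ e := by
      rw [Real.mul_rpow (by positivity) hY0.le, ← Real.rpow_mul hX0.le, mul_comm ε1 e]
    have hyz : y ≤ D / E * (X ^ ((2 + e) * ε1) * z) := by
      -- `Z1 Z2 / L ≤ X^{2ε} (D/E) K / Y²`
      have h30 : Z1 * Z2 * Y ^ 2 * E ≤ X ^ ε1 * X ^ ε1 * D * K * L := by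
        have h31 : Z1 * Z2 * (D * F) * (F * E ^ 3 * Y ^ 4) ≤
            (X ^ ε1 * Y ^ 2) * (X ^ ε1 * (D ^ 2 * K * L)) :=
          mul_le_mul hZZ hLl (by positivity) (by positivity)
        have h32 : (Z1 * Z2 * Y ^ 2 * E) * (D * Y ^ 2) ≤
            (X ^ ε1 * X ^ ε1 * D * K * L) * (D * Y ^ 2) := by
          have h33 : 1 ≤ F * F * (E * E) := one_le_mul_of_one_le_of_one_le
            (one_le_mul_of_one_le_of_one_le hF hF) (one_le_mul_of_one_le_of_one_le hE hE)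
          calc (Z1 * Z2 * Y ^ 2 * E) * (D * Y ^ 2)
              ≤ (Z1 * Z2 * Y ^ 2 * E) * (D * Y ^ 2) * (F * F * (E * E)) :=
                le_mul_of_one_le_right (by positivity) h33
            _ = Z1 * Z2 * (D * F) * (F * E ^ 3 * Y ^ 4) := by ring
            _ ≤ _ := h31
            _ = _ := by ring
        exact le_of_mul_le_mul_right h32 (by positivity)
      rw [hy, h8, h9, hz]
      have h34 : Z1 * Z2 / L * (X ^ (e * ε1) * Y ^ e) =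
          (Z1 * Z2 * Y ^ 2 * E) * (X ^ (e * ε1) * Y ^ e / (L * Y ^ 2 * E)) := by
        field_simp
      rw [h34]
      calc (Z1 * Z2 * Y ^ 2 * E) * (X ^ (e * ε1) * Y ^ e / (L * Y ^ 2 * E))
          ≤ (X ^ ε1 * X ^ ε1 * D * K * L) * (X ^ (e * ε1) * Y ^ e / (L * Y ^ 2 * E)) := by
            gcongr
        _ = _ := by field_simp
    have hx1 : 1 ≤ X ^ ((2 + e) * ε1) := Real.one_le_rpow hX (by positivity)
    have hfin : E / D * (1 + y ^ ((2 : ℝ) / 3)) ≤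
        X ^ ((2 + e) * ε1) * (1 + z ^ ((2 : ℝ) / 3)) := by
      have hED0 : 0 < E / D := by positivity
      have h40 : y ^ ((2 : ℝ) / 3) ≤ (D / E) ^ ((2 : ℝ) / 3) *
          (X ^ ((2 + e) * ε1) * z ^ ((2 : ℝ) / 3)) := by
        calc y ^ ((2 : ℝ) / 3) ≤ (D / E * (X ^ ((2 + e) * ε1) * z)) ^ ((2 : ℝ) / 3) :=
              Real.rpow_le_rpow hy0 hyz (by norm_num)
          _ = (D / E) ^ ((2 : ℝ) / 3) * ((X ^ ((2 + e) * ε1)) ^ ((2 : ℝ) / 3) *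
                z ^ ((2 : ℝ) / 3)) := by
              rw [Real.mul_rpow (by positivity) (by positivity),
                Real.mul_rpow (by positivity) hz0.le]
          _ ≤ _ := by
              gcongr
              calc (X ^ ((2 + e) * ε1)) ^ ((2 : ℝ) / 3) ≤ (X ^ ((2 + e) * ε1)) ^ (1 : ℝ) :=
                    Real.rpow_le_rpow_of_exponent_le hx1 (by norm_num)
                _ = _ := Real.rpow_one _
      have h41 : E / D * (D / E) ^ ((2 : ℝ) / 3) ≤ 1 := by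
        have h42 : D / E = (E / D)⁻¹ := by rw [inv_div]
        rw [h42, Real.inv_rpow hED0.le, ← Real.rpow_neg hED0.le]
        nth_rewrite 1 [← Real.rpow_one (E / D)]
        rw [← Real.rpow_add hED0]
        exact Real.rpow_le_one hED0.le hED' (by norm_num)
      calc E / D * (1 + y ^ ((2 : ℝ) / 3))
          ≤ E / D * (1 + (D / E) ^ ((2 : ℝ) / 3) * (X ^ ((2 + e) * ε1) * z ^ ((2 : ℝ) / 3))) := by
            gcongr
        _ = E / D + E / D * (D / E) ^ ((2 : ℝ) / 3) *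
              (X ^ ((2 + e) * ε1) * z ^ ((2 : ℝ) / 3)) := by ring
        _ ≤ 1 + 1 * (X ^ ((2 + e) * ε1) * z ^ ((2 : ℝ) / 3)) := by gcongr
        _ ≤ X ^ ((2 + e) * ε1) + 1 * (X ^ ((2 + e) * ε1) * z ^ ((2 : ℝ) / 3)) := by gcongr
        _ = _ := by ring
    calc E / D * τ L Z1 Z2 (t + s1) (t + s2)
        ≤ E / D * (C1 * X ^ (22 * ε1) * T ^ A * ((1 + |s1|) * (1 + |s2|)) ^ A * (1 + y ^ ((2 : ℝ) / 3))) := by
          gcongr
      _ = C1 * X ^ (22 * ε1) * T ^ A * ((1 + |s1|) * (1 + |s2|)) ^ A *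
            (E / D * (1 + y ^ ((2 : ℝ) / 3))) := by ring
      _ ≤ C1 * X ^ (22 * ε1) * T ^ A * ((1 + |s1|) * (1 + |s2|)) ^ A *
            (X ^ ((2 + e) * ε1) * (1 + z ^ ((2 : ℝ) / 3))) := by gcongr
      _ = B * ((1 + |s1|) * (1 + |s2|)) ^ A := by
          rw [hB, hq, add_mul 22 (2 + e) ε1, Real.rpow_add hX0]; ring

lemma bd_of_bdC {v : ℝ → ℝ → ℝ → ℝ} {w τ : ℝ → ℝ → ℝ → ℝ → ℝ → ℝ} (R : Rules v w τ) {e : ℝ}
    (he : 0 ≤ e) (h : BdC v e) : Bd v (2 * e / 3) := by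
  intro ε hε
  obtain ⟨ε1, h1, h1', h1a⟩ := exists_eps hε (a := 6 + e) (by positivity)
  obtain ⟨C1, A, hC1, hA, hb⟩ := h ε1 h1
  obtain ⟨C2, J, hC2, hJ, hp⟩ := R.flip ε1 A h1 hA
  refine ⟨3 * C1 + C2 * (1 + 3 * C1), max A J, by positivity, le_max_of_le_left hA, ?_⟩
  intro K Y t hK hY
  have hK0 : 0 < K := by linarith
  have hY0 : 0 < Y := by linarith
  have hX : 1 ≤ K * Y := one_le_mul_of_one_le_of_one_le hK hY
  set X := K * Y with hXdef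
  have hX0 : 0 < X := by linarith
  have hYX : Y ≤ X := by rw [hXdef]; nlinarith
  have hKX : K ≤ X := by rw [hXdef]; nlinarith
  have hXe : X ^ ε1 ≤ X := by
    calc X ^ ε1 ≤ X ^ (1 : ℝ) := Real.rpow_le_rpow_of_exponent_le hX h1'
      _ = X := Real.rpow_one X
  have hXe1 : 1 ≤ X ^ ε1 := Real.one_le_rpow hX h1.le
  have ht : 1 ≤ 1 + |t| := by have := abs_nonneg t; linarith
  have hYp : 1 ≤ Y ^ (2 * e / 3) := Real.one_le_rpow hY (by positivity)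
  have hXε : X ^ ε1 ≤ X ^ ε := by
    refine Real.rpow_le_rpow_of_exponent_le hX ?_
    nlinarith
  have hAm : (1 + |t|) ^ A ≤ (1 + |t|) ^ max A J :=
    Real.rpow_le_rpow_of_exponent_le ht (le_max_left _ _)
  have hJm : (1 + |t|) ^ J ≤ (1 + |t|) ^ max A J :=
    Real.rpow_le_rpow_of_exponent_le ht (le_max_right _ _)
  rcases le_total (Y ^ 2) K with hc | hc
  · have hu0 : 0 ≤ Y ^ 2 / K := by positivity
    have hu : Y ^ 2 / K ≤ 1 := (div_le_one hK0).mpr hc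
    have hu3 : (Y ^ 2 / K) ^ ((1 : ℝ) / 3) ≤ 1 := Real.rpow_le_one hu0 hu (by norm_num)
    calc v K Y t ≤ C1 * X ^ ε1 * (1 + |t|) ^ A *
          (1 + Y ^ 2 / K + (Y ^ 2 / K) ^ ((1 : ℝ) / 3) * Y ^ (2 * e / 3)) := hb K Y t hK hY
      _ ≤ C1 * X ^ ε * (1 + |t|) ^ max A J * (3 * Y ^ (2 * e / 3)) := by
          gcongr
          have : (Y ^ 2 / K) ^ ((1 : ℝ) / 3) * Y ^ (2 * e / 3) ≤ 1 * Y ^ (2 * e / 3) := by gcongr
          linarith
      _ = 3 * C1 * (X ^ ε * (1 + |t|) ^ max A J * Y ^ (2 * e / 3)) := by ring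
      _ ≤ (3 * C1 + C2 * (1 + 3 * C1)) * (X ^ ε * (1 + |t|) ^ max A J * Y ^ (2 * e / 3)) := by
          gcongr
          have : 0 ≤ C2 * (1 + 3 * C1) := by positivity
          linarith
      _ = _ := by ring
  · have key := hp K Y t (3 * C1 * X ^ ((5 + e) * ε1) * Y ^ (2 * e / 3)) hK hY (by positivity) hc ?_
    · calc v K Y t ≤ C2 * X ^ ε1 * (1 + |t|) ^ J *
            (1 + 3 * C1 * X ^ ((5 + e) * ε1) * Y ^ (2 * e / 3)) := key
        _ ≤ C2 * X ^ ε1 * (1 + |t|) ^ max A J *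
            ((1 + 3 * C1) * (X ^ ((5 + e) * ε1) * Y ^ (2 * e / 3))) := by
            gcongr
            have : 1 ≤ X ^ ((5 + e) * ε1) * Y ^ (2 * e / 3) :=
              one_le_mul_of_one_le_of_one_le (Real.one_le_rpow hX (by positivity)) hYp
            nlinarith
        _ = C2 * (1 + 3 * C1) * (X ^ ((6 + e) * ε1) * (1 + |t|) ^ max A J *
              Y ^ (2 * e / 3)) := by
            rw [show (6 + e) * ε1 = ε1 + (5 + e) * ε1 by ring, Real.rpow_add hX0]; ring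
        _ ≤ C2 * (1 + 3 * C1) * (X ^ ε * (1 + |t|) ^ max A J * Y ^ (2 * e / 3)) := by
            gcongr
        _ ≤ (3 * C1 + C2 * (1 + 3 * C1)) * (X ^ ε * (1 + |t|) ^ max A J * Y ^ (2 * e / 3)) := by
            gcongr
            have : 0 ≤ 3 * C1 := by positivity
            linarith
        _ = _ := by ring
    · intro K1 Z s hK1 hK1' hZ hZ' hZK
      have hK10 : 0 < K1 := by linarith
      have hZ0 : 0 < Z := by linarith
      have hu0 : 0 ≤ Z ^ 2 / K1 := by positivity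
      have hu : Z ^ 2 / K1 ≤ X ^ ε1 := (div_le_iff₀ hK10).mpr hZK
      have hu3 : (Z ^ 2 / K1) ^ ((1 : ℝ) / 3) ≤ X ^ ε1 := by
        calc (Z ^ 2 / K1) ^ ((1 : ℝ) / 3) ≤ (X ^ ε1) ^ ((1 : ℝ) / 3) :=
              Real.rpow_le_rpow hu0 hu (by norm_num)
          _ ≤ (X ^ ε1) ^ (1 : ℝ) := Real.rpow_le_rpow_of_exponent_le hXe1 (by norm_num)
          _ = _ := Real.rpow_one _
      have hZp : Z ^ (2 * e / 3) ≤ X ^ (e * ε1) * Y ^ (2 * e / 3) := by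
        calc Z ^ (2 * e / 3) ≤ (X ^ ε1 * Y) ^ (2 * e / 3) :=
              Real.rpow_le_rpow hZ0.le hZ' (by positivity)
          _ = X ^ (ε1 * (2 * e / 3)) * Y ^ (2 * e / 3) := by
              rw [Real.mul_rpow (by positivity) hY0.le, ← Real.rpow_mul hX0.le]
          _ ≤ _ := by
              refine mul_le_mul_of_nonneg_right ?_ (by positivity)
              refine Real.rpow_le_rpow_of_exponent_le hX ?_
              nlinarith
      have hsz : (K1 * Z) ^ ε1 ≤ X ^ (4 * ε1) := by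
        refine rpow_le_of_le_rpow (by positivity) hX0.le h1.le ?_
        calc K1 * Z ≤ (X * X) * (X * X) := by
              refine mul_le_mul (hK1'.trans ?_) (hZ'.trans ?_) hZ0.le (by positivity)
              · gcongr
              · gcongr
          _ = X ^ (4 : ℝ) := by
              rw [show (4 : ℝ) = ((4 : ℕ) : ℝ) by norm_num, Real.rpow_natCast]; ring
      have hXe2 : 1 ≤ X ^ (e * ε1) := Real.one_le_rpow hX (by positivity)
      calc v K1 Z s ≤ C1 * (K1 * Z) ^ ε1 * (1 + |s|) ^ A *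
            (1 + Z ^ 2 / K1 + (Z ^ 2 / K1) ^ ((1 : ℝ) / 3) * Z ^ (2 * e / 3)) := hb K1 Z s hK1 hZ
        _ ≤ C1 * X ^ (4 * ε1) * (1 + |s|) ^ A *
            (X ^ ε1 * (X ^ (e * ε1) * Y ^ (2 * e / 3)) + X ^ ε1 * (X ^ (e * ε1) * Y ^ (2 * e / 3)) +
              X ^ ε1 * (X ^ (e * ε1) * Y ^ (2 * e / 3))) := by
            have h50 : 1 ≤ X ^ (e * ε1) * Y ^ (2 * e / 3) :=
              one_le_mul_of_one_le_of_one_le hXe2 hYp
            have h51 : X ^ ε1 ≤ X ^ ε1 * (X ^ (e * ε1) * Y ^ (2 * e / 3)) :=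
              le_mul_of_one_le_right (by positivity) h50
            gcongr
            · exact hXe1.trans h51
            · exact hu.trans h51
        _ = 3 * C1 * X ^ ((5 + e) * ε1) * Y ^ (2 * e / 3) * (1 + |s|) ^ A := by
            rw [show (5 + e) * ε1 = 4 * ε1 + ε1 + e * ε1 by ring, Real.rpow_add hX0,
              Real.rpow_add hX0]
            ring

/-- One round: the central loss contracts by `2/3`. -/
lemma step {v : ℝ → ℝ → ℝ → ℝ} {w τ : ℝ → ℝ → ℝ → ℝ → ℝ → ℝ} (R : Rules v w τ) {e : ℝ}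
    (he : 0 ≤ e) (h : Bd v e) : Bd v (2 * e / 3) :=
  bd_of_bdC R he (bdC R he (tb2 R he (tb1 R he h)))

/-- **The two-factor theorem**, character side. -/
theorem two_factor {v : ℝ → ℝ → ℝ → ℝ} {w τ : ℝ → ℝ → ℝ → ℝ → ℝ → ℝ} (R : Rules v w τ) :
    ∀ ε : ℝ, 0 < ε → ∃ C A : ℝ, 0 < C ∧ 0 ≤ A ∧ ∀ K Y t : ℝ, 1 ≤ K → 1 ≤ Y →
      v K Y t ≤ C * (K * Y) ^ ε * (1 + |t|) ^ A := by
  intro ε hε
  obtain ⟨e0, C0, he0, hC0, hbase⟩ := R.base
  have h0 : Bd v e0 := by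
    intro ε' hε'
    refine ⟨C0, 0, hC0, le_rfl, fun K Y t hK hY => ?_⟩
    rw [Real.rpow_zero, mul_one]
    refine (hbase K Y t hK hY).trans ?_
    have : 1 ≤ (K * Y) ^ ε' := Real.one_le_rpow (one_le_mul_of_one_le_of_one_le hK hY) hε'.le
    have hY' : 0 ≤ Y ^ e0 := by positivity
    nlinarith [mul_nonneg hC0.le hY']
  have hn : ∀ n : ℕ, Bd v (e0 * (2 / 3) ^ n) := by
    intro n
    induction n with
    | zero => simpa using h0
    | succ n ih =>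
      have := step R (by positivity) ih
      convert this using 1
      rw [pow_succ]; ring
  obtain ⟨n, hn'⟩ : ∃ n : ℕ, e0 * (2 / 3 : ℝ) ^ n ≤ ε / 2 := by
    have ht : Filter.Tendsto (fun n : ℕ => e0 * (2 / 3 : ℝ) ^ n) Filter.atTop (nhds (e0 * 0)) :=
      (tendsto_pow_atTop_nhds_zero_of_lt_one (by norm_num) (by norm_num)).const_mul e0
    rw [mul_zero] at ht
    exact ((ht.eventually (ge_mem_nhds (by positivity : (0 : ℝ) < ε / 2))).exists)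
  obtain ⟨C, A, hC, hA, hb⟩ := hn n (ε / 2) (by positivity)
  refine ⟨C, A, hC, hA, fun K Y t hK hY => ?_⟩
  have hX : 1 ≤ K * Y := one_le_mul_of_one_le_of_one_le hK hY
  have hX0 : 0 < K * Y := by linarith
  calc v K Y t ≤ C * (K * Y) ^ (ε / 2) * (1 + |t|) ^ A * Y ^ (e0 * (2 / 3) ^ n) := hb K Y t hK hY
    _ ≤ C * (K * Y) ^ (ε / 2) * (1 + |t|) ^ A * (K * Y) ^ (ε / 2) := by
        gcongr
        calc Y ^ (e0 * (2 / 3) ^ n) ≤ (K * Y) ^ (e0 * (2 / 3) ^ n) :=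
              Real.rpow_le_rpow (by linarith) (by nlinarith) (by positivity)
          _ ≤ (K * Y) ^ (ε / 2) := Real.rpow_le_rpow_of_exponent_le hX hn'
    _ = C * (K * Y) ^ ε * (1 + |t|) ^ A := by
        rw [show ε = ε / 2 + ε / 2 by ring, Real.rpow_add hX0]; ring_nf

/-- **The two-factor theorem**, Gauss side. -/
theorem two_factor_gauss {v : ℝ → ℝ → ℝ → ℝ} {w τ : ℝ → ℝ → ℝ → ℝ → ℝ → ℝ} (R : Rules v w τ) :
    ∀ ε : ℝ, 0 < ε → ∃ C A : ℝ, 0 < C ∧ 0 ≤ A ∧ ∀ L Y Y1 Y2 t1 t2 : ℝ, 1 ≤ L → 1 ≤ Y1 → Y1 ≤ Y →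
      1 ≤ Y2 → Y2 ≤ Y →
      τ L Y1 Y2 t1 t2 ≤ C * (L * Y) ^ ε * ((1 + |t1|) * (1 + |t2|)) ^ A * (1 + Y1 * Y2 / L) := by
  have h0 : Bd v 0 := by
    intro ε hε
    obtain ⟨C, A, hC, hA, h⟩ := two_factor R ε hε
    exact ⟨C, A, hC, hA, fun K Y t hK hY => by
      rw [Real.rpow_zero, mul_one]; exact h K Y t hK hY⟩
  have h1 := tb1 R le_rfl h0
  intro ε hε
  obtain ⟨C, A, hC, hA, h⟩ := h1 ε hε
  refine ⟨C, A, hC, hA, fun L Y Y1 Y2 t1 t2 hL a b c d => ?_⟩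
  have := h L Y Y1 Y2 t1 t2 hL a b c d
  rwa [Real.rpow_zero, mul_one] at this

end Crest.Agent.R017.Two320
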