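import Crest.Agent.R017.FE11_47
import Crest.Agent.R017.Two_320
import Crest.Agent.R012.CR2b_180
import Crest.Agent.R012.GaussInst_880

/-!
# Row 17: two-factor theorem, concrete families (helper939)

Fixed: `HC M χ`, `l : ℤ`, `h : ℝ → ℝ` with `PU h c`.

* `P h χ l k Y t`    : smooth sum of length `Y` of `χ (·/k)₃-twist ang^l`, height `t`
* `V4 h χ l K Y t`   : normalised fourth moment over all `0 ≠ k`, `nm k ≤ K`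
* `W2 h χ l K Z1 Z2 t1 t2` : normalised mixed second moment
* `TG h χ l k Y1 Y2 t1 t2` : the bilinear sum on the Gauss side
* `T2 h χ l L Y1 Y2 t1 t2` : its normalised second moment over all `0 ≠ k`, `nm k ≤ L`

`cau`, `base` : the first two rules of `Two320.Rules`.
-/

set_option autoImplicit false

noncomputable section

open Complex MeasureTheory Filter Topology
open scoped ContDiff

namespace Crest.Agent.R017.Two939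

open Crest.Agent.R012 Crest.Agent.R012.Eis Crest.Agent.R012.LS2 Crest.Agent.R012.Gauss880
open Crest.Agent.R012.Weight600 (osc norm_osc)
open Crest.Agent.R012.PSer47
open Crest.Agent.R017.End699 Crest.Agent.R017.FE47

/-- smooth sum of the family member `k` -/
def P (h : ℝ → ℝ) (χ : Eis → ℂ) (l : ℤ) (k : Eis) (Y t : ℝ) : ℂ :=
  PS (cx h) (XK χ (sy k) l) (Real.log Y) t

/-- normalised fourth moment -/
def V4 (h : ℝ → ℝ) (χ : Eis → ℂ) (l : ℤ) (K Y t : ℝ) : ℝ :=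
  (∑ k ∈ bl K, ‖P h χ l k Y t‖ ^ 4) / (K * Y ^ 2)

/-- normalised mixed second moment of two smooth sums -/
def W2 (h : ℝ → ℝ) (χ : Eis → ℂ) (l : ℤ) (K Z1 Z2 t1 t2 : ℝ) : ℝ :=
  (∑ k ∈ bl K, ‖P h χ l k Z1 t1‖ ^ 2 * ‖P h χ l k Z2 t2‖ ^ 2) / (K * Z1 * Z2)

/-- the coefficient of a smooth sum -/
def cfa (h : ℝ → ℝ) (χ : Eis → ℂ) (l : ℤ) (Y t : ℝ) (b : Eis) : ℂ :=
  End699.ext χ b * ang l b * (osc t (Real.log (nm b)) * cx h (Real.log (nm b) - Real.log Y))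

/-- bilinear smooth sum on the Gauss side -/
def TG (h : ℝ → ℝ) (χ : Eis → ℂ) (l : ℤ) (k : Eis) (Y1 Y2 t1 t2 : ℝ) : ℂ :=
  ∑' p : Eis × Eis, cfa h χ l Y1 t1 p.1 * cfa h χ l Y2 t2 p.2 *
    (G (p.1 * p.2) * (starRingEnd ℂ) (sy k (p.1 * p.2)))

/-- normalised second moment on the Gauss side -/
def T2 (h : ℝ → ℝ) (χ : Eis → ℂ) (l : ℤ) (L Y1 Y2 t1 t2 : ℝ) : ℝ :=
  (∑ k ∈ bl L, ‖TG h χ l k Y1 Y2 t1 t2‖ ^ 2) / (L * Y1 * Y2)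

lemma V4_nonneg (h : ℝ → ℝ) (χ : Eis → ℂ) (l : ℤ) {K : ℝ} (hK : 0 ≤ K) (Y t : ℝ) :
    0 ≤ V4 h χ l K Y t := by unfold V4; positivity

lemma W2_nonneg (h : ℝ → ℝ) (χ : Eis → ℂ) (l : ℤ) {K Z1 Z2 : ℝ} (hK : 0 ≤ K) (h1 : 0 ≤ Z1)
    (h2 : 0 ≤ Z2) (t1 t2 : ℝ) : 0 ≤ W2 h χ l K Z1 Z2 t1 t2 := by unfold W2; positivity

lemma T2_nonneg (h : ℝ → ℝ) (χ : Eis → ℂ) (l : ℤ) {L Y1 Y2 : ℝ} (hL : 0 ≤ L) (h1 : 0 ≤ Y1)
    (h2 : 0 ≤ Y2) (t1 t2 : ℝ) : 0 ≤ T2 h χ l L Y1 Y2 t1 t2 := by unfold T2; positivity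

lemma norm_sy_le {k b : Eis} (hb : IsPrim b) : ‖sy k b‖ ≤ 1 := by
  by_cases h : IsCoprime k b
  · have h1 := syG.cube k b hb h
    have h2 : ‖sy k b‖ ^ 3 = 1 := by rw [← norm_pow, h1, norm_one]
    exact ((pow_eq_one_iff_of_nonneg (norm_nonneg _) (by norm_num)).mp h2).le
  · rw [(syG.eq_zero k b hb).mpr h]; simp

lemma norm_XS_le {M : Eis} {χ : Eis → ℂ} (hχ : HC M χ) (l : ℤ) (k b : Eis) (hb : IsPrim b) :
    ‖XK χ (sy k) l b‖ ≤ 1 := by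
  unfold XK
  rw [norm_mul, norm_mul]
  have h1 := hχ.char.norm_le hb
  have h2 := norm_sy_le (k := k) hb
  have h3 : ‖ang l b‖ ≤ 1 := (ang_isChar l).norm_le hb
  calc ‖χ b‖ * ‖sy k b‖ * ‖ang l b‖ ≤ 1 * 1 * 1 := by gcongr
    _ = 1 := by ring

/-- trivial bound for the smooth sums -/
lemma norm_P_le {h : ℝ → ℝ} {c : ℝ} (hpu : PU h c) : ∃ C : ℝ, 0 ≤ C ∧ ∀ (M : Eis) (χ : Eis → ℂ),
    HC M χ → ∀ (l : ℤ) (k : Eis) (Y t : ℝ), 0 < Y → ‖P h χ l k Y t‖ ≤ C * Y := by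
  obtain ⟨C, hC, hb⟩ := norm_PS_le (cd_cx hpu.cd).continuous (cs_cx hpu.cs)
  refine ⟨C, hC, fun M χ hχ l k Y t hY => ?_⟩
  have := hb (XK χ (sy k) l) (norm_XS_le hχ l k) (Real.log Y) t
  rwa [Real.exp_log hY] at this

/-- rule `base` -/
theorem base {h : ℝ → ℝ} {c : ℝ} (hpu : PU h c) {M : Eis} {χ : Eis → ℂ} (hχ : HC M χ) (l : ℤ) :
    ∃ e0 C : ℝ, 0 ≤ e0 ∧ 0 < C ∧ ∀ K Y t : ℝ, 1 ≤ K → 1 ≤ Y → V4 h χ l K Y t ≤ C * Y ^ e0 := by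
  obtain ⟨C, hC, hb⟩ := norm_P_le hpu
  refine ⟨2, 16 * C ^ 4 + 1, by norm_num, by positivity, fun K Y t hK hY => ?_⟩
  have hK0 : 0 < K := by linarith
  have hY0 : 0 < Y := by linarith
  unfold V4
  rw [div_le_iff₀ (by positivity)]
  calc ∑ k ∈ bl K, ‖P h χ l k Y t‖ ^ 4 ≤ ∑ k ∈ bl K, (C * Y) ^ 4 := by
        refine Finset.sum_le_sum fun k _ => ?_
        have := hb M χ hχ l k Y t hY0
        gcongr
    _ = (bl K).card * (C * Y) ^ 4 := by rw [Finset.sum_const, nsmul_eq_mul]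
    _ ≤ 16 * K * (C * Y) ^ 4 := by
        gcongr
        exact CR2.card_bl_le hK0.le
    _ = 16 * C ^ 4 * (K * Y ^ 4) := by ring
    _ ≤ (16 * C ^ 4 + 1) * (K * Y ^ 4) := by
        have : 0 ≤ K * Y ^ 4 := by positivity
        nlinarith
    _ = (16 * C ^ 4 + 1) * Y ^ (2 : ℝ) * (K * Y ^ 2) := by
        rw [Real.rpow_two]; ring

/-- rule `cau` -/
theorem cau (h : ℝ → ℝ) (χ : Eis → ℂ) (l : ℤ) : ∃ C : ℝ, 0 < C ∧ ∀ K Z1 Z2 t1 t2 : ℝ, 1 ≤ K →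
    1 ≤ Z1 → 1 ≤ Z2 → W2 h χ l K Z1 Z2 t1 t2 ≤ C * (V4 h χ l K Z1 t1 + V4 h χ l K Z2 t2) := by
  refine ⟨1, one_pos, fun K Z1 Z2 t1 t2 hK h1 h2 => ?_⟩
  have hK0 : 0 < K := by linarith
  have h10 : 0 < Z1 := by linarith
  have h20 : 0 < Z2 := by linarith
  unfold W2 V4
  rw [one_mul, div_le_iff₀ (by positivity), add_mul]
  have e1 : (∑ k ∈ bl K, ‖P h χ l k Z1 t1‖ ^ 4) / (K * Z1 ^ 2) * (K * Z1 * Z2) =
      ∑ k ∈ bl K, ‖P h χ l k Z1 t1‖ ^ 4 * (Z2 / Z1) := by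
    rw [← Finset.sum_mul]; field_simp
  have e2 : (∑ k ∈ bl K, ‖P h χ l k Z2 t2‖ ^ 4) / (K * Z2 ^ 2) * (K * Z1 * Z2) =
      ∑ k ∈ bl K, ‖P h χ l k Z2 t2‖ ^ 4 * (Z1 / Z2) := by
    rw [← Finset.sum_mul]; field_simp
  rw [e1, e2, ← Finset.sum_add_distrib]
  refine Finset.sum_le_sum fun k _ => ?_
  set x := ‖P h χ l k Z1 t1‖
  set y := ‖P h χ l k Z2 t2‖
  have h3 : 0 ≤ (x ^ 2 * Z2 - y ^ 2 * Z1) ^ 2 / (Z1 * Z2) := by positivity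
  have h4 : (x ^ 2 * Z2 - y ^ 2 * Z1) ^ 2 / (Z1 * Z2) =
      x ^ 4 * (Z2 / Z1) + y ^ 4 * (Z1 / Z2) - 2 * (x ^ 2 * y ^ 2) := by
    field_simp; ring
  have h5 : 0 ≤ x ^ 2 * y ^ 2 := by positivity
  nlinarith

end Crest.Agent.R017.Two939
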