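import Crest.Agent.R017.Two_320

/-!
# Row 17: the two-factor theorem for the exceptional class, abstract contraction (helper791)

Shape differences (helper439): `F = P_{Y₁} P_{Y₂} - P_{Z₁} P_{Z₂}`, `Y₁ Y₂ = Z₁ Z₂ = N`, pieces
normalised at their own scale, so that the values at the principal `k` cancel up to
`S = Y₁ + Y₂ + Z₁ + Z₂`.

`v K Y t`, `w K A B t₁ t₂` : fourth moment / mixed second moment over the **nonprincipal** `k`;
`wd o K q t₁ t₂`, `τ o L q t₁ t₂` : second moments of the difference (`o = true`) or of the single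
shape `(Y₁,Y₂)` (`o = false`) over **all** `k ≠ 0`, character side and Gauss side.

`Rules c v w wd τ` : the rules.  `two_factor` : `v K Y t ≤ C (K (1+Y))^ε (1+|t|)^A`.
-/

set_option autoImplicit false

noncomputable section

namespace Crest.Agent.R017.TwoEx791

open Real

/-- a pair of shapes `(Y₁,Y₂)`, `(Z₁,Z₂)` -/
structure Qd where
  Y1 : ℝ
  Y2 : ℝ
  Z1 : ℝ
  Z2 : ℝ

namespace Qd

/-- total length -/
def N (q : Qd) : ℝ := q.Y1 * q.Y2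

/-- sum of the lengths -/
def S (q : Qd) : ℝ := q.Y1 + q.Y2 + q.Z1 + q.Z2

/-- size -/
def sz (q : Qd) : ℝ := (1 + q.Y1) * (1 + q.Y2) * ((1 + q.Z1) * (1 + q.Z2))

structure Ok (q : Qd) : Prop where
  Y1 : 0 < q.Y1
  Y2 : 0 < q.Y2
  Z1 : 0 < q.Z1
  Z2 : 0 < q.Z2
  eq : q.Y1 * q.Y2 = q.Z1 * q.Z2

/-- value at a principal `k`, relative to `1` -/
def pl (o : Bool) (q : Qd) : ℝ := if o = true then min q.N q.S else q.N

/-- `q'` is obtained from `q` by dividing the two shapes by common divisors of product `D`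
(up to the factor `R`) -/
structure Sub (R D : ℝ) (q q' : Qd) : Prop where
  ok : q'.Ok
  Y1 : q'.Y1 ≤ R * q.Y1
  Y2 : q'.Y2 ≤ R * q.Y2
  Z1 : q'.Z1 ≤ R * q.Z1
  Z2 : q'.Z2 ≤ R * q.Z2
  le : q'.N * D ≤ R * q.N
  ge : q.N ≤ R * (q'.N * D)

/-- one single shape -/
def sg (A B : ℝ) : Qd := ⟨A, B, A, B⟩

lemma sg_ok {A B : ℝ} (hA : 0 < A) (hB : 0 < B) : (sg A B).Ok := ⟨hA, hB, hA, hB, rfl⟩

lemma Ok.N_pos {q : Qd} (h : q.Ok) : 0 < q.N := mul_pos h.Y1 h.Y2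

lemma Ok.one_le_sz {q : Qd} (h : q.Ok) : 1 ≤ q.sz := by
  have h1 := h.Y1; have h2 := h.Y2; have h3 := h.Z1; have h4 := h.Z2
  unfold sz
  exact one_le_mul_of_one_le_of_one_le
    (one_le_mul_of_one_le_of_one_le (by linarith) (by linarith))
    (one_le_mul_of_one_le_of_one_le (by linarith) (by linarith))

lemma Ok.S_pos {q : Qd} (h : q.Ok) : 0 < q.S := by
  have h1 := h.Y1; have h2 := h.Y2; have h3 := h.Z1; have h4 := h.Z2
  unfold S; positivity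

lemma Ok.pl_pos {q : Qd} (h : q.Ok) (o : Bool) : 0 < pl o q := by
  unfold pl
  split_ifs
  · exact lt_min h.N_pos h.S_pos
  · exact h.N_pos

lemma Ok.Y1_le_sz {q : Qd} (h : q.Ok) : 1 + q.Y1 ≤ q.sz := by
  have h1 := h.Y1; have h2 := h.Y2; have h3 := h.Z1; have h4 := h.Z2
  unfold sz
  calc 1 + q.Y1 = (1 + q.Y1) * 1 * (1 * 1) := by ring
    _ ≤ (1 + q.Y1) * (1 + q.Y2) * ((1 + q.Z1) * (1 + q.Z2)) := by gcongr <;> linarith

lemma Ok.Y2_le_sz {q : Qd} (h : q.Ok) : 1 + q.Y2 ≤ q.sz := by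
  have h1 := h.Y1; have h2 := h.Y2; have h3 := h.Z1; have h4 := h.Z2
  unfold sz
  calc 1 + q.Y2 = 1 * (1 + q.Y2) * (1 * 1) := by ring
    _ ≤ (1 + q.Y1) * (1 + q.Y2) * ((1 + q.Z1) * (1 + q.Z2)) := by gcongr <;> linarith

lemma Sub.sz_le {R D : ℝ} {q q' : Qd} (h : Sub R D q q') (hq : q.Ok) (hR : 1 ≤ R) :
    q'.sz ≤ R ^ 4 * q.sz := by
  have h1 := hq.Y1; have h2 := hq.Y2; have h3 := hq.Z1; have h4 := hq.Z2
  have k1 := h.ok.Y1; have k2 := h.ok.Y2; have k3 := h.ok.Z1; have k4 := h.ok.Z2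
  have e1 : 1 + q'.Y1 ≤ R * (1 + q.Y1) := by have := h.Y1; linarith
  have e2 : 1 + q'.Y2 ≤ R * (1 + q.Y2) := by have := h.Y2; linarith
  have e3 : 1 + q'.Z1 ≤ R * (1 + q.Z1) := by have := h.Z1; linarith
  have e4 : 1 + q'.Z2 ≤ R * (1 + q.Z2) := by have := h.Z2; linarith
  unfold sz
  calc (1 + q'.Y1) * (1 + q'.Y2) * ((1 + q'.Z1) * (1 + q'.Z2))
      ≤ (R * (1 + q.Y1)) * (R * (1 + q.Y2)) * ((R * (1 + q.Z1)) * (R * (1 + q.Z2))) := by
        gcongr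
    _ = _ := by ring

lemma Sub.N_le {R D : ℝ} {q q' : Qd} (h : Sub R D q q') (hD : 1 ≤ D) : q'.N ≤ R * q.N := by
  have := h.ok.N_pos
  exact le_trans (by nlinarith) h.le

lemma Sub.S_le {R D : ℝ} {q q' : Qd} (h : Sub R D q q') : q'.S ≤ R * q.S := by
  have := h.Y1; have := h.Y2; have := h.Z1; have := h.Z2
  unfold S; linarith

lemma Sub.pl_le {R D : ℝ} {q q' : Qd} (h : Sub R D q q') (hD : 1 ≤ D) (hR : 0 ≤ R) (o : Bool) :
    pl o q' ≤ R * pl o q := by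
  unfold pl
  split_ifs
  · rw [mul_min_of_nonneg _ _ hR]
    exact min_le_min (h.N_le hD) h.S_le
  · exact h.N_le hD

end Qd

/-- the rules -/
structure Rules (c : ℝ) (v : ℝ → ℝ → ℝ → ℝ) (w : ℝ → ℝ → ℝ → ℝ → ℝ → ℝ)
    (wd τ : Bool → ℝ → Qd → ℝ → ℝ → ℝ) : Prop where
  c_pos : 0 < c
  c_le : c ≤ 1
  /-- lengths below `c` give zero -/
  nul : ∀ K A B t1 t2 : ℝ, 0 < A → 0 < B → (A < c ∨ B < c) → w K A B t1 t2 = 0
  /-- Cauchy, geometric form -/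
  cau : ∃ C : ℝ, 1 ≤ C ∧ ∀ K A B t1 t2 a b : ℝ, 1 ≤ K → c ≤ A → c ≤ B → 0 ≤ a → 0 ≤ b →
    v K A t1 ≤ a ^ 2 → v K B t2 ≤ b ^ 2 → w K A B t1 t2 ≤ C * (a * b)
  vw : ∃ C : ℝ, 1 ≤ C ∧ ∀ K Y t : ℝ, 1 ≤ K → c ≤ Y → v K Y t ≤ C * w K Y Y t t
  /-- trivial bound -/
  base : ∃ e0 C : ℝ, 0 ≤ e0 ∧ 1 ≤ C ∧ ∀ K Y t : ℝ, 1 ≤ K → c ≤ Y → v K Y t ≤ C * (max 1 Y) ^ e0
  /-- positivity: nonprincipal part `≤` everything, one shape -/
  splS : ∃ C : ℝ, 1 ≤ C ∧ ∀ K A B t1 t2 : ℝ, 1 ≤ K → c ≤ A → c ≤ B →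
    w K A B t1 t2 ≤ C * wd false K (Qd.sg A B) t1 t2
  /-- comparison of two shapes -/
  splD : ∃ C : ℝ, 1 ≤ C ∧ ∀ (K : ℝ) (q : Qd) (t1 t2 : ℝ), 1 ≤ K → q.Ok →
    w K q.Y1 q.Y2 t1 t2 ≤ C * (wd true K q t1 t2 + w K q.Z1 q.Z2 t1 t2)
  /-- Poisson, Gauss side to character side, with the contribution of the principal `k` -/
  poisG : ∀ ε M : ℝ, 0 < ε → 0 ≤ M → ∃ C J : ℝ, 1 ≤ C ∧ 0 ≤ J ∧ ∀ (o : Bool) (L : ℝ) (q : Qd)
    (t1 t2 B : ℝ), 1 ≤ L → q.Ok → 0 ≤ B →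
    (∀ (D E F K : ℝ) (q' : Qd) (s1 s2 : ℝ), 1 ≤ E → E ≤ D → 1 ≤ F →
      Qd.Sub (C * (L * q.sz) ^ ε) (D * F) q q' → 1 ≤ K → K ≤ C * (L * q.sz) ^ 20 →
      E / D * w K q'.Y1 q'.Y2 (t1 + s1) (t2 + s2) ≤ B * ((1 + |s1|) * (1 + |s2|)) ^ M ∧
      (o = true → E / D * w K q'.Z1 q'.Z2 (t1 + s1) (t2 + s2) ≤
        B * ((1 + |s1|) * (1 + |s2|)) ^ M)) →
    τ o L q t1 t2 ≤ C * (L * q.sz) ^ ε * ((1 + |t1|) * (1 + |t2|)) ^ J *
      (1 + q.N / L * B + L ^ (-(1 / 3 : ℝ)) * q.N ^ (-(1 / 3 : ℝ)) * Qd.pl o q)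
  /-- Poisson, character side to Gauss side -/
  poisC : ∀ ε M : ℝ, 0 < ε → 0 ≤ M → ∃ C J : ℝ, 1 ≤ C ∧ 0 ≤ J ∧ ∀ (o : Bool) (K : ℝ) (q : Qd)
    (t1 t2 B : ℝ), 1 ≤ K → q.Ok → 0 ≤ B →
    (∀ (D E F L : ℝ) (q' : Qd) (s1 s2 : ℝ), 1 ≤ E → E ≤ D → 1 ≤ F →
      Qd.Sub (C * (K * q.sz) ^ ε) (D * F) q q' → 1 ≤ L → L ≤ C * (K * q.sz) ^ 20 →
      F * E ^ 3 * q.N ^ 2 ≤ C * (K * q.sz) ^ ε * (D ^ 2 * K * L) →
      E / D * τ o L q' (t1 + s1) (t2 + s2) ≤ B * ((1 + |s1|) * (1 + |s2|)) ^ M) →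
    wd o K q t1 t2 ≤ C * (K * q.sz) ^ ε * ((1 + |t1|) * (1 + |t2|)) ^ J * (1 + q.N / K * B)
  /-- cube monotonicity on the Gauss side -/
  monoG : ∀ ε M : ℝ, 0 < ε → 0 ≤ M → ∃ C J : ℝ, 1 ≤ C ∧ 0 ≤ J ∧ ∀ (o : Bool) (L : ℝ) (q : Qd)
    (P t1 t2 B1 B2 : ℝ), 1 ≤ L → q.Ok → 1 ≤ P → 0 ≤ B1 → 0 ≤ B2 →
    (∀ L' s1 s2 : ℝ, L * P ^ 3 ≤ L' → L' ≤ C * (L * P * q.sz) ^ ε * (L * P ^ 3) →
      τ o L' q (t1 + s1) (t2 + s2) ≤ B1 * ((1 + |s1|) * (1 + |s2|)) ^ M) →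
    (∀ (L' : ℝ) (q' : Qd) (s1 s2 : ℝ), 1 ≤ L' → L * P ≤ C * (L * P * q.sz) ^ ε * L' →
      L' ≤ C * (L * P * q.sz) ^ 20 → Qd.Sub (C * (L * P * q.sz) ^ ε) P q q' →
      τ o L' q' (t1 + s1) (t2 + s2) ≤ B2 * ((1 + |s1|) * (1 + |s2|)) ^ M) →
    τ o L q t1 t2 ≤ C * (L * P * q.sz) ^ ε * ((1 + |t1|) * (1 + |t2|)) ^ J *
      (P ^ 2 * B1 + B2 / P)
  /-- functional equation -/
  flip : ∀ ε M : ℝ, 0 < ε → 0 ≤ M → ∃ C J : ℝ, 1 ≤ C ∧ 0 ≤ J ∧ ∀ K Y t B : ℝ,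
    1 ≤ K → c ≤ Y → 0 ≤ B → K ≤ Y ^ 2 →
    (∀ K1 Z s : ℝ, 1 ≤ K1 → K1 ≤ C * (K * (1 + Y)) ^ ε * K → c ≤ Z →
      Z ≤ C * (K * (1 + Y)) ^ ε * Y → (Z * Y) ^ 3 ≤ C * (K * (1 + Y)) ^ ε * (K1 ^ 2 * K) →
      v K1 Z s ≤ B * (1 + |s|) ^ M) →
    v K Y t ≤ C * (K * (1 + Y)) ^ ε * (1 + |t|) ^ J * (1 + B)

/-! ### elementary lemmas -/

lemma rpow_bd {a C X ε : ℝ} {m : ℕ} (ha : 0 ≤ a) (hC : 1 ≤ C) (hX : 1 ≤ X) (h0 : 0 ≤ ε)
    (h1 : ε ≤ 1) (h : a ≤ C * X ^ m) : a ^ ε ≤ C * (X ^ ε) ^ m := by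
  have hX0 : 0 ≤ X := by linarith
  calc a ^ ε ≤ (C * X ^ m) ^ ε := Real.rpow_le_rpow ha h h0
    _ = C ^ ε * (X ^ m) ^ ε := Real.mul_rpow (by linarith) (by positivity)
    _ ≤ C ^ (1 : ℝ) * (X ^ m) ^ ε := by
        gcongr
    _ = C * (X ^ ε) ^ m := by
        rw [Real.rpow_one, ← Real.rpow_natCast, ← Real.rpow_natCast, ← Real.rpow_mul hX0,
          ← Real.rpow_mul hX0, mul_comm (m : ℝ) ε]

lemma pow_eps {X ε1 ε : ℝ} {n : ℕ} (hX : 1 ≤ X) (h : (n : ℝ) * ε1 ≤ ε) :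
    (X ^ ε1) ^ n ≤ X ^ ε := by
  rw [← Real.rpow_natCast, ← Real.rpow_mul (by linarith)]
  exact Real.rpow_le_rpow_of_exponent_le hX (by linarith)

/-- the loss function -/
def ml (e x : ℝ) : ℝ := (max 1 x) ^ e

lemma one_le_ml {e x : ℝ} (he : 0 ≤ e) : 1 ≤ ml e x := Real.one_le_rpow (le_max_left _ _) he

lemma ml_mono {e x y : ℝ} (he : 0 ≤ e) (h : x ≤ y) : ml e x ≤ ml e y :=
  Real.rpow_le_rpow (by positivity) (max_le_max le_rfl h) he

lemma ml_mul_le {e R x : ℝ} {k : ℕ} (he : 0 ≤ e) (hk : e ≤ k) (hR : 1 ≤ R) :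
    ml e (R * x) ≤ R ^ k * ml e x := by
  have h1 : max 1 (R * x) ≤ R * max 1 x := by
    refine max_le ?_ ?_
    · exact one_le_mul_of_one_le_of_one_le hR (le_max_left _ _)
    · have : x ≤ max 1 x := le_max_right _ _
      gcongr
  calc ml e (R * x) ≤ (R * max 1 x) ^ e := Real.rpow_le_rpow (by positivity) h1 he
    _ = R ^ e * ml e x := Real.mul_rpow (by linarith) (by positivity)
    _ ≤ R ^ (k : ℝ) * ml e x := by
        have := one_le_ml (x := x) he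
        gcongr
    _ = _ := by rw [Real.rpow_natCast]

/-- geometric mean -/
lemma ml_geo {e c A B : ℝ} {k : ℕ} (he : 0 ≤ e) (hk : e ≤ k) (hc : 0 < c) (hc1 : c ≤ 1)
    (hA : c ≤ A) (hB : c ≤ B) :
    ml (e / 2) A * ml (e / 2) B ≤ (c⁻¹ ^ 2) ^ k * ml (e / 2) (A * B) := by
  have hA0 : 0 < A := by linarith
  have hB0 : 0 < B := by linarith
  have hci : 1 ≤ c⁻¹ := (one_le_inv₀ hc).mpr hc1
  have h1 : max 1 A ≤ c⁻¹ * A := by
    refine max_le ?_ ?_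
    · rw [inv_mul_eq_div, one_le_div hc]; exact hA
    · nlinarith
  have h2 : max 1 B ≤ c⁻¹ * B := by
    refine max_le ?_ ?_
    · rw [inv_mul_eq_div, one_le_div hc]; exact hB
    · nlinarith
  have h3 : ml (e / 2) A * ml (e / 2) B ≤ ml (e / 2) (c⁻¹ ^ 2 * (A * B)) := by
    unfold ml
    rw [← Real.mul_rpow (by positivity) (by positivity)]
    refine Real.rpow_le_rpow (by positivity) ?_ (by positivity)
    calc max 1 A * max 1 B ≤ (c⁻¹ * A) * (c⁻¹ * B) := by gcongr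
      _ = c⁻¹ ^ 2 * (A * B) := by ring
      _ ≤ _ := le_max_right _ _
  exact h3.trans (ml_mul_le (by positivity) (by linarith) (one_le_pow₀ hci))

lemma sum_heights {t1 t2 s1 s2 A : ℝ} (hA : 0 ≤ A) :
    (1 + |t1 + s1|) ^ A ≤ ((1 + |t1|) * (1 + |t2|)) ^ A * ((1 + |s1|) * (1 + |s2|)) ^ A := by
  rw [← Real.mul_rpow (by positivity) (by positivity)]
  refine Real.rpow_le_rpow (by positivity) ?_ hA
  have h1 := Two320.one_add_abs_add t1 s1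
  have h2 := abs_nonneg t2
  have h3 := abs_nonneg s2
  calc 1 + |t1 + s1| ≤ (1 + |t1|) * (1 + |s1|) := h1
    _ = ((1 + |t1|) * 1) * ((1 + |s1|) * 1) := by ring
    _ ≤ ((1 + |t1|) * (1 + |t2|)) * ((1 + |s1|) * (1 + |s2|)) := by
        gcongr <;> linarith

/-- bound with central loss `e` -/
def Bd (c : ℝ) (v : ℝ → ℝ → ℝ → ℝ) (e : ℝ) : Prop := ∀ ε : ℝ, 0 < ε → ∃ C A : ℝ, 1 ≤ C ∧ 0 ≤ A ∧
  ∀ K Y t : ℝ, 1 ≤ K → c ≤ Y → v K Y t ≤ C * (K * (1 + Y)) ^ ε * (1 + |t|) ^ A * ml e Y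

/-- the same for the mixed moments -/
def BdW (c : ℝ) (w : ℝ → ℝ → ℝ → ℝ → ℝ → ℝ) (e : ℝ) : Prop :=
  ∀ ε : ℝ, 0 < ε → ∃ C A : ℝ, 1 ≤ C ∧ 0 ≤ A ∧ ∀ K Y1 Y2 t1 t2 : ℝ, 1 ≤ K → c ≤ Y1 → c ≤ Y2 →
    w K Y1 Y2 t1 t2 ≤ C * (K * ((1 + Y1) * (1 + Y2))) ^ ε *
      ((1 + |t1|) * (1 + |t2|)) ^ A * ml (e / 2) (Y1 * Y2)

/-- the shape of the bound on the Gauss side -/
def GG (o : Bool) (L g : ℝ) (q : Qd) : ℝ :=
  1 + q.N / L * g + L ^ (-(1 / 3 : ℝ)) * q.N ^ (-(1 / 3 : ℝ)) * Qd.pl o q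

def TB1 (τ : Bool → ℝ → Qd → ℝ → ℝ → ℝ) (e : ℝ) : Prop :=
  ∀ ε : ℝ, 0 < ε → ∃ C A : ℝ, 1 ≤ C ∧ 0 ≤ A ∧ ∀ (o : Bool) (L : ℝ) (q : Qd) (t1 t2 : ℝ),
    1 ≤ L → q.Ok → τ o L q t1 t2 ≤ C * (L * q.sz) ^ ε * ((1 + |t1|) * (1 + |t2|)) ^ A *
      GG o L (ml (e / 2) q.N) q

def TB2 (τ : Bool → ℝ → Qd → ℝ → ℝ → ℝ) (e : ℝ) : Prop :=
  ∀ ε : ℝ, 0 < ε → ∃ C A : ℝ, 1 ≤ C ∧ 0 ≤ A ∧ ∀ (o : Bool) (L : ℝ) (q : Qd) (t1 t2 : ℝ),
    1 ≤ L → q.Ok → τ o L q t1 t2 ≤ C * (L * q.sz) ^ ε * ((1 + |t1|) * (1 + |t2|)) ^ A *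
      (ml (e / 3) q.N * GG o L 1 q)

lemma GG_pos {o : Bool} {L g : ℝ} {q : Qd} (hq : q.Ok) (hL : 0 < L) (hg : 0 ≤ g) :
    1 ≤ GG o L g q := by
  have h1 := hq.N_pos
  have h2 := hq.pl_pos o
  have h3 : 0 ≤ q.N / L * g := by positivity
  have h4 : 0 ≤ L ^ (-(1 / 3 : ℝ)) * q.N ^ (-(1 / 3 : ℝ)) * Qd.pl o q := by positivity
  unfold GG
  linarith

section

variable {c : ℝ} {v : ℝ → ℝ → ℝ → ℝ} {w : ℝ → ℝ → ℝ → ℝ → ℝ → ℝ}
  {wd τ : Bool → ℝ → Qd → ℝ → ℝ → ℝ}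

lemma bdW (R : Rules c v w wd τ) {e : ℝ} (he : 0 ≤ e) (h : Bd c v e) : BdW c w e := by
  intro ε hε
  obtain ⟨C1, A, hC1, hA, hb⟩ := h ε hε
  obtain ⟨Cc, hCc, hcau⟩ := R.cau
  obtain ⟨k, hk⟩ := exists_nat_ge e
  have hci : 1 ≤ c⁻¹ := (one_le_inv₀ R.c_pos).mpr R.c_le
  refine ⟨Cc * C1 * (c⁻¹ ^ 2) ^ k, A, ?_, hA, ?_⟩
  · exact one_le_mul_of_one_le_of_one_le (one_le_mul_of_one_le_of_one_le hCc hC1)
      (one_le_pow₀ (one_le_pow₀ hci))
  intro K Y1 Y2 t1 t2 hK h1 h2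
  have hc := R.c_pos
  have h10 : 0 < Y1 := by linarith
  have h20 : 0 < Y2 := by linarith
  set X := K * ((1 + Y1) * (1 + Y2)) with hX
  set T := ((1 + |t1|) * (1 + |t2|)) with hT
  have hb1 : v K Y1 t1 ≤ C1 * X ^ ε * T ^ A * ml e Y1 := by
    refine (hb K Y1 t1 hK h1).trans ?_
    have e1 : K * (1 + Y1) ≤ X := by
      rw [hX]
      calc K * (1 + Y1) = K * ((1 + Y1) * 1) := by ring
        _ ≤ _ := by gcongr; linarith
    have e2 : 1 + |t1| ≤ T := by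
      rw [hT]; nlinarith [abs_nonneg t1, abs_nonneg t2, mul_nonneg (abs_nonneg t1) (abs_nonneg t2)]
    have e3 : 0 ≤ ml e Y1 := by linarith [one_le_ml (x := Y1) he]
    gcongr
  have hb2 : v K Y2 t2 ≤ C1 * X ^ ε * T ^ A * ml e Y2 := by
    refine (hb K Y2 t2 hK h2).trans ?_
    have e1 : K * (1 + Y2) ≤ X := by
      rw [hX]
      calc K * (1 + Y2) = K * (1 * (1 + Y2)) := by ring
        _ ≤ _ := by gcongr; linarith
    have e2 : 1 + |t2| ≤ T := by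
      rw [hT]; nlinarith [abs_nonneg t1, abs_nonneg t2, mul_nonneg (abs_nonneg t1) (abs_nonneg t2)]
    have e3 : 0 ≤ ml e Y2 := by linarith [one_le_ml (x := Y2) he]
    gcongr
  have hX0 : 0 < X := by positivity
  have hT0 : 0 < T := by positivity
  have hG : 0 ≤ C1 * X ^ ε * T ^ A := by positivity
  set g := Real.sqrt (C1 * X ^ ε * T ^ A) with hg
  have hg2 : g * g = C1 * X ^ ε * T ^ A := Real.mul_self_sqrt hG
  have hmm : ∀ Y : ℝ, ml (e / 2) Y * ml (e / 2) Y = ml e Y := by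
    intro Y
    unfold ml
    rw [← Real.rpow_add (by positivity)]
    congr 1
    ring
  have hml : ∀ Y : ℝ, 0 ≤ ml (e / 2) Y := fun Y => by
    linarith [one_le_ml (x := Y) (by positivity : (0:ℝ) ≤ e / 2)]
  have key := hcau K Y1 Y2 t1 t2 (g * ml (e / 2) Y1) (g * ml (e / 2) Y2) hK h1 h2
    (mul_nonneg (Real.sqrt_nonneg _) (hml _)) (mul_nonneg (Real.sqrt_nonneg _) (hml _)) (by
      calc v K Y1 t1 ≤ C1 * X ^ ε * T ^ A * ml e Y1 := hb1
        _ = _ := by rw [← hg2, ← hmm Y1]; ring) (by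
      calc v K Y2 t2 ≤ C1 * X ^ ε * T ^ A * ml e Y2 := hb2
        _ = _ := by rw [← hg2, ← hmm Y2]; ring)
  calc w K Y1 Y2 t1 t2 ≤ Cc * (g * ml (e / 2) Y1 * (g * ml (e / 2) Y2)) := key
    _ = Cc * (C1 * X ^ ε * T ^ A) * (ml (e / 2) Y1 * ml (e / 2) Y2) := by rw [← hg2]; ring
    _ ≤ Cc * (C1 * X ^ ε * T ^ A) * ((c⁻¹ ^ 2) ^ k * ml (e / 2) (Y1 * Y2)) := by
        exact mul_le_mul_of_nonneg_left (ml_geo he hk hc R.c_le h1 h2) (by positivity)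
    _ = _ := by ring

lemma exists_eps {ε : ℝ} (hε : 0 < ε) (n : ℕ) :
    ∃ ε1 : ℝ, 0 < ε1 ∧ ε1 ≤ 1 ∧ (n : ℝ) * ε1 ≤ ε := by
  refine ⟨min 1 (ε / (n + 1)), lt_min one_pos (by positivity), min_le_left _ _, ?_⟩
  calc (n : ℝ) * min 1 (ε / (n + 1)) ≤ (n + 1) * (ε / (n + 1)) := by
        gcongr
        · linarith
        · exact min_le_right _ _
    _ = ε := by field_simp

lemma w_blk (R : Rules c v w wd τ) {e ε1 C1 C2 A X K A' B' N' t1 t2 s1 s2 : ℝ} {k : ℕ}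
    (he : 0 ≤ e) (hk : e ≤ k) (h1 : 0 < ε1) (h1' : ε1 ≤ 1) (hC1 : 1 ≤ C1) (hC2 : 1 ≤ C2)
    (hA : 0 ≤ A) (hX : 1 ≤ X)
    (hb : ∀ K Y1 Y2 t1 t2 : ℝ, 1 ≤ K → c ≤ Y1 → c ≤ Y2 →
      w K Y1 Y2 t1 t2 ≤ C1 * (K * ((1 + Y1) * (1 + Y2))) ^ ε1 *
        ((1 + |t1|) * (1 + |t2|)) ^ A * ml (e / 2) (Y1 * Y2))
    (hK : 1 ≤ K) (hKX : K ≤ C2 * X ^ 20) (hsz : (1 + A') * (1 + B') ≤ (C2 * X ^ ε1) ^ 4 * X)
    (hA' : 0 < A') (hB' : 0 < B') (hN : A' * B' ≤ C2 * X ^ ε1 * N') :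
    w K A' B' (t1 + s1) (t2 + s2) ≤ C1 * C2 ^ (5 + k) * (X ^ ε1) ^ (25 + k) *
      ((1 + |t1|) * (1 + |t2|)) ^ A * ml (e / 2) N' * ((1 + |s1|) * (1 + |s2|)) ^ A := by
  have hX0 : 0 < X := by linarith
  set E := X ^ ε1 with hE
  have hE1 : 1 ≤ E := Real.one_le_rpow hX h1.le
  have hEX : E ≤ X := by
    calc E ≤ X ^ (1 : ℝ) := Real.rpow_le_rpow_of_exponent_le hX h1'
      _ = X := Real.rpow_one X
  have hml : 1 ≤ ml (e / 2) N' := one_le_ml (by positivity)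
  by_cases hc : A' < c ∨ B' < c
  · rw [R.nul _ _ _ _ _ hA' hB' hc]
    positivity
  push Not at hc
  have hT := Two320.pow_two_abs t1 t2 s1 s2 A hA
  have hsize : K * ((1 + A') * (1 + B')) ≤ C2 ^ 5 * X ^ 25 := by
    calc K * ((1 + A') * (1 + B')) ≤ (C2 * X ^ 20) * ((C2 * E) ^ 4 * X) := by gcongr
      _ ≤ (C2 * X ^ 20) * ((C2 * X) ^ 4 * X) := by gcongr
      _ = _ := by ring
  have hs2 : (K * ((1 + A') * (1 + B'))) ^ ε1 ≤ C2 ^ 5 * E ^ 25 :=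
    rpow_bd (by positivity) (one_le_pow₀ hC2) hX h1.le h1' hsize
  have hN2 : ml (e / 2) (A' * B') ≤ (C2 * E) ^ k * ml (e / 2) N' :=
    (ml_mono (by positivity) hN).trans
      (ml_mul_le (by positivity) (by linarith) (one_le_mul_of_one_le_of_one_le hC2 hE1))
  have hml' : 0 ≤ ml (e / 2) (A' * B') := by
    linarith [one_le_ml (x := A' * B') (by positivity : (0:ℝ) ≤ e / 2)]
  calc w K A' B' (t1 + s1) (t2 + s2)
      ≤ C1 * (K * ((1 + A') * (1 + B'))) ^ ε1 *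
        ((1 + |t1 + s1|) * (1 + |t2 + s2|)) ^ A * ml (e / 2) (A' * B') :=
        hb K A' B' _ _ hK hc.1 hc.2
    _ ≤ C1 * (C2 ^ 5 * E ^ 25) *
        (((1 + |t1|) * (1 + |t2|)) ^ A * ((1 + |s1|) * (1 + |s2|)) ^ A) *
        ((C2 * E) ^ k * ml (e / 2) N') := by gcongr
    _ = _ := by rw [mul_pow, pow_add, pow_add]; ring

lemma tb1 (R : Rules c v w wd τ) {e : ℝ} (he : 0 ≤ e) (h : Bd c v e) : TB1 τ e := by
  intro ε hε
  obtain ⟨k, hk⟩ := exists_nat_ge e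
  obtain ⟨ε1, h1, h1', h1a⟩ := exists_eps hε (26 + k)
  obtain ⟨C1, A, hC1, hA, hb⟩ := bdW R he h ε1 h1
  obtain ⟨C2, J, hC2, hJ, hp⟩ := R.poisG ε1 A h1 hA
  refine ⟨C2 * (C1 * C2 ^ (5 + k)), A + J, ?_, by positivity, ?_⟩
  · exact one_le_mul_of_one_le_of_one_le hC2
      (one_le_mul_of_one_le_of_one_le hC1 (one_le_pow₀ hC2))
  intro o L q t1 t2 hL hq
  have hsz := hq.one_le_sz
  have hX : 1 ≤ L * q.sz := one_le_mul_of_one_le_of_one_le hL hsz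
  set X := L * q.sz with hXdef
  have hX0 : 0 < X := by linarith
  set E := X ^ ε1 with hE
  have hE1 : 1 ≤ E := Real.one_le_rpow hX h1.le
  set T := (1 + |t1|) * (1 + |t2|) with hT
  have hT1 : 1 ≤ T := one_le_mul_of_one_le_of_one_le
    (by linarith [abs_nonneg t1]) (by linarith [abs_nonneg t2])
  have hTA : 1 ≤ T ^ A := Real.one_le_rpow hT1 hA
  have hN0 := hq.N_pos
  have hml : 1 ≤ ml (e / 2) q.N := one_le_ml (by positivity)
  have hszX : q.sz ≤ X := by rw [hXdef]; nlinarith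
  set B := C1 * C2 ^ (5 + k) * E ^ (25 + k) * T ^ A * ml (e / 2) q.N with hB
  have hK1 : 1 ≤ C1 * C2 ^ (5 + k) * E ^ (25 + k) * T ^ A :=
    one_le_mul_of_one_le_of_one_le (one_le_mul_of_one_le_of_one_le
      (one_le_mul_of_one_le_of_one_le hC1 (one_le_pow₀ hC2)) (one_le_pow₀ hE1)) hTA
  have key := hp o L q t1 t2 B hL hq (by positivity) ?_
  · have old : C2 * E * (1 + q.N / L * B +
          L ^ (-(1 / 3 : ℝ)) * q.N ^ (-(1 / 3 : ℝ)) * Qd.pl o q) ≤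
          C2 * (C1 * C2 ^ (5 + k)) * X ^ ε * T ^ A * GG o L (ml (e / 2) q.N) q := by
      calc _ ≤ C2 * E * ((C1 * C2 ^ (5 + k) * E ^ (25 + k) * T ^ A) * GG o L (ml (e / 2) q.N) q) := by
            have hpl := hq.pl_pos o
            have h3 : 0 ≤ q.N / L * ml (e / 2) q.N := by positivity
            have h4 : 0 ≤ L ^ (-(1 / 3 : ℝ)) * q.N ^ (-(1 / 3 : ℝ)) * Qd.pl o q := by positivity
            have h5 : 1 + q.N / L * B + L ^ (-(1 / 3 : ℝ)) * q.N ^ (-(1 / 3 : ℝ)) * Qd.pl o q ≤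
                (C1 * C2 ^ (5 + k) * E ^ (25 + k) * T ^ A) * GG o L (ml (e / 2) q.N) q := by
              unfold GG
              set z := C1 * C2 ^ (5 + k) * E ^ (25 + k) * T ^ A with hz
              have h6 : q.N / L * B = z * (q.N / L * ml (e / 2) q.N) := by rw [hB]; ring
              rw [h6]
              nlinarith
            gcongr
        _ = C2 * (C1 * C2 ^ (5 + k)) * E ^ (26 + k) * T ^ A * GG o L (ml (e / 2) q.N) q := by
            rw [show 26 + k = 1 + (25 + k) by ring, pow_add E 1, pow_one]; ring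
        _ ≤ _ := by
            have hG := GG_pos (o := o) hq (by linarith : 0 < L) (by linarith : 0 ≤ ml (e / 2) q.N)
            have hE2 : E ^ (26 + k) ≤ X ^ ε := pow_eps hX (by exact_mod_cast h1a)
            gcongr
    have hTJ : 0 ≤ T ^ J := by positivity
    calc τ o L q t1 t2 ≤ _ := key
      _ = T ^ J * (C2 * E * (1 + q.N / L * B +
          L ^ (-(1 / 3 : ℝ)) * q.N ^ (-(1 / 3 : ℝ)) * Qd.pl o q)) := by ring
      _ ≤ T ^ J * (C2 * (C1 * C2 ^ (5 + k)) * X ^ ε * T ^ A * GG o L (ml (e / 2) q.N) q) :=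
          mul_le_mul_of_nonneg_left old hTJ
      _ = _ := by rw [Real.rpow_add (by linarith : 0 < T)]; ring
  · intro D E' F K q' s1 s2 hE' hED hF hsub hK hKX
    have hRE : 1 ≤ C2 * E := one_le_mul_of_one_le_of_one_le hC2 hE1
    have hD : 1 ≤ D := hE'.trans hED
    have hDF : 1 ≤ D * F := one_le_mul_of_one_le_of_one_le hD hF
    have hED' : E' / D ≤ 1 := (div_le_one (by linarith)).mpr hED
    have hED0 : 0 ≤ E' / D := by positivity
    have k1 := hsub.ok.Y1; have k2 := hsub.ok.Y2; have k3 := hsub.ok.Z1; have k4 := hsub.ok.Z2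
    have hN' : q'.N ≤ C2 * E * q.N := hsub.N_le hDF
    have hsz' : q'.sz ≤ (C2 * E) ^ 4 * X := by
      refine (hsub.sz_le hq hRE).trans ?_
      gcongr
    have hy : (1 + q'.Y1) * (1 + q'.Y2) ≤ (C2 * E) ^ 4 * X := by
      refine le_trans ?_ hsz'
      unfold Qd.sz
      refine le_mul_of_one_le_right (by positivity) ?_
      exact one_le_mul_of_one_le_of_one_le (by linarith) (by linarith)
    have hz : (1 + q'.Z1) * (1 + q'.Z2) ≤ (C2 * E) ^ 4 * X := by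
      refine le_trans ?_ hsz'
      unfold Qd.sz
      refine le_mul_of_one_le_left (by positivity) ?_
      exact one_le_mul_of_one_le_of_one_le (by linarith) (by linarith)
    have b1 := w_blk R (t1 := t1) (t2 := t2) (s1 := s1) (s2 := s2) he hk h1 h1' hC1 hC2 hA hX hb
      hK hKX hy k1 k2 hN'
    have b2 := w_blk R (t1 := t1) (t2 := t2) (s1 := s1) (s2 := s2) he hk h1 h1' hC1 hC2 hA hX hb
      hK hKX hz k3 k4 (N' := q.N) (by rw [← hsub.ok.eq]; exact hN')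
    have hBS : 0 ≤ B * ((1 + |s1|) * (1 + |s2|)) ^ A := by positivity
    constructor
    · calc E' / D * w K q'.Y1 q'.Y2 (t1 + s1) (t2 + s2)
          ≤ E' / D * (B * ((1 + |s1|) * (1 + |s2|)) ^ A) := by gcongr
        _ ≤ 1 * (B * ((1 + |s1|) * (1 + |s2|)) ^ A) := by gcongr
        _ = _ := one_mul _
    · intro _
      calc E' / D * w K q'.Z1 q'.Z2 (t1 + s1) (t2 + s2)
          ≤ E' / D * (B * ((1 + |s1|) * (1 + |s2|)) ^ A) := by gcongr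
        _ ≤ 1 * (B * ((1 + |s1|) * (1 + |s2|)) ^ A) := by gcongr
        _ = _ := one_mul _

lemma ml_mul (a b x : ℝ) : ml a x * ml b x = ml (a + b) x := by
  unfold ml
  rw [← Real.rpow_add (by positivity)]

lemma N_le_sz {q : Qd} (hq : q.Ok) : q.N ≤ q.sz := by
  have h1 := hq.Y1; have h2 := hq.Y2; have h3 := hq.Z1; have h4 := hq.Z2
  unfold Qd.N Qd.sz
  calc q.Y1 * q.Y2 = q.Y1 * q.Y2 * (1 * 1) := by ring
    _ ≤ (1 + q.Y1) * (1 + q.Y2) * ((1 + q.Z1) * (1 + q.Z2)) := by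
        gcongr <;> linarith

lemma ml_le_pow {e x X : ℝ} {k : ℕ} (he : 0 ≤ e) (hk : e ≤ k) (hX : 1 ≤ X) (h : x ≤ X) :
    ml e x ≤ X ^ k := by
  unfold ml
  calc (max 1 x) ^ e ≤ X ^ e := Real.rpow_le_rpow (by positivity) (max_le hX h) he
    _ ≤ X ^ (k : ℝ) := Real.rpow_le_rpow_of_exponent_le hX hk
    _ = _ := Real.rpow_natCast _ _

lemma rpow_third {a b R : ℝ} (ha : 0 < a) (_hb : 0 < b) (hR : 1 ≤ R) (h : a ≤ R * b) :
    b ^ (-(1 / 3 : ℝ)) ≤ R * a ^ (-(1 / 3 : ℝ)) := by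
  have hR0 : 0 < R := by linarith
  have h1 : R⁻¹ * a ≤ b := by rw [inv_mul_le_iff₀ hR0]; exact h
  have h2 : b ^ (-(1 / 3 : ℝ)) ≤ (R⁻¹ * a) ^ (-(1 / 3 : ℝ)) :=
    Real.rpow_le_rpow_of_nonpos (by positivity) h1 (by norm_num)
  refine h2.trans ?_
  rw [Real.mul_rpow (by positivity) ha.le]
  have h3 : (R⁻¹) ^ (-(1 / 3 : ℝ)) ≤ R := by
    rw [Real.inv_rpow hR0.le, ← Real.rpow_neg hR0.le, neg_neg]
    calc R ^ (1 / 3 : ℝ) ≤ R ^ (1 : ℝ) := Real.rpow_le_rpow_of_exponent_le hR (by norm_num)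
      _ = R := Real.rpow_one R
  gcongr

lemma tb2 (R : Rules c v w wd τ) {e : ℝ} (he : 0 ≤ e) (h : TB1 τ e) : TB2 τ e := by
  intro ε hε
  obtain ⟨k, hk⟩ := exists_nat_ge e
  obtain ⟨ε1, h1, h1', h1a⟩ := exists_eps hε ((k + 1) * (29 + k))
  obtain ⟨C1, A, hC1, hA, hb⟩ := h ε1 h1
  obtain ⟨C2, J, hC2, hJ, hp⟩ := R.monoG ε1 A h1 hA
  refine ⟨C2 * (2 * (C1 * C2 ^ (8 + k))), A + J, ?_, by positivity, ?_⟩
  · refine one_le_mul_of_one_le_of_one_le hC2 ?_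
    have : 1 ≤ C1 * C2 ^ (8 + k) := one_le_mul_of_one_le_of_one_le hC1 (one_le_pow₀ hC2)
    linarith
  intro o L q t1 t2 hL hq
  have hL0 : 0 < L := by linarith
  have hsz := hq.one_le_sz
  have hsz0 : 0 < q.sz := by linarith
  have hN0 := hq.N_pos
  set T := (1 + |t1|) * (1 + |t2|) with hT
  have hT1 : 1 ≤ T := one_le_mul_of_one_le_of_one_le
    (by linarith [abs_nonneg t1]) (by linarith [abs_nonneg t2])
  have hTA : 1 ≤ T ^ A := Real.one_le_rpow hT1 hA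
  have hX0 : 1 ≤ L * q.sz := one_le_mul_of_one_le_of_one_le hL hsz
  set X0 := L * q.sz with hX0def
  set P := ml (e / 6) q.N with hPdef
  have hP1 : 1 ≤ P := one_le_ml (by positivity)
  have hP0 : 0 < P := by linarith
  have hP2 : P ^ 2 = ml (e / 3) q.N := by
    rw [sq, hPdef, ml_mul]; congr 1; ring
  have hP3 : P ^ 3 = ml (e / 2) q.N := by
    rw [pow_succ, hP2, hPdef, ml_mul]; congr 1; ring
  have hPX : P ≤ X0 ^ k := by
    refine ml_le_pow (by positivity) (by linarith) hX0 ((N_le_sz hq).trans ?_)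
    rw [hX0def]; nlinarith
  set X := L * P * q.sz with hXdef
  have hX : 1 ≤ X := one_le_mul_of_one_le_of_one_le (one_le_mul_of_one_le_of_one_le hL hP1) hsz
  have hXp : 0 < X := by linarith
  have hXX : X ≤ 1 * X0 ^ (k + 1) := by
    calc X = P * X0 := by rw [hXdef, hX0def]; ring
      _ ≤ X0 ^ k * X0 := by gcongr
      _ = _ := by rw [one_mul, pow_succ]
  set E := X ^ ε1 with hE
  have hE1 : 1 ≤ E := Real.one_le_rpow hX h1.le
  have hEX : E ≤ X := by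
    calc E ≤ X ^ (1 : ℝ) := Real.rpow_le_rpow_of_exponent_le hX h1'
      _ = X := Real.rpow_one X
  have hE0 : E ≤ (X0 ^ ε1) ^ (k + 1) := by
    have := rpow_bd hXp.le le_rfl hX0 h1.le h1' hXX
    rwa [one_mul] at this
  set G := GG o L 1 q with hG
  have hG1 : 1 ≤ G := GG_pos hq hL0 zero_le_one
  have hpl := hq.pl_pos o
  set K2 := C2 * E with hK2
  have hK21 : 1 ≤ K2 := one_le_mul_of_one_le_of_one_le hC2 hE1
  have hPXle : P ≤ X := by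
    rw [hXdef]
    calc P = 1 * P * 1 := by ring
      _ ≤ L * P * q.sz := by gcongr
  have key := hp o L q P t1 t2 (C1 * C2 * E ^ 4 * T ^ A * G)
    (C1 * C2 ^ 5 * E ^ 25 * T ^ A * (K2 ^ (k + 3) * P * G)) hL hq hP1 (by positivity)
    (by positivity) ?_ ?_
  · have old : C2 * E * (P ^ 2 * (C1 * C2 * E ^ 4 * T ^ A * G) +
          C1 * C2 ^ 5 * E ^ 25 * T ^ A * (K2 ^ (k + 3) * P * G) / P) ≤
          C2 * (2 * (C1 * C2 ^ (8 + k))) * X0 ^ ε * T ^ A * (P ^ 2 * G) := by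
      calc _ = C2 * E * (T ^ A * (C1 * (P ^ 2 * (C2 * E ^ 4) + C2 ^ (8 + k) * E ^ (28 + k))) * G) := by
            rw [hK2, mul_pow C2 E, show 8 + k = 5 + (k + 3) by ring,
              show 28 + k = 25 + (k + 3) by ring, pow_add C2 5, pow_add E 25]
            field_simp
        _ ≤ C2 * E * (T ^ A * (C1 * (P ^ 2 * (C2 ^ (8 + k) * E ^ (28 + k)) +
              P ^ 2 * (C2 ^ (8 + k) * E ^ (28 + k)))) * G) := by
            have a1 : C2 ≤ C2 ^ (8 + k) := le_self_pow₀ hC2 (by omega)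
            have a2 : E ^ 4 ≤ E ^ (28 + k) := pow_le_pow_right₀ hE1 (by omega)
            have a3 : 1 ≤ P ^ 2 := one_le_pow₀ hP1
            have a4 : 0 ≤ C2 ^ (8 + k) * E ^ (28 + k) := by positivity
            have a5 : P ^ 2 * (C2 * E ^ 4) ≤ P ^ 2 * (C2 ^ (8 + k) * E ^ (28 + k)) := by gcongr
            have a6 : C2 ^ (8 + k) * E ^ (28 + k) ≤ P ^ 2 * (C2 ^ (8 + k) * E ^ (28 + k)) :=
              le_mul_of_one_le_left a4 a3
            have a7 := add_le_add a5 a6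
            gcongr
        _ = C2 * (2 * (C1 * C2 ^ (8 + k))) * E ^ (29 + k) * T ^ A * (P ^ 2 * G) := by
            rw [show 29 + k = 1 + (28 + k) by ring, pow_add E 1, pow_one]; ring
        _ ≤ C2 * (2 * (C1 * C2 ^ (8 + k))) * X0 ^ ε * T ^ A * (P ^ 2 * G) := by
            have hE2 : E ^ (29 + k) ≤ X0 ^ ε := by
              calc E ^ (29 + k) ≤ ((X0 ^ ε1) ^ (k + 1)) ^ (29 + k) := by gcongr
                _ = (X0 ^ ε1) ^ ((k + 1) * (29 + k)) := by rw [← pow_mul]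
                _ ≤ X0 ^ ε := pow_eps hX0 (by exact_mod_cast h1a)
            gcongr
    have hTJ : 0 ≤ T ^ J := by positivity
    calc τ o L q t1 t2 ≤ _ := key
      _ = T ^ J * (C2 * E * (P ^ 2 * (C1 * C2 * E ^ 4 * T ^ A * G) +
          C1 * C2 ^ 5 * E ^ 25 * T ^ A * (K2 ^ (k + 3) * P * G) / P)) := by ring
      _ ≤ T ^ J * (C2 * (2 * (C1 * C2 ^ (8 + k))) * X0 ^ ε * T ^ A * (P ^ 2 * G)) :=
          mul_le_mul_of_nonneg_left old hTJ
      _ = _ := by rw [hP2, Real.rpow_add (by linarith : 0 < T)]; ring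
  · -- the long family
    intro L' s1 s2 hL1 hL2
    have hLP : L ≤ L * P ^ 3 := le_mul_of_one_le_right hL0.le (one_le_pow₀ hP1)
    have hL' : 1 ≤ L' := hL.trans (hLP.trans hL1)
    have hL'0 : 0 < L' := by linarith
    have b := hb o L' q (t1 + s1) (t2 + s2) hL' hq
    have hT' := Two320.pow_two_abs t1 t2 s1 s2 A hA
    have hGG : GG o L' (ml (e / 2) q.N) q ≤ G := by
      rw [hG]
      unfold GG
      have g1 : q.N / L' * ml (e / 2) q.N ≤ q.N / L * 1 := by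
        rw [← hP3, mul_one, div_mul_eq_mul_div, div_le_div_iff₀ hL'0 hL0]
        calc q.N * P ^ 3 * L = q.N * (L * P ^ 3) := by ring
          _ ≤ q.N * L' := by gcongr
      have g2 : L' ^ (-(1 / 3 : ℝ)) ≤ L ^ (-(1 / 3 : ℝ)) :=
        Real.rpow_le_rpow_of_nonpos hL0 (hLP.trans hL1) (by norm_num)
      gcongr
    have hsize : L' * q.sz ≤ C2 * X ^ 4 := by
      calc L' * q.sz ≤ (C2 * E * (L * P ^ 3)) * q.sz := by gcongr
        _ = C2 * E * (P * P * X) := by rw [hXdef]; ring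
        _ ≤ C2 * X * (X * X * X) := by gcongr
        _ = _ := by ring
    have hs2 : (L' * q.sz) ^ ε1 ≤ C2 * E ^ 4 :=
      rpow_bd (by positivity) hC2 hX h1.le h1' hsize
    have hGp : 0 ≤ GG o L' (ml (e / 2) q.N) q := by
      linarith [GG_pos (o := o) hq hL'0 (by
        linarith [one_le_ml (x := q.N) (by positivity : (0:ℝ) ≤ e / 2)] :
          (0:ℝ) ≤ ml (e / 2) q.N)]
    calc τ o L' q (t1 + s1) (t2 + s2) ≤ C1 * (L' * q.sz) ^ ε1 *
          ((1 + |t1 + s1|) * (1 + |t2 + s2|)) ^ A * GG o L' (ml (e / 2) q.N) q := b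
      _ ≤ C1 * (C2 * E ^ 4) * (T ^ A * ((1 + |s1|) * (1 + |s2|)) ^ A) * G := by gcongr
      _ = _ := by ring
  · -- the short family
    intro L' q' s1 s2 hL' hLP hLX hsub
    have hL'0 : 0 < L' := by linarith
    have hN'0 := hsub.ok.N_pos
    have b := hb o L' q' (t1 + s1) (t2 + s2) hL' hsub.ok
    have hT' := Two320.pow_two_abs t1 t2 s1 s2 A hA
    have hml1 : 1 ≤ ml (e / 2) q'.N := one_le_ml (by positivity)
    have hpl' := hsub.pl_le hP1 (by linarith) o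
    have hpl'0 := hsub.ok.pl_pos o
    have hsize : L' * q'.sz ≤ C2 ^ 5 * X ^ 25 := by
      have hszX : q.sz ≤ X := by
        rw [hXdef]
        calc q.sz = 1 * 1 * q.sz := by ring
          _ ≤ L * P * q.sz := by gcongr
      calc L' * q'.sz ≤ (C2 * X ^ 20) * (K2 ^ 4 * q.sz) := by
            have := hsub.sz_le hq hK21
            have hs' := hsub.ok.one_le_sz
            gcongr
        _ ≤ (C2 * X ^ 20) * ((C2 * X) ^ 4 * X) := by
            rw [hK2]; gcongr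
        _ = _ := by ring
    have hs2 : (L' * q'.sz) ^ ε1 ≤ C2 ^ 5 * E ^ 25 :=
      rpow_bd (by have := hsub.ok.one_le_sz; positivity) (one_le_pow₀ hC2) hX h1.le h1' hsize
    have hGG : GG o L' (ml (e / 2) q'.N) q' ≤ K2 ^ (k + 3) * P * G := by
      have g0 : ml (e / 2) q'.N ≤ K2 ^ k * P ^ 3 := by
        rw [hP3]
        exact (ml_mono (by positivity) (hsub.N_le hP1)).trans
          (ml_mul_le (by positivity) (by linarith) hK21)
      have g1 : q'.N / L' * ml (e / 2) q'.N ≤ K2 ^ (k + 3) * P * (q.N / L * 1) := by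
        have g2 : q'.N / L' ≤ K2 ^ 2 * (q.N / L) / P ^ 2 := by
          rw [div_le_iff₀ hL'0]
          have g3 : q'.N * P * (L * P) ≤ (K2 * q.N) * (K2 * L') :=
            mul_le_mul hsub.le hLP (by positivity) (by positivity)
          have g4 : K2 ^ 2 * (q.N / L) / P ^ 2 * L' = ((K2 * q.N) * (K2 * L')) / (L * P ^ 2) := by
            field_simp
          rw [g4, le_div_iff₀ (by positivity)]
          calc q'.N * (L * P ^ 2) = q'.N * P * (L * P) := by ring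
            _ ≤ _ := g3
        calc q'.N / L' * ml (e / 2) q'.N ≤ (K2 ^ 2 * (q.N / L) / P ^ 2) * (K2 ^ k * P ^ 3) := by
              gcongr
          _ = K2 ^ (k + 2) * P * (q.N / L * 1) := by rw [pow_add]; field_simp
          _ ≤ _ := by
              have g9 : K2 ^ (k + 2) ≤ K2 ^ (k + 3) := pow_le_pow_right₀ hK21 (by omega)
              gcongr
      have g5 : L' ^ (-(1 / 3 : ℝ)) * q'.N ^ (-(1 / 3 : ℝ)) ≤
          K2 ^ 2 * (L ^ (-(1 / 3 : ℝ)) * q.N ^ (-(1 / 3 : ℝ))) := by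
        rw [← Real.mul_rpow hL'0.le hN'0.le, ← Real.mul_rpow hL0.le hN0.le]
        refine rpow_third (by positivity) (by positivity) (one_le_pow₀ hK21) ?_
        have g6 : (L * P) * q.N ≤ (K2 * L') * (K2 * (q'.N * P)) :=
          mul_le_mul hLP hsub.ge hN0.le (by positivity)
        refine le_of_mul_le_mul_right ?_ hP0
        calc L * q.N * P = (L * P) * q.N := by ring
          _ ≤ (K2 * L') * (K2 * (q'.N * P)) := g6
          _ = _ := by ring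
      have g7 : L' ^ (-(1 / 3 : ℝ)) * q'.N ^ (-(1 / 3 : ℝ)) * Qd.pl o q' ≤
          K2 ^ (k + 3) * P * (L ^ (-(1 / 3 : ℝ)) * q.N ^ (-(1 / 3 : ℝ)) * Qd.pl o q) := by
        calc L' ^ (-(1 / 3 : ℝ)) * q'.N ^ (-(1 / 3 : ℝ)) * Qd.pl o q'
            ≤ (K2 ^ 2 * (L ^ (-(1 / 3 : ℝ)) * q.N ^ (-(1 / 3 : ℝ)))) * (K2 * Qd.pl o q) :=
              mul_le_mul g5 hpl' hpl'0.le (by positivity)
          _ = K2 ^ 3 * 1 * (L ^ (-(1 / 3 : ℝ)) * q.N ^ (-(1 / 3 : ℝ)) * Qd.pl o q) := by ring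
          _ ≤ K2 ^ (k + 3) * P * (L ^ (-(1 / 3 : ℝ)) * q.N ^ (-(1 / 3 : ℝ)) * Qd.pl o q) := by
              have g9 : K2 ^ 3 ≤ K2 ^ (k + 3) := pow_le_pow_right₀ hK21 (by omega)
              gcongr
      have g8 : 1 ≤ K2 ^ (k + 3) * P * 1 := by
        rw [mul_one]
        exact one_le_mul_of_one_le_of_one_le (one_le_pow₀ hK21) hP1
      rw [hG]
      unfold GG
      linarith
    have hGp : 0 ≤ GG o L' (ml (e / 2) q'.N) q' := by
      linarith [GG_pos (o := o) hsub.ok hL'0 (by linarith : (0:ℝ) ≤ ml (e / 2) q'.N)]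
    calc τ o L' q' (t1 + s1) (t2 + s2) ≤ C1 * (L' * q'.sz) ^ ε1 *
          ((1 + |t1 + s1|) * (1 + |t2 + s2|)) ^ A * GG o L' (ml (e / 2) q'.N) q' := b
      _ ≤ C1 * (C2 ^ 5 * E ^ 25) * (T ^ A * ((1 + |s1|) * (1 + |s2|)) ^ A) *
          (K2 ^ (k + 3) * P * G) := by gcongr
      _ = _ := by ring

/-- the shape of the bound on the character side -/
def HH (o : Bool) (K : ℝ) (q : Qd) : ℝ := 1 + q.N / K + K ^ (-(2 / 3 : ℝ)) * Qd.pl o q

lemma HH_pos {o : Bool} {K : ℝ} {q : Qd} (hq : q.Ok) (hK : 0 < K) : 1 ≤ HH o K q := by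
  have h1 := hq.N_pos
  have h2 := hq.pl_pos o
  have h3 : 0 ≤ q.N / K := by positivity
  have h4 : 0 ≤ K ^ (-(2 / 3 : ℝ)) * Qd.pl o q := by positivity
  unfold HH
  linarith

def BdD (wd : Bool → ℝ → Qd → ℝ → ℝ → ℝ) (e : ℝ) : Prop :=
  ∀ ε : ℝ, 0 < ε → ∃ C A : ℝ, 1 ≤ C ∧ 0 ≤ A ∧ ∀ (o : Bool) (K : ℝ) (q : Qd) (t1 t2 : ℝ),
    1 ≤ K → q.Ok → wd o K q t1 t2 ≤ C * (K * q.sz) ^ ε * ((1 + |t1|) * (1 + |t2|)) ^ A *
      (ml (e / 3) q.N * HH o K q)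

lemma bdD (R : Rules c v w wd τ) {e : ℝ} (he : 0 ≤ e) (h : TB2 τ e) : BdD wd e := by
  intro ε hε
  obtain ⟨k, hk⟩ := exists_nat_ge e
  obtain ⟨ε1, h1, h1', h1a⟩ := exists_eps hε (29 + k)
  obtain ⟨C1, A, hC1, hA, hb⟩ := h ε1 h1
  obtain ⟨C2, J, hC2, hJ, hp⟩ := R.poisC ε1 A h1 hA
  refine ⟨C2 * (2 * (C1 * C2 ^ (8 + k))), A + J, ?_, by positivity, ?_⟩
  · refine one_le_mul_of_one_le_of_one_le hC2 ?_
    have : 1 ≤ C1 * C2 ^ (8 + k) := one_le_mul_of_one_le_of_one_le hC1 (one_le_pow₀ hC2)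
    linarith
  intro o K q t1 t2 hK hq
  have hK0 : 0 < K := by linarith
  have hsz := hq.one_le_sz
  have hsz0 : 0 < q.sz := by linarith
  have hN0 := hq.N_pos
  have hpl := hq.pl_pos o
  set T := (1 + |t1|) * (1 + |t2|) with hT
  have hT1 : 1 ≤ T := one_le_mul_of_one_le_of_one_le
    (by linarith [abs_nonneg t1]) (by linarith [abs_nonneg t2])
  have hTA : 1 ≤ T ^ A := Real.one_le_rpow hT1 hA
  have hX : 1 ≤ K * q.sz := one_le_mul_of_one_le_of_one_le hK hsz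
  set X := K * q.sz with hXdef
  have hXp : 0 < X := by linarith
  have hszX : q.sz ≤ X := by rw [hXdef]; nlinarith
  set E := X ^ ε1 with hE
  have hE1 : 1 ≤ E := Real.one_le_rpow hX h1.le
  have hEX : E ≤ X := by
    calc E ≤ X ^ (1 : ℝ) := Real.rpow_le_rpow_of_exponent_le hX h1'
      _ = X := Real.rpow_one X
  set K2 := C2 * E with hK2
  have hK21 : 1 ≤ K2 := one_le_mul_of_one_le_of_one_le hC2 hE1
  have hm : 1 ≤ ml (e / 3) q.N := one_le_ml (by positivity)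
  set m := ml (e / 3) q.N with hmdef
  set Z := C1 * (C2 ^ 5 * E ^ 25) * T ^ A * K2 ^ (k + 3) with hZ
  have hZ1 : 1 ≤ Z := one_le_mul_of_one_le_of_one_le (one_le_mul_of_one_le_of_one_le
    (one_le_mul_of_one_le_of_one_le hC1 (one_le_mul_of_one_le_of_one_le (one_le_pow₀ hC2)
      (one_le_pow₀ hE1))) hTA) (one_le_pow₀ hK21)
  have key := hp o K q t1 t2
    (Z * m * (1 + K / q.N + K ^ (1 / 3 : ℝ) / q.N * Qd.pl o q)) hK hq (by positivity) ?_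
  · have e1 : q.N / K * (Z * m * (1 + K / q.N + K ^ (1 / 3 : ℝ) / q.N * Qd.pl o q)) =
        Z * m * HH o K q := by
      have e2 : K ^ (-(2 / 3 : ℝ)) = K ^ (1 / 3 : ℝ) / K := by
        rw [show (-(2 / 3 : ℝ)) = 1 / 3 - 1 by norm_num, Real.rpow_sub hK0, Real.rpow_one]
      unfold HH
      rw [e2]
      field_simp
      ring
    have hH := HH_pos (o := o) hq hK0
    have old : C2 * E *
          (1 + q.N / K * (Z * m * (1 + K / q.N + K ^ (1 / 3 : ℝ) / q.N * Qd.pl o q))) ≤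
          C2 * (2 * (C1 * C2 ^ (8 + k))) * X ^ ε * T ^ A * (m * HH o K q) := by
      calc _ = C2 * E * (1 + Z * m * HH o K q) := by rw [e1]
        _ ≤ C2 * E * (Z * m * HH o K q + Z * m * HH o K q) := by
            have : 1 ≤ Z * m * HH o K q :=
              one_le_mul_of_one_le_of_one_le (one_le_mul_of_one_le_of_one_le hZ1 hm) hH
            gcongr
        _ = C2 * (2 * (C1 * C2 ^ (8 + k))) * E ^ (29 + k) * T ^ A * (m * HH o K q) := by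
            rw [hZ, hK2, mul_pow C2 E, show 8 + k = 5 + (k + 3) by ring,
              show 29 + k = 1 + (25 + (k + 3)) by ring, pow_add C2 5, pow_add E 1, pow_add E 25,
              pow_one]
            ring
        _ ≤ _ := by
            have hE2 : E ^ (29 + k) ≤ X ^ ε := pow_eps hX (by exact_mod_cast h1a)
            gcongr
    have hTJ : 0 ≤ T ^ J := by positivity
    calc wd o K q t1 t2 ≤ _ := key
      _ = T ^ J * (C2 * E *
          (1 + q.N / K * (Z * m * (1 + K / q.N + K ^ (1 / 3 : ℝ) / q.N * Qd.pl o q)))) := by ring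
      _ ≤ T ^ J * (C2 * (2 * (C1 * C2 ^ (8 + k))) * X ^ ε * T ^ A * (m * HH o K q)) :=
          mul_le_mul_of_nonneg_left old hTJ
      _ = _ := by rw [Real.rpow_add (by linarith : 0 < T)]; ring
  · intro D E' F L q' s1 s2 hE' hED hF hsub hL hLX hlow
    have hL0 : 0 < L := by linarith
    have hD : 1 ≤ D := hE'.trans hED
    have hD0 : 0 < D := by linarith
    have hF0 : 0 < F := by linarith
    have hE0 : 0 < E' := by linarith
    have hDF : 1 ≤ D * F := one_le_mul_of_one_le_of_one_le hD hF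
    have hN'0 := hsub.ok.N_pos
    have hpl' := hsub.pl_le hDF (by linarith) o
    have hpl'0 := hsub.ok.pl_pos o
    have b := hb o L q' (t1 + s1) (t2 + s2) hL hsub.ok
    have hT' := Two320.pow_two_abs t1 t2 s1 s2 A hA
    have hsize : L * q'.sz ≤ C2 ^ 5 * X ^ 25 := by
      calc L * q'.sz ≤ (C2 * X ^ 20) * (K2 ^ 4 * q.sz) := by
            have := hsub.sz_le hq hK21
            have hs' := hsub.ok.one_le_sz
            gcongr
        _ ≤ (C2 * X ^ 20) * ((C2 * X) ^ 4 * X) := by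
            rw [hK2]; gcongr
        _ = _ := by ring
    have hs2 : (L * q'.sz) ^ ε1 ≤ C2 ^ 5 * E ^ 25 :=
      rpow_bd (by have := hsub.ok.one_le_sz; positivity) (one_le_pow₀ hC2) hX h1.le h1' hsize
    have g0 : ml (e / 3) q'.N ≤ K2 ^ k * m :=
      (ml_mono (by positivity) (hsub.N_le hDF)).trans
        (ml_mul_le (by positivity) (by linarith) hK21)
    have g1 : E' / D * (q'.N / L) ≤ K2 ^ 2 * (K / q.N) := by
      rw [div_mul_div_comm, ← mul_div_assoc, div_le_div_iff₀ (by positivity) hN0]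
      have h10 : (q'.N * (D * F)) * (F * E' ^ 3 * q.N ^ 2) ≤ (K2 * q.N) * (K2 * (D ^ 2 * K * L)) :=
        mul_le_mul hsub.le hlow (by positivity) (by positivity)
      have h11 : E' ≤ F * F * E' ^ 3 := by
        have h12 : 1 ≤ F * F * E' ^ 2 := one_le_mul_of_one_le_of_one_le
          (one_le_mul_of_one_le_of_one_le hF hF) (one_le_pow₀ hE')
        calc E' = E' * 1 := by ring
          _ ≤ E' * (F * F * E' ^ 2) := by gcongr
          _ = _ := by ring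
      have h13 : (E' * q'.N * q.N) * (q.N * D) ≤ (K2 ^ 2 * K * (D * L)) * (q.N * D) := by
        calc (E' * q'.N * q.N) * (q.N * D) ≤ ((F * F * E' ^ 3) * q'.N * q.N) * (q.N * D) := by
              gcongr
          _ = (q'.N * (D * F)) * (F * E' ^ 3 * q.N ^ 2) := by ring
          _ ≤ (K2 * q.N) * (K2 * (D ^ 2 * K * L)) := h10
          _ = _ := by ring
      exact le_of_mul_le_mul_right h13 (by positivity)
    have g5 : E' / D * (L ^ (-(1 / 3 : ℝ)) * q'.N ^ (-(1 / 3 : ℝ))) ≤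
        K2 ^ 2 * (K ^ (1 / 3 : ℝ) / q.N) := by
      rw [← Real.mul_rpow hL0.le hN'0.le]
      have h20 : (E' * q.N / D) ^ 3 / K ≤ K2 ^ 2 * (L * q'.N) := by
        rw [div_le_iff₀ hK0, div_pow, div_le_iff₀ (by positivity)]
        have h21 : (F * E' ^ 3 * q.N ^ 2) * q.N ≤ (K2 * (D ^ 2 * K * L)) * (K2 * (q'.N * (D * F))) :=
          mul_le_mul hlow hsub.ge hN0.le (by positivity)
        refine le_of_mul_le_mul_right ?_ hF0
        calc (E' * q.N) ^ 3 * F = (F * E' ^ 3 * q.N ^ 2) * q.N := by ring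
          _ ≤ _ := h21
          _ = _ := by ring
      have h22 := rpow_third (by positivity : 0 < (E' * q.N / D) ^ 3 / K)
        (by positivity : 0 < L * q'.N) (one_le_pow₀ hK21) h20
      have h23 : ((E' * q.N / D) ^ 3 / K) ^ (-(1 / 3 : ℝ)) = D / (E' * q.N) * K ^ (1 / 3 : ℝ) := by
        have h24 : 0 ≤ E' * q.N / D := by positivity
        rw [Real.div_rpow (by positivity) hK0.le, ← Real.rpow_natCast, ← Real.rpow_mul h24,
          Real.rpow_neg hK0.le, div_inv_eq_mul]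
        congr 1
        rw [show ((3 : ℕ) : ℝ) * (-(1 / 3 : ℝ)) = -1 by norm_num, Real.rpow_neg_one, inv_div]
      rw [h23] at h22
      calc E' / D * (L * q'.N) ^ (-(1 / 3 : ℝ))
          ≤ E' / D * (K2 ^ 2 * (D / (E' * q.N) * K ^ (1 / 3 : ℝ))) := by gcongr
        _ = _ := by field_simp
    have hED' : E' / D ≤ 1 := (div_le_one hD0).mpr hED
    have g9 : E' / D * GG o L 1 q' ≤ K2 ^ 3 *
        (1 + K / q.N + K ^ (1 / 3 : ℝ) / q.N * Qd.pl o q) := by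
      have h30 : E' / D * (L ^ (-(1 / 3 : ℝ)) * q'.N ^ (-(1 / 3 : ℝ)) * Qd.pl o q') ≤
          K2 ^ 3 * (K ^ (1 / 3 : ℝ) / q.N * Qd.pl o q) := by
        calc E' / D * (L ^ (-(1 / 3 : ℝ)) * q'.N ^ (-(1 / 3 : ℝ)) * Qd.pl o q')
            = (E' / D * (L ^ (-(1 / 3 : ℝ)) * q'.N ^ (-(1 / 3 : ℝ)))) * Qd.pl o q' := by ring
          _ ≤ (K2 ^ 2 * (K ^ (1 / 3 : ℝ) / q.N)) * (K2 * Qd.pl o q) :=
              mul_le_mul g5 hpl' hpl'0.le (by positivity)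
          _ = _ := by ring
      have h31 : K2 ^ 2 * (K / q.N) ≤ K2 ^ 3 * (K / q.N) := by
        have : K2 ^ 2 ≤ K2 ^ 3 := pow_le_pow_right₀ hK21 (by norm_num)
        gcongr
      have h32 : (1 : ℝ) ≤ K2 ^ 3 := one_le_pow₀ hK21
      unfold GG
      have h33 : E' / D * (1 + q'.N / L * 1 +
          L ^ (-(1 / 3 : ℝ)) * q'.N ^ (-(1 / 3 : ℝ)) * Qd.pl o q') =
          E' / D + E' / D * (q'.N / L) +
            E' / D * (L ^ (-(1 / 3 : ℝ)) * q'.N ^ (-(1 / 3 : ℝ)) * Qd.pl o q') := by ring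
      rw [h33]
      linarith
    have hG0 : 0 ≤ GG o L 1 q' := by linarith [GG_pos (o := o) hsub.ok hL0 zero_le_one]
    have hm' : 0 ≤ ml (e / 3) q'.N := by
      linarith [one_le_ml (x := q'.N) (by positivity : (0:ℝ) ≤ e / 3)]
    calc E' / D * τ o L q' (t1 + s1) (t2 + s2)
        ≤ E' / D * (C1 * (L * q'.sz) ^ ε1 * ((1 + |t1 + s1|) * (1 + |t2 + s2|)) ^ A *
          (ml (e / 3) q'.N * GG o L 1 q')) := by gcongr
      _ = C1 * (L * q'.sz) ^ ε1 * ((1 + |t1 + s1|) * (1 + |t2 + s2|)) ^ A *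
          (ml (e / 3) q'.N * (E' / D * GG o L 1 q')) := by ring
      _ ≤ C1 * (C2 ^ 5 * E ^ 25) * (T ^ A * ((1 + |s1|) * (1 + |s2|)) ^ A) *
          ((K2 ^ k * m) * (K2 ^ 3 * (1 + K / q.N + K ^ (1 / 3 : ℝ) / q.N * Qd.pl o q))) := by
          gcongr
      _ = _ := by rw [hZ, pow_add]; ring

/-- single shape of length `≤ R K^{2/3}` -/
lemma bdS (R : Rules c v w wd τ) {e : ℝ} (he : 0 ≤ e) (h : BdD wd e) :
    ∀ ε : ℝ, 0 < ε → ∃ C A : ℝ, 1 ≤ C ∧ 0 ≤ A ∧ ∀ K A' B' t1 t2 : ℝ,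
      1 ≤ K → c ≤ A' → c ≤ B' → w K A' B' t1 t2 ≤ C * (K * ((1 + A') * (1 + B'))) ^ ε *
        ((1 + |t1|) * (1 + |t2|)) ^ A * (ml (e / 3) (A' * B') *
          (1 + A' * B' / K + K ^ (-(2 / 3 : ℝ)) * (A' * B'))) := by
  intro ε hε
  obtain ⟨C1, A, hC1, hA, hb⟩ := h (ε / 2) (by positivity)
  obtain ⟨C2, hC2, hs⟩ := R.splS
  refine ⟨C2 * C1, A, one_le_mul_of_one_le_of_one_le hC2 hC1, hA, ?_⟩
  intro K A' B' t1 t2 hK hA' hB'
  have hc := R.c_pos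
  have hA0 : 0 < A' := by linarith
  have hB0 : 0 < B' := by linarith
  have hK0 : 0 < K := by linarith
  have hq := Qd.sg_ok hA0 hB0
  set Y := (1 + A') * (1 + B') with hY
  have hY1 : 1 ≤ Y := one_le_mul_of_one_le_of_one_le (by linarith) (by linarith)
  have hszq : (Qd.sg A' B').sz = Y ^ 2 := by
    unfold Qd.sg Qd.sz; rw [hY]; ring
  have hX : 1 ≤ K * Y := one_le_mul_of_one_le_of_one_le hK hY1
  have h3 : (K * (Qd.sg A' B').sz) ^ (ε / 2) ≤ (K * Y) ^ ε := by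
    rw [hszq]
    calc (K * Y ^ 2) ^ (ε / 2) ≤ ((K * Y) ^ (2 : ℝ)) ^ (ε / 2) := by
          refine Real.rpow_le_rpow (by positivity) ?_ (by positivity)
          rw [Real.rpow_two]
          nlinarith [mul_nonneg (by linarith : (0:ℝ) ≤ K - 1) (by positivity : 0 ≤ K * Y ^ 2)]
      _ = (K * Y) ^ ε := by rw [← Real.rpow_mul (by positivity)]; congr 1; ring
  have h4 : HH false K (Qd.sg A' B') = 1 + A' * B' / K + K ^ (-(2 / 3 : ℝ)) * (A' * B') := by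
    unfold HH Qd.sg Qd.pl Qd.N
    simp
  have h5 : (Qd.sg A' B').N = A' * B' := rfl
  have b := hb false K (Qd.sg A' B') t1 t2 hK hq
  rw [h4, h5] at b
  have hml : 0 ≤ ml (e / 3) (A' * B') := by
    linarith [one_le_ml (x := A' * B') (by positivity : (0:ℝ) ≤ e / 3)]
  calc w K A' B' t1 t2 ≤ C2 * wd false K (Qd.sg A' B') t1 t2 := hs K A' B' t1 t2 hK hA' hB'
    _ ≤ C2 * (C1 * (K * (Qd.sg A' B').sz) ^ (ε / 2) * ((1 + |t1|) * (1 + |t2|)) ^ A *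
          (ml (e / 3) (A' * B') *
            (1 + A' * B' / K + K ^ (-(2 / 3 : ℝ)) * (A' * B')))) := by gcongr
    _ ≤ C2 * (C1 * (K * Y) ^ ε * ((1 + |t1|) * (1 + |t2|)) ^ A *
          (ml (e / 3) (A' * B') *
            (1 + A' * B' / K + K ^ (-(2 / 3 : ℝ)) * (A' * B')))) := by gcongr
    _ = _ := by ring

def BdC (c : ℝ) (v : ℝ → ℝ → ℝ → ℝ) (e : ℝ) : Prop := ∀ ε : ℝ, 0 < ε → ∃ C A : ℝ,
  1 ≤ C ∧ 0 ≤ A ∧ ∀ K Y t : ℝ, 1 ≤ K → c ≤ Y →
    v K Y t ≤ C * (K * (1 + Y)) ^ ε * (1 + |t|) ^ A * ((1 + Y ^ 2 / K) * ml (2 * e / 3) Y)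

lemma ml_sq {e Y : ℝ} (hY : 0 ≤ Y) : ml (e / 3) (Y * Y) = ml (2 * e / 3) Y := by
  have h : max 1 (Y * Y) = (max 1 Y) * (max 1 Y) := by
    rcases le_total Y 1 with h | h
    · rw [max_eq_left h, max_eq_left (by nlinarith), one_mul]
    · rw [max_eq_right h, max_eq_right (by nlinarith)]
  unfold ml
  rw [h, Real.mul_rpow (by positivity) (by positivity), ← Real.rpow_add (by positivity)]
  congr 1
  ring

lemma pow_abs_le {t A B : ℝ} (h : A ≤ B) : (1 + |t|) ^ A ≤ (1 + |t|) ^ B :=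
  Real.rpow_le_rpow_of_exponent_le (by linarith [abs_nonneg t]) h

lemma two_pow {t A : ℝ} : ((1 + |t|) * (1 + |t|)) ^ A = (1 + |t|) ^ (2 * A) := by
  rw [Real.mul_rpow (by positivity) (by positivity), ← Real.rpow_add (by positivity)]
  congr 1
  ring

/-- fourth moments, from the single shape -/
lemma bdV (R : Rules c v w wd τ) {e : ℝ} (he : 0 ≤ e) (h : BdD wd e) :
    ∀ ε : ℝ, 0 < ε → ∃ C A : ℝ, 1 ≤ C ∧ 0 ≤ A ∧ ∀ K Y t : ℝ, 1 ≤ K → c ≤ Y →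
      v K Y t ≤ C * (K * (1 + Y)) ^ ε * (1 + |t|) ^ A * (ml (2 * e / 3) Y *
        (1 + Y ^ 2 / K + K ^ (-(2 / 3 : ℝ)) * Y ^ 2)) := by
  intro ε hε
  obtain ⟨ε1, h1, h1', h1a⟩ := exists_eps hε 2
  obtain ⟨Cv, hCv, hvw⟩ := R.vw
  obtain ⟨C2, A2, hC2, hA2, hs⟩ := bdS R he h ε1 h1
  have hc := R.c_pos
  refine ⟨Cv * C2, 2 * A2, one_le_mul_of_one_le_of_one_le hCv hC2, by positivity, ?_⟩
  intro K Y t hK hY
  have hY0 : 0 < Y := by linarith
  have hK0 : 0 < K := by linarith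
  set X := K * (1 + Y) with hXdef
  have hX : 1 ≤ X := one_le_mul_of_one_le_of_one_le hK (by linarith)
  have hYX : 1 + Y ≤ X := by rw [hXdef]; nlinarith
  have hEε : (X ^ ε1) ^ 2 ≤ X ^ ε := pow_eps hX h1a
  have hm1 : 1 ≤ ml (2 * e / 3) Y := one_le_ml (by positivity)
  have b := hs K Y Y t t hK hY hY
  rw [ml_sq hY0.le, two_pow] at b
  have e1 : (K * ((1 + Y) * (1 + Y))) ^ ε1 ≤ 1 * (X ^ ε1) ^ 2 := by
    refine rpow_bd (by positivity) le_rfl hX h1.le h1' ?_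
    calc K * ((1 + Y) * (1 + Y)) = X * (1 + Y) := by rw [hXdef]; ring
      _ ≤ X * X := by gcongr
      _ = 1 * X ^ 2 := by ring
  have e5 : (K * ((1 + Y) * (1 + Y))) ^ ε1 ≤ X ^ ε := by linarith
  have hs2 : 1 + Y * Y / K + K ^ (-(2 / 3 : ℝ)) * (Y * Y) =
      1 + Y ^ 2 / K + K ^ (-(2 / 3 : ℝ)) * Y ^ 2 := by rw [sq]
  rw [hs2] at b
  calc v K Y t ≤ Cv * w K Y Y t t := hvw K Y t hK hY
    _ ≤ Cv * (C2 * (K * ((1 + Y) * (1 + Y))) ^ ε1 * (1 + |t|) ^ (2 * A2) *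
          (ml (2 * e / 3) Y * (1 + Y ^ 2 / K + K ^ (-(2 / 3 : ℝ)) * Y ^ 2))) := by gcongr
    _ ≤ Cv * (C2 * X ^ ε * (1 + |t|) ^ (2 * A2) *
          (ml (2 * e / 3) Y * (1 + Y ^ 2 / K + K ^ (-(2 / 3 : ℝ)) * Y ^ 2))) := by gcongr
    _ = _ := by ring

lemma rpow_pow_three {K a b : ℝ} (hK : 0 ≤ K) (h : 3 * a = b) : (K ^ a) ^ 3 = K ^ b := by
  rw [← Real.rpow_natCast, ← Real.rpow_mul hK]
  congr 1
  rw [← h]; push_cast; ring

/-- length `K^{2/3}`, by the functional equation -/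
lemma bdZ (R : Rules c v w wd τ) {e : ℝ} (he : 0 ≤ e) (h : BdD wd e) :
    ∀ ε : ℝ, 0 < ε → ∃ C A : ℝ, 1 ≤ C ∧ 0 ≤ A ∧ ∀ K t : ℝ, 1 ≤ K →
      v K (K ^ (2 / 3 : ℝ)) t ≤ C * K ^ ε * (1 + |t|) ^ A * ml (2 * e / 3) (K ^ (1 / 3 : ℝ)) := by
  intro ε hε
  obtain ⟨k, hk⟩ := exists_nat_ge (2 * e / 3)
  obtain ⟨ε1, h1, h1', h1a⟩ := exists_eps hε (12 + 2 * k)
  obtain ⟨C2, A2, hC2, hA2, hs⟩ := bdV R he h ε1 h1
  obtain ⟨C3, J, hC3, hJ, hf⟩ := R.flip ε1 A2 h1 hA2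
  have hc := R.c_pos
  have hc1 := R.c_le
  refine ⟨48 * C2 * C3 ^ 2 * (2 * C3) ^ (k + 3), J, ?_, hJ, ?_⟩
  · exact one_le_mul_of_one_le_of_one_le (one_le_mul_of_one_le_of_one_le (by linarith)
      (one_le_pow₀ hC3)) (one_le_pow₀ (by linarith))
  intro K t hK
  have hK0 : 0 < K := by linarith
  set y := K ^ (2 / 3 : ℝ) with hy
  set z := K ^ (1 / 3 : ℝ) with hz
  have hy3 : y ^ 3 = K ^ 2 := by
    rw [hy, rpow_pow_three hK0.le (b := 2) (by norm_num), Real.rpow_two]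
  have hz3 : z ^ 3 = K := by
    rw [hz, rpow_pow_three hK0.le (b := 1) (by norm_num), Real.rpow_one]
  have hy1 : 1 ≤ y := Real.one_le_rpow hK (by norm_num)
  have hz1 : 1 ≤ z := Real.one_le_rpow hK (by norm_num)
  have hyK : y ≤ K := by
    calc y ≤ K ^ (1 : ℝ) := Real.rpow_le_rpow_of_exponent_le hK (by norm_num)
      _ = K := Real.rpow_one K
  have hzK : z ≤ K := by
    calc z ≤ K ^ (1 : ℝ) := Real.rpow_le_rpow_of_exponent_le hK (by norm_num)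
      _ = K := Real.rpow_one K
  have hKy : K ≤ y ^ 2 := by
    rw [hy, ← Real.rpow_natCast, ← Real.rpow_mul hK0.le]
    calc K = K ^ (1 : ℝ) := (Real.rpow_one K).symm
      _ ≤ _ := Real.rpow_le_rpow_of_exponent_le hK (by norm_num)
  set E := K ^ ε1 with hE
  have hE1 : 1 ≤ E := Real.one_le_rpow hK h1.le
  have hEK : E ≤ K := by
    calc E ≤ K ^ (1 : ℝ) := Real.rpow_le_rpow_of_exponent_le hK h1'
      _ = K := Real.rpow_one K
  have hEε : E ^ (12 + 2 * k) ≤ K ^ ε := pow_eps hK (by exact_mod_cast h1a)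
  have hX : (K * (1 + y)) ^ ε1 ≤ 2 * E ^ 2 := by
    refine rpow_bd (by positivity) (by norm_num) hK h1.le h1' ?_
    calc K * (1 + y) ≤ K * (K + K) := by gcongr
      _ = 2 * K ^ 2 := by ring
  set ρ := 2 * C3 * E ^ 2 with hρ
  have hρ1 : 1 ≤ ρ := one_le_mul_of_one_le_of_one_le (by linarith) (one_le_pow₀ hE1)
  have hρ0 : 0 < ρ := by linarith
  have hρX : C3 * (K * (1 + y)) ^ ε1 ≤ ρ := by
    calc C3 * (K * (1 + y)) ^ ε1 ≤ C3 * (2 * E ^ 2) := by gcongr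
      _ = ρ := by rw [hρ]; ring
  set m := ml (2 * e / 3) z with hm
  have hm1 : 1 ≤ m := one_le_ml (by positivity)
  set B := 24 * C2 * C3 ^ 2 * E ^ 6 * ρ ^ (k + 2) * m with hB
  have hB1 : 1 ≤ B := by
    rw [hB]
    refine one_le_mul_of_one_le_of_one_le (one_le_mul_of_one_le_of_one_le
      (one_le_mul_of_one_le_of_one_le (one_le_mul_of_one_le_of_one_le (by linarith)
      (one_le_pow₀ hC3)) (one_le_pow₀ hE1)) (one_le_pow₀ hρ1)) hm1
  have key := hf K y t B hK (by linarith) (by linarith) hKy ?_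
  · calc v K y t ≤ C3 * (K * (1 + y)) ^ ε1 * (1 + |t|) ^ J * (1 + B) := key
      _ ≤ ρ * (1 + |t|) ^ J * (B + B) := by gcongr
      _ = 48 * C2 * C3 ^ 2 * (2 * C3) ^ (k + 3) * E ^ (12 + 2 * k) * (1 + |t|) ^ J * m := by
          have h7 : ρ * ρ ^ (k + 2) = (2 * C3) ^ (k + 3) * E ^ (6 + 2 * k) := by
            rw [← pow_succ', hρ, mul_pow, ← pow_mul]
            congr 2
            ring
          rw [hB, show 12 + 2 * k = 6 + (6 + 2 * k) by ring, pow_add E 6]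
          calc _ = 48 * C2 * C3 ^ 2 * E ^ 6 * (1 + |t|) ^ J * m * (ρ * ρ ^ (k + 2)) := by ring
            _ = _ := by rw [h7]; ring
      _ ≤ _ := by gcongr
  · intro K1 Z s hK1 hK1K hcZ hZY hZK
    have hK10 : 0 < K1 := by linarith
    have hZ0 : 0 < Z := by linarith
    have r1 : K1 ≤ ρ * K := hK1K.trans (by gcongr)
    have r2 : (Z * y) ^ 3 ≤ ρ * (K1 ^ 2 * K) := hZK.trans (by gcongr)
    have r3 : Z ^ 3 ≤ ρ ^ 2 * K1 := by
      rw [mul_pow, hy3] at r2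
      have h5 : Z ^ 3 * K * K ≤ ρ * K1 ^ 2 * K := by nlinarith
      have h6 : Z ^ 3 * K ≤ ρ * K1 ^ 2 := le_of_mul_le_mul_right h5 hK0
      refine le_of_mul_le_mul_right ?_ hK10
      calc Z ^ 3 * K1 ≤ Z ^ 3 * (ρ * K) := by gcongr
        _ = ρ * (Z ^ 3 * K) := by ring
        _ ≤ ρ * (ρ * K1 ^ 2) := by gcongr
        _ = _ := by ring
    have r4 : Z ≤ ρ * z := by
      have h5 : Z ^ 3 ≤ (ρ * z) ^ 3 := by
        rw [mul_pow, hz3]
        calc Z ^ 3 ≤ ρ ^ 2 * K1 := r3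
          _ ≤ ρ ^ 2 * (ρ * K) := by gcongr
          _ = _ := by ring
      exact le_of_pow_le_pow_left₀ (by norm_num) (by positivity) h5
    have r5 : K1 ^ (-(2 / 3 : ℝ)) * Z ^ 2 ≤ ρ ^ 2 := by
      have h5 : (K1 ^ (-(2 / 3 : ℝ)) * Z ^ 2) ^ 3 ≤ (ρ ^ 2) ^ 3 := by
        rw [mul_pow, rpow_pow_three hK10.le (b := -2) (by norm_num)]
        have h6 : K1 ^ (-2 : ℝ) * K1 ^ 2 = 1 := by
          rw [← Real.rpow_two, ← Real.rpow_add hK10]; norm_num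
        calc K1 ^ (-2 : ℝ) * (Z ^ 2) ^ 3 = K1 ^ (-2 : ℝ) * (Z ^ 3) ^ 2 := by ring
          _ ≤ K1 ^ (-2 : ℝ) * (ρ ^ 2 * K1) ^ 2 := by gcongr
          _ = ρ ^ 4 * (K1 ^ (-2 : ℝ) * K1 ^ 2) := by ring
          _ = ρ ^ 4 := by rw [h6, mul_one]
          _ ≤ ρ ^ 6 := pow_le_pow_right₀ hρ1 (by norm_num)
          _ = _ := by ring
      exact le_of_pow_le_pow_left₀ (by norm_num) (by positivity) h5
    have r6 : Z ^ 2 / K1 ≤ ρ ^ 2 := by
      refine le_trans ?_ r5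
      rw [div_eq_mul_inv, mul_comm]
      refine mul_le_mul_of_nonneg_right ?_ (by positivity)
      rw [← Real.rpow_neg_one]
      exact Real.rpow_le_rpow_of_exponent_le hK1 (by norm_num)
    have r7 : 1 + Z ^ 2 / K1 + K1 ^ (-(2 / 3 : ℝ)) * Z ^ 2 ≤ 3 * ρ ^ 2 := by
      have : 1 ≤ ρ ^ 2 := one_le_pow₀ hρ1
      linarith
    have r8 : ml (2 * e / 3) Z ≤ ρ ^ k * m :=
      (ml_mono (by positivity) r4).trans (ml_mul_le (by positivity) hk hρ1)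
    have r9 : (K1 * (1 + Z)) ^ ε1 ≤ 8 * C3 ^ 2 * E ^ 6 := by
      refine rpow_bd (by positivity) (one_le_mul_of_one_le_of_one_le (by norm_num)
        (one_le_pow₀ hC3)) hK h1.le h1' ?_
      have h5 : ρ ≤ 2 * C3 * K ^ 2 := by rw [hρ]; gcongr
      calc K1 * (1 + Z) ≤ (ρ * K) * (2 * (ρ * K)) := by
            have h6 : 1 + Z ≤ 2 * (ρ * K) := by
              have h8 : 1 ≤ ρ * K := one_le_mul_of_one_le_of_one_le hρ1 hK
              have h9 : ρ * z ≤ ρ * K := by gcongr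
              linarith
            gcongr
        _ = 2 * ρ ^ 2 * K ^ 2 := by ring
        _ ≤ 2 * (2 * C3 * K ^ 2) ^ 2 * K ^ 2 := by gcongr
        _ = _ := by ring
    have r10 : 0 ≤ ml (2 * e / 3) Z := by
      linarith [one_le_ml (x := Z) (by positivity : (0:ℝ) ≤ 2 * e / 3)]
    calc v K1 Z s ≤ C2 * (K1 * (1 + Z)) ^ ε1 * (1 + |s|) ^ A2 * (ml (2 * e / 3) Z *
          (1 + Z ^ 2 / K1 + K1 ^ (-(2 / 3 : ℝ)) * Z ^ 2)) := hs K1 Z s hK1 hcZ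
      _ ≤ C2 * (8 * C3 ^ 2 * E ^ 6) * (1 + |s|) ^ A2 * ((ρ ^ k * m) * (3 * ρ ^ 2)) := by gcongr
      _ = B * (1 + |s|) ^ A2 := by rw [hB, pow_add ρ]; ring

set_option maxHeartbeats 2000000 in
lemma bdC (R : Rules c v w wd τ) {e : ℝ} (he : 0 ≤ e) (h : BdD wd e) : BdC c v e := by
  intro ε hε
  obtain ⟨ε1, h1, h1', h1a⟩ := exists_eps hε 4
  obtain ⟨Cv, hCv, hvw⟩ := R.vw
  obtain ⟨Cs, hCs, hsp⟩ := R.splD
  obtain ⟨Cc, hCc, hcau⟩ := R.cau
  obtain ⟨C1, A1, hC1, hA1, hb⟩ := h ε1 h1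
  obtain ⟨C2, A2, hC2, hA2, hs⟩ := bdV R he h ε1 h1
  obtain ⟨C4, A4, hC4, hA4, hz⟩ := bdZ R he h ε1 h1
  have hc := R.c_pos
  have hc1 := R.c_le
  refine ⟨2 * C2 + Cv * (Cs * (8 * C1 + Cc * (2 * C2 * C4))), 2 * A1 + A2 + A4, ?_,
    by positivity, ?_⟩
  · have h2 : 0 ≤ Cv * (Cs * (8 * C1 + Cc * (2 * C2 * C4))) := by positivity
    linarith
  intro K Y t hK hY
  have hY0 : 0 < Y := by linarith
  have hK0 : 0 < K := by linarith
  set X := K * (1 + Y) with hXdef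
  have hX : 1 ≤ X := one_le_mul_of_one_le_of_one_le hK (by linarith)
  have hXp : 0 < X := by linarith
  have hKX : K ≤ X := by rw [hXdef]; nlinarith
  have hYX : 1 + Y ≤ X := by rw [hXdef]; nlinarith
  set E := X ^ ε1 with hE
  have hE1 : 1 ≤ E := Real.one_le_rpow hX h1.le
  have hEε : E ^ 4 ≤ X ^ ε := pow_eps hX h1a
  set u := Y ^ 2 / K with hu
  have hu0 : 0 ≤ u := by positivity
  set m := ml (2 * e / 3) Y with hm
  have hm1 : 1 ≤ m := one_le_ml (by positivity)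
  have hmY : ml (e / 3) (Y * Y) = m := ml_sq hY0.le
  set Af := 2 * A1 + A2 + A4 with hAf
  have hT0 : 1 ≤ 1 + |t| := by linarith [abs_nonneg t]
  have ht1 : 1 ≤ (1 + |t|) ^ Af := Real.one_le_rpow hT0 (by positivity)
  have hK23 : 0 < K ^ (2 / 3 : ℝ) := by positivity
  have hKinv : K ^ (-(2 / 3 : ℝ)) * K ^ (2 / 3 : ℝ) = 1 := by
    rw [← Real.rpow_add hK0]; norm_num
  have hKi0 : 0 < K ^ (-(2 / 3 : ℝ)) := by positivity
  have hEp : ∀ n : ℕ, n ≤ 4 → E ^ n ≤ X ^ ε := fun n hn =>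
    (pow_le_pow_right₀ hE1 hn).trans hEε
  set D0 := Cv * (Cs * (8 * C1 + Cc * (2 * C2 * C4))) with hD0
  have hD00 : 0 ≤ D0 := by rw [hD0]; positivity
  rcases le_total (Y ^ 2) (K ^ (2 / 3 : ℝ)) with hcase | hcase
  · -- short sums
    have e2 : 1 + Y ^ 2 / K + K ^ (-(2 / 3 : ℝ)) * Y ^ 2 ≤ 2 * (1 + u) := by
      have : K ^ (-(2 / 3 : ℝ)) * Y ^ 2 ≤ 1 := by
        calc K ^ (-(2 / 3 : ℝ)) * Y ^ 2 ≤ K ^ (-(2 / 3 : ℝ)) * K ^ (2 / 3 : ℝ) := by gcongr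
          _ = 1 := hKinv
      rw [← hu]; linarith
    have e4 : (1 + |t|) ^ A2 ≤ (1 + |t|) ^ Af := pow_abs_le (by rw [hAf]; linarith)
    have e5 : E ≤ X ^ ε := by simpa using hEp 1 (by norm_num)
    have e6 : 0 ≤ 1 + Y ^ 2 / K + K ^ (-(2 / 3 : ℝ)) * Y ^ 2 := by positivity
    calc v K Y t ≤ C2 * E * (1 + |t|) ^ A2 * (m *
          (1 + Y ^ 2 / K + K ^ (-(2 / 3 : ℝ)) * Y ^ 2)) := hs K Y t hK hY
      _ ≤ C2 * X ^ ε * (1 + |t|) ^ Af * (m * (2 * (1 + u))) := by gcongr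
      _ = (2 * C2) * (X ^ ε * (1 + |t|) ^ Af * ((1 + u) * m)) := by ring
      _ ≤ (2 * C2 + D0) * (X ^ ε * (1 + |t|) ^ Af * ((1 + u) * m)) := by
          gcongr
          linarith
      _ = _ := by ring
  · -- the comparison shape
    set Z2 := K ^ (2 / 3 : ℝ) with hZ2
    set Z1 := Y ^ 2 / Z2 with hZ1
    have hZ21 : 1 ≤ Z2 := Real.one_le_rpow hK (by norm_num)
    have hZ11 : 1 ≤ Z1 := by rw [hZ1, one_le_div hK23]; exact hcase
    have hZ10 : 0 < Z1 := by linarith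
    have hZ2K : Z2 ≤ K := by
      calc Z2 ≤ K ^ (1 : ℝ) := Real.rpow_le_rpow_of_exponent_le hK (by norm_num)
        _ = K := Real.rpow_one K
    have hZ1Y : Z1 ≤ Y ^ 2 := div_le_self (by positivity) hZ21
    have hZ20 : 0 < Z2 := by linarith
    have hZZ : Z1 * Z2 = Y ^ 2 := by rw [hZ1]; field_simp
    have hZ23 : Z2 ^ 3 = K ^ 2 := by
      rw [hZ2, rpow_pow_three hK0.le (b := 2) (by norm_num), Real.rpow_two]
    have hZ22 : K ≤ Z2 ^ 2 := by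
      rw [hZ2, ← Real.rpow_natCast, ← Real.rpow_mul hK0.le]
      calc K = K ^ (1 : ℝ) := (Real.rpow_one K).symm
        _ ≤ _ := Real.rpow_le_rpow_of_exponent_le hK (by norm_num)
    have hKi : K ^ (-(2 / 3 : ℝ)) = 1 / Z2 := by
      rw [hZ2, Real.rpow_neg hK0.le, one_div]
    have hYZ : Y ^ 2 / Z2 ^ 2 ≤ u := by rw [hu]; gcongr
    have h1Z1 : 1 + Z1 ≤ (1 + Y) ^ 2 := by nlinarith
    have h1Z2 : 1 + Z2 ≤ 2 * K := by linarith
    -- the difference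
    have hq : (Qd.mk Y Y Z1 Z2).Ok := ⟨hY0, hY0, hZ10, hZ20, by rw [hZZ]; ring⟩
    have hN : (Qd.mk Y Y Z1 Z2).N = Y * Y := rfl
    have b1 := hb true K (Qd.mk Y Y Z1 Z2) t t hK hq
    rw [hN, hmY, two_pow] at b1
    have hsz1 : (K * (Qd.mk Y Y Z1 Z2).sz) ^ ε1 ≤ 2 * E ^ 4 := by
      refine rpow_bd (by have := hq.one_le_sz; positivity) (by norm_num) hX h1.le h1' ?_
      unfold Qd.sz
      calc K * ((1 + Y) * (1 + Y) * ((1 + Z1) * (1 + Z2)))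
          ≤ K * ((1 + Y) * (1 + Y) * ((1 + Y) ^ 2 * (2 * K))) := by gcongr
        _ = 2 * (K ^ 2 * (1 + Y) ^ 4) := by ring
        _ ≤ 2 * (K ^ 4 * (1 + Y) ^ 4) := by
            have : K ^ 2 ≤ K ^ 4 := pow_le_pow_right₀ hK (by norm_num)
            gcongr
        _ = 2 * X ^ 4 := by rw [hXdef]; ring
    have hHH : HH true K (Qd.mk Y Y Z1 Z2) ≤ 4 * (1 + u) := by
      have h5 : Qd.pl true (Qd.mk Y Y Z1 Z2) ≤ Y + Y + Z1 + Z2 := by
        unfold Qd.pl Qd.S; simp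
      have h6 : Y / Z2 ≤ 1 + u := by
        have h7 : (Y / Z2) ^ 2 ≤ u := by rw [div_pow]; exact hYZ
        nlinarith [sq_nonneg (Y / Z2 - 1)]
      have h8 : Z1 / Z2 ≤ u := by
        rw [hZ1, div_div, ← sq]; exact hYZ
      have h9 : K ^ (-(2 / 3 : ℝ)) * Qd.pl true (Qd.mk Y Y Z1 Z2) ≤ 3 * (1 + u) := by
        rw [hKi]
        calc 1 / Z2 * Qd.pl true (Qd.mk Y Y Z1 Z2) ≤ 1 / Z2 * (Y + Y + Z1 + Z2) := by gcongr
          _ = Y / Z2 + Y / Z2 + Z1 / Z2 + 1 := by field_simp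
          _ ≤ 3 * (1 + u) := by linarith
      have h10 : (Qd.mk Y Y Z1 Z2).N / K = u := by rw [hN, hu, sq]
      unfold HH
      rw [h10]
      linarith
    have hHH0 : 0 ≤ HH true K (Qd.mk Y Y Z1 Z2) := by linarith [HH_pos (o := true) hq hK0]
    set P0 := X ^ ε * (1 + |t|) ^ Af * ((1 + u) * m) with hP0
    have b1' : wd true K (Qd.mk Y Y Z1 Z2) t t ≤ 8 * C1 * P0 := by
      have e4 : (1 + |t|) ^ (2 * A1) ≤ (1 + |t|) ^ Af := pow_abs_le (by rw [hAf]; linarith)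
      calc wd true K (Qd.mk Y Y Z1 Z2) t t ≤ _ := b1
        _ ≤ C1 * (2 * E ^ 4) * (1 + |t|) ^ Af * (m * (4 * (1 + u))) := by gcongr
        _ ≤ C1 * (2 * X ^ ε) * (1 + |t|) ^ Af * (m * (4 * (1 + u))) := by gcongr
        _ = _ := by rw [hP0]; ring
    -- the two fourth moments of the comparison shape
    set z := K ^ (1 / 3 : ℝ) with hzd
    have hz1 : 1 ≤ z := Real.one_le_rpow hK (by norm_num)
    have hzZ : z ≤ Z2 := Real.rpow_le_rpow_of_exponent_le hK (by norm_num)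
    have mm : ∀ x : ℝ, ml (2 * e / 3) x = ml (e / 3) x * ml (e / 3) x := by
      intro x
      unfold ml
      rw [← Real.rpow_add (by positivity)]
      congr 1; ring
    have m0 : ∀ x : ℝ, 1 ≤ ml (e / 3) x := fun x => one_le_ml (by positivity)
    have sq_le : ∀ x : ℝ, 1 ≤ x → x ≤ x ^ 2 := fun x hx => by nlinarith
    have hb1 : v K Z1 t ≤ (2 * C2 * E ^ 2 * (1 + |t|) ^ A2 * (ml (e / 3) Z1 * (1 + u))) ^ 2 := by
      have e1 : (K * (1 + Z1)) ^ ε1 ≤ 1 * E ^ 2 := by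
        refine rpow_bd (by positivity) le_rfl hX h1.le h1' ?_
        calc K * (1 + Z1) ≤ K ^ 2 * (1 + Y) ^ 2 := by
              have : K ≤ K ^ 2 := sq_le K hK
              gcongr
          _ = 1 * X ^ 2 := by rw [hXdef]; ring
      have e2 : K ^ (-(2 / 3 : ℝ)) * Z1 ^ 2 = u ^ 2 := by
        rw [hKi, hZ1, hu, div_pow, div_pow]
        have : Z2 * Z2 ^ 2 = K ^ 2 := by rw [← hZ23]; ring
        calc 1 / Z2 * ((Y ^ 2) ^ 2 / Z2 ^ 2) = (Y ^ 2) ^ 2 / (Z2 * Z2 ^ 2) := by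
              field_simp
          _ = _ := by rw [this]
      have e3 : Z1 ^ 2 / K ≤ u ^ 2 := by
        rw [← e2, div_eq_mul_inv, mul_comm]
        refine mul_le_mul_of_nonneg_right ?_ (by positivity)
        rw [← Real.rpow_neg_one]
        exact Real.rpow_le_rpow_of_exponent_le hK (by norm_num)
      have e4 : 1 + Z1 ^ 2 / K + K ^ (-(2 / 3 : ℝ)) * Z1 ^ 2 ≤ 2 * (1 + u) ^ 2 := by
        rw [e2]; nlinarith
      have e5 : 0 ≤ ml (2 * e / 3) Z1 := by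
        linarith [one_le_ml (x := Z1) (by positivity : (0:ℝ) ≤ 2 * e / 3)]
      have e6 : 1 ≤ 2 * C2 * E ^ 2 * (1 + |t|) ^ A2 := one_le_mul_of_one_le_of_one_le
        (one_le_mul_of_one_le_of_one_le (by linarith) (one_le_pow₀ hE1))
        (Real.one_le_rpow hT0 hA2)
      calc v K Z1 t ≤ C2 * (K * (1 + Z1)) ^ ε1 * (1 + |t|) ^ A2 * (ml (2 * e / 3) Z1 *
            (1 + Z1 ^ 2 / K + K ^ (-(2 / 3 : ℝ)) * Z1 ^ 2)) := hs K Z1 t hK (by linarith)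
        _ ≤ C2 * (1 * E ^ 2) * (1 + |t|) ^ A2 * (ml (2 * e / 3) Z1 * (2 * (1 + u) ^ 2)) := by
            gcongr
        _ = (2 * C2 * E ^ 2 * (1 + |t|) ^ A2) * (ml (e / 3) Z1 * (1 + u)) ^ 2 := by
            rw [mm]; ring
        _ ≤ (2 * C2 * E ^ 2 * (1 + |t|) ^ A2) ^ 2 * (ml (e / 3) Z1 * (1 + u)) ^ 2 := by
            have := sq_le _ e6
            gcongr
        _ = _ := by ring
    have hb2 : v K Z2 t ≤ (C4 * E * (1 + |t|) ^ A4 * ml (e / 3) z) ^ 2 := by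
      have e1 : K ^ ε1 ≤ E := Real.rpow_le_rpow hK0.le hKX h1.le
      have e6 : 1 ≤ C4 * E * (1 + |t|) ^ A4 := one_le_mul_of_one_le_of_one_le
        (one_le_mul_of_one_le_of_one_le hC4 hE1) (Real.one_le_rpow hT0 hA4)
      have e5 : 0 ≤ ml (2 * e / 3) z := by
        linarith [one_le_ml (x := z) (by positivity : (0:ℝ) ≤ 2 * e / 3)]
      calc v K Z2 t ≤ C4 * K ^ ε1 * (1 + |t|) ^ A4 * ml (2 * e / 3) z := hz K t hK
        _ ≤ C4 * E * (1 + |t|) ^ A4 * ml (2 * e / 3) z := by gcongr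
        _ = (C4 * E * (1 + |t|) ^ A4) * ml (e / 3) z ^ 2 := by rw [mm]; ring
        _ ≤ (C4 * E * (1 + |t|) ^ A4) ^ 2 * ml (e / 3) z ^ 2 := by
            have := sq_le _ e6
            gcongr
        _ = _ := by ring
    have hmz : ml (e / 3) Z1 * ml (e / 3) z ≤ m := by
      rw [← hmY]
      unfold ml
      rw [← Real.mul_rpow (by positivity) (by positivity), max_eq_right hZ11, max_eq_right hz1]
      refine Real.rpow_le_rpow (by positivity) (le_trans ?_ (le_max_right _ _)) (by positivity)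
      calc Z1 * z ≤ Z1 * Z2 := by gcongr
        _ = Y * Y := by rw [hZZ]; ring
    have q1 := m0 Z1
    have q2 := m0 z
    have b2 := hcau K Z1 Z2 t t _ _ hK (by linarith) (by linarith) (by positivity)
      (by positivity) hb1 hb2
    have b2' : w K Z1 Z2 t t ≤ Cc * (2 * C2 * C4) * P0 := by
      have e4 : (1 + |t|) ^ (A2 + A4) ≤ (1 + |t|) ^ Af := pow_abs_le (by rw [hAf]; linarith)
      have e5 := hEp 3 (by norm_num)
      calc w K Z1 Z2 t t ≤ _ := b2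
        _ = Cc * (2 * C2 * C4) * (E ^ 3 * (1 + |t|) ^ (A2 + A4) *
              ((1 + u) * (ml (e / 3) Z1 * ml (e / 3) z))) := by
            rw [Real.rpow_add (by linarith : 0 < 1 + |t|)]; ring
        _ ≤ Cc * (2 * C2 * C4) * (X ^ ε * (1 + |t|) ^ Af * ((1 + u) * m)) := by gcongr
        _ = _ := by rw [hP0]
    have b3 := hsp K (Qd.mk Y Y Z1 Z2) t t hK hq
    have hP00 : 0 ≤ P0 := by positivity
    calc v K Y t ≤ Cv * w K Y Y t t := hvw K Y t hK hY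
      _ ≤ Cv * (Cs * (wd true K (Qd.mk Y Y Z1 Z2) t t + w K Z1 Z2 t t)) := by gcongr
      _ ≤ Cv * (Cs * (8 * C1 * P0 + Cc * (2 * C2 * C4) * P0)) := by gcongr
      _ = D0 * P0 := by rw [hD0]; ring
      _ ≤ (2 * C2 + D0) * P0 := by
          gcongr
          linarith
      _ = _ := by rw [hP0]; ring

lemma bd_of_bdC (R : Rules c v w wd τ) {e : ℝ} (he : 0 ≤ e) (h : BdC c v e) :
    Bd c v (2 * e / 3) := by
  intro ε hε
  obtain ⟨k, hk⟩ := exists_nat_ge (2 * e / 3)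
  obtain ⟨ε1, h1, h1', h1a⟩ := exists_eps hε (5 + k)
  obtain ⟨C1, A, hC1, hA, hb⟩ := h ε1 h1
  obtain ⟨C2, J, hC2, hJ, hp⟩ := R.flip ε1 A h1 hA
  have hc := R.c_pos
  have hc1 := R.c_le
  refine ⟨2 * C1 + 4 * C1 * C2 ^ (4 + k), A + J, ?_, by positivity, ?_⟩
  · have : 0 ≤ 4 * C1 * C2 ^ (4 + k) := by positivity
    linarith
  intro K Y t hK hY
  have hY0 : 0 < Y := by linarith
  have hK0 : 0 < K := by linarith
  set X := K * (1 + Y) with hXdef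
  have hX : 1 ≤ X := one_le_mul_of_one_le_of_one_le hK (by linarith)
  have hXp : 0 < X := by linarith
  set E := X ^ ε1 with hE
  have hE1 : 1 ≤ E := Real.one_le_rpow hX h1.le
  have hEX : E ≤ X := by
    calc E ≤ X ^ (1 : ℝ) := Real.rpow_le_rpow_of_exponent_le hX h1'
      _ = X := Real.rpow_one X
  have hEε : E ^ (5 + k) ≤ X ^ ε := pow_eps hX (by exact_mod_cast h1a)
  set m := ml (2 * e / 3) Y with hm
  have hm1 : 1 ≤ m := one_le_ml (by positivity)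
  have hAm : (1 + |t|) ^ A ≤ (1 + |t|) ^ (A + J) := pow_abs_le (by linarith)
  have hJm : (1 + |t|) ^ J ≤ (1 + |t|) ^ (A + J) := pow_abs_le (by linarith)
  rcases le_total (Y ^ 2) K with hcs | hcs
  · have hu : Y ^ 2 / K ≤ 1 := (div_le_one hK0).mpr hcs
    have e5 : E ≤ X ^ ε := by
      calc E = E ^ 1 := (pow_one E).symm
        _ ≤ E ^ (5 + k) := pow_le_pow_right₀ hE1 (by omega)
        _ ≤ _ := hEε
    calc v K Y t ≤ C1 * E * (1 + |t|) ^ A * ((1 + Y ^ 2 / K) * m) := hb K Y t hK hY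
      _ ≤ C1 * X ^ ε * (1 + |t|) ^ (A + J) * ((1 + 1) * m) := by gcongr
      _ = 2 * C1 * (X ^ ε * (1 + |t|) ^ (A + J) * m) := by ring
      _ ≤ (2 * C1 + 4 * C1 * C2 ^ (4 + k)) * (X ^ ε * (1 + |t|) ^ (A + J) * m) := by
          gcongr
          have : 0 ≤ 4 * C1 * C2 ^ (4 + k) := by positivity
          linarith
      _ = _ := by ring
  · set B := 2 * C1 * C2 ^ (3 + k) * E ^ (4 + k) * m with hB
    have hB1 : 1 ≤ B := by
      rw [hB]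
      exact one_le_mul_of_one_le_of_one_le (one_le_mul_of_one_le_of_one_le
        (one_le_mul_of_one_le_of_one_le (by linarith) (one_le_pow₀ hC2)) (one_le_pow₀ hE1)) hm1
    have key := hp K Y t B hK hY (by linarith) hcs ?_
    · calc v K Y t ≤ C2 * E * (1 + |t|) ^ J * (1 + B) := key
        _ ≤ C2 * E * (1 + |t|) ^ (A + J) * (B + B) := by gcongr
        _ = 4 * C1 * C2 ^ (4 + k) * (E ^ (5 + k) * (1 + |t|) ^ (A + J) * m) := by
            rw [hB, show 4 + k = 1 + (3 + k) by ring, show 5 + k = 1 + (4 + k) by ring,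
              pow_add C2 1, pow_add E 1]
            ring_nf
        _ ≤ 4 * C1 * C2 ^ (4 + k) * (X ^ ε * (1 + |t|) ^ (A + J) * m) := by gcongr
        _ ≤ (2 * C1 + 4 * C1 * C2 ^ (4 + k)) * (X ^ ε * (1 + |t|) ^ (A + J) * m) := by
            gcongr
            linarith
        _ = _ := by ring
    · intro K1 Z s hK1 hK1K hcZ hZY hZK
      have hK10 : 0 < K1 := by linarith
      have hZ0 : 0 < Z := by linarith
      set ρ := C2 * E with hρ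
      have hρ1 : 1 ≤ ρ := one_le_mul_of_one_le_of_one_le hC2 hE1
      have hu : Z ^ 2 / K1 ≤ ρ := by
        rw [div_le_iff₀ hK10]
        have i1 : (Z * Y) ^ 3 ≤ ρ * (K1 ^ 2 * K) := hZK
        have i2 : ((Z * Y) ^ 3) ^ 2 ≤ (ρ * (K1 ^ 2 * K)) ^ 2 := by gcongr
        have i3 : K ^ 3 ≤ (Y ^ 2) ^ 3 := by gcongr
        have i4 : Z ^ 6 * K * K ^ 2 ≤ ρ ^ 2 * K1 ^ 4 * K ^ 2 := by
          calc Z ^ 6 * K * K ^ 2 = Z ^ 6 * K ^ 3 := by ring
            _ ≤ Z ^ 6 * (Y ^ 2) ^ 3 := by gcongr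
            _ = ((Z * Y) ^ 3) ^ 2 := by ring
            _ ≤ _ := i2
            _ = _ := by ring
        have i5 : Z ^ 6 * K ≤ ρ ^ 2 * K1 ^ 4 := le_of_mul_le_mul_right i4 (by positivity)
        have i6 : Z ^ 6 * K1 ≤ ρ ^ 3 * K1 ^ 3 * K1 := by
          calc Z ^ 6 * K1 ≤ Z ^ 6 * (ρ * K) := by gcongr
            _ = ρ * (Z ^ 6 * K) := by ring
            _ ≤ ρ * (ρ ^ 2 * K1 ^ 4) := by gcongr
            _ = _ := by ring
        have i7 : (Z ^ 2) ^ 3 ≤ (ρ * K1) ^ 3 := by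
          have := le_of_mul_le_mul_right i6 hK10
          calc (Z ^ 2) ^ 3 = Z ^ 6 := by ring
            _ ≤ _ := this
            _ = _ := by ring
        exact le_of_pow_le_pow_left₀ (by norm_num) (by positivity) i7
      have r1 : (K1 * (1 + Z)) ^ ε1 ≤ C2 ^ 2 * E ^ 3 := by
        refine rpow_bd (by positivity) (one_le_pow₀ hC2) hX h1.le h1' ?_
        calc K1 * (1 + Z) ≤ (ρ * K) * (ρ * (1 + Y)) := by
              have : 1 + Z ≤ ρ * (1 + Y) := by linarith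
              gcongr
          _ = ρ ^ 2 * X := by rw [hXdef]; ring
          _ ≤ (C2 * X) ^ 2 * X := by rw [hρ]; gcongr
          _ = _ := by ring
      have r2 : ml (2 * e / 3) Z ≤ ρ ^ k * m :=
        (ml_mono (by positivity) hZY).trans (ml_mul_le (by positivity) hk hρ1)
      have r3 : 0 ≤ ml (2 * e / 3) Z := by
        linarith [one_le_ml (x := Z) (by positivity : (0:ℝ) ≤ 2 * e / 3)]
      have r4 : 1 + Z ^ 2 / K1 ≤ 2 * ρ := by linarith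
      calc v K1 Z s ≤ C1 * (K1 * (1 + Z)) ^ ε1 * (1 + |s|) ^ A *
            ((1 + Z ^ 2 / K1) * ml (2 * e / 3) Z) := hb K1 Z s hK1 hcZ
        _ ≤ C1 * (C2 ^ 2 * E ^ 3) * (1 + |s|) ^ A * ((2 * ρ) * (ρ ^ k * m)) := by gcongr
        _ = B * (1 + |s|) ^ A := by
            rw [hB, hρ, show 3 + k = 2 + 1 + k by ring, show 4 + k = 3 + 1 + k by ring,
              pow_add C2, pow_add C2, pow_add E, pow_add E, mul_pow C2 E]
            ring

/-- one round: the central loss contracts by `2/3` -/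
lemma step (R : Rules c v w wd τ) {e : ℝ} (he : 0 ≤ e) (h : Bd c v e) : Bd c v (2 * e / 3) :=
  bd_of_bdC R he (bdC R he (bdD R he (tb2 R he (tb1 R he h))))

lemma ml_zero (x : ℝ) : ml 0 x = 1 := by unfold ml; exact Real.rpow_zero _

/-- **The two-factor theorem for the exceptional class**, fourth moments over the nonprincipal
`k`. -/
theorem two_factor (R : Rules c v w wd τ) : ∀ ε : ℝ, 0 < ε → ∃ C A : ℝ, 1 ≤ C ∧ 0 ≤ A ∧
    ∀ K Y t : ℝ, 1 ≤ K → c ≤ Y → v K Y t ≤ C * (K * (1 + Y)) ^ ε * (1 + |t|) ^ A := by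
  intro ε hε
  obtain ⟨e0, C0, he0, hC0, hbase⟩ := R.base
  have hc := R.c_pos
  have h0 : Bd c v e0 := by
    intro ε' hε'
    refine ⟨C0, 0, hC0, le_rfl, fun K Y t hK hY => ?_⟩
    rw [Real.rpow_zero, mul_one]
    refine (hbase K Y t hK hY).trans ?_
    have h1 : 1 ≤ (K * (1 + Y)) ^ ε' := Real.one_le_rpow
      (one_le_mul_of_one_le_of_one_le hK (by linarith)) hε'.le
    have h2 : 1 ≤ ml e0 Y := one_le_ml he0
    have h3 : (max 1 Y) ^ e0 = ml e0 Y := rfl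
    rw [h3]
    have h4 : 0 ≤ ml e0 Y := by linarith
    calc C0 * ml e0 Y = C0 * 1 * ml e0 Y := by ring
      _ ≤ C0 * (K * (1 + Y)) ^ ε' * ml e0 Y := by gcongr
  have hn : ∀ n : ℕ, Bd c v (e0 * (2 / 3) ^ n) := by
    intro n
    induction n with
    | zero => simpa using h0
    | succ n ih =>
      have := step R (by positivity) ih
      convert this using 1
      rw [pow_succ]; ring
  obtain ⟨n, hn'⟩ : ∃ n : ℕ, e0 * (2 / 3 : ℝ) ^ n ≤ ε / 2 := by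
    have ht : Filter.Tendsto (fun n : ℕ => e0 * (2 / 3 : ℝ) ^ n) Filter.atTop (nhds (e0 * 0)) :=
      (tendsto_pow_atTop_nhds_zero_of_lt_one (by norm_num) (by norm_num)).const_mul e0
    rw [mul_zero] at ht
    exact ((ht.eventually (ge_mem_nhds (by positivity : (0 : ℝ) < ε / 2))).exists)
  obtain ⟨C, A, hC, hA, hb⟩ := hn n (ε / 2) (by positivity)
  refine ⟨C, A, hC, hA, fun K Y t hK hY => ?_⟩
  have hY0 : 0 < Y := by linarith
  have hX : 1 ≤ K * (1 + Y) := one_le_mul_of_one_le_of_one_le hK (by linarith)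
  have hX0 : 0 < K * (1 + Y) := by linarith
  have hmx : max 1 Y ≤ K * (1 + Y) := by
    refine max_le hX ?_
    nlinarith
  calc v K Y t ≤ C * (K * (1 + Y)) ^ (ε / 2) * (1 + |t|) ^ A * ml (e0 * (2 / 3) ^ n) Y :=
        hb K Y t hK hY
    _ ≤ C * (K * (1 + Y)) ^ (ε / 2) * (1 + |t|) ^ A * (K * (1 + Y)) ^ (ε / 2) := by
        gcongr
        calc ml (e0 * (2 / 3) ^ n) Y ≤ (K * (1 + Y)) ^ (e0 * (2 / 3) ^ n) :=
              Real.rpow_le_rpow (by positivity) hmx (by positivity)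
          _ ≤ (K * (1 + Y)) ^ (ε / 2) := Real.rpow_le_rpow_of_exponent_le hX hn'
    _ = C * (K * (1 + Y)) ^ ε * (1 + |t|) ^ A := by
        rw [show ε = ε / 2 + ε / 2 by ring, Real.rpow_add hX0]; ring_nf

lemma bd_zero (R : Rules c v w wd τ) : Bd c v 0 := by
  intro ε hε
  obtain ⟨C, A, hC, hA, h⟩ := two_factor R ε hε
  exact ⟨C, A, hC, hA, fun K Y t hK hY => by rw [ml_zero, mul_one]; exact h K Y t hK hY⟩

/-- mixed moments over the nonprincipal `k`, **every** shape -/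
theorem two_factor_mixed (R : Rules c v w wd τ) : ∀ ε : ℝ, 0 < ε → ∃ C A : ℝ, 1 ≤ C ∧ 0 ≤ A ∧
    ∀ K Y1 Y2 t1 t2 : ℝ, 1 ≤ K → c ≤ Y1 → c ≤ Y2 →
      w K Y1 Y2 t1 t2 ≤ C * (K * ((1 + Y1) * (1 + Y2))) ^ ε * ((1 + |t1|) * (1 + |t2|)) ^ A := by
  intro ε hε
  obtain ⟨C, A, hC, hA, h⟩ := bdW R le_rfl (bd_zero R) ε hε
  refine ⟨C, A, hC, hA, fun K Y1 Y2 t1 t2 hK h1 h2 => ?_⟩
  have := h K Y1 Y2 t1 t2 hK h1 h2
  rwa [zero_div, ml_zero, mul_one] at this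

/-- **Gauss side**, all `k ≠ 0`: a difference of two shapes (`o = true`) has at the principal `k`
only the value `min N S`, a single shape (`o = false`) the value `N`. -/
theorem two_factor_gauss (R : Rules c v w wd τ) : ∀ ε : ℝ, 0 < ε → ∃ C A : ℝ, 1 ≤ C ∧ 0 ≤ A ∧
    ∀ (o : Bool) (L : ℝ) (q : Qd) (t1 t2 : ℝ), 1 ≤ L → q.Ok →
      τ o L q t1 t2 ≤ C * (L * q.sz) ^ ε * ((1 + |t1|) * (1 + |t2|)) ^ A *
        (1 + q.N / L + L ^ (-(1 / 3 : ℝ)) * q.N ^ (-(1 / 3 : ℝ)) * Qd.pl o q) := by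
  intro ε hε
  obtain ⟨C, A, hC, hA, h⟩ := tb1 R le_rfl (bd_zero R) ε hε
  refine ⟨C, A, hC, hA, fun o L q t1 t2 hL hq => ?_⟩
  have := h o L q t1 t2 hL hq
  rwa [zero_div, ml_zero, GG, mul_one] at this

/-- character side, all `k ≠ 0` -/
theorem two_factor_all (R : Rules c v w wd τ) : ∀ ε : ℝ, 0 < ε → ∃ C A : ℝ, 1 ≤ C ∧ 0 ≤ A ∧
    ∀ (o : Bool) (K : ℝ) (q : Qd) (t1 t2 : ℝ), 1 ≤ K → q.Ok →
      wd o K q t1 t2 ≤ C * (K * q.sz) ^ ε * ((1 + |t1|) * (1 + |t2|)) ^ A *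
        (1 + q.N / K + K ^ (-(2 / 3 : ℝ)) * Qd.pl o q) := by
  intro ε hε
  obtain ⟨C, A, hC, hA, h⟩ := bdD R le_rfl (tb2 R le_rfl (tb1 R le_rfl (bd_zero R))) ε hε
  refine ⟨C, A, hC, hA, fun o K q t1 t2 hK hq => ?_⟩
  have := h o K q t1 t2 hK hq
  rwa [zero_div, ml_zero, one_mul, HH] at this

end

end Crest.Agent.R017.TwoEx791
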