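import Crest.Agent.R017.TX10_939
import Crest.Agent.R017.TXG2_411
import Crest.Agent.R017.XTf_164

/-!
# Row 17: THE TWO-FACTOR THEOREM (helper939)

For every Hecke character `(χ, l)`, generic or exceptional.

* `rules_ex`    : the rules of `TwoEx791` hold
* `vn_le`       : fourth moment over the nonprincipal members
* `wn_le`       : mixed second moment over the nonprincipal members
* `v4_le`       : fourth moment over all members, if there is no principal one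
* `w2_le`       : mixed second moment over all members, if there is no principal one
* `td_le`       : Gauss side, all `k ≠ 0`, differences and single shapes
* `wd_le`       : character side, all `k ≠ 0`, differences and single shapes
* `t2_le`       : Gauss side, single shape, all `k ≠ 0`
* `t2_gen`      : Gauss side, single shape, if there is no principal member
* `tf4n`, `tf4` : `TF4` of 164
-/

set_option autoImplicit false

noncomputable section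

open Complex

namespace Crest.Agent.R017.TwoFinal

open Crest.Agent.R012 Crest.Agent.R012.Eis Crest.Agent.R012.LS2
open Crest.Agent.R017.End699 Crest.Agent.R017.FE47 Crest.Agent.R017.Two939
open Crest.Agent.R017.TwoEx791 Crest.Agent.R017.TXC791
open Crest.Agent.R017.Sup271 (NPm)

variable {h : ℝ → ℝ} {c : ℝ}

/-- the rules -/
theorem rules_ex (hpu : PU h c) {M : Eis} {χ : Eis → ℂ} (hχ : HC M χ) (l : ℤ) :
    ∃ z : ℝ, Rules z (Vn h M χ l) (Wn h M χ l) (wdc h χ l) (tdc h χ l) :=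
  rules_of hpu hχ l (TXG411.poisG hpu hχ l) (TP320.poisC_ex hpu hχ l) (TP320.monoG_ex hpu hχ l)

lemma Vn_eq_Wn (h : ℝ → ℝ) (M : Eis) (χ : Eis → ℂ) (l : ℤ) (K Y t : ℝ) :
    Vn h M χ l K Y t = Wn h M χ l K Y Y t t := by
  unfold Vn Wn
  congr 1
  · exact Finset.sum_congr rfl fun k _ => by ring
  · ring

/-- **two-factor theorem**, mixed second moment over the nonprincipal members -/
theorem wn_le (hpu : PU h c) {M : Eis} {χ : Eis → ℂ} (hχ : HC M χ) (l : ℤ) {ε : ℝ} (hε : 0 < ε) :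
    ∃ C A : ℝ, 1 ≤ C ∧ 0 ≤ A ∧ ∀ K Y1 Y2 t1 t2 : ℝ, 1 ≤ K → 0 < Y1 → 0 < Y2 →
      Wn h M χ l K Y1 Y2 t1 t2 ≤
        C * (K * ((1 + Y1) * (1 + Y2))) ^ ε * ((1 + |t1|) * (1 + |t2|)) ^ A := by
  obtain ⟨z, Rz⟩ := rules_ex hpu hχ l
  obtain ⟨C, A, hC, hA, hb⟩ := two_factor_mixed Rz ε hε
  refine ⟨C, A, hC, hA, fun K Y1 Y2 t1 t2 hK h1 h2 => ?_⟩
  by_cases hz : Y1 < z ∨ Y2 < z
  · rw [Rz.nul K Y1 Y2 t1 t2 h1 h2 hz]
    positivity
  · push Not at hz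
    exact hb K Y1 Y2 t1 t2 hK hz.1 hz.2

/-- **two-factor theorem**, fourth moment over the nonprincipal members -/
theorem vn_le (hpu : PU h c) {M : Eis} {χ : Eis → ℂ} (hχ : HC M χ) (l : ℤ) {ε : ℝ} (hε : 0 < ε) :
    ∃ C A : ℝ, 1 ≤ C ∧ 0 ≤ A ∧ ∀ K Y t : ℝ, 1 ≤ K → 0 < Y →
      Vn h M χ l K Y t ≤ C * (K * (1 + Y)) ^ ε * (1 + |t|) ^ A := by
  obtain ⟨z, Rz⟩ := rules_ex hpu hχ l
  obtain ⟨C, A, hC, hA, hb⟩ := two_factor Rz ε hε
  refine ⟨C, A, hC, hA, fun K Y t hK h1 => ?_⟩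
  by_cases hz : Y < z
  · rw [Vn_eq_Wn, Rz.nul K Y Y t t h1 h1 (Or.inl hz)]
    positivity
  · exact hb K Y t hK (not_lt.mp hz)

/-- Gauss side, all `k ≠ 0`: difference (`o = true`) or single shape (`o = false`) -/
theorem td_le (hpu : PU h c) {M : Eis} {χ : Eis → ℂ} (hχ : HC M χ) (l : ℤ) {ε : ℝ} (hε : 0 < ε) :
    ∃ C A : ℝ, 1 ≤ C ∧ 0 ≤ A ∧ ∀ (o : Bool) (L : ℝ) (q : Qd) (t1 t2 : ℝ), 1 ≤ L → q.Ok →
      tdc h χ l o L q t1 t2 ≤ C * (L * q.sz) ^ ε * ((1 + |t1|) * (1 + |t2|)) ^ A *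
        (1 + q.N / L + L ^ (-(1 / 3 : ℝ)) * q.N ^ (-(1 / 3 : ℝ)) * Qd.pl o q) := by
  obtain ⟨z, Rz⟩ := rules_ex hpu hχ l
  exact two_factor_gauss Rz ε hε

/-- character side, all `k ≠ 0`: difference (`o = true`) or single shape (`o = false`) -/
theorem wd_le (hpu : PU h c) {M : Eis} {χ : Eis → ℂ} (hχ : HC M χ) (l : ℤ) {ε : ℝ} (hε : 0 < ε) :
    ∃ C A : ℝ, 1 ≤ C ∧ 0 ≤ A ∧ ∀ (o : Bool) (K : ℝ) (q : Qd) (t1 t2 : ℝ), 1 ≤ K → q.Ok →
      wdc h χ l o K q t1 t2 ≤ C * (K * q.sz) ^ ε * ((1 + |t1|) * (1 + |t2|)) ^ A *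
        (1 + q.N / K + K ^ (-(2 / 3 : ℝ)) * Qd.pl o q) := by
  obtain ⟨z, Rz⟩ := rules_ex hpu hχ l
  exact two_factor_all Rz ε hε

/-- Gauss side, single shape, all `k ≠ 0` -/
theorem t2_le (hpu : PU h c) {M : Eis} {χ : Eis → ℂ} (hχ : HC M χ) (l : ℤ) {ε : ℝ} (hε : 0 < ε) :
    ∃ C A : ℝ, 1 ≤ C ∧ 0 ≤ A ∧ ∀ L Y1 Y2 t1 t2 : ℝ, 1 ≤ L → 0 < Y1 → 0 < Y2 →
      T2 h χ l L Y1 Y2 t1 t2 ≤
        C * (L * ((1 + Y1) * (1 + Y2))) ^ ε * ((1 + |t1|) * (1 + |t2|)) ^ A *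
        (1 + Y1 * Y2 / L + L ^ (-(1 / 3 : ℝ)) * (Y1 * Y2) ^ (2 / 3 : ℝ)) := by
  obtain ⟨C, A, hC, hA, hb⟩ := td_le hpu hχ l (ε := ε / 2) (by positivity)
  refine ⟨C, A, hC, hA, fun L Y1 Y2 t1 t2 hL h1 h2 => ?_⟩
  have hq : (Qd.sg Y1 Y2).Ok := Qd.sg_ok h1 h2
  have key := hb false L (Qd.sg Y1 Y2) t1 t2 hL hq
  have e1 : tdc h χ l false L (Qd.sg Y1 Y2) t1 t2 = T2 h χ l L Y1 Y2 t1 t2 := rfl
  have e2 : (Qd.sg Y1 Y2).N = Y1 * Y2 := rfl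
  have e3 : Qd.pl false (Qd.sg Y1 Y2) = Y1 * Y2 := rfl
  have e4 : (Qd.sg Y1 Y2).sz = ((1 + Y1) * (1 + Y2)) ^ 2 := by
    unfold Qd.sz Qd.sg; ring
  have hN : 0 < Y1 * Y2 := by positivity
  rw [e1, e2, e3, e4] at key
  refine key.trans ?_
  have hL0 : 0 < L := by linarith
  have e5 : (L * ((1 + Y1) * (1 + Y2)) ^ 2) ^ (ε / 2) ≤ (L * ((1 + Y1) * (1 + Y2))) ^ ε := by
    calc (L * ((1 + Y1) * (1 + Y2)) ^ 2) ^ (ε / 2) ≤
          ((L * ((1 + Y1) * (1 + Y2))) ^ 2) ^ (ε / 2) := by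
          apply Real.rpow_le_rpow (by positivity) _ (by positivity)
          rw [mul_pow L ((1 + Y1) * (1 + Y2)) 2]
          have : L ≤ L ^ 2 := by nlinarith
          exact mul_le_mul_of_nonneg_right this (by positivity)
      _ = _ := by
          rw [← Real.rpow_natCast, ← Real.rpow_mul (by positivity)]
          congr 1; push_cast; ring
  have e6 : L ^ (-(1 / 3 : ℝ)) * (Y1 * Y2) ^ (-(1 / 3 : ℝ)) * (Y1 * Y2) =
      L ^ (-(1 / 3 : ℝ)) * (Y1 * Y2) ^ (2 / 3 : ℝ) := by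
    rw [mul_assoc]
    congr 1
    nth_rewrite 2 [← Real.rpow_one (Y1 * Y2)]
    rw [← Real.rpow_add hN]
    norm_num
  rw [e6]
  gcongr

/-! ### no principal member -/

/-- if there is no principal member -/
lemma bn_eq_bl {M : Eis} {χ : Eis → ℂ} {l : ℤ} (hg : ∀ k : Eis, k ≠ 0 → NPm M χ l k) {K : ℝ}
    (hK : 0 ≤ K) : bn M χ l K = bl K := by
  ext k
  rw [mem_bn hK, mem_bl hK]
  exact ⟨fun h => h.1, fun h => ⟨h, hg k h.1⟩⟩

/-- **two-factor theorem**, no principal member: mixed second moment -/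
theorem w2_le (hpu : PU h c) {M : Eis} {χ : Eis → ℂ} (hχ : HC M χ) (l : ℤ)
    (hg : ∀ k : Eis, k ≠ 0 → NPm M χ l k) {ε : ℝ} (hε : 0 < ε) :
    ∃ C A : ℝ, 1 ≤ C ∧ 0 ≤ A ∧ ∀ K Y1 Y2 t1 t2 : ℝ, 1 ≤ K → 0 < Y1 → 0 < Y2 →
      W2 h χ l K Y1 Y2 t1 t2 ≤
        C * (K * ((1 + Y1) * (1 + Y2))) ^ ε * ((1 + |t1|) * (1 + |t2|)) ^ A := by
  obtain ⟨C, A, hC, hA, hb⟩ := wn_le hpu hχ l hε
  refine ⟨C, A, hC, hA, fun K Y1 Y2 t1 t2 hK h1 h2 => ?_⟩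
  have := hb K Y1 Y2 t1 t2 hK h1 h2
  unfold Wn at this
  rw [bn_eq_bl hg (by linarith)] at this
  exact this

/-- **two-factor theorem**, no principal member: fourth moment -/
theorem v4_le (hpu : PU h c) {M : Eis} {χ : Eis → ℂ} (hχ : HC M χ) (l : ℤ)
    (hg : ∀ k : Eis, k ≠ 0 → NPm M χ l k) {ε : ℝ} (hε : 0 < ε) :
    ∃ C A : ℝ, 1 ≤ C ∧ 0 ≤ A ∧ ∀ K Y t : ℝ, 1 ≤ K → 0 < Y →
      V4 h χ l K Y t ≤ C * (K * (1 + Y)) ^ ε * (1 + |t|) ^ A := by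
  obtain ⟨C, A, hC, hA, hb⟩ := vn_le hpu hχ l hε
  refine ⟨C, A, hC, hA, fun K Y t hK h1 => ?_⟩
  have := hb K Y t hK h1
  unfold Vn at this
  rw [bn_eq_bl hg (by linarith)] at this
  exact this

/-! ### the form of 164 -/

open Classical in
/-- `TF4` over the nonprincipal members -/
theorem tf4n (hpu : PU h c) {M : Eis} {χ : Eis → ℂ} (hχ : HC M χ) (l : ℤ) :
    XTf164.TF4 h χ l (NPm M χ l) := by
  intro ε hε
  obtain ⟨C, A, hC, hA, hb⟩ := vn_le hpu hχ l hε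
  refine ⟨C * 2 ^ ε, A, by positivity, hA, fun K Y t hK hY => ?_⟩
  have hK0 : 0 < K := by linarith
  have hY0 : 0 < Y := by linarith
  have h1 := hb K Y t hK hY0
  have e1 : ∑ k ∈ (bl K).filter (NPm M χ l), ‖P h χ l k Y t‖ ^ 4 =
      Vn h M χ l K Y t * (K * Y ^ 2) := by
    unfold Vn bn
    rw [div_mul_cancel₀ _ (by positivity)]
  rw [e1]
  have e2 : (K * (1 + Y)) ^ ε ≤ 2 ^ ε * (K * Y) ^ ε := by
    rw [← Real.mul_rpow (by norm_num) (by positivity)]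
    apply Real.rpow_le_rpow (by positivity) _ hε.le
    nlinarith
  calc Vn h M χ l K Y t * (K * Y ^ 2) ≤
        (C * (K * (1 + Y)) ^ ε * (1 + |t|) ^ A) * (K * Y ^ 2) := by gcongr
    _ ≤ (C * (2 ^ ε * (K * Y) ^ ε) * (1 + |t|) ^ A) * (K * Y ^ 2) := by gcongr
    _ = _ := by ring

open Classical in
/-- `TF4` for every set of frequencies without principal members -/
theorem tf4 (hpu : PU h c) {M : Eis} {χ : Eis → ℂ} (hχ : HC M χ) (l : ℤ) {Q : Eis → Prop}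
    (hQ : ∀ k, Q k → NPm M χ l k) : XTf164.TF4 h χ l Q :=
  (tf4n hpu hχ l).mono hQ

end Crest.Agent.R017.TwoFinal
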