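import Crest.Agent.R017.Two4_939
import Crest.Agent.R017.TPF1_939
import Crest.Agent.R017.Sup_271

/-!
# Row 17: exceptional two-factor theorem (2): pointwise functional equation, nonprincipal members
(helper939)
-/

set_option autoImplicit false

noncomputable section

open Complex MeasureTheory Filter Topology
open scoped ContDiff

namespace Crest.Agent.R017.Two939

open Crest.Agent.R012 Crest.Agent.R012.Eis Crest.Agent.R012.LS2 Crest.Agent.R012.Gauss880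
open Crest.Agent.R012.Po581
open Crest.Agent.R012.Weight600 (osc norm_osc)
open Crest.Agent.R012.PSer47
open Crest.Agent.R017.End699 Crest.Agent.R017.FE47

/-- **Pointwise fourth power form of the functional equation.** -/
theorem FE4n {h : ℝ → ℝ} {c : ℝ} (hpu : PU h c) {M : Eis} {χ : Eis → ℂ} (hχ : HC M χ) (l : ℤ)
    {A K : ℕ} (hA : 5 ≤ A) (hK : 2 ≤ K) {ε : ℝ} (hε : 0 < ε) (hε1 : ε ≤ 1 / 2) :
    ∃ (C : ℝ) (J : ℕ), 0 ≤ C ∧ ∀ e ∈ SM M, ∀ k1 k2 : Eis, IsPrim k1 → IsPrim k2 → Squarefree k1 →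
      Squarefree k2 → IsCoprime k1 k2 → IsCoprime (k1 * k2) M →
      (k1 * k2 = 1 → NP (9 * M) (fun b => χ b * sy e b) l) → ∀ N : ℝ, 0 < N →
      (nm (k1 * k2) : ℝ) ≤ N → ∀ κ t : ℝ,
      ‖PS (cx h) (XK (fun b => χ b * sy e b) (kap k1 k2) l) κ t‖ ^ 4 ≤ C * (1 + |t|) ^ J *
        (1 + Real.exp κ ^ 2 * ∑' n : ℕ, bw ε A (Real.exp (c * n)) (Real.exp (c * n) * Real.exp κ / N) *
          TN4 h (XK (fun b => χ b * sy e b) (kap k1 k2) l) K (c * n)) := by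
  obtain ⟨C1, J1, hC1, hF⟩ := FE_sq (cd_cx hpu.cd) (cs_cx hpu.cs) l hpu (A := A + 2) (K := K)
    (by omega) hK hε (by linarith)
  obtain ⟨C2, hC2, hfix⟩ := PSfix (cd_cx hpu.cd) (cs_cx hpu.cs) l
  set I0 := ∫ t : ℝ, ((1 + |t|) ^ K)⁻¹ with hI0
  have hI : 0 ≤ I0 := integral_nonneg fun _ => by positivity
  have hr1 : Real.exp (-(c * ε)) < 1 := Real.exp_lt_one_iff.mpr (by linarith [mul_pos hpu.cpos hε])
  have hr2 : 0 ≤ (1 - Real.exp (-(c * ε)))⁻¹ := inv_nonneg.mpr (by linarith)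
  have hcM := cM_nonneg (A + 2) ε (9 * M)
  refine ⟨(C2 * (nm (9 * M) : ℝ) ^ 2) ^ 4 + C1 ^ 2 * cM (A + 2) ε (9 * M) ^ 4 *
    ((1 - Real.exp (-(c * ε)))⁻¹ * I0), 16 + 2 * J1, by positivity, ?_⟩
  intro e he k1 k2 p1 p2 s1 s2 hcop hM hnp N hN hkN κ t
  have ht : 1 ≤ 1 + |t| := by linarith [abs_nonneg t]
  set Ξ := XK (fun b => χ b * sy e b) (kap k1 k2) l with hΞd
  have hχ' := hc_SM hχ he
  have hΞ : ∀ b, IsPrim b → ‖Ξ b‖ ≤ 1 :=
    norm_XK_le hχ' (mul_ne_zero p1.ne_zero p2.ne_zero) (isCh_kap p1 p2) l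
  have hTs : 0 ≤ ∑' n : ℕ, bw ε A (Real.exp (c * n)) (Real.exp (c * n) * Real.exp κ / N) *
      TN4 h Ξ K (c * n) := tsum_nonneg fun n =>
    mul_nonneg (bw_nonneg (Real.exp_pos _).le (by positivity)) (TN4_nonneg _ _ _ _)
  set T := ∑' n : ℕ, bw ε A (Real.exp (c * n)) (Real.exp (c * n) * Real.exp κ / N) *
      TN4 h Ξ K (c * n) with hT
  by_cases h1 : k1 * k2 = 1
  · -- the fixed characters
    have hk1 : k1 = 1 := by
      have hu : IsUnit k1 := IsUnit.of_mul_eq_one _ h1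
      exact p1.eq_of_associated isPrim_one (associated_one_iff_isUnit.mpr hu)
    have hk2 : k2 = 1 := by rw [hk1, one_mul] at h1; exact h1
    have e0 : PS (cx h) Ξ κ t = PS (cx h) (XK (fun b => χ b * sy e b) (fun _ => 1) l) κ t := by
      refine PS_congr (fun b _ => ?_) _ _
      rw [hΞd, hk1, hk2]
      unfold XK
      rw [kap_one_one]
    have h2 := hfix (9 * M) _ hχ' (hnp h1) κ t
    rw [← e0] at h2
    calc ‖PS (cx h) Ξ κ t‖ ^ 4 ≤ (C2 * (1 + |t|) ^ 4 * (nm (9 * M) : ℝ) ^ 2) ^ 4 := by gcongr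
      _ = (C2 * (nm (9 * M) : ℝ) ^ 2) ^ 4 * (1 + |t|) ^ 16 := by ring
      _ ≤ ((C2 * (nm (9 * M) : ℝ) ^ 2) ^ 4 + C1 ^ 2 * cM (A + 2) ε (9 * M) ^ 4 *
          ((1 - Real.exp (-(c * ε)))⁻¹ * I0)) * (1 + |t|) ^ (16 + 2 * J1) := by
          have h3 : (1 + |t|) ^ 16 ≤ (1 + |t|) ^ (16 + 2 * J1) := pow_le_pow_right₀ ht (by omega)
          have h4 : 0 ≤ C1 ^ 2 * cM (A + 2) ε (9 * M) ^ 4 * ((1 - Real.exp (-(c * ε)))⁻¹ * I0) := by
            positivity
          gcongr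
          linarith
      _ = ((C2 * (nm (9 * M) : ℝ) ^ 2) ^ 4 + C1 ^ 2 * cM (A + 2) ε (9 * M) ^ 4 *
          ((1 - Real.exp (-(c * ε)))⁻¹ * I0)) * (1 + |t|) ^ (16 + 2 * J1) * 1 := by ring
      _ ≤ _ := by
          gcongr
          have : 0 ≤ Real.exp κ ^ 2 * T := by positivity
          linarith
  · have hM' : IsCoprime (k1 * k2) (9 * M) := (isCoprime_nine_mul' (p1.mul p2)).mpr hM
    have hmem : Mem (9 * M) (fun b => χ b * sy e b) (k1 * k2) (kap k1 k2) :=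
      mem_kap hχ' p1 p2 s1 s2 hcop hM' h1
    set Q : ℝ := ((nm (k1 * k2) : ℕ) : ℝ) with hQd
    have hQ : 0 < Q := by
      have := nm_pos.mpr (mul_ne_zero p1.ne_zero p2.ne_zero)
      rw [hQd]; exact_mod_cast this
    have h2 := hF (9 * M) _ (k1 * k2) (kap k1 k2) hmem Q 1 hQ (by rw [one_mul]) le_rfl κ t
    rw [← hΞd] at h2
    set X := Real.exp κ with hXd
    have hX : 0 < X := Real.exp_pos κ
    have hX2 : Real.exp (2 * κ) = X ^ 2 := by rw [hXd, ← Real.exp_nat_mul]; norm_num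
    set s := κ - Real.log Q with hs
    have hshift : ∀ n : ℕ, Real.exp (c * n + κ) / Q = Real.exp (c * n + s) := by
      intro n
      rw [hs, ← add_sub_assoc, Real.exp_sub, Real.exp_log hQ]
    have hshift' : ∀ n : ℕ, Real.exp (c * n + κ) / Q = Real.exp (c * n) * X / Q := by
      intro n; rw [Real.exp_add]
    have hes : Real.exp (-(s * ε)) = (Q / X) ^ ε := by
      have : Q / X = Real.exp (-s) := by
        rw [hs, neg_sub, Real.exp_sub, Real.exp_log hQ]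
      rw [this, ← Real.exp_mul]
      congr 1; ring
    set a : ℕ → ℝ := fun n => wz ε (A + 2) (Real.exp (c * n + κ) / Q) with had
    have ha : ∀ n, 0 ≤ a n := fun n => wz_nonneg (by positivity)
    obtain ⟨hSa, hSa'⟩ := summable_wz' hpu.cpos hε (A + 2) s
    have hSa1 : Summable a := by rw [had]; simp only [hshift]; exact hSa
    have hSa2 : ∑' n, a n ≤ (Q / X) ^ ε * (1 - Real.exp (-(c * ε)))⁻¹ := by
      rw [had, ← hes]; simp only [hshift]; exact hSa'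
    have hS2 : Summable (fun n : ℕ => a n * TN2 h Ξ K (c * n)) := by
      rw [had]; simp only [hshift]
      exact summable_wz2 hpu.cd.continuous hpu.cs hpu.cpos hε (by omega) hK hΞ s
    have haD : ∀ n : ℕ, a n ≤ (Real.exp (-(s * ε)) * Real.exp (-(5 * s))) *
        Real.exp (-(5 * (c * n))) := by
      intro n
      rw [had]
      simp only [hshift]
      unfold wz
      have h3 : Real.exp (c * n + s) ^ (-ε) ≤ Real.exp (-(s * ε)) := by
        rw [← Real.exp_mul]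
        apply Real.exp_le_exp.mpr
        have := mul_nonneg (mul_nonneg hpu.cpos.le (Nat.cast_nonneg (α := ℝ) n)) hε.le
        nlinarith
      calc _ ≤ Real.exp (-(s * ε)) * (Real.exp (-(5 * s)) * Real.exp (-(5 * (c * n)))) :=
            mul_le_mul h3 (inv_pow_exp_le (by omega) n) (by positivity) (Real.exp_pos _).le
        _ = _ := by ring
    have hS4 := summable_exp_TN4 hpu.cd.continuous hpu.cs hpu.cpos hK hΞ ha haD
    have hcs := tsum_TN2_sq_le hpu.cd.continuous hpu.cs hK hΞ ha hSa1 hS2 hS4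
    have hS40 : 0 ≤ ∑' n : ℕ, a n * TN4 h Ξ K (c * n) :=
      tsum_nonneg fun n => mul_nonneg (ha n) (TN4_nonneg _ _ _ _)
    -- the final sum
    have hNs : ∀ n : ℕ, Real.exp (c * n) * X / N = Real.exp (c * n + (κ - Real.log N)) := by
      intro n
      rw [← add_sub_assoc, Real.exp_sub, Real.exp_log hN, Real.exp_add]
    have hSb := summable_exp_TN4 hpu.cd.continuous hpu.cs hpu.cpos hK hΞ
      (a := fun n => bw ε A (Real.exp (c * n)) (Real.exp (c * n) * X / N))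
      (fun n => bw_nonneg (Real.exp_pos _).le (by positivity))
      (D := Real.exp (-(5 * (κ - Real.log N)))) (fun n => by
        rw [hNs]
        exact bw_exp_le hε1 hpu.cpos hA n)
    have hfin : (X ^ 2 / Q) ^ 2 * (Q / X) ^ (3 * ε) * ∑' n : ℕ, a n * TN4 h Ξ K (c * n) ≤
        X ^ 2 * T := by
      rw [hT, ← tsum_mul_left, ← tsum_mul_left]
      refine (hS4.mul_left _).tsum_le_tsum (fun n => ?_) (hSb.mul_left _)
      have h3 := term_le hε hε1 (A := A) hX hQ hkN (Real.exp_pos (c * n))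
      rw [← hshift'] at h3
      calc (X ^ 2 / Q) ^ 2 * (Q / X) ^ (3 * ε) * (a n * TN4 h Ξ K (c * n)) =
            ((X ^ 2 / Q) ^ 2 * (Q / X) ^ (3 * ε) * a n) * TN4 h Ξ K (c * n) := by ring
        _ ≤ (X ^ 2 * bw ε A (Real.exp (c * n)) (Real.exp (c * n) * X / N)) * TN4 h Ξ K (c * n) :=
            mul_le_mul_of_nonneg_right h3 (TN4_nonneg _ _ _ _)
        _ = _ := by ring
    have hsum0 : 0 ≤ ∑' n : ℕ, a n * TN2 h Ξ K (c * n) :=
      tsum_nonneg fun n => mul_nonneg (ha n) (TN2_nonneg _ _ _ _)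
    have hpow : ((Q / X) ^ ε) ^ 2 * (Q / X) ^ ε = (Q / X) ^ (3 * ε) := by
      rw [← Real.rpow_natCast ((Q / X) ^ ε) 2, ← Real.rpow_mul (by positivity),
        ← Real.rpow_add (by positivity)]
      congr 1; push_cast; ring
    calc ‖PS (cx h) Ξ κ t‖ ^ 4 = (‖PS (cx h) Ξ κ t‖ ^ 2) ^ 2 := by ring
      _ ≤ (C1 * (1 + |t|) ^ J1 * cM (A + 2) ε (9 * M) ^ 2 *
          (1 * Real.exp (2 * κ) / Q * (Q / X) ^ ε) * ∑' n : ℕ, a n * TN2 h Ξ K (c * n)) ^ 2 := by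
          gcongr
      _ = C1 ^ 2 * (1 + |t|) ^ (2 * J1) * cM (A + 2) ε (9 * M) ^ 4 *
          ((X ^ 2 / Q) ^ 2 * ((Q / X) ^ ε) ^ 2) * (∑' n : ℕ, a n * TN2 h Ξ K (c * n)) ^ 2 := by
          rw [hX2, pow_mul' (1 + |t|) 2 J1]; ring
      _ ≤ C1 ^ 2 * (1 + |t|) ^ (2 * J1) * cM (A + 2) ε (9 * M) ^ 4 *
          ((X ^ 2 / Q) ^ 2 * ((Q / X) ^ ε) ^ 2) *
          (((Q / X) ^ ε * (1 - Real.exp (-(c * ε)))⁻¹) * I0 * ∑' n : ℕ, a n * TN4 h Ξ K (c * n)) := by
          gcongr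
          refine hcs.trans ?_
          gcongr
      _ = C1 ^ 2 * cM (A + 2) ε (9 * M) ^ 4 * ((1 - Real.exp (-(c * ε)))⁻¹ * I0) *
          (1 + |t|) ^ (2 * J1) *
          ((X ^ 2 / Q) ^ 2 * (((Q / X) ^ ε) ^ 2 * (Q / X) ^ ε) * ∑' n : ℕ, a n * TN4 h Ξ K (c * n)) := by
          ring
      _ ≤ C1 ^ 2 * cM (A + 2) ε (9 * M) ^ 4 * ((1 - Real.exp (-(c * ε)))⁻¹ * I0) *
          (1 + |t|) ^ (16 + 2 * J1) * (X ^ 2 * T) := by
          rw [hpow]
          gcongr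
          omega
      _ ≤ ((C2 * (nm (9 * M) : ℝ) ^ 2) ^ 4 + C1 ^ 2 * cM (A + 2) ε (9 * M) ^ 4 *
          ((1 - Real.exp (-(c * ε)))⁻¹ * I0)) * (1 + |t|) ^ (16 + 2 * J1) * (1 + X ^ 2 * T) := by
          have h3 : 0 ≤ (C2 * (nm (9 * M) : ℝ) ^ 2) ^ 4 := by positivity
          have h4 : 0 ≤ X ^ 2 * T := by positivity
          gcongr
          · linarith
          · linarith

end Crest.Agent.R017.Two939
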