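import Crest.Agent.R017.E5BDefs_71

/-!
# Row 17, R8: uniform bounds on a finite cover of the domain (helper783)

* **`ub_cover`** : `UB` for `Ψ ≤ Ψ₁ j + Ψ₂ j` on a finite cover `Dj` of the domain
-/

set_option autoImplicit false

noncomputable section

open Finset

namespace Crest.Agent.R017.UBj783

open Crest.Agent.R017.XG702 (Pcs Good_mono)
open Crest.Agent.R017.XT71 (Sys Win)
open Crest.Agent.R017.E5B71

variable {A Pc' ι τ Λ : Type*} [DecidableEq τ]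

lemma exists_pos_le {M : ℕ} {f : Fin M → ℝ} (hf : ∀ j, 0 < f j) :
    ∃ δ : ℝ, 0 < δ ∧ ∀ j, δ ≤ f j := by
  have h0 : 0 ≤ ∑ j, (f j)⁻¹ := sum_nonneg fun j _ => inv_nonneg.2 (hf j).le
  refine ⟨(1 + ∑ j, (f j)⁻¹)⁻¹, by positivity, fun j => ?_⟩
  rw [inv_le_comm₀ (by positivity) (hf j)]
  have h1 := single_le_sum (f := fun j => (f j)⁻¹) (fun j _ => inv_nonneg.2 (hf j).le)
    (mem_univ j)
  linarith

lemma exists_ge {M : ℕ} (f : Fin M → ℝ) : ∃ X : ℝ, ∀ j, f j ≤ X := by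
  refine ⟨∑ j, |f j|, fun j => (le_abs_self _).trans ?_⟩
  exact single_le_sum (f := fun j => |f j|) (fun j _ => abs_nonneg _) (mem_univ j)

/-- **`UB` on a finite cover of the domain** -/
theorem ub_cover {S : Sys A ι} {D : Pcs Pc' τ} {M : ℕ} {Ψ : Λ → A → List Pc' → ℝ}
    {Ψ₁ Ψ₂ : Fin M → Λ → A → List Pc' → ℝ}
    (hΨ : ∀ j lam a ps, Ψ lam a ps ≤ Ψ₁ j lam a ps + Ψ₂ j lam a ps)
    {Dom : Set ((ι → ℝ) × (τ → ℝ))} {Dj : Fin M → Set ((ι → ℝ) × (τ → ℝ))}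
    (hcov : ∀ q ∈ Dom, ∃ j, q ∈ Dj j) {al : Set ((ι → ℝ) × ℝ)}
    {E : (ι → ℝ) × (τ → ℝ) → ℝ} (H1 : ∀ j, UB S D (Ψ₁ j) (Dj j) al E)
    (H2 : ∀ j, UB S D (Ψ₂ j) (Dj j) al E) : UB S D Ψ Dom al E := by
  intro ε hε
  choose d1 hd1 H1 using fun j => H1 j (ε / 2) (by positivity)
  choose d2 hd2 H2 using fun j => H2 j (ε / 2) (by positivity)
  obtain ⟨δ1, hδ1, hm1⟩ := exists_pos_le hd1
  obtain ⟨δ2, hδ2, hm2⟩ := exists_pos_le hd2
  refine ⟨min δ1 δ2, lt_min hδ1 hδ2, fun lam N B => ?_⟩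
  choose e1 he1 x1 hx1 H1 using fun j => H1 j lam N B
  choose e2 he2 x2 hx2 H2 using fun j => H2 j lam N B
  obtain ⟨ρ1, hρ1, hn1⟩ := exists_pos_le he1
  obtain ⟨ρ2, hρ2, hn2⟩ := exists_pos_le he2
  obtain ⟨X1, hX1⟩ := exists_ge x1
  obtain ⟨X2, hX2⟩ := exists_ge x2
  refine ⟨min ρ1 ρ2, lt_min hρ1 hρ2, max (max X1 X2) (max 2 (2 ^ (1 / (ε / 2)))),
    lt_of_lt_of_le one_lt_two ((le_max_left _ _).trans (le_max_right _ _)), ?_⟩
  intro X hX a ps hlen hl q hq hw hm hg hal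
  obtain ⟨j, hj⟩ := hcov q hq
  have hX2' : 2 ≤ X := ((le_max_left _ _).trans (le_max_right _ _)).trans hX
  have h1X : 1 ≤ X := by linarith
  have hX0 : 0 < X := by linarith
  have g1 : x1 j ≤ X := (hX1 j).trans ((le_max_left _ _).trans ((le_max_left _ _).trans hX))
  have g2 : x2 j ≤ X := (hX2 j).trans ((le_max_right _ _).trans ((le_max_left _ _).trans hX))
  have g3 : (2 : ℝ) ≤ X ^ (ε / 2) := by
    have h3 : (2 : ℝ) ^ (1 / (ε / 2)) ≤ X :=
      ((le_max_right _ _).trans (le_max_right _ _)).trans hX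
    calc (2 : ℝ) = ((2 : ℝ) ^ (1 / (ε / 2))) ^ (ε / 2) := by
          rw [← Real.rpow_mul (by norm_num), one_div, inv_mul_cancel₀ (by positivity),
            Real.rpow_one]
      _ ≤ X ^ (ε / 2) := Real.rpow_le_rpow (by positivity) h3 (by positivity)
  have k1 := H1 j X g1 a ps hlen
    (fun p hp => (hl p hp).imp id fun h => h.trans ((min_le_left _ _).trans (hm1 j))) q hj
    (hw.mono h1X ((min_le_left _ _).trans (hm1 j)) le_rfl le_rfl
      ((min_le_left _ _).trans (hn1 j)))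
    (fun t => (hm t).trans ((min_le_left _ _).trans (hm1 j)))
    (Good_mono h1X hg ((min_le_left _ _).trans (hn1 j))) hal
  have k2 := H2 j X g2 a ps hlen
    (fun p hp => (hl p hp).imp id fun h => h.trans ((min_le_right _ _).trans (hm2 j))) q hj
    (hw.mono h1X ((min_le_right _ _).trans (hm2 j)) le_rfl le_rfl
      ((min_le_right _ _).trans (hn2 j)))
    (fun t => (hm t).trans ((min_le_right _ _).trans (hm2 j)))
    (Good_mono h1X hg ((min_le_right _ _).trans (hn2 j))) hal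
  calc Ψ lam a ps ≤ X ^ (E q + ε / 2) + X ^ (E q + ε / 2) :=
        (hΨ j lam a ps).trans (add_le_add k1 k2)
    _ = 2 * X ^ (E q + ε / 2) := by ring
    _ ≤ X ^ (ε / 2) * X ^ (E q + ε / 2) :=
        mul_le_mul_of_nonneg_right g3 (Real.rpow_nonneg hX0.le _)
    _ = X ^ (E q + ε) := by
        rw [← Real.rpow_add hX0]
        congr 1
        ring

end Crest.Agent.R017.UBj783
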