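import Crest.Agent.R017.UBj_783
import Crest.Agent.R017.E4Xc_372

/-!
# Row 17, R8 / E4: the bands of the `e`-cut (helper783)

* `ub_bands` : bands `g q * (j / M) ≤ f q` and rests `f q < g q * ((j + 1) / M)`
* `SfD`, `SfDX` : the part of the structured function of one level with `e > e1`
* `midF_D`, `midX_D` : the triangle inequality
* **`strLow_of_bands`**, **`strLowX_of_bands`** : the low levels at `e0` from the bands and the rests
-/

set_option autoImplicit false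

noncomputable section

open Finset
open scoped ComplexConjugate

namespace Crest.Agent.R017.UBj783

open Crest.Agent.R012 Crest.Agent.R012.Eis
open Crest.Agent.R017.XG702 (Pcs Good_mono)
open Crest.Agent.R017.XT71 (Sys Win)
open Crest.Agent.R017.B770 Crest.Agent.R017.Prov71
open Crest.Agent.R017.E5B71
open Crest.Agent.R017.E5L770
open Crest.Agent.R017.E5LX770 (SfEV SqLX)
open Crest.Agent.R017.ExP960 hiding alX
open Crest.Agent.R017.E4U164
open Crest.Agent.R017.E4Df372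

section gen

variable {A Pc' ι τ Λ : Type*} [DecidableEq τ]

lemma UB_mono {S : Sys A ι} {D : Pcs Pc' τ} {Ψ : Λ → A → List Pc' → ℝ}
    {Dom Dom' : Set ((ι → ℝ) × (τ → ℝ))} {al : Set ((ι → ℝ) × ℝ)}
    {E : (ι → ℝ) × (τ → ℝ) → ℝ} (H : UB S D Ψ Dom al E) (h : ∀ q ∈ Dom', q ∈ Dom) :
    UB S D Ψ Dom' al E := by
  intro ε hε
  obtain ⟨δ, hδ, H⟩ := H ε hε
  refine ⟨δ, hδ, fun lam N B => ?_⟩
  obtain ⟨δ', hδ', X₀, hX₀, H⟩ := H lam N B
  exact ⟨δ', hδ', X₀, hX₀, fun X hX a ps h1 h2 q hq => H X hX a ps h1 h2 q (h q hq)⟩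

lemma UB_zero {S : Sys A ι} {D : Pcs Pc' τ} {Dom : Set ((ι → ℝ) × (τ → ℝ))}
    {al : Set ((ι → ℝ) × ℝ)} {E : (ι → ℝ) × (τ → ℝ) → ℝ} :
    UB S D (fun (_ : Λ) _ _ => 0) Dom al E := fun ε hε =>
  ⟨1, one_pos, fun lam N B => ⟨1, one_pos, 2, one_lt_two, fun X hX a ps _ _ q _ _ _ _ _ =>
    Real.rpow_nonneg (by linarith) _⟩⟩

/-- the band of a point -/
lemma exists_band {M : ℕ} {g f : ℝ} (hf : 0 ≤ f) :
    ∃ j ≤ M, g * ((j : ℝ) / M) ≤ f ∧ (j = M ∨ f < g * (((j : ℝ) + 1) / M)) := by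
  classical
  by_cases hM : g * ((M : ℝ) / M) ≤ f
  · exact ⟨M, le_rfl, hM, Or.inl rfl⟩
  have hex : ∃ j : ℕ, f < g * ((j : ℝ) / M) := ⟨M, not_le.mp hM⟩
  have h1 := Nat.find_spec hex
  have h0 : Nat.find hex ≠ 0 := by
    intro h
    rw [h] at h1
    simp at h1
    linarith
  obtain ⟨n, hn⟩ := Nat.exists_eq_succ_of_ne_zero h0
  have h2 : ¬ f < g * ((n : ℝ) / M) := Nat.find_min hex (by omega)
  have h3 : Nat.find hex ≤ M := Nat.find_min' hex (not_le.mp hM)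
  refine ⟨n, by omega, not_lt.mp h2, Or.inr ?_⟩
  rw [hn] at h1
  push_cast at h1
  exact h1

/-- **bands and rests** -/
theorem ub_bands {S : Sys A ι} {D : Pcs Pc' τ} {M : ℕ} {Ψ : Λ → A → List Pc' → ℝ}
    {Ψ₁ Ψ₂ : ℕ → Λ → A → List Pc' → ℝ} {Dom : Set ((ι → ℝ) × (τ → ℝ))}
    {al : Set ((ι → ℝ) × ℝ)} {E g f : (ι → ℝ) × (τ → ℝ) → ℝ} (hf : ∀ q ∈ Dom, 0 ≤ f q)
    (hΨ : ∀ j < M, ∀ lam a ps, Ψ lam a ps ≤ Ψ₁ j lam a ps + Ψ₂ j lam a ps)
    (hΨM : ∀ lam a ps, Ψ lam a ps ≤ Ψ₁ M lam a ps)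
    (HB : ∀ j ≤ M, UB S D (Ψ₁ j) {q | q ∈ Dom ∧ g q * ((j : ℝ) / M) ≤ f q} al E)
    (HR : ∀ j < M, UB S D (Ψ₂ j) {q | q ∈ Dom ∧ f q < g q * (((j : ℝ) + 1) / M)} al E) :
    UB S D Ψ Dom al E := by
  classical
  refine ub_cover (M := M + 1) (Ψ₁ := fun j => Ψ₁ j)
    (Ψ₂ := fun j lam a ps => if (j : ℕ) < M then Ψ₂ j lam a ps else 0)
    (Dj := fun j => {q | q ∈ Dom ∧ g q * (((j : ℕ) : ℝ) / M) ≤ f q ∧
      ((j : ℕ) = M ∨ f q < g q * ((((j : ℕ) : ℝ) + 1) / M))}) ?_ ?_ ?_ ?_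
  · intro j lam a ps
    by_cases hj : (j : ℕ) < M
    · rw [if_pos hj]
      exact hΨ j hj lam a ps
    · have : (j : ℕ) = M := by have := j.2; omega
      rw [if_neg hj, add_zero, this]
      exact hΨM lam a ps
  · intro q hq
    obtain ⟨j, hj, h1, h2⟩ := exists_band (M := M) (g := g q) (hf q hq)
    exact ⟨⟨j, by omega⟩, hq, h1, h2⟩
  · intro j
    exact UB_mono (HB j (by have := j.2; omega)) fun q hq => ⟨hq.1, hq.2.1⟩
  · intro j
    by_cases hj : (j : ℕ) < M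
    · simp only [if_pos hj]
      refine UB_mono (HR j hj) fun q hq => ⟨hq.1, ?_⟩
      rcases hq.2.2 with h | h
      · omega
      · exact h
    · simp only [if_neg hj]
      exact UB_zero

end gen

/-! ### the structured function of one level -/

section N

variable {Λ : Type*} (π : Λ → DPar) (h : ℝ → ℝ)

/-- the part with `e > e1` -/
def SfD (e0 e1 r : ℝ) (Bf : ℝ → ℝ → ℝ → ℝ) (Jf : ℝ → ℝ → ℝ → Finset (Eis × Eis)) (i : ℕ) :
    SF Λ := fun lam t l ps z k =>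
  SfV π h e0 r Bf Jf i lam t l ps z k - SfV π h e1 r Bf Jf i lam t l ps z k

/-- the triangle inequality -/
theorem midF_D (e0 e1 r : ℝ) (Bf : ℝ → ℝ → ℝ → ℝ) (Jf : ℝ → ℝ → ℝ → Finset (Eis × Eis)) (i : ℕ)
    {lam : Λ × Eis} (hP : (π lam.1).OK) (a : Bd) (ps : List Pq) :
    MidF π h (SfV π h e0 r Bf Jf i) lam a ps ≤ MidF π h (SfV π h e1 r Bf Jf i) lam a ps +
      MidF π h (SfD π h e0 e1 r Bf Jf i) lam a ps := by
  have h1 := midF_le_sum π h hP a ps (univ : Finset (Fin 2)) (SfV π h e0 r Bf Jf i)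
    (fun j => if j = 0 then SfV π h e1 r Bf Jf i else SfD π h e0 e1 r Bf Jf i) (fun k => by
      rw [Fin.sum_univ_two]
      simp only [if_true, Fin.isValue, one_ne_zero, if_false]
      unfold SF.at SfD
      ring)
  rw [Fin.sum_univ_two] at h1
  simpa using h1

/-- **the difference of the double difference** -/
def SfDX (e0 e1 r : ℝ) (Bf : ℝ → ℝ → ℝ → ℝ) (Jf : ℝ → ℝ → ℝ → Finset (Eis × Eis)) (i : ℕ) :
    SFX Λ := fun lam t l ps Z Z' z k =>
  SfEV π h e0 r Bf Jf i lam t l ps Z Z' z k - SfEV π h e1 r Bf Jf i lam t l ps Z Z' z k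

/-- the triangle inequality, class E -/
theorem midX_D (e0 e1 r : ℝ) (Bf : ℝ → ℝ → ℝ → ℝ) (Jf : ℝ → ℝ → ℝ → Finset (Eis × Eis)) (i : ℕ)
    {lam : Λ × Eis} (hP : (π lam.1).OK) (a : BdX) (ps : List Pq) :
    MidX π h (SfEV π h e0 r Bf Jf i) lam a ps ≤ MidX π h (SfEV π h e1 r Bf Jf i) lam a ps +
      MidX π h (SfDX π h e0 e1 r Bf Jf i) lam a ps := by
  have h1 := ExP960.midX_le_sum π h hP a ps (univ : Finset (Fin 2)) (SfEV π h e0 r Bf Jf i)
    (fun j => if j = 0 then SfEV π h e1 r Bf Jf i else SfDX π h e0 e1 r Bf Jf i) (fun _ k => by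
      rw [Fin.sum_univ_two]
      simp only [if_true, Fin.isValue, one_ne_zero, if_false]
      unfold SFX.at SfDX
      ring)
  rw [Fin.sum_univ_two] at h1
  simpa using h1

end N

/-! ### the low levels -/

variable {Λ : Type*} {π : Λ → DPar} {h : ℝ → ℝ}

/-- **the low levels of class N from the bands and the rests** -/
theorem strLow_of_bands (hP : ∀ lam, (π lam).OK) {A d e0 r : ℝ} (hd : 0 ≤ d) {M : ℕ} (hM : 0 < M)
    {Bf : ℝ → ℝ → ℝ → ℝ} {Jf : ℝ → ℝ → ℝ → Finset (Eis × Eis)}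
    {E : (Option (Fin 3 ⊕ Fin 5) → ℝ) × (Kd → ℝ) → ℝ}
    (HB : ∀ j ≤ M, UB (lev (Real.log 2) S5) Dq
      (fun lam a ps => if a.2 < nL a.1.l (a3 a.1) a.1.z then
        MidF π h (SfV π h (e0 * j / M) r Bf Jf a.2) lam a.1 ps else 0)
      {q | q ∈ SqLow A d ∧ 4 * (e0 * j / M) * cκ (dn q.1) ≤ low5 (dn q.1) - q.1 none + d / 2}
      (alL al5) E)
    (HR : ∀ j < M, UB (lev (Real.log 2) S5) Dq
      (fun lam a ps => if a.2 < nL a.1.l (a3 a.1) a.1.z then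
        MidF π h (SfD π h e0 (e0 * j / M) r Bf Jf a.2) lam a.1 ps else 0)
      {q | q ∈ SqLow A d ∧
        low5 (dn q.1) - q.1 none + d / 2 < 4 * (e0 * (j + 1) / M) * cκ (dn q.1)}
      (alL al5) E) :
    UB (lev (Real.log 2) S5) Dq
      (fun lam a ps => if a.2 < nL a.1.l (a3 a.1) a.1.z then
        MidF π h (SfV π h e0 r Bf Jf a.2) lam a.1 ps else 0) (SqLow A d) (alL al5) E := by
  have hM0 : (M : ℝ) ≠ 0 := by exact_mod_cast hM.ne'
  refine ub_bands (M := M) (g := fun q => 4 * e0 * cκ (dn q.1))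
    (f := fun q => low5 (dn q.1) - q.1 none + d / 2)
    (Ψ₁ := fun j lam a ps => if a.2 < nL a.1.l (a3 a.1) a.1.z then
        MidF π h (SfV π h (e0 * j / M) r Bf Jf a.2) lam a.1 ps else 0)
    (Ψ₂ := fun j lam a ps => if a.2 < nL a.1.l (a3 a.1) a.1.z then
        MidF π h (SfD π h e0 (e0 * j / M) r Bf Jf a.2) lam a.1 ps else 0)
    (fun q hq => ?_) (fun j _ lam a ps => ?_) (fun lam a ps => ?_) (fun j hj => ?_)
    (fun j hj => ?_)
  · have := hq.2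
    linarith
  · split_ifs
    · exact midF_D π h e0 (e0 * j / M) r Bf Jf a.2 (hP lam.1) a.1 ps
    · simp
  · rw [mul_div_assoc, div_self hM0, mul_one]
  · refine UB_mono (HB j hj) fun q hq => ⟨hq.1, le_trans (le_of_eq ?_) hq.2⟩
    ring
  · refine UB_mono (HR j hj) fun q hq => ⟨hq.1, lt_of_lt_of_le hq.2 (le_of_eq ?_)⟩
    ring

/-- **the low levels of class E from the bands and the rests** -/
theorem strLowX_of_bands (hP : ∀ lam, (π lam).OK) {A d β e0 r : ℝ} (hd : 0 ≤ d) {M : ℕ}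
    (hM : 0 < M) {Bf : ℕ → ℝ → ℝ → ℝ → ℝ} {Jf : ℝ → ℝ → ℝ → Finset (Eis × Eis)}
    {E : (Option IX5 → ℝ) × (Kd → ℝ) → ℝ}
    (HB : ∀ j ≤ M, UB (lev (Real.log 2) S5X) Dq
      (fun lam a ps => if a.2 < nL a.1.l (a3 a.1.toBd) a.1.z then
        MidX π h (SfEV π h (e0 * j / M) r (Bf a.2) Jf a.2) lam a.1 ps else 0)
      {q | q ∈ SqLowX A d β ∧
        4 * (e0 * j / M) * cκ (prX (dn q.1)) ≤ low5 (prX (dn q.1)) - q.1 none + d / 2}
      (alL ExP960.alX) E)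
    (HR : ∀ j < M, UB (lev (Real.log 2) S5X) Dq
      (fun lam a ps => if a.2 < nL a.1.l (a3 a.1.toBd) a.1.z then
        MidX π h (SfDX π h e0 (e0 * j / M) r (Bf a.2) Jf a.2) lam a.1 ps else 0)
      {q | q ∈ SqLowX A d β ∧
        low5 (prX (dn q.1)) - q.1 none + d / 2 < 4 * (e0 * (j + 1) / M) * cκ (prX (dn q.1))}
      (alL ExP960.alX) E) :
    UB (lev (Real.log 2) S5X) Dq
      (fun lam a ps => if a.2 < nL a.1.l (a3 a.1.toBd) a.1.z then
        MidX π h (SfEV π h e0 r (Bf a.2) Jf a.2) lam a.1 ps else 0)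
      (SqLowX A d β) (alL ExP960.alX) E := by
  have hM0 : (M : ℝ) ≠ 0 := by exact_mod_cast hM.ne'
  refine ub_bands (M := M) (g := fun q => 4 * e0 * cκ (prX (dn q.1)))
    (f := fun q => low5 (prX (dn q.1)) - q.1 none + d / 2)
    (Ψ₁ := fun j lam a ps => if a.2 < nL a.1.l (a3 a.1.toBd) a.1.z then
        MidX π h (SfEV π h (e0 * j / M) r (Bf a.2) Jf a.2) lam a.1 ps else 0)
    (Ψ₂ := fun j lam a ps => if a.2 < nL a.1.l (a3 a.1.toBd) a.1.z then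
        MidX π h (SfDX π h e0 (e0 * j / M) r (Bf a.2) Jf a.2) lam a.1 ps else 0)
    (fun q hq => ?_) (fun j _ lam a ps => ?_) (fun lam a ps => ?_) (fun j hj => ?_)
    (fun j hj => ?_)
  · have := hq.2
    linarith
  · split_ifs
    · exact midX_D π h e0 (e0 * j / M) r (Bf a.2) Jf a.2 (hP lam.1) a.1 ps
    · simp
  · rw [mul_div_assoc, div_self hM0, mul_one]
  · refine UB_mono (HB j hj) fun q hq => ⟨hq.1, le_trans (le_of_eq ?_) hq.2⟩
    ring
  · refine UB_mono (HR j hj) fun q hq => ⟨hq.1, lt_of_lt_of_le hq.2 (le_of_eq ?_)⟩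
    ring

end Crest.Agent.R017.UBj783
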