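import Crest.Agent.R017.E5BDefs_71

/-!
# Row 17: compactness over all boxes with marked data, local version (helper71)

* `topBL` : `topB` where the boxes are only known on a larger compact domain `Dom'` which contains
  `q - b` (`0 ≤ b ≤ b₀`, removal of tiny lumps) for `q ∈ Dom`
* `ub_of_bgbL` : the same for `UB`
-/

set_option autoImplicit false
set_option linter.unusedSectionVars false
set_option linter.unusedVariables false

noncomputable section

open Set Filter Topology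

namespace Crest.Agent.R017.UM71

open Crest.Agent.R017.XG702
open Crest.Agent.R017.XT71 (Sys Win)

variable {A Pc ι τ Lam : Type*} [DecidableEq τ]
variable {S : Sys A ι} {D : Pcs Pc τ}

/-- **all boxes**, closed allowed region; lists near `Dom`, boxes in the larger domain `Dom'` -/
theorem topBL [Fintype ι] [Fintype τ] (t₀ : τ) {Ψ : Lam → A → List Pc → ℝ}
    (h0 : ∀ lam l ps, 0 ≤ Ψ lam l ps)
    (hperm : ∀ lam l ps qs, ps.Perm qs → Ψ lam l ps = Ψ lam l qs) (hs1 : ∀ p, 0 ≤ D.s1 p)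
    (hrem : ∀ lam, ∃ (C : ℝ) (A : ℕ), 1 ≤ C ∧ ∀ l p ps,
      Ψ lam l (p :: ps) ≤ C * (1 + D.s1 p) ^ A * Real.exp (D.len p) * Ψ lam l ps)
    (hkind : ∀ p, D.lump p → D.kind p = t₀) {Dom Dom' : Set ((ι → ℝ) × (τ → ℝ))}
    (hDom : IsCompact Dom') (hDD : Dom ⊆ Dom') (hnn : ∀ q ∈ Dom, ∀ t, 0 ≤ q.2 t) {b₀ : ℝ}
    (hb₀ : 0 < b₀) (hdown : ∀ q ∈ Dom, ∀ b, 0 ≤ b → b ≤ q.2 t₀ → b ≤ b₀ →
      (q.1, Function.update q.2 t₀ (q.2 t₀ - b)) ∈ Dom') {T : (ι → ℝ) × (τ → ℝ) → ℝ}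
    (hT : Continuous T)
    (hTm : ∀ q ∈ Dom, ∀ b, 0 ≤ b → b ≤ q.2 t₀ →
      T (q.1, Function.update q.2 t₀ (q.2 t₀ - b)) ≤ T q) {μ : ℝ}
    {Al : ∀ n : ℕ, Set ((ι → ℝ) × (Fin n → ℝ))} (hAl : ∀ n, IsClosed (Al n))
    (hbox : ∀ (p : ι → ℝ) (u : List ℝ) (w : τ → ℝ), (∀ x ∈ u, 0 < x) → (∀ t, 0 ≤ w t) →
      (p, tot t₀ u.sum w) ∈ Dom' → (p, u.get) ∈ Al u.length →
      BGB S D Ψ p u w (T (p, tot t₀ u.sum w) - μ))
    {μ' : ℝ} (hμ : μ' < μ) :
    ∃ δ : ℝ, 0 < δ ∧ ∀ (lam : Lam) (N : ℕ) (B : ℝ), ∃ δ' : ℝ, 0 < δ' ∧ ∃ X₀ : ℝ, 1 < X₀ ∧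
      ∀ X : ℝ, X₀ ≤ X → ∀ (k : A) (ps : List Pc), ps.length ≤ N →
        (∀ p ∈ ps, D.lump p ∨ D.nl X p ≤ δ) → ∀ q ∈ Dom, Win S q.1 δ N B δ' X k →
        (∀ t, |D.mass X ps t - q.2 t| ≤ δ) → D.Good X δ' B ps →
        (∀ us : List Pc, us.Subperm ps → (∀ p ∈ us, D.lump p) →
          (S.ev X k, fun i : Fin us.length => D.nl X (us.get i)) ∈ Al us.length) →
          Ψ lam k ps ≤ X ^ (T q - μ') := by
  classical
  obtain ⟨ε, hεp, hε4, hεb⟩ : ∃ ε : ℝ, 0 < ε ∧ 4 * ε ≤ μ - μ' ∧ ε ≤ b₀ :=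
    ⟨min ((μ - μ') / 4) b₀, lt_min (by linarith) hb₀, by
      have := min_le_left ((μ - μ') / 4) b₀
      linarith, min_le_right _ _⟩
  -- bound for the masses
  obtain ⟨M, hM⟩ : ∃ M : ℝ, ∀ q ∈ Dom, q.2 t₀ ≤ M := by
    obtain ⟨R, hR⟩ := hDom.isBounded.subset_closedBall (0 : (ι → ℝ) × (τ → ℝ))
    refine ⟨R, fun q hq => ?_⟩
    have h1 := mem_closedBall_zero_iff.1 (hR (hDD hq))
    have h2 : ‖q.2‖ ≤ ‖q‖ := by rw [Prod.norm_def]; exact le_max_right _ _
    have h3 := norm_le_pi_norm q.2 t₀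
    rw [Real.norm_eq_abs] at h3
    linarith [le_abs_self (q.2 t₀)]
  have hst : ∀ a : ℝ, 0 < a → ∃ δ : ℝ, 0 < δ ∧ ∀ (lam : Lam) (N : ℕ) (B : ℝ), ∃ δ' : ℝ, 0 < δ' ∧
      ∃ X₀ : ℝ, 1 < X₀ ∧ ∀ X : ℝ, X₀ ≤ X → ∀ (k : A) (us gs : List Pc),
        (∀ p ∈ us, D.lump p ∧ D.kind p = t₀ ∧ a ≤ D.nl X p) → gs.length ≤ N →
        (∀ g ∈ gs, D.nl X g ≤ δ) →
        (S.ev X k, fun i : Fin us.length => D.nl X (us.get i)) ∈ Al us.length →
        ∀ q ∈ Dom', Win S q.1 δ N B δ' X k →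
        (∀ t, |D.mass X (us ++ gs) t - q.2 t| ≤ δ) → D.Good X δ' B (us ++ gs) →
          Ψ lam k (us ++ gs) ≤ X ^ (T q - μ + ε) := fun a ha =>
    stageB t₀ hDom hT hAl hbox ha hεp
  choose! dl hdl K using hst
  -- the thresholds
  let a : ℕ → ℝ := fun j => Nat.rec (1 : ℝ) (fun _ x => min (dl x) x / 2) j
  have ha0 : a 0 = 1 := rfl
  have hasucc : ∀ j, a (j + 1) = min (dl (a j)) (a j) / 2 := fun j => rfl
  have hapos : ∀ j, 0 < a j := by
    intro j
    induction j with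
    | zero => rw [ha0]; exact one_pos
    | succ j ih => rw [hasucc]; exact half_pos (lt_min (hdl _ ih) ih)
  have hanti : Antitone a := by
    refine antitone_nat_of_succ_le fun j => ?_
    rw [hasucc]
    have := min_le_right (dl (a j)) (a j)
    linarith [hapos j]
  have hadl : ∀ j, a (j + 1) ≤ dl (a j) := fun j => by
    rw [hasucc]
    have := min_le_left (dl (a j)) (a j)
    linarith [hdl _ (hapos j)]
  obtain ⟨J, hJ⟩ : ∃ J : ℕ, (M + 1) / ε < J := exists_nat_gt _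
  set δ := min (a (J + 1)) 1 with hδdef
  have hδ : 0 < δ := lt_min (hapos (J + 1)) one_pos
  refine ⟨δ, hδ, fun lam N B => ?_⟩
  obtain ⟨C, A', hC, hrem⟩ := hrem lam
  choose! η hη X₀ hX₀ KK using fun (x : ℝ) (hx : 0 < x) => K x hx lam N B
  set R := Finset.range (J + 1) with hR
  have hRne : R.Nonempty := ⟨0, by simp [hR]⟩
  set η' := min (R.inf' hRne fun j => η (a j)) (ε / (A' * N + 1)) with hη'
  have hη'p : 0 < η' := by
    rw [hη']
    refine lt_min ?_ (by positivity)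
    rw [Finset.lt_inf'_iff]; intro j _; exact hη _ (hapos j)
  -- `X` large
  obtain ⟨X₁, hX₁, hX₁'⟩ : ∃ X₁ : ℝ, 1 < X₁ ∧ ∀ X, X₁ ≤ X → (C * 2 ^ A') ^ N ≤ X ^ ε := by
    have ht := tendsto_rpow_atTop hεp
    obtain ⟨Y, hY⟩ := Filter.eventually_atTop.1 (ht.eventually_ge_atTop ((C * 2 ^ A') ^ N))
    exact ⟨max Y 2, lt_of_lt_of_le (by norm_num) (le_max_right _ _),
      fun X hX => hY X ((le_max_left _ _).trans hX)⟩
  refine ⟨η', hη'p, max X₁ (R.sup' hRne fun j => X₀ (a j)), lt_of_lt_of_le hX₁ (le_max_left _ _),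
    ?_⟩
  intro X hX k ps hlen hlump q hq hk hm hgood hallow
  have hX1 : 1 < X := lt_of_lt_of_le hX₁ ((le_max_left _ _).trans hX)
  have hXp : 0 < X := by linarith
  have hlog : 0 < Real.log X := Real.log_pos hX1
  have hnl : ∀ p ∈ ps, 0 ≤ D.nl X p := fun p hp => div_nonneg (hgood p hp).2.2 hlog.le
  have hq0 := hnn q hq t₀
  have hbig : ∀ p ∈ ps, a (J + 1) < D.nl X p → D.lump p := by
    intro p hp h
    rcases hlump p hp with h' | h'
    · exact h'
    · exact absurd (h'.trans (min_le_left _ _)) (not_le.2 h)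
  -- the band
  have hsum := bnd_sum (D := D) hanti t₀ (J := J + 1) ps hnl
    (fun p hp h => hkind p (hbig p hp h))
  obtain ⟨j, hj, hbj⟩ : ∃ j ∈ R, ((bnd D X (a (j + 1)) (a j) ps).map (D.nl X)).sum ≤ ε := by
    by_contra hcon
    push Not at hcon
    have h1 : (R.card : ℝ) * ε ≤ ∑ j ∈ R, ((bnd D X (a (j + 1)) (a j) ps).map (D.nl X)).sum := by
      rw [← nsmul_eq_mul]
      exact Finset.card_nsmul_le_sum _ _ _ fun j hj => (hcon j hj).le
    have h2 : D.mass X ps t₀ ≤ M + 1 := by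
      have := (abs_le.1 (hm t₀)).2
      have h3 : δ ≤ 1 := min_le_right _ _
      linarith [hM q hq]
    have h3 : (R.card : ℝ) = J + 1 := by simp [hR]
    rw [h3] at h1
    have h4 : (M + 1) < J * ε := by rwa [div_lt_iff₀ hεp] at hJ
    have h5 : (J + 1 : ℝ) * ε ≤ M + 1 := h1.trans (hsum.trans h2)
    nlinarith
  have hjJ : j < J + 1 := by simpa [hR] using hj
  set bs := bnd D X (a (j + 1)) (a j) ps with hbs
  set bm := (bs.map (D.nl X)).sum with hbm
  obtain ⟨us, gs, hp, hus, hgs⟩ := bnd_perm (D := D) (X := X) (hanti (Nat.le_succ j)) ps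
  rw [← hbs] at hp
  have hmemb : ∀ p ∈ bs, p ∈ ps := fun p hp' => hp.mem_iff.mpr (List.mem_append_left _ hp')
  have hmemr : ∀ p ∈ us ++ gs, p ∈ ps := fun p hp' => hp.mem_iff.mpr (List.mem_append_right _ hp')
  have hbsP : ∀ p ∈ bs, a (j + 1) < D.nl X p ∧ D.nl X p ≤ a j := by
    intro p hp'
    have h1 : p ∈ bnd D X (a (j + 1)) (a j) ps := hp'
    unfold bnd at h1
    have := (List.mem_filter.1 h1).2
    simpa using this
  have hkb : ∀ p ∈ bs, D.kind p = t₀ := fun p hp' =>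
    hkind p (hbig p (hmemb p hp')
      (lt_of_le_of_lt (hanti (show j + 1 ≤ J + 1 by omega)) (hbsP p hp').1))
  have hbm0 : 0 ≤ bm := by
    rw [hbm]
    apply List.sum_nonneg
    intro x hx
    rw [List.mem_map] at hx
    obtain ⟨p, hp', rfl⟩ := hx
    exact hnl p (hmemb p hp')
  -- masses
  have hmass : ∀ t, D.mass X ps t = (if t = t₀ then bm else 0) + D.mass X (us ++ gs) t := by
    intro t
    rw [D.mass_perm hp, D.mass_append, mass_lumps hkb]
  have hr0 : ∀ t, 0 ≤ D.mass X (us ++ gs) t := fun t => mass_nonneg (fun g hg => hnl g (hmemr g hg)) t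
  set b := min bm (q.2 t₀) with hb
  have hb0 : 0 ≤ b := le_min hbm0 hq0
  have hbq : b ≤ q.2 t₀ := min_le_right _ _
  set q' : (ι → ℝ) × (τ → ℝ) := (q.1, Function.update q.2 t₀ (q.2 t₀ - b)) with hq'
  have hbb₀ : b ≤ b₀ := (min_le_left _ _).trans (hbj.trans hεb)
  have hq'D : q' ∈ Dom' := hdown q hq b hb0 hbq hbb₀
  have hTq : T q' ≤ T q := hTm q hq b hb0 hbq
  have hδa : δ ≤ a (j + 1) :=
    (min_le_left _ _).trans (hanti (show j + 1 ≤ J + 1 by omega))
  have hδd : δ ≤ dl (a j) := hδa.trans (hadl j)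
  have hXj : X₀ (a j) ≤ X := ((Finset.le_sup' (fun j => X₀ (a j)) hj).trans
    (le_max_right _ _)).trans hX
  have hm' : ∀ t, |D.mass X (us ++ gs) t - q'.2 t| ≤ δ := by
    intro t
    have h1 := hm t
    rw [hmass t] at h1
    by_cases ht : t = t₀
    · subst ht
      rw [if_pos rfl] at h1
      have e : q'.2 t = q.2 t - b := by simp [hq']
      rw [e]
      rcases le_total bm (q.2 t) with hle | hle
      · have hbe : b = bm := min_eq_left hle
        rw [hbe]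
        have : D.mass X (us ++ gs) t - (q.2 t - bm) = bm + D.mass X (us ++ gs) t - q.2 t := by ring
        rw [this]; exact h1
      · have hbe : b = q.2 t := min_eq_right hle
        rw [hbe, sub_self, sub_zero, abs_of_nonneg (hr0 t)]
        linarith [(abs_le.1 h1).2]
    · rw [if_neg ht, zero_add] at h1
      have e : q'.2 t = q.2 t := by simp [hq', ht]
      rw [e]; exact h1
  have hgl : gs.length ≤ N := by
    have := hp.length_eq
    rw [List.length_append, List.length_append] at this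
    omega
  have hbl : bs.length ≤ N := by
    have := hp.length_eq
    rw [List.length_append, List.length_append] at this
    omega
  have hus' : ∀ p ∈ us, D.lump p ∧ D.kind p = t₀ ∧ a j ≤ D.nl X p := by
    intro p hp'
    have h1 := hus p hp'
    have h2 : D.lump p := hbig p (hmemr p (List.mem_append_left _ hp'))
      (lt_of_le_of_lt (hanti (show j ≤ J + 1 by omega)) h1)
    exact ⟨h2, hkind p h2, h1.le⟩
  have hsub : us.Subperm ps := by
    refine List.Subperm.trans ?_ hp.symm.subperm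
    exact ((List.sublist_append_left us gs).trans (List.sublist_append_right bs _)).subperm
  have hη'j : η' ≤ η (a j) := (min_le_left _ _).trans (Finset.inf'_le _ hj)
  have hgood' : D.Good X (η (a j)) B (us ++ gs) :=
    Good_mono hX1.le (Good_sub hgood hmemr) hη'j
  have key := KK (a j) (hapos j) X hXj k us gs hus' hgl
    (fun g hg => (hgs g hg).trans (hadl j)) (hallow us hsub fun p hp' => (hus' p hp').1)
    q' hq'D (hk.mono hX1.le hδd le_rfl le_rfl hη'j)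
    (fun t => (hm' t).trans hδd) hgood'
  -- removal of the band
  have hC0 : 0 ≤ C := by linarith
  have hrem' := rem_list (Ψ := fun (_ : ℝ) ps => Ψ lam k ps)
    (R := fun p => C * (1 + D.s1 p) ^ A' * Real.exp (D.len p))
    (fun p => by have := hs1 p; positivity) (fun _ p ps => hrem k p ps) 0 bs (us ++ gs)
  rw [hperm _ _ _ _ hp]
  have hXη : 1 ≤ X ^ η' := Real.one_le_rpow hX1.le hη'p.le
  have hprod := prod_le_pow (D := D) (R := fun p => C * (1 + D.s1 p) ^ A' * Real.exp (D.len p))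
    (c := C * (2 * X ^ η') ^ A') hX1 (by
      have : (1:ℝ) ≤ (2 * X ^ η') ^ A' := one_le_pow₀ (by linarith)
      nlinarith) bs (by
      intro p hp'
      have h1 := hs1 p
      refine ⟨by positivity, ?_⟩
      have h2 : 1 + D.s1 p ≤ 2 * X ^ η' := by
        have := (hgood p (hmemb p hp')).1
        linarith
      gcongr)
  have hlast : (C * (2 * X ^ η') ^ A') ^ bs.length ≤ X ^ (2 * ε) := by
    have h1 : (1:ℝ) ≤ C * (2 * X ^ η') ^ A' := by
      have : (1:ℝ) ≤ (2 * X ^ η') ^ A' := one_le_pow₀ (by linarith)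
      nlinarith
    calc (C * (2 * X ^ η') ^ A') ^ bs.length ≤ (C * (2 * X ^ η') ^ A') ^ N :=
          pow_le_pow_right₀ h1 hbl
      _ = (C * 2 ^ A') ^ N * (X ^ η') ^ (A' * N) := by
          rw [mul_pow 2, ← mul_assoc, mul_pow, ← pow_mul (X ^ η')]
      _ ≤ X ^ ε * X ^ ε := by
          refine mul_le_mul (hX₁' X ((le_max_left _ _).trans hX)) ?_ (by positivity) (by positivity)
          rw [← Real.rpow_natCast, ← Real.rpow_mul hXp.le]
          refine Real.rpow_le_rpow_of_exponent_le hX1.le ?_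
          have h2 : η' ≤ ε / (A' * N + 1) := min_le_right _ _
          have h3 : (0:ℝ) ≤ (A' * N : ℕ) := by positivity
          calc η' * ((A' * N : ℕ) : ℝ) ≤ ε / (A' * N + 1) * ((A' * N : ℕ) : ℝ) :=
                mul_le_mul_of_nonneg_right h2 h3
            _ ≤ ε := by
                push_cast
                rw [div_mul_eq_mul_div, div_le_iff₀ (by positivity)]
                nlinarith
      _ = X ^ (2 * ε) := by rw [← Real.rpow_add hXp]; congr 1; ring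
  have hkey0 := h0 lam k (us ++ gs)
  calc Ψ lam k (bs ++ (us ++ gs))
      ≤ (bs.map fun p => C * (1 + D.s1 p) ^ A' * Real.exp (D.len p)).prod *
        Ψ lam k (us ++ gs) := hrem'
    _ ≤ ((C * (2 * X ^ η') ^ A') ^ bs.length * X ^ bm) * X ^ (T q' - μ + ε) :=
        mul_le_mul hprod key hkey0 (by positivity)
    _ ≤ (X ^ (2 * ε) * X ^ ε) * X ^ (T q - μ + ε) := by
        refine mul_le_mul (mul_le_mul hlast ?_ (by positivity) (by positivity)) ?_
          (by positivity) (by positivity)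
        · exact Real.rpow_le_rpow_of_exponent_le hX1.le hbj
        · exact Real.rpow_le_rpow_of_exponent_le hX1.le (by linarith)
    _ ≤ X ^ (T q - μ') := by
        rw [← Real.rpow_add hXp, ← Real.rpow_add hXp]
        exact Real.rpow_le_rpow_of_exponent_le hX1.le (by linarith)

end Crest.Agent.R017.UM71

namespace Crest.Agent.R017.E5B71

open Crest.Agent.R017.XG702 (Pcs)
open Crest.Agent.R017.XT71 (Sys Win mx)
open Crest.Agent.R017.UM71

variable {A Pc' ι τ Λ : Type*} [DecidableEq τ]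

/-- `UB` on `Dom` from configurations in `Dom'` -/
theorem ub_of_bgbL [Fintype ι] [Fintype τ] {S : Sys A ι} {D : Pcs Pc' τ} (t₀ : τ)
    {Ψ : Λ → A → List Pc' → ℝ} (h0 : ∀ lam l ps, 0 ≤ Ψ lam l ps)
    (hperm : ∀ lam l ps qs, ps.Perm qs → Ψ lam l ps = Ψ lam l qs) (hs1 : ∀ p, 0 ≤ D.s1 p)
    (hrem : ∀ lam, ∃ (C : ℝ) (A : ℕ), 1 ≤ C ∧ ∀ l p ps,
      Ψ lam l (p :: ps) ≤ C * (1 + D.s1 p) ^ A * Real.exp (D.len p) * Ψ lam l ps)
    (hkind : ∀ p, D.lump p → D.kind p = t₀) {Dom Dom' : Set ((ι → ℝ) × (τ → ℝ))}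
    (hDom : IsCompact Dom') (hDD : Dom ⊆ Dom') (hnn : ∀ q ∈ Dom, ∀ t, 0 ≤ q.2 t) {b₀ : ℝ}
    (hb₀ : 0 < b₀) (hdown : ∀ q ∈ Dom, ∀ b, 0 ≤ b → b ≤ q.2 t₀ → b ≤ b₀ →
      (q.1, Function.update q.2 t₀ (q.2 t₀ - b)) ∈ Dom') {E : (ι → ℝ) × (τ → ℝ) → ℝ}
    (hE : Continuous E)
    (hEm : ∀ q ∈ Dom, ∀ b, 0 ≤ b → b ≤ q.2 t₀ →
      E (q.1, Function.update q.2 t₀ (q.2 t₀ - b)) ≤ E q)
    {al : Set ((ι → ℝ) × ℝ)} (hal : IsClosed al)
    (hbox : ∀ (p : ι → ℝ) (u : List ℝ) (w : τ → ℝ), (∀ x ∈ u, 0 < x) → (∀ t, 0 ≤ w t) →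
      (p, XG702.tot t₀ u.sum w) ∈ Dom' → (∀ x ∈ u, (p, x) ∈ al) →
      BGB S D Ψ p u w (E (p, XG702.tot t₀ u.sum w))) :
    UB S D Ψ Dom al E := by
  intro ε hε
  obtain ⟨δ, hδ, K⟩ := topBL (S := S) (D := D) t₀ h0 hperm hs1 hrem hkind hDom hDD hnn hb₀ hdown hE hEm
    (μ := 0) (Al := fun n => {p | ∀ i, (p.1, p.2 i) ∈ al})
    (fun n => by
      have : {p : (ι → ℝ) × (Fin n → ℝ) | ∀ i, (p.1, p.2 i) ∈ al} =
          ⋂ i, (fun p : (ι → ℝ) × (Fin n → ℝ) => (p.1, p.2 i)) ⁻¹' al := by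
        ext p; simp
      rw [this]
      exact isClosed_iInter fun i => hal.preimage (by fun_prop))
    (fun p u w hu hw hD hA => by
      rw [sub_zero]
      refine hbox p u w hu hw hD fun x hx => ?_
      obtain ⟨i, rfl⟩ := List.get_of_mem hx
      exact hA i)
    (μ' := -ε) (by linarith)
  refine ⟨δ, hδ, fun lam N B => ?_⟩
  obtain ⟨δ', hδ', X₀, hX₀, K'⟩ := K lam N B
  refine ⟨δ', hδ', X₀, hX₀, fun X hX a ps h1 h2 q hq hw hm hg hl => ?_⟩
  have := K' X hX a ps h1 h2 q hq hw hm hg (fun us hsub hus i =>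
    hl _ (hsub.subset (List.get_mem us i)) (hus _ (List.get_mem us i)))
  rwa [sub_neg_eq_add] at this


end Crest.Agent.R017.E5B71
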