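import Crest.Agent.R017.XG4_702
import Crest.Agent.R017.XT3_71

/-!
# Row 17: compactness over all boxes with marked data (helper71)

Generalisation of `topA` (helper702): the functional depends on a base datum `a : A` with an exponent
vector (`Sys A ι`, e.g. the family, five marked lumps, growing parameters) and a list of pieces.

* `BGB` : robust exponent at `(p, u, w)`
* `unifB`, `stageB`, `topB`
-/

set_option autoImplicit false
set_option linter.unusedSectionVars false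
set_option linter.unusedVariables false

noncomputable section

open Set Filter Topology

namespace Crest.Agent.R017.UM71

open Crest.Agent.R017.XG702
open Crest.Agent.R017.XT71 (Sys Win)

variable {A Pc ι τ Lam : Type*} [DecidableEq τ]

/-- robust exponent: base datum and list of pieces -/
def BGB (S : Sys A ι) (D : Pcs Pc τ) (Ψ : Lam → A → List Pc → ℝ) (p : ι → ℝ) (u : List ℝ)
    (w : τ → ℝ) (e : ℝ) : Prop :=
  ∀ ε : ℝ, 0 < ε → ∃ δ : ℝ, 0 < δ ∧ ∀ (lam : Lam) (N : ℕ) (B : ℝ), ∃ δ' : ℝ, 0 < δ' ∧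
    ∃ X₀ : ℝ, 1 < X₀ ∧ ∀ X : ℝ, X₀ ≤ X → ∀ (a : A) (us gs : List Pc), Win S p δ N B δ' X a →
      D.Near X δ us u → D.Gran X δ N gs w → D.Good X δ' B (us ++ gs) →
        Ψ lam a (us ++ gs) ≤ X ^ (e + ε)

variable {S : Sys A ι} {D : Pcs Pc τ}

/-- **compactness for a fixed number of lumps** -/
theorem unifB [Fintype ι] [Fintype τ] {Ψ : Lam → A → List Pc → ℝ} {n : ℕ}
    {K : Set ((ι → ℝ) × (Fin n → ℝ) × (τ → ℝ))}
    (hK : IsCompact K) {T : (ι → ℝ) × (Fin n → ℝ) × (τ → ℝ) → ℝ} (hT : Continuous T)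
    (h : ∀ p ∈ K, BGB S D Ψ p.1 (List.ofFn p.2.1) p.2.2 (T p)) {ε : ℝ} (hε : 0 < ε) :
    ∃ U : Set ((ι → ℝ) × (Fin n → ℝ) × (τ → ℝ)), IsOpen U ∧ K ⊆ U ∧
    ∃ δ : ℝ, 0 < δ ∧ ∀ (lam : Lam) (N : ℕ) (B : ℝ), ∃ δ' : ℝ, 0 < δ' ∧ ∃ X₀ : ℝ, 1 < X₀ ∧
      ∀ X : ℝ, X₀ ≤ X → ∀ (a : A) (us gs : List Pc), ∀ p ∈ U, Win S p.1 δ N B δ' X a →
        D.Near X δ us (List.ofFn p.2.1) → D.Gran X δ N gs p.2.2 → D.Good X δ' B (us ++ gs) →
          Ψ lam a (us ++ gs) ≤ X ^ (T p + ε) := by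
  classical
  have loc : ∀ q ∈ K, ∃ r : ℝ, 0 < r ∧ (∀ (lam : Lam) (N : ℕ) (B : ℝ), ∃ δ' : ℝ, 0 < δ' ∧
      ∃ X₀ : ℝ, 1 < X₀ ∧ ∀ X : ℝ, X₀ ≤ X → ∀ (a : A) (us gs : List Pc),
        Win S q.1 (2 * r) N B δ' X a →
        D.Near X (2 * r) us (List.ofFn q.2.1) → D.Gran X (2 * r) N gs q.2.2 →
        D.Good X δ' B (us ++ gs) → Ψ lam a (us ++ gs) ≤ X ^ (T q + ε / 2)) ∧
      ∀ p, dist p q < r → T q ≤ T p + ε / 2 := by
    intro q hq
    obtain ⟨δ, hδ, hL⟩ := h q hq (ε / 2) (by linarith)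
    have hc := Metric.continuous_iff.1 hT q (ε / 2) (by linarith)
    obtain ⟨r, hr, hr'⟩ := hc
    have h2 : 2 * min (δ / 2) r ≤ δ := by have := min_le_left (δ / 2) r; linarith
    refine ⟨min (δ / 2) r, lt_min (by linarith) hr, fun lam N B => ?_, fun p hd => ?_⟩
    · obtain ⟨δ', hδ', X₀, hX₀, K1⟩ := hL lam N B
      refine ⟨δ', hδ', X₀, hX₀, fun X hX a us gs hw hn hg hG => ?_⟩
      have hX1 : (1 : ℝ) ≤ X := by linarith
      exact K1 X hX a us gs (hw.mono hX1 h2 le_rfl le_rfl le_rfl) (Near_mono hn h2)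
        (Gran_mono hg h2 le_rfl) hG
    · have := hr' p (lt_of_lt_of_le hd (min_le_right _ _))
      rw [Real.dist_eq] at this
      linarith [(abs_lt.1 this).1]
  choose! r hr hL hTr using loc
  obtain ⟨F, hFS, hF⟩ := hK.elim_nhds_subcover (fun q => Metric.ball q (r q))
    (fun q hq => Metric.ball_mem_nhds q (hr q hq))
  refine ⟨⋃ q ∈ F, Metric.ball q (r q), isOpen_biUnion fun q _ => Metric.isOpen_ball, hF, ?_⟩
  by_cases hne : F.Nonempty
  · set δ := F.inf' hne r with hd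
    have hδ : 0 < δ := by
      rw [hd, Finset.lt_inf'_iff]; intro q hq; exact hr q (hFS q hq)
    refine ⟨δ, hδ, fun lam N B => ?_⟩
    have hL' : ∀ q ∈ K, ∃ δ' : ℝ, 0 < δ' ∧ ∃ X₀ : ℝ, 1 < X₀ ∧ ∀ X : ℝ, X₀ ≤ X →
        ∀ (a : A) (us gs : List Pc), Win S q.1 (2 * r q) N B δ' X a →
        D.Near X (2 * r q) us (List.ofFn q.2.1) →
        D.Gran X (2 * r q) N gs q.2.2 → D.Good X δ' B (us ++ gs) →
        Ψ lam a (us ++ gs) ≤ X ^ (T q + ε / 2) := fun q hq => hL q hq lam N B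
    choose! η hη X₀ hX₀ K1 using hL'
    refine ⟨F.inf' hne η, ?_, F.sup' hne X₀, ?_, ?_⟩
    · rw [Finset.lt_inf'_iff]; intro q hq; exact hη q (hFS q hq)
    · obtain ⟨q0, hq0⟩ := hne
      exact lt_of_lt_of_le (hX₀ q0 (hFS q0 hq0)) (Finset.le_sup' X₀ hq0)
    · intro X hX a us gs p hp hw hnear hgran hgood
      rw [Set.mem_iUnion₂] at hp
      obtain ⟨q, hq, hb⟩ := hp
      have hb' : dist p q < r q := hb
      have hXq : X₀ q ≤ X := (Finset.le_sup' X₀ hq).trans hX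
      have hX1 : 1 < X := lt_of_lt_of_le (hX₀ q (hFS q hq)) hXq
      have hδq : δ ≤ r q := Finset.inf'_le _ hq
      have hrq := hr q (hFS q hq)
      have d1 : ∀ i, |p.1 i - q.1 i| ≤ r q := by
        intro i
        have e1 : dist p.1 q.1 ≤ dist p q := by rw [Prod.dist_eq]; exact le_max_left _ _
        have e2 := dist_le_pi_dist p.1 q.1 i
        rw [Real.dist_eq] at e2; linarith
      have d2 : ∀ i, |p.2.1 i - q.2.1 i| ≤ r q := by
        intro i
        have e1 : dist p.2.1 q.2.1 ≤ dist p q := by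
          rw [Prod.dist_eq, Prod.dist_eq]
          exact (le_max_left _ _).trans (le_max_right _ _)
        have e2 := dist_le_pi_dist p.2.1 q.2.1 i
        rw [Real.dist_eq] at e2; linarith
      have d3 : ∀ t, |p.2.2 t - q.2.2 t| ≤ r q := by
        intro t
        have e1 : dist p.2.2 q.2.2 ≤ dist p q := by
          rw [Prod.dist_eq, Prod.dist_eq]
          exact (le_max_right _ _).trans (le_max_right _ _)
        have e2 := dist_le_pi_dist p.2.2 q.2.2 t
        rw [Real.dist_eq] at e2; linarith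
      have key := K1 q (hFS q hq) X hXq a us gs ?_ ?_ ?_
        (Good_mono hX1.le hgood (Finset.inf'_le _ hq))
      · refine key.trans (Real.rpow_le_rpow_of_exponent_le hX1.le ?_)
        linarith [hTr q (hFS q hq) p hb']
      · exact (hw.move hX1.le hrq.le d1).mono hX1.le (by linarith) le_rfl le_rfl
          (Finset.inf'_le _ hq)
      · exact Near_mono (Near_ofFn hnear d2) (by linarith)
      · refine ⟨hgran.1, fun g hg => (hgran.2.1 g hg).trans (by linarith), ?_⟩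
        intro t
        calc |D.mass X gs t - q.2.2 t| ≤ |D.mass X gs t - p.2.2 t| + |p.2.2 t - q.2.2 t| :=
              abs_sub_le _ _ _
          _ ≤ 2 * r q := by linarith [hgran.2.2 t, d3 t]
  · rw [Finset.not_nonempty_iff_eq_empty] at hne
    refine ⟨1, one_pos, fun lam N B => ⟨1, one_pos, 2, by norm_num, ?_⟩⟩
    intro X hX a us gs p hp
    rw [hne] at hp
    simp at hp

/-- projection to the base point and the total masses -/
def prB (t₀ : τ) (n : ℕ) (p : (ι → ℝ) × (Fin n → ℝ) × (τ → ℝ)) : (ι → ℝ) × (τ → ℝ) :=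
  (p.1, tot t₀ (∑ i, p.2.1 i) p.2.2)

lemma prB_cont (t₀ : τ) (n : ℕ) : Continuous (prB (ι := ι) t₀ n) := by
  refine Continuous.prodMk continuous_fst (continuous_pi fun t => ?_)
  by_cases ht : t = t₀
  · subst ht
    simp only [tot, if_true]
    fun_prop
  · simp only [tot, if_neg ht]
    fun_prop

/-- the configurations with `n` lumps `≥ b` and total in `Dom` -/
def cfgB (t₀ : τ) (n : ℕ) (b : ℝ) (Dom : Set ((ι → ℝ) × (τ → ℝ))) :
    Set ((ι → ℝ) × (Fin n → ℝ) × (τ → ℝ)) :=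
  {p | (∀ i, b ≤ p.2.1 i) ∧ (∀ t, 0 ≤ p.2.2 t) ∧ prB t₀ n p ∈ Dom}

lemma cfgB_compact [Fintype ι] [Fintype τ] (t₀ : τ) (n : ℕ) {b : ℝ} (hb : 0 ≤ b)
    {Dom : Set ((ι → ℝ) × (τ → ℝ))}
    (hDom : IsCompact Dom) : IsCompact (cfgB t₀ n b Dom) := by
  rw [Metric.isCompact_iff_isClosed_bounded]
  constructor
  · have e1 : IsClosed {p : (ι → ℝ) × (Fin n → ℝ) × (τ → ℝ) | ∀ i, b ≤ p.2.1 i} := by
      simp only [Set.ofPred_forall]
      exact isClosed_iInter fun i => isClosed_le continuous_const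
        ((continuous_apply i).comp (continuous_fst.comp continuous_snd))
    have e2 : IsClosed {p : (ι → ℝ) × (Fin n → ℝ) × (τ → ℝ) | ∀ t, 0 ≤ p.2.2 t} := by
      simp only [Set.ofPred_forall]
      exact isClosed_iInter fun i => isClosed_le continuous_const
        ((continuous_apply i).comp (continuous_snd.comp continuous_snd))
    have e3 : IsClosed {p : (ι → ℝ) × (Fin n → ℝ) × (τ → ℝ) | prB t₀ n p ∈ Dom} :=
      hDom.isClosed.preimage (prB_cont t₀ n)
    exact e1.inter (e2.inter e3)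
  · obtain ⟨R, hR⟩ := hDom.isBounded.subset_closedBall (0 : (ι → ℝ) × (τ → ℝ))
    have hR0 : ∀ q ∈ Dom, ‖q‖ ≤ |R| := fun q hq =>
      (mem_closedBall_zero_iff.1 (hR hq)).trans (le_abs_self R)
    refine (Metric.isBounded_closedBall (x := (0 : (ι → ℝ) × (Fin n → ℝ) × (τ → ℝ)))
      (r := |R|)).subset ?_
    rintro p ⟨h1, h2, h3⟩
    have h4 := hR0 _ h3
    have hA : 0 ≤ |R| := abs_nonneg R
    have hx0 : ∀ i, 0 ≤ p.2.1 i := fun i => hb.trans (h1 i)
    have h6 : ‖(prB t₀ n p).2‖ ≤ |R| := by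
      refine le_trans ?_ h4
      rw [Prod.norm_def]; exact le_max_right _ _
    have h7 : ∀ t, tot t₀ (∑ i, p.2.1 i) p.2.2 t ≤ |R| := fun t => by
      have := (norm_le_pi_norm (prB t₀ n p).2 t).trans h6
      rw [Real.norm_eq_abs] at this
      exact (le_abs_self _).trans this
    have hsum0 : 0 ≤ ∑ i, p.2.1 i := Finset.sum_nonneg fun i _ => hx0 i
    rw [mem_closedBall_zero_iff, Prod.norm_def, Prod.norm_def]
    refine max_le ?_ (max_le ?_ ?_)
    · refine le_trans ?_ h4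
      rw [Prod.norm_def]; exact le_max_left _ _
    · rw [pi_norm_le_iff_of_nonneg hA]
      intro i
      rw [Real.norm_eq_abs, abs_of_nonneg (hx0 i)]
      have e1 : p.2.1 i ≤ ∑ i, p.2.1 i := Finset.single_le_sum (fun j _ => hx0 j)
        (Finset.mem_univ i)
      have e2 := h7 t₀
      rw [tot_same] at e2
      linarith [h2 t₀]
    · rw [pi_norm_le_iff_of_nonneg hA]
      intro t
      rw [Real.norm_eq_abs, abs_of_nonneg (h2 t)]
      refine le_trans ?_ (h7 t)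
      unfold tot
      split_ifs
      · linarith
      · linarith

/-- **all boxes whose unmarked lumps are `≥ b`**, closed allowed region -/
theorem stageB [Fintype ι] [Fintype τ] (t₀ : τ) {Ψ : Lam → A → List Pc → ℝ}
    {Dom : Set ((ι → ℝ) × (τ → ℝ))}
    (hDom : IsCompact Dom) {T : (ι → ℝ) × (τ → ℝ) → ℝ}
    (hT : Continuous T) {μ : ℝ} {Al : ∀ n : ℕ, Set ((ι → ℝ) × (Fin n → ℝ))}
    (hAl : ∀ n, IsClosed (Al n))
    (hbox : ∀ (p : ι → ℝ) (u : List ℝ) (w : τ → ℝ), (∀ x ∈ u, 0 < x) → (∀ t, 0 ≤ w t) →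
      (p, tot t₀ u.sum w) ∈ Dom → (p, u.get) ∈ Al u.length →
      BGB S D Ψ p u w (T (p, tot t₀ u.sum w) - μ))
    {a : ℝ} (ha : 0 < a) {ε : ℝ} (hε : 0 < ε) :
    ∃ δ : ℝ, 0 < δ ∧ ∀ (lam : Lam) (N : ℕ) (B : ℝ), ∃ δ' : ℝ, 0 < δ' ∧ ∃ X₀ : ℝ, 1 < X₀ ∧
      ∀ X : ℝ, X₀ ≤ X → ∀ (b : A) (us gs : List Pc),
        (∀ p ∈ us, D.lump p ∧ D.kind p = t₀ ∧ a ≤ D.nl X p) → gs.length ≤ N →
        (∀ g ∈ gs, D.nl X g ≤ δ) →
        (S.ev X b, fun i : Fin us.length => D.nl X (us.get i)) ∈ Al us.length →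
        ∀ q ∈ Dom, Win S q.1 δ N B δ' X b →
        (∀ t, |D.mass X (us ++ gs) t - q.2 t| ≤ δ) → D.Good X δ' B (us ++ gs) →
          Ψ lam b (us ++ gs) ≤ X ^ (T q - μ + ε) := by
  classical
  rcases Dom.eq_empty_or_nonempty with hDe | hDne
  · refine ⟨1, one_pos, fun lam N B => ⟨1, one_pos, 2, by norm_num, ?_⟩⟩
    intro X hX k us gs _ _ _ _ q hq
    rw [hDe] at hq
    exact hq.elim
  -- a compact neighbourhood
  set Dom' := Metric.cthickening 1 Dom with hDom'def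
  have hDom' : IsCompact Dom' := hDom.cthickening
  -- bound for the masses
  obtain ⟨M, hM⟩ : ∃ M : ℝ, ∀ q ∈ Dom, ∀ t, q.2 t ≤ M := by
    obtain ⟨R, hR⟩ := hDom.isBounded.subset_closedBall (0 : (ι → ℝ) × (τ → ℝ))
    refine ⟨R, fun q hq t => ?_⟩
    have h1 := mem_closedBall_zero_iff.1 (hR hq)
    have h2 : ‖q.2‖ ≤ ‖q‖ := by rw [Prod.norm_def]; exact le_max_right _ _
    have h3 := norm_le_pi_norm q.2 t
    rw [Real.norm_eq_abs] at h3
    linarith [le_abs_self (q.2 t)]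
  -- uniform continuity of the target
  obtain ⟨rT, hrT, hTu⟩ : ∃ r : ℝ, 0 < r ∧ ∀ p ∈ Dom', ∀ q ∈ Dom, dist p q ≤ r →
      T p ≤ T q + ε / 2 := by
    have huc := hDom'.uniformContinuousOn_of_continuous hT.continuousOn
    rw [Metric.uniformContinuousOn_iff] at huc
    obtain ⟨r, hr, h⟩ := huc (ε / 2) (by linarith)
    refine ⟨r / 2, by linarith, fun p hp q hq hd => ?_⟩
    have hq' : q ∈ Dom' := Metric.self_subset_cthickening _ hq
    have := h p hp q hq' (by linarith)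
    rw [Real.dist_eq] at this
    linarith [(abs_lt.1 this).2]
  -- the compact sets
  let pA : ∀ n : ℕ, (ι → ℝ) × (Fin n → ℝ) × (τ → ℝ) → (ι → ℝ) × (Fin n → ℝ) :=
    fun n p => (p.1, p.2.1)
  have hpA : ∀ n, Continuous (pA n) := fun n => by fun_prop
  have hun : ∀ n : ℕ, ∃ δ : ℝ, 0 < δ ∧ ∀ (lam : Lam) (N : ℕ) (B : ℝ), ∃ δ' : ℝ, 0 < δ' ∧
      ∃ X₀ : ℝ, 1 < X₀ ∧
      ∀ X : ℝ, X₀ ≤ X → ∀ (b : A) (us gs : List Pc), ∀ p ∈ cfgB t₀ n (a / 2) Dom', pA n p ∈ Al n →
        Metric.infDist (prB t₀ n p) Dom ≤ δ → Win S p.1 δ N B δ' X b →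
        D.Near X δ us (List.ofFn p.2.1) → D.Gran X δ N gs p.2.2 → D.Good X δ' B (us ++ gs) →
          Ψ lam b (us ++ gs) ≤ X ^ ((T (prB t₀ n p) - μ) + ε / 2) := by
    intro n
    have hS : IsCompact (cfgB t₀ n (a / 2) Dom ∩ pA n ⁻¹' (Al n)) :=
      (cfgB_compact t₀ n (by linarith) hDom).inter_right ((hAl n).preimage (hpA n))
    obtain ⟨U, hU, hSU, δ, hδ, K⟩ := unifB (S := S) (D := D) (Ψ := Ψ) hS
      (T := fun p => T (prB t₀ n p) - μ) ((hT.comp (prB_cont t₀ n)).sub continuous_const) (by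
        rintro p ⟨⟨h1, h2, h3⟩, h4⟩
        have hlen : (List.ofFn p.2.1).length = n := List.length_ofFn
        have h4' : (p.1, (List.ofFn p.2.1).get) ∈ Al (List.ofFn p.2.1).length := by
          have key : ∀ (m : ℕ) (hm : m = n) (f : Fin m → ℝ),
              (∀ i : Fin m, f i = p.2.1 (Fin.cast hm i)) → (p.1, f) ∈ Al m := by
            intro m hm f hf
            subst hm
            have : f = p.2.1 := funext fun i => by rw [hf i]; rfl
            rw [this]; exact h4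
          refine key _ hlen _ fun i => ?_
          rw [List.get_ofFn]
        have := hbox p.1 (List.ofFn p.2.1) p.2.2 (by
          intro x hx
          rw [List.mem_ofFn] at hx
          obtain ⟨i, rfl⟩ := hx
          linarith [h1 i]) h2 (by rw [List.sum_ofFn]; exact h3) h4'
        rw [List.sum_ofFn] at this
        exact this) (half_pos hε)
    have hZ : IsCompact (cfgB t₀ n (a / 2) Dom' ∩ pA n ⁻¹' (Al n)) :=
      (cfgB_compact t₀ n (by linarith) hDom').inter_right ((hAl n).preimage (hpA n))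
    obtain ⟨δ₂, hδ₂, h2⟩ := near_open hZ hU
      (f := fun p => Metric.infDist (prB t₀ n p) Dom)
      ((Metric.continuous_infDist_pt Dom).comp (prB_cont t₀ n)) (fun z => Metric.infDist_nonneg)
      (by
        rintro z ⟨⟨h1, h2, h3⟩, h4⟩ hz
        refine hSU ⟨⟨h1, h2, ?_⟩, h4⟩
        exact (hDom.isClosed.mem_iff_infDist_zero hDne).2 hz)
    refine ⟨min δ δ₂, lt_min hδ hδ₂, fun lam N B => ?_⟩
    obtain ⟨η, hη, X₀, hX₀, K'⟩ := K lam N B
    refine ⟨η, hη, X₀, hX₀, ?_⟩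
    intro X hX b us gs p hp hpAl hd hk hn hg hgood
    have hX1 : (1 : ℝ) ≤ X := by linarith
    exact K' X hX b us gs p (h2 p ⟨hp, hpAl⟩ (hd.trans (min_le_right _ _)))
      (hk.mono hX1 (min_le_left _ _) le_rfl le_rfl le_rfl) (Near_mono hn (min_le_left _ _))
      (Gran_mono hg (min_le_left _ _) le_rfl) hgood
  choose δn hδn hKn using hun
  set nmax : ℕ := ⌈(M + 1) / a⌉₊ with hnmax
  set R : Finset ℕ := Finset.range (nmax + 1) with hRdef
  have hRne : R.Nonempty := ⟨0, by simp [hRdef]⟩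
  set δ : ℝ := min (R.inf' hRne δn) (min rT 1) with hδdef
  have hδ : 0 < δ := by
    rw [hδdef]
    refine lt_min ?_ (lt_min hrT one_pos)
    rw [Finset.lt_inf'_iff]; intro n _; exact hδn n
  refine ⟨δ, hδ, fun lam N B => ?_⟩
  choose η hη X₀ hX₀ K using fun n => hKn n lam N B
  refine ⟨R.inf' hRne η, ?_, R.sup' hRne X₀, ?_, ?_⟩
  · rw [Finset.lt_inf'_iff]; intro n _; exact hη n
  · exact lt_of_lt_of_le (hX₀ 0) (Finset.le_sup' X₀ (by simp [hRdef]))
  intro X hX b us gs hus hgl hgs hal q hq hk hm hgood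
  have hX1 : 1 < X := lt_of_lt_of_le (hX₀ 0) ((Finset.le_sup' X₀ (by simp [hRdef])).trans hX)
  have hlog : 0 < Real.log X := Real.log_pos hX1
  have hnl : ∀ p ∈ us ++ gs, 0 ≤ D.nl X p := fun p hp => div_nonneg (hgood p hp).2.2 hlog.le
  have hgm : ∀ t, 0 ≤ D.mass X gs t := fun t =>
    mass_nonneg (fun g hg => hnl g (List.mem_append_right _ hg)) t
  have hum : ∀ t, D.mass X us t = if t = t₀ then (us.map (D.nl X)).sum else 0 :=
    mass_lumps fun p hp => (hus p hp).2.1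
  set n := us.length with hn
  set x : Fin n → ℝ := fun i => D.nl X (us.get i) with hx
  have hxs : (us.map (D.nl X)).sum = ∑ i, x i := by
    rw [← List.sum_ofFn, hx]
    congr 1
    apply List.ext_getElem
    · simp [hn]
    · intro i h1 h2
      simp
  have hxa : ∀ i, a ≤ x i := fun i => (hus _ (List.get_mem us i)).2.2
  set s := ∑ i, x i with hs
  have hδ1 : δ ≤ 1 := (min_le_right _ _).trans (min_le_right _ _)
  have hδr : δ ≤ rT := (min_le_right _ _).trans (min_le_left _ _)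
  have hmt0 : D.mass X (us ++ gs) t₀ = s + D.mass X gs t₀ := by
    rw [D.mass_append, hum, if_pos rfl, hxs]
  have hs_le : s ≤ q.2 t₀ + δ := by
    have := (abs_le.1 (hm t₀)).2
    rw [hmt0] at this
    linarith [hgm t₀]
  have hnR : n ∈ R := by
    rw [hRdef, Finset.mem_range]
    have h1 : (n : ℝ) * a ≤ s := by
      rw [hs]
      calc (n : ℝ) * a = ∑ i : Fin n, a := by simp
        _ ≤ _ := Finset.sum_le_sum fun i _ => hxa i
    have h2 : (n : ℝ) ≤ (M + 1) / a := by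
      rw [le_div_iff₀ ha]
      linarith [hM q hq t₀]
    have h3 : (n : ℝ) ≤ (nmax : ℝ) := h2.trans (Nat.le_ceil _)
    have : n ≤ nmax := by exact_mod_cast h3
    omega
  have hδn' : δ ≤ δn n := (min_le_left _ _).trans (Finset.inf'_le _ hnR)
  have hXn : X₀ n ≤ X := (Finset.le_sup' X₀ hnR).trans hX
  set p : (ι → ℝ) × (Fin n → ℝ) × (τ → ℝ) := (S.ev X b, x, D.mass X gs) with hp
  have hpr : prB t₀ n p = (S.ev X b, fun t => D.mass X (us ++ gs) t) := by
    unfold prB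
    refine Prod.ext rfl (funext fun t => ?_)
    show tot t₀ (∑ i, x i) (D.mass X gs) t = D.mass X (us ++ gs) t
    by_cases ht : t = t₀
    · subst ht; rw [tot_same, hmt0]; ring
    · rw [tot_ne ht, D.mass_append, hum, if_neg ht, zero_add]
  have hdist : dist (prB t₀ n p) q ≤ δ := by
    rw [hpr, Prod.dist_eq]
    refine max_le ?_ ?_
    · rw [dist_pi_le_iff hδ.le]
      intro i
      rw [Real.dist_eq]; exact hk.ev i
    · rw [dist_pi_le_iff hδ.le]
      intro t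
      rw [Real.dist_eq]; exact hm t
  have hinf : Metric.infDist (prB t₀ n p) Dom ≤ δ :=
    (Metric.infDist_le_dist_of_mem hq).trans hdist
  have hpD : prB t₀ n p ∈ Dom' := by
    rw [hDom'def]
    exact Metric.mem_cthickening_of_dist_le _ q 1 Dom hq (hdist.trans hδ1)
  have hpc : p ∈ cfgB t₀ n (a / 2) Dom' := ⟨fun i => by
    show a / 2 ≤ x i
    linarith [hxa i], fun t => hgm t, hpD⟩
  have hηn : R.inf' hRne η ≤ η n := Finset.inf'_le _ hnR
  have key := K n X hXn b us gs p hpc hal (hinf.trans hδn') ⟨fun i => by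
      simp [hp, (hδn n).le], hk.g.trans (Real.rpow_le_rpow_of_exponent_le hX1.le hδn'), hk.n,
      hk.s₁.trans (Real.rpow_le_rpow_of_exponent_le hX1.le hηn), hk.s₂⟩ ?_ ?_
    (Good_mono hX1.le hgood hηn)
  · refine key.trans (Real.rpow_le_rpow_of_exponent_le hX1.le ?_)
    have := hTu _ hpD q hq (hdist.trans hδr)
    linarith
  · unfold Pcs.Near
    rw [List.forall₂_iff_get]
    refine ⟨by simp [hn], fun i h1 h2 => ?_⟩
    simp only [List.get_eq_getElem, List.getElem_ofFn]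
    refine ⟨(hus _ (List.getElem_mem h1)).1, ?_⟩
    simp [hp, hx, (hδn n).le]
  · exact ⟨hgl, fun g hg => (hgs g hg).trans hδn', fun t => by simp [hp, (hδn n).le]⟩

/-- **all boxes**, closed allowed region -/
theorem topB [Fintype ι] [Fintype τ] (t₀ : τ) {Ψ : Lam → A → List Pc → ℝ}
    (h0 : ∀ lam l ps, 0 ≤ Ψ lam l ps)
    (hperm : ∀ lam l ps qs, ps.Perm qs → Ψ lam l ps = Ψ lam l qs) (hs1 : ∀ p, 0 ≤ D.s1 p)
    (hrem : ∀ lam, ∃ (C : ℝ) (A : ℕ), 1 ≤ C ∧ ∀ l p ps,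
      Ψ lam l (p :: ps) ≤ C * (1 + D.s1 p) ^ A * Real.exp (D.len p) * Ψ lam l ps)
    (hkind : ∀ p, D.lump p → D.kind p = t₀) {Dom : Set ((ι → ℝ) × (τ → ℝ))}
    (hDom : IsCompact Dom) (hnn : ∀ q ∈ Dom, ∀ t, 0 ≤ q.2 t)
    (hdown : ∀ q ∈ Dom, ∀ b, 0 ≤ b → b ≤ q.2 t₀ →
      (q.1, Function.update q.2 t₀ (q.2 t₀ - b)) ∈ Dom) {T : (ι → ℝ) × (τ → ℝ) → ℝ}
    (hT : Continuous T)
    (hTm : ∀ q ∈ Dom, ∀ b, 0 ≤ b → b ≤ q.2 t₀ →
      T (q.1, Function.update q.2 t₀ (q.2 t₀ - b)) ≤ T q) {μ : ℝ}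
    {Al : ∀ n : ℕ, Set ((ι → ℝ) × (Fin n → ℝ))} (hAl : ∀ n, IsClosed (Al n))
    (hbox : ∀ (p : ι → ℝ) (u : List ℝ) (w : τ → ℝ), (∀ x ∈ u, 0 < x) → (∀ t, 0 ≤ w t) →
      (p, tot t₀ u.sum w) ∈ Dom → (p, u.get) ∈ Al u.length →
      BGB S D Ψ p u w (T (p, tot t₀ u.sum w) - μ))
    {μ' : ℝ} (hμ : μ' < μ) :
    ∃ δ : ℝ, 0 < δ ∧ ∀ (lam : Lam) (N : ℕ) (B : ℝ), ∃ δ' : ℝ, 0 < δ' ∧ ∃ X₀ : ℝ, 1 < X₀ ∧
      ∀ X : ℝ, X₀ ≤ X → ∀ (k : A) (ps : List Pc), ps.length ≤ N →
        (∀ p ∈ ps, D.lump p ∨ D.nl X p ≤ δ) → ∀ q ∈ Dom, Win S q.1 δ N B δ' X k →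
        (∀ t, |D.mass X ps t - q.2 t| ≤ δ) → D.Good X δ' B ps →
        (∀ us : List Pc, us.Subperm ps → (∀ p ∈ us, D.lump p) →
          (S.ev X k, fun i : Fin us.length => D.nl X (us.get i)) ∈ Al us.length) →
          Ψ lam k ps ≤ X ^ (T q - μ') := by
  classical
  set ε := (μ - μ') / 4 with hε
  have hεp : 0 < ε := by rw [hε]; linarith
  -- bound for the masses
  obtain ⟨M, hM⟩ : ∃ M : ℝ, ∀ q ∈ Dom, q.2 t₀ ≤ M := by
    obtain ⟨R, hR⟩ := hDom.isBounded.subset_closedBall (0 : (ι → ℝ) × (τ → ℝ))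
    refine ⟨R, fun q hq => ?_⟩
    have h1 := mem_closedBall_zero_iff.1 (hR hq)
    have h2 : ‖q.2‖ ≤ ‖q‖ := by rw [Prod.norm_def]; exact le_max_right _ _
    have h3 := norm_le_pi_norm q.2 t₀
    rw [Real.norm_eq_abs] at h3
    linarith [le_abs_self (q.2 t₀)]
  have hst : ∀ a : ℝ, 0 < a → ∃ δ : ℝ, 0 < δ ∧ ∀ (lam : Lam) (N : ℕ) (B : ℝ), ∃ δ' : ℝ, 0 < δ' ∧
      ∃ X₀ : ℝ, 1 < X₀ ∧ ∀ X : ℝ, X₀ ≤ X → ∀ (k : A) (us gs : List Pc),
        (∀ p ∈ us, D.lump p ∧ D.kind p = t₀ ∧ a ≤ D.nl X p) → gs.length ≤ N →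
        (∀ g ∈ gs, D.nl X g ≤ δ) →
        (S.ev X k, fun i : Fin us.length => D.nl X (us.get i)) ∈ Al us.length →
        ∀ q ∈ Dom, Win S q.1 δ N B δ' X k →
        (∀ t, |D.mass X (us ++ gs) t - q.2 t| ≤ δ) → D.Good X δ' B (us ++ gs) →
          Ψ lam k (us ++ gs) ≤ X ^ (T q - μ + ε) := fun a ha =>
    stageB t₀ hDom hT hAl hbox ha hεp
  choose! dl hdl K using hst
  -- the thresholds
  let a : ℕ → ℝ := fun j => Nat.rec (1 : ℝ) (fun _ x => min (dl x) x / 2) j
  have ha0 : a 0 = 1 := rfl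
  have hasucc : ∀ j, a (j + 1) = min (dl (a j)) (a j) / 2 := fun j => rfl
  have hapos : ∀ j, 0 < a j := by
    intro j
    induction j with
    | zero => rw [ha0]; exact one_pos
    | succ j ih => rw [hasucc]; exact half_pos (lt_min (hdl _ ih) ih)
  have hanti : Antitone a := by
    refine antitone_nat_of_succ_le fun j => ?_
    rw [hasucc]
    have := min_le_right (dl (a j)) (a j)
    linarith [hapos j]
  have hadl : ∀ j, a (j + 1) ≤ dl (a j) := fun j => by
    rw [hasucc]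
    have := min_le_left (dl (a j)) (a j)
    linarith [hdl _ (hapos j)]
  obtain ⟨J, hJ⟩ : ∃ J : ℕ, (M + 1) / ε < J := exists_nat_gt _
  set δ := min (a (J + 1)) 1 with hδdef
  have hδ : 0 < δ := lt_min (hapos (J + 1)) one_pos
  refine ⟨δ, hδ, fun lam N B => ?_⟩
  obtain ⟨C, A', hC, hrem⟩ := hrem lam
  choose! η hη X₀ hX₀ KK using fun (x : ℝ) (hx : 0 < x) => K x hx lam N B
  set R := Finset.range (J + 1) with hR
  have hRne : R.Nonempty := ⟨0, by simp [hR]⟩
  set η' := min (R.inf' hRne fun j => η (a j)) (ε / (A' * N + 1)) with hη'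
  have hη'p : 0 < η' := by
    rw [hη']
    refine lt_min ?_ (by positivity)
    rw [Finset.lt_inf'_iff]; intro j _; exact hη _ (hapos j)
  -- `X` large
  obtain ⟨X₁, hX₁, hX₁'⟩ : ∃ X₁ : ℝ, 1 < X₁ ∧ ∀ X, X₁ ≤ X → (C * 2 ^ A') ^ N ≤ X ^ ε := by
    have ht := tendsto_rpow_atTop hεp
    obtain ⟨Y, hY⟩ := Filter.eventually_atTop.1 (ht.eventually_ge_atTop ((C * 2 ^ A') ^ N))
    exact ⟨max Y 2, lt_of_lt_of_le (by norm_num) (le_max_right _ _),
      fun X hX => hY X ((le_max_left _ _).trans hX)⟩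
  refine ⟨η', hη'p, max X₁ (R.sup' hRne fun j => X₀ (a j)), lt_of_lt_of_le hX₁ (le_max_left _ _),
    ?_⟩
  intro X hX k ps hlen hlump q hq hk hm hgood hallow
  have hX1 : 1 < X := lt_of_lt_of_le hX₁ ((le_max_left _ _).trans hX)
  have hXp : 0 < X := by linarith
  have hlog : 0 < Real.log X := Real.log_pos hX1
  have hnl : ∀ p ∈ ps, 0 ≤ D.nl X p := fun p hp => div_nonneg (hgood p hp).2.2 hlog.le
  have hq0 := hnn q hq t₀
  have hbig : ∀ p ∈ ps, a (J + 1) < D.nl X p → D.lump p := by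
    intro p hp h
    rcases hlump p hp with h' | h'
    · exact h'
    · exact absurd (h'.trans (min_le_left _ _)) (not_le.2 h)
  -- the band
  have hsum := bnd_sum (D := D) hanti t₀ (J := J + 1) ps hnl
    (fun p hp h => hkind p (hbig p hp h))
  obtain ⟨j, hj, hbj⟩ : ∃ j ∈ R, ((bnd D X (a (j + 1)) (a j) ps).map (D.nl X)).sum ≤ ε := by
    by_contra hcon
    push Not at hcon
    have h1 : (R.card : ℝ) * ε ≤ ∑ j ∈ R, ((bnd D X (a (j + 1)) (a j) ps).map (D.nl X)).sum := by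
      rw [← nsmul_eq_mul]
      exact Finset.card_nsmul_le_sum _ _ _ fun j hj => (hcon j hj).le
    have h2 : D.mass X ps t₀ ≤ M + 1 := by
      have := (abs_le.1 (hm t₀)).2
      have h3 : δ ≤ 1 := min_le_right _ _
      linarith [hM q hq]
    have h3 : (R.card : ℝ) = J + 1 := by simp [hR]
    rw [h3] at h1
    have h4 : (M + 1) < J * ε := by rwa [div_lt_iff₀ hεp] at hJ
    have h5 : (J + 1 : ℝ) * ε ≤ M + 1 := h1.trans (hsum.trans h2)
    nlinarith
  have hjJ : j < J + 1 := by simpa [hR] using hj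
  set bs := bnd D X (a (j + 1)) (a j) ps with hbs
  set bm := (bs.map (D.nl X)).sum with hbm
  obtain ⟨us, gs, hp, hus, hgs⟩ := bnd_perm (D := D) (X := X) (hanti (Nat.le_succ j)) ps
  rw [← hbs] at hp
  have hmemb : ∀ p ∈ bs, p ∈ ps := fun p hp' => hp.mem_iff.mpr (List.mem_append_left _ hp')
  have hmemr : ∀ p ∈ us ++ gs, p ∈ ps := fun p hp' => hp.mem_iff.mpr (List.mem_append_right _ hp')
  have hbsP : ∀ p ∈ bs, a (j + 1) < D.nl X p ∧ D.nl X p ≤ a j := by
    intro p hp'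
    have h1 : p ∈ bnd D X (a (j + 1)) (a j) ps := hp'
    unfold bnd at h1
    have := (List.mem_filter.1 h1).2
    simpa using this
  have hkb : ∀ p ∈ bs, D.kind p = t₀ := fun p hp' =>
    hkind p (hbig p (hmemb p hp')
      (lt_of_le_of_lt (hanti (show j + 1 ≤ J + 1 by omega)) (hbsP p hp').1))
  have hbm0 : 0 ≤ bm := by
    rw [hbm]
    apply List.sum_nonneg
    intro x hx
    rw [List.mem_map] at hx
    obtain ⟨p, hp', rfl⟩ := hx
    exact hnl p (hmemb p hp')
  -- masses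
  have hmass : ∀ t, D.mass X ps t = (if t = t₀ then bm else 0) + D.mass X (us ++ gs) t := by
    intro t
    rw [D.mass_perm hp, D.mass_append, mass_lumps hkb]
  have hr0 : ∀ t, 0 ≤ D.mass X (us ++ gs) t := fun t => mass_nonneg (fun g hg => hnl g (hmemr g hg)) t
  set b := min bm (q.2 t₀) with hb
  have hb0 : 0 ≤ b := le_min hbm0 hq0
  have hbq : b ≤ q.2 t₀ := min_le_right _ _
  set q' : (ι → ℝ) × (τ → ℝ) := (q.1, Function.update q.2 t₀ (q.2 t₀ - b)) with hq'
  have hq'D : q' ∈ Dom := hdown q hq b hb0 hbq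
  have hTq : T q' ≤ T q := hTm q hq b hb0 hbq
  have hδa : δ ≤ a (j + 1) :=
    (min_le_left _ _).trans (hanti (show j + 1 ≤ J + 1 by omega))
  have hδd : δ ≤ dl (a j) := hδa.trans (hadl j)
  have hXj : X₀ (a j) ≤ X := ((Finset.le_sup' (fun j => X₀ (a j)) hj).trans
    (le_max_right _ _)).trans hX
  have hm' : ∀ t, |D.mass X (us ++ gs) t - q'.2 t| ≤ δ := by
    intro t
    have h1 := hm t
    rw [hmass t] at h1
    by_cases ht : t = t₀
    · subst ht
      rw [if_pos rfl] at h1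
      have e : q'.2 t = q.2 t - b := by simp [hq']
      rw [e]
      rcases le_total bm (q.2 t) with hle | hle
      · have hbe : b = bm := min_eq_left hle
        rw [hbe]
        have : D.mass X (us ++ gs) t - (q.2 t - bm) = bm + D.mass X (us ++ gs) t - q.2 t := by ring
        rw [this]; exact h1
      · have hbe : b = q.2 t := min_eq_right hle
        rw [hbe, sub_self, sub_zero, abs_of_nonneg (hr0 t)]
        linarith [(abs_le.1 h1).2]
    · rw [if_neg ht, zero_add] at h1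
      have e : q'.2 t = q.2 t := by simp [hq', ht]
      rw [e]; exact h1
  have hgl : gs.length ≤ N := by
    have := hp.length_eq
    rw [List.length_append, List.length_append] at this
    omega
  have hbl : bs.length ≤ N := by
    have := hp.length_eq
    rw [List.length_append, List.length_append] at this
    omega
  have hus' : ∀ p ∈ us, D.lump p ∧ D.kind p = t₀ ∧ a j ≤ D.nl X p := by
    intro p hp'
    have h1 := hus p hp'
    have h2 : D.lump p := hbig p (hmemr p (List.mem_append_left _ hp'))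
      (lt_of_le_of_lt (hanti (show j ≤ J + 1 by omega)) h1)
    exact ⟨h2, hkind p h2, h1.le⟩
  have hsub : us.Subperm ps := by
    refine List.Subperm.trans ?_ hp.symm.subperm
    exact ((List.sublist_append_left us gs).trans (List.sublist_append_right bs _)).subperm
  have hη'j : η' ≤ η (a j) := (min_le_left _ _).trans (Finset.inf'_le _ hj)
  have hgood' : D.Good X (η (a j)) B (us ++ gs) :=
    Good_mono hX1.le (Good_sub hgood hmemr) hη'j
  have key := KK (a j) (hapos j) X hXj k us gs hus' hgl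
    (fun g hg => (hgs g hg).trans (hadl j)) (hallow us hsub fun p hp' => (hus' p hp').1)
    q' hq'D (hk.mono hX1.le hδd le_rfl le_rfl hη'j)
    (fun t => (hm' t).trans hδd) hgood'
  -- removal of the band
  have hC0 : 0 ≤ C := by linarith
  have hrem' := rem_list (Ψ := fun (_ : ℝ) ps => Ψ lam k ps)
    (R := fun p => C * (1 + D.s1 p) ^ A' * Real.exp (D.len p))
    (fun p => by have := hs1 p; positivity) (fun _ p ps => hrem k p ps) 0 bs (us ++ gs)
  rw [hperm _ _ _ _ hp]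
  have hXη : 1 ≤ X ^ η' := Real.one_le_rpow hX1.le hη'p.le
  have hprod := prod_le_pow (D := D) (R := fun p => C * (1 + D.s1 p) ^ A' * Real.exp (D.len p))
    (c := C * (2 * X ^ η') ^ A') hX1 (by
      have : (1:ℝ) ≤ (2 * X ^ η') ^ A' := one_le_pow₀ (by linarith)
      nlinarith) bs (by
      intro p hp'
      have h1 := hs1 p
      refine ⟨by positivity, ?_⟩
      have h2 : 1 + D.s1 p ≤ 2 * X ^ η' := by
        have := (hgood p (hmemb p hp')).1
        linarith
      gcongr)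
  have hlast : (C * (2 * X ^ η') ^ A') ^ bs.length ≤ X ^ (2 * ε) := by
    have h1 : (1:ℝ) ≤ C * (2 * X ^ η') ^ A' := by
      have : (1:ℝ) ≤ (2 * X ^ η') ^ A' := one_le_pow₀ (by linarith)
      nlinarith
    calc (C * (2 * X ^ η') ^ A') ^ bs.length ≤ (C * (2 * X ^ η') ^ A') ^ N :=
          pow_le_pow_right₀ h1 hbl
      _ = (C * 2 ^ A') ^ N * (X ^ η') ^ (A' * N) := by
          rw [mul_pow 2, ← mul_assoc, mul_pow, ← pow_mul (X ^ η')]
      _ ≤ X ^ ε * X ^ ε := by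
          refine mul_le_mul (hX₁' X ((le_max_left _ _).trans hX)) ?_ (by positivity) (by positivity)
          rw [← Real.rpow_natCast, ← Real.rpow_mul hXp.le]
          refine Real.rpow_le_rpow_of_exponent_le hX1.le ?_
          have h2 : η' ≤ ε / (A' * N + 1) := min_le_right _ _
          have h3 : (0:ℝ) ≤ (A' * N : ℕ) := by positivity
          calc η' * ((A' * N : ℕ) : ℝ) ≤ ε / (A' * N + 1) * ((A' * N : ℕ) : ℝ) :=
                mul_le_mul_of_nonneg_right h2 h3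
            _ ≤ ε := by
                push_cast
                rw [div_mul_eq_mul_div, div_le_iff₀ (by positivity)]
                nlinarith
      _ = X ^ (2 * ε) := by rw [← Real.rpow_add hXp]; congr 1; ring
  have hkey0 := h0 lam k (us ++ gs)
  calc Ψ lam k (bs ++ (us ++ gs))
      ≤ (bs.map fun p => C * (1 + D.s1 p) ^ A' * Real.exp (D.len p)).prod *
        Ψ lam k (us ++ gs) := hrem'
    _ ≤ ((C * (2 * X ^ η') ^ A') ^ bs.length * X ^ bm) * X ^ (T q' - μ + ε) :=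
        mul_le_mul hprod key hkey0 (by positivity)
    _ ≤ (X ^ (2 * ε) * X ^ ε) * X ^ (T q - μ + ε) := by
        refine mul_le_mul (mul_le_mul hlast ?_ (by positivity) (by positivity)) ?_
          (by positivity) (by positivity)
        · exact Real.rpow_le_rpow_of_exponent_le hX1.le hbj
        · exact Real.rpow_le_rpow_of_exponent_le hX1.le (by linarith)
    _ = X ^ (T q - μ') := by
        rw [← Real.rpow_add hXp, ← Real.rpow_add hXp]
        congr 1
        rw [hε]; ring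

end Crest.Agent.R017.UM71
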