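import Crest.Agent.R017.BDefs2_770
import Crest.Agent.R017.XiA_590
import Crest.Agent.R017.L6a_106

/-!
# Row 17, section B: the primal weight `Ur om`, uniform bounds and separation of variables (helper699)

* `Ur_bd` : all logarithmic derivatives of `x ↦ Ur om x` decay rapidly at infinity
* `sep` : `W₂(v) Ur om (e^v s) = ∫ g_s(t) e^{2π i t v} dt`, `|g_s(t)| ≤ C (1+s)^{-A} (1+|t|)^{-N}`
-/

set_option autoImplicit false

noncomputable section

open MeasureTheory Complex Set Filter Topology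
open scoped ComplexConjugate ContDiff SchwartzMap FourierTransform

namespace Crest.Agent.R017.UrA699

open Crest.Agent.R012 Crest.Agent.R012.Eis Crest.Agent.R012.Po581
open Crest.Agent.R017.Xi590 Crest.Agent.R017.B770

/-! ### Schwartz functions on `ℝ` along `e^{u/2}` -/

/-- half of the Euler operator -/
def Dh (φ : 𝓢(ℝ, ℂ)) : 𝓢(ℝ, ℂ) :=
  (1 / 2 : ℝ) • SchwartzMap.smulLeftCLM ℂ (fun x : ℝ => x) (SchwartzMap.derivCLM ℝ ℂ φ)

lemma Dh_apply (φ : 𝓢(ℝ, ℂ)) (x : ℝ) : Dh φ x = (1 / 2 : ℝ) • (x • deriv φ x) := by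
  unfold Dh
  rw [_root_.smul_apply, SchwartzMap.smulLeftCLM_apply_apply (by fun_prop)]
  rfl

lemma hasDerivAt_exp (φ : 𝓢(ℝ, ℂ)) (u : ℝ) :
    HasDerivAt (fun u => φ (Real.exp (u / 2))) (Dh φ (Real.exp (u / 2))) u := by
  have h1 : HasDerivAt φ (deriv φ (Real.exp (u / 2))) (Real.exp (u / 2)) :=
    (φ.differentiable _).hasDerivAt
  have h2 : HasDerivAt (fun u : ℝ => Real.exp (u / 2)) (Real.exp (u / 2) * (1 / 2)) u := by
    have := ((hasDerivAt_id u).div_const 2).exp
    simpa using this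
  have h3 := HasDerivAt.scomp u h1 h2
  rw [Dh_apply, smul_smul, mul_comm (1 / 2 : ℝ)]
  exact h3

lemma iteratedDeriv_exp (φ : 𝓢(ℝ, ℂ)) (j : ℕ) :
    iteratedDeriv j (fun u => φ (Real.exp (u / 2))) = fun u => (Dh^[j] φ) (Real.exp (u / 2)) := by
  induction j with
  | zero => simp
  | succ j ih =>
    rw [iteratedDeriv_succ, ih]
    funext u
    rw [Function.iterate_succ_apply']
    exact (hasDerivAt_exp _ u).deriv

lemma decay (φ : 𝓢(ℝ, ℂ)) (A : ℕ) : ∃ C : ℝ, 0 ≤ C ∧ ∀ x : ℝ, (1 + |x|) ^ A * ‖φ x‖ ≤ C := by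
  refine ⟨2 ^ A * (Finset.Iic (A, 0)).sup (schwartzSeminormFamily ℝ ℝ ℂ) φ, by positivity,
    fun x => ?_⟩
  have h := SchwartzMap.one_add_le_sup_seminorm_apply (𝕜 := ℝ) (m := (A, 0)) (k := A) (n := 0)
    le_rfl le_rfl φ x
  rw [norm_iteratedFDeriv_zero] at h
  exact h

/-- restriction to the real axis -/
def resR (Φ : 𝓢(ℂ, ℂ)) : 𝓢(ℝ, ℂ) :=
  SchwartzMap.compCLMOfAntilipschitz ℝ (K := 1) (g := Complex.ofRealCLM)
    Complex.ofRealCLM.hasTemperateGrowth (Complex.isometry_ofReal.antilipschitz) Φ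

lemma resR_apply (Φ : 𝓢(ℂ, ℂ)) (x : ℝ) : resR Φ x = Φ (x : ℂ) := rfl

/-- `Φ₀(x) = fC (om |·|²) x`, a Schwartz function on `ℝ` -/
def uS {om : ℝ → ℂ} (h : SW om) : 𝓢(ℝ, ℂ) := resR (fCS (L6106.rS h one_pos))

lemma Ur_eq {om : ℝ → ℂ} (h : SW om) (x : ℝ) : Ur om x = uS h (Real.sqrt x) := by
  unfold uS Ur
  rw [resR_apply, fCS_apply, L6106.coe_rS]
  simp only [one_mul]

lemma Ur_exp {om : ℝ → ℂ} (h : SW om) (u : ℝ) : Ur om (Real.exp u) = uS h (Real.exp (u / 2)) := by
  rw [Ur_eq h, Real.exp_half]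

/-- all logarithmic derivatives of `Ur om` decay rapidly. -/
theorem Ur_bd {om : ℝ → ℂ} (h : SW om) (j A : ℕ) : ∃ C : ℝ, 0 ≤ C ∧ ∀ u : ℝ,
    ‖iteratedDeriv j (fun u => Ur om (Real.exp u)) u‖ ≤ C * ((1 + Real.exp u) ^ A)⁻¹ := by
  obtain ⟨C, hC, hb⟩ := decay (Dh^[j] (uS h)) (2 * A)
  refine ⟨C, hC, fun u => ?_⟩
  have e : (fun u => Ur om (Real.exp u)) = fun u => uS h (Real.exp (u / 2)) :=
    funext (Ur_exp h)
  rw [e, iteratedDeriv_exp]
  have h1 := hb (Real.exp (u / 2))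
  rw [abs_of_pos (Real.exp_pos _)] at h1
  have h2 : 1 + Real.exp u ≤ (1 + Real.exp (u / 2)) ^ 2 := by
    have : Real.exp u = Real.exp (u / 2) ^ 2 := by
      rw [← Real.exp_nat_mul]; congr 1; push_cast; ring
    rw [this]
    nlinarith [Real.exp_pos (u / 2)]
  have h3 : (1 + Real.exp u) ^ A ≤ (1 + Real.exp (u / 2)) ^ (2 * A) := by
    rw [pow_mul]
    exact pow_le_pow_left₀ (by positivity) h2 A
  rw [le_mul_inv_iff₀ (by positivity), mul_comm]
  refine le_trans ?_ h1
  gcongr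

/-- pointwise bound -/
theorem Ur_le {om : ℝ → ℂ} (h : SW om) (A : ℕ) : ∃ C : ℝ, 0 ≤ C ∧ ∀ x : ℝ, 0 ≤ x →
    ‖Ur om x‖ ≤ C * ((1 + x) ^ A)⁻¹ := by
  obtain ⟨C, hC, hb⟩ := decay (uS h) (2 * A)
  refine ⟨C, hC, fun x hx => ?_⟩
  rw [Ur_eq h]
  have h1 := hb (Real.sqrt x)
  have h0 := Real.sqrt_nonneg x
  rw [abs_of_nonneg h0] at h1
  have h2 : 1 + x ≤ (1 + Real.sqrt x) ^ 2 := by
    nlinarith [Real.sq_sqrt hx]
  have h3 : (1 + x) ^ A ≤ (1 + Real.sqrt x) ^ (2 * A) := by
    rw [pow_mul]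
    exact pow_le_pow_left₀ (by positivity) h2 A
  rw [le_mul_inv_iff₀ (by positivity), mul_comm]
  refine le_trans ?_ h1
  gcongr

/-! ### one-dimensional Fourier inversion with explicit decay -/

lemma iteratedDeriv_eq_zero_of {W : ℝ → ℂ} {R : ℝ} (hs : ∀ v, R < |v| → W v = 0) (j : ℕ) {v : ℝ}
    (hv : R < |v|) : iteratedDeriv j W v = 0 := by
  have ho : IsOpen {v : ℝ | R < |v|} := isOpen_lt continuous_const continuous_abs
  have h1 : W =ᶠ[𝓝 v] fun _ => (0 : ℂ) := by
    filter_upwards [ho.mem_nhds hv] with x hx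
    exact hs x hx
  have h2 := h1.iteratedDeriv_eq j
  rw [h2]
  simp

lemma cpt_of {W : ℝ → ℂ} {R : ℝ} (hs : ∀ v, R < |v| → W v = 0) : HasCompactSupport W := by
  refine HasCompactSupport.intro (isCompact_Icc (a := -R) (b := R)) fun v hv => hs v ?_
  by_contra hcon
  push Not at hcon
  exact hv (abs_le.mp hcon)

/-- Fourier decay from bounds of the derivatives -/
lemma four_le {G : ℝ → ℂ} (hG : ContDiff ℝ ∞ G) {R B : ℝ} (hR : 0 ≤ R)
    (hs : ∀ v, R < |v| → G v = 0) {j : ℕ} (hB : ∀ v, ‖iteratedDeriv j G v‖ ≤ B) (t : ℝ) :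
    |t| ^ j * ‖𝓕 G t‖ ≤ 2 * R * B := by
  have hint : ∀ n : ℕ, (n : ℕ∞) ≤ (⊤ : ℕ∞) → Integrable (iteratedDeriv n G) := by
    intro n _
    apply Continuous.integrable_of_hasCompactSupport
    · exact hG.continuous_iteratedDeriv n (by exact_mod_cast le_top)
    · exact cpt_of fun v hv => iteratedDeriv_eq_zero_of hs n hv
  have h1 := Real.fourier_iteratedDeriv (N := ⊤) (n := j) (f := G)
    (by exact_mod_cast hG) hint le_top
  have h2 : ‖𝓕 (iteratedDeriv j G) t‖ ≤ 2 * R * B := by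
    have h3 : ‖𝓕 (iteratedDeriv j G) t‖ ≤ ∫ v, ‖iteratedDeriv j G v‖ := by
      rw [Real.fourier_eq]
      refine (norm_integral_le_integral_norm _).trans (le_of_eq ?_)
      congr 1
      funext v
      simp
    have h4 : ∫ v, ‖iteratedDeriv j G v‖ = ∫ v in Set.Icc (-R) R, ‖iteratedDeriv j G v‖ := by
      rw [setIntegral_eq_integral_of_forall_compl_eq_zero]
      intro v hv
      rw [iteratedDeriv_eq_zero_of hs j, norm_zero]
      by_contra hcon
      push Not at hcon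
      exact hv (abs_le.mp hcon)
    have h5 : ∫ v in Set.Icc (-R) R, ‖iteratedDeriv j G v‖ ≤ ∫ v in Set.Icc (-R) R, B := by
      apply setIntegral_mono_on
      · exact (hint j le_top).norm.integrableOn
      · exact integrableOn_const (by simp) (by simp)
      · exact measurableSet_Icc
      · intro v _; exact hB v
    rw [setIntegral_const] at h5
    have h6 : (volume.real (Set.Icc (-R) R)) • B = 2 * R * B := by
      rw [Real.volume_real_Icc_of_le (by linarith), smul_eq_mul]; ring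
    linarith
  rw [h1] at h2
  simp only [norm_smul, norm_pow, norm_mul, Complex.norm_real, Complex.norm_I, Complex.norm_ofNat,
    Real.norm_eq_abs, mul_one] at h2
  have hpi : |t| ^ j ≤ (2 * |Real.pi| * |t|) ^ j := by
    apply pow_le_pow_left₀ (abs_nonneg t)
    have := Real.pi_gt_three
    have h7 : (1 : ℝ) ≤ 2 * |Real.pi| := by rw [abs_of_pos Real.pi_pos]; linarith
    nlinarith [abs_nonneg t]
  exact (mul_le_mul_of_nonneg_right hpi (norm_nonneg _)).trans h2

/-- `G(v) = ∫ g(t) e^{itv} dt` with `|g(t)| ≤ 2^N (2R+..) B (1+|t|)^{-N}` -/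
theorem inv_four {G : ℝ → ℂ} (hG : ContDiff ℝ ∞ G) {R : ℝ} (hR : 0 ≤ R)
    (hs : ∀ v, R < |v| → G v = 0) {N : ℕ} (hN : 2 ≤ N) {B : ℝ}
    (hB : ∀ j ≤ N, ∀ v, ‖iteratedDeriv j G v‖ ≤ B) :
    ∃ g : ℝ → ℂ, Continuous g ∧
      (∀ t, ‖g t‖ ≤ 16 ^ N * (2 * (2 * R * B)) * ((1 + |t|) ^ N)⁻¹) ∧
      ∀ v, G v = ∫ t, g t * cexp (I * t * v) := by
  have hGc : Continuous G := hG.continuous
  have hGi : Integrable G := hGc.integrable_of_hasCompactSupport (cpt_of hs)
  have hB0 : 0 ≤ B := (norm_nonneg _).trans (hB 0 (Nat.zero_le _) 0)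
  have hFc : Continuous (𝓕 G) := by
    have := VectorFourier.fourierIntegral_continuous Real.continuous_fourierChar
      (by exact continuous_inner : Continuous fun p : ℝ × ℝ => (innerₗ ℝ) p.1 p.2) hGi
    exact this
  -- decay of the transform
  have hdec : ∀ t, ‖𝓕 G t‖ ≤ 2 ^ N * (2 * (2 * R * B)) * ((1 + |t|) ^ N)⁻¹ := by
    intro t
    have h0 := four_le hG hR hs (hB 0 (Nat.zero_le _)) t
    have h1 := four_le hG hR hs (hB N le_rfl) t
    rw [pow_zero, one_mul] at h0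
    have ht := abs_nonneg t
    rw [le_mul_inv_iff₀ (by positivity)]
    have h2 : (1 + |t|) ^ N ≤ 2 ^ N * (1 + |t| ^ N) := by
      have h3 : (1 + |t|) ^ N ≤ (2 * max 1 |t|) ^ N := by
        apply pow_le_pow_left₀ (by positivity)
        rcases le_total 1 |t| with h | h
        · rw [max_eq_right h]; linarith
        · rw [max_eq_left h]; linarith
      refine h3.trans ?_
      rw [mul_pow]
      gcongr
      rcases le_total 1 |t| with h | h
      · rw [max_eq_right h]; linarith [pow_nonneg ht N]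
      · rw [max_eq_left h, one_pow]; linarith [pow_nonneg ht N]
    calc ‖𝓕 G t‖ * (1 + |t|) ^ N ≤ ‖𝓕 G t‖ * (2 ^ N * (1 + |t| ^ N)) := by gcongr
      _ = 2 ^ N * (‖𝓕 G t‖ + |t| ^ N * ‖𝓕 G t‖) := by ring
      _ ≤ 2 ^ N * (2 * R * B + 2 * R * B) := by gcongr
      _ = _ := by ring
  have hpi := Real.pi_pos
  have hpi4 : Real.pi < 4 := by linarith [Real.pi_lt_d2]
  have hpi3 := Real.pi_gt_three
  refine ⟨fun t => ((2 * Real.pi : ℝ) : ℂ)⁻¹ * 𝓕 G (t / (2 * Real.pi)), ?_, ?_, ?_⟩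
  · exact continuous_const.mul (hFc.comp (continuous_id.div_const _))
  · intro t
    rw [norm_mul, norm_inv, Complex.norm_real, Real.norm_eq_abs, abs_of_pos (by positivity)]
    have h1 := hdec (t / (2 * Real.pi))
    have h2 : (2 * Real.pi)⁻¹ ≤ 1 := by
      apply inv_le_one_of_one_le₀; linarith
    have h3 : ((1 + |t / (2 * Real.pi)|) ^ N)⁻¹ ≤ 4 ^ N * 2 ^ N * ((1 + |t|) ^ N)⁻¹ := by
      have h4 : (1 + |t|) ≤ 8 * (1 + |t / (2 * Real.pi)|) := by
        rw [abs_div, abs_of_pos (by positivity : (0 : ℝ) < 2 * Real.pi)]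
        have h5 : |t| = 2 * Real.pi * (|t| / (2 * Real.pi)) := by field_simp
        have h6 : 0 ≤ |t| / (2 * Real.pi) := by positivity
        nlinarith
      have h7 : (1 + |t|) ^ N ≤ 8 ^ N * (1 + |t / (2 * Real.pi)|) ^ N := by
        rw [← mul_pow]
        exact pow_le_pow_left₀ (by positivity) h4 N
      rw [← mul_pow, show (4 : ℝ) * 2 = 8 by norm_num, inv_eq_one_div, div_le_iff₀ (by positivity),
        mul_assoc, mul_comm ((1 + |t|) ^ N)⁻¹, ← mul_assoc, ← div_eq_mul_inv,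
        le_div_iff₀ (by positivity), one_mul]
      exact h7
    calc (2 * Real.pi)⁻¹ * ‖𝓕 G (t / (2 * Real.pi))‖
        ≤ 1 * (2 ^ N * (2 * (2 * R * B)) * (4 ^ N * 2 ^ N * ((1 + |t|) ^ N)⁻¹)) := by
          gcongr
          refine h1.trans ?_
          gcongr
      _ = (2 * 4 * 2) ^ N * (2 * (2 * R * B)) * ((1 + |t|) ^ N)⁻¹ := by
          rw [mul_pow, mul_pow]; ring
      _ = _ := by norm_num
  · intro v
    have hFi : Integrable (𝓕 G) := by
      have h0 : Integrable (fun t : ℝ => 2 ^ N * (2 * (2 * R * B)) * ((1 + |t|) ^ N)⁻¹) := by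
        refine Integrable.const_mul ?_ _
        refine (integrable_inv_one_add_sq.const_mul 2).mono' ?_ ?_
        · exact (((continuous_const.add continuous_abs).pow N).inv₀ fun t =>
            (pow_pos (by have := abs_nonneg t; linarith : (0 : ℝ) < 1 + |t|) N).ne').aestronglyMeasurable
        · filter_upwards with t
          have ht := abs_nonneg t
          rw [Real.norm_eq_abs, abs_of_nonneg (by positivity)]
          have h1 : (1 + |t|) ^ 2 ≤ (1 + |t|) ^ N := pow_le_pow_right₀ (by linarith) hN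
          have h2 : (1 + t ^ 2) ≤ 2 * (1 + |t|) ^ 2 := by
            nlinarith [sq_abs t]
          have h3 : (1 + t ^ 2) ≤ 2 * (1 + |t|) ^ N := by linarith
          rw [← div_eq_mul_inv, le_div_iff₀ (by positivity), inv_mul_le_iff₀ (by positivity)]
          linarith
      exact h0.mono' hFc.aestronglyMeasurable (Filter.Eventually.of_forall hdec)
    have h1 : 𝓕⁻ (𝓕 G) = G := Continuous.fourierInv_fourier_eq hGc hGi hFi
    have h2 : G v = ∫ s, 𝓕 G s * cexp (I * (2 * Real.pi * s) * v) := by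
      conv_lhs => rw [← h1]
      rw [Real.fourierInv_eq']
      congr 1
      funext s
      rw [smul_eq_mul, mul_comm]
      congr 2
      simp
      ring
    have h3 := Measure.integral_comp_div
      (fun s : ℝ => 𝓕 G s * cexp (I * (2 * Real.pi * s) * v)) (2 * Real.pi)
    rw [abs_of_pos (mul_pos two_pos hpi)] at h3
    have h4 : (∫ y : ℝ, 𝓕 G y * cexp (I * (2 * Real.pi * y) * v)) =
        ((2 * Real.pi : ℝ) : ℂ)⁻¹ * ∫ x : ℝ, 𝓕 G (x / (2 * Real.pi)) *
          cexp (I * (2 * Real.pi * ((x / (2 * Real.pi) : ℝ) : ℂ)) * v) := by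
      rw [h3, Complex.real_smul, ← mul_assoc, inv_mul_cancel₀, one_mul]
      exact_mod_cast (mul_pos two_pos hpi).ne'
    rw [h2, h4, ← integral_const_mul]
    congr 1
    funext x
    have h5 : (Real.pi : ℂ) ≠ 0 := by exact_mod_cast hpi.ne'
    have h6 : I * (2 * Real.pi * ((x / (2 * Real.pi) : ℝ) : ℂ)) * v = I * x * v := by
      push_cast
      field_simp
    simp only [h6]
    ring

lemma iteratedDeriv_mul_le {f g : ℝ → ℂ} (hf : ContDiff ℝ ∞ f) (hg : ContDiff ℝ ∞ g) (m : ℕ)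
    (x : ℝ) : ‖iteratedDeriv m (fun x => f x * g x) x‖ ≤
      ∑ i ∈ Finset.range (m + 1), (m.choose i : ℝ) * ‖iteratedDeriv i f x‖ *
        ‖iteratedDeriv (m - i) g x‖ := by
  have := norm_iteratedFDeriv_mul_le (n := m) (N := ∞) hf hg x (by exact_mod_cast le_top)
  simpa only [norm_iteratedFDeriv_eq_norm_iteratedDeriv] using this

lemma contDiff_Ur {om : ℝ → ℂ} (h : SW om) : ContDiff ℝ ∞ (fun u => Ur om (Real.exp u)) := by
  have e : (fun u => Ur om (Real.exp u)) = fun u => uS h (Real.exp (u / 2)) :=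
    funext (Ur_exp h)
  rw [e]
  exact ((uS h).smooth ⊤).comp (by fun_prop)

/-- **separation** : `W₂(v) Ur om (e^{v+a}) = ∫ g_a(t) e^{itv} dt`. -/
theorem sep {om : ℝ → ℂ} (h : SW om) {W₂ : ℝ → ℂ} (hW : ContDiff ℝ ∞ W₂) {R : ℝ} (hR : 0 ≤ R)
    (hs : ∀ v, R < |v| → W₂ v = 0) (A : ℕ) {N : ℕ} (hN : 2 ≤ N) :
    ∃ C : ℝ, 0 ≤ C ∧ ∀ a : ℝ, ∃ g : ℝ → ℂ, Continuous g ∧
      (∀ t, ‖g t‖ ≤ C * ((1 + Real.exp a) ^ A)⁻¹ * ((1 + |t|) ^ N)⁻¹) ∧
      ∀ v, W₂ v * Ur om (Real.exp (v + a)) = ∫ t, g t * cexp (I * t * v) := by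
  have hWc : ∀ j : ℕ, ∃ B : ℝ, 0 ≤ B ∧ ∀ v, ‖iteratedDeriv j W₂ v‖ ≤ B := by
    intro j
    have h1 : Continuous (iteratedDeriv j W₂) :=
      hW.continuous_iteratedDeriv j (by exact_mod_cast le_top)
    obtain ⟨B, hB⟩ := h1.bounded_above_of_compact_support
      (cpt_of fun v hv => iteratedDeriv_eq_zero_of hs j hv)
    exact ⟨B, (norm_nonneg _).trans (hB 0), hB⟩
  choose B hB0 hB using hWc
  choose C hC0 hC using fun j => Ur_bd h j A
  set S : ℝ := ∑ j ∈ Finset.range (N + 1), ∑ i ∈ Finset.range (j + 1),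
    (j.choose i : ℝ) * B i * C (j - i) with hS
  have hS0 : 0 ≤ S := Finset.sum_nonneg fun j _ => Finset.sum_nonneg fun i _ => by
    have := hB0 i; have := hC0 (j - i); positivity
  refine ⟨16 ^ N * (2 * (2 * R * (S * Real.exp R ^ A))), by positivity, fun a => ?_⟩
  have hUa : ContDiff ℝ ∞ (fun v => Ur om (Real.exp (v + a))) :=
    (contDiff_Ur h).comp (by fun_prop : ContDiff ℝ ∞ (fun v : ℝ => v + a))
  have hG : ContDiff ℝ ∞ (fun v => W₂ v * Ur om (Real.exp (v + a))) := hW.mul hUa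
  have hGs : ∀ v, R < |v| → W₂ v * Ur om (Real.exp (v + a)) = 0 := fun v hv => by
    rw [hs v hv, zero_mul]
  have hE : 0 < ((1 + Real.exp a) ^ A)⁻¹ := by positivity
  have hbd : ∀ j ≤ N, ∀ v, ‖iteratedDeriv j (fun v => W₂ v * Ur om (Real.exp (v + a))) v‖ ≤
      S * Real.exp R ^ A * ((1 + Real.exp a) ^ A)⁻¹ := by
    intro j hj v
    rcases lt_or_ge R |v| with hv | hv
    · rw [iteratedDeriv_eq_zero_of hGs j hv, norm_zero]
      positivity
    · refine (iteratedDeriv_mul_le hW hUa j v).trans ?_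
      have h1 : ∀ m : ℕ, ‖iteratedDeriv m (fun v => Ur om (Real.exp (v + a))) v‖ ≤
          C m * (Real.exp R ^ A * ((1 + Real.exp a) ^ A)⁻¹) := by
        intro m
        have h2 := hC m (v + a)
        have h2' : iteratedDeriv m (fun v => Ur om (Real.exp (v + a))) v =
            iteratedDeriv m (fun u => Ur om (Real.exp u)) (v + a) := by
          rw [iteratedDeriv_comp_add_const m (fun u => Ur om (Real.exp u)) a]
        rw [h2']
        refine h2.trans ?_
        have := hC0 m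
        gcongr
        rw [← div_eq_mul_inv, le_div_iff₀ (by positivity), inv_mul_le_iff₀ (by positivity),
          ← mul_pow]
        apply pow_le_pow_left₀ (by positivity)
        have h3 : 1 ≤ Real.exp R := Real.one_le_exp hR
        have h4 : Real.exp a ≤ Real.exp (v + a) * Real.exp R := by
          rw [← Real.exp_add]
          apply Real.exp_le_exp.mpr
          have := (abs_le.mp hv).1
          linarith
        nlinarith [Real.exp_pos (v + a)]
      calc ∑ i ∈ Finset.range (j + 1), (j.choose i : ℝ) * ‖iteratedDeriv i W₂ v‖ *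
            ‖iteratedDeriv (j - i) (fun v => Ur om (Real.exp (v + a))) v‖
          ≤ ∑ i ∈ Finset.range (j + 1), (j.choose i : ℝ) * B i *
            (C (j - i) * (Real.exp R ^ A * ((1 + Real.exp a) ^ A)⁻¹)) := by
            apply Finset.sum_le_sum
            intro i _
            have := hB0 i
            exact mul_le_mul (mul_le_mul_of_nonneg_left (hB i v) (Nat.cast_nonneg _))
              (h1 (j - i)) (norm_nonneg _) (by positivity)
        _ = (∑ i ∈ Finset.range (j + 1), (j.choose i : ℝ) * B i * C (j - i)) *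
            (Real.exp R ^ A * ((1 + Real.exp a) ^ A)⁻¹) := by
            rw [Finset.sum_mul]
            apply Finset.sum_congr rfl
            intro i _; ring
        _ ≤ S * (Real.exp R ^ A * ((1 + Real.exp a) ^ A)⁻¹) := by
            gcongr
            exact Finset.single_le_sum
              (f := fun j => ∑ i ∈ Finset.range (j + 1), (j.choose i : ℝ) * B i * C (j - i))
              (fun j _ => Finset.sum_nonneg fun i _ => by
                have := hB0 i; have := hC0 (j - i); positivity)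
              (Finset.mem_range.mpr (by omega))
        _ = _ := by ring
  obtain ⟨g, hg1, hg2, hg3⟩ := inv_four hG hR hGs hN hbd
  refine ⟨g, hg1, fun t => (hg2 t).trans (le_of_eq ?_), hg3⟩
  ring

end Crest.Agent.R017.UrA699
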