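import Crest.Agent.R017.UrA_699
import Crest.Agent.R017.FE8_47
import Crest.Agent.R012.ThetaDom_131

/-!
# Row 17, section B: reduction of the primal `k`-sum to dyadic signed sums (helper699)

`kcore` : `∑ G(k) Ur om (N k / X)` is bounded by the sums
`∑ (N k)^{it} h00(log N k - n) G(k)`, `n ≤ N`, up to a rapidly small tail.
-/

set_option autoImplicit false

noncomputable section

open MeasureTheory Complex Set Filter Topology
open scoped ComplexConjugate ContDiff

namespace Crest.Agent.R017.UrA699

open Crest.Agent.R012 Crest.Agent.R012.Eis Crest.Agent.R012.Po581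
open Crest.Agent.R012.Weight600 (osc pw norm_osc norm_pw cutL Phi)
open Crest.Agent.R017.FE47 (h00)
open Crest.Agent.R017.B770
open Crest.Agent.R012.Theta131 (summable_nm_two)

/-! ### the partition of unity -/

lemma h00_nonneg (v : ℝ) : 0 ≤ h00 v := Weight600.cutL_nonneg (by norm_num) (by norm_num) v

lemma h00_le_one (v : ℝ) : h00 v ≤ 1 := Weight600.cutL_le_one v

lemma h00_supp {v : ℝ} (h : h00 v ≠ 0) : -(3 / 2) < v ∧ v < 1 / 2 := by
  have := Weight600.cutL_ne_zero (by norm_num) (by norm_num) h
  constructor <;> linarith [this.1, this.2]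

lemma sum_h00 {v : ℝ} (hv : 0 ≤ v) (N : ℕ) :
    ∑ n ∈ Finset.range (N + 1), h00 (v - n) + Phi ((v - N) / (1 / 2)) = 1 := by
  have key : ∀ n : ℕ, h00 (v - n) =
      Phi ((v - n + 1) / (1 / 2)) - Phi ((v - ((n + 1 : ℕ) : ℝ) + 1) / (1 / 2)) := by
    intro n
    unfold h00 cutL
    push_cast
    congr 2 <;> ring
  rw [Finset.sum_congr rfl fun n _ => key n, Finset.sum_range_sub'
      (fun n : ℕ => Phi ((v - n + 1) / (1 / 2)))]
  have h1 : Phi ((v - ((0 : ℕ) : ℝ) + 1) / (1 / 2)) = 1 := by
    apply Weight600.Phi_of_ge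
    rw [le_div_iff₀ (by norm_num)]; push_cast; linarith
  have h2 : (v - ((N + 1 : ℕ) : ℝ) + 1) / (1 / 2) = (v - N) / (1 / 2) := by
    push_cast; ring
  rw [h1, h2]; ring

lemma Phi_tail {v : ℝ} {N : ℕ} (h : Phi ((v - N) / (1 / 2)) ≠ 0) : (N : ℝ) - 1 / 2 < v := by
  by_contra hcon
  push Not at hcon
  apply h
  apply Weight600.Phi_of_le
  rw [div_le_iff₀ (by norm_num)]
  linarith

/-- the plateau function -/
def W2 (v : ℝ) : ℂ := (cutL (-3) 3 1 v : ℂ)

lemma W2_smooth : ContDiff ℝ ∞ W2 := Complex.ofRealCLM.contDiff.comp Weight600.contDiff_cutL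

lemma W2_one {v : ℝ} (h1 : -2 ≤ v) (h2 : v ≤ 2) : W2 v = 1 := by
  unfold W2
  rw [Weight600.cutL_eq_one one_pos (by linarith) (by linarith), Complex.ofReal_one]

lemma W2_zero (v : ℝ) (h : 4 < |v|) : W2 v = 0 := by
  unfold W2
  rcases lt_abs.mp h with h | h
  · rw [Weight600.cutL_eq_zero_right one_pos (by norm_num) (by linarith), Complex.ofReal_zero]
  · rw [Weight600.cutL_eq_zero_left one_pos (by norm_num) (by linarith), Complex.ofReal_zero]

lemma one_le_nm_of {k : Eis} (hk : k ≠ 0) : (1 : ℝ) ≤ nm k := by exact_mod_cast nm_pos.mpr hk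

lemma integrable_inv2 : Integrable (fun t : ℝ => ((1 + |t|) ^ 2)⁻¹) := by
  refine (integrable_inv_one_add_sq.const_mul 2).mono' ?_ ?_
  · exact (((continuous_const.add continuous_abs).pow 2).inv₀ fun t =>
      (pow_pos (by have := abs_nonneg t; linarith : (0 : ℝ) < 1 + |t|) 2).ne').aestronglyMeasurable
  · filter_upwards with t
    have ht := abs_nonneg t
    rw [Real.norm_eq_abs, abs_of_nonneg (by positivity)]
    have h2 : (1 + t ^ 2) ≤ 2 * (1 + |t|) ^ 2 := by nlinarith [sq_abs t]
    rw [← div_eq_mul_inv, le_div_iff₀ (by positivity), inv_mul_le_iff₀ (by positivity)]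
    linarith

open Classical in
/-- **dyadic reduction of the primal sum** -/
theorem kcore {om : ℝ → ℂ} (hom : SW om) (A A' : ℕ) : ∃ C : ℝ, 0 ≤ C ∧
    ∀ (P : Eis → Prop) (G : Eis → ℂ) (X B₀ T : ℝ) (N : ℕ), 0 < X → 0 ≤ T →
      (∀ k, ‖G k‖ ≤ B₀) →
      (∀ n ≤ N, ∀ t : ℝ, ‖∑' k : Eis, if k ≠ 0 ∧ P k then
          pw t (nm k) * (h00 (Real.log (nm k) - n) : ℂ) * G k else 0‖ ≤
        (1 + |t|) ^ A * ((1 + Real.exp n / X) * T)) →
      ‖∑' k : Eis, if k ≠ 0 ∧ P k then G k * Ur om (nm k / X) else 0‖ ≤
        C * ((N + 1) * T + B₀ * (X / Real.exp N) ^ A' * (1 + X) ^ 2) := by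
  obtain ⟨Cg, hCg, hsep⟩ := sep hom W2_smooth (R := 4) (by norm_num) W2_zero 1
    (N := A + 2) (by omega)
  obtain ⟨Cu, hCu, hU⟩ := Ur_le hom (A' + 2)
  set I₀ : ℝ := ∫ t : ℝ, ((1 + |t|) ^ 2)⁻¹ with hI₀
  have hI₀0 : 0 ≤ I₀ := integral_nonneg fun t => by positivity
  set S₀ : ℝ := ∑' k : Eis, ((1 + (nm k : ℝ)) ^ 2)⁻¹ with hS₀
  have hS₀0 : 0 ≤ S₀ := tsum_nonneg fun k => by positivity
  refine ⟨Cg * I₀ + Cu * Real.exp (1 / 2) ^ A' * S₀, by positivity, ?_⟩
  intro P G X B₀ T N hX hT hG hmain
  have hB₀ : 0 ≤ B₀ := (norm_nonneg _).trans (hG 0)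
  -- the pieces
  set f : ℕ → Eis → ℂ := fun n k => if k ≠ 0 ∧ P k then
    (h00 (Real.log (nm k) - n) : ℂ) * (G k * Ur om (nm k / X)) else 0 with hf
  set f' : Eis → ℂ := fun k => if k ≠ 0 ∧ P k then
    (Phi ((Real.log (nm k) - N) / (1 / 2)) : ℂ) * (G k * Ur om (nm k / X)) else 0 with hf'
  have hdec : ∀ k : Eis, (if k ≠ 0 ∧ P k then G k * Ur om (nm k / X) else 0) =
      ∑ n ∈ Finset.range (N + 1), f n k + f' k := by
    intro k
    by_cases h : k ≠ 0 ∧ P k
    · rw [hf, hf']
      simp only [if_pos h]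
      rw [← Finset.sum_mul, ← add_mul]
      have h1 := sum_h00 (Real.log_nonneg (one_le_nm_of h.1)) N
      have h2 : (∑ n ∈ Finset.range (N + 1), (h00 (Real.log (nm k) - n) : ℂ)) +
          (Phi ((Real.log (nm k) - N) / (1 / 2)) : ℂ) = 1 := by exact_mod_cast h1
      rw [h2, one_mul]
    · rw [hf, hf']
      simp [h]
  -- finite supports
  have hfin : ∀ n : ℕ, ∀ k ∉ ball ⌊Real.exp (n + 1)⌋₊, h00 (Real.log (nm k) - n) = 0 ∨ k = 0 := by
    intro n k hk
    by_cases h0 : k = 0
    · exact Or.inr h0
    left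
    by_contra hne
    have h1 := (h00_supp hne).2
    apply hk
    rw [mem_ball]
    apply Nat.le_floor
    rw [← Real.exp_log (lt_of_lt_of_le one_pos (one_le_nm_of h0))]
    exact Real.exp_le_exp.mpr (by linarith)
  have hsum_f : ∀ n : ℕ, Summable (f n) := by
    intro n
    refine summable_of_ne_finset_zero (s := ball ⌊Real.exp (n + 1)⌋₊) fun k hk => ?_
    rw [hf]
    simp only
    rcases hfin n k hk with h | h
    · rw [h]; simp
    · simp [h]
  -- the tail is dominated
  have htail : ∀ k : Eis, ‖f' k‖ ≤ B₀ * Cu * Real.exp (1 / 2) ^ A' *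
      (X / Real.exp N) ^ A' * (1 + X) ^ 2 * ((1 + (nm k : ℝ)) ^ 2)⁻¹ := by
    intro k
    rw [hf']
    simp only
    split_ifs with h
    · by_cases hP : Phi ((Real.log (nm k) - N) / (1 / 2)) = 0
      · rw [hP]; simp only [Complex.ofReal_zero, zero_mul, norm_zero]; positivity
      · have h1 := Phi_tail hP
        have hk1 := one_le_nm_of h.1
        have hk0 : (0 : ℝ) < nm k := by linarith
        have h2 : Real.exp N / Real.exp (1 / 2) ≤ nm k := by
          rw [← Real.exp_sub, ← Real.exp_log hk0]
          exact Real.exp_le_exp.mpr h1.le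
        have h3 := hU (nm k / X) (by positivity)
        have h4 : ((1 + (nm k : ℝ) / X) ^ (A' + 2))⁻¹ ≤
            Real.exp (1 / 2) ^ A' * (X / Real.exp N) ^ A' * ((1 + X) ^ 2 *
              ((1 + (nm k : ℝ)) ^ 2)⁻¹) := by
          rw [pow_add, mul_inv]
          apply mul_le_mul _ _ (by positivity) (by positivity)
          · rw [← mul_pow, ← inv_pow]
            apply pow_le_pow_left₀ (by positivity)
            rw [inv_le_comm₀ (by positivity) (by positivity)]
            have e1 : (Real.exp (1 / 2) * (X / Real.exp N))⁻¹ =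
                Real.exp N / Real.exp (1 / 2) / X := by
              have := Real.exp_pos (1 / 2 : ℝ)
              have := Real.exp_pos (N : ℝ)
              field_simp
            rw [e1]
            have : Real.exp N / Real.exp (1 / 2) / X ≤ nm k / X := by gcongr
            linarith
          · rw [← div_eq_mul_inv, inv_eq_one_div, div_le_div_iff₀ (by positivity) (by positivity),
              one_mul, ← mul_pow]
            apply pow_le_pow_left₀ (by positivity)
            have : (1 + X) * (1 + nm k / X) = 1 + nm k / X + X + nm k := by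
              field_simp
              ring
            rw [this]
            have : 0 ≤ (nm k : ℝ) / X := by positivity
            linarith
        have h5 : ‖(Phi ((Real.log (nm k) - N) / (1 / 2)) : ℂ)‖ ≤ 1 := by
          rw [Complex.norm_real, Real.norm_eq_abs, abs_of_nonneg (Weight600.Phi_nonneg _)]
          exact Weight600.Phi_le_one _
        rw [norm_mul, norm_mul]
        calc ‖(Phi ((Real.log (nm k) - N) / (1 / 2)) : ℂ)‖ * (‖G k‖ * ‖Ur om (nm k / X)‖)
            ≤ 1 * (B₀ * (Cu * (Real.exp (1 / 2) ^ A' * (X / Real.exp N) ^ A' * ((1 + X) ^ 2 *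
              ((1 + (nm k : ℝ)) ^ 2)⁻¹)))) := by
              refine mul_le_mul h5 (mul_le_mul (hG k) (h3.trans ?_) (norm_nonneg _) hB₀)
                (by positivity) zero_le_one
              exact mul_le_mul_of_nonneg_left h4 hCu
          _ = _ := by ring
    · rw [norm_zero]; positivity
  have hs2 := summable_nm_two
  have hsum_f' : Summable f' := Summable.of_norm_bounded (hs2.mul_left _) htail
  -- assemble
  rw [tsum_congr hdec, Summable.tsum_add (summable_sum fun n _ => hsum_f n) hsum_f',
    Summable.tsum_finsetSum fun n _ => hsum_f n]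
  have b2 : ‖∑' k, f' k‖ ≤ B₀ * Cu * Real.exp (1 / 2) ^ A' *
      (X / Real.exp N) ^ A' * (1 + X) ^ 2 * S₀ := by
    refine (norm_tsum_le_tsum_norm hsum_f'.norm).trans ?_
    rw [hS₀, ← tsum_mul_left]
    exact Summable.tsum_le_tsum htail hsum_f'.norm (hs2.mul_left _)
  have b1 : ∀ n ∈ Finset.range (N + 1), ‖∑' k, f n k‖ ≤ Cg * I₀ * T := by
    intro n hn
    have hnN : n ≤ N := by rw [Finset.mem_range] at hn; omega
    obtain ⟨g, hg1, hg2, hg3⟩ := hsep (n - Real.log X)
    have e1 : Real.exp (n - Real.log X) = Real.exp n / X := by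
      rw [Real.exp_sub, Real.exp_log hX]
    -- the sums `S_n(t)`
    set s := ball ⌊Real.exp (n + 1)⌋₊ with hs
    set a : Eis → ℂ := fun k => if k ≠ 0 ∧ P k then
      (h00 (Real.log (nm k) - n) : ℂ) * G k else 0 with ha
    have e2 : ∀ k : Eis, f n k = ∫ t, g t * (a k * osc t (Real.log (nm k) - n)) := by
      intro k
      rw [hf, ha]
      simp only
      split_ifs with h
      · by_cases h0 : h00 (Real.log (nm k) - n) = 0
        · rw [h0]; simp
        · have h1 := h00_supp h0
          have hk0 : (0 : ℝ) < nm k := by linarith [one_le_nm_of h.1]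
          have h2 := hg3 (Real.log (nm k) - n)
          rw [W2_one (by linarith) (by linarith), one_mul] at h2
          have e3 : Real.exp (Real.log (nm k) - n + (n - Real.log X)) = nm k / X := by
            rw [show Real.log (nm k) - n + (n - Real.log X) = Real.log (nm k) - Real.log X by ring,
              Real.exp_sub, Real.exp_log hk0, Real.exp_log hX]
          rw [e3] at h2
          rw [h2, ← mul_assoc, ← integral_const_mul]
          congr 1
          funext t
          have e4 : cexp (I * t * ((Real.log (nm k) - n : ℝ) : ℂ)) =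
              osc t (Real.log (nm k) - n) := by
            unfold Weight600.osc
            congr 1
            push_cast
            ring
          rw [e4]
          ring
      · simp
    have e3 : ∑' k, f n k = ∑ k ∈ s, f n k := by
      apply tsum_eq_sum
      intro k hk
      rw [hf]
      simp only
      rcases hfin n k hk with h | h
      · rw [h]; simp
      · simp [h]
    have hgi : Integrable g := by
      refine (integrable_inv2.const_mul (Cg * ((1 + Real.exp (n - Real.log X)) ^ 1)⁻¹)).mono'
        hg1.aestronglyMeasurable (Filter.Eventually.of_forall fun t => (hg2 t).trans ?_)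
      gcongr
      · have := abs_nonneg t; linarith
      · omega
    have hint : ∀ k ∈ s, Integrable fun t => g t * (a k * osc t (Real.log (nm k) - n)) := by
      intro k _
      refine hgi.mul_bdd (c := ‖a k‖) ?_ ?_
      · exact (continuous_const.mul (Weight600.continuous_osc_left _)).aestronglyMeasurable
      · refine Filter.Eventually.of_forall fun t => ?_
        rw [norm_mul, norm_osc, mul_one]
    have e4 : ∑' k, f n k = ∫ t, g t * (osc t (-n) * ∑' k : Eis, if k ≠ 0 ∧ P k then
        pw t (nm k) * (h00 (Real.log (nm k) - n) : ℂ) * G k else 0) := by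
      rw [e3, Finset.sum_congr rfl fun k _ => e2 k, ← integral_finsetSum _ hint]
      congr 1
      funext t
      rw [← Finset.mul_sum]
      congr 1
      rw [tsum_eq_sum (s := s), Finset.mul_sum]
      · apply Finset.sum_congr rfl
        intro k _
        rw [ha]
        simp only
        split_ifs with h
        · rw [sub_eq_add_neg, Weight600.osc_add_right]
          unfold Weight600.pw
          ring
        · simp
      · intro k hk
        rcases hfin n k hk with h | h
        · rw [h]; simp
        · simp [h]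
    rw [e4]
    refine (norm_integral_le_integral_norm _).trans ?_
    have hbd : ∀ t : ℝ, ‖g t * (osc t (-n) * ∑' k : Eis, if k ≠ 0 ∧ P k then
        pw t (nm k) * (h00 (Real.log (nm k) - n) : ℂ) * G k else 0)‖ ≤
        Cg * T * ((1 + |t|) ^ 2)⁻¹ := by
      intro t
      rw [norm_mul, norm_mul, norm_osc, one_mul]
      have h1 := hg2 t
      have h2 := hmain n hnN t
      have ht := abs_nonneg t
      rw [e1, pow_one] at h1
      calc ‖g t‖ * _ ≤ (Cg * (1 + Real.exp n / X)⁻¹ * ((1 + |t|) ^ (A + 2))⁻¹) *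
            ((1 + |t|) ^ A * ((1 + Real.exp n / X) * T)) :=
            mul_le_mul h1 h2 (norm_nonneg _) (by positivity)
        _ = Cg * T * (((1 + Real.exp n / X)⁻¹ * (1 + Real.exp n / X)) *
            (((1 + |t|) ^ (A + 2))⁻¹ * (1 + |t|) ^ A)) := by ring
        _ = Cg * T * ((1 + |t|) ^ 2)⁻¹ := by
            have h3 : (1 + Real.exp n / X)⁻¹ * (1 + Real.exp n / X) = 1 :=
              inv_mul_cancel₀ (by positivity)
            have h4 : ((1 + |t|) ^ (A + 2))⁻¹ * (1 + |t|) ^ A = ((1 + |t|) ^ 2)⁻¹ := by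
              have : (1 + |t|) ^ A ≠ 0 := by positivity
              rw [pow_add]
              field_simp
            rw [h3, h4, one_mul]
    calc ∫ t, ‖g t * (osc t (-n) * ∑' k : Eis, if k ≠ 0 ∧ P k then
          pw t (nm k) * (h00 (Real.log (nm k) - n) : ℂ) * G k else 0)‖
        ≤ ∫ t, Cg * T * ((1 + |t|) ^ 2)⁻¹ := by
          apply integral_mono_of_nonneg
          · exact Filter.Eventually.of_forall fun t => norm_nonneg _
          · exact integrable_inv2.const_mul _
          · exact Filter.Eventually.of_forall hbd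
      _ = Cg * I₀ * T := by rw [integral_const_mul]; ring
  have b1' : ‖∑ n ∈ Finset.range (N + 1), ∑' k, f n k‖ ≤ (N + 1) * (Cg * I₀ * T) := by
    refine (norm_sum_le_of_le _ b1).trans (le_of_eq ?_)
    rw [Finset.sum_const, Finset.card_range, nsmul_eq_mul]
    push_cast; ring
  refine (norm_add_le _ _).trans ((add_le_add b1' b2).trans ?_)
  have hq : 0 ≤ B₀ * (X / Real.exp N) ^ A' * (1 + X) ^ 2 := by positivity
  have hNT : 0 ≤ ((N : ℝ) + 1) * T := by positivity
  have hc1 : 0 ≤ Cg * I₀ := by positivity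
  have hc2 : 0 ≤ Cu * Real.exp (1 / 2) ^ A' * S₀ := by positivity
  nlinarith [mul_nonneg hc1 hq, mul_nonneg hc2 hNT]

end Crest.Agent.R017.UrA699
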