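import Crest.Agent.R017.SideT3L_126

/-!
# Row 17, section D: three lumps by levels, with a loss `F` (helper126)

`θ = 7/8 + d`. Side `V + {y₁,y₂,y₃} | m, a` with `V.sum + m + a ≤ ξ` (no granular rest in the
columns). Loss `d κ + F`. No LB, no REM.
* `lump3z` : column lemma without granular mass
* `V1F`    : the side
* `V1F'`   : closed form with total `N = ξ + y₁ + y₂ + y₃`
-/

set_option autoImplicit false

noncomputable section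

namespace Crest.Agent.R017.T3L126

open Crest.Agent.R017.ER911 Crest.Agent.R017.SC777

variable {d : ℝ} {r s : EF}

/-- column lemma, no granular mass -/
theorem lump3z (R : ExpRules (7 / 8 + d) r s) (Lv : ExpLv (7 / 8 + d) r) (hd : 0 ≤ d)
    (hd8 : d ≤ 1 / 8) {i z₁ z₂ z₃ E : ℝ} (hi : 0 ≤ i)
    (h1 : 0 ≤ z₁) (h2 : 0 ≤ z₂) (h3 : 0 ≤ z₃) (hz1 : z₁ ≤ i) (hz2 : z₂ ≤ i) (hz3 : z₃ ≤ i)
    (hA : (25 / 8 - d) * (z₁ + z₂ + z₃) + (15 / 4 + 2 * d) * i ≤ 3 * E)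
    (hB : 2 * (z₁ + z₂ + z₃) ≤ E ∨
      i + (z₁ + z₂ + z₃) + (3 / 4 + 2 * d) * z₃ ≤ E) :
    r i {z₁, z₂, z₃} 0 0 ≤ E := by
  have key := Lv.lev 3 ![z₁, z₂, z₃] i 0 0 E hi
    (by intro j; fin_cases j <;> simp <;> constructor <;> assumption) le_rfl le_rfl ?_
  · rwa [univ3] at key
  intro y x m' a' ω α hy hm0 hm1 ha0 ha1 hx hω hα
  have hm' : m' = 0 := le_antisymm hm1 hm0
  have ha' : a' = 0 := le_antisymm ha1 ha0
  subst hm'; subst ha'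
  rw [mul_zero] at hω hα
  have y0 := hy 0
  have y1 := hy 1
  have y2 := hy 2
  have x0 := hx 0
  have x1 := hx 1
  have x2 := hx 2
  simp only [Matrix.cons_val_zero, Matrix.cons_val_one, Matrix.cons_val_two, Matrix.head_cons,
    Matrix.tail_cons] at y0 y1 y2
  obtain ⟨p, hp⟩ : ∃ p, p = y 0 := ⟨_, rfl⟩
  obtain ⟨q, hq⟩ : ∃ q, q = y 1 := ⟨_, rfl⟩
  obtain ⟨t, ht⟩ : ∃ t, t = y 2 := ⟨_, rfl⟩
  obtain ⟨u, hu⟩ : ∃ u, u = x 0 := ⟨_, rfl⟩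
  obtain ⟨v, hv⟩ : ∃ v, v = x 1 := ⟨_, rfl⟩
  obtain ⟨w, hw⟩ : ∃ w, w = x 2 := ⟨_, rfl⟩
  rw [← hp] at y0 x0
  rw [← hq] at y1 x1
  rw [← ht] at y2 x2
  rw [← hu] at x0
  rw [← hv] at x1
  rw [← hw] at x2
  have hsx : ∑ j, x j = u + v + w := by rw [Fin.sum_univ_three, hu, hv, hw]
  rcases le_or_gt (i + (p + q) + 2 * w) E with c3 | c3
  · right; left
    refine ⟨![1, 1, 0], 0, 0, le_rfl, fun _ => rfl, le_rfl, fun _ => rfl, ?_⟩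
    have e := R.tf i p q y0.1 y1.1 (y0.2.trans hz1) (y1.2.trans hz2)
    have hr : ∑ j, Multiset.replicate ((![1, 1, 0] : Fin 3 → ℕ) j) (y j) = {p, q} := by
      rw [rep3, hp, hq]; rfl
    have hl : ∑ j, (((![1, 1, 0] : Fin 3 → ℕ) j : ℕ) : ℝ) * x j = u + v := by
      rw [Fin.sum_univ_three, hu, hv]; simp
    rw [hr, hl, hsx]
    linarith
  rcases le_or_gt (i + (p + t) + 2 * v) E with c2 | c2
  · right; left
    refine ⟨![1, 0, 1], 0, 0, le_rfl, fun _ => rfl, le_rfl, fun _ => rfl, ?_⟩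
    have e := R.tf i p t y0.1 y2.1 (y0.2.trans hz1) (y2.2.trans hz3)
    have hr : ∑ j, Multiset.replicate ((![1, 0, 1] : Fin 3 → ℕ) j) (y j) = {p, t} := by
      rw [rep3, hp, ht]; rfl
    have hl : ∑ j, (((![1, 0, 1] : Fin 3 → ℕ) j : ℕ) : ℝ) * x j = u + w := by
      rw [Fin.sum_univ_three, hu, hw]; simp
    rw [hr, hl, hsx]
    linarith
  rcases le_or_gt (i + (q + t) + 2 * u) E with c1 | c1
  · right; left
    refine ⟨![0, 1, 1], 0, 0, le_rfl, fun _ => rfl, le_rfl, fun _ => rfl, ?_⟩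
    have e := R.tf i q t y1.1 y2.1 (y1.2.trans hz2) (y2.2.trans hz3)
    have hr : ∑ j, Multiset.replicate ((![0, 1, 1] : Fin 3 → ℕ) j) (y j) = {q, t} := by
      rw [rep3, hq, ht]; rfl
    have hl : ∑ j, (((![0, 1, 1] : Fin 3 → ℕ) j : ℕ) : ℝ) * x j = v + w := by
      rw [Fin.sum_univ_three, hv, hw]; simp
    rw [hr, hl, hsx]
    linarith
  -- all three moments fail: (LV')
  left
  refine ⟨![1, 1, 1], 0, 0, le_rfl, fun _ => rfl, le_rfl, fun _ => rfl, ?_, ?_⟩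
  · have hl : ∑ j, (((![1, 1, 1] : Fin 3 → ℕ) j : ℕ) : ℝ) * x j = u + v + w := by
      rw [Fin.sum_univ_three, hu, hv, hw]; simp
    have hl' : ∑ j, (((![1, 1, 1] : Fin 3 → ℕ) j : ℕ) : ℝ) * y j = p + q + t := by
      rw [Fin.sum_univ_three, hp, hq, ht]; simp
    right
    rw [hl, hl', zero_mul, zero_mul, add_zero, add_zero, add_zero, add_zero]
    have hdl : (25 / 8 - d) * (p + q + t) ≤ (25 / 8 - d) * (z₁ + z₂ + z₃) :=
      mul_le_mul_of_nonneg_left (by linarith) (by linarith)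
    linarith
  · have hl : ∑ j, (((![1, 1, 1] : Fin 3 → ℕ) j : ℕ) : ℝ) * x j = u + v + w := by
      rw [Fin.sum_univ_three, hu, hv, hw]; simp
    have hl' : ∑ j, (((![1, 1, 1] : Fin 3 → ℕ) j : ℕ) : ℝ) * y j = p + q + t := by
      rw [Fin.sum_univ_three, hp, hq, ht]; simp
    rw [hl, hl', hsx, zero_mul, zero_mul, add_zero, add_zero, add_zero, add_zero]
    rcases hB with hB | hB
    · linarith
    · exfalso
      have h34 : (3 / 4 + 2 * d) * t ≤ (3 / 4 + 2 * d) * z₃ :=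
        mul_le_mul_of_nonneg_left (by linarith) (by linarith)
      linarith

/-- columns of `{y₁,y₂,y₃ | 0,0}` with a loss `F` -/
theorem col3F (R : ExpRules (7 / 8 + d) r s) (Lv : ExpLv (7 / 8 + d) r) (hd : 0 ≤ d)
    (hd8 : d ≤ 1 / 8) {κ ξ y₁ y₂ y₃ F : ℝ} (h3 : 0 ≤ y₃) (h21 : y₂ ≤ y₁) (h32 : y₃ ≤ y₂)
    (hF : 0 ≤ F)
    (c0 : 2 * ξ + (y₁ + y₂ + y₃) ≤ κ)
    (c1 : y₁ + y₂ + y₃ + 6 * κ ≤ 42 * ξ + 24 * F)
    (c2 : 2 * (y₁ + y₂ + y₃) + 3 * ξ + 3 / 4 * y₃ ≤ 2 * κ + 3 * F)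
    (c5 : κ ≤ 6 * ξ) (hy4 : 4 * y₃ ≤ κ) :
    ColX (7 / 8 + d) r κ ξ (d * κ + F) {y₁, y₂, y₃} 0 0 := by
  have hκ : 0 ≤ κ := by linarith
  have hdy : d * (4 * y₃) ≤ d * κ := mul_le_mul_of_nonneg_left hy4 hd
  have hdκ : 0 ≤ d * κ := mul_nonneg hd hκ
  have hdξ : d * κ ≤ d * (6 * ξ) := mul_le_mul_of_nonneg_left c5 hd
  refine ⟨?_, ?_⟩
  · intro Z' m' a' i hZ' hm0 hm1 ha0 ha1 hi hyi hii
    have hm' : m' = 0 := le_antisymm hm1 hm0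
    have ha' : a' = 0 := le_antisymm ha1 ha0
    subst hm'; subst ha'
    obtain ⟨z₁, z₂, z₃, rfl, hz1, hz1', hz2, hz2', hz3, hz3'⟩ := Sh.triple hZ'
    rw [sum_triple]
    have hi1 : z₁ ≤ i := hyi z₁ (by simp)
    have hi2 : z₂ ≤ i := hyi z₂ (by simp)
    have hi3 : z₃ ≤ i := hyi z₃ (by simp)
    have hdL : 0 ≤ d * (z₁ + z₂ + z₃) := mul_nonneg hd (by linarith)
    have hdi : d * i ≤ d * (κ - 3 * ξ) := mul_le_mul_of_nonneg_left hii hd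
    have hdz : d * z₃ ≤ d * y₃ := mul_le_mul_of_nonneg_left hz3' hd
    refine lump3z R Lv hd hd8 hi hz1 hz2 hz3 hi1 hi2 hi3 ?_ ?_
    · linarith
    · by_cases hB : 2 * (z₁ + z₂ + z₃) ≤
          z₁ + z₂ + z₃ + 0 + 0 + (2 * κ + i) / 3 - ξ + (d * κ + F)
      · left; exact hB
      · right
        push Not at hB
        linarith
  · intro Z' m' a' hZ' hm0 hm1 ha0 ha1 _
    have hZs := hZ'.sum_nonneg
    have hdm : 0 ≤ (1 / 8 - d) * m' := mul_nonneg (by linarith) hm0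
    linarith

/-- **V1 with a loss**: side `V + {y₁,y₂,y₃} | m, a`, `V.sum + m + a ≤ ξ`, loss `d κ + F` -/
theorem V1F (R : ExpRules (7 / 8 + d) r s) (Lv : ExpLv (7 / 8 + d) r) (hd : 0 ≤ d)
    (hd8 : d ≤ 1 / 8) {κ ξ y₁ y₂ y₃ m a F : ℝ} {V : Multiset ℝ} (h3 : 0 ≤ y₃) (h21 : y₂ ≤ y₁)
    (h32 : y₃ ≤ y₂) (hV : ∀ y ∈ V, 0 ≤ y) (hm : 0 ≤ m) (ha : 0 ≤ a) (hF : 0 ≤ F)
    (hVξ : V.sum + m + a ≤ ξ)
    (c0 : 2 * ξ + (y₁ + y₂ + y₃) ≤ κ)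
    (c1 : y₁ + y₂ + y₃ + 6 * κ ≤ 42 * ξ + 24 * F)
    (c2 : 2 * (y₁ + y₂ + y₃) + 3 * ξ + 3 / 4 * y₃ ≤ 2 * κ + 3 * F)
    (c5 : κ ≤ 6 * ξ) (hy4 : 4 * y₃ ≤ κ) :
    ∀ κ' : ℝ, 0 ≤ κ' → κ' ≤ κ →
      r κ' (V + {y₁, y₂, y₃}) m a + (κ - κ') / 3 ≤
        κ + (V.sum + (y₁ + y₂ + y₃) + m + a) + (d * κ + F) := by
  have hκ : 0 ≤ κ := by linarith
  have hV0 : 0 ≤ V.sum := Multiset.sum_nonneg hV
  have hdκ := mul_nonneg hd hκ
  have hC := col3F R Lv hd hd8 (κ := κ) (ξ := ξ) h3 h21 h32 hF c0 c1 c2 c5 hy4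
  have hZ : ∀ y ∈ ({y₁, y₂, y₃} : Multiset ℝ), 0 ≤ y := by
    intro y hy
    simp only [Multiset.insert_eq_cons, Multiset.mem_cons, Multiset.mem_singleton] at hy
    rcases hy with rfl | rfl | rfl <;> linarith
  have := side_xi R (κ := κ) (ξ := ξ) (m := 0) (b := m) (a := 0) (b' := a)
    (F := d * κ + F) (V := V) (Z := {y₁, y₂, y₃}) hκ hV hZ le_rfl hm le_rfl ha (by linarith)
    (by linarith) (by rw [sum_triple]; linarith) hC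
  intro κ' h0 h1
  have := this κ' h0 h1
  rw [sum_triple, zero_add, zero_add] at this
  linarith

end Crest.Agent.R017.T3L126
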