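import Crest.Agent.R017.TSUX_939
import Crest.Agent.R017.TET_792

/-!
# Row 17, R8 / E4, class E: the moments of the double difference from the flat claims (helper939)

* `b5r` : the parent of the replaced pair
* `vnxe_of` : `VNXE` from 708's flat claims at the parents `b5q`, `b5r`
-/

set_option autoImplicit false
set_option linter.unusedVariables false

noncomputable section

open Set

namespace Crest.Agent.R017.MnU939

open Crest.Agent.R012 Crest.Agent.R012.Eis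
open Crest.Agent.R012.LS2 (S mem_S)
open Crest.Agent.R017.FE47 (PU cx SM)
open Crest.Agent.R017.XT71 (Sys Win mx le_mx)
open Crest.Agent.R017.Prov71
open Crest.Agent.R017.B770
open Crest.Agent.R017.ER911
open Crest.Agent.R017.TM708
open Crest.Agent.R017.TK708
open Crest.Agent.R017.TEM792 (nL VN)
open Crest.Agent.R017.TEX792 (LDX FJ TBn vn_fe2X)
open Crest.Agent.R017.E5B71 (Bd S5 cκ cu cN cx' cM Sq5 SqD)
open Crest.Agent.R017.E5L770 hiding nL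
open Crest.Agent.R017.E5LX770 (SqLX bfE)
open Crest.Agent.R017.ExP960 hiding alX
open Crest.Agent.R017.E4U164
open Crest.Agent.R017.E4Df372
open Crest.Agent.R017.VFa436 (b5q)
open Crest.Agent.R017.Red848 (Exc red)
open Crest.Agent.R017.XS0298 (S0K)
open Crest.Agent.R017.PX764 (Dk)

/-- the parent of the replaced pair, first length `Z` -/
def b5r (p : Fin 3 ⊕ Fin 5 → ℝ) (Z : ℝ) : Fin 5 → ℝ :=
  ![cκ p, Z, cu p 2 + cu p 3 - Z, cu p 4, cx' p]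

lemma K5_b5r (p : Fin 3 ⊕ Fin 5 → ℝ) (Z : ℝ) : K5 (b5r p Z) = K5 (b5q p) := by
  unfold K5
  have e1 : b5r p Z 0 = b5q p 0 := rfl
  have e2 : b5r p Z 1 + b5r p Z 2 + b5r p Z 3 = b5q p 1 + b5q p 2 + b5q p 3 := by
    show Z + (cu p 2 + cu p 3 - Z) + cu p 4 = cu p 2 + cu p 3 + cu p 4
    ring
  rw [e1, e2]

lemma T5_b5r (p : Fin 3 ⊕ Fin 5 → ℝ) (Z : ℝ) : TM708.T5 (b5r p Z) = TM708.T5 (b5q p) := by
  unfold TM708.T5
  have e1 : b5r p Z 0 = b5q p 0 := rfl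
  have e3 : b5r p Z 4 = b5q p 4 := rfl
  have e2 : b5r p Z 1 + b5r p Z 2 + b5r p Z 3 = b5q p 1 + b5q p 2 + b5q p 3 := by
    show Z + (cu p 2 + cu p 3 - Z) + cu p 4 = cu p 2 + cu p 3 + cu p 4
    ring
  rw [e1, e2, e3]

variable {Λ : Type*} {π : Λ → DPar} {h : ℝ → ℝ} {d : ℝ}

lemma FJ_le {κ top ℓ u v n : ℝ} (h : v + n ≤ top) :
    FJ κ top ℓ u v n ≤ eH (max κ (v + n / 2)) v n + ℓ := by
  unfold TEX792.FJ
  rw [if_pos h]
  exact min_le_left _ _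

/-- **`VNXE` from the flat claims at the parents `b5q` and `b5r`** -/
theorem vnxe_of {c₀ : ℝ} (hpu : PU h c₀) (hP : ∀ lam, (π lam).OK) (hE : ∀ lam, Exc (π lam))
    (hA : AllT d (ex Dq fun lam => S0K Dk (red (π lam)) h)) {D5 : Set (Fin 5 → ℝ)}
    (hD : IsCompact D5) (hR5 : ∀ b ∈ D5, R5 b) {ℓ : (Fin 5 → ℝ) → ℝ} (hℓ : Continuous ℓ)
    (hFE : FE2L (ex Dq fun lam => S0K Dk (red (π lam)) h) D5 ℓ)
    {A β lo r : ℝ} {Bf : ℕ → ℝ → ℝ → ℝ → ℝ} (hb : ∀ q ∈ SqD A d, b5q q.1 ∈ D5)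
    (hb' : ∀ q ∈ SqD A d, ∀ Z, β * cκ q.1 ≤ Z → Z ≤ β → b5r q.1 Z ∈ D5)
    (hlo : ∀ b ∈ D5, ℓ b ≤ lo) : VNXE π h A d β lo r Bf := by
  intro ε hε
  have hT : Continuous TM708.T5 := by unfold TM708.T5; fun_prop
  have hK : Continuous TM708.K5 := by unfold TM708.K5; fun_prop
  obtain ⟨σ, hσ, G⟩ := vn_fe2X hpu hP hE hA hK hT hD hℓ (FE2G_iff.2 hFE) hε
  set δ : ℝ := min 1 (σ / 40) with hδd
  have hδ : 0 < δ := lt_min one_pos (by positivity)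
  have hδσ : δ ≤ σ / 40 := min_le_right _ _
  refine ⟨δ, hδ, fun lam N B K hK1 hCD hm => ?_⟩
  obtain ⟨M, G⟩ := G lam.1 K hK1
  obtain ⟨X₀, hX₀, G⟩ := G M le_rfl lam.2 hm
  refine ⟨M, X₀, hX₀, ?_⟩
  intro X hX δ' hδ'0 hδ'1 a ps q hF hok hokP b hbT s₀ hLD
  have hX1 : 1 < X := lt_of_lt_of_le hX₀ hX
  have hX0 : 0 < X := by linarith
  have hL0 := Real.log_pos hX1
  have hdL : 0 < δ * Real.log X := by positivity
  have hdσ : δ * Real.log X ≤ σ / 40 * Real.log X := mul_le_mul_of_nonneg_right hδσ hL0.le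
  have hq := dnX_mem hF.dom
  have hZR : ZR β (dn q.1) := hF.dom.1.2
  have hz2 := hZR 1
  set Z := q.1 (some (.inr 1)) with hZ
  change β * cκ (prX (dn q.1)) ≤ Z ∧ Z ≤ β at hz2
  have m1 : b5q (prX (dn q.1)) ∈ D5 := hb (prX (dn q.1), q.2) hq.1
  have m2 : b5r (prX (dn q.1)) Z ∈ D5 := hb' (prX (dn q.1), q.2) hq.1 Z hz2.1 hz2.2
  have hx0 : 0 ≤ cx' (prX (dn q.1)) := (hR5 _ m1).x0
  have hb4 : 0 ≤ b5q (prX (dn q.1)) 4 := hx0
  have hb4' : 0 ≤ b5r (prX (dn q.1)) Z 4 := hx0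
  have nu2 := abs_le.1 (FrLX_u hF hX1 2)
  have nu3 := abs_le.1 (FrLX_u hF hX1 3)
  have nu4 := abs_le.1 (FrLX_u hF hX1 4)
  have nz2 := abs_le.1 (FrLX_z2 hF hX1)
  rw [← hZ] at nz2
  have hz23 := hok.s23
  have f1 : ∀ i : Fin 3, (u3 a.1 i).z ≤ ((![b5q (prX (dn q.1)) 1, b5q (prX (dn q.1)) 2,
      b5q (prX (dn q.1)) 3] : Fin 3 → ℝ) i + σ) * Real.log X := by
    intro i
    fin_cases i
    · show (a.1.us 2).z ≤ (cu (prX (dn q.1)) 2 + σ) * Real.log X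
      nlinarith [nu2.2]
    · show (a.1.us 3).z ≤ (cu (prX (dn q.1)) 3 + σ) * Real.log X
      nlinarith [nu3.2]
    · show (a.1.us 4).z ≤ (cu (prX (dn q.1)) 4 + σ) * Real.log X
      nlinarith [nu4.2]
  have f2 : ∀ i : Fin 3, (u3' a.1 i).z ≤ ((![b5r (prX (dn q.1)) Z 1, b5r (prX (dn q.1)) Z 2,
      b5r (prX (dn q.1)) Z 3] : Fin 3 → ℝ) i + σ) * Real.log X := by
    intro i
    fin_cases i
    · show a.1.zs 2 ≤ (Z + σ) * Real.log X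
      nlinarith [nz2.2]
    · show a.1.zs 3 ≤ (cu (prX (dn q.1)) 2 + cu (prX (dn q.1)) 3 - Z + σ) * Real.log X
      nlinarith [nz2.1, nu2.2, nu3.2]
    · show (a.1.us 4).z ≤ (cu (prX (dn q.1)) 4 + σ) * Real.log X
      nlinarith [nu4.2]
  have hVN := G X hX (X ^ δ') (Real.one_le_rpow hX1.le hδ'0.le) a.1 b s₀ hLD _ m1 _ m2 hb4 hb4'
    f1 f2 0 0
  refine ⟨_, hVN, ?_⟩
  intro v γ hv hγ hn htop
  have hlow := hF.low
  unfold low5 at hlow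
  have eT : TM708.T5 (b5q (prX (dn q.1))) + (b5q (prX (dn q.1)) 1 + b5q (prX (dn q.1)) 2 +
      b5q (prX (dn q.1)) 3 + b5q (prX (dn q.1)) 4) =
      min (2 * cN (prX (dn q.1)) - cκ (prX (dn q.1))) (3 / 4 * cN (prX (dn q.1))) +
        5 * cx' (prX (dn q.1)) + (cN (prX (dn q.1)) + cx' (prX (dn q.1))) := rfl
  have eT' : TM708.T5 (b5r (prX (dn q.1)) Z) + (b5r (prX (dn q.1)) Z 1 +
      b5r (prX (dn q.1)) Z 2 + b5r (prX (dn q.1)) Z 3 + b5r (prX (dn q.1)) Z 4) =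
      TM708.T5 (b5q (prX (dn q.1))) + (b5q (prX (dn q.1)) 1 + b5q (prX (dn q.1)) 2 +
      b5q (prX (dn q.1)) 3 + b5q (prX (dn q.1)) 4) := by
    rw [T5_b5r]
    have : b5r (prX (dn q.1)) Z 1 + b5r (prX (dn q.1)) Z 2 + b5r (prX (dn q.1)) Z 3 +
      b5r (prX (dn q.1)) Z 4 = b5q (prX (dn q.1)) 1 + b5q (prX (dn q.1)) 2 +
      b5q (prX (dn q.1)) 3 + b5q (prX (dn q.1)) 4 := by
      show Z + (cu (prX (dn q.1)) 2 + cu (prX (dn q.1)) 3 - Z) + cu (prX (dn q.1)) 4 +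
        cx' (prX (dn q.1)) = cu (prX (dn q.1)) 2 + cu (prX (dn q.1)) 3 +
        cu (prX (dn q.1)) 4 + cx' (prX (dn q.1))
      ring
    rw [this]
  have l1 := hlo _ m1
  have l2 := hlo _ m2
  refine max_le ?_ ?_
  · have h1 := FJ_le (κ := K5 (b5q (prX (dn q.1)))) (ℓ := ℓ (b5q (prX (dn q.1))))
      (u := (u3 a.1 0).z / Real.log X) (show v + (nL X (u3 a.1) b - γ) ≤
      TM708.T5 (b5q (prX (dn q.1))) + (b5q (prX (dn q.1)) 1 + b5q (prX (dn q.1)) 2 +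
      b5q (prX (dn q.1)) 3 + b5q (prX (dn q.1)) 4) + σ by rw [eT]; linarith)
    linarith
  · have h1 := FJ_le (κ := K5 (b5r (prX (dn q.1)) Z)) (ℓ := ℓ (b5r (prX (dn q.1)) Z))
      (u := (u3' a.1 0).z / Real.log X) (show v + (nL X (u3 a.1) b - γ) ≤
      TM708.T5 (b5r (prX (dn q.1)) Z) + (b5r (prX (dn q.1)) Z 1 + b5r (prX (dn q.1)) Z 2 +
      b5r (prX (dn q.1)) Z 3 + b5r (prX (dn q.1)) Z 4) + σ by rw [eT', eT]; linarith)
    rw [K5_b5r] at h1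
    rw [K5_b5r]
    linarith

end Crest.Agent.R017.MnU939
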