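import Crest.Agent.R017.TPPiece_320
import Crest.Agent.R017.PSup2_271

/-!
# Row 17: the universal class of smooth cut-offs (helper571)

`Cls R D W` : `W` smooth, supported in `[-R, R]`, `|W^{(k)}| ≤ D k` for all `k`.
* `cls_twist` : uniform closure under the multiplication by `e^{-s₀ u}`
* `ker_unif`, `int_unif` : uniform decay / integrability of the kernels
* `cls_HW2`, `cls_HW3` : the products `h σ(·+δ)`, `h σ(·+δ) ρ(·+η)` of helper699 and helper271
-/

set_option autoImplicit false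

noncomputable section

open Complex MeasureTheory Set
open scoped ContDiff

namespace Crest.Agent.R017.TPOk571

open Crest.Agent.R012.Weight600 Crest.Agent.R017.FE47 Crest.Agent.R017.End699
open Crest.Agent.R017.Z2590 (deriv_supp deriv_iter_supp)

/-- the universal class of smooth cut-offs -/
structure Cls (R : ℝ) (D : ℕ → ℝ) (W : ℝ → ℂ) : Prop where
  cd : ContDiff ℝ ∞ W
  supp : ∀ u, W u ≠ 0 → |u| ≤ R
  bd : ∀ (k : ℕ) (u : ℝ), ‖deriv^[k] W u‖ ≤ D k

variable {R : ℝ} {D : ℕ → ℝ} {W : ℝ → ℂ}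

lemma Cls.cs (h : Cls R D W) : HasCompactSupport W := by
  refine HasCompactSupport.intro (isCompact_Icc (a := -R) (b := R)) fun u hu => ?_
  by_contra hne
  exact hu (abs_le.mp (h.supp u hne))

lemma Cls.bd0 (h : Cls R D W) (u : ℝ) : ‖W u‖ ≤ D 0 := h.bd 0 u

lemma Cls.D_nonneg (h : Cls R D W) (k : ℕ) : 0 ≤ D k := (norm_nonneg _).trans (h.bd k 0)

lemma Cls.mono (h : Cls R D W) {R' : ℝ} {D' : ℕ → ℝ} (hR : R ≤ R') (hD : ∀ k, D k ≤ D' k) :
    Cls R' D' W :=
  ⟨h.cd, fun u hu => (h.supp u hu).trans hR, fun k u => (h.bd k u).trans (hD k)⟩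

lemma Cls.deriv (h : Cls R D W) : Cls R (fun k => D (k + 1)) (deriv W) where
  cd := (contDiff_infty_iff_deriv.mp h.cd).2
  supp := deriv_supp h.supp
  bd k u := h.bd (k + 1) u

lemma iter_deriv_smul {A : ℝ → ℂ} (hA : ContDiff ℝ ∞ A) (a : ℂ) (k : ℕ) :
    deriv^[k] (fun u => a * A u) = fun u => a * deriv^[k] A u := by
  induction k generalizing A with
  | zero => rfl
  | succ k ih =>
    have h1 : _root_.deriv (fun u => a * A u) = fun u => a * _root_.deriv A u := by
      funext u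
      exact deriv_const_mul a ((contDiff_infty_iff_deriv.mp hA).1 u)
    rw [Function.iterate_succ_apply, h1, ih (contDiff_infty_iff_deriv.mp hA).2]
    rfl

lemma Cls.add {D' : ℕ → ℝ} {V : ℝ → ℂ} (h : Cls R D W) (h' : Cls R D' V) :
    Cls R (fun k => D k + D' k) (fun u => W u + V u) where
  cd := h.cd.add h'.cd
  supp u hu := by
    by_contra hlt
    apply hu
    have h1 : W u = 0 := by by_contra h0; exact hlt (h.supp u h0)
    have h2 : V u = 0 := by by_contra h0; exact hlt (h'.supp u h0)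
    rw [h1, h2, add_zero]
  bd k u := by
    rw [iter_deriv_add h.cd h'.cd]
    exact (norm_add_le _ _).trans (add_le_add (h.bd k u) (h'.bd k u))

lemma Cls.const_mul (h : Cls R D W) (a : ℂ) : Cls R (fun k => ‖a‖ * D k) (fun u => a * W u) where
  cd := contDiff_const.mul h.cd
  supp u hu := h.supp u (right_ne_zero_of_mul hu)
  bd k u := by
    rw [iter_deriv_smul h.cd]
    simp only [norm_mul]
    exact mul_le_mul_of_nonneg_left (h.bd k u) (norm_nonneg _)

/-- the exponential factor -/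
def ef (s0 : ℝ) (u : ℝ) : ℂ := (Real.exp (-s0 * u) : ℂ)

lemma cd_ef (s0 : ℝ) : ContDiff ℝ ∞ (ef s0) := by
  have : ContDiff ℝ ∞ fun x : ℝ => Real.exp (-s0 * x) := by fun_prop
  exact Complex.ofRealCLM.contDiff.comp this

lemma deriv_ef (s0 u : ℝ) : _root_.deriv (ef s0) u = -(s0 : ℂ) * ef s0 u := by
  have h1 : HasDerivAt (fun x : ℝ => Real.exp (-s0 * x)) (Real.exp (-s0 * u) * (-s0)) u := by
    have := ((hasDerivAt_id u).const_mul (-s0)).exp
    simpa using this
  have h2 := h1.ofReal_comp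
  have h3 : HasDerivAt (ef s0) (-(s0 : ℂ) * ef s0 u) u := by
    have e : -(s0 : ℂ) * ef s0 u = ((Real.exp (-s0 * u) * (-s0) : ℝ) : ℂ) := by
      unfold ef
      push_cast
      ring
    rw [e]
    exact h2
  exact h3.deriv

/-- the twisted cut-off -/
def tws (W : ℝ → ℂ) (s0 : ℝ) (u : ℝ) : ℂ := W u * ef s0 u

lemma deriv_tws (h : ContDiff ℝ ∞ W) (s0 : ℝ) :
    _root_.deriv (tws W s0) = tws (fun u => _root_.deriv W u + -(s0 : ℂ) * W u) s0 := by
  funext u
  have h1 : HasDerivAt W (_root_.deriv W u) u := ((contDiff_infty_iff_deriv.mp h).1 u).hasDerivAt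
  have h2 : HasDerivAt (ef s0) (_root_.deriv (ef s0) u) u :=
    ((contDiff_infty_iff_deriv.mp (cd_ef s0)).1 u).hasDerivAt
  have h3 := (h1.mul h2).deriv
  have h4 : tws W s0 = fun u => W u * ef s0 u := rfl
  rw [h4]
  refine h3.trans ?_
  rw [deriv_ef]
  unfold tws
  ring

lemma twist_bd (R : ℝ) (s0 : ℝ) (k : ℕ) : ∀ D : ℕ → ℝ, ∃ B : ℝ, ∀ W, Cls R D W →
    ∀ u, ‖deriv^[k] (tws W s0) u‖ ≤ B := by
  induction k with
  | zero =>
    intro D
    refine ⟨D 0 * Real.exp (|s0| * R), fun W hW u => ?_⟩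
    have hD := hW.D_nonneg 0
    simp only [Function.iterate_zero, id_eq]
    unfold tws
    by_cases h0 : W u = 0
    · rw [h0, zero_mul, norm_zero]; positivity
    · rw [norm_mul]
      have h1 := hW.supp u h0
      have h2 : ‖ef s0 u‖ ≤ Real.exp (|s0| * R) := by
        unfold ef
        rw [Complex.norm_real, Real.norm_of_nonneg (Real.exp_pos _).le]
        apply Real.exp_le_exp.2
        calc -s0 * u ≤ |(-s0) * u| := le_abs_self _
          _ = |s0| * |u| := by rw [abs_mul, abs_neg]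
          _ ≤ |s0| * R := by gcongr
      exact mul_le_mul (hW.bd0 u) h2 (norm_nonneg _) hD
  | succ k ih =>
    intro D
    obtain ⟨B, hB⟩ := ih (fun k => D (k + 1) + ‖(-(s0 : ℂ))‖ * D k)
    refine ⟨B, fun W hW u => ?_⟩
    rw [Function.iterate_succ_apply, deriv_tws hW.cd s0]
    exact hB _ (hW.deriv.add (hW.const_mul (-(s0 : ℂ)))) u

/-- **uniform closure under exponential twists** -/
theorem cls_twist (R : ℝ) (D : ℕ → ℝ) (s0 : ℝ) : ∃ D' : ℕ → ℝ, ∀ W, Cls R D W →
    Cls R D' (tws W s0) := by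
  choose D' hD' using fun k => twist_bd R s0 k D
  refine ⟨D', fun W hW => ⟨hW.cd.mul (cd_ef s0), fun u hu => hW.supp u (left_ne_zero_of_mul hu),
    fun k u => hD' k W hW u⟩⟩

lemma integral_le (hR : 0 ≤ R) {w : ℝ → ℂ} {B : ℝ} (hb : ∀ u, ‖w u‖ ≤ B)
    (hs : ∀ u, w u ≠ 0 → |u| ≤ R) : ∫ u, ‖w u‖ ≤ 2 * R * B := by
  have h1 : ∫ u, ‖w u‖ = ∫ u in Icc (-R : ℝ) R, ‖w u‖ := by
    rw [setIntegral_eq_integral_of_forall_compl_eq_zero]
    intro u hu
    rw [norm_eq_zero]
    by_contra hne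
    exact hu (abs_le.mp (hs u hne))
  rw [h1]
  have h2 : ‖∫ u in Icc (-R : ℝ) R, ‖w u‖‖ ≤ B * (volume : Measure ℝ).real (Icc (-R : ℝ) R) := by
    apply norm_setIntegral_le_of_norm_le_const
    · simp
    · intro u _
      rw [norm_norm]; exact hb u
  have h3 : (volume : Measure ℝ).real (Icc (-R : ℝ) R) = 2 * R := by
    rw [Real.volume_real_Icc_of_le (by linarith)]; ring
  rw [h3] at h2
  refine (le_abs_self _).trans ?_
  rw [← Real.norm_eq_abs]
  linarith

lemma ker_iter (h : Cls R D W) (k : ℕ) (t : ℝ) : ker (deriv^[k] W) t = (I * t) ^ k * ker W t := by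
  induction k generalizing W D with
  | zero => simp
  | succ k ih =>
    rw [Function.iterate_succ_apply, ih h.deriv, ker_deriv
      (h.cd.continuous.integrable_of_hasCompactSupport h.cs)
      (contDiff_infty_iff_deriv.mp h.cd).1
      (h.deriv.cd.continuous.integrable_of_hasCompactSupport h.deriv.cs)]
    ring

/-- **uniform decay of the kernels** -/
theorem ker_unif (hR : 0 ≤ R) (D : ℕ → ℝ) (k : ℕ) : ∃ C : ℝ, 0 ≤ C ∧ ∀ W, Cls R D W →
    ∀ t, ‖ker W t‖ * (1 + |t|) ^ k ≤ C := by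
  refine ⟨2 ^ (k - 1) * (R * |D 0| + R * |D k|), by positivity, fun W hW t => ?_⟩
  have h0 := fun j => norm_ker_le (deriv^[j] W) t
  have h1 : ∀ j, |t| ^ j * ‖ker W t‖ ≤ R * |D j| := by
    intro j
    have e : ‖ker (deriv^[j] W) t‖ = |t| ^ j * ‖ker W t‖ := by
      rw [ker_iter hW, norm_mul, norm_pow, norm_mul, Complex.norm_I, one_mul, Complex.norm_real,
        Real.norm_eq_abs]
    rw [← e]
    refine (h0 j).trans ?_
    have h2 := integral_le hR (hW.bd j) (deriv_iter_supp hW.supp j)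
    have h3 : (1 / (2 * Real.pi)) * ∫ u, ‖deriv^[j] W u‖ ≤ (1 / (2 * Real.pi)) * (2 * R * D j) :=
      mul_le_mul_of_nonneg_left h2 (by positivity)
    refine h3.trans ?_
    have h4 : (1 / (2 * Real.pi)) * (2 * R * D j) = (R * D j) * (1 / Real.pi) := by
      field_simp
    rw [h4]
    have h5 : R * D j ≤ R * |D j| := mul_le_mul_of_nonneg_left (le_abs_self _) hR
    have h6 : (1 / Real.pi) ≤ 1 := by
      rw [div_le_one Real.pi_pos]
      linarith [Real.pi_gt_three]
    have h7 := hW.D_nonneg j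
    calc (R * D j) * (1 / Real.pi) ≤ (R * |D j|) * 1 := by gcongr
      _ = _ := mul_one _
  have h8 := add_pow_le (zero_le_one) (abs_nonneg t) k
  rw [one_pow] at h8
  have h9 := h1 0
  rw [pow_zero, one_mul] at h9
  calc ‖ker W t‖ * (1 + |t|) ^ k ≤ ‖ker W t‖ * (2 ^ (k - 1) * (1 + |t| ^ k)) := by gcongr
    _ = 2 ^ (k - 1) * (‖ker W t‖ + |t| ^ k * ‖ker W t‖) := by ring
    _ ≤ _ := by
      have := h1 k
      gcongr

lemma integrable_inv_sq : Integrable fun u : ℝ => ((1 + |u|) ^ 2)⁻¹ := by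
  have hi : Integrable (fun u : ℝ => (1 + ‖u‖) ^ (-(2 : ℝ))) := integrable_one_add_norm (by simp)
  refine hi.congr (Filter.Eventually.of_forall fun u => ?_)
  simp only
  rw [Real.rpow_neg (by positivity), Real.norm_eq_abs]
  norm_cast

/-- **uniform integrability of the twisted kernels** -/
theorem int_unif (hR : 0 ≤ R) (D : ℕ → ℝ) (s0 μ : ℝ) : ∃ I : ℝ, 0 ≤ I ∧ ∀ W, Cls R D W →
    ∫ u, ‖ker (tws W s0) u‖ * (1 + |u|) ^ μ ≤ I := by
  obtain ⟨D', hD'⟩ := cls_twist R D s0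
  obtain ⟨C, hC, hb⟩ := ker_unif hR D' (⌈μ⌉₊ + 2)
  set J : ℝ := ∫ u : ℝ, ((1 + |u|) ^ 2)⁻¹ with hJ
  have hJ0 : 0 ≤ J := integral_nonneg fun u => by positivity
  refine ⟨C * J, by positivity, fun W hW => ?_⟩
  have hT := hD' W hW
  rw [hJ, ← integral_const_mul]
  apply integral_mono_of_nonneg
  · exact Filter.Eventually.of_forall fun u => by positivity
  · exact integrable_inv_sq.const_mul C
  · refine Filter.Eventually.of_forall fun u => ?_
    simp only
    have h3 : (1 + |u|) ^ μ ≤ (1 + |u|) ^ ((⌈μ⌉₊ : ℕ) : ℝ) :=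
      Real.rpow_le_rpow_of_exponent_le (by linarith [abs_nonneg u]) (Nat.le_ceil μ)
    rw [← div_eq_mul_inv, le_div_iff₀ (by positivity)]
    have h5 := hb _ hT u
    rw [pow_add] at h5
    rw [Real.rpow_natCast] at h3
    calc ‖ker (tws W s0) u‖ * (1 + |u|) ^ μ * (1 + |u|) ^ 2 ≤
          ‖ker (tws W s0) u‖ * (1 + |u|) ^ ⌈μ⌉₊ * (1 + |u|) ^ 2 := by gcongr
      _ = ‖ker (tws W s0) u‖ * ((1 + |u|) ^ ⌈μ⌉₊ * (1 + |u|) ^ 2) := by ring
      _ ≤ C := h5

/-! ### members of the class -/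

/-- every smooth compactly supported function is in a class -/
theorem cls_single {h : ℝ → ℂ} (hc : ContDiff ℝ ∞ h) {R : ℝ} (hs : ∀ u, h u ≠ 0 → |u| ≤ R) :
    ∃ D : ℕ → ℝ, Cls R D h := by
  have key : ∀ k : ℕ, ∃ B : ℝ, ∀ u, ‖deriv^[k] h u‖ ≤ B := by
    intro k
    have hcd : ContDiff ℝ ∞ (deriv^[k] h) := by
      clear hs
      induction k generalizing h with
      | zero => simpa
      | succ k ih => exact ih (contDiff_infty_iff_deriv.mp hc).2
    have hcs : HasCompactSupport (deriv^[k] h) := by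
      refine HasCompactSupport.intro (isCompact_Icc (a := -R) (b := R)) fun u hu => ?_
      by_contra hne
      exact hu (abs_le.mp (deriv_iter_supp hs k u hne))
    exact hcd.continuous.bounded_above_of_compact_support hcs
  choose D hD using key
  exact ⟨D, hc, hs, fun k u => hD k u⟩

/-- the two-factor weights of helper699 -/
theorem cls_HW2 {h σ : ℝ → ℂ} (hh : HW h) (hσ : SG σ) :
    ∃ D : ℕ → ℝ, ∀ δ : ℝ, Cls 1 D (fun u => h u * σ (u + δ)) := by
  choose D hD using fun k => iter_bound k hh hσ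
  exact ⟨D, fun δ => ⟨hh.cd.mul (contDiff_shift hσ.cd δ), prod_supp hh δ, fun k u => hD k δ u⟩⟩

/-- the three-factor weights of helper271 -/
theorem cls_HW3 {h σ ρ : ℝ → ℂ} (hh : HW h) (hσ : SG σ) (hρ : SG ρ) :
    ∃ D : ℕ → ℝ, ∀ δ η : ℝ, Cls 1 D (fun u => (h u * σ (u + δ)) * ρ (u + η)) := by
  choose D hD using fun k => PSup271.iter_bound2 k hh hσ hρ
  exact ⟨D, fun δ η => ⟨(hh.cd.mul (contDiff_shift hσ.cd δ)).mul (contDiff_shift hρ.cd η),
    PSup271.prod_supp2 hh δ η, fun k u => hD k δ η u⟩⟩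

/-- common majorant of two classes -/
lemma Cls.max_left {R' : ℝ} {D' : ℕ → ℝ} (h : Cls R D W) :
    Cls (max R R') (fun k => max (D k) (D' k)) W :=
  h.mono (le_max_left _ _) fun _ => le_max_left _ _

lemma Cls.max_right {R' : ℝ} {D' : ℕ → ℝ} (h : Cls R D W) :
    Cls (max R' R) (fun k => max (D' k) (D k)) W :=
  h.mono (le_max_right _ _) fun _ => le_max_right _ _

end Crest.Agent.R017.TPOk571
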