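import Crest.Agent.R017.X6W1_180
import Crest.Agent.R012.CstDefs_566

/-!
# Row 17, weights (helper180): a weight in `Wgt` is a finite sum of shifted `TF1` pieces

* `wgt_pieces` : `w x = Σ_{i < N} GF (F i) (x * exp (M - i))`
-/

set_option autoImplicit false

noncomputable section

open Complex MeasureTheory
open scoped ContDiff

namespace Crest.Agent.R017.WDec180

open Crest.Agent.R012 Crest.Agent.R012.Eis Crest.Agent.R012.MC
open Crest.Agent.R017.X6C180 (GF)
open Crest.Agent.R017.X6545 (TF Bd)
open Crest.Agent.R017.X6W180 (TF1)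

/-- the partition function on the line: support `[0, 2]` -/
def pq (v : ℝ) : ℝ := Real.smoothTransition v - Real.smoothTransition (v - 1)

lemma pq_smooth : ContDiff ℝ ∞ pq := by
  unfold pq
  have h : ContDiff ℝ ∞ Real.smoothTransition := Real.smoothTransition.contDiff
  exact h.sub (h.comp (contDiff_id.sub contDiff_const))

lemma pq_zero {v : ℝ} (h : v ≤ 0 ∨ 2 ≤ v) : pq v = 0 := by
  unfold pq
  rcases h with h | h
  · rw [Real.smoothTransition.zero_of_nonpos h, Real.smoothTransition.zero_of_nonpos (by linarith),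
      sub_zero]
  · rw [Real.smoothTransition.one_of_one_le (by linarith),
      Real.smoothTransition.one_of_one_le (by linarith), sub_self]

lemma pq_sum (v : ℝ) (N : ℕ) : ∑ i ∈ Finset.range N, pq (v - i) =
    Real.smoothTransition v - Real.smoothTransition (v - N) := by
  induction N with
  | zero => simp
  | succ n ih =>
    rw [Finset.sum_range_succ, ih]
    unfold pq
    push_cast
    have : v - (n : ℝ) - 1 = v - (n + 1) := by ring
    rw [this]
    ring

lemma pq_one {v : ℝ} {N : ℕ} (h1 : 1 ≤ v) (h2 : v ≤ N) :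
    ∑ i ∈ Finset.range N, pq (v - i) = 1 := by
  rw [pq_sum, Real.smoothTransition.one_of_one_le h1,
    Real.smoothTransition.zero_of_nonpos (by linarith), sub_zero]

/-- bounded derivatives of a compactly supported smooth function -/
lemma bd_of {F : ℝ → ℂ} (hF : ContDiff ℝ ∞ F) (hc : HasCompactSupport F) (k : ℕ) :
    ∃ S : ℝ, 0 ≤ S ∧ Bd F k S := by
  have h : ∀ i : ℕ, ∃ S : ℝ, 0 ≤ S ∧ ∀ y, ‖iteratedDeriv i F y‖ ≤ S := by
    intro i
    have h1 : Continuous (iteratedDeriv i F) :=
      hF.continuous_iteratedDeriv i (by exact_mod_cast le_top)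
    have h2 : HasCompactSupport (iteratedDeriv i F) := by
      induction i with
      | zero => rw [iteratedDeriv_zero]; exact hc
      | succ n ih =>
        rw [iteratedDeriv_succ]
        exact (ih (hF.continuous_iteratedDeriv n (by exact_mod_cast le_top))).deriv
    obtain ⟨S, hS⟩ := h1.norm.bounded_above_of_compact_support h2.norm
    refine ⟨max S 0, le_max_right _ _, fun y => ?_⟩
    have := hS y
    rw [norm_norm] at this
    exact this.trans (le_max_left _ _)
  choose S hS0 hS using h
  refine ⟨∑ i ∈ Finset.range (k + 1), S i, Finset.sum_nonneg fun i _ => hS0 i, fun i hi y => ?_⟩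
  exact (hS i y).trans (Finset.single_le_sum (fun j _ => hS0 j)
    (Finset.mem_range.mpr (Nat.lt_succ_of_le hi)))

/-- **a weight is a finite sum of shifted pieces** -/
theorem wgt_pieces {w : ℝ → ℝ} (hw : Wgt w) : ∃ (N : ℕ) (M : ℝ) (F : ℕ → ℝ → ℂ), 0 ≤ M ∧
    (∀ i, TF1 (F i)) ∧ (∀ k : ℕ, ∃ S : ℝ, 0 ≤ S ∧ ∀ i < N, Bd (F i) k S) ∧
    ∀ x : ℝ, ((w x : ℝ) : ℂ) = ∑ i ∈ Finset.range N, GF (F i) (x * Real.exp (M - i)) := by
  -- the support
  obtain ⟨M, hM0, hM⟩ : ∃ M : ℝ, 0 ≤ M ∧ ∀ x : ℝ, 0 < x → w x ≠ 0 → |Real.log x| ≤ M := by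
    have hc : IsCompact (Real.log '' tsupport w) := by
      refine IsCompact.image_of_continuousOn hw.cpt ?_
      exact Real.continuousOn_log.mono fun x hx => ne_of_gt (hw.pos hx)
    obtain ⟨r, hr⟩ := hc.isBounded.subset_closedBall 0
    refine ⟨max r 0, le_max_right _ _, fun x hx hne => ?_⟩
    have h1 : Real.log x ∈ Real.log '' tsupport w := ⟨x, subset_tsupport _ hne, rfl⟩
    have h2 := hr h1
    rw [Metric.mem_closedBall, dist_zero_right, Real.norm_eq_abs] at h2
    exact h2.trans (le_max_left _ _)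
  obtain ⟨n, hn⟩ := exists_nat_ge (2 * M + 1)
  set F : ℕ → ℝ → ℂ := fun i y => ((pq (y + 1) * w (Real.exp (y + (i - M))) : ℝ) : ℂ) with hF
  have hsm : ∀ i, ContDiff ℝ ∞ (F i) := by
    intro i
    have h1 : ContDiff ℝ ∞ fun y : ℝ => pq (y + 1) :=
      pq_smooth.comp (contDiff_id.add contDiff_const)
    have h2 : ContDiff ℝ ∞ fun y : ℝ => w (Real.exp (y + (i - M))) :=
      hw.smooth.comp (Real.contDiff_exp.comp (contDiff_id.add contDiff_const))
    exact Complex.ofRealCLM.contDiff.comp (h1.mul h2)
  have hsupp : ∀ i, ∀ y : ℝ, 1 < |y| → F i y = 0 := by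
    intro i y hy
    have h1 : pq (y + 1) = 0 := by
      apply pq_zero
      rcases lt_abs.mp hy with h | h
      · right; linarith
      · left; linarith
    simp only [hF]
    rw [h1, zero_mul, Complex.ofReal_zero]
  have hcs : ∀ i, HasCompactSupport (F i) := fun i => by
    refine HasCompactSupport.intro (isCompact_Icc (a := (-1 : ℝ)) (b := 1)) fun y hy => ?_
    apply hsupp
    by_contra h
    rw [not_lt, abs_le] at h
    exact hy ⟨h.1, h.2⟩
  refine ⟨n, M, F, hM0, fun i => ⟨hsm i, fun y hy => hsupp i y (by linarith)⟩, fun k => ?_,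
    fun x => ?_⟩
  · choose S hS0 hS using fun i => bd_of (hsm i) (hcs i) k
    refine ⟨∑ i ∈ Finset.range n, S i, Finset.sum_nonneg fun i _ => hS0 i, fun i hi m hm y => ?_⟩
    exact (hS i m hm y).trans (Finset.single_le_sum (fun j _ => hS0 j) (Finset.mem_range.mpr hi))
  · rcases le_or_gt x 0 with hx | hx
    · have h1 : w x = 0 := by
        by_contra h
        exact absurd (hw.pos (subset_tsupport _ h)) (not_lt.mpr hx)
      rw [h1, Complex.ofReal_zero]
      symm
      refine Finset.sum_eq_zero fun i _ => ?_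
      unfold X6C180.GF
      rw [if_neg]
      have := Real.exp_pos (M - i)
      exact not_lt.mpr (mul_nonpos_of_nonpos_of_nonneg hx this.le)
    · have h1 : ∀ i : ℕ, GF (F i) (x * Real.exp (M - i)) =
          ((pq (Real.log x + M + 1 - i) * w x : ℝ) : ℂ) := by
        intro i
        unfold X6C180.GF
        have h2 := Real.exp_pos (M - i)
        rw [if_pos (by positivity), Real.log_mul hx.ne' h2.ne', Real.log_exp]
        simp only [hF]
        have e1 : Real.log x + (M - i) + 1 = Real.log x + M + 1 - i := by ring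
        have e2 : Real.log x + (M - i) + (i - M) = Real.log x := by ring
        rw [e1, e2, Real.exp_log hx]
      rw [Finset.sum_congr rfl fun i _ => h1 i, ← Complex.ofReal_sum, ← Finset.sum_mul]
      by_cases h0 : w x = 0
      · rw [h0, mul_zero]
      · have h3 := abs_le.mp (hM x hx h0)
        rw [pq_one (by linarith) (by linarith), one_mul]

end Crest.Agent.R017.WDec180
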