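import Crest.Agent.R017.PairV_681

/-!
# Row 17, section A: from the table of weights to polynomials (helper681)

Two primes `p₁, p₂`, frequency `e₁`.  `Tab t W` : `W` has parity `s`, is supported on
`± ω^c p₁^a p₂^b e₁ j⁶` (`j` prime to `p₁ p₂`) with values `w₀ t(c,a,b) ξ(j) P(j)`.

* `Tab.shf`, `Tab.lin`, `Tab.unique`
* `tab_base` : the table of the base weight
* `m1_of_tab` : the identity `(m1)` of the vector pair
-/

set_option autoImplicit false

noncomputable section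

open MeasureTheory Complex Set Filter
open scoped ENNReal ComplexConjugate Topology SchwartzMap

namespace Crest.Agent.R017.Glue681

open Crest.Agent.R012 Crest.Agent.R012.Eis Crest.Agent.R012.K695 Crest.Agent.R012.AU681
  Crest.Agent.R012.Parseval499 Crest.Agent.R017.Orth681 Crest.Agent.R017.Xn590
open Crest.Agent.R017.F1 (scl PL)

/-! ### Shifts -/

lemma shf_congr {b : Eis} (hb : b ≠ 0) {W W' : Eis → ℂ} (h : ∀ t, t ≠ 0 → W t = W' t) {x : Eis}
    (hx : x ≠ 0) : shf b W x = shf b W' x := by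
  by_cases hd : b ∣ x
  · obtain ⟨t, rfl⟩ := hd
    rw [shf_mul hb, shf_mul hb]
    exact h t (right_ne_zero_of_mul hx)
  · rw [shf_not hd, shf_not hd]

lemma shf_shf {b b' : Eis} (hb : b ≠ 0) (hb' : b' ≠ 0) (W : Eis → ℂ) (x : Eis) :
    shf b (shf b' W) x = shf (b * b') W x := by
  by_cases hd : b ∣ x
  · obtain ⟨y, rfl⟩ := hd
    rw [shf_mul hb]
    by_cases hd' : b' ∣ y
    · obtain ⟨t, rfl⟩ := hd'
      rw [shf_mul hb', ← mul_assoc, shf_mul (mul_ne_zero hb hb')]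
    · rw [shf_not hd', shf_not]
      rintro ⟨t, ht⟩
      apply hd'
      refine ⟨t, mul_left_cancel₀ hb ?_⟩
      rw [ht, mul_assoc]
  · rw [shf_not hd, shf_not]
    exact fun h => hd ((dvd_mul_right b b').trans h)

lemma shf_lin {ι : Type*} (T : Finset ι) {b : Eis} (hb : b ≠ 0) (l : ι → ℂ) (W : ι → Eis → ℂ)
    (x : Eis) : shf b (fun h => ∑ i ∈ T, l i * W i h) x = ∑ i ∈ T, l i * shf b (W i) x := by
  by_cases hd : b ∣ x
  · obtain ⟨t, rfl⟩ := hd
    rw [shf_mul hb]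
    exact Finset.sum_congr rfl fun i _ => by rw [shf_mul hb]
  · rw [shf_not hd]
    symm
    exact Finset.sum_eq_zero fun i _ => by rw [shf_not hd, mul_zero]

lemma shf_sub {b : Eis} (hb : b ≠ 0) (r : ℂ) (W W' : Eis → ℂ) (x : Eis) :
    shf b (fun h => W h - r * W' h) x = shf b W x - r * shf b W' x := by
  by_cases hd : b ∣ x
  · obtain ⟨t, rfl⟩ := hd
    rw [shf_mul hb, shf_mul hb, shf_mul hb]
  · rw [shf_not hd, shf_not hd, shf_not hd]
    ring

/-- `W - x shf b W`. -/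
def Dx (x : ℂ) (b : Eis) (W : Eis → ℂ) (h : Eis) : ℂ := W h - x * shf b W h

lemma Dx_inj {x : ℂ} {b : Eis} (hb : b ≠ 0) (hbu : ¬ IsUnit b) {W W' : Eis → ℂ}
    (h : ∀ t, t ≠ 0 → Dx x b W t = Dx x b W' t) : ∀ t, t ≠ 0 → W t = W' t := by
  have hnm : 2 ≤ nm b := by
    have h3 : nm b ≠ 0 := (nm_pos.mpr hb).ne'
    have h4 : nm b ≠ 1 := fun h => hbu (isUnit_iff.mpr h)
    omega
  have key : ∀ n : ℕ, ∀ t, nm t ≤ n → t ≠ 0 → W t = W' t := by
    intro n
    induction n with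
    | zero =>
      intro t ht h0
      exact absurd (nm_pos.mpr h0) (by omega)
    | succ n ih =>
      intro t ht h0
      have h1 := h t h0
      unfold Dx at h1
      by_cases hd : b ∣ t
      · obtain ⟨y, rfl⟩ := hd
        have hy : y ≠ 0 := right_ne_zero_of_mul h0
        rw [shf_mul hb, shf_mul hb] at h1
        have h2 : W y = W' y := by
          refine ih y ?_ hy
          rw [nm_mul] at ht
          have := nm_pos.mpr hy
          nlinarith
        rw [h2] at h1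
        linear_combination h1
      · rw [shf_not hd, shf_not hd] at h1
        linear_combination h1
  exact fun t ht => key (nm t) t le_rfl ht

lemma Dx_congr {x : ℂ} {b : Eis} (hb : b ≠ 0) {W W' : Eis → ℂ} (h : ∀ t, t ≠ 0 → W t = W' t)
    {t : Eis} (ht : t ≠ 0) : Dx x b W t = Dx x b W' t := by
  unfold Dx
  rw [h t ht, shf_congr hb h ht]

lemma Dx_lin {ι : Type*} (T : Finset ι) {x : ℂ} {b : Eis} (hb : b ≠ 0) (l : ι → ℂ)
    (W : ι → Eis → ℂ) (h : Eis) :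
    Dx x b (fun h => ∑ i ∈ T, l i * W i h) h = ∑ i ∈ T, l i * Dx x b (W i) h := by
  unfold Dx
  rw [shf_lin T hb, Finset.mul_sum, ← Finset.sum_sub_distrib]
  exact Finset.sum_congr rfl fun i _ => by ring

lemma Dx_shf {x : ℂ} {b c : Eis} (hb : b ≠ 0) (hc : c ≠ 0) (W : Eis → ℂ) (h : Eis) :
    Dx x b (shf c W) h = shf c (Dx x b W) h := by
  have e : Dx x b W = fun h => W h - x * shf b W h := rfl
  rw [e, shf_sub hc, shf_shf hc hb]
  unfold Dx
  rw [shf_shf hb hc, mul_comm b c]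

/-- **Transfer**: if `𝒟 W = Σ r_j shf c_j W00`, `𝒟 W0 = Σ l_j shf c_j W00` then
`Σ l_j shf c_j W = Σ r_j shf c_j W0`. -/
lemma transfer {J : Type} [Fintype J] {x1 x2 : ℂ} {b1 b2 : Eis} (hb1 : b1 ≠ 0) (hb2 : b2 ≠ 0)
    (hu1 : ¬ IsUnit b1) (hu2 : ¬ IsUnit b2) {c : J → Eis} (hc : ∀ j, c j ≠ 0) {l r : J → ℂ}
    {W W0 W00 : Eis → ℂ}
    (hW : ∀ h, h ≠ 0 → Dx x1 b1 (Dx x2 b2 W) h = ∑ j, r j * shf (c j) W00 h)
    (hW0 : ∀ h, h ≠ 0 → Dx x1 b1 (Dx x2 b2 W0) h = ∑ j, l j * shf (c j) W00 h) :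
    ∀ h, h ≠ 0 → ∑ j, l j * shf (c j) W h = ∑ j, r j * shf (c j) W0 h := by
  have key : ∀ (m : J → ℂ) (U : Eis → ℂ) (h : Eis), h ≠ 0 →
      Dx x1 b1 (Dx x2 b2 (fun h => ∑ j, m j * shf (c j) U h)) h =
        ∑ j, m j * shf (c j) (Dx x1 b1 (Dx x2 b2 U)) h := by
    intro m U h hh
    have e1 : Dx x2 b2 (fun h => ∑ j, m j * shf (c j) U h) =
        fun h => ∑ j, m j * shf (c j) (Dx x2 b2 U) h := by
      funext h
      rw [Dx_lin _ hb2]
      exact Finset.sum_congr rfl fun j _ => by rw [Dx_shf hb2 (hc j)]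
    rw [e1, Dx_lin _ hb1]
    exact Finset.sum_congr rfl fun j _ => by rw [Dx_shf hb1 (hc j)]
  refine Dx_inj hb2 hu2 (x := x2) (Dx_inj hb1 hu1 (x := x1) fun h hh => ?_)
  rw [key l W h hh, key r W0 h hh]
  have e2 : ∀ j, shf (c j) (Dx x1 b1 (Dx x2 b2 W)) h =
      ∑ i, r i * shf (c j) (shf (c i) W00) h := by
    intro j
    rw [shf_congr (hc j) hW hh, shf_lin _ (hc j)]
  have e3 : ∀ j, shf (c j) (Dx x1 b1 (Dx x2 b2 W0)) h =
      ∑ i, l i * shf (c j) (shf (c i) W00) h := by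
    intro j
    rw [shf_congr (hc j) hW0 hh, shf_lin _ (hc j)]
  simp_rw [e2, e3, Finset.mul_sum]
  rw [Finset.sum_comm]
  refine Finset.sum_congr rfl fun i _ => Finset.sum_congr rfl fun j _ => ?_
  rw [shf_shf (hc j) (hc i), shf_shf (hc i) (hc j), mul_comm (c i)]
  ring

/-! ### Tables -/

/-- `ω^c p₁^a p₂^b`. -/
def mon (p1 p2 : Eis) (c : Fin 3) (a b : ℕ) : Eis := w ^ (c : ℕ) * (p1 ^ a * p2 ^ b)

/-- the setting. -/
structure TS (p1 p2 e1 : Eis) : Prop where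
  h1 : Prime p1
  h2 : Prime p2
  h12 : ¬ Associated p1 p2
  he : e1 ≠ 0
  he1 : ¬ p1 ∣ e1
  he2 : ¬ p2 ∣ e1

/-- **Tables.** -/
structure Tab (p1 p2 e1 : Eis) (s w0 : ℂ) (ξ : Eis → ℂ) (t : Fin 3 → ℕ → ℕ → ℂ)
    (W : Eis → ℂ) : Prop where
  par : ∀ h, h ≠ 0 → W (-h) = s * W h
  val : ∀ c a b j, j ≠ 0 → ¬ p1 ∣ j → ¬ p2 ∣ j →
    W (mon p1 p2 c a b * (e1 * j ^ 6)) = w0 * (t c a b * (ξ j * (PL j : ℂ)))
  supp : ∀ h, h ≠ 0 → W h ≠ 0 → ∃ c a b j, j ≠ 0 ∧ ¬ p1 ∣ j ∧ ¬ p2 ∣ j ∧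
    (h = mon p1 p2 c a b * (e1 * j ^ 6) ∨ -h = mon p1 p2 c a b * (e1 * j ^ 6))

variable {p1 p2 e1 : Eis} {s w0 : ℂ} {ξ : Eis → ℂ}

lemma mon_ne (T : TS p1 p2 e1) (c : Fin 3) (a b : ℕ) : mon p1 p2 c a b ≠ 0 :=
  mul_ne_zero (pow_ne_zero _ isUnit_w.ne_zero)
    (mul_ne_zero (pow_ne_zero _ T.h1.ne_zero) (pow_ne_zero _ T.h2.ne_zero))

lemma w_pow_add (c c0 : Fin 3) : w ^ (((c + c0 : Fin 3)) : ℕ) = w ^ (c : ℕ) * w ^ (c0 : ℕ) := by
  revert c c0
  decide

lemma w_pow_sub (c c0 : Fin 3) : w ^ (((c - c0 : Fin 3)) : ℕ) * w ^ (c0 : ℕ) = w ^ (c : ℕ) := by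
  revert c c0
  decide

lemma mon_mul (c c0 : Fin 3) (a a0 b b0 : ℕ) :
    mon p1 p2 c0 a0 b0 * mon p1 p2 c a b = mon p1 p2 (c + c0) (a + a0) (b + b0) := by
  unfold mon
  rw [w_pow_add, pow_add, pow_add]
  ring

lemma mon_split {c c0 : Fin 3} {a a0 b b0 : ℕ} (ha : a0 ≤ a) (hb : b0 ≤ b) :
    mon p1 p2 c a b = mon p1 p2 c0 a0 b0 * mon p1 p2 (c - c0) (a - a0) (b - b0) := by
  rw [mon_mul, Nat.sub_add_cancel ha, Nat.sub_add_cancel hb]
  congr 1
  exact (sub_add_cancel c c0).symm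

/-- Tables determine weights. -/
lemma Tab.unique {t : Fin 3 → ℕ → ℕ → ℂ} {W W' : Eis → ℂ} (h : Tab p1 p2 e1 s w0 ξ t W)
    (h' : Tab p1 p2 e1 s w0 ξ t W') : ∀ x, x ≠ 0 → W x = W' x := by
  intro x hx
  by_cases hex : ∃ c a b j, j ≠ 0 ∧ ¬ p1 ∣ j ∧ ¬ p2 ∣ j ∧
      (x = mon p1 p2 c a b * (e1 * j ^ 6) ∨ -x = mon p1 p2 c a b * (e1 * j ^ 6))
  · obtain ⟨c, a, b, j, hj, h1, h2, hh | hh⟩ := hex
    · rw [hh, h.val c a b j hj h1 h2, h'.val c a b j hj h1 h2]
    · have hx' : -x ≠ 0 := neg_ne_zero.mpr hx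
      have e1 := h.par (-x) hx'
      have e2 := h'.par (-x) hx'
      rw [neg_neg] at e1 e2
      rw [e1, e2, hh, h.val c a b j hj h1 h2, h'.val c a b j hj h1 h2]
  · have e1 : W x = 0 := by
      by_contra hne
      exact hex (h.supp x hx hne)
    have e2 : W' x = 0 := by
      by_contra hne
      exact hex (h'.supp x hx hne)
    rw [e1, e2]

/-- shifted table. -/
def tsh (c0 : Fin 3) (a0 b0 : ℕ) (t : Fin 3 → ℕ → ℕ → ℂ) (c : Fin 3) (a b : ℕ) : ℂ :=
  if a0 ≤ a ∧ b0 ≤ b then t (c - c0) (a - a0) (b - b0) else 0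

lemma not_dvd_of (T : TS p1 p2 e1) {j : Eis} (hj1 : ¬ p1 ∣ j) (hj2 : ¬ p2 ∣ j) (c : Fin 3) :
    (∀ a a0 b, a < a0 → ¬ p1 ^ a0 ∣ mon p1 p2 c a b * (e1 * j ^ 6)) ∧
    (∀ a b b0, b < b0 → ¬ p2 ^ b0 ∣ mon p1 p2 c a b * (e1 * j ^ 6)) := by
  have hw1 : ¬ p1 ∣ w ^ (c : ℕ) := fun h => T.h1.not_isUnit
    (isUnit_of_dvd_unit h (isUnit_w.pow _))
  have hw2 : ¬ p2 ∣ w ^ (c : ℕ) := fun h => T.h2.not_isUnit
    (isUnit_of_dvd_unit h (isUnit_w.pow _))
  constructor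
  · intro a a0 b hlt hd
    have h1 : p1 ^ (a + 1) ∣ p1 ^ a * (w ^ (c : ℕ) * (p2 ^ b * (e1 * j ^ 6))) := by
      refine (pow_dvd_pow p1 hlt).trans (hd.trans (dvd_of_eq ?_))
      unfold mon
      ring
    rw [pow_succ, mul_dvd_mul_iff_left (pow_ne_zero _ T.h1.ne_zero)] at h1
    rcases T.h1.dvd_or_dvd h1 with h | h
    · exact hw1 h
    rcases T.h1.dvd_or_dvd h with h | h
    · exact not_dvd_of_not_assoc T.h1 T.h2 T.h12 (T.h1.dvd_of_dvd_pow h)
    rcases T.h1.dvd_or_dvd h with h | h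
    · exact T.he1 h
    · exact hj1 (T.h1.dvd_of_dvd_pow h)
  · intro a b b0 hlt hd
    have h1 : p2 ^ (b + 1) ∣ p2 ^ b * (w ^ (c : ℕ) * (p1 ^ a * (e1 * j ^ 6))) := by
      refine (pow_dvd_pow p2 hlt).trans (hd.trans (dvd_of_eq ?_))
      unfold mon
      ring
    rw [pow_succ, mul_dvd_mul_iff_left (pow_ne_zero _ T.h2.ne_zero)] at h1
    rcases T.h2.dvd_or_dvd h1 with h | h
    · exact hw2 h
    rcases T.h2.dvd_or_dvd h with h | h
    · exact not_dvd_of_not_assoc T.h2 T.h1 (fun h => T.h12 h.symm) (T.h2.dvd_of_dvd_pow h)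
    rcases T.h2.dvd_or_dvd h with h | h
    · exact T.he2 h
    · exact hj2 (T.h2.dvd_of_dvd_pow h)

lemma Tab.shf (T : TS p1 p2 e1) {t : Fin 3 → ℕ → ℕ → ℂ} {W : Eis → ℂ}
    (h : Tab p1 p2 e1 s w0 ξ t W) (c0 : Fin 3) (a0 b0 : ℕ) :
    Tab p1 p2 e1 s w0 ξ (tsh c0 a0 b0 t) (shf (mon p1 p2 c0 a0 b0) W) where
  par x hx := by
    have hm := mon_ne T c0 a0 b0
    by_cases hd : mon p1 p2 c0 a0 b0 ∣ x
    · obtain ⟨y, rfl⟩ := hd
      rw [← mul_neg, shf_mul hm, shf_mul hm]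
      exact h.par y (right_ne_zero_of_mul hx)
    · rw [shf_not hd, shf_not (by rwa [dvd_neg]), mul_zero]
  val c a b j hj hj1 hj2 := by
    have hm := mon_ne T c0 a0 b0
    unfold tsh
    split_ifs with hab
    · rw [mon_split (c0 := c0) hab.1 hab.2, mul_assoc, shf_mul hm]
      exact h.val _ _ _ j hj hj1 hj2
    · rw [shf_not, zero_mul, mul_zero]
      intro hd
      apply hab
      constructor
      · by_contra hlt
        rw [not_le] at hlt
        refine (not_dvd_of T hj1 hj2 c).1 a a0 b hlt (Dvd.dvd.trans ?_ hd)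
        unfold mon
        exact (dvd_mul_right _ _).mul_left _
      · by_contra hlt
        rw [not_le] at hlt
        refine (not_dvd_of T hj1 hj2 c).2 a b b0 hlt (Dvd.dvd.trans ?_ hd)
        unfold mon
        exact (dvd_mul_left _ _).mul_left _
  supp x hx hne := by
    have hm := mon_ne T c0 a0 b0
    by_cases hd : mon p1 p2 c0 a0 b0 ∣ x
    · obtain ⟨y, rfl⟩ := hd
      rw [shf_mul hm] at hne
      obtain ⟨c, a, b, j, hj, hj1, hj2, hh⟩ := h.supp y (right_ne_zero_of_mul hx) hne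
      refine ⟨c + c0, a + a0, b + b0, j, hj, hj1, hj2, ?_⟩
      rw [← mon_mul, ← mul_neg, mul_assoc]
      rcases hh with hh | hh
      · left; rw [hh]
      · right; rw [hh]
    · exact absurd (shf_not hd W) hne

lemma Tab.lin {ι : Type*} (S : Finset ι) (l : ι → ℂ) {t : ι → Fin 3 → ℕ → ℕ → ℂ}
    {W : ι → Eis → ℂ} (h : ∀ i, Tab p1 p2 e1 s w0 ξ (t i) (W i)) :
    Tab p1 p2 e1 s w0 ξ (fun c a b => ∑ i ∈ S, l i * t i c a b)
      (fun x => ∑ i ∈ S, l i * W i x) where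
  par x hx := by
    rw [Finset.mul_sum]
    exact Finset.sum_congr rfl fun i _ => by rw [(h i).par x hx]; ring
  val c a b j hj hj1 hj2 := by
    rw [Finset.sum_mul, Finset.mul_sum]
    exact Finset.sum_congr rfl fun i _ => by rw [(h i).val c a b j hj hj1 hj2]; ring
  supp x hx hne := by
    obtain ⟨i, _, hi⟩ := Finset.exists_ne_zero_of_sum_ne_zero hne
    exact (h i).supp x hx (right_ne_zero_of_mul hi)

lemma Tab.congr {t t' : Fin 3 → ℕ → ℕ → ℂ} {W : Eis → ℂ} (h : Tab p1 p2 e1 s w0 ξ t W)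
    (ht : ∀ c a b, t' c a b = t c a b) : Tab p1 p2 e1 s w0 ξ t' W where
  par := h.par
  val c a b j hj hj1 hj2 := by rw [ht]; exact h.val c a b j hj hj1 hj2
  supp := h.supp

lemma Tab.sub {t t' : Fin 3 → ℕ → ℕ → ℂ} {W W' : Eis → ℂ} (h : Tab p1 p2 e1 s w0 ξ t W)
    (h' : Tab p1 p2 e1 s w0 ξ t' W') (r : ℂ) :
    Tab p1 p2 e1 s w0 ξ (fun c a b => t c a b - r * t' c a b) (fun x => W x - r * W' x) where
  par x hx := by rw [h.par x hx, h'.par x hx]; ring
  val c a b j hj hj1 hj2 := by rw [h.val c a b j hj hj1 hj2, h'.val c a b j hj hj1 hj2]; ring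
  supp x hx hne := by
    by_cases h0 : W x = 0
    · have h1 : W' x ≠ 0 := by
        intro h2
        apply hne
        rw [h0, h2]; ring
      exact h'.supp x hx h1
    · exact h.supp x hx h0

/-- `(1 - x T^{(a₀, b₀)}) t`. -/
def tD (x : ℂ) (a0 b0 : ℕ) (t : Fin 3 → ℕ → ℕ → ℂ) (c : Fin 3) (a b : ℕ) : ℂ :=
  t c a b - x * tsh 0 a0 b0 t c a b

lemma Tab.D (T : TS p1 p2 e1) {t : Fin 3 → ℕ → ℕ → ℂ} {W : Eis → ℂ}
    (h : Tab p1 p2 e1 s w0 ξ t W) (x : ℂ) (a0 b0 : ℕ) :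
    Tab p1 p2 e1 s w0 ξ (tD x a0 b0 t) (Dx x (mon p1 p2 0 a0 b0) W) :=
  h.sub (h.shf T 0 a0 b0) x

/-! ### The reduced base weight -/

lemma w_pow_eq_one : ∀ c : Fin 3, w ^ (c : ℕ) = 1 → c = 0 := by decide

lemma w_pow_ne : ∀ c : Fin 3, w ^ (c : ℕ) ≠ -1 := by decide

/-- unit classes. -/
lemma unit_class {c : Fin 3} {e : Eis} (he : e = 1 ∨ e = -1) {j j' : Eis} (hj : j ≠ 0)
    (h : w ^ (c : ℕ) * j ^ 6 = e * j' ^ 6) : c = 0 ∧ e = 1 := by
  have hee : e * e = 1 := by rcases he with h | h <;> rw [h] <;> ring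
  have hw3 : w ^ (c : ℕ) * w ^ (2 * (c : ℕ)) = 1 := by
    rw [← pow_add]
    have : (c : ℕ) + 2 * (c : ℕ) = 3 * (c : ℕ) := by ring
    rw [this, pow_mul, w_cube, one_pow]
  have hd1 : j ^ 6 ∣ j' ^ 6 := ⟨e * w ^ (c : ℕ), by linear_combination -(j' ^ 6) * hee - e * h⟩
  have hd2 : j' ^ 6 ∣ j ^ 6 := ⟨e * w ^ (2 * (c : ℕ)), by
    linear_combination -(j ^ 6) * hw3 + w ^ (2 * (c : ℕ)) * h⟩
  have he1 : j ∣ j' := (IsIntegrallyClosed.pow_dvd_pow_iff (by norm_num)).mp hd1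
  have he2 : j' ∣ j := (IsIntegrallyClosed.pow_dvd_pow_iff (by norm_num)).mp hd2
  obtain ⟨u, rfl⟩ := he1
  have hu : IsUnit u := by
    obtain ⟨v, hv⟩ := he2
    refine IsUnit.of_mul_eq_one v ?_
    apply mul_left_cancel₀ hj
    linear_combination -hv
  have h1 : w ^ (c : ℕ) = e := by
    rw [mul_pow, unit6 hu, mul_one] at h
    exact mul_right_cancel₀ (pow_ne_zero 6 hj) h
  rcases he with rfl | rfl
  · exact ⟨w_pow_eq_one c h1, rfl⟩
  · exact absurd h1 (w_pow_ne c)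

open Classical in
/-- the part prime to `p₁ p₂` of the base weight. -/
def W00 (p1 p2 e1 : Eis) (s w0 : ℂ) (ξ : Eis → ℂ) (h : Eis) : ℂ :=
  if p1 ∣ h ∨ p2 ∣ h then 0 else baseW 6 e1 s w0 ξ h

/-- the unit table. -/
def t00 (c : Fin 3) (a b : ℕ) : ℂ := if c = 0 ∧ a = 0 ∧ b = 0 then 1 else 0

lemma W00_tab (T : TS p1 p2 e1) (hs : s = 1 ∨ s = -1)
    (hξ : ∀ u, IsUnit u → ∀ j, ξ (u * j) = ξ j) : Tab p1 p2 e1 s w0 ξ t00 (W00 p1 p2 e1 s w0 ξ) where
  par x hx := by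
    unfold W00
    rw [dvd_neg, dvd_neg]
    split_ifs
    · rw [mul_zero]
    · exact base_par hs hξ T.he x
  val c a b j hj hj1 hj2 := by
    have hnd := not_dvd_of T hj1 hj2 c
    unfold t00
    split_ifs with h0
    · obtain ⟨rfl, rfl, rfl⟩ := h0
      have e1 : mon p1 p2 0 0 0 * (e1 * j ^ 6) = e1 * j ^ 6 := by
        unfold mon; simp
      unfold W00
      rw [if_neg, e1, base_val hξ T.he hj, one_mul]
      rintro (h | h)
      · exact hnd.1 0 1 0 (by norm_num) (by rwa [pow_one])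
      · exact hnd.2 0 0 1 (by norm_num) (by rwa [pow_one])
    · rw [zero_mul, mul_zero]
      unfold W00
      by_cases ha : a = 0
      · by_cases hb : b = 0
        · subst ha hb
          have hc : c ≠ 0 := fun h => h0 ⟨h, rfl, rfl⟩
          have e1' : mon p1 p2 c 0 0 * (e1 * j ^ 6) = e1 * (w ^ (c : ℕ) * j ^ 6) := by
            unfold mon; ring
          split_ifs
          · rfl
          · rw [e1']
            apply base_not
            · rintro ⟨j', _, h⟩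
              refine hc (unit_class (e := 1) (Or.inl rfl) hj (j' := j') ?_).1
              rw [one_mul]
              exact mul_left_cancel₀ T.he h
            · rintro ⟨j', _, h⟩
              refine hc (unit_class (e := -1) (Or.inr rfl) hj (j' := j') ?_).1
              apply mul_left_cancel₀ T.he
              linear_combination -h
        · rw [if_pos (Or.inr ?_)]
          unfold mon
          exact ((dvd_pow_self p2 hb).mul_left _).mul_left _ |>.mul_right _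
      · rw [if_pos (Or.inl ?_)]
        unfold mon
        exact ((dvd_pow_self p1 ha).mul_right _).mul_left _ |>.mul_right _
  supp x hx hne := by
    unfold W00 at hne
    split_ifs at hne with hd
    · exact absurd rfl hne
    · obtain ⟨j, hj⟩ := (base_ok hs hξ T.he w0).supp x hx hne
      rw [not_or] at hd
      have hjne : j ≠ 0 := by
        rintro rfl
        rcases hj with h | h
        · rw [zero_pow (by norm_num), mul_zero] at h
          exact hx h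
        · rw [zero_pow (by norm_num), mul_zero, neg_eq_zero] at h
          exact hx h
      have e1' : mon p1 p2 0 0 0 = 1 := by unfold mon; simp
      refine ⟨0, 0, 0, j, hjne, ?_, ?_, ?_⟩
      · intro h
        have h1 : p1 ∣ e1 * j ^ 6 := (h.pow (by norm_num)).mul_left _
        rcases hj with h2 | h2
        · exact hd.1 (h2 ▸ h1)
        · exact hd.1 ((dvd_neg).mp (h2 ▸ h1))
      · intro h
        have h1 : p2 ∣ e1 * j ^ 6 := (h.pow (by norm_num)).mul_left _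
        rcases hj with h2 | h2
        · exact hd.2 (h2 ▸ h1)
        · exact hd.2 ((dvd_neg).mp (h2 ▸ h1))
      · rw [e1', one_mul]
        exact hj

/-! ### The base weight -/

/-- base sequence. -/
def sg (x : ℂ) (q : ℝ) (a : ℕ) : ℂ :=
  if 6 ∣ a then x ^ (a / 6) * (if a = 0 then 1 else ((1 - 1 / q : ℝ) : ℂ)) else 0

/-- the table of the base weight. -/
def tB (x1 x2 : ℂ) (q1 q2 : ℝ) (c : Fin 3) (a b : ℕ) : ℂ :=
  if c = 0 then sg x1 q1 a * sg x2 q2 b else 0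

lemma xi_pow (hmul : ∀ a b, ξ (a * b) = ξ a * ξ b) (h1 : ξ 1 = 1) (p : Eis) (n : ℕ) :
    ξ (p ^ n) = ξ p ^ n := by
  induction n with
  | zero => simp [h1]
  | succ n ih => rw [pow_succ, hmul, ih, pow_succ]

lemma tab_base (T : TS p1 p2 e1) (hs : s = 1 ∨ s = -1)
    (hu : ∀ u, IsUnit u → ξ u = 1) (hmul : ∀ a b, ξ (a * b) = ξ a * ξ b) :
    Tab p1 p2 e1 s w0 ξ (tB (ξ p1) (ξ p2) (nm p1) (nm p2)) (baseW 6 e1 s w0 ξ) := by
  have hξ : ∀ u, IsUnit u → ∀ j, ξ (u * j) = ξ j := fun u h j => by rw [hmul, hu u h, one_mul]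
  have h1 : ξ 1 = 1 := hu 1 isUnit_one
  refine ⟨fun x _ => base_par hs hξ T.he x, fun c a b j hj hj1 hj2 => ?_, fun x hx hne => ?_⟩
  · have key : ∀ (e : Eis), (e = 1 ∨ e = -1) → ∀ j', j' ≠ 0 →
        mon p1 p2 c a b * (e1 * j ^ 6) = e * (e1 * j' ^ 6) → c = 0 ∧ 6 ∣ a ∧ 6 ∣ b := by
      intro e he j' hj' h
      have hee : e * e = 1 := by rcases he with h | h <;> rw [h] <;> ring
      have hue : IsUnit e := IsUnit.of_mul_eq_one e hee
      have h2 : w ^ (c : ℕ) * (p1 ^ a * p2 ^ b * j ^ 6) = e * j' ^ 6 := by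
        apply mul_left_cancel₀ T.he
        unfold mon at h
        linear_combination h
      have hpa : p1 ^ a ≠ 0 := pow_ne_zero _ T.h1.ne_zero
      have hpb : p2 ^ b ≠ 0 := pow_ne_zero _ T.h2.ne_zero
      have hj6 : j ^ 6 ≠ 0 := pow_ne_zero _ hj
      have vu : ∀ {p : Eis}, Prime p → ∀ {u : Eis}, IsUnit u → vp p u = 0 := fun {p} hp {u} hu =>
        vp_of_not_dvd fun h => hp.not_isUnit (isUnit_of_dvd_unit h hu)
      have vpow : ∀ {p : Eis}, Prime p → ∀ {y : Eis}, y ≠ 0 → ∀ n : ℕ, vp p (y ^ n) = n * vp p y :=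
        fun {p} hp {y} hy n => by
          induction n with
          | zero => rw [pow_zero, vu hp isUnit_one, Nat.zero_mul]
          | succ n ih =>
            rw [pow_succ, vp_mul hp (pow_ne_zero _ hy) hy, ih]
            ring
      have hv : ∀ {p : Eis}, Prime p → a * vp p p1 + b * vp p p2 + 6 * vp p j = 6 * vp p j' := by
        intro p hp
        have h3 := congrArg (vp p) h2
        rw [vp_mul hp (pow_ne_zero _ isUnit_w.ne_zero) (mul_ne_zero (mul_ne_zero hpa hpb) hj6),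
          vp_mul hp (mul_ne_zero hpa hpb) hj6, vp_mul hp hpa hpb,
          vp_mul hp hue.ne_zero (pow_ne_zero _ hj'), vu hp (isUnit_w.pow _), vu hp hue,
          vpow hp T.h1.ne_zero, vpow hp T.h2.ne_zero, vpow hp hj, vpow hp hj'] at h3
        omega
      have e11 : vp p1 p1 = 1 := by simpa using vp_pow_self T.h1 1
      have e12 : vp p1 p2 = 0 := vp_of_not_dvd (not_dvd_of_not_assoc T.h1 T.h2 T.h12)
      have e22 : vp p2 p2 = 1 := by simpa using vp_pow_self T.h2 1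
      have e21 : vp p2 p1 = 0 := vp_of_not_dvd (not_dvd_of_not_assoc T.h2 T.h1 fun h => T.h12 h.symm)
      have e3 : vp p1 j = 0 := vp_of_not_dvd hj1
      have e4 : vp p2 j = 0 := vp_of_not_dvd hj2
      have v1 := hv T.h1
      have v2 := hv T.h2
      rw [e11, e12, e3] at v1
      rw [e22, e21, e4] at v2
      have ha : 6 ∣ a := ⟨vp p1 j', by omega⟩
      have hb : 6 ∣ b := ⟨vp p2 j', by omega⟩
      refine ⟨?_, ha, hb⟩
      obtain ⟨a', rfl⟩ := ha
      obtain ⟨b', rfl⟩ := hb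
      refine (unit_class (j := p1 ^ a' * p2 ^ b' * j) (j' := j') he
        (mul_ne_zero (mul_ne_zero (pow_ne_zero _ T.h1.ne_zero) (pow_ne_zero _ T.h2.ne_zero)) hj)
        ?_).1
      rw [← h2]
      ring
    by_cases hc : c = 0 ∧ 6 ∣ a ∧ 6 ∣ b
    · obtain ⟨rfl, ⟨a', rfl⟩, ⟨b', rfl⟩⟩ := hc
      have hJ : p1 ^ a' * (p2 ^ b' * j) ≠ 0 := mul_ne_zero (pow_ne_zero _ T.h1.ne_zero)
        (mul_ne_zero (pow_ne_zero _ T.h2.ne_zero) hj)
      have e : mon p1 p2 0 (6 * a') (6 * b') * (e1 * j ^ 6) =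
          e1 * (p1 ^ a' * (p2 ^ b' * j)) ^ 6 := by
        unfold mon
        rw [Fin.val_zero, pow_zero]
        ring
      rw [e, base_val hξ T.he hJ]
      unfold tB sg
      rw [if_pos rfl, if_pos (dvd_mul_right _ _), if_pos (dvd_mul_right _ _),
        Nat.mul_div_cancel_left _ (by norm_num), Nat.mul_div_cancel_left _ (by norm_num),
        hmul, hmul, xi_pow hmul h1, xi_pow hmul h1,
        PL_pow_mul T.h1 (mul_ne_zero (pow_ne_zero _ T.h2.ne_zero) hj) ?_ a',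
        PL_pow_mul T.h2 hj hj2 b']
      · have i1 : (if 6 * a' = 0 then (1 : ℂ) else ((1 - 1 / (nm p1 : ℝ) : ℝ) : ℂ)) =
            (((if a' = 0 then 1 else 1 - 1 / (nm p1 : ℝ)) : ℝ) : ℂ) := by
          by_cases h : a' = 0
          · rw [if_pos (by omega), if_pos h]; norm_num
          · rw [if_neg (by omega), if_neg h]
        have i2 : (if 6 * b' = 0 then (1 : ℂ) else ((1 - 1 / (nm p2 : ℝ) : ℝ) : ℂ)) =
            (((if b' = 0 then 1 else 1 - 1 / (nm p2 : ℝ)) : ℝ) : ℂ) := by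
          by_cases h : b' = 0
          · rw [if_pos (by omega), if_pos h]; norm_num
          · rw [if_neg (by omega), if_neg h]
        rw [i1, i2]
        push_cast
        ring
      · intro h
        rcases T.h1.dvd_or_dvd h with h | h
        · exact not_dvd_of_not_assoc T.h1 T.h2 T.h12 (T.h1.dvd_of_dvd_pow h)
        · exact hj1 h
    · have ht : tB (ξ p1) (ξ p2) (nm p1) (nm p2) c a b = 0 := by
        unfold tB sg
        by_cases h : c = 0
        · rw [if_pos h]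
          by_cases ha : 6 ∣ a
          · rw [if_neg (fun hb => hc ⟨h, ha, hb⟩), mul_zero]
          · rw [if_neg ha, zero_mul]
        · rw [if_neg h]
      rw [ht, zero_mul, mul_zero]
      apply base_not
      · rintro ⟨j', hj', h⟩
        exact hc (key 1 (Or.inl rfl) j' hj' (by rw [h, one_mul]))
      · rintro ⟨j', hj', h⟩
        exact hc (key (-1) (Or.inr rfl) j' hj' (by linear_combination -h))
  · obtain ⟨j, hj⟩ := (base_ok hs hξ T.he w0).supp x hx hne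
    have hjne : j ≠ 0 := by
      rintro rfl
      rcases hj with h | h
      · rw [zero_pow (by norm_num), mul_zero] at h
        exact hx h
      · rw [zero_pow (by norm_num), mul_zero, neg_eq_zero] at h
        exact hx h
    have hj' : j = p1 ^ vp p1 j * (p2 ^ vp p2 (strip p1 j) * strip p2 (strip p1 j)) := by
      rw [← strip_spec (strip_ne hjne), ← strip_spec hjne]
    set i1 := vp p1 j
    set i2 := vp p2 (strip p1 j)
    set y := strip p2 (strip p1 j) with hy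
    have hy0 : y ≠ 0 := strip_ne (strip_ne hjne)
    have hy2 : ¬ p2 ∣ y := strip_not_dvd T.h2 (strip_ne hjne)
    have hy1 : ¬ p1 ∣ y := by
      intro h
      apply strip_not_dvd T.h1 hjne
      rw [strip_spec (p := p2) (strip_ne (p := p1) hjne)]
      exact h.mul_left _
    have e : mon p1 p2 0 (6 * i1) (6 * i2) * (e1 * y ^ 6) = e1 * j ^ 6 := by
      conv_rhs => rw [hj']
      unfold mon
      rw [Fin.val_zero, pow_zero]
      ring
    exact ⟨0, 6 * i1, 6 * i2, y, hy0, hy1, hy2, by rw [e]; exact hj⟩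

/-! ### The polynomials -/

/-- `(1 - x₁ T₁⁶)(1 - x₂ T₂⁶) t`. -/
def qT (x1 x2 : ℂ) (t : Fin 3 → ℕ → ℕ → ℂ) : Fin 3 → ℕ → ℕ → ℂ := tD x1 6 0 (tD x2 0 6 t)

lemma qT_apply (x1 x2 : ℂ) (t : Fin 3 → ℕ → ℕ → ℂ) (c : Fin 3) (a b : ℕ) :
    qT x1 x2 t c a b = t c a b - x1 * (if 6 ≤ a then t c (a - 6) b else 0) -
      x2 * (if 6 ≤ b then t c a (b - 6) else 0) +
      x1 * x2 * (if 6 ≤ a ∧ 6 ≤ b then t c (a - 6) (b - 6) else 0) := by
  unfold qT tD tsh
  simp only [sub_zero, Nat.sub_zero, zero_le, and_true, true_and]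
  by_cases ha : 6 ≤ a <;> by_cases hb : 6 ≤ b
  · simp only [ha, hb, if_true, and_self]; ring
  · simp only [ha, hb, if_true, if_false, and_false]; ring
  · simp only [ha, hb, if_true, if_false, false_and]; ring
  · simp only [ha, hb, if_false, and_false]; ring

/-- `1 - (x/q) T⁶`. -/
def pg (x : ℂ) (q : ℝ) (a : ℕ) : ℂ := if a = 0 then 1 else if a = 6 then -(x * ((1 / q : ℝ) : ℂ)) else 0

lemma sg_rec (x : ℂ) (q : ℝ) (a : ℕ) :
    sg x q a - x * (if 6 ≤ a then sg x q (a - 6) else 0) = pg x q a := by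
  by_cases h6 : 6 ∣ a
  · obtain ⟨i, rfl⟩ := h6
    rcases i with _ | i
    · unfold sg pg
      simp
    · have e : 6 * (i + 1) - 6 = 6 * i := by omega
      have v1 : sg x q (6 * (i + 1)) = x ^ (i + 1) * ((1 - 1 / q : ℝ) : ℂ) := by
        unfold sg
        rw [if_pos (dvd_mul_right _ _), Nat.mul_div_cancel_left _ (by norm_num),
          if_neg (show ¬ (6 * (i + 1) = 0) by omega)]
      have v2 : sg x q (6 * i) = x ^ i * (if i = 0 then 1 else ((1 - 1 / q : ℝ) : ℂ)) := by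
        unfold sg
        rw [if_pos (dvd_mul_right _ _), Nat.mul_div_cancel_left _ (by norm_num)]
        by_cases hi : i = 0
        · rw [if_pos hi, if_pos (show 6 * i = 0 by omega)]
        · rw [if_neg hi, if_neg (show ¬ (6 * i = 0) by omega)]
      rw [if_pos (show 6 ≤ 6 * (i + 1) by omega), e, v1, v2]
      unfold pg
      rw [if_neg (show ¬ (6 * (i + 1) = 0) by omega)]
      by_cases hi : i = 0
      · subst hi
        rw [if_pos rfl, if_pos (show 6 * (0 + 1) = 6 by norm_num)]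
        push_cast
        ring
      · rw [if_neg hi, if_neg (show ¬ (6 * (i + 1) = 6) by omega), pow_succ]
        ring
  · have h0 : a ≠ 0 := fun h => h6 (h ▸ dvd_zero _)
    have h6' : a ≠ 6 := fun h => h6 (h ▸ dvd_rfl)
    unfold pg
    rw [if_neg h0, if_neg h6']
    have v1 : sg x q a = 0 := by unfold sg; rw [if_neg h6]
    rw [v1]
    split_ifs with h1
    · have v2 : sg x q (a - 6) = 0 := by
        unfold sg
        rw [if_neg]
        intro h2
        exact h6 ((Nat.dvd_sub_iff_left h1 dvd_rfl).mp h2)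
      rw [v2]; ring
    · ring

/-- the polynomial of the base weight. -/
lemma qT_base (x1 x2 : ℂ) (q1 q2 : ℝ) (c : Fin 3) (a b : ℕ) :
    qT x1 x2 (tB x1 x2 q1 q2) c a b = if c = 0 then pg x1 q1 a * pg x2 q2 b else 0 := by
  rw [qT_apply]
  by_cases hc : c = 0
  · rw [if_pos hc, ← sg_rec, ← sg_rec]
    unfold tB
    simp only [hc, if_true]
    by_cases ha : 6 ≤ a <;> by_cases hb : 6 ≤ b
    · simp only [ha, hb, if_true, and_self]; ring
    · simp only [ha, hb, if_true, if_false, and_false]; ring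
    · simp only [ha, hb, if_true, if_false, false_and]; ring
    · simp only [ha, hb, if_false, and_false]; ring
  · unfold tB
    simp only [hc, if_false]
    simp

/-- the index set of the monomials. -/
abbrev JJ (A B : ℕ) : Type := Fin 3 × Fin A × Fin B

/-- the monomials. -/
def mj (p1 p2 : Eis) {A B : ℕ} (j : JJ A B) : Eis := mon p1 p2 j.1 j.2.1 j.2.2

/-- left coefficients. -/
def lj (x1 x2 : ℂ) (q1 q2 : ℝ) {A B : ℕ} (j : JJ A B) : ℂ :=
  if j.1 = 0 then pg x1 q1 j.2.1 * pg x2 q2 j.2.2 else 0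

/-- right coefficients. -/
def rj (x1 x2 : ℂ) (t : Fin 3 → ℕ → ℕ → ℂ) {A B : ℕ} (j : JJ A B) : ℂ :=
  qT x1 x2 t j.1 j.2.1 j.2.2

lemma sum_delta {A B : ℕ} (q : Fin 3 → ℕ → ℕ → ℂ) (hq : ∀ c a b, A ≤ a ∨ B ≤ b → q c a b = 0)
    (c : Fin 3) (a b : ℕ) :
    ∑ j : JJ A B, q j.1 j.2.1 j.2.2 * tsh j.1 j.2.1 j.2.2 t00 c a b = q c a b := by
  classical
  have key : ∀ j : JJ A B, tsh j.1 j.2.1 j.2.2 t00 c a b =
      if j.1 = c ∧ (j.2.1 : ℕ) = a ∧ (j.2.2 : ℕ) = b then 1 else 0 := by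
    intro j
    unfold tsh t00
    by_cases h1 : (j.2.1 : ℕ) ≤ a ∧ (j.2.2 : ℕ) ≤ b
    · rw [if_pos h1]
      congr 1
      rw [sub_eq_zero]
      apply propext
      constructor
      · rintro ⟨h, h', h''⟩
        exact ⟨h.symm, by omega, by omega⟩
      · rintro ⟨h, h', h''⟩
        exact ⟨h.symm, by omega, by omega⟩
    · rw [if_neg h1, if_neg]
      rintro ⟨-, h, h'⟩
      exact h1 ⟨h.le, h'.le⟩
  simp_rw [key]
  by_cases hr : a < A ∧ b < B
  · rw [Finset.sum_eq_single ((c, ⟨a, hr.1⟩, ⟨b, hr.2⟩) : JJ A B)]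
    · simp
    · intro j _ hne
      rw [if_neg, mul_zero]
      rintro ⟨h1, h2, h3⟩
      apply hne
      ext
      · rw [h1]
      · exact h2
      · exact h3
    · intro h
      exact absurd (Finset.mem_univ _) h
  · have : A ≤ a ∨ B ≤ b := by omega
    rw [hq c a b this]
    apply Finset.sum_eq_zero
    intro j _
    rw [if_neg, mul_zero]
    rintro ⟨-, h2, h3⟩
    have := j.2.1.isLt
    have := j.2.2.isLt
    omega

/-- `𝒟 W = Σ q_j shf c_j W00`. -/
lemma D_of_tab (T : TS p1 p2 e1) (hs : s = 1 ∨ s = -1)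
    (hξ : ∀ u, IsUnit u → ∀ j, ξ (u * j) = ξ j) {t : Fin 3 → ℕ → ℕ → ℂ} {W : Eis → ℂ}
    (hW : Tab p1 p2 e1 s w0 ξ t W) (x1 x2 : ℂ) {A B : ℕ}
    (hq : ∀ c a b, A ≤ a ∨ B ≤ b → qT x1 x2 t c a b = 0) :
    ∀ h, h ≠ 0 → Dx x1 (mon p1 p2 0 6 0) (Dx x2 (mon p1 p2 0 0 6) W) h =
      ∑ j : JJ A B, rj x1 x2 t j * shf (mj p1 p2 j) (W00 p1 p2 e1 s w0 ξ) h := by
  have h1 : Tab p1 p2 e1 s w0 ξ (qT x1 x2 t)
      (Dx x1 (mon p1 p2 0 6 0) (Dx x2 (mon p1 p2 0 0 6) W)) := (hW.D T x2 0 6).D T x1 6 0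
  have h2 : Tab p1 p2 e1 s w0 ξ
      (fun c a b => ∑ j : JJ A B, rj x1 x2 t j * tsh j.1 j.2.1 j.2.2 t00 c a b)
      (fun h => ∑ j : JJ A B, rj x1 x2 t j * shf (mj p1 p2 j) (W00 p1 p2 e1 s w0 ξ) h) :=
    Tab.lin Finset.univ (fun j : JJ A B => rj x1 x2 t j) fun j =>
      (W00_tab T hs hξ).shf T j.1 j.2.1 j.2.2
  exact h1.unique (h2.congr fun c a b => (sum_delta (qT x1 x2 t) hq c a b).symm)

/-- **`(m1)` from the table.** -/
theorem m1_of_tab (T : TS p1 p2 e1) (hs : s = 1 ∨ s = -1)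
    (hu : ∀ u, IsUnit u → ξ u = 1) (hmul : ∀ a b, ξ (a * b) = ξ a * ξ b)
    {t : Fin 3 → ℕ → ℕ → ℂ} {W : Eis → ℂ} (hW : Tab p1 p2 e1 s w0 ξ t W) {A B : ℕ}
    (hA : 7 ≤ A) (hB : 7 ≤ B)
    (hq : ∀ c a b, A ≤ a ∨ B ≤ b → qT (ξ p1) (ξ p2) t c a b = 0) :
    ∀ h, h ≠ 0 → ∑ j : JJ A B, lj (ξ p1) (ξ p2) (nm p1) (nm p2) j * shf (mj p1 p2 j) W h =
      ∑ j : JJ A B, rj (ξ p1) (ξ p2) t j * shf (mj p1 p2 j) (baseW 6 e1 s w0 ξ) h := by
  have hξ : ∀ u, IsUnit u → ∀ j, ξ (u * j) = ξ j := fun u h j => by rw [hmul, hu u h, one_mul]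
  have hb1 : mon p1 p2 0 6 0 ≠ 0 := mon_ne T 0 6 0
  have hb2 : mon p1 p2 0 0 6 ≠ 0 := mon_ne T 0 0 6
  have hu1 : ¬ IsUnit (mon p1 p2 0 6 0) := by
    intro h
    refine T.h1.not_isUnit (isUnit_of_dvd_unit ?_ h)
    unfold mon
    exact ((dvd_pow_self p1 (by norm_num)).mul_right _).mul_left _
  have hu2 : ¬ IsUnit (mon p1 p2 0 0 6) := by
    intro h
    refine T.h2.not_isUnit (isUnit_of_dvd_unit ?_ h)
    unfold mon
    exact ((dvd_pow_self p2 (by norm_num)).mul_left _).mul_left _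
  refine transfer hb1 hb2 hu1 hu2 (fun j => mon_ne T _ _ _) (D_of_tab T hs hξ hW _ _ hq) ?_
  have hB0 := D_of_tab T hs hξ (tab_base (w0 := w0) T hs hu hmul) (ξ p1) (ξ p2) (A := A) (B := B) ?_
  · intro h hh
    rw [hB0 h hh]
    refine Finset.sum_congr rfl fun j _ => ?_
    unfold rj lj
    rw [qT_base]
    rfl
  · intro c a b hab
    rw [qT_base]
    split_ifs
    · unfold pg
      rcases hab with h | h
      · rw [if_neg (by omega), if_neg (by omega), zero_mul]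
      · rw [if_neg (show ¬ b = 0 by omega), if_neg (show ¬ b = 6 by omega), mul_zero]
    · rfl

end Crest.Agent.R017.Glue681
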