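import Crest.Agent.R017.Wt1_92

/-!
# Row 17, section F: the Euler operator on the dual weights (helper92, AF3 part 2)

`De V y = V y + y V'(y)`; `(d/dt) Φ_V(t w) = (2/t) Φ_{De V}(t w)`, `(d/dt) V°(t) = (2/t) (De V)°(t)`.
In the coordinate `x = log y`, `y = t²`: `(d/dx) V°(e^{x/2}) = (De V)°(e^{x/2})`.
-/

set_option autoImplicit false

noncomputable section

open MeasureTheory Complex Set Filter Topology
open scoped ContDiff

namespace Crest.Agent.R017.Wt92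

open Crest.Agent.R012 Crest.Agent.R012.Eis Crest.Agent.R012.K695
open Crest.Agent.R017.F1 Crest.Agent.R017.Xn590
open Crest.Agent.R017.Xi590 (CS)

/-- `V + y V'`. -/
def De (V : ℝ → ℂ) (y : ℝ) : ℂ := V y + y * deriv V y

lemma VD.deriv {V : ℝ → ℂ} (h : VD V) : VD (deriv V) where
  smooth := (contDiff_infty_iff_deriv.mp h.smooth).2
  supp := by
    obtain ⟨a, b, ha, hab, hs⟩ := h.supp
    refine ⟨a, b, ha, hab, fun y hy => ?_⟩
    have h1 : V =ᶠ[𝓝 y] fun _ => 0 := by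
      rcases hy with hy | hy
      · filter_upwards [Iio_mem_nhds hy] with z hz
        exact hs z (Or.inl hz)
      · filter_upwards [Ioi_mem_nhds hy] with z hz
        exact hs z (Or.inr hz)
    rw [h1.deriv_eq]
    simp

lemma VD.mul_smooth {V : ℝ → ℂ} (h : VD V) {g : ℝ → ℂ} (hg : ContDiff ℝ ∞ g) :
    VD (fun y => g y * V y) where
  smooth := hg.mul h.smooth
  supp := by
    obtain ⟨a, b, ha, hab, hs⟩ := h.supp
    exact ⟨a, b, ha, hab, fun y hy => by rw [hs y hy, mul_zero]⟩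

lemma VD.add {V W : ℝ → ℂ} (h : VD V) (h' : VD W) : VD (fun y => V y + W y) where
  smooth := h.smooth.add h'.smooth
  supp := by
    obtain ⟨a, b, ha, hab, hs⟩ := h.supp
    obtain ⟨a', b', ha', hab', hs'⟩ := h'.supp
    refine ⟨min a a', max b b', lt_min ha ha', ?_, fun y hy => ?_⟩
    · exact lt_of_le_of_lt (min_le_left _ _) (lt_of_lt_of_le hab (le_max_left _ _))
    · rcases hy with hy | hy
      · rw [hs y (Or.inl (lt_of_lt_of_le hy (min_le_left _ _))),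
          hs' y (Or.inl (lt_of_lt_of_le hy (min_le_right _ _))), add_zero]
      · rw [hs y (Or.inr (lt_of_le_of_lt (le_max_left _ _) hy)),
          hs' y (Or.inr (lt_of_le_of_lt (le_max_right _ _) hy)), add_zero]

lemma VD.const_mul {V : ℝ → ℂ} (h : VD V) (c : ℂ) : VD (fun y => c * V y) :=
  h.mul_smooth contDiff_const

lemma VD.De {V : ℝ → ℂ} (h : VD V) : VD (De V) :=
  h.add (h.deriv.mul_smooth (Complex.ofRealCLM.contDiff))

lemma VD.hasDerivAt {V : ℝ → ℂ} (h : VD V) (y : ℝ) : HasDerivAt V (_root_.deriv V y) y :=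
  (h.smooth.differentiable (by simp) y).hasDerivAt

lemma VD.bdd {V : ℝ → ℂ} (h : VD V) : ∃ C : ℝ, 0 ≤ C ∧ ∀ y, ‖V y‖ ≤ C := by
  obtain ⟨a, b, ha, hab, hs⟩ := h.supp
  have hc : HasCompactSupport V := by
    refine HasCompactSupport.intro (isCompact_Icc (a := a) (b := b)) fun y hy => hs y ?_
    rw [Set.mem_Icc, not_and_or, not_le, not_le] at hy
    exact hy
  obtain ⟨C, hC⟩ := hc.exists_bound_of_continuous h.smooth.continuous
  exact ⟨C, (norm_nonneg _).trans (hC 0), hC⟩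

/-! ### scalar derivative -/

lemma wt_real_mul (V : ℝ → ℂ) (l : ℤ) {t : ℝ} (ht : 0 < t) (q : ℂ) :
    wt V l ((t : ℂ) * q) = V (t ^ 2 * ‖q‖ ^ 2) * sph l q := by
  unfold wt
  rw [norm_mul, Complex.norm_real, Real.norm_of_nonneg ht.le, mul_pow, sph_mul,
    sph_of_pos l ht, one_mul]

lemma hasDerivAt_wt {V : ℝ → ℂ} (h : VD V) (l : ℤ) (q : ℂ) {t : ℝ} (ht : 0 < t) :
    HasDerivAt (fun t : ℝ => ((t ^ 2 : ℝ) : ℂ) * wt V l ((t : ℂ) * q))
      (2 * (t : ℂ) * wt (De V) l ((t : ℂ) * q)) t := by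
  have h1 : HasDerivAt (fun t : ℝ => t ^ 2 * ‖q‖ ^ 2) (2 * t * ‖q‖ ^ 2) t := by
    have := (hasDerivAt_pow 2 t).mul_const (‖q‖ ^ 2)
    simpa using this
  have h2 : HasDerivAt (fun t : ℝ => V (t ^ 2 * ‖q‖ ^ 2))
      (((2 * t * ‖q‖ ^ 2 : ℝ)) • deriv V (t ^ 2 * ‖q‖ ^ 2)) t :=
    (h.hasDerivAt (t ^ 2 * ‖q‖ ^ 2)).scomp t h1
  have h3 : HasDerivAt (fun t : ℝ => ((t ^ 2 : ℝ) : ℂ)) ((2 * t : ℝ) : ℂ) t := by
    have h4 : HasDerivAt (fun t : ℝ => t ^ 2) (2 * t) t := by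
      have := hasDerivAt_pow 2 t
      simpa using this
    exact h4.ofReal_comp
  have h5 := (h3.mul h2).mul_const (sph l q)
  have h6 : (fun t : ℝ => ((t ^ 2 : ℝ) : ℂ) * wt V l ((t : ℂ) * q)) =ᶠ[𝓝 t]
      fun t : ℝ => ((t ^ 2 : ℝ) : ℂ) * V (t ^ 2 * ‖q‖ ^ 2) * sph l q := by
    filter_upwards [Ioi_mem_nhds ht] with s hs
    rw [wt_real_mul V l hs]
    ring
  refine HasDerivAt.congr_of_eventuallyEq ?_ h6
  refine h5.congr_deriv ?_
  rw [wt_real_mul (De V) l ht, De, Complex.real_smul]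
  push_cast
  ring

lemma Phi_dil (f : ℂ → ℂ) {t : ℝ} (ht : 0 < t) (w : ℂ) :
    F1.Phi f ((t : ℂ) * w) = ∫ q : ℂ, ((t ^ 2 : ℝ) : ℂ) * f ((t : ℂ) * q) * eC (-(w / q)) := by
  have ht0 : (t : ℂ) ≠ 0 := by exact_mod_cast ht.ne'
  unfold F1.Phi
  rw [Four813.integral_comp_mul_left' ht0, Complex.norm_real, Real.norm_of_nonneg ht.le,
    Complex.real_smul, ← integral_const_mul]
  refine integral_congr_ae (Eventually.of_forall fun q => ?_)
  simp only
  rw [mul_div_mul_left _ _ ht0]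
  ring

lemma measurable_kern (w : ℂ) : Measurable fun q : ℂ => eC (-(w / q)) :=
  Parseval499.continuous_eC.measurable.comp (measurable_const.div measurable_id).neg

/-- `(d/dt) Φ_V(t w) = (2/t) Φ_{De V}(t w)`. -/
theorem hasDerivAt_Phi {V : ℝ → ℂ} (h : VD V) (l : ℤ) (w : ℂ) {t₀ : ℝ} (ht₀ : 0 < t₀) :
    HasDerivAt (fun t : ℝ => F1.Phi (wt V l) ((t : ℂ) * w))
      (2 * (t₀ : ℂ)⁻¹ * F1.Phi (wt (De V) l) ((t₀ : ℂ) * w)) t₀ := by
  set F : ℝ → ℂ → ℂ := fun t q => ((t ^ 2 : ℝ) : ℂ) * wt V l ((t : ℂ) * q) * eC (-(w / q)) with hF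
  set F' : ℝ → ℂ → ℂ := fun t q => 2 * (t : ℂ) * wt (De V) l ((t : ℂ) * q) * eC (-(w / q)) with hF'
  have hcont : ∀ W : ℝ → ℂ, VD W → ∀ t : ℝ, Continuous fun q : ℂ => wt W l ((t : ℂ) * q) :=
    fun W hW t => (hW.cs l).cont.comp (by fun_prop)
  have hs : Ioo (t₀ / 2) (2 * t₀) ∈ 𝓝 t₀ := Ioo_mem_nhds (by linarith) (by linarith)
  obtain ⟨a, b, ha, hab, hsup⟩ := h.De.supp
  have hb : 0 < b := ha.trans hab
  obtain ⟨C, hC0, hC⟩ := h.De.bdd
  set R : ℝ := Real.sqrt b * (2 / t₀) with hR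
  have hmF : ∀ t : ℝ, AEStronglyMeasurable (F t) volume := by
    intro t
    refine ((measurable_const.mul (hcont V h t).measurable).mul
      (measurable_kern w)).aestronglyMeasurable
  have hmF' : AEStronglyMeasurable (F' t₀) volume := by
    refine ((measurable_const.mul (hcont _ h.De t₀).measurable).mul
      (measurable_kern w)).aestronglyMeasurable
  have hiF : Integrable (F t₀) := by
    have hcs : Integrable (fun q : ℂ => wt V l ((t₀ : ℂ) * q)) := by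
      have ht0' : (t₀ : ℂ) ≠ 0 := by exact_mod_cast ht₀.ne'
      have := (dilS (t₀ : ℂ) ht0' (h.cs l).S).integrable (μ := volume)
      refine this.congr (Eventually.of_forall fun q => ?_)
      rw [dilS_apply]
      rfl
    refine ((hcs.const_mul ((t₀ ^ 2 : ℝ) : ℂ)).mul_bdd (c := 1)
      (measurable_kern w).aestronglyMeasurable ?_)
    exact Eventually.of_forall fun q => by rw [Parseval499.norm_eC]
  have hbound : ∀ q : ℂ, ∀ t ∈ Ioo (t₀ / 2) (2 * t₀),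
      ‖F' t q‖ ≤ (Metric.closedBall (0 : ℂ) R).indicator (fun _ => 4 * t₀ * C) q := by
    intro q t ht
    have htp : 0 < t := by have := ht.1; linarith
    by_cases hq : q ∈ Metric.closedBall (0 : ℂ) R
    · rw [Set.indicator_of_mem hq]
      simp only [hF', norm_mul, Complex.norm_real, Real.norm_of_nonneg htp.le, Parseval499.norm_eC,
        mul_one, Complex.norm_ofNat]
      rw [wt_real_mul _ l htp, norm_mul]
      have h1 := hC (t ^ 2 * ‖q‖ ^ 2)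
      have h2 := norm_sph_le l q
      have h3 : ‖De V (t ^ 2 * ‖q‖ ^ 2)‖ * ‖sph l q‖ ≤ C * 1 :=
        mul_le_mul h1 h2 (norm_nonneg _) hC0
      have h4 : 2 * t ≤ 4 * t₀ := by have := ht.2; linarith
      calc 2 * t * (‖De V (t ^ 2 * ‖q‖ ^ 2)‖ * ‖sph l q‖) ≤ 4 * t₀ * (C * 1) := by gcongr
        _ = 4 * t₀ * C := by ring
    · rw [Set.indicator_of_notMem hq]
      rw [mem_closedBall_zero_iff, not_le] at hq
      have h1 : b < t ^ 2 * ‖q‖ ^ 2 := by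
        have h2 : Real.sqrt b < t * ‖q‖ := by
          have h3 : R * (t₀ / 2) = Real.sqrt b := by
            rw [hR]; field_simp
          rw [← h3]
          have h4 : 0 ≤ R := by positivity
          have h5 := ht.1
          nlinarith
        have h3 := pow_lt_pow_left₀ h2 (Real.sqrt_nonneg b) two_ne_zero
        rw [Real.sq_sqrt hb.le, mul_pow] at h3
        exact h3
      simp only [hF']
      rw [wt_real_mul _ l htp, hsup _ (Or.inr h1)]
      simp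
  have hbi : Integrable ((Metric.closedBall (0 : ℂ) R).indicator
      (fun _ => (4 * t₀ * C : ℝ))) := by
    refine (integrable_indicator_iff measurableSet_closedBall).mpr ?_
    exact integrableOn_const (isCompact_closedBall (0 : ℂ) R).measure_lt_top.ne
  have hder : ∀ q : ℂ, ∀ t ∈ Ioo (t₀ / 2) (2 * t₀), HasDerivAt (fun t => F t q) (F' t q) t := by
    intro q t ht
    have htp : 0 < t := by have := ht.1; linarith
    exact (hasDerivAt_wt h l q htp).mul_const _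
  have key := hasDerivAt_integral_of_dominated_loc_of_deriv_le (μ := (volume : Measure ℂ))
    (F := F) (F' := F') hs (Eventually.of_forall hmF) hiF hmF'
    (Eventually.of_forall hbound) hbi (Eventually.of_forall hder)
  have h1 : (fun t : ℝ => F1.Phi (wt V l) ((t : ℂ) * w)) =ᶠ[𝓝 t₀] fun t => ∫ q, F t q := by
    filter_upwards [Ioi_mem_nhds ht₀] with t ht
    exact Phi_dil _ ht w
  refine (key.2.congr_of_eventuallyEq h1).congr_deriv ?_
  rw [Phi_dil (wt (De V) l) ht₀ w, ← integral_const_mul]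
  refine integral_congr_ae (Eventually.of_forall fun q => ?_)
  simp only [hF']
  have ht0' : (t₀ : ℂ) ≠ 0 := by exact_mod_cast ht₀.ne'
  push_cast
  field_simp

/-! ### the lattice sum -/

lemma summable_dec3 {δ : ℝ} (hδ : 0 < δ) :
    Summable fun m : Eis => ((1 + δ * ‖toC m‖) ^ 3)⁻¹ := by
  set d : ℝ := min 1 δ with hd
  have hd0 : 0 < d := lt_min one_pos hδ
  refine Summable.of_nonneg_of_le (fun m => by positivity) (fun m => ?_)
    (summable_inv3.mul_left ((d ^ 3)⁻¹))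
  rw [← mul_inv, ← mul_pow]
  refine inv_anti₀ (by positivity) (pow_le_pow_left₀ (by positivity) ?_ 3)
  have e1 : d ≤ 1 := min_le_left _ _
  have e2 : d ≤ δ := min_le_right _ _
  have e3 := norm_nonneg (toC m)
  nlinarith

/-- Schwartz decay of `Φ`. -/
lemma Phi_dec {f : ℂ → ℂ} (hf : CS f) (A : ℕ) : ∃ C : ℝ, 0 ≤ C ∧ ∀ y : ℂ,
    ‖F1.Phi f y‖ ≤ C * ((1 + ‖y‖) ^ A)⁻¹ := by
  obtain ⟨C, hC0, hC⟩ := Xi590.sch_dec hf.Ph A
  refine ⟨C, hC0, fun y => ?_⟩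
  have h1 := hC y
  rw [hf.Ph_apply] at h1
  rw [← div_eq_mul_inv, le_div_iff₀ (by positivity)]
  exact h1

lemma norm_arg_ge {t δ : ℝ} (hδ : 0 < δ) (hδt : δ ≤ t) (h0 : ℂ) {n : ℕ} (hn : n ≠ 0) {m : Eis}
    (hm : m ≠ 0) : δ * ‖h0‖ * ‖toC m‖ ≤ ‖(t : ℂ) * h0 * toC m ^ n‖ := by
  have h1 := one_le_norm_toC hm
  rw [norm_mul, norm_mul, Complex.norm_real, Real.norm_of_nonneg (hδ.le.trans hδt), norm_pow]
  have h2 : ‖toC m‖ ≤ ‖toC m‖ ^ n := le_self_pow₀ h1 hn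
  have h3 : 0 ≤ t := hδ.le.trans hδt
  gcongr

/-- `(d/dt) V°(t) = (2/t) (De V)°(t)`. -/
theorem hasDerivAt_fOn {V : ℝ → ℂ} (h : VD V) (l : ℤ) {n : ℕ} (hn : n ≠ 0) {ξ : Eis → ℂ}
    (hξ : ∀ a, ‖ξ a‖ ≤ 1) (Vc : ℝ) {h0 : ℂ} (hh0 : h0 ≠ 0) (B : ℂ) {t₀ : ℝ} (ht₀ : 0 < t₀) :
    HasDerivAt (fun t : ℝ => fOn n ξ Vc h0 B (wt V l) (t : ℂ))
      (2 * (t₀ : ℂ)⁻¹ * fOn n ξ Vc h0 B (wt (De V) l) (t₀ : ℂ)) t₀ := by
  classical
  set g : Eis → ℝ → ℂ := fun m t => if m = 0 then (0 : ℂ) else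
    ξ m * F1.Phi (wt V l) ((t : ℂ) * h0 * toC m ^ n) with hg
  set g' : Eis → ℝ → ℂ := fun m t => if m = 0 then (0 : ℂ) else
    ξ m * (2 * (t : ℂ)⁻¹ * F1.Phi (wt (De V) l) ((t : ℂ) * h0 * toC m ^ n)) with hg'
  obtain ⟨C, hC0, hC⟩ := Phi_dec (h.De.cs l) 3
  obtain ⟨C₁, hC₁0, hC₁⟩ := Phi_dec (h.cs l) 3
  have hhp : 0 < ‖h0‖ := norm_pos_iff.mpr hh0
  set δ : ℝ := t₀ / 2 * ‖h0‖ with hδ
  have hδ0 : 0 < δ := by positivity
  have hder : ∀ (m : Eis) (t : ℝ), t ∈ Ioo (t₀ / 2) (2 * t₀) → HasDerivAt (g m) (g' m t) t := by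
    intro m t ht
    have htp : 0 < t := by have := ht.1; linarith
    by_cases hm : m = 0
    · simp only [hg, hg', hm, if_true]
      exact hasDerivAt_const _ _
    · simp only [hg, hg', hm, if_false]
      have h1 := (hasDerivAt_Phi h l (h0 * toC m ^ n) htp).const_mul (ξ m)
      simpa only [mul_assoc] using h1
  have hbd : ∀ (m : Eis) (t : ℝ), t ∈ Ioo (t₀ / 2) (2 * t₀) →
      ‖g' m t‖ ≤ 4 / t₀ * C * ((1 + δ * ‖toC m‖) ^ 3)⁻¹ := by
    intro m t ht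
    have htp : 0 < t := by have := ht.1; linarith
    by_cases hm : m = 0
    · simp only [hg', hm, if_true, norm_zero]
      positivity
    · simp only [hg', hm, if_false]
      rw [norm_mul, norm_mul, norm_mul, norm_inv, Complex.norm_real, Real.norm_of_nonneg htp.le,
        Complex.norm_ofNat]
      have h1 := hC ((t : ℂ) * h0 * toC m ^ n)
      have h2 := norm_arg_ge (half_pos ht₀) ht.1.le h0 hn hm
      have h3 : ((1 + ‖(t : ℂ) * h0 * toC m ^ n‖) ^ 3)⁻¹ ≤ ((1 + δ * ‖toC m‖) ^ 3)⁻¹ := by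
        refine inv_anti₀ (by positivity) (pow_le_pow_left₀ (by positivity) ?_ 3)
        rw [hδ]; linarith
      have h4 : 2 * t⁻¹ ≤ 4 / t₀ := by
        rw [← div_eq_mul_inv, div_le_div_iff₀ htp ht₀]
        have := ht.1
        linarith
      calc ‖ξ m‖ * (2 * t⁻¹ * ‖F1.Phi (wt (De V) l) ((t : ℂ) * h0 * toC m ^ n)‖)
          ≤ 1 * (4 / t₀ * (C * ((1 + δ * ‖toC m‖) ^ 3)⁻¹)) := by
            refine mul_le_mul (hξ m) ?_ (by positivity) zero_le_one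
            refine mul_le_mul h4 (h1.trans (by gcongr)) (norm_nonneg _) (by positivity)
        _ = _ := by ring
  have hsum0 : Summable (fun m => g m t₀) := by
    refine Summable.of_norm_bounded ((summable_dec3 hδ0).mul_left C₁) fun m => ?_
    by_cases hm : m = 0
    · simp only [hg, hm, if_true, norm_zero]
      positivity
    · simp only [hg, hm, if_false]
      rw [norm_mul]
      have h1 := hC₁ ((t₀ : ℂ) * h0 * toC m ^ n)
      have h2 := norm_arg_ge (half_pos ht₀) (by linarith : t₀ / 2 ≤ t₀) h0 hn hm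
      have h3 : ((1 + ‖(t₀ : ℂ) * h0 * toC m ^ n‖) ^ 3)⁻¹ ≤ ((1 + δ * ‖toC m‖) ^ 3)⁻¹ := by
        refine inv_anti₀ (by positivity) (pow_le_pow_left₀ (by positivity) ?_ 3)
        rw [hδ]; linarith
      calc ‖ξ m‖ * ‖F1.Phi (wt V l) ((t₀ : ℂ) * h0 * toC m ^ n)‖
          ≤ 1 * (C₁ * ((1 + δ * ‖toC m‖) ^ 3)⁻¹) :=
            mul_le_mul (hξ m) (h1.trans (by gcongr)) (norm_nonneg _) zero_le_one
        _ = _ := one_mul _
  have hmem : t₀ ∈ Ioo (t₀ / 2) (2 * t₀) := ⟨by linarith, by linarith⟩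
  have key := hasDerivAt_tsum_of_isPreconnected
    ((summable_dec3 hδ0).mul_left (4 / t₀ * C)) isOpen_Ioo isPreconnected_Ioo hder hbd hmem hsum0
    hmem
  have h1 := key.const_mul (B * ((1 / (6 * Vc) : ℝ) : ℂ))
  refine h1.congr_deriv ?_
  unfold fOn
  have h2 : ∑' m : Eis, g' m t₀ = 2 * (t₀ : ℂ)⁻¹ * ∑' m : Eis, (if m = 0 then (0 : ℂ) else
      ξ m * F1.Phi (wt (De V) l) ((t₀ : ℂ) * h0 * toC m ^ n)) := by
    rw [← tsum_mul_left]
    refine tsum_congr fun m => ?_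
    by_cases hm : m = 0
    · simp [hg', hm]
    · simp only [hg', hm, if_false]
      ring
  rw [h2]
  ring

/-- `V°` in the coordinate `x = log y`, `y = |u|²`. -/
def vO (n : ℕ) (ξ : Eis → ℂ) (Vc : ℝ) (h0 B : ℂ) (l : ℤ) (V : ℝ → ℂ) (x : ℝ) : ℂ :=
  fOn n ξ Vc h0 B (wt V l) ((Real.exp (x / 2) : ℝ) : ℂ)

theorem hasDerivAt_vO {V : ℝ → ℂ} (h : VD V) (l : ℤ) {n : ℕ} (hn : n ≠ 0) {ξ : Eis → ℂ}
    (hξ : ∀ a, ‖ξ a‖ ≤ 1) (Vc : ℝ) {h0 : ℂ} (hh0 : h0 ≠ 0) (B : ℂ) (x : ℝ) :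
    HasDerivAt (vO n ξ Vc h0 B l V) (vO n ξ Vc h0 B l (De V) x) x := by
  have h1 : HasDerivAt (fun x : ℝ => Real.exp (x / 2)) (Real.exp (x / 2) * (1 / 2)) x := by
    have h2 : HasDerivAt (fun x : ℝ => x / 2) (1 / 2) x := (hasDerivAt_id x).div_const 2
    exact h2.exp
  have h3 := (hasDerivAt_fOn h l hn hξ Vc hh0 B (Real.exp_pos (x / 2))).scomp x h1
  refine h3.congr_deriv ?_
  rw [Complex.real_smul]
  unfold vO
  have h4 : ((Real.exp (x / 2) : ℝ) : ℂ) ≠ 0 := by exact_mod_cast (Real.exp_pos _).ne'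
  push_cast at h4 ⊢
  field_simp

lemma VD.De_iter {V : ℝ → ℂ} (h : VD V) (m : ℕ) : VD (Wt92.De^[m] V) := by
  induction m with
  | zero => exact h
  | succ m ih => rw [Function.iterate_succ_apply']; exact ih.De

theorem iteratedDeriv_vO {V : ℝ → ℂ} (h : VD V) (l : ℤ) {n : ℕ} (hn : n ≠ 0) {ξ : Eis → ℂ}
    (hξ : ∀ a, ‖ξ a‖ ≤ 1) (Vc : ℝ) {h0 : ℂ} (hh0 : h0 ≠ 0) (B : ℂ) (m : ℕ) :
    iteratedDeriv m (vO n ξ Vc h0 B l V) = vO n ξ Vc h0 B l (De^[m] V) := by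
  induction m with
  | zero => simp
  | succ m ih =>
    rw [iteratedDeriv_succ, ih, Function.iterate_succ_apply']
    funext x
    exact (hasDerivAt_vO (h.De_iter m) l hn hξ Vc hh0 B x).deriv

theorem contDiff_vO {V : ℝ → ℂ} (h : VD V) (l : ℤ) {n : ℕ} (hn : n ≠ 0) {ξ : Eis → ℂ}
    (hξ : ∀ a, ‖ξ a‖ ≤ 1) (Vc : ℝ) {h0 : ℂ} (hh0 : h0 ≠ 0) (B : ℂ) :
    ContDiff ℝ ∞ (vO n ξ Vc h0 B l V) := by
  rw [contDiff_infty]
  intro k
  refine contDiff_of_differentiable_iteratedDeriv fun m _ => ?_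
  rw [iteratedDeriv_vO h l hn hξ Vc hh0 B m]
  exact fun x => (hasDerivAt_vO (h.De_iter m) l hn hξ Vc hh0 B x).differentiableAt

end Crest.Agent.R017.Wt92
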