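import Crest.Agent.R017.Wt2_92

/-!
# Row 17, section F: polynomially bounded families (helper92, AF3 part 3)

* `PB G`: all Schwartz seminorms of `G τ` grow polynomially in `τ`; stable under continuous linear
  maps (`PB.map`)
* `pb_mul`: `e^{iτL} G₀`, `L` with bounded derivatives
* `th_dec_explicit`: `XiP.th_dec` with the constant linear in two sup-norms of `R`
-/

set_option autoImplicit false

noncomputable section

open MeasureTheory Complex Set Filter Topology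
open scoped ContDiff SchwartzMap FourierTransform Nat NNReal

namespace Crest.Agent.R017.Wt92

open Crest.Agent.R012 Crest.Agent.R012.Eis
open Crest.Agent.R017.Xn590
open Crest.Agent.R017.Xi590 (CS fCS fCS_apply sch_dec)
open Crest.Agent.R012.Po581 (fC)

/-! ### polynomially bounded families -/

/-- polynomial growth of all seminorms in the parameter. -/
def PB (G : ℝ → 𝓢(ℂ, ℂ)) : Prop :=
  ∀ k l : ℕ, ∃ (C : ℝ) (A : ℕ), 0 ≤ C ∧
    ∀ τ : ℝ, SchwartzMap.seminorm ℝ k l (G τ) ≤ C * (1 + |τ|) ^ A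

lemma one_le_par (τ : ℝ) : 1 ≤ 1 + |τ| := by have := abs_nonneg τ; linarith

lemma PB.sum {G : ℝ → 𝓢(ℂ, ℂ)} (hG : PB G) (s : Finset (ℕ × ℕ)) : ∃ (C : ℝ) (A : ℕ), 0 ≤ C ∧
    ∀ τ : ℝ, ∑ i ∈ s, SchwartzMap.seminorm ℝ i.1 i.2 (G τ) ≤ C * (1 + |τ|) ^ A := by
  classical
  induction s using Finset.induction_on with
  | empty => exact ⟨0, 0, le_rfl, fun τ => by simp⟩
  | insert i s hi ih =>
    obtain ⟨C, A, hC, h⟩ := ih
    obtain ⟨C', A', hC', h'⟩ := hG i.1 i.2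
    refine ⟨C' + C, A' + A, by positivity, fun τ => ?_⟩
    rw [Finset.sum_insert hi]
    have h1 := one_le_par τ
    have h2 : (1 + |τ|) ^ A ≤ (1 + |τ|) ^ (A' + A) := pow_le_pow_right₀ h1 (by omega)
    have h3 : (1 + |τ|) ^ A' ≤ (1 + |τ|) ^ (A' + A) := pow_le_pow_right₀ h1 (by omega)
    calc SchwartzMap.seminorm ℝ i.1 i.2 (G τ) + ∑ i ∈ s, SchwartzMap.seminorm ℝ i.1 i.2 (G τ)
        ≤ C' * (1 + |τ|) ^ A' + C * (1 + |τ|) ^ A := add_le_add (h' τ) (h τ)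
      _ ≤ C' * (1 + |τ|) ^ (A' + A) + C * (1 + |τ|) ^ (A' + A) := by gcongr
      _ = _ := by ring

theorem PB.map {G : ℝ → 𝓢(ℂ, ℂ)} (hG : PB G) (T : 𝓢(ℂ, ℂ) →L[ℝ] 𝓢(ℂ, ℂ)) :
    PB (fun τ => T (G τ)) := by
  intro k l
  set q : Seminorm ℝ 𝓢(ℂ, ℂ) := (SchwartzMap.seminorm ℝ k l).comp T.toLinearMap with hqd
  have hq : Continuous q :=
    ((schwartz_withSeminorms ℝ ℂ ℂ).continuous_seminorm (k, l)).comp T.continuous
  obtain ⟨s, C, -, hC⟩ := Seminorm.bound_of_continuous (schwartz_withSeminorms ℝ ℂ ℂ) q hq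
  obtain ⟨D, A, hD, hDA⟩ := hG.sum s
  refine ⟨C * D, A, by positivity, fun τ => ?_⟩
  have h1 : SchwartzMap.seminorm ℝ k l (T (G τ)) ≤
      (C • s.sup (schwartzSeminormFamily ℝ ℂ ℂ)) (G τ) := hC (G τ)
  have h2 : s.sup (schwartzSeminormFamily ℝ ℂ ℂ) (G τ) ≤
      ∑ i ∈ s, SchwartzMap.seminorm ℝ i.1 i.2 (G τ) := by
    refine Seminorm.finset_sup_apply_le (Finset.sum_nonneg fun _ _ => apply_nonneg _ _)
      fun i hi => ?_
    exact Finset.single_le_sum (f := fun i : ℕ × ℕ => SchwartzMap.seminorm ℝ i.1 i.2 (G τ))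
      (fun _ _ => apply_nonneg _ _) hi
  calc SchwartzMap.seminorm ℝ k l (T (G τ))
      ≤ (C • s.sup (schwartzSeminormFamily ℝ ℂ ℂ)) (G τ) := h1
    _ = C * s.sup (schwartzSeminormFamily ℝ ℂ ℂ) (G τ) := rfl
    _ ≤ C * (D * (1 + |τ|) ^ A) := by
        refine mul_le_mul_of_nonneg_left (h2.trans (hDA τ)) C.coe_nonneg
    _ = _ := by ring

lemma PB.sup {G : ℝ → 𝓢(ℂ, ℂ)} (hG : PB G) (B : ℕ) : ∃ (C : ℝ) (A : ℕ), 0 ≤ C ∧
    ∀ τ x, ‖G τ x‖ * (1 + ‖x‖) ^ B ≤ C * (1 + |τ|) ^ A := by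
  obtain ⟨C, A, hC, h⟩ := hG.sum {(0, 0), (B + 1, 0)}
  refine ⟨2 ^ B * C, A, by positivity, fun τ x => ?_⟩
  have h1 := h τ
  rw [Finset.sum_pair (by simp)] at h1
  have h2 := SchwartzMap.le_seminorm ℝ 0 0 (G τ) x
  have h3 := SchwartzMap.le_seminorm ℝ (B + 1) 0 (G τ) x
  rw [norm_iteratedFDeriv_zero] at h2 h3
  rw [pow_zero, one_mul] at h2
  have hx := norm_nonneg x
  have h4 : (1 + ‖x‖) ^ B ≤ 2 ^ B * (1 + ‖x‖ ^ (B + 1)) := by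
    rcases le_or_gt ‖x‖ 1 with h5 | h5
    · calc (1 + ‖x‖) ^ B ≤ 2 ^ B := pow_le_pow_left₀ (by positivity) (by linarith) B
        _ ≤ 2 ^ B * (1 + ‖x‖ ^ (B + 1)) := by
            refine le_mul_of_one_le_right (by positivity) ?_
            have := pow_nonneg hx (B + 1)
            linarith
    · calc (1 + ‖x‖) ^ B ≤ (2 * ‖x‖) ^ B := pow_le_pow_left₀ (by positivity) (by linarith) B
        _ = 2 ^ B * ‖x‖ ^ B := mul_pow _ _ _
        _ ≤ 2 ^ B * (1 + ‖x‖ ^ (B + 1)) := by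
            gcongr
            have h6 : ‖x‖ ^ B ≤ ‖x‖ ^ (B + 1) := pow_le_pow_right₀ h5.le (Nat.le_succ B)
            linarith
  calc ‖G τ x‖ * (1 + ‖x‖) ^ B ≤ ‖G τ x‖ * (2 ^ B * (1 + ‖x‖ ^ (B + 1))) := by gcongr
    _ = 2 ^ B * (‖G τ x‖ + ‖x‖ ^ (B + 1) * ‖G τ x‖) := by ring
    _ ≤ 2 ^ B * (C * (1 + |τ|) ^ A) := by
        gcongr
        exact (add_le_add h2 h3).trans h1
    _ = _ := by ring

/-! ### multiplication by `e^{iτL}` -/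

lemma iteratedDeriv_cexpI (i : ℕ) :
    iteratedDeriv i (fun t : ℝ => cexp (I * t)) = fun t : ℝ => I ^ i * cexp (I * t) := by
  induction i with
  | zero => simp
  | succ i ih =>
    rw [iteratedDeriv_succ, ih]
    funext t
    have h1 : HasDerivAt (fun t : ℝ => I * (t : ℂ)) (I * 1) t :=
      (Complex.ofRealCLM.hasDerivAt (x := t)).const_mul I
    have h2 := (h1.cexp).const_mul (I ^ i)
    rw [h2.deriv]
    ring

lemma norm_iteratedFDeriv_cexpI (i : ℕ) (t : ℝ) :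
    ‖iteratedFDeriv ℝ i (fun t : ℝ => cexp (I * t)) t‖ ≤ 1 := by
  rw [norm_iteratedFDeriv_eq_norm_iteratedDeriv, iteratedDeriv_cexpI]
  rw [norm_mul, norm_pow, Complex.norm_I, one_pow, one_mul, mul_comm I, Complex.norm_exp_ofReal_mul_I]

lemma contDiff_cexpI : ContDiff ℝ ∞ (fun t : ℝ => cexp (I * t)) :=
  (contDiff_const.mul Complex.ofRealCLM.contDiff).cexp

theorem pb_mul {G₀ : 𝓢(ℂ, ℂ)} {L : ℂ → ℝ} (hL : ContDiff ℝ ∞ L)
    (hLb : ∀ i : ℕ, ∃ B : ℝ, ∀ x, ‖iteratedFDeriv ℝ i L x‖ ≤ B) {G : ℝ → 𝓢(ℂ, ℂ)}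
    (hG : ∀ τ s, G τ s = cexp (I * ((τ * L s : ℝ) : ℂ)) * G₀ s) : PB G := by
  intro k l
  choose B hB using hLb
  set b : ℝ := 1 + ∑ i ∈ Finset.range (l + 1), |B i| with hb
  have hb1 : 1 ≤ b := by
    have : 0 ≤ ∑ i ∈ Finset.range (l + 1), |B i| := Finset.sum_nonneg fun _ _ => abs_nonneg _
    linarith
  set S : ℝ := ∑ i ∈ Finset.range (l + 1), (l.choose i : ℝ) *
    SchwartzMap.seminorm ℝ k (l - i) G₀ with hS
  have hS0 : 0 ≤ S := Finset.sum_nonneg fun i _ => mul_nonneg (by positivity) (apply_nonneg _ _)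
  refine ⟨(l ! : ℝ) * b ^ l * S, l, by positivity, fun τ => ?_⟩
  set D : ℝ := (1 + |τ|) * b with hD
  have hτ := one_le_par τ
  have hD1 : 1 ≤ D := by nlinarith
  have hDb : ∀ i, i ≤ l → |τ| * |B i| ≤ D := by
    intro i hi
    have h1 : |B i| ≤ b := by
      have h2 : |B i| ≤ ∑ i ∈ Finset.range (l + 1), |B i| :=
        Finset.single_le_sum (f := fun i => |B i|) (s := Finset.range (l + 1))
          (fun _ _ => abs_nonneg _) (Finset.mem_range.mpr (Nat.lt_succ_of_le hi))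
      linarith
    have h3 := abs_nonneg τ
    have h4 := abs_nonneg (B i)
    nlinarith
  have hf : ContDiff ℝ ∞ (fun s : ℂ => τ * L s) := contDiff_const.mul hL
  have hexp : ∀ i, i ≤ l → ∀ x : ℂ,
      ‖iteratedFDeriv ℝ i (fun s : ℂ => cexp (I * ((τ * L s : ℝ) : ℂ))) x‖ ≤
        (l ! : ℝ) * D ^ l := by
    intro i hi x
    have h1 := norm_iteratedFDeriv_comp_le (n := i) (N := ∞) (C := 1) (D := D)
      contDiff_cexpI hf (by exact_mod_cast le_top) x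
      (fun j _ => norm_iteratedFDeriv_cexpI j _) (fun j hj hji => ?_)
    · refine h1.trans ?_
      rw [mul_one]
      have h2 : (i ! : ℝ) ≤ (l ! : ℝ) := by exact_mod_cast Nat.factorial_le hi
      have h3 : D ^ i ≤ D ^ l := pow_le_pow_right₀ hD1 hi
      gcongr
    · have h2 : iteratedFDeriv ℝ j (fun s : ℂ => τ * L s) x = τ • iteratedFDeriv ℝ j L x := by
        have := iteratedFDeriv_const_smul_apply' (𝕜 := ℝ) (i := j) (x := x) (a := τ) (f := L)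
          (hL.contDiffAt.of_le (by exact_mod_cast le_top))
        simpa only [smul_eq_mul] using this
      rw [h2, norm_smul, Real.norm_eq_abs]
      calc |τ| * ‖iteratedFDeriv ℝ j L x‖ ≤ |τ| * |B j| := by
            gcongr
            exact (hB j x).trans (le_abs_self _)
        _ ≤ D := hDb j (hji.trans hi)
        _ ≤ D ^ j := le_self_pow₀ hD1 (by omega)
  refine SchwartzMap.seminorm_le_bound ℝ k l (G τ) (by positivity) fun x => ?_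
  have hfun : (G τ : ℂ → ℂ) = fun s => cexp (I * ((τ * L s : ℝ) : ℂ)) * G₀ s := by
    funext s; exact hG τ s
  rw [hfun]
  have h1 := norm_iteratedFDeriv_mul_le (n := l) (N := ∞)
    (contDiff_cexpI.comp hf) (G₀.smooth ⊤) x (by exact_mod_cast le_top)
  calc ‖x‖ ^ k * ‖iteratedFDeriv ℝ l (fun s => cexp (I * ((τ * L s : ℝ) : ℂ)) * G₀ s) x‖
      ≤ ‖x‖ ^ k * ∑ i ∈ Finset.range (l + 1), (l.choose i : ℝ) *
          ‖iteratedFDeriv ℝ i (fun s : ℂ => cexp (I * ((τ * L s : ℝ) : ℂ))) x‖ *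
            ‖iteratedFDeriv ℝ (l - i) G₀ x‖ := by
        gcongr
        exact h1
    _ = ∑ i ∈ Finset.range (l + 1), (l.choose i : ℝ) *
          ‖iteratedFDeriv ℝ i (fun s : ℂ => cexp (I * ((τ * L s : ℝ) : ℂ))) x‖ *
            (‖x‖ ^ k * ‖iteratedFDeriv ℝ (l - i) G₀ x‖) := by
        rw [Finset.mul_sum]
        exact Finset.sum_congr rfl fun i _ => by ring
    _ ≤ ∑ i ∈ Finset.range (l + 1), (l.choose i : ℝ) * ((l ! : ℝ) * D ^ l) *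
          SchwartzMap.seminorm ℝ k (l - i) G₀ := by
        refine Finset.sum_le_sum fun i hi => ?_
        have hi' : i ≤ l := Nat.lt_succ_iff.mp (Finset.mem_range.mp hi)
        have h2 := SchwartzMap.le_seminorm ℝ k (l - i) G₀ x
        have h3 := hexp i hi' x
        gcongr
    _ = (l ! : ℝ) * D ^ l * S := by
        rw [hS, Finset.mul_sum]
        exact Finset.sum_congr rfl fun i _ => by ring
    _ = (l ! : ℝ) * b ^ l * S * (1 + |τ|) ^ l := by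
        rw [hD, mul_pow]; ring

/-! ### the continuous linear maps -/

/-- `fCS` as a continuous linear map. -/
def fCL : 𝓢(ℂ, ℂ) →L[ℝ] 𝓢(ℂ, ℂ) :=
  (SchwartzMap.compCLMOfContinuousLinearEquiv ℝ Xi590.twoConj).comp
    (FourierTransform.fourierCLM ℝ 𝓢(ℂ, ℂ))

lemma fCL_apply (f : 𝓢(ℂ, ℂ)) : fCL f = fCS f := rfl

/-- `powS` as a continuous linear map. -/
def powL (n : ℕ) (hn : n ≠ 0) : 𝓢(ℂ, ℂ) →L[ℝ] 𝓢(ℂ, ℂ) :=
  SchwartzMap.compCLM ℝ (pow_temperate n) (pow_upper hn)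

lemma powL_apply (n : ℕ) (hn : n ≠ 0) (f : 𝓢(ℂ, ℂ)) : powL n hn f = powS n hn f := rfl

/-! ### explicit two-sided decay -/

variable {ξ : Eis → ℂ} {κ c : ℂ}

lemma lat_dec_explicit {R : 𝓢(ℂ, ℂ)} {A : ℕ} {C : ℝ}
    (hC : ∀ x, ‖R x‖ * (1 + ‖x‖) ^ (A + 3) ≤ C) {a : Eis → ℂ} (ha : ∀ m, ‖a m‖ ≤ 1)
    (h0 : a 0 * R 0 = 0) {σ : ℂ} (hσ : 1 ≤ ‖σ‖) :
    ‖∑' m : Eis, a m * R (σ * toC m)‖ ≤ C * 8 * C3 * (‖σ‖ ^ A)⁻¹ := by
  have hC0 : 0 ≤ C := (by positivity : (0 : ℝ) ≤ ‖R 0‖ * (1 + ‖(0 : ℂ)‖) ^ (A + 3)).trans (hC 0)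
  have hσp : 0 < ‖σ‖ := by linarith
  have hb : ∀ m : Eis, ‖a m * R (σ * toC m)‖ ≤
      C * 8 * (‖σ‖ ^ A)⁻¹ * ((1 + ‖toC m‖) ^ 3)⁻¹ := by
    intro m
    by_cases hm : m = 0
    · subst hm
      rw [map_zero, mul_zero, h0, norm_zero]
      positivity
    · rw [norm_mul]
      calc ‖a m‖ * ‖R (σ * toC m)‖ ≤ 1 * ‖R (σ * toC m)‖ := by gcongr; exact ha m
        _ = ‖R (σ * toC m)‖ := one_mul _
        _ ≤ _ := term_bound hC hσ hm
  have hs : Summable fun m : Eis => C * 8 * (‖σ‖ ^ A)⁻¹ * ((1 + ‖toC m‖) ^ 3)⁻¹ :=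
    summable_inv3.mul_left _
  have hs2 : Summable fun m : Eis => ‖a m * R (σ * toC m)‖ :=
    Summable.of_nonneg_of_le (fun m => norm_nonneg _) hb hs
  calc ‖∑' m : Eis, a m * R (σ * toC m)‖ ≤ ∑' m : Eis, ‖a m * R (σ * toC m)‖ :=
        norm_tsum_le_tsum_norm hs2
    _ ≤ ∑' m : Eis, C * 8 * (‖σ‖ ^ A)⁻¹ * ((1 + ‖toC m‖) ^ 3)⁻¹ :=
        hs2.tsum_le_tsum hb hs
    _ = C * 8 * C3 * (‖σ‖ ^ A)⁻¹ := by rw [tsum_mul_left]; unfold C3; ring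

/-- two-sided decay of `Θ_R`, explicit in `R`. -/
theorem th_dec_explicit (h : XiP ξ κ c) (A : ℕ) : ∃ K : ℝ, 0 ≤ K ∧ ∀ (R : 𝓢(ℂ, ℂ)) (S : ℝ),
    (∀ x, ‖R x‖ * (1 + ‖x‖) ^ (A + 3) ≤ S) → (∀ x, ‖fCS R x‖ * (1 + ‖x‖) ^ (A + 5) ≤ S) →
    ξ 0 * R 0 = 0 → ξ 0 * ∫ z, R z = 0 → ∀ τ : ℂ, τ ≠ 0 →
    ‖Th ξ R τ‖ ≤ K * S * ‖τ‖ ^ A ∧ ‖Th ξ R τ‖ ≤ K * S * (‖τ‖ ^ A)⁻¹ := by
  have hκ : 0 < ‖κ‖ := norm_pos_iff.mpr h.κ0
  have hC3 := C3_nonneg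
  set δ : ℝ := min 1 ‖κ‖⁻¹ with hδ
  have hδ0 : 0 < δ := lt_min one_pos (by positivity)
  have hδ1 : δ ≤ 1 := min_le_left _ _
  have hδA : δ ^ A ≤ 1 := pow_le_one₀ hδ0.le hδ1
  set K1 : ℝ := 8 * C3 with hK1
  set K2 : ℝ := ‖c‖ * (8 * C3) * ‖κ‖ ^ (A + 2) with hK2
  set K3 : ℝ := (δ ^ 3)⁻¹ * C3 with hK3
  have hK10 : 0 ≤ K1 := by positivity
  have hK20 : 0 ≤ K2 := by positivity
  have hK30 : 0 ≤ K3 := by positivity
  refine ⟨K1 + K2 + K3 * (δ ^ A)⁻¹, by positivity, fun R S hR hF h0 hi τ hτ => ?_⟩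
  have hS0 : 0 ≤ S := (by positivity : (0 : ℝ) ≤ ‖R 0‖ * (1 + ‖(0 : ℂ)‖) ^ (A + 3)).trans (hR 0)
  have hτp : 0 < ‖τ‖ := norm_pos_iff.mpr hτ
  have hpA : 0 < ‖τ‖ ^ A := by positivity
  have h0' : (starRingEnd ℂ) (ξ 0) * fCS R 0 = 0 := by
    rw [fCS_apply]
    have e : fC R 0 = ∫ z, R z := by
      unfold fC
      congr 1
      ext z
      rw [zero_mul, neg_zero, Parseval499.eC_zero, mul_one]
    rw [e]
    rcases mul_eq_zero.mp hi with h3 | h3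
    · rw [h3, map_zero, zero_mul]
    · rw [h3, mul_zero]
  have hbig : 1 ≤ ‖τ‖ → ‖Th ξ R τ‖ ≤ K1 * S * (‖τ‖ ^ A)⁻¹ := by
    intro h1
    have := lat_dec_explicit hR h.le1 h0 h1
    unfold Th
    refine this.trans (le_of_eq ?_)
    rw [hK1]; ring
  have hsmall : ‖κ * τ‖ ≤ 1 → ‖Th ξ R τ‖ ≤ K2 * S * ‖τ‖ ^ A := by
    intro hκτ
    rw [h.th R hτ, norm_mul, norm_mul, Complex.norm_real, Real.norm_of_nonneg (by positivity)]
    have h3 := lat_dec_explicit (R := fCS R) (A := A + 2) (C := S) hF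
      (a := fun k => (starRingEnd ℂ) (ξ k)) (fun m => by simpa using h.le1 m) h0'
      (σ := (κ * τ)⁻¹) (by
        rw [norm_inv]
        exact (one_le_inv₀ (by rw [norm_mul]; positivity)).mpr hκτ)
    have h4 : ‖Th (fun k => (starRingEnd ℂ) (ξ k)) (fCS R) ((κ * τ)⁻¹)‖ ≤
        S * 8 * C3 * (‖(κ * τ)⁻¹‖ ^ (A + 2))⁻¹ := h3
    rw [norm_inv, inv_pow, inv_inv, norm_mul] at h4
    calc ‖c‖ * ((‖τ‖ ^ 2)⁻¹ * ‖Th (fun k => (starRingEnd ℂ) (ξ k)) (fCS R) ((κ * τ)⁻¹)‖)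
        ≤ ‖c‖ * ((‖τ‖ ^ 2)⁻¹ * (S * 8 * C3 * (‖κ‖ * ‖τ‖) ^ (A + 2))) := by gcongr
      _ = K2 * S * ‖τ‖ ^ A := by
          rw [hK2, mul_pow, pow_add ‖τ‖]
          field_simp
  have hmid : δ ≤ ‖τ‖ → ‖Th ξ R τ‖ ≤ K3 * S := by
    intro hδτ
    have hb : ∀ m : Eis, ‖ξ m * R (τ * toC m)‖ ≤ S * (δ ^ 3)⁻¹ * ((1 + ‖toC m‖) ^ 3)⁻¹ := by
      intro m
      have h5 := hR (τ * toC m)
      rw [norm_mul] at h5
      have h6 : δ * (1 + ‖toC m‖) ≤ 1 + ‖τ‖ * ‖toC m‖ := by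
        have e3 := norm_nonneg (toC m)
        nlinarith
      have h7 : (1 + ‖τ‖ * ‖toC m‖) ^ 3 ≤ (1 + ‖τ‖ * ‖toC m‖) ^ (A + 3) := by
        refine pow_le_pow_right₀ ?_ (by omega)
        have : 0 ≤ ‖τ‖ * ‖toC m‖ := by positivity
        linarith
      rw [norm_mul]
      calc ‖ξ m‖ * ‖R (τ * toC m)‖ ≤ 1 * ‖R (τ * toC m)‖ := by gcongr; exact h.le1 m
        _ = ‖R (τ * toC m)‖ := one_mul _
        _ ≤ _ := by
            rw [← div_eq_mul_inv, ← div_eq_mul_inv, div_div, le_div_iff₀ (by positivity)]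
            calc ‖R (τ * toC m)‖ * (δ ^ 3 * (1 + ‖toC m‖) ^ 3)
                = ‖R (τ * toC m)‖ * (δ * (1 + ‖toC m‖)) ^ 3 := by ring
              _ ≤ ‖R (τ * toC m)‖ * (1 + ‖τ‖ * ‖toC m‖) ^ 3 := by gcongr
              _ ≤ ‖R (τ * toC m)‖ * (1 + ‖τ‖ * ‖toC m‖) ^ (A + 3) := by gcongr
              _ ≤ S := h5
    have hs : Summable fun m : Eis => S * (δ ^ 3)⁻¹ * ((1 + ‖toC m‖) ^ 3)⁻¹ :=
      summable_inv3.mul_left _
    have hs2 : Summable fun m : Eis => ‖ξ m * R (τ * toC m)‖ :=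
      Summable.of_nonneg_of_le (fun m => norm_nonneg _) hb hs
    calc ‖Th ξ R τ‖ ≤ ∑' m : Eis, ‖ξ m * R (τ * toC m)‖ := norm_tsum_le_tsum_norm hs2
      _ ≤ ∑' m : Eis, S * (δ ^ 3)⁻¹ * ((1 + ‖toC m‖) ^ 3)⁻¹ := hs2.tsum_le_tsum hb hs
      _ = K3 * S := by rw [tsum_mul_left, hK3]; unfold C3; ring
  have n1 : 0 ≤ K3 * (δ ^ A)⁻¹ := by positivity
  rcases le_or_gt ‖τ‖ δ with hc | hc
  · have hκτ : ‖κ * τ‖ ≤ 1 := by
      rw [norm_mul]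
      calc ‖κ‖ * ‖τ‖ ≤ ‖κ‖ * δ := by gcongr
        _ ≤ ‖κ‖ * ‖κ‖⁻¹ := by gcongr; exact min_le_right _ _
        _ = 1 := mul_inv_cancel₀ hκ.ne'
    have hh := hsmall hκτ
    have ht1 : ‖τ‖ ≤ 1 := hc.trans hδ1
    have htA : ‖τ‖ ^ A ≤ 1 := pow_le_one₀ hτp.le ht1
    have htA' : ‖τ‖ ^ A ≤ (‖τ‖ ^ A)⁻¹ := htA.trans ((one_le_inv₀ hpA).mpr htA)
    constructor
    · refine hh.trans ?_
      gcongr
      linarith
    · refine hh.trans ?_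
      gcongr
      linarith
  · have hh := hmid hc.le
    have hδτ : δ ^ A ≤ ‖τ‖ ^ A := by gcongr
    constructor
    · calc ‖Th ξ R τ‖ ≤ K3 * S := hh
        _ = K3 * (δ ^ A)⁻¹ * S * δ ^ A := by
            field_simp
        _ ≤ (K1 + K2 + K3 * (δ ^ A)⁻¹) * S * ‖τ‖ ^ A := by
            gcongr
            linarith
    · rcases le_or_gt 1 ‖τ‖ with h7 | h7
      · refine (hbig h7).trans ?_
        gcongr
        linarith
      · have h9 : 1 ≤ (‖τ‖ ^ A)⁻¹ := (one_le_inv₀ hpA).mpr (pow_le_one₀ hτp.le h7.le)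
        have h8 : K3 ≤ K3 * (δ ^ A)⁻¹ := by
          have : 1 ≤ (δ ^ A)⁻¹ := (one_le_inv₀ (by positivity)).mpr hδA
          nlinarith
        calc ‖Th ξ R τ‖ ≤ K3 * S * 1 := by rw [mul_one]; exact hh
          _ ≤ (K1 + K2 + K3 * (δ ^ A)⁻¹) * S * (‖τ‖ ^ A)⁻¹ := by
              gcongr
              linarith

end Crest.Agent.R017.Wt92
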