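import Crest.Agent.R017.PX1_764
import Crest.Agent.R012.LS2Pr_381

/-!
# Row 17, exceptional class, X6 part (A) (helper848): removal of coprimality conditions

`T F Q u φ c = ∑_{l ≠ 0, (l, Q) = 1} F (l u) φ (c N l)`; for `F = th (r ·)`:
`T (u m), (l, Q m n) = 1`  `= ∑_{a ∣ m} ∑_{b ∣ n} μ(a) μ(b) T_Q (u (m / a) b; c a² b)`.
-/

set_option autoImplicit false

noncomputable section

open scoped ComplexConjugate

namespace Crest.Agent.R017.X6A848

open Crest.Agent.R012 Crest.Agent.R012.Eis Crest.Agent.R012.LS2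

open Classical in
/-- `∑_{l ≠ 0, (l, Q) = 1} F (l u) φ (c N l)` -/
def T (F : Eis → ℂ) (φ : ℝ → ℂ) (Q u : Eis) (c : ℝ) : ℂ :=
  ∑' l : Eis, if l ≠ 0 ∧ IsCoprime l Q then F (l * u) * φ (c * nm l) else 0

/-- absolute convergence at every scale `c ≥ c₀` -/
def Sb (F : Eis → ℂ) (φ : ℝ → ℂ) (c₀ : ℝ) : Prop :=
  ∀ c : ℝ, c₀ ≤ c → ∀ u : Eis, Summable fun l : Eis => ‖F (l * u) * φ (c * nm l)‖

/-- what is used of `F` at the prime `p` -/
structure PL (F : Eis → ℂ) (p : Eis) : Prop where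
  two : ∀ x : Eis, ¬ p ∣ x → F (p ^ 2 * x) = 0
  three : ∀ x : Eis, F (p ^ 3 * x) = F x

/-- sums over the multiples of `p` -/
lemma tsum_mult {p : Eis} (hp : p ≠ 0) (f : Eis → ℂ) :
    open Classical in ∑' l : Eis, (if p ∣ l then f l else 0) = ∑' l : Eis, f (p * l) := by
  classical
  have hinj : Function.Injective fun l : Eis => p * l := fun a b h => mul_left_cancel₀ hp h
  have hsup : Function.support (fun l : Eis => if p ∣ l then f l else 0) ⊆
      Set.range fun l : Eis => p * l := by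
    intro l hl
    rw [Function.mem_support] at hl
    by_cases h : p ∣ l
    · obtain ⟨m, rfl⟩ := h
      exact ⟨m, rfl⟩
    · rw [if_neg h] at hl
      exact absurd rfl hl
  rw [← hinj.tsum_eq hsup]
  refine tsum_congr fun l => ?_
  simp only [dvd_mul_right, if_true]

open Classical in
/-- the summand -/
def tm (F : Eis → ℂ) (φ : ℝ → ℂ) (Q u : Eis) (c : ℝ) (l : Eis) : ℂ :=
  if l ≠ 0 ∧ IsCoprime l Q then F (l * u) * φ (c * nm l) else 0

lemma T_eq (F : Eis → ℂ) (φ : ℝ → ℂ) (Q u : Eis) (c : ℝ) : T F φ Q u c = ∑' l, tm F φ Q u c l := rfl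

lemma tm_mul {F : Eis → ℂ} {φ : ℝ → ℂ} {c : ℝ} {p Q u : Eis} (hp : Prime p) (hpQ : IsCoprime p Q)
    (l : Eis) : tm F φ Q u c (p * l) = tm F φ Q (u * p) (c * nm p) l := by
  classical
  have hp0 := hp.ne_zero
  unfold tm
  have e1 : (p * l ≠ 0 ∧ IsCoprime (p * l) Q) ↔ (l ≠ 0 ∧ IsCoprime l Q) := by
    constructor
    · rintro ⟨a, b⟩
      exact ⟨right_ne_zero_of_mul a, b.of_mul_left_right⟩
    · rintro ⟨a, b⟩
      exact ⟨mul_ne_zero hp0 a, hpQ.mul_left b⟩
  have e2 : l * (u * p) = p * l * u := by ring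
  have e3 : c * (nm p : ℝ) * nm l = c * (nm (p * l) : ℝ) := by rw [nm_mul]; push_cast; ring
  rw [e2, e3]
  by_cases h : l ≠ 0 ∧ IsCoprime l Q
  · rw [if_pos h, if_pos (e1.mpr h)]
  · rw [if_neg h, if_neg (fun h' => h (e1.mp h'))]

lemma summ_tm {F : Eis → ℂ} {φ : ℝ → ℂ} {c₀ : ℝ} (h : Sb F φ c₀) {c : ℝ} (hc : c₀ ≤ c) (Q u : Eis) :
    Summable fun l : Eis => tm F φ Q u c l := by
  classical
  refine Summable.of_norm_bounded (h c hc u) fun l => ?_
  unfold tm
  split_ifs
  · exact le_rfl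
  · rw [norm_zero]; positivity

lemma cop_iff {p : Eis} (hp : Prime p) (x : Eis) : IsCoprime x p ↔ ¬ p ∣ x := by
  rw [isCoprime_comm]; exact hp.irreducible.coprime_iff_not_dvd

lemma cop_mul_iff {p Q : Eis} (hp : Prime p) (l : Eis) :
    IsCoprime l (Q * p) ↔ IsCoprime l Q ∧ ¬ p ∣ l := by
  rw [IsCoprime.mul_right_iff, cop_iff hp]

/-- a prime not dividing the frequency -/
theorem T_one {F : Eis → ℂ} {φ : ℝ → ℂ} {c₀ : ℝ} (h : Sb F φ c₀) {c : ℝ} (hc : c₀ ≤ c) {p Q u : Eis}
    (hp : Prime p) (hpQ : IsCoprime p Q) :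
    T F φ (Q * p) u c = T F φ Q u c - T F φ Q (u * p) (c * nm p) := by
  classical
  have hp0 := hp.ne_zero
  have s1 := summ_tm h hc Q u
  have s2 : Summable fun l : Eis => if p ∣ l then tm F φ Q u c l else 0 := by
    refine Summable.of_norm_bounded s1.norm fun l => ?_
    split_ifs <;> simp
  have h1 : T F φ Q (u * p) (c * nm p) = ∑' l : Eis, if p ∣ l then tm F φ Q u c l else 0 := by
    rw [tsum_mult hp0, T_eq]
    exact tsum_congr fun l => (tm_mul hp hpQ l).symm
  rw [h1, T_eq, T_eq, ← s1.tsum_sub s2]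
  refine tsum_congr fun l => ?_
  have e4 := cop_mul_iff (Q := Q) hp l
  unfold tm
  by_cases h2 : l ≠ 0 ∧ IsCoprime l Q
  · by_cases h3 : p ∣ l
    · rw [if_neg (fun h => (e4.mp h.2).2 h3), if_pos h2, if_pos h3, sub_self]
    · rw [if_pos ⟨h2.1, e4.mpr ⟨h2.2, h3⟩⟩, if_pos h2, if_neg h3, sub_zero]
  · rw [if_neg (fun h => h2 ⟨h.1, (e4.mp h.2).1⟩), if_neg h2]
    split_ifs <;> simp

/-- a prime dividing the frequency once -/
theorem T_two {F : Eis → ℂ} {φ : ℝ → ℂ} {c₀ : ℝ} (h : Sb F φ c₀) {c : ℝ} (hc : c₀ ≤ c) {p Q u : Eis}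
    (hp : Prime p) (hpQ : IsCoprime p Q) (hF : PL F p) (hu : ¬ p ∣ u) :
    T F φ (Q * p) (u * p) c = T F φ Q (u * p) c - T F φ Q u (c * nm p ^ 2) := by
  classical
  have hp0 := hp.ne_zero
  rw [T_one h hc hp hpQ]
  congr 1
  rw [T_eq, T_eq]
  have h1 : ∑' l : Eis, tm F φ Q (u * p * p) (c * nm p) l =
      ∑' l : Eis, if p ∣ l then tm F φ Q (u * p * p) (c * nm p) l else 0 := by
    refine tsum_congr fun l => ?_
    by_cases h3 : p ∣ l
    · rw [if_pos h3]
    · rw [if_neg h3]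
      have e1 : l * (u * p * p) = p ^ 2 * (l * u) := by ring
      have e2 : ¬ p ∣ l * u := fun h => (hp.dvd_or_dvd h).elim h3 hu
      unfold tm
      rw [e1, hF.two _ e2, zero_mul, ite_self]
  rw [h1, tsum_mult hp0]
  refine tsum_congr fun l => ?_
  rw [tm_mul hp hpQ]
  unfold tm
  have e2 : l * (u * p * p * p) = p ^ 3 * (l * u) := by ring
  have e3 : c * (nm p : ℝ) * (nm p : ℝ) * nm l = c * (nm p : ℝ) ^ 2 * nm l := by ring
  rw [e2, hF.three, e3]

/-! ### sets of primes -/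

open Classical in
/-- the primes of `n` (not dividing the frequency) -/
theorem T_setN {F : Eis → ℂ} {φ : ℝ → ℂ} {c₀ : ℝ} (h : Sb F φ c₀) (hc₀ : 0 ≤ c₀) {Q : Eis}
    (PN : Finset Eis) (hPN : IsPS PN) (hQ : IsCoprime (pr PN) Q) : ∀ (u : Eis) (c : ℝ), c₀ ≤ c →
    T F φ (Q * pr PN) u c = ∑ B ∈ PN.powerset, (-1 : ℂ) ^ B.card *
      T F φ Q (u * pr B) (c * nm (pr B)) := by
  induction PN using Finset.induction_on with
  | empty => intro u c _; simp [nm_one]
  | insert p s hps ih =>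
    intro u c hc
    have hp := hPN p (Finset.mem_insert_self p s)
    have hs : IsPS s := hPN.mono (Finset.subset_insert p s)
    have e0 : pr (insert p s) = p * pr s := by unfold pr; rw [Finset.prod_insert hps]
    rw [e0] at hQ
    have hps' : IsCoprime p (pr s) := by
      rw [hp.2.coprime_iff_not_dvd]
      exact fun hd => hps ((hs.dvd_iff hp).1 hd)
    have hq1 : (1 : ℝ) ≤ nm p := by exact_mod_cast nm_pos.2 hp.2.ne_zero
    have hc' : c₀ ≤ c * nm p := by nlinarith
    have ih' := ih hs hQ.of_mul_left_right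
    have e1 : Q * pr (insert p s) = Q * pr s * p := by rw [e0]; ring
    rw [e1, T_one h hc hp.2 (IsCoprime.mul_right hQ.of_mul_left_left hps'), ih' u c hc,
      ih' (u * p) (c * nm p) hc', Finset.sum_powerset_insert hps, sub_eq_add_neg, ← Finset.sum_neg_distrib]
    congr 1
    refine Finset.sum_congr rfl fun B hB => ?_
    have hpB : p ∉ B := fun hh => hps (Finset.mem_powerset.1 hB hh)
    have e2 : pr (insert p B) = p * pr B := by unfold pr; rw [Finset.prod_insert hpB]
    rw [e2, Finset.card_insert_of_notMem hpB, pow_succ, nm_mul]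
    have e3 : u * (p * pr B) = u * p * pr B := by ring
    have e4 : c * ((nm p * nm (pr B) : ℕ) : ℝ) = c * nm p * nm (pr B) := by push_cast; ring
    rw [e3, e4]
    ring

open Classical in
/-- the primes of `m` (dividing the frequency once) -/
theorem T_setM {F : Eis → ℂ} {φ : ℝ → ℂ} {c₀ : ℝ} (h : Sb F φ c₀) (hc₀ : 0 ≤ c₀) {Q : Eis}
    (PM : Finset Eis) (hPM : IsPS PM) (hF : ∀ p ∈ PM, PL F p) (hQ : IsCoprime (pr PM) Q) :
    ∀ (u : Eis) (c : ℝ), c₀ ≤ c → IsCoprime (pr PM) u →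
    T F φ (Q * pr PM) (u * pr PM) c = ∑ A ∈ PM.powerset, (-1 : ℂ) ^ A.card *
      T F φ Q (u * pr (PM \ A)) (c * nm (pr A) ^ 2) := by
  induction PM using Finset.induction_on with
  | empty => intro u c _ _; simp [nm_one]
  | insert p s hps ih =>
    intro u c hc hu
    have hp := hPM p (Finset.mem_insert_self p s)
    have hs : IsPS s := hPM.mono (Finset.subset_insert p s)
    have e0 : pr (insert p s) = p * pr s := by unfold pr; rw [Finset.prod_insert hps]
    rw [e0] at hQ hu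
    have hps' : IsCoprime p (pr s) := by
      rw [hp.2.coprime_iff_not_dvd]
      exact fun hd => hps ((hs.dvd_iff hp).1 hd)
    have hq1 : (1 : ℝ) ≤ nm p := by exact_mod_cast nm_pos.2 hp.2.ne_zero
    have hc' : c₀ ≤ c * (nm p : ℝ) ^ 2 := by
      have : (1 : ℝ) ≤ (nm p : ℝ) ^ 2 := one_le_pow₀ hq1
      nlinarith
    have ih' := ih hs (fun q hq => hF q (Finset.mem_insert_of_mem hq)) hQ.of_mul_left_right
    have hpu : ¬ p ∣ u * pr s := by
      intro hd
      rcases hp.2.dvd_or_dvd hd with h1 | h1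
      · exact hp.2.not_isUnit (hu.of_mul_left_left.isUnit_of_dvd' dvd_rfl h1)
      · exact hps ((hs.dvd_iff hp).1 h1)
    have e1 : Q * pr (insert p s) = Q * pr s * p := by rw [e0]; ring
    have e5 : u * pr (insert p s) = u * pr s * p := by rw [e0]; ring
    have e6 : u * pr s * p = (u * p) * pr s := by ring
    have hup : IsCoprime (pr s) (u * p) := IsCoprime.mul_right hu.of_mul_left_right hps'.symm
    rw [e1, e5, T_two h hc hp.2 (IsCoprime.mul_right hQ.of_mul_left_left hps')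
      (hF p (Finset.mem_insert_self p s)) hpu, e6, ih' (u * p) c hc hup,
      ih' u (c * (nm p : ℝ) ^ 2) hc' hu.of_mul_left_right, Finset.sum_powerset_insert hps,
      sub_eq_add_neg, ← Finset.sum_neg_distrib]
    congr 1
    · refine Finset.sum_congr rfl fun A hA => ?_
      have hpA : p ∉ A := fun hh => hps (Finset.mem_powerset.1 hA hh)
      have e2 : insert p s \ A = insert p (s \ A) := Finset.insert_sdiff_of_notMem s hpA
      have hps2 : p ∉ s \ A := fun hh => hps (Finset.mem_sdiff.1 hh).1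
      have e3 : pr (insert p (s \ A)) = p * pr (s \ A) := by
        unfold pr; rw [Finset.prod_insert hps2]
      rw [e2, e3, show u * (p * pr (s \ A)) = u * p * pr (s \ A) by ring]
    · refine Finset.sum_congr rfl fun A hA => ?_
      have hpA : p ∉ A := fun hh => hps (Finset.mem_powerset.1 hA hh)
      have e2 : insert p s \ insert p A = s \ A := by
        ext q
        simp only [Finset.mem_sdiff, Finset.mem_insert, not_or]
        constructor
        · rintro ⟨h1 | h1, h2, h3⟩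
          · exact absurd h1 h2
          · exact ⟨h1, h3⟩
        · rintro ⟨h1, h2⟩
          exact ⟨Or.inr h1, fun h3 => hps (h3 ▸ h1), h2⟩
      have e3 : pr (insert p A) = p * pr A := by unfold pr; rw [Finset.prod_insert hpA]
      rw [e2, e3, Finset.card_insert_of_notMem hpA, pow_succ, nm_mul]
      have e4 : c * ((nm p * nm (pr A) : ℕ) : ℝ) ^ 2 = c * (nm p : ℝ) ^ 2 * (nm (pr A) : ℝ) ^ 2 := by
        push_cast; ring
      rw [e4]
      ring

/-! ### the theta coefficients -/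

open Crest.Agent.R017.PX764

/-- `th (r ·)` at a primary prime `p ∤ r` -/
lemma PL_th {r p : Eis} (hp : IsPrim p ∧ Prime p) (hr : ¬ p ∣ r) :
    PL (fun x => th (r * x)) p := by
  constructor
  · intro x hx
    have h1 : r * (p ^ 2 * x) = r * x * p ^ 2 := by ring
    have h2 : ¬ p ∣ r * x := fun h => (hp.2.dvd_or_dvd h).elim hr hx
    beta_reduce
    rw [h1, th_two hp.2 hp.1 h2]
  · intro x
    have h1 : r * (p ^ 3 * x) = r * x * p ^ 3 := by ring
    beta_reduce
    rw [h1, th_cube hp.1]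

open Classical in
/-- **removal of all coprimality conditions** -/
theorem T_mn {φ : ℝ → ℂ} {r : Eis} (h : Sb (fun x => th (r * x)) φ 1) {PM PN : Finset Eis}
    (hPM : IsPS PM) (hPN : IsPS PN) (hd : Disjoint PM PN) (hr : IsCoprime (pr PM) r) :
    T (fun x => th (r * x)) φ (pr PM * pr PN) (pr PM) 1 =
      ∑ A ∈ PM.powerset, ∑ B ∈ PN.powerset, (-1 : ℂ) ^ A.card * (-1 : ℂ) ^ B.card *
        T (fun x => th (r * x)) φ 1 (pr (PM \ A) * pr B) (nm (pr A) ^ 2 * nm (pr B)) := by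
  have hF : ∀ p ∈ PM, PL (fun x => th (r * x)) p := by
    intro p hp
    refine PL_th (hPM p hp) fun hd' => ?_
    have h1 : p ∣ pr PM := (hPM.dvd_iff (hPM p hp)).2 hp
    exact (hPM p hp).2.not_isUnit (hr.isUnit_of_dvd' h1 hd')
  have hMN : IsCoprime (pr PM) (pr PN) := hPM.coprime hPN hd
  have e1 : pr PM * pr PN = pr PN * pr PM := mul_comm _ _
  have h1 := T_setM h zero_le_one (Q := pr PN) PM hPM hF hMN 1 1 le_rfl isCoprime_one_right
  rw [one_mul] at h1
  rw [e1, h1]
  refine Finset.sum_congr rfl fun A hA => ?_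
  have hA1 : (1 : ℝ) ≤ 1 * (nm (pr A) : ℝ) ^ 2 := by
    have : (1 : ℝ) ≤ nm (pr A) := by
      exact_mod_cast nm_pos.2 (hPM.mono (Finset.mem_powerset.1 hA)).ne_zero
    rw [one_mul]
    exact one_le_pow₀ this
  have h2 := T_setN h zero_le_one (Q := 1) PN hPN isCoprime_one_right (1 * pr (PM \ A))
    (1 * (nm (pr A) : ℝ) ^ 2) hA1
  rw [one_mul] at h2
  rw [h2, Finset.mul_sum]
  refine Finset.sum_congr rfl fun B _ => ?_
  rw [one_mul, one_mul]
  ring

end Crest.Agent.R017.X6A848
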