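import Crest.Agent.R017.X6Defs_545
import Crest.Agent.R017.X6D_502

/-!
# Row 17, exceptional class, X6 (E): the pieces of the assembly (helper545)

* `AB w X d P F` : `∑ m₁ m₂ ∈ S X coprime, w w̄ (N m₁ N m₂)^(-1/2) n6 m₁ N(m₂)^(1/6) ∑_{b ∣ m₁} ∑_{a ∣ m₂,
  P a b} μ(a) μ(b) F m₁ m₂ a b`
* `Tab Z` : `∑_{l ≠ 0} th (3 l (m₂ / a) b) exp (-N(a)² N(b) N(l) / A)`, `A = 3 N m₁ N m₂ / (4 π² Z)`
* `PolarP` (848), `DirP` (502), `DualP` (545), `X6_of`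
-/

set_option autoImplicit false

noncomputable section

open scoped ComplexConjugate

namespace Crest.Agent.R017.X6545

open Crest.Agent.R012 Crest.Agent.R012.Eis Crest.Agent.R012.Gauss880
open Crest.Agent.R012.LS2 Crest.Agent.R012.Div277
open Crest.Agent.R017.PA842 (Supp)
open Crest.Agent.R017.PX764 (th n6 Gh Cross cD)
open Crest.Agent.R017.P3all283 (c0)

/-- the length in (P_ex) -/
def Amm (Z : ℝ) (m₁ m₂ : Eis) : ℝ := 3 * ((nm m₁ : ℝ) * nm m₂) / (4 * Real.pi ^ 2 * Z)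

/-- the sum attached to `(a, b)` -/
def Tab (Z : ℝ) (m₁ m₂ a b : Eis) : ℂ :=
  X6A848.T (fun x => th (3 * x)) (fun x => ((Real.exp (-x / Amm Z m₁ m₂) : ℝ) : ℂ)) 1 ((m₂ / a) * b)
    ((nm a : ℝ) ^ 2 * nm b)

open Classical in
/-- the bilinear sum -/
def AB (w : Eis → ℂ) (X : ℝ) (d : Eis) (P : Eis → Eis → Prop) (F : Eis → Eis → Eis → Eis → ℂ) : ℂ :=
  ∑ m₁ ∈ S X, ∑ m₂ ∈ S X, if IsCoprime m₁ m₂ then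
    ws w X (d * m₁) * conj (ws w X (d * m₂)) *
      (((nm m₁ : ℝ) ^ (-(1 : ℝ) / 2) * (nm m₂ : ℝ) ^ (-(1 : ℝ) / 2) : ℝ) : ℂ) *
      ((n6 m₁ * (nm m₂ : ℝ) ^ ((1 : ℝ) / 6) : ℝ) : ℂ) *
      ∑ b ∈ dvs m₁, ∑ a ∈ (dvs m₂).filter (fun a => P a b), (muE a : ℂ) * (muE b : ℂ) * F m₁ m₂ a b
    else 0

/-- the cut -/
def kap (X Z : ℝ) (d : Eis) : ℝ := X / nm d * Z ^ (-(1 : ℝ) / 2)

/-- the main term of `Tab` -/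
def Mab (Z : ℝ) (m₁ m₂ a b : Eis) : ℝ :=
  pC * ((3 : ℝ) ^ ((4 : ℝ) / 3) * c0) * (nm ((m₂ / a) * b) : ℝ) ^ (-(1 : ℝ) / 3) *
    (Amm Z m₁ m₂ / ((nm a : ℝ) ^ 2 * nm b)) ^ ((2 : ℝ) / 3)

/-- **the polar cancellation** (848): from `T_mn`, `P3all_three` and any dual expression `Du` -/
def PolarP : Prop := ∀ ε : ℝ, 0 < ε → ∃ C : ℝ, 0 ≤ C ∧ ∀ X Z W E : ℝ, 1 ≤ X → 1 ≤ Z → 0 ≤ W → 0 ≤ E →
  ∀ w : Eis → ℂ, Supp w X → (∀ n, ‖w n‖ ≤ W) → ∀ d ∈ S X, ∀ Du : Eis → Eis → Eis → Eis → ℂ,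
    (∀ m₁ ∈ S X, ∀ m₂ ∈ S X, IsCoprime m₁ m₂ → (nm m₁ : ℝ) ≤ X / nm d → (nm m₂ : ℝ) ≤ X / nm d →
      ∀ b ∈ dvs m₁, ∀ a ∈ dvs m₂, (nm a : ℝ) * nm b ≤ kap X Z d →
      ‖Tab Z m₁ m₂ a b - (Mab Z m₁ m₂ a b : ℂ) - Du m₁ m₂ a b‖ ≤
        E * (nm ((m₂ / a) * b) : ℝ) ^ (-(1 : ℝ) / 3)) →
    Z * ‖Cross X Z w d - AB w X d (fun a b => kap X Z d < (nm a : ℝ) * nm b) (Tab Z) -
        AB w X d (fun a b => (nm a : ℝ) * nm b ≤ kap X Z d) Du‖ ≤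
      C * (1 + E) * (X * Z) ^ ε * (W ^ 2 * (X / nm d) * (Z + X / nm d))

/-- **the direct part** (502) -/
def DirP : Prop := ∀ ε : ℝ, 0 < ε → ∃ C : ℝ, 0 ≤ C ∧ ∀ X Z W : ℝ, 1 ≤ X → 1 ≤ Z → 0 ≤ W →
  ∀ w : Eis → ℂ, Supp w X → (∀ n, ‖w n‖ ≤ W) → ∀ d ∈ S X,
    Z * ‖AB w X d (fun a b => kap X Z d < (nm a : ℝ) * nm b) (Tab Z)‖ ≤
      C * (X * Z) ^ ε * (W ^ 2 * (X / nm d) * (Z + X / nm d))

end Crest.Agent.R017.X6545
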