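import Crest.Agent.R017.X6B_848
import Crest.Agent.R017.F1Pol3_180
import Crest.Agent.R017.FE8_47

/-!
# Row 17, exceptional class, X6 part (B), 2 (helper848): the exponential weight as a sum of blocks

`PU h c` (partition of unity), `hL h x = h (log x)`, `Fz h z x = e^{-z x} h (log x)`, `z_n = e^{c n}`:
`e^{-x} = ∑_{n ∈ ℤ} Fz h z_n (x / z_n)`, `∑_n z_n^s mellin (Fz h z_n) s = Γ(s)`.
-/

set_option autoImplicit false

noncomputable section

open MeasureTheory Complex Set Filter Topology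
open scoped SchwartzMap FourierTransform ContDiff

namespace Crest.Agent.R017.X6B848

open Crest.Agent.R012 Crest.Agent.R012.Eis Crest.Agent.R012.Po581
open Crest.Agent.R017.Xi590 Crest.Agent.R017.Xn590 Crest.Agent.R017.F1
open Crest.Agent.R017.FE47 (PU)

variable {h : ℝ → ℝ} {c : ℝ}

lemma pu_rad (hpu : PU h c) : ∃ R : ℝ, 0 < R ∧ ∀ u, h u ≠ 0 → |u| ≤ R := by
  obtain ⟨R, hR⟩ := hpu.cs.isCompact.isBounded.exists_norm_le
  exact ⟨max R 1, lt_of_lt_of_le one_pos (le_max_right _ _),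
    fun u hu => (hR u (subset_tsupport _ hu)).trans (le_max_left _ _)⟩

lemma pu_bdd (hpu : PU h c) : ∃ H : ℝ, 0 ≤ H ∧ ∀ u, |h u| ≤ H := by
  obtain ⟨H, hH⟩ := hpu.cd.continuous.bounded_above_of_compact_support hpu.cs
  exact ⟨H, (norm_nonneg _).trans (hH 0), hH⟩

/-- the indices of the pieces which meet `v` -/
def ix (c R v : ℝ) : Finset ℤ := Finset.Icc ⌈(v - R) / c⌉ ⌊(v + R) / c⌋

lemma ix_zero (hpu : PU h c) {R : ℝ} (hR : ∀ u, h u ≠ 0 → |u| ≤ R) {v : ℝ} {n : ℤ}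
    (hn : n ∉ ix c R v) : h (v - c * n) = 0 := by
  by_contra h1
  apply hn
  have h2 := hR _ h1
  rw [abs_le] at h2
  have hc := hpu.cpos
  rw [ix, Finset.mem_Icc]
  constructor
  · rw [Int.ceil_le, div_le_iff₀ hc]
    linarith
  · rw [Int.le_floor, le_div_iff₀ hc]
    linarith

lemma ix_card (hc : 0 < c) {R : ℝ} (hR : 0 < R) (v : ℝ) : ((ix c R v).card : ℝ) ≤ 2 * R / c + 1 := by
  rw [ix, Int.card_Icc]
  have h1 : (⌊(v + R) / c⌋ : ℝ) ≤ (v + R) / c := Int.floor_le _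
  have h2 : (v - R) / c ≤ (⌈(v - R) / c⌉ : ℝ) := Int.le_ceil _
  have h3 : (v + R) / c - (v - R) / c = 2 * R / c := by ring
  have h4 : 0 < 2 * R / c := by positivity
  rcases le_or_gt 0 (⌊(v + R) / c⌋ + 1 - ⌈(v - R) / c⌉) with h5 | h5
  · have h6 : (((⌊(v + R) / c⌋ + 1 - ⌈(v - R) / c⌉).toNat : ℤ) : ℝ) =
        ((⌊(v + R) / c⌋ + 1 - ⌈(v - R) / c⌉ : ℤ) : ℝ) := by
      rw [Int.toNat_of_nonneg h5]
    rw [Int.cast_natCast] at h6
    rw [h6]
    push_cast
    linarith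
  · rw [Int.toNat_of_nonpos h5.le]
    simp only [Nat.cast_zero]
    linarith

/-- `∑_n |h(v - c n)|` is bounded -/
lemma pu_abs (hpu : PU h c) : ∃ M : ℝ, 0 ≤ M ∧ ∀ v : ℝ,
    (Summable fun n : ℤ => |h (v - c * n)|) ∧ ∑' n : ℤ, |h (v - c * n)| ≤ M := by
  obtain ⟨R, hR0, hR⟩ := pu_rad hpu
  obtain ⟨H, hH0, hH⟩ := pu_bdd hpu
  have hc := hpu.cpos
  refine ⟨(2 * R / c + 1) * H, by positivity, fun v => ?_⟩
  have hz : ∀ n : ℤ, n ∉ ix c R v → |h (v - c * n)| = 0 := fun n hn => by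
    rw [ix_zero hpu hR hn, abs_zero]
  refine ⟨summable_of_ne_finset_zero hz, ?_⟩
  rw [tsum_eq_sum hz]
  calc ∑ n ∈ ix c R v, |h (v - c * n)| ≤ ∑ n ∈ ix c R v, H := Finset.sum_le_sum fun n _ => hH _
    _ = (ix c R v).card * H := by rw [Finset.sum_const, nsmul_eq_mul]
    _ ≤ _ := by
        gcongr
        exact ix_card hc hR0 v

/-- the partition of unity over `ℤ` -/
theorem pu_int (hpu : PU h c) (v : ℝ) : HasSum (fun n : ℤ => h (v - c * n)) 1 := by
  obtain ⟨R, hR0, hR⟩ := pu_rad hpu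
  have hc := hpu.cpos
  obtain ⟨N, hN⟩ := exists_nat_gt ((R - v) / c)
  rw [div_lt_iff₀ hc] at hN
  have e1 : (fun n : ℤ => h (v - c * n)) = (fun m : ℤ => h ((v + c * N) - c * m)) ∘
      (Equiv.addRight (N : ℤ)) := by
    funext n
    simp only [Function.comp_apply, Equiv.coe_addRight]
    congr 1
    push_cast
    ring
  rw [e1, Equiv.hasSum_iff]
  have hinj : Function.Injective (fun n : ℕ => (n : ℤ)) := Nat.cast_injective
  rw [← hinj.hasSum_iff]
  · have h1 : (fun m : ℤ => h ((v + c * N) - c * m)) ∘ (fun n : ℕ => (n : ℤ)) =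
        fun n : ℕ => h ((v + c * N) - c * n) := by
      funext n
      simp only [Function.comp_apply, Int.cast_natCast]
    rw [h1]
    have hv : 0 ≤ v + c * N := by linarith
    have hs : Summable fun n : ℕ => h ((v + c * N) - c * n) := by
      have h0 : Summable (fun m : ℤ => h ((v + c * N) - c * m)) :=
        summable_of_ne_finset_zero (s := ix c R (v + c * N)) (fun n hn => ix_zero hpu hR hn)
      have h2 := h0.comp_injective hinj
      rw [h1] at h2
      exact h2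
    have := hs.hasSum
    rwa [hpu.one _ hv] at this
  · intro m hm
    have hm' : m < 0 := by
      by_contra h1
      push Not at h1
      exact hm ⟨m.toNat, Int.toNat_of_nonneg h1⟩
    by_contra h2
    have h3 := hR _ h2
    have h4 : (m : ℝ) < 0 := by exact_mod_cast hm'
    have h5 : (v + c * N) - c * m ≤ R := (le_abs_self _).trans h3
    nlinarith

/-! ### the weights -/

/-- `h (log x)` for `x > 0` -/
def hL (h : ℝ → ℝ) (x : ℝ) : ℂ := if 0 < x then ((h (Real.log x) : ℝ) : ℂ) else 0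

/-- `e^{-z x} h (log x)` -/
def Fz (h : ℝ → ℝ) (z x : ℝ) : ℂ := ((Real.exp (-z * x) : ℝ) : ℂ) * hL h x

lemma hL_pos {x : ℝ} (hx : 0 < x) : hL h x = ((h (Real.log x) : ℝ) : ℂ) := by
  unfold hL; rw [if_pos hx]

lemma wt_hL (hpu : PU h c) : M49.Wt (hL h) := by
  obtain ⟨R, hR0, hR⟩ := pu_rad hpu
  have hs : ∀ x, x < Real.exp (-R) ∨ Real.exp R < x → hL h x = 0 := by
    intro x hx
    by_cases hx0 : 0 < x
    · rw [hL_pos hx0]
      by_contra h1
      have h2 : h (Real.log x) ≠ 0 := by exact_mod_cast h1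
      have h3 := abs_le.mp (hR _ h2)
      rcases hx with hx | hx
      · have := (Real.log_lt_iff_lt_exp hx0).mpr hx
        linarith
      · have := (Real.lt_log_iff_exp_lt hx0).mpr hx
        linarith
    · unfold hL; rw [if_neg hx0]
  refine ⟨?_, Real.exp (-R), Real.exp R, Real.exp_pos _, Real.exp_lt_exp.mpr (by linarith), hs⟩
  rw [contDiff_iff_contDiffAt]
  intro x
  rcases lt_or_ge x (Real.exp (-R)) with hx | hx
  · have h0 : hL h =ᶠ[𝓝 x] fun _ => 0 := by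
      filter_upwards [gt_mem_nhds hx] with y hy
      exact hs y (Or.inl hy)
    exact (contDiffAt_const (c := (0 : ℂ))).congr_of_eventuallyEq h0
  · have hx0 : 0 < x := (Real.exp_pos _).trans_le hx
    have h0 : hL h =ᶠ[𝓝 x] fun y => ((h (Real.log y) : ℝ) : ℂ) := by
      filter_upwards [lt_mem_nhds hx0] with y hy
      exact hL_pos hy
    refine ContDiffAt.congr_of_eventuallyEq ?_ h0
    have h1 : ContDiffAt ℝ ∞ (fun y => h (Real.log y)) x :=
      hpu.cd.contDiffAt.comp x (Real.contDiffAt_log.mpr hx0.ne')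
    exact Complex.ofRealCLM.contDiff.contDiffAt.comp x h1

lemma wt_exp {V : ℝ → ℂ} (hV : M49.Wt V) (z : ℝ) :
    M49.Wt (fun x => ((Real.exp (-z * x) : ℝ) : ℂ) * V x) where
  smooth := (Complex.ofRealCLM.contDiff.comp
    (Real.contDiff_exp.comp (contDiff_const.mul contDiff_id))).mul hV.smooth
  supp := by
    obtain ⟨a, b, ha, hab, hs⟩ := hV.supp
    exact ⟨a, b, ha, hab, fun x hx => by rw [hs x hx, mul_zero]⟩

lemma wt_Fz (hpu : PU h c) (z : ℝ) : M49.Wt (Fz h z) := wt_exp (wt_hL hpu) z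

/-- `|x|^s V(|x|²)` -/
def fw (s : ℝ) (V : ℝ → ℂ) (x : ℂ) : ℂ := ((‖x‖ ^ s : ℝ) : ℂ) * V (‖x‖ ^ 2)

lemma ev_fw (s : ℝ) {V : ℝ → ℂ} (hV : M49.Wt V) : Ev (fw s V) := by
  have h1 := ev_rV hV
  obtain ⟨a, b, ha, hab, hs⟩ := h1.supp
  have hs' : ∀ x, ‖x‖ < a ∨ b < ‖x‖ → fw s V x = 0 := by
    intro x hx
    have := hs x hx
    unfold rV at this
    unfold fw
    rw [this, mul_zero]
  refine ⟨?_, ⟨a, b, ha, hab, hs'⟩, fun x => by unfold fw; rw [norm_neg]⟩
  refine (CS.of (fun x hx => ?_) ha hab hs').smooth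
  have h2 : ContDiffAt ℝ ∞ (fun x : ℂ => ‖x‖ ^ s) x :=
    (contDiffAt_norm ℝ hx).rpow_const_of_ne (norm_pos_iff.mpr hx).ne'
  exact (Complex.ofRealCLM.contDiff.contDiffAt.comp x h2).mul h1.smooth.contDiffAt

lemma fw_exp (s : ℝ) (V : ℝ → ℂ) (z : ℝ) :
    fw s (fun x => ((Real.exp (-z * x) : ℝ) : ℂ) * V x) = ez (fw s V) z := by
  funext x
  unfold fw ez
  ring

lemma fw_Fz (s : ℝ) (h : ℝ → ℝ) (z : ℝ) : fw s (Fz h z) = ez (fw s (hL h)) z := fw_exp s (hL h) z

/-! ### the exponential weight -/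

lemma Fz_div {n : ℤ} {x : ℝ} (hx : 0 < x) :
    Fz h (Real.exp (c * n)) (x / Real.exp (c * n)) =
      ((h (Real.log x - c * n) : ℝ) : ℂ) * ((Real.exp (-x) : ℝ) : ℂ) := by
  have hz : 0 < Real.exp (c * n) := Real.exp_pos _
  unfold Fz
  rw [hL_pos (by positivity), Real.log_div hx.ne' hz.ne', Real.log_exp, mul_comm]
  congr 3
  field_simp

/-- `e^{-x} = ∑_n F_{z_n}(x/z_n)` -/
theorem hasSum_exp (hpu : PU h c) {x : ℝ} (hx : 0 < x) :
    HasSum (fun n : ℤ => Fz h (Real.exp (c * n)) (x / Real.exp (c * n)))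
      ((Real.exp (-x) : ℝ) : ℂ) := by
  have h1 := Complex.hasSum_ofReal.mpr (pu_int hpu (Real.log x))
  have h2 := h1.mul_right ((Real.exp (-x) : ℝ) : ℂ)
  rw [Complex.ofReal_one, one_mul] at h2
  have h3 : (fun n : ℤ => Fz h (Real.exp (c * n)) (x / Real.exp (c * n))) =
      fun n : ℤ => ((h (Real.log x - c * n) : ℝ) : ℂ) * ((Real.exp (-x) : ℝ) : ℂ) := by
    funext n
    exact Fz_div hx
  rw [h3]
  exact h2

/-- summation over the blocks, any index set -/
theorem sum_blocks (hpu : PU h c) {ι : Type*} {g : ι → ℂ} {x : ι → ℝ} (hx : ∀ i, g i ≠ 0 → 0 < x i)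
    (hs : Summable fun i => ‖g i‖ * Real.exp (-x i)) :
    (∀ n : ℤ, Summable fun i => ‖g i * Fz h (Real.exp (c * n)) (x i / Real.exp (c * n))‖) ∧
    (Summable fun n : ℤ => ∑' i, ‖g i * Fz h (Real.exp (c * n)) (x i / Real.exp (c * n))‖) ∧
    HasSum (fun n : ℤ => ∑' i, g i * Fz h (Real.exp (c * n)) (x i / Real.exp (c * n)))
      (∑' i, g i * ((Real.exp (-x i) : ℝ) : ℂ)) := by
  obtain ⟨M, hM0, hM⟩ := pu_abs hpu
  set F : ι × ℤ → ℂ := fun p => g p.1 * Fz h (Real.exp (c * p.2)) (x p.1 / Real.exp (c * p.2)) with hF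
  have hFn : ∀ i (n : ℤ), ‖F (i, n)‖ =
      ‖g i‖ * Real.exp (-x i) * (if g i = 0 then 0 else |h (Real.log (x i) - c * n)|) := by
    intro i n
    simp only [hF]
    by_cases h0 : g i = 0
    · rw [h0]; simp
    · rw [if_neg h0, Fz_div (hx i h0), norm_mul, norm_mul, Complex.norm_real, Complex.norm_real,
        Real.norm_eq_abs, Real.norm_of_nonneg (Real.exp_pos _).le]
      ring
  have hfib : ∀ i, (Summable fun n : ℤ => ‖F (i, n)‖) ∧
      ∑' n : ℤ, ‖F (i, n)‖ ≤ ‖g i‖ * Real.exp (-x i) * M := by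
    intro i
    simp_rw [hFn]
    by_cases h0 : g i = 0
    · simp [h0]
    · simp only [if_neg h0]
      refine ⟨(hM _).1.mul_left _, ?_⟩
      rw [tsum_mul_left]
      exact mul_le_mul_of_nonneg_left (hM _).2 (by positivity)
  have hsum : Summable fun p : ι × ℤ => ‖F p‖ := by
    rw [summable_prod_of_nonneg (fun p => norm_nonneg _)]
    refine ⟨fun i => (hfib i).1, ?_⟩
    exact Summable.of_nonneg_of_le (fun i => tsum_nonneg fun n => norm_nonneg _)
      (fun i => (hfib i).2) (hs.mul_right M)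
  have hswap : Summable fun p : ℤ × ι => ‖F p.swap‖ := hsum.prod_symm
  have h1 : ∀ n : ℤ, Summable fun i => ‖F (i, n)‖ := fun n => hswap.prod_factor n
  refine ⟨h1, hswap.prod, ?_⟩
  have h2 : HasSum (fun p : ι × ℤ => F p) (∑' p, F p) := hsum.of_norm.hasSum
  have h3 : ∑' i, g i * ((Real.exp (-x i) : ℝ) : ℂ) = ∑' p, F p := by
    have h4 := h2.prod_fiberwise (g := fun i => g i * ((Real.exp (-x i) : ℝ) : ℂ)) (fun i => ?_)
    · exact h4.tsum_eq
    · by_cases h0 : g i = 0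
      · simp only [hF, h0, zero_mul]
        exact hasSum_zero
      · exact (hasSum_exp hpu (hx i h0)).mul_left (g i)
  rw [h3]
  have h5 : HasSum (fun p : ℤ × ι => F p.swap) (∑' p, F p) := by
    have := (Equiv.prodComm ℤ ι).hasSum_iff (f := F) (a := ∑' p, F p)
    exact this.mpr h2
  exact h5.prod_fiberwise fun n => (h1 n).of_norm.hasSum

/-! ### Mellin transforms -/

/-- `z^s mellin F_z s = ∫ x^{s-1} F_z(x/z) dx` -/
lemma mellin_Fz (n : ℤ) (s : ℝ) :
    ((Real.exp (c * n) ^ s : ℝ) : ℂ) * mellin (Fz h (Real.exp (c * n))) s =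
      ∫ x in Ioi (0 : ℝ), ((x ^ (s - 1) * Real.exp (-x) * h (Real.log x - c * n) : ℝ) : ℂ) := by
  have hz : 0 < Real.exp (c * n) := Real.exp_pos _
  have h1 := mellin_comp_mul_left (Fz h (Real.exp (c * n))) (s : ℂ) (inv_pos.mpr hz)
  have h2 : (((Real.exp (c * n))⁻¹ : ℝ) : ℂ) ^ (-(s : ℂ)) = ((Real.exp (c * n) ^ s : ℝ) : ℂ) := by
    rw [← Complex.ofReal_neg, ← Complex.ofReal_cpow (inv_pos.mpr hz).le, Real.inv_rpow hz.le,
      Real.rpow_neg hz.le, inv_inv]
  rw [h2, smul_eq_mul] at h1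
  rw [← h1]
  unfold mellin
  refine setIntegral_congr_fun measurableSet_Ioi fun x hx => ?_
  have hx0 : (0 : ℝ) < x := hx
  have h3 : (Real.exp (c * n))⁻¹ * x = x / Real.exp (c * n) := by ring
  simp only [smul_eq_mul]
  rw [h3, Fz_div hx0]
  have h4 : ((x : ℂ)) ^ ((s : ℂ) - 1) = ((x ^ (s - 1) : ℝ) : ℂ) := by
    rw [Complex.ofReal_cpow hx0.le]
    push_cast; rfl
  rw [h4]
  push_cast
  ring

/-- `∑_n z_n^s mellin F_{z_n} s = Γ(s)` -/
theorem hasSum_mellin (hpu : PU h c) {s : ℝ} (hs : 0 < s) :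
    (Summable fun n : ℤ => ‖((Real.exp (c * n) ^ s : ℝ) : ℂ) * mellin (Fz h (Real.exp (c * n))) s‖) ∧
    HasSum (fun n : ℤ => ((Real.exp (c * n) ^ s : ℝ) : ℂ) * mellin (Fz h (Real.exp (c * n))) s)
      ((Real.Gamma s : ℝ) : ℂ) := by
  obtain ⟨M, hM0, hM⟩ := pu_abs hpu
  simp_rw [mellin_Fz]
  have hG : IntegrableOn (fun x : ℝ => Real.exp (-x) * x ^ (s - 1)) (Ioi 0) :=
    Real.GammaIntegral_convergent hs
  set F : ℤ → ℝ → ℂ := fun n x =>
    ((x ^ (s - 1) * Real.exp (-x) * h (Real.log x - c * n) : ℝ) : ℂ) with hF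
  have hmeas : ∀ n, AEStronglyMeasurable (F n) (volume.restrict (Ioi 0)) := by
    intro n
    apply Measurable.aestronglyMeasurable
    have h1 : Measurable fun x : ℝ => h (Real.log x - c * n) :=
      hpu.cd.continuous.measurable.comp (Real.measurable_log.sub_const _)
    have h2 : Measurable fun x : ℝ => x ^ (s - 1) * Real.exp (-x) := by fun_prop
    exact Complex.measurable_ofReal.comp (h2.mul h1)
  obtain ⟨H, hH0, hH⟩ := pu_bdd hpu
  have hFle : ∀ (n : ℤ), ∀ x ∈ Ioi (0 : ℝ),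
      ‖F n x‖ = Real.exp (-x) * x ^ (s - 1) * |h (Real.log x - c * n)| := by
    intro n x hx
    have hx0 : (0 : ℝ) < x := hx
    simp only [hF]
    rw [Complex.norm_real, norm_mul, norm_mul, Real.norm_of_nonneg (Real.rpow_nonneg hx0.le _),
      Real.norm_of_nonneg (Real.exp_pos _).le, Real.norm_eq_abs]
    ring
  have hint : ∀ n, Integrable (F n) (volume.restrict (Ioi 0)) := by
    intro n
    refine Integrable.mono' (hG.mul_const H) (hmeas n) ?_
    refine (ae_restrict_iff' measurableSet_Ioi).mpr (Eventually.of_forall fun x hx => ?_)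
    rw [hFle n x hx]
    have hx0 : (0 : ℝ) < x := hx
    have := hH (Real.log x - c * n)
    have h3 : 0 ≤ x ^ (s - 1) := Real.rpow_nonneg hx0.le _
    gcongr
  have hsum : Summable fun n : ℤ => ∫ x in Ioi (0 : ℝ), ‖F n x‖ := by
    refine summable_of_sum_le (c := (∫ x in Ioi (0 : ℝ), Real.exp (-x) * x ^ (s - 1)) * M)
      (fun n => integral_nonneg fun _ => norm_nonneg _) (fun S => ?_)
    rw [← integral_finsetSum S (fun n _ => (hint n).norm), ← integral_mul_const]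
    refine setIntegral_mono_on (integrable_finsetSum S fun n _ => (hint n).norm)
      (hG.mul_const M) measurableSet_Ioi fun x hx => ?_
    have hx0 : (0 : ℝ) < x := hx
    have h3 : 0 ≤ Real.exp (-x) * x ^ (s - 1) := by positivity
    calc ∑ n ∈ S, ‖F n x‖ = Real.exp (-x) * x ^ (s - 1) *
          ∑ n ∈ S, |h (Real.log x - c * n)| := by
          rw [Finset.mul_sum]
          exact Finset.sum_congr rfl fun n _ => hFle n x hx
      _ ≤ Real.exp (-x) * x ^ (s - 1) * M := by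
          gcongr
          exact ((hM (Real.log x)).1.sum_le_tsum S (fun _ _ => abs_nonneg _)).trans (hM _).2
  have h1 := hasSum_integral_of_summable_integral_norm hint hsum
  have h2 : ∫ x in Ioi (0 : ℝ), ∑' n : ℤ, F n x = ((Real.Gamma s : ℝ) : ℂ) := by
    rw [Real.Gamma_eq_integral hs, ← integral_complex_ofReal]
    refine setIntegral_congr_fun measurableSet_Ioi fun x hx => ?_
    have h3 := Complex.hasSum_ofReal.mpr
      ((pu_int hpu (Real.log x)).mul_left (x ^ (s - 1) * Real.exp (-x)))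
    simp only [hF]
    rw [h3.tsum_eq, mul_one]
    congr 1
    ring
  rw [h2] at h1
  refine ⟨Summable.of_nonneg_of_le (fun n => norm_nonneg _) (fun n => ?_) hsum, h1⟩
  exact norm_integral_le_integral_norm _

/-! ### uniform bounds -/

/-- size and support of `F_z` -/
lemma Fz_le (hpu : PU h c) (B : ℕ) : ∃ C R : ℝ, 0 ≤ C ∧ 0 < R ∧ ∀ z : ℝ, 0 ≤ z → ∀ x : ℝ,
    ‖Fz h z x‖ ≤ C * ((1 + z) ^ B)⁻¹ ∧
      (Fz h z x ≠ 0 → Real.exp (-R) ≤ x ∧ x ≤ Real.exp R) := by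
  obtain ⟨R, hR0, hR⟩ := pu_rad hpu
  obtain ⟨H, hH0, hH⟩ := pu_bdd hpu
  obtain ⟨E, hE0, hE⟩ := pow_exp_bd (Real.exp_pos (-R)) B
  have hsupp : ∀ z x : ℝ, Fz h z x ≠ 0 → Real.exp (-R) ≤ x ∧ x ≤ Real.exp R := by
    intro z x hne
    have h1 : hL h x ≠ 0 := right_ne_zero_of_mul hne
    have hx : 0 < x := by
      by_contra h2
      exact h1 (by unfold hL; rw [if_neg h2])
    rw [hL_pos hx] at h1
    have h2 : h (Real.log x) ≠ 0 := by exact_mod_cast h1
    have h3 := abs_le.mp (hR _ h2)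
    exact ⟨(Real.le_log_iff_exp_le hx).mp h3.1, (Real.log_le_iff_le_exp hx).mp h3.2⟩
  refine ⟨E * H, R, by positivity, hR0, fun z hz x => ⟨?_, hsupp z x⟩⟩
  by_cases hne : Fz h z x = 0
  · rw [hne, norm_zero]; positivity
  · obtain ⟨h1, h2⟩ := hsupp z x hne
    have hx : 0 < x := (Real.exp_pos _).trans_le h1
    unfold Fz
    rw [hL_pos hx, norm_mul, Complex.norm_real, Complex.norm_real,
      Real.norm_of_nonneg (Real.exp_pos _).le, Real.norm_eq_abs]
    have h3 : Real.exp (-z * x) ≤ E * ((1 + z) ^ B)⁻¹ := by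
      rw [← div_eq_mul_inv, le_div_iff₀ (by positivity)]
      calc Real.exp (-z * x) * (1 + z) ^ B ≤ Real.exp (-(Real.exp (-R) * z)) * (1 + z) ^ B := by
            gcongr
            nlinarith
        _ = (1 + z) ^ B * Real.exp (-(Real.exp (-R) * z)) := mul_comm _ _
        _ ≤ E := hE z hz
    calc Real.exp (-z * x) * |h (Real.log x)| ≤ E * ((1 + z) ^ B)⁻¹ * H := by
          gcongr
          exact hH _
      _ = _ := by ring

/-- Mellin transforms of `F_z`, uniformly -/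
lemma mellin_Fz_le (hpu : PU h c) (s : ℝ) (B : ℕ) : ∃ C : ℝ, 0 ≤ C ∧ ∀ z : ℝ, 0 ≤ z →
    ‖mellin (Fz h z) s‖ ≤ C * ((1 + z) ^ B)⁻¹ := by
  obtain ⟨C, R, hC0, hR0, hF⟩ := Fz_le hpu B
  set S : Set ℝ := Icc (Real.exp (-R)) (Real.exp R) with hS
  have hSpos : ∀ t ∈ S, 0 < t := fun t ht => (Real.exp_pos _).trans_le ht.1
  have hint : IntegrableOn (fun t : ℝ => t ^ (s - 1)) S := by
    apply ContinuousOn.integrableOn_Icc
    intro t ht
    exact (Real.continuousAt_rpow_const t (s - 1) (Or.inl (hSpos t ht).ne')).continuousWithinAt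
  refine ⟨C * ∫ t in S, t ^ (s - 1), ?_, fun z hz => ?_⟩
  · have : 0 ≤ ∫ t in S, t ^ (s - 1) :=
      setIntegral_nonneg measurableSet_Icc fun t ht => Real.rpow_nonneg (hSpos t ht).le _
    positivity
  · have hzB : 0 ≤ C * ((1 + z) ^ B)⁻¹ := by positivity
    have h1 : mellin (Fz h z) s = ∫ t in S, (t : ℂ) ^ ((s : ℂ) - 1) • Fz h z t := by
      unfold mellin
      refine (setIntegral_eq_of_subset_of_forall_sdiff_eq_zero (μ := volume)
        (f := fun t : ℝ => (t : ℂ) ^ ((s : ℂ) - 1) • Fz h z t) (s := S) measurableSet_Ioi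
        (fun t ht => hSpos t ht) fun t ht => ?_)
      have : Fz h z t = 0 := by
        by_contra h2
        exact ht.2 ((hF z hz t).2 h2)
      rw [this, smul_zero]
    rw [h1]
    refine (norm_integral_le_integral_norm _).trans ?_
    have h2 : ∫ t in S, ‖(t : ℂ) ^ ((s : ℂ) - 1) • Fz h z t‖ ≤
        ∫ t in S, t ^ (s - 1) * (C * ((1 + z) ^ B)⁻¹) := by
      refine integral_mono_of_nonneg (Eventually.of_forall fun t => norm_nonneg _)
        (hint.mul_const _) ?_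
      refine (ae_restrict_iff' measurableSet_Icc).mpr (Eventually.of_forall fun t ht => ?_)
      have ht0 := hSpos t ht
      simp only [smul_eq_mul]
      rw [norm_mul, Complex.norm_cpow_eq_rpow_re_of_pos ht0]
      have e : ((s : ℂ) - 1).re = s - 1 := by simp
      rw [e]
      have := Real.rpow_nonneg ht0.le (s - 1)
      exact mul_le_mul_of_nonneg_left (hF z hz t).1 this
    refine h2.trans (le_of_eq ?_)
    rw [integral_mul_const]
    ring

/-- the transforms of `|x|^s F_z(|x|²)`, uniformly -/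
theorem fw_bounds (hpu : PU h c) (s : ℝ) (A B : ℕ) : ∃ C : ℝ, 0 ≤ C ∧ ∀ z : ℝ, 0 ≤ z →
    ‖mB (fw s (Fz h z))‖ ≤ C * ((1 + z) ^ B)⁻¹ ∧ ∀ y : ℂ, y ≠ 0 →
      (‖Wf (fw s (Fz h z)) y‖ ≤ C * ((1 + z) ^ B)⁻¹ ∧
        ‖Wf (fw s (Fz h z)) y‖ ≤ C * ((1 + z) ^ B)⁻¹ * ‖y‖ ^ A) ∧
      (‖gg (Wf (fw s (Fz h z))) y‖ ≤ C * ((1 + z) ^ B)⁻¹ ∧
        ‖gg (Wf (fw s (Fz h z))) y‖ ≤ C * ((1 + z) ^ B)⁻¹ * ‖y‖ ^ A) := by
  have hev := ev_fw s (wt_hL hpu)
  obtain ⟨C1, hC1, h1⟩ := mB_ez hev B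
  obtain ⟨C2, hC2, h2⟩ := Wf_ez hev A B
  obtain ⟨C3, hC3, h3⟩ := gg_ez hev A B
  refine ⟨C1 + C2 + C3, by positivity, fun z hz => ⟨?_, fun y hy => ⟨⟨?_, ?_⟩, ?_, ?_⟩⟩⟩
  · rw [fw_Fz]
    refine (h1 z hz).trans ?_
    gcongr
    linarith
  · rw [fw_Fz]
    refine (h2 z hz y hy).1.trans ?_
    gcongr
    linarith
  · rw [fw_Fz]
    refine (h2 z hz y hy).2.trans ?_
    gcongr
    linarith
  · rw [fw_Fz]
    refine (h3 z hz y hy).1.trans ?_
    gcongr
    linarith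
  · rw [fw_Fz]
    refine (h3 z hz y hy).2.trans ?_
    gcongr
    linarith

end Crest.Agent.R017.X6B848
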