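import Crest.Agent.R017.F1Pol4_180
import Crest.Agent.R017.PX1_764
import Crest.Agent.R017.E2b_440

/-!
# Row 17, exceptional class, X6 (C), part 1 (helper180): the residues at cube-free multiples

* `rho_cf` : `ρ (v d) = ρ v · conj (gs v d) · N(d)^(-2/3)` for `d` primary cube-free and no
  `p² ∣ v` at the primes `p ∣ d`
* `gs_ncf` : `gs v d = 0` for `d` primary, not cube-free (same condition on `v`)
-/

set_option autoImplicit false
set_option linter.unusedVariables false
set_option linter.unusedSectionVars false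

noncomputable section

open Complex
open scoped ComplexConjugate

namespace Crest.Agent.R017.X6C180

open Crest.Agent.R012 Crest.Agent.R012.Eis Crest.Agent.R012.GaussLoc283
open Crest.Agent.R017.E2440 (sqrtC_mul_self)

/-- cube-free at the primary primes -/
def CF (d : Eis) : Prop := ∀ p : Eis, Prime p → IsPrim p → ¬ p ^ 3 ∣ d

/-- `v` has no square prime factor among the prime factors of `d` -/
def NS (v d : Eis) : Prop := ∀ p : Eis, Prime p → IsPrim p → p ∣ d → ¬ p ^ 2 ∣ v

/-- `N(d)^(-2/3)` -/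
def n23 (d : Eis) : ℝ := (nm d : ℝ) ^ (-(2 : ℝ) / 3)

lemma n23_mul (a b : Eis) : n23 (a * b) = n23 a * n23 b := by
  unfold n23
  rw [nm_mul]
  push_cast
  rw [Real.mul_rpow (Nat.cast_nonneg _) (Nat.cast_nonneg _)]

lemma n23_one : n23 1 = 1 := by unfold n23; rw [nm_one]; simp

lemma n23_nonneg (a : Eis) : 0 ≤ n23 a := by unfold n23; positivity

lemma n23_prime {p : Eis} (hp : IsPrim p) :
    n23 p = (Real.sqrt (nm p))⁻¹ * (nm p : ℝ) ^ (-(1 : ℝ) / 6) := by
  have h : (0 : ℝ) < nm p := by exact_mod_cast nm_pos.2 hp.ne_zero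
  unfold n23
  rw [Real.sqrt_eq_rpow, ← Real.rpow_neg h.le, ← Real.rpow_add h]
  norm_num

/-- peeling off one prime -/
lemma peel {d : Eis} (hd : IsPrim d) (h1 : d ≠ 1) : ∃ (p : Eis) (i : ℕ) (d' : Eis), Prime p ∧
    IsPrim p ∧ IsPrim d' ∧ ¬ p ∣ d' ∧ 1 ≤ i ∧ d = p ^ i * d' ∧ nm d' < nm d := by
  obtain ⟨p, hpp, hp, hpd⟩ := Gauss880.exists_prim_prime_dvd hd h1
  have hfin : FiniteMultiplicity p d := FiniteMultiplicity.of_prime_left hpp hd.ne_zero
  obtain ⟨d', hd', hnd⟩ := hfin.exists_eq_pow_mul_and_not_dvd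
  set i := multiplicity p d with hi
  have hi1 : 1 ≤ i := by
    by_contra h0
    have : i = 0 := by omega
    rw [this, pow_zero, one_mul] at hd'
    exact hnd (hd' ▸ hpd)
  have hdp : IsPrim d' := (hd' ▸ hd : IsPrim (p ^ i * d')).of_mul_left (hp.pow i)
  refine ⟨p, i, d', hpp, hp, hdp, hnd, hi1, hd', ?_⟩
  have h2 : nm d = nm (p ^ i) * nm d' := by
    conv_lhs => rw [hd', nm_mul]
  have h3 : 0 < nm d' := nm_pos.2 hdp.ne_zero
  have h4 : 2 ≤ nm (p ^ i) := by
    have h5 : 0 < nm (p ^ i) := nm_pos.2 (hp.pow i).ne_zero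
    have h6 : nm (p ^ i) ≠ 1 := by
      intro h
      have := isUnit_iff.mpr h
      exact hpp.not_isUnit ((isUnit_pow_iff (by omega)).mp this)
    omega
  rw [h2]
  nlinarith

lemma rho_pp {ρ : Eis → ℂ} (hR : M49.RhoRel ρ) {p : Eis} (hpp : Prime p) (hp : IsPrim p) {v : Eis}
    (hv : ¬ p ^ 2 ∣ v) {i : ℕ} (hi1 : 1 ≤ i) (hi2 : i ≤ 2) :
    ρ (v * p ^ i) = ρ v * conj (gs v (p ^ i)) * (n23 (p ^ i) : ℂ) := by
  have hN : (0 : ℝ) < nm p := by exact_mod_cast nm_pos.2 hp.ne_zero
  have hone : ∀ h : Eis, ¬ p ∣ h → ρ (h * p) = ρ h * conj (gs h p) * (n23 p : ℂ) := by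
    intro h hh
    rw [hR.one_p p h hpp hp hh, n23_prime hp, map_div₀, Complex.conj_ofReal]
    push_cast
    ring
  by_cases hpv : p ∣ v
  · obtain ⟨v', rfl⟩ := hpv
    have hv' : ¬ p ∣ v' := by
      intro h
      obtain ⟨t, rfl⟩ := h
      exact hv ⟨t, by ring⟩
    rw [mul_comm p v'] at *
    rcases (by omega : i = 1 ∨ i = 2) with rfl | rfl
    · rw [pow_one, gs_prime_of_dvd syAx hp hpp (dvd_mul_left _ _),
        show v' * p * p = v' * p ^ 2 by ring, hR.two_p p v' hpp hp hv']
      simp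
    · have h1 : gs (v' * p) (p ^ 2) = (nm p : ℂ) * conj (gs v' p) := by
        have := gs_pow_two syAx v' hp (k := 1) (by norm_num)
        rw [pow_one, pow_one] at this
        exact this
      rw [show v' * p * p ^ 2 = v' * p ^ 3 by ring, hR.three_p p v' hpp hp, h1, hone v' hv',
        map_mul, Complex.conj_conj, Complex.conj_natCast, pow_two, n23_mul]
      have h2 := gs_prime_mul_conj syAx hp hpp hv'
      have h3 : (n23 p * (n23 p * n23 p) : ℝ) * (nm p : ℝ) ^ 2 = 1 := by
        unfold n23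
        rw [← Real.rpow_add hN, ← Real.rpow_add hN, ← Real.rpow_natCast, ← Real.rpow_add hN]
        norm_num
      have h3' : ((n23 p : ℂ) * ((n23 p : ℂ) * (n23 p : ℂ))) * (nm p : ℂ) ^ 2 = 1 := by
        exact_mod_cast h3
      push_cast
      linear_combination (-ρ v' * (n23 p : ℂ) * ((n23 p : ℂ) * (n23 p : ℂ)) * (nm p : ℂ)) * h2 -
        ρ v' * h3'
  · rcases (by omega : i = 1 ∨ i = 2) with rfl | rfl
    · rw [pow_one]
      exact hone v hpv
    · rw [hR.two_p p v hpp hp hpv]
      have : gs v (p ^ 2) = 0 := gs_pow_of_not_dvd syAx hp (k := 1) (by rwa [pow_one])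
      rw [this]
      simp

/-- **the residues at cube-free multiples.** -/
theorem rho_cf {ρ : Eis → ℂ} (hR : M49.RhoRel ρ) : ∀ (n : ℕ) (d : Eis), nm d ≤ n → IsPrim d →
    CF d → ∀ v : Eis, NS v d → ρ (v * d) = ρ v * conj (gs v d) * (n23 d : ℂ) := by
  intro n
  induction n with
  | zero =>
    intro d hn hd
    exact absurd (nm_pos.2 hd.ne_zero) (by omega)
  | succ n ih =>
    intro d hn hd hcf v hv
    by_cases h1 : d = 1
    · subst h1
      rw [mul_one, gs_one_right syAx, n23_one]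
      simp
    · obtain ⟨p, i, d', hpp, hp, hd', hnd, hi1, hdeq, hlt⟩ := peel hd h1
      have hi2 : i ≤ 2 := by
        by_contra h
        push Not at h
        exact hcf p hpp hp (hdeq ▸ (pow_dvd_pow p h).mul_right d')
      have hpd : p ∣ d := hdeq ▸ (dvd_pow_self p (by omega)).mul_right d'
      have hvp := hv p hpp hp hpd
      have hcop : IsCoprime (p ^ i) d' :=
        ((isCoprime_iff_not_dvd hpp d').mpr hnd).symm.pow_left
      have hd'd : d' ∣ d := hdeq ▸ dvd_mul_left d' (p ^ i)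
      have hns : NS (v * p ^ i) d' := by
        intro q hqq hq hqd' hq2
        have hqp : IsCoprime q p := by
          rw [isCoprime_comm]
          by_contra hc
          rw [hpp.irreducible.coprime_iff_not_dvd, not_not] at hc
          exact hnd (hc.trans hqd')
        have : q ^ 2 ∣ v := (hqp.pow : IsCoprime (q ^ 2) (p ^ i)).dvd_of_dvd_mul_right hq2
        exact hv q hqq hq (hqd'.trans hd'd) this
      have hcf' : CF d' := fun q hqq hq h => hcf q hqq hq (h.trans hd'd)
      have h2 := ih d' (by omega) hd' hcf' (v * p ^ i) hns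
      rw [hdeq, ← mul_assoc, h2, rho_pp hR hpp hp hvp hi1 hi2, gs_mul' syAx v (hp.pow i) hd' hcop,
        n23_mul, map_mul]
      push_cast
      ring

/-- **vanishing outside the cube-free elements.** -/
theorem gs_ncf {d : Eis} (hd : IsPrim d) (hncf : ¬ CF d) {v : Eis} (hv : NS v d) : gs v d = 0 := by
  unfold CF at hncf
  push Not at hncf
  obtain ⟨p, hpp, hp, hp3⟩ := hncf
  have hfin : FiniteMultiplicity p d := FiniteMultiplicity.of_prime_left hpp hd.ne_zero
  obtain ⟨d', hd', hnd⟩ := hfin.exists_eq_pow_mul_and_not_dvd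
  set i := multiplicity p d with hi
  have hdp : IsPrim d' := (hd' ▸ hd : IsPrim (p ^ i * d')).of_mul_left (hp.pow i)
  have hi3 : 3 ≤ i := by
    by_contra h
    push Not at h
    have h3 : p ^ (i + 1) ∣ d := (pow_dvd_pow p (by omega)).trans hp3
    rw [hd', pow_succ] at h3
    have := (mul_dvd_mul_iff_left (pow_ne_zero i hpp.ne_zero)).mp h3
    exact hnd this
  have hpd : p ∣ d := (dvd_pow_self p (by norm_num)).trans hp3
  have hcop : IsCoprime (p ^ i) d' := ((isCoprime_iff_not_dvd hpp d').mpr hnd).symm.pow_left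
  have hz : gs v (p ^ i) = 0 := by
    obtain ⟨k, hk⟩ : ∃ k, i = k + 1 := ⟨i - 1, by omega⟩
    rw [hk]
    refine gs_pow_of_not_dvd syAx hp (k := k) fun h => hv p hpp hp hpd ?_
    exact (pow_dvd_pow p (by omega)).trans h
  rw [hd', gs_mul' syAx v (hp.pow i) hdp hcop, hz, zero_mul]

end Crest.Agent.R017.X6C180
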