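import Crest.Agent.R017.PX2_764
import Crest.Agent.R017.X6A_848
import Crest.Agent.R017.P3th_283
import Crest.Agent.R017.X6C1_180

/-!
# Row 17, exceptional class, X6 (cross lemma), interfaces (helper545)

* `PP v φ = ∑ h primary, th (v h) φ(N h)`, `T (th (r ·)) φ 1 u c` (848) `= ∑_{l ≠ 0} th (r l u) φ (c N l)`
* `XC v0` : (C) the functional equation F1 for `PP (v0 u)` with a test function `F (log x - log B)`
* `F1X r κ` : (B)+(C) : the same for all `l` and `e^{-x/A}`, uniform in `A ≤ Am`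
* `TT`, `HS` : the structured sums and their second moments
* `X6Stmt` : the cross lemma in the shape consumed by (P_ex)
-/

set_option autoImplicit false

noncomputable section

open scoped ComplexConjugate

namespace Crest.Agent.R017.X6545

open Crest.Agent.R012 Crest.Agent.R012.Eis Crest.Agent.R012.Gauss880
open Crest.Agent.R012.LS2
open Crest.Agent.R017.PA842 (Supp)
open Crest.Agent.R017.PX764 (th n6 Gh Cross cD)
open Crest.Agent.R017.P3all283 (c0)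

/-- `∑ h primary, th (v h) φ(N h)` -/
def PP (v : Eis) (φ : ℝ → ℂ) : ℂ := by
  classical
  exact ∑' h : Eis, if IsPrim h then th (v * h) * φ (nm h) else 0

/-- composed of `λ` and units -/
def SU (v : Eis) : Prop := ∃ k : ℕ, v ∣ lam ^ k

/-- test functions -/
structure TF (F : ℝ → ℂ) : Prop where
  smooth : ContDiff ℝ ((⊤ : ℕ∞) : WithTop ℕ∞) F
  supp : ∀ y : ℝ, 2 < |y| → F y = 0

/-- derivative bounds -/
def Bd (F : ℝ → ℂ) (k : ℕ) (S : ℝ) : Prop := ∀ i ≤ k, ∀ y : ℝ, ‖iteratedDeriv i F y‖ ≤ S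

/-- the constant of the main term: `pC ·` (density of the primary numbers) -/
def kap0 : ℝ := pC * (2 * Real.pi / (9 * Real.sqrt 3))

/-- **(C)** -/
def XC (v0 : Eis) : Prop :=
  ∃ (J : ℕ) (δ : Fin J → Eis) (ω : Fin J → (ℝ → ℂ) → ℝ → ℂ), (∀ j, SU (δ j)) ∧
    (∀ M : ℕ, ∃ (k : ℕ) (C : ℝ), 0 ≤ C ∧ ∀ (F : ℝ → ℂ) (S : ℝ), TF F → Bd F k S →
      ∀ (j : Fin J) (t : ℝ), 0 < t → ‖ω j F t‖ ≤ C * S * min 1 (t ^ M)) ∧
    ∀ F : ℝ → ℂ, TF F → ∀ (B : ℝ) (u : Eis), 0 < B → IsPrim u → Squarefree u →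
      PP (v0 * u) (fun x => F (Real.log x - Real.log B)) =
        ((kap0 * ‖th v0‖ ^ 2 * (nm u : ℝ) ^ (-(1 : ℝ) / 3) * B ^ ((2 : ℝ) / 3) : ℝ) : ℂ) *
            (∫ y : ℝ, F y * ((Real.exp (2 * y / 3) : ℝ) : ℂ)) +
          ((B ^ ((1 : ℝ) / 3) : ℝ) : ℂ) * ∑ j, sy (δ j) u * ∑' d : Eis,
            open Classical in if IsPrim d ∧ X6C180.CF d then
              sy (δ j) d * (((nm d : ℝ) ^ (-(1 : ℝ) / 3) : ℝ) : ℂ) * th (v0 * u * d) *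
                ω j F ((nm u : ℝ) / (B * nm d)) else 0

/-- the bound of the dual weight -/
def OmB (Am C : ℝ) (M : ℕ) (Ω : ℝ → ℂ) : Prop := ∀ t : ℝ, 0 < t →
  ‖Ω t‖ ≤ C * (1 + Real.log Am) * (min 1 (t ^ ((1 : ℝ) / 3)) * min 1 ((Am * t) ^ M))

/-- **(B)+(C)**: `F1` for `e^{-x/A}` and all `l ≠ 0` (`T` is 848's) -/
def F1X (r : Eis) (κ : ℝ) : Prop :=
  ∃ (J : ℕ) (v δ : Fin J → Eis), (∀ j, SU (v j) ∧ SU (δ j)) ∧ ∀ M : ℕ, ∃ C : ℝ, 0 ≤ C ∧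
    ∀ Am : ℝ, 1 ≤ Am → ∃ Ω : Fin J → ℝ → ℂ, (∀ j, OmB Am C M (Ω j)) ∧
      ∀ (A : ℝ) (u : Eis), 0 < A → A ≤ Am → IsPrim u → Squarefree u →
        ‖X6A848.T (fun x => th (r * x)) (fun x => ((Real.exp (-x / A) : ℝ) : ℂ)) 1 u 1 -
            ((κ * (nm u : ℝ) ^ (-(1 : ℝ) / 3) * A ^ ((2 : ℝ) / 3) : ℝ) : ℂ) -
            ((A ^ ((1 : ℝ) / 3) : ℝ) : ℂ) * ∑ j, sy (δ j) u * ∑' d : Eis,
              open Classical in if IsPrim d ∧ X6C180.CF d then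
                sy (δ j) d * (((nm d : ℝ) ^ (-(1 : ℝ) / 3) : ℝ) : ℂ) * th (v j * u * d) *
                  Ω j ((nm u : ℝ) / (A * nm d)) else 0‖ ≤
          C * (1 + Real.log Am) * (A / Am) ^ ((2 : ℝ) / 3) * (nm u : ℝ) ^ (-(1 : ℝ) / 3)

/-- the two cases -/
def F1X3 : Prop := F1X 3 (pC * ((3 : ℝ) ^ ((4 : ℝ) / 3) * c0))

def F1X1 : Prop := F1X 1 (pC * (3 * c0))

open Classical in
/-- the structured sum -/
def TT (w : Eis → ℂ) (X : ℝ) (d δ q x : Eis) : ℂ :=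
  ∑ m ∈ S X, if IsCoprime m q then w (d * δ * m) * (n6 m : ℂ) * Gh x m else 0

/-- their second moments over SQUAREFREE `x` (short range `Z / N' ≤ L ≤ N' ^ (1/2)` only; the rest
is the cubic large sieve) -/
def HS (w : Eis → ℂ) (X Z : ℝ) (d : Eis) (B : ℝ) : Prop :=
  ∀ δ q v : Eis, δ ∈ S X → q ≠ 0 → SU v → ∀ L : ℝ, 1 ≤ L → Z ≤ L * (X / nm d / nm δ) →
    L * L ≤ X / nm d / nm δ →
    ∑ x ∈ S L, ‖TT w X d δ q (v * x)‖ ^ 2 ≤ B * (X / nm d / nm δ) ^ ((4 : ℝ) / 3) * L ^ ((2 : ℝ) / 3)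

/-- **X6** -/
def X6Stmt : Prop := ∀ ε : ℝ, 0 < ε → ∃ C : ℝ, 0 ≤ C ∧ ∀ X Z W B : ℝ, 1 ≤ X → 1 ≤ Z → 0 ≤ W → 0 ≤ B →
  ∀ w : Eis → ℂ, Supp w X → (∀ n, ‖w n‖ ≤ W) → ∀ d ∈ S X, HS w X Z d B →
    Z * ‖Cross X Z w d‖ ≤ C * (X * Z) ^ ε *
      (W ^ 2 * (X / nm d) * (Z + X / nm d) + W * Real.sqrt B * (Z * (X / nm d)))

end Crest.Agent.R017.X6545
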