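import Crest.Agent.R017.X6B2_848
import Crest.Agent.R017.X6Defs_545

/-!
# Row 17, exceptional class, X6 part (B), 3 (helper848): uniform bounds in terms of derivatives

`fyw s F x = |x|^s F(log |x|²)`, `F` smooth, supported in `[-2, 2]`, derivatives up to order `k`
bounded by `S` : `W`, `g(W)`, `mA`, `mB` are `≤ C S`, `W` and `g(W)` are `≤ C S |y|^M`.
-/

set_option autoImplicit false

noncomputable section

open MeasureTheory Complex Set Filter Topology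
open scoped SchwartzMap FourierTransform ContDiff

namespace Crest.Agent.R017.X6B848

open Crest.Agent.R012 Crest.Agent.R012.Eis Crest.Agent.R012.Po581
open Crest.Agent.R017.Xi590 Crest.Agent.R017.Xn590 Crest.Agent.R017.F1
open Crest.Agent.R017.X6545 (TF Bd)

/-! ### one function -/

/-- the bound for `W` from two sup norms -/
theorem Wf_le (A : ℕ) : ∃ C : ℝ, 0 ≤ C ∧ ∀ (f : ℂ → ℂ) (h : CS f) (K : ℝ),
    (∀ x, ‖Ps h x‖ * (1 + ‖x‖) ^ 3 ≤ K) →
    (∀ x, ‖fCS (Ps h) x‖ * (1 + ‖x‖) ^ (3 * A + 2 + 3) ≤ K) →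
    ∀ y : ℂ, y ≠ 0 → ‖Wf f y‖ ≤ C * K * ‖y‖ ^ A := by
  have hb := b0_pos
  have hC3 := C3_nonneg
  set κ : ℝ := ‖kap3‖ with hκ
  have hκp : 0 < κ := norm_pos_iff.mpr kap3_ne
  have hκ1 : 1 ≤ κ := one_le_kap3
  have hs3 : 0 < 2 / Real.sqrt 3 := by positivity
  set B : ℝ := b0 * ((κ⁻¹ ^ 3)⁻¹ * C3) + b0 + b0 * (2 / Real.sqrt 3) * κ ^ 2 with hBdef
  have hB0 : 0 ≤ B := by positivity
  refine ⟨b0 * (2 / Real.sqrt 3) * (8 * C3) * κ ^ (3 * A + 2) + B * κ ^ (3 * A), by positivity,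
    fun f h K hK1 hK2 y hy => ?_⟩
  have hK0 : 0 ≤ K := (by positivity : (0:ℝ) ≤ ‖Ps h 0‖ * (1 + ‖(0:ℂ)‖) ^ 3).trans (hK1 0)
  have hτ : nrt 3 y ≠ 0 := nrt_ne_zero (by norm_num) hy
  set t : ℝ := ‖nrt 3 y‖ with ht
  have htp : 0 < t := norm_pos_iff.mpr hτ
  have hty : ‖y‖ = t ^ 3 := (norm_nrt3 y).symm
  rw [hty, ← pow_mul]
  rcases le_or_gt (κ * t) 1 with hc | hc
  · rw [Wf_eq h hy, norm_mul, Complex.norm_real, Real.norm_of_nonneg (by positivity)]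
    have h3 := Ts_le (A := 3 * A + 2) hK2 (σ := (kap3 * nrt 3 y)⁻¹) (by
      rw [norm_inv, norm_mul]
      exact (one_le_inv₀ (by positivity)).mpr hc)
    rw [norm_inv, norm_mul, inv_pow, inv_inv] at h3
    calc b0 * (2 / Real.sqrt 3) * (t ^ 2)⁻¹ * ‖Ts (fCS (Ps h)) ((kap3 * nrt 3 y)⁻¹)‖
        ≤ b0 * (2 / Real.sqrt 3) * (t ^ 2)⁻¹ * (K * 8 * C3 * (κ * t) ^ (3 * A + 2)) := by gcongr
      _ = b0 * (2 / Real.sqrt 3) * (8 * C3) * κ ^ (3 * A + 2) * K * t ^ (3 * A) := by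
          rw [mul_pow, pow_add t]
          field_simp
      _ ≤ _ := by
          gcongr
          exact le_add_of_nonneg_right (by positivity)
  · have h3 : κ⁻¹ ≤ t := by
      rw [inv_le_iff_one_le_mul₀ hκp, mul_comm]
      exact hc.le
    have h4 := Ts_le' hK1 (inv_pos.mpr hκp) (inv_le_one_of_one_le₀ hκ1) (σ := nrt 3 y) h3
    have h5 : (t ^ 2)⁻¹ ≤ κ ^ 2 := by
      rw [inv_le_iff_one_le_mul₀ (by positivity)]
      have : 1 ≤ (κ * t) ^ 2 := one_le_pow₀ hc.le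
      calc 1 ≤ (κ * t) ^ 2 := this
        _ = _ := by ring
    have h6 : ‖F1.Wf f y‖ ≤ B * K := by
      unfold F1.Wf
      refine (norm_sub_le _ _).trans ?_
      refine (add_le_add (norm_add_le _ _) le_rfl).trans ?_
      rw [fO_eq_Ts h, norm_mul, norm_mul, norm_mul, Complex.norm_real, Complex.norm_real,
        Real.norm_of_nonneg hb.le, Real.norm_of_nonneg (by positivity)]
      have a1 : ‖F1.mA f‖ ≤ K := by
        have := hK1 0
        rw [Ps_zero, norm_zero, add_zero, one_pow, mul_one] at this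
        exact this
      have a2 : ‖F1.mB f‖ ≤ K := by
        have := hK2 0
        rw [fCS_Ps_zero, norm_zero, add_zero, one_pow, mul_one] at this
        exact this
      calc b0 * ‖Ts (Ps h) (nrt 3 y)‖ + b0 * ‖F1.mA f‖ +
            b0 * (2 / Real.sqrt 3) * (t ^ 2)⁻¹ * ‖F1.mB f‖
          ≤ b0 * (K * (κ⁻¹ ^ 3)⁻¹ * C3) + b0 * K + b0 * (2 / Real.sqrt 3) * κ ^ 2 * K := by gcongr
        _ = B * K := by rw [hBdef]; ring
    have h7 : 1 ≤ κ ^ (3 * A) * t ^ (3 * A) := by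
      rw [← mul_pow]; exact one_le_pow₀ hc.le
    have hBw : 0 ≤ B * K := by positivity
    calc ‖F1.Wf f y‖ ≤ B * K := h6
      _ ≤ B * K * (κ ^ (3 * A) * t ^ (3 * A)) := le_mul_of_one_le_right hBw h7
      _ = B * κ ^ (3 * A) * K * t ^ (3 * A) := by ring
      _ ≤ _ := by
          gcongr
          exact le_add_of_nonneg_left (by positivity)

/-! ### graded families -/

/-- `P N i S` : derivatives of the datum `i` up to order `N` are bounded by `S` -/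
structure Gr {ι : Type*} (P : ℕ → ι → ℝ → Prop) : Prop where
  mono : ∀ {n N : ℕ} {i : ι} {S : ℝ}, n ≤ N → P N i S → P n i S
  pos : ∀ {N : ℕ} {i : ι} {S : ℝ}, P N i S → 0 ≤ S

/-- graded families of Schwartz functions -/
def BD {ι : Type*} (P : ℕ → ι → ℝ → Prop) (g : ι → 𝓢(ℂ, ℂ)) : Prop :=
  ∀ k n : ℕ, ∃ (N : ℕ) (C : ℝ), 0 ≤ C ∧ ∀ i S, P N i S → SchwartzMap.seminorm ℝ k n (g i) ≤ C * S

section

variable {ι : Type*} {P : ℕ → ι → ℝ → Prop} {g : ι → 𝓢(ℂ, ℂ)}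

lemma BD.map (hP : Gr P) (h : BD P g) (T : 𝓢(ℂ, ℂ) →L[ℝ] 𝓢(ℂ, ℂ)) : BD P (fun i => T (g i)) := by
  intro k n
  have hq : Continuous ((SchwartzMap.seminorm ℝ k n).comp (T : 𝓢(ℂ, ℂ) →ₗ[ℝ] 𝓢(ℂ, ℂ))) := by
    have h1 : Continuous (SchwartzMap.seminorm ℝ k n : Seminorm ℝ 𝓢(ℂ, ℂ)) :=
      (schwartz_withSeminorms ℝ ℂ ℂ).continuous_seminorm (k, n)
    exact h1.comp T.continuous
  obtain ⟨s, C, -, hC⟩ := Seminorm.bound_of_continuous (schwartz_withSeminorms ℝ ℂ ℂ) _ hq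
  choose N c hc0 hc using h
  refine ⟨s.sup fun j => N j.1 j.2, C * ∑ j ∈ s, c j.1 j.2, ?_, fun i S hi => ?_⟩
  · have : 0 ≤ ∑ j ∈ s, c j.1 j.2 := Finset.sum_nonneg fun j _ => hc0 _ _
    positivity
  · have h1 := hC (g i)
    have h2 : (s.sup (schwartzSeminormFamily ℝ ℂ ℂ)) (g i) ≤
        ∑ j ∈ s, SchwartzMap.seminorm ℝ j.1 j.2 (g i) := by
      have := Seminorm.finset_sup_le_sum (schwartzSeminormFamily ℝ ℂ ℂ) s (g i)
      simp at this
      exact this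
    have h3 : (∑ j ∈ s, SchwartzMap.seminorm ℝ j.1 j.2 (g i)) ≤ (∑ j ∈ s, c j.1 j.2) * S := by
      rw [Finset.sum_mul]
      exact Finset.sum_le_sum fun j hj => hc _ _ i S
        (hP.mono (Finset.le_sup (f := fun j : ℕ × ℕ => N j.1 j.2) hj) hi)
    calc SchwartzMap.seminorm ℝ k n (T (g i))
        ≤ (C : ℝ) * (s.sup (schwartzSeminormFamily ℝ ℂ ℂ)) (g i) := h1
      _ ≤ C * ((∑ j ∈ s, c j.1 j.2) * S) := by
          gcongr
          exact h2.trans h3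
      _ = _ := by ring

lemma BD.dec (hP : Gr P) (h : BD P g) (A : ℕ) : ∃ (N : ℕ) (C : ℝ), 0 ≤ C ∧ ∀ i S, P N i S →
    ∀ x, ‖g i x‖ * (1 + ‖x‖) ^ A ≤ C * S := by
  obtain ⟨N0, C0, hC0, h0⟩ := h 0 0
  obtain ⟨NA, CA, hCA, hA⟩ := h A 0
  refine ⟨max N0 NA, 2 ^ (A - 1) * (C0 + CA), by positivity, fun i S hi x => ?_⟩
  have e0 := (SchwartzMap.le_seminorm ℝ 0 0 (g i) x).trans
    (h0 i S (hP.mono (le_max_left _ _) hi))
  have eA := (SchwartzMap.le_seminorm ℝ A 0 (g i) x).trans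
    (hA i S (hP.mono (le_max_right _ _) hi))
  simp only [norm_iteratedFDeriv_zero, pow_zero, one_mul] at e0 eA
  calc ‖g i x‖ * (1 + ‖x‖) ^ A ≤ ‖g i x‖ * (2 ^ (A - 1) * (1 ^ A + ‖x‖ ^ A)) := by
        gcongr
        exact add_pow_le zero_le_one (norm_nonneg x) A
    _ = 2 ^ (A - 1) * (‖g i x‖ + ‖x‖ ^ A * ‖g i x‖) := by rw [one_pow]; ring
    _ ≤ 2 ^ (A - 1) * (C0 * S + CA * S) := by gcongr
    _ = _ := by ring

/-- **graded bound for `W`** -/
theorem BD.Wf (hP : Gr P) {f : ι → ℂ → ℂ} {h : ∀ i, CS (f i)} (H : BD P fun i => (h i).gI.S)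
    (A : ℕ) : ∃ (N : ℕ) (C : ℝ), 0 ≤ C ∧ ∀ i S, P N i S →
      ‖mA (f i)‖ ≤ C * S ∧ ‖mB (f i)‖ ≤ C * S ∧ ∀ y : ℂ, y ≠ 0 → ‖Wf (f i) y‖ ≤ C * S * ‖y‖ ^ A := by
  have h1 : BD P fun i => Ps (h i) := BD.map hP (BD.map hP H fCL) (poL 3 (by norm_num))
  have h2 : BD P fun i => fCS (Ps (h i)) := BD.map hP h1 fCL
  obtain ⟨N1, C1, hC1, e1⟩ := BD.dec hP h1 3
  obtain ⟨N2, C2, hC2, e2⟩ := BD.dec hP h2 (3 * A + 2 + 3)
  obtain ⟨C, hC0, hC⟩ := Wf_le A
  refine ⟨max N1 N2, (1 + C) * (C1 + C2), by positivity, fun i S hi => ?_⟩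
  have hS := hP.pos hi
  have a1 := e1 i S (hP.mono (le_max_left _ _) hi)
  have a2 := e2 i S (hP.mono (le_max_right _ _) hi)
  have b1 : C1 * S ≤ (C1 + C2) * S := by gcongr; linarith
  have b2 : C2 * S ≤ (C1 + C2) * S := by gcongr; linarith
  have b3 : (C1 + C2) * S ≤ (1 + C) * (C1 + C2) * S := by
    have : 0 ≤ C * ((C1 + C2) * S) := by positivity
    nlinarith
  refine ⟨?_, ?_, fun y hy => ?_⟩
  · have := a1 0
    rw [Ps_zero, norm_zero, add_zero, one_pow, mul_one] at this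
    linarith
  · have := a2 0
    rw [fCS_Ps_zero, norm_zero, add_zero, one_pow, mul_one] at this
    linarith
  · have := hC (f i) (h i) ((C1 + C2) * S) (fun x => (a1 x).trans b1) (fun x => (a2 x).trans b2) y hy
    refine this.trans ?_
    have : C * ((C1 + C2) * S) ≤ (1 + C) * (C1 + C2) * S := by
      have : 0 ≤ (C1 + C2) * S := by positivity
      nlinarith
    gcongr

end

/-! ### functions of `log |x|²` -/

/-- `|x|^s F(log |x|²)` -/
def fyw (s : ℝ) (F : ℝ → ℂ) (x : ℂ) : ℂ := ((‖x‖ ^ s : ℝ) : ℂ) * F (Real.log (‖x‖ ^ 2))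

lemma fyw_supp (s : ℝ) {F : ℝ → ℂ} (hF : TF F) {x : ℂ} (hx : ‖x‖ < Real.exp (-1) ∨ Real.exp 1 < ‖x‖)
    (h0 : x ≠ 0) : fyw s F x = 0 := by
  have hxp : 0 < ‖x‖ := norm_pos_iff.mpr h0
  unfold fyw
  rw [hF.supp, mul_zero]
  rw [Real.log_pow]
  push_cast
  rcases hx with hx | hx
  · have := (Real.log_lt_iff_lt_exp hxp).mpr hx
    rw [abs_of_neg (by linarith)]
    linarith
  · have := (Real.lt_log_iff_exp_lt hxp).mpr hx
    rw [abs_of_pos (by linarith)]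
    linarith

lemma cd_logsq {x : ℂ} (hx : x ≠ 0) : ContDiffAt ℝ ∞ (fun x : ℂ => Real.log (‖x‖ ^ 2)) x := by
  have hxp : 0 < ‖x‖ := norm_pos_iff.mpr hx
  have h1 : ContDiffAt ℝ ∞ (fun x : ℂ => ‖x‖ ^ 2) x := (contDiff_norm_sq ℝ).contDiffAt
  exact (Real.contDiffAt_log.mpr (by positivity)).comp x h1

lemma cd_rpow (s : ℝ) {x : ℂ} (hx : x ≠ 0) : ContDiffAt ℝ ∞ (fun x : ℂ => ‖x‖ ^ s) x :=
  (contDiffAt_norm ℝ hx).rpow_const_of_ne (norm_pos_iff.mpr hx).ne'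

lemma CS_fyw {s : ℝ} (hs : s ≠ 0) {F : ℝ → ℂ} (hF : TF F) : CS (fyw s F) := by
  refine CS.of (a := Real.exp (-1)) (b := Real.exp 1) (fun x hx => ?_) (Real.exp_pos _)
    (Real.exp_lt_exp.mpr (by norm_num)) (fun x hx => ?_)
  · unfold fyw
    exact (Complex.ofRealCLM.contDiff.contDiffAt.comp x (cd_rpow s hx)).mul
      (hF.smooth.contDiffAt.comp x (cd_logsq hx))
  · by_cases h0 : x = 0
    · subst h0
      unfold fyw
      rw [norm_zero, Real.zero_rpow hs, Complex.ofReal_zero, zero_mul]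
    · exact fyw_supp s hF hx h0

lemma ev_fyw {s : ℝ} (hs : s ≠ 0) {F : ℝ → ℂ} (hF : TF F) : Ev (fyw s F) where
  smooth := (CS_fyw hs hF).smooth
  supp := (CS_fyw hs hF).supp
  even x := by unfold fyw; rw [norm_neg]

/-- the factor of `gI` -/
def G0 (s : ℝ) (p : ℂ) : ℝ := (‖p‖ ^ 4)⁻¹ * ‖p‖ ^ (-s)

lemma gI_fyw (s : ℝ) (F : ℝ → ℂ) (p : ℂ) :
    Xi590.gI (fyw s F) p = G0 s p • (F ∘ fun p : ℂ => -Real.log (‖p‖ ^ 2)) p := by
  unfold Xi590.gI fyw G0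
  rw [norm_inv, Complex.real_smul, Real.inv_rpow (norm_nonneg _), ← Real.rpow_neg (norm_nonneg _),
    inv_pow, Real.log_inv, Function.comp_apply]
  push_cast
  ring

/-- the punctured plane -/
def UU : Set ℂ := {x | x ≠ 0}

lemma isOpen_UU : IsOpen UU := isOpen_ne

/-- the closed annulus -/
def AA : Set ℂ := {x | Real.exp (-1) ≤ ‖x‖ ∧ ‖x‖ ≤ Real.exp 1}

lemma isClosed_AA : IsClosed AA :=
  (isClosed_le continuous_const continuous_norm).inter (isClosed_le continuous_norm continuous_const)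

lemma isCompact_AA : IsCompact AA :=
  (isCompact_closedBall (0 : ℂ) (Real.exp 1)).of_isClosed_subset isClosed_AA fun x hx => by
    rw [mem_closedBall_zero_iff]; exact hx.2

lemma AA_sub : AA ⊆ UU := fun x hx h0 => by
  have h1 := hx.1
  rw [h0, norm_zero] at h1
  exact absurd h1 (not_le.mpr (Real.exp_pos _))

lemma bd_on {E : Type*} [NormedAddCommGroup E] [NormedSpace ℝ E] {φ : ℂ → E}
    (hφ : ContDiffOn ℝ ∞ φ UU) (i : ℕ) : ∃ M : ℝ, 0 ≤ M ∧ ∀ x ∈ AA,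
    ‖iteratedFDerivWithin ℝ i φ UU x‖ ≤ M := by
  have h1 : ContinuousOn (iteratedFDerivWithin ℝ i φ UU) AA :=
    (hφ.continuousOn_iteratedFDerivWithin (by exact_mod_cast le_top)
      isOpen_UU.uniqueDiffOn).mono AA_sub
  obtain ⟨M, hM⟩ := isCompact_AA.exists_bound_of_continuousOn h1
  exact ⟨max M 0, le_max_right _ _, fun x hx => (hM x hx).trans (le_max_left _ _)⟩

lemma cdOn_G0 (s : ℝ) : ContDiffOn ℝ ∞ (G0 s) UU := fun x hx => by
  have hx0 : x ≠ 0 := hx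
  have h1 : ContDiffAt ℝ ∞ (fun x : ℂ => ‖x‖ ^ 4) x := (contDiffAt_norm ℝ hx0).pow 4
  have h2 : ContDiffAt ℝ ∞ (fun x : ℂ => (‖x‖ ^ 4)⁻¹) x := h1.inv (by
    have := norm_pos_iff.mpr hx0
    positivity)
  exact (h2.mul (cd_rpow (-s) hx0)).contDiffWithinAt

lemma cdOn_log : ContDiffOn ℝ ∞ (fun p : ℂ => -Real.log (‖p‖ ^ 2)) UU := fun x hx =>
  (cd_logsq hx).neg.contDiffWithinAt

/-- derivatives of `gI (fyw s F)` -/
lemma der_fyw (s : ℝ) (k n : ℕ) : ∃ C : ℝ, 0 ≤ C ∧ ∀ (F : ℝ → ℂ) (S : ℝ), TF F → Bd F n S → ∀ x,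
    ‖x‖ ^ k * ‖iteratedFDeriv ℝ n (Xi590.gI (fyw s F)) x‖ ≤ C * S := by
  choose M hM0 hM using fun i => bd_on (cdOn_G0 s) i
  choose M' hM0' hM' using fun i => bd_on cdOn_log i
  set D : ℝ := 1 + ∑ i ∈ Finset.range (n + 1), M' i with hDdef
  have hsum : 0 ≤ ∑ i ∈ Finset.range (n + 1), M' i := Finset.sum_nonneg fun i _ => hM0' i
  have hD1 : 1 ≤ D := by rw [hDdef]; linarith
  have hpos : 0 ≤ ∑ i ∈ Finset.range (n + 1), (n.choose i : ℝ) * M i *
      ((n - i).factorial * D ^ (n - i)) :=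
    Finset.sum_nonneg fun i _ => by have := hM0 i; positivity
  refine ⟨Real.exp 1 ^ k * ∑ i ∈ Finset.range (n + 1), (n.choose i : ℝ) * M i *
      ((n - i).factorial * D ^ (n - i)), by positivity, fun F S hF hS x => ?_⟩
  have hS0 : 0 ≤ S := (norm_nonneg _).trans (hS 0 (Nat.zero_le _) 0)
  have e : Xi590.gI (fyw s F) = fun p => G0 s p • (F ∘ fun p : ℂ => -Real.log (‖p‖ ^ 2)) p :=
    funext fun p => gI_fyw s F p
  by_cases hx : x ∈ AA
  · have hxU := AA_sub hx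
    have hFc : ContDiffOn ℝ ∞ F univ := hF.smooth.contDiffOn
    have hcomp : ContDiffOn ℝ ∞ (F ∘ fun p : ℂ => -Real.log (‖p‖ ^ 2)) UU :=
      hF.smooth.comp_contDiffOn cdOn_log
    have h1 : ∀ m, m ≤ n → ‖iteratedFDerivWithin ℝ m (F ∘ fun p : ℂ => -Real.log (‖p‖ ^ 2)) UU x‖ ≤
        m.factorial * S * D ^ m := by
      intro m hm
      refine norm_iteratedFDerivWithin_comp_le (N := ∞) hFc cdOn_log (by exact_mod_cast le_top)
        uniqueDiffOn_univ isOpen_UU.uniqueDiffOn (fun _ _ => mem_univ _) hxU (fun i hi => ?_)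
        (fun i hi1 him => ?_)
      · rw [iteratedFDerivWithin_univ, norm_iteratedFDeriv_eq_norm_iteratedDeriv]
        exact hS i (hi.trans hm) _
      · calc ‖iteratedFDerivWithin ℝ i (fun p : ℂ => -Real.log (‖p‖ ^ 2)) UU x‖ ≤ M' i := hM' i x hx
          _ ≤ ∑ i ∈ Finset.range (n + 1), M' i :=
              Finset.single_le_sum (f := fun i => M' i) (fun i _ => hM0' i)
                (Finset.mem_range.mpr (by omega))
          _ ≤ D := by rw [hDdef]; linarith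
          _ = D ^ 1 := (pow_one D).symm
          _ ≤ D ^ i := pow_le_pow_right₀ hD1 hi1
    have h2 := norm_iteratedFDerivWithin_smul_le (cdOn_G0 s) hcomp isOpen_UU.uniqueDiffOn hxU (n := n)
      (by exact_mod_cast le_top)
    rw [← iteratedFDerivWithin_of_isOpen n isOpen_UU hxU, e]
    calc ‖x‖ ^ k * ‖iteratedFDerivWithin ℝ n
          (fun p => G0 s p • (F ∘ fun p : ℂ => -Real.log (‖p‖ ^ 2)) p) UU x‖
        ≤ Real.exp 1 ^ k * ∑ i ∈ Finset.range (n + 1), (n.choose i : ℝ) *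
          ‖iteratedFDerivWithin ℝ i (G0 s) UU x‖ *
          ‖iteratedFDerivWithin ℝ (n - i) (F ∘ fun p : ℂ => -Real.log (‖p‖ ^ 2)) UU x‖ := by
          have := hx.2
          gcongr
      _ ≤ Real.exp 1 ^ k * ∑ i ∈ Finset.range (n + 1), (n.choose i : ℝ) * M i *
          ((n - i).factorial * S * D ^ (n - i)) := by
          gcongr with i hi
          · have := hM0 i
            positivity
          · exact hM i x hx
          · exact h1 _ (Nat.sub_le _ _)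
      _ = _ := by
          rw [mul_assoc, Finset.sum_mul]
          congr 1
          refine Finset.sum_congr rfl fun i _ => by ring
  · have h3 : iteratedFDeriv ℝ n (Xi590.gI (fyw s F)) x = 0 := by
      have h4 : tsupport (Xi590.gI (fyw s F)) ⊆ AA := by
        refine closure_minimal (fun y hy => ?_) isClosed_AA
        rw [Function.mem_support] at hy
        by_contra h5
        apply hy
        have h6 : ¬ (Real.exp (-1) ≤ ‖y‖ ∧ ‖y‖ ≤ Real.exp 1) := h5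
        rw [not_and_or, not_le, not_le] at h6
        by_cases hy0 : y = 0
        · subst hy0
          unfold Xi590.gI
          simp
        · have hyp : 0 < ‖y‖ := norm_pos_iff.mpr hy0
          unfold Xi590.gI
          rw [fyw_supp s hF _ (inv_ne_zero hy0), mul_zero]
          rw [norm_inv]
          rcases h6 with h6 | h6
          · right
            rw [lt_inv_comm₀ (Real.exp_pos _) hyp, ← Real.exp_neg]
            exact h6
          · left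
            rw [inv_lt_comm₀ hyp (Real.exp_pos _), ← Real.exp_neg, neg_neg]
            exact h6
      by_contra h5
      exact hx (h4 (support_iteratedFDeriv_subset n h5))
    rw [h3, norm_zero, mul_zero]
    positivity

/-- the grading: `Bd` -/
def Pg (N : ℕ) (F : {F : ℝ → ℂ // TF F}) (S : ℝ) : Prop := Bd F.1 N S

lemma gr_Pg : Gr Pg where
  mono := fun hnN h i hi y => h i (hi.trans hnN) y
  pos := fun h => (norm_nonneg _).trans (h 0 (Nat.zero_le _) 0)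

lemma BD_fyw {s : ℝ} (hs : s ≠ 0) :
    BD Pg (fun F : {F : ℝ → ℂ // TF F} => (CS_fyw hs F.2).gI.S) := by
  intro k n
  obtain ⟨C, hC0, hC⟩ := der_fyw s k n
  refine ⟨n, C, hC0, fun F S hFS => ?_⟩
  have hS := gr_Pg.pos hFS
  refine SchwartzMap.seminorm_le_bound ℝ k n _ (by positivity) fun x => ?_
  rw [CS.S_coe]
  exact hC F.1 S F.2 hFS x

/-- **the uniform bounds** (second clause of `XC`) -/
theorem XB {s : ℝ} (hs : s ≠ 0) (M : ℕ) : ∃ (k : ℕ) (C : ℝ), 0 ≤ C ∧ ∀ (F : ℝ → ℂ) (S : ℝ), TF F →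
    Bd F k S → ‖mA (fyw s F)‖ ≤ C * S ∧ ‖mB (fyw s F)‖ ≤ C * S ∧ ∀ y : ℂ, y ≠ 0 →
      (‖Wf (fyw s F) y‖ ≤ C * S ∧ ‖Wf (fyw s F) y‖ ≤ C * S * ‖y‖ ^ M) ∧
      (‖gg (Wf (fyw s F)) y‖ ≤ C * S ∧ ‖gg (Wf (fyw s F)) y‖ ≤ C * S * ‖y‖ ^ M) := by
  obtain ⟨N0, C0, hC0, h0⟩ := BD.Wf gr_Pg (h := fun F => CS_fyw hs F.2) (BD_fyw hs) 0
  obtain ⟨N1, C1, hC1, h1⟩ := BD.Wf gr_Pg (h := fun F => CS_fyw hs F.2) (BD_fyw hs) M
  have hk : (3 * toC R012.Parseval499.s3 : ℂ) ≠ 0 :=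
    mul_ne_zero (by norm_num) Parseval499.toC_s3_ne
  have hK1 : 1 ≤ ‖(3 * toC R012.Parseval499.s3 : ℂ)‖ := by
    rw [norm_mul]
    have h3 : ‖(3 : ℂ)‖ = 3 := by norm_num
    have h4 := one_le_norm_toC (m := R012.Parseval499.s3) (by
      intro h; rw [h] at hk; simp at hk)
    rw [h3]
    linarith
  set K : ℝ := ‖(3 * toC R012.Parseval499.s3 : ℂ)‖ with hK
  refine ⟨max N0 N1, C0 + C1, by positivity, fun F S hF hS => ?_⟩
  have hS0 : 0 ≤ S := (norm_nonneg _).trans (hS 0 (Nat.zero_le _) 0)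
  obtain ⟨a1, a2, a3⟩ := h0 ⟨F, hF⟩ S (gr_Pg.mono (le_max_left _ _) (show Pg _ ⟨F, hF⟩ S from hS))
  obtain ⟨b1, b2, b3⟩ := h1 ⟨F, hF⟩ S (gr_Pg.mono (le_max_right _ _) (show Pg _ ⟨F, hF⟩ S from hS))
  simp only [pow_zero, mul_one] at a1 a2 a3 b1 b2 b3
  have hC0S : 0 ≤ C0 * S := by positivity
  have hC1S : 0 ≤ C1 * S := by positivity
  have key : ∀ y : ℂ, y ≠ 0 → ‖gg (Wf (fyw s F)) y‖ ≤
      1 / 3 * (‖Wf (fyw s F) (y / (3 * toC R012.Parseval499.s3))‖ + ‖Wf (fyw s F) y‖) := by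
    intro y hy
    have h5 : ‖(1 / 3 : ℂ)‖ = 1 / 3 := by norm_num
    unfold gg
    rw [norm_mul, h5]
    gcongr
    exact norm_sub_le _ _
  refine ⟨by linarith, by linarith, fun y hy => ⟨⟨?_, ?_⟩, ?_, ?_⟩⟩
  · linarith [a3 y hy]
  · refine (b3 y hy).trans ?_
    gcongr
    linarith
  · have e1 := a3 y hy
    have e2 := a3 _ (div_ne_zero hy hk)
    have e3 := key y hy
    linarith
  · have e1 := b3 y hy
    have e2 := b3 _ (div_ne_zero hy hk)
    have e3 := key y hy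
    rw [norm_div, ← hK] at e2
    have e4 : (‖y‖ / K) ^ M ≤ ‖y‖ ^ M := by
      gcongr
      exact div_le_self (norm_nonneg _) hK1
    have e5 : C1 * S * (‖y‖ / K) ^ M ≤ C1 * S * ‖y‖ ^ M := by gcongr
    have e6 : 0 ≤ C1 * S * ‖y‖ ^ M := by positivity
    have e7 : 0 ≤ C0 * S * ‖y‖ ^ M := by positivity
    have e8 : (C0 + C1) * S * ‖y‖ ^ M = C0 * S * ‖y‖ ^ M + C1 * S * ‖y‖ ^ M := by ring
    rw [e8]
    linarith

end Crest.Agent.R017.X6B848
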