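import Crest.Agent.R017.F1Star3_180

/-!
# Row 17, exceptional class, X6 part (B) (helper848): uniform weights

`ez f z x = f x e^{-z |x|²}`; the transforms `W`, `mA`, `mB` of `ez f z` are
`O((1 + z)^{-B})` uniformly in `z ≥ 0` (bounded families of Schwartz functions).
-/

set_option autoImplicit false

noncomputable section

open MeasureTheory Complex Set Filter Topology
open scoped SchwartzMap FourierTransform ContDiff

namespace Crest.Agent.R017.X6B848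

open Crest.Agent.R012 Crest.Agent.R012.Eis Crest.Agent.R012.Po581
open Crest.Agent.R017.Xi590 Crest.Agent.R017.Xn590 Crest.Agent.R017.F1

/-! ### bounded families -/

/-- a family of Schwartz functions, bounded by the weight `w` -/
def BF {ι : Type*} (g : ι → 𝓢(ℂ, ℂ)) (w : ι → ℝ) : Prop :=
  ∀ k n : ℕ, ∃ C : ℝ, 0 ≤ C ∧ ∀ i, SchwartzMap.seminorm ℝ k n (g i) ≤ C * w i

variable {ι : Type*} {g : ι → 𝓢(ℂ, ℂ)} {w : ι → ℝ}

lemma BF.map (h : BF g w) (T : 𝓢(ℂ, ℂ) →L[ℝ] 𝓢(ℂ, ℂ)) :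
    BF (fun i => T (g i)) w := by
  intro k n
  have hq : Continuous ((SchwartzMap.seminorm ℝ k n).comp (T : 𝓢(ℂ, ℂ) →ₗ[ℝ] 𝓢(ℂ, ℂ))) := by
    have h1 : Continuous (SchwartzMap.seminorm ℝ k n : Seminorm ℝ 𝓢(ℂ, ℂ)) :=
      (schwartz_withSeminorms ℝ ℂ ℂ).continuous_seminorm (k, n)
    exact h1.comp T.continuous
  obtain ⟨s, C, -, hC⟩ := Seminorm.bound_of_continuous (schwartz_withSeminorms ℝ ℂ ℂ) _ hq
  choose c hc0 hc using h
  refine ⟨C * ∑ j ∈ s, c j.1 j.2, ?_, fun i => ?_⟩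
  · have : 0 ≤ ∑ j ∈ s, c j.1 j.2 := Finset.sum_nonneg fun j _ => hc0 _ _
    positivity
  · have h1 := hC (g i)
    have h2 : (s.sup (schwartzSeminormFamily ℝ ℂ ℂ)) (g i) ≤
        ∑ j ∈ s, SchwartzMap.seminorm ℝ j.1 j.2 (g i) := by
      have := Seminorm.finset_sup_le_sum (schwartzSeminormFamily ℝ ℂ ℂ) s (g i)
      simp at this
      exact this
    have h3 : (∑ j ∈ s, SchwartzMap.seminorm ℝ j.1 j.2 (g i)) ≤ (∑ j ∈ s, c j.1 j.2) * w i := by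
      rw [Finset.sum_mul]
      exact Finset.sum_le_sum fun j _ => hc _ _ i
    calc SchwartzMap.seminorm ℝ k n (T (g i))
        ≤ (C : ℝ) * (s.sup (schwartzSeminormFamily ℝ ℂ ℂ)) (g i) := h1
      _ ≤ C * ((∑ j ∈ s, c j.1 j.2) * w i) := by
          gcongr
          exact h2.trans h3
      _ = _ := by ring

lemma BF.dec (h : BF g w) (A : ℕ) : ∃ C : ℝ, 0 ≤ C ∧ ∀ i x, ‖g i x‖ * (1 + ‖x‖) ^ A ≤ C * w i := by
  obtain ⟨C0, hC0, h0⟩ := h 0 0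
  obtain ⟨CA, hCA, hA⟩ := h A 0
  refine ⟨2 ^ (A - 1) * (C0 + CA), by positivity, fun i x => ?_⟩
  have e0 := (SchwartzMap.le_seminorm ℝ 0 0 (g i) x).trans (h0 i)
  have eA := (SchwartzMap.le_seminorm ℝ A 0 (g i) x).trans (hA i)
  simp only [norm_iteratedFDeriv_zero, pow_zero, one_mul] at e0 eA
  calc ‖g i x‖ * (1 + ‖x‖) ^ A ≤ ‖g i x‖ * (2 ^ (A - 1) * (1 ^ A + ‖x‖ ^ A)) := by
        gcongr
        exact add_pow_le zero_le_one (norm_nonneg x) A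
    _ = 2 ^ (A - 1) * (‖g i x‖ + ‖x‖ ^ A * ‖g i x‖) := by rw [one_pow]; ring
    _ ≤ 2 ^ (A - 1) * (C0 * w i + CA * w i) := by gcongr
    _ = _ := by ring

/-- `fCS` as a continuous linear map -/
def fCL : 𝓢(ℂ, ℂ) →L[ℝ] 𝓢(ℂ, ℂ) :=
  (SchwartzMap.compCLMOfContinuousLinearEquiv ℝ twoConj).comp
    (FourierTransform.fourierCLM ℝ 𝓢(ℂ, ℂ))

lemma fCL_apply (f : 𝓢(ℂ, ℂ)) : fCL f = fCS f := rfl

/-- `powS` as a continuous linear map -/
def poL (n : ℕ) (hn : n ≠ 0) : 𝓢(ℂ, ℂ) →L[ℝ] 𝓢(ℂ, ℂ) :=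
  SchwartzMap.compCLM ℝ (pow_temperate n) (pow_upper hn)

lemma poL_apply (n : ℕ) (hn : n ≠ 0) (f : 𝓢(ℂ, ℂ)) : poL n hn f = powS n hn f := rfl

/-! ### lattice sums, uniformly -/

lemma Ts_le {R : 𝓢(ℂ, ℂ)} {A : ℕ} {K : ℝ} (hK : ∀ x, ‖R x‖ * (1 + ‖x‖) ^ (A + 3) ≤ K) {σ : ℂ}
    (hσ : 1 ≤ ‖σ‖) : ‖Ts R σ‖ ≤ K * 8 * C3 * (‖σ‖ ^ A)⁻¹ := by
  classical
  have hσp : 0 < ‖σ‖ := by linarith
  have hK0 : 0 ≤ K := (by positivity : (0:ℝ) ≤ ‖R 0‖ * (1 + ‖(0:ℂ)‖) ^ (A + 3)).trans (hK 0)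
  have hs : Summable fun m : Eis => K * 8 * (‖σ‖ ^ A)⁻¹ * ((1 + ‖toC m‖) ^ 3)⁻¹ :=
    summable_inv3.mul_left _
  have hb : ∀ m : Eis, ‖(if m = 0 then 0 else R (σ * toC m) : ℂ)‖ ≤
      K * 8 * (‖σ‖ ^ A)⁻¹ * ((1 + ‖toC m‖) ^ 3)⁻¹ := by
    intro m
    split_ifs with hm
    · rw [norm_zero]; positivity
    · exact term_bound hK hσ hm
  have := tsum_of_norm_bounded hs.hasSum hb
  unfold Ts
  refine this.trans (le_of_eq ?_)
  rw [tsum_mul_left]; unfold C3; ring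

lemma Ts_le' {R : 𝓢(ℂ, ℂ)} {K : ℝ} (hK : ∀ x, ‖R x‖ * (1 + ‖x‖) ^ 3 ≤ K) {d : ℝ} (hd : 0 < d)
    (hd1 : d ≤ 1) {σ : ℂ} (hσ : d ≤ ‖σ‖) : ‖Ts R σ‖ ≤ K * (d ^ 3)⁻¹ * C3 := by
  classical
  have hK0 : 0 ≤ K := (by positivity : (0:ℝ) ≤ ‖R 0‖ * (1 + ‖(0:ℂ)‖) ^ 3).trans (hK 0)
  have hs : Summable fun m : Eis => K * (d ^ 3)⁻¹ * ((1 + ‖toC m‖) ^ 3)⁻¹ :=
    summable_inv3.mul_left _
  have hb : ∀ m : Eis, ‖(if m = 0 then 0 else R (σ * toC m) : ℂ)‖ ≤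
      K * (d ^ 3)⁻¹ * ((1 + ‖toC m‖) ^ 3)⁻¹ := by
    intro m
    split_ifs with hm
    · rw [norm_zero]; positivity
    · refine dil_bound hK hd hd1 (norm_nonneg _) ?_
      rw [norm_mul]
      gcongr
  have := tsum_of_norm_bounded hs.hasSum hb
  unfold Ts
  refine this.trans (le_of_eq ?_)
  rw [tsum_mul_left]; unfold C3; ring

lemma BF.Ts_dec (h : BF g w) (A : ℕ) : ∃ C : ℝ, 0 ≤ C ∧ ∀ i (σ : ℂ), 1 ≤ ‖σ‖ →
    ‖Ts (g i) σ‖ ≤ C * w i * (‖σ‖ ^ A)⁻¹ := by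
  obtain ⟨C, hC0, hC⟩ := h.dec (A + 3)
  have := C3_nonneg
  refine ⟨C * 8 * C3, by positivity, fun i σ hσ => ?_⟩
  refine (Ts_le (hC i) hσ).trans (le_of_eq (by ring))

lemma BF.Ts_bd (h : BF g w) {d : ℝ} (hd : 0 < d) (hd1 : d ≤ 1) : ∃ C : ℝ, 0 ≤ C ∧ ∀ i (σ : ℂ),
    d ≤ ‖σ‖ → ‖Ts (g i) σ‖ ≤ C * w i := by
  obtain ⟨C, hC0, hC⟩ := h.dec 3
  have := C3_nonneg
  refine ⟨C * (d ^ 3)⁻¹ * C3, by positivity, fun i σ hσ => ?_⟩
  refine (Ts_le' (hC i) hd hd1 hσ).trans (le_of_eq (by ring))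

/-! ### the transforms of a bounded family -/

variable {f : ι → ℂ → ℂ}

/-- bounded family of functions supported in annuli (seen from `∞`) -/
def BG (h : ∀ i, CS (f i)) (w : ι → ℝ) : Prop := BF (fun i => (h i).gI.S) w

section

variable {h : ∀ i, CS (f i)}

lemma BG.ps (H : BG h w) : BF (fun i => Ps (h i)) w :=
  (BF.map (BF.map H fCL) (poL 3 (by norm_num)))

lemma BG.fps (H : BG h w) : BF (fun i => fCS (Ps (h i))) w :=
  BF.map H.ps fCL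

lemma BG.mA (H : BG h w) : ∃ C : ℝ, 0 ≤ C ∧ ∀ i, ‖mA (f i)‖ ≤ C * w i := by
  obtain ⟨C, hC0, hC⟩ := H.ps.dec 0
  refine ⟨C, hC0, fun i => ?_⟩
  have := hC i 0
  rwa [Ps_zero, pow_zero, mul_one] at this

lemma BG.mB (H : BG h w) : ∃ C : ℝ, 0 ≤ C ∧ ∀ i, ‖mB (f i)‖ ≤ C * w i := by
  obtain ⟨C, hC0, hC⟩ := H.fps.dec 0
  refine ⟨C, hC0, fun i => ?_⟩
  have := hC i 0
  rwa [fCS_Ps_zero, pow_zero, mul_one] at this

lemma one_le_kap3 : 1 ≤ ‖kap3‖ := by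
  have := norm_kap3
  nlinarith [norm_nonneg kap3]

/-- **uniform bound for `W`** -/
theorem BG.Wf (hw : ∀ i, 0 ≤ w i) (H : BG h w) (A : ℕ) : ∃ C : ℝ, 0 ≤ C ∧ ∀ i (y : ℂ), y ≠ 0 →
    ‖Wf (f i) y‖ ≤ C * w i * ‖y‖ ^ A := by
  obtain ⟨C1, hC1, h1⟩ := H.fps.Ts_dec (3 * A + 2)
  have hb := b0_pos
  set K : ℝ := ‖kap3‖ with hK
  have hKp : 0 < K := norm_pos_iff.mpr kap3_ne
  have hK1 : 1 ≤ K := one_le_kap3
  have hs3 : 0 < 2 / Real.sqrt 3 := by positivity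
  obtain ⟨C2, hC2, h2⟩ := H.ps.Ts_bd (inv_pos.mpr hKp) (inv_le_one_of_one_le₀ hK1)
  obtain ⟨CA, hCA, hA⟩ := H.mA
  obtain ⟨CB, hCB, hB⟩ := H.mB
  set B : ℝ := b0 * C2 + b0 * CA + b0 * (2 / Real.sqrt 3) * K ^ 2 * CB with hBdef
  have hB0 : 0 ≤ B := by positivity
  refine ⟨b0 * (2 / Real.sqrt 3) * C1 * K ^ (3 * A + 2) + B * K ^ (3 * A), by positivity,
    fun i y hy => ?_⟩
  have hwi := hw i
  have hτ : nrt 3 y ≠ 0 := nrt_ne_zero (by norm_num) hy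
  set t : ℝ := ‖nrt 3 y‖ with ht
  have htp : 0 < t := norm_pos_iff.mpr hτ
  have hty : ‖y‖ = t ^ 3 := (norm_nrt3 y).symm
  rw [hty, ← pow_mul]
  rcases le_or_gt (K * t) 1 with hc | hc
  · rw [Wf_eq (h i) hy, norm_mul, Complex.norm_real, Real.norm_of_nonneg (by positivity)]
    have h3 := h1 i ((kap3 * nrt 3 y)⁻¹) (by
      rw [norm_inv, norm_mul]
      exact (one_le_inv₀ (by positivity)).mpr hc)
    rw [norm_inv, norm_mul, inv_pow, inv_inv] at h3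
    calc b0 * (2 / Real.sqrt 3) * (t ^ 2)⁻¹ * ‖Ts (fCS (Ps (h i))) ((kap3 * nrt 3 y)⁻¹)‖
        ≤ b0 * (2 / Real.sqrt 3) * (t ^ 2)⁻¹ * (C1 * w i * (K * t) ^ (3 * A + 2)) := by gcongr
      _ = b0 * (2 / Real.sqrt 3) * C1 * K ^ (3 * A + 2) * w i * t ^ (3 * A) := by
          rw [mul_pow, pow_add t]
          field_simp
      _ ≤ _ := by
          gcongr
          exact le_add_of_nonneg_right (by positivity)
  · have h3 : K⁻¹ ≤ t := by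
      rw [inv_le_iff_one_le_mul₀ hKp, mul_comm]
      exact hc.le
    have h4 := h2 i (nrt 3 y) h3
    have h5 : (t ^ 2)⁻¹ ≤ K ^ 2 := by
      rw [inv_le_iff_one_le_mul₀ (by positivity)]
      have : 1 ≤ (K * t) ^ 2 := one_le_pow₀ hc.le
      calc 1 ≤ (K * t) ^ 2 := this
        _ = _ := by ring
    have h6 : ‖F1.Wf (f i) y‖ ≤ B * w i := by
      unfold F1.Wf
      refine (norm_sub_le _ _).trans ?_
      refine (add_le_add (norm_add_le _ _) le_rfl).trans ?_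
      rw [fO_eq_Ts (h i), norm_mul, norm_mul, norm_mul, Complex.norm_real, Complex.norm_real,
        Real.norm_of_nonneg hb.le, Real.norm_of_nonneg (by positivity)]
      have a1 := hA i
      have a2 := hB i
      calc b0 * ‖Ts (Ps (h i)) (nrt 3 y)‖ + b0 * ‖F1.mA (f i)‖ +
            b0 * (2 / Real.sqrt 3) * (t ^ 2)⁻¹ * ‖F1.mB (f i)‖
          ≤ b0 * (C2 * w i) + b0 * (CA * w i) +
            b0 * (2 / Real.sqrt 3) * K ^ 2 * (CB * w i) := by gcongr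
        _ = B * w i := by rw [hBdef]; ring
    have h7 : 1 ≤ K ^ (3 * A) * t ^ (3 * A) := by
      rw [← mul_pow]; exact one_le_pow₀ hc.le
    have hBw : 0 ≤ B * w i := by positivity
    calc ‖F1.Wf (f i) y‖ ≤ B * w i := h6
      _ ≤ B * w i * (K ^ (3 * A) * t ^ (3 * A)) := le_mul_of_one_le_right hBw h7
      _ = B * K ^ (3 * A) * w i * t ^ (3 * A) := by ring
      _ ≤ _ := by
          gcongr
          exact le_add_of_nonneg_left (by positivity)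

end

/-! ### damping -/

/-- `f(x) e^{-z |x|²}` -/
def ez (f : ℂ → ℂ) (z : ℝ) (x : ℂ) : ℂ := ((Real.exp (-z * ‖x‖ ^ 2) : ℝ) : ℂ) * f x

lemma contDiff_ez (z : ℝ) : ContDiff ℝ ∞ fun x : ℂ => ((Real.exp (-z * ‖x‖ ^ 2) : ℝ) : ℂ) :=
  Complex.ofRealCLM.contDiff.comp (Real.contDiff_exp.comp (contDiff_const.mul (contDiff_norm_sq ℝ)))

lemma CS_ez {f : ℂ → ℂ} (h : CS f) (z : ℝ) : CS (ez f z) := by
  refine ⟨(contDiff_ez z).mul h.smooth, ?_⟩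
  obtain ⟨a, b, ha, hab, hs⟩ := h.supp
  exact ⟨a, b, ha, hab, fun x hx => by unfold ez; rw [hs x hx, mul_zero]⟩

lemma Ev_ez {f : ℂ → ℂ} (h : Ev f) (z : ℝ) : Ev (ez f z) where
  smooth := (CS_ez h.cs z).smooth
  supp := (CS_ez h.cs z).supp
  even x := by unfold ez; rw [norm_neg, h.even]

/-- `|x|⁻²` off `0`, smooth everywhere -/
def rh (a : ℝ) (x : ℂ) : ℝ := Real.smoothTransition (2 * ‖x‖ ^ 2 / a ^ 2 - 1) * (‖x‖ ^ 2)⁻¹

lemma rh_eq {a : ℝ} (ha : 0 < a) {x : ℂ} (hx : a ≤ ‖x‖) : rh a x = (‖x‖ ^ 2)⁻¹ := by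
  unfold rh
  rw [Real.smoothTransition.one_of_one_le, one_mul]
  rw [le_sub_iff_add_le, le_div_iff₀ (by positivity)]
  nlinarith

lemma contDiff_rh {a : ℝ} (ha : 0 < a) : ContDiff ℝ ∞ (rh a) := by
  refine contDiff_iff_contDiffAt.mpr fun x => ?_
  by_cases hx : x = 0
  · subst hx
    have h2 : rh a =ᶠ[𝓝 0] fun _ => 0 := by
      filter_upwards [Metric.ball_mem_nhds (0 : ℂ) (half_pos ha)] with y hy
      have hy' : ‖y‖ < a / 2 := by simpa using hy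
      unfold rh
      rw [Real.smoothTransition.zero_of_nonpos, zero_mul]
      rw [sub_nonpos, div_le_one (by positivity)]
      nlinarith [norm_nonneg y]
    exact (contDiffAt_const (c := (0 : ℝ))).congr_of_eventuallyEq h2
  · have h1 : ContDiffAt ℝ ∞ (fun x : ℂ => ‖x‖ ^ 2) x := (contDiff_norm_sq ℝ).contDiffAt
    have h2 : ContDiffAt ℝ ∞ (fun x : ℂ => (‖x‖ ^ 2)⁻¹) x := h1.inv (by
      have := norm_pos_iff.mpr hx
      positivity)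
    have h3 : ContDiffAt ℝ ∞ (fun x : ℂ => Real.smoothTransition (2 * ‖x‖ ^ 2 / a ^ 2 - 1)) x := by
      refine Real.smoothTransition.contDiffAt.comp x ?_
      exact ((contDiffAt_const.mul h1).div_const _).sub contDiffAt_const
    exact h3.mul h2

/-- `(1+z)^m e^{-c z}` is bounded -/
lemma pow_exp_bd {c : ℝ} (hc : 0 < c) (m : ℕ) : ∃ C : ℝ, 0 ≤ C ∧ ∀ z : ℝ, 0 ≤ z →
    (1 + z) ^ m * Real.exp (-(c * z)) ≤ C := by
  refine ⟨(m.factorial : ℝ) / c ^ m * Real.exp c, by positivity, fun z hz => ?_⟩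
  have h1 := Real.pow_div_factorial_le_exp (c * (1 + z)) (by positivity) m
  have h2 : (1 + z) ^ m ≤ (m.factorial : ℝ) / c ^ m * Real.exp (c * (1 + z)) := by
    rw [div_le_iff₀ (by positivity), mul_pow] at h1
    rw [div_mul_eq_mul_div, le_div_iff₀ (by positivity)]
    linarith
  calc (1 + z) ^ m * Real.exp (-(c * z))
      ≤ (m.factorial : ℝ) / c ^ m * Real.exp (c * (1 + z)) * Real.exp (-(c * z)) := by gcongr
    _ = (m.factorial : ℝ) / c ^ m * (Real.exp (c * (1 + z)) * Real.exp (-(c * z))) := by ring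
    _ = _ := by rw [← Real.exp_add]; congr 2; ring

/-- derivatives of `e^{-z ρ}` on a compact set where `ρ ≥ c` -/
lemma exp_der {ρ : ℂ → ℝ} (hρ : ContDiff ℝ ∞ ρ) {S : Set ℂ} (hS : IsCompact S) {c : ℝ} (hc : 0 < c)
    (hρc : ∀ x ∈ S, c ≤ ρ x) (n B : ℕ) : ∃ C : ℝ, 0 ≤ C ∧ ∀ z : ℝ, 0 ≤ z → ∀ x ∈ S,
    ‖iteratedFDeriv ℝ n (fun x => Real.exp (-z * ρ x)) x‖ ≤ C * ((1 + z) ^ B)⁻¹ := by
  -- a common bound for the derivatives of `ρ`
  have hD : ∀ i : ℕ, ∃ M : ℝ, ∀ x ∈ S, ‖iteratedFDeriv ℝ i ρ x‖ ≤ M := by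
    intro i
    have hcont : Continuous (iteratedFDeriv ℝ i ρ) :=
      hρ.continuous_iteratedFDeriv (by exact_mod_cast le_top)
    obtain ⟨M, hM⟩ := hS.exists_bound_of_continuousOn hcont.continuousOn
    exact ⟨M, hM⟩
  choose M hM using hD
  set D : ℝ := 1 + ∑ i ∈ Finset.range (n + 1), |M i| with hDdef
  have hsum : 0 ≤ ∑ i ∈ Finset.range (n + 1), |M i| := Finset.sum_nonneg fun _ _ => abs_nonneg _
  have hD1 : 1 ≤ D := by rw [hDdef]; linarith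
  obtain ⟨E, hE0, hE⟩ := pow_exp_bd hc (n + B)
  refine ⟨n.factorial * E * D ^ n, by positivity, fun z hz x hx => ?_⟩
  have h1 : ∀ i, i ≤ n → ‖iteratedFDeriv ℝ i (fun s : ℝ => Real.exp (-z * s)) (ρ x)‖ ≤
      (1 + z) ^ n * Real.exp (-(c * z)) := by
    intro i hi
    rw [norm_iteratedFDeriv_eq_norm_iteratedDeriv, iteratedDeriv_exp_const_mul]
    rw [norm_mul, norm_pow, norm_neg, Real.norm_of_nonneg hz, Real.norm_of_nonneg (Real.exp_pos _).le]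
    have e1 : z ^ i ≤ (1 + z) ^ n := by
      calc z ^ i ≤ (1 + z) ^ i := by gcongr; linarith
        _ ≤ (1 + z) ^ n := pow_le_pow_right₀ (by linarith) hi
    have e2 : Real.exp (-z * ρ x) ≤ Real.exp (-(c * z)) := by
      apply Real.exp_le_exp.mpr
      have := hρc x hx
      nlinarith
    gcongr
  have h2 : ∀ i, 1 ≤ i → i ≤ n → ‖iteratedFDeriv ℝ i ρ x‖ ≤ D ^ i := by
    intro i hi1 hin
    calc ‖iteratedFDeriv ℝ i ρ x‖ ≤ M i := hM i x hx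
      _ ≤ |M i| := le_abs_self _
      _ ≤ ∑ i ∈ Finset.range (n + 1), |M i| :=
          Finset.single_le_sum (f := fun i => |M i|) (fun _ _ => abs_nonneg _)
            (Finset.mem_range.mpr (by omega))
      _ ≤ D := by rw [hDdef]; linarith
      _ = D ^ 1 := (pow_one D).symm
      _ ≤ D ^ i := pow_le_pow_right₀ hD1 hi1
  have hg : ContDiff ℝ ∞ (fun s : ℝ => Real.exp (-z * s)) :=
    Real.contDiff_exp.comp (contDiff_const.mul contDiff_id)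
  have h3 := norm_iteratedFDeriv_comp_le (n := n) hg hρ (by exact_mod_cast le_top) x h1 h2
  have h4 : (fun x => Real.exp (-z * ρ x)) = (fun s : ℝ => Real.exp (-z * s)) ∘ ρ := rfl
  rw [h4]
  refine h3.trans ?_
  have h5 : (1 + z) ^ n * Real.exp (-(c * z)) ≤ E * ((1 + z) ^ B)⁻¹ := by
    rw [← div_eq_mul_inv, le_div_iff₀ (by positivity)]
    calc (1 + z) ^ n * Real.exp (-(c * z)) * (1 + z) ^ B
        = (1 + z) ^ (n + B) * Real.exp (-(c * z)) := by rw [pow_add]; ring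
      _ ≤ E := hE z hz
  calc (n.factorial : ℝ) * ((1 + z) ^ n * Real.exp (-(c * z))) * D ^ n
      ≤ n.factorial * (E * ((1 + z) ^ B)⁻¹) * D ^ n := by gcongr
    _ = _ := by ring

/-- derivatives of `G e^{-z ρ}` -/
lemma fam_der {G : ℂ → ℂ} (hG : ContDiff ℝ ∞ G) {ρ : ℂ → ℝ} (hρ : ContDiff ℝ ∞ ρ) {a b c : ℝ}
    (hc : 0 < c) (hb : 0 ≤ b) (hs : ∀ x, ‖x‖ < a ∨ b < ‖x‖ → G x = 0)
    (hρc : ∀ x, a ≤ ‖x‖ → ‖x‖ ≤ b → c ≤ ρ x) (k n B : ℕ) : ∃ C : ℝ, 0 ≤ C ∧ ∀ z : ℝ, 0 ≤ z → ∀ x,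
    ‖x‖ ^ k * ‖iteratedFDeriv ℝ n (fun x => Real.exp (-z * ρ x) • G x) x‖ ≤
      C * ((1 + z) ^ B)⁻¹ := by
  set S : Set ℂ := {x | a ≤ ‖x‖ ∧ ‖x‖ ≤ b} with hSdef
  have hScl : IsClosed S :=
    (isClosed_le continuous_const continuous_norm).inter (isClosed_le continuous_norm continuous_const)
  have hS : IsCompact S := (isCompact_closedBall (0 : ℂ) b).of_isClosed_subset hScl fun x hx => by
    rw [mem_closedBall_zero_iff]; exact hx.2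
  have h1 := fun i => exp_der hρ hS hc (fun x hx => hρc x hx.1 hx.2) i B
  choose E hE0 hE using h1
  have h2 : ∀ i : ℕ, ∃ M : ℝ, ∀ x ∈ S, ‖iteratedFDeriv ℝ i G x‖ ≤ M := by
    intro i
    have hcont : Continuous (iteratedFDeriv ℝ i G) :=
      hG.continuous_iteratedFDeriv (by exact_mod_cast le_top)
    obtain ⟨M, hM⟩ := hS.exists_bound_of_continuousOn hcont.continuousOn
    exact ⟨M, hM⟩
  choose M hM using h2
  refine ⟨b ^ k * ∑ i ∈ Finset.range (n + 1), (n.choose i : ℝ) * E i * |M (n - i)|, ?_,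
    fun z hz x => ?_⟩
  · have : 0 ≤ ∑ i ∈ Finset.range (n + 1), (n.choose i : ℝ) * E i * |M (n - i)| :=
      Finset.sum_nonneg fun i _ => by have := hE0 i; positivity
    positivity
  by_cases hx : x ∈ S
  · have hexp : ContDiff ℝ ∞ fun x => Real.exp (-z * ρ x) :=
      Real.contDiff_exp.comp (contDiff_const.mul hρ)
    have h3 := norm_iteratedFDeriv_smul_le hexp hG x (n := n) (by exact_mod_cast le_top)
    calc ‖x‖ ^ k * ‖iteratedFDeriv ℝ n (fun x => Real.exp (-z * ρ x) • G x) x‖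
        ≤ b ^ k * ∑ i ∈ Finset.range (n + 1), (n.choose i : ℝ) *
          ‖iteratedFDeriv ℝ i (fun x => Real.exp (-z * ρ x)) x‖ *
            ‖iteratedFDeriv ℝ (n - i) G x‖ := by
          have := hx.2
          gcongr
      _ ≤ b ^ k * ∑ i ∈ Finset.range (n + 1), (n.choose i : ℝ) *
          (E i * ((1 + z) ^ B)⁻¹) * |M (n - i)| := by
          gcongr with i hi
          · have := hE0 i
            positivity
          · exact hE i z hz x hx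
          · exact (hM _ x hx).trans (le_abs_self _)
      _ = _ := by
          rw [mul_assoc, Finset.sum_mul]
          congr 1
          refine Finset.sum_congr rfl fun i _ => by ring
  · have h3 : iteratedFDeriv ℝ n (fun x => Real.exp (-z * ρ x) • G x) x = 0 := by
      have h4 : tsupport (fun x => Real.exp (-z * ρ x) • G x) ⊆ S := by
        refine closure_minimal (fun y hy => ?_) hScl
        rw [Function.mem_support] at hy
        by_contra h5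
        apply hy
        rw [hs y, smul_zero]
        have h6 : ¬ (a ≤ ‖y‖ ∧ ‖y‖ ≤ b) := h5
        rwa [not_and_or, not_le, not_le] at h6
      by_contra h5
      exact hx (h4 (support_iteratedFDeriv_subset n h5))
    rw [h3, norm_zero, mul_zero]
    have : 0 ≤ ∑ i ∈ Finset.range (n + 1), (n.choose i : ℝ) * E i * |M (n - i)| :=
      Finset.sum_nonneg fun i _ => by have := hE0 i; positivity
    positivity

/-- **the damped family is bounded**, with weight `(1+z)^{-B}` -/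
theorem BG_ez {f : ℂ → ℂ} (h : CS f) (B : ℕ) :
    BG (fun z : {z : ℝ // 0 ≤ z} => CS_ez h z.1) (fun z => ((1 + z.1) ^ B)⁻¹) := by
  obtain ⟨a, b, ha, hab, hs⟩ := h.gI.supp
  have hb : 0 < b := ha.trans hab
  intro k n
  have hc : 0 < (b ^ 2)⁻¹ := by positivity
  obtain ⟨C, hC0, hC⟩ := fam_der h.gI.smooth (contDiff_rh ha) hc hb.le hs (fun x h1 h2 => by
    rw [rh_eq ha h1]
    have : 0 < ‖x‖ := by linarith
    gcongr) k n B
  refine ⟨C, hC0, fun z => ?_⟩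
  refine SchwartzMap.seminorm_le_bound ℝ k n _ (by have := z.2; positivity) fun x => ?_
  have e : ((CS_ez h z.1).gI.S : ℂ → ℂ) = fun x => Real.exp (-z.1 * rh a x) • Xi590.gI f x := by
    rw [CS.S_coe]
    funext x
    by_cases hx : a ≤ ‖x‖
    · rw [rh_eq ha hx, Complex.real_smul]
      unfold Xi590.gI ez
      rw [norm_inv, inv_pow]
      ring
    · have h0 := hs x (Or.inl (not_le.mp hx))
      rw [h0, smul_zero]
      unfold Xi590.gI ez at *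
      rw [mul_left_comm, h0, mul_zero]
  rw [e]
  exact hC z.1 z.2 x

/-- **uniform bound for `mA`** -/
theorem mA_ez {f : ℂ → ℂ} (h : Ev f) (B : ℕ) : ∃ C : ℝ, 0 ≤ C ∧ ∀ z : ℝ, 0 ≤ z →
    ‖mA (ez f z)‖ ≤ C * ((1 + z) ^ B)⁻¹ := by
  obtain ⟨C, hC0, hC⟩ := (BG_ez h.cs B).mA
  exact ⟨C, hC0, fun z hz => hC ⟨z, hz⟩⟩

/-- **uniform bound for `mB`** -/
theorem mB_ez {f : ℂ → ℂ} (h : Ev f) (B : ℕ) : ∃ C : ℝ, 0 ≤ C ∧ ∀ z : ℝ, 0 ≤ z →
    ‖mB (ez f z)‖ ≤ C * ((1 + z) ^ B)⁻¹ := by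
  obtain ⟨C, hC0, hC⟩ := (BG_ez h.cs B).mB
  exact ⟨C, hC0, fun z hz => hC ⟨z, hz⟩⟩

/-- **uniform bound for `W`** -/
theorem Wf_ez {f : ℂ → ℂ} (h : Ev f) (A B : ℕ) : ∃ C : ℝ, 0 ≤ C ∧ ∀ z : ℝ, 0 ≤ z → ∀ y : ℂ, y ≠ 0 →
    ‖Wf (ez f z) y‖ ≤ C * ((1 + z) ^ B)⁻¹ ∧ ‖Wf (ez f z) y‖ ≤ C * ((1 + z) ^ B)⁻¹ * ‖y‖ ^ A := by
  have hw : ∀ z : {z : ℝ // 0 ≤ z}, 0 ≤ ((1 + z.1) ^ B)⁻¹ := fun z => by
    have := z.2; positivity
  obtain ⟨C, hC0, hC⟩ := (BG_ez h.cs B).Wf hw 0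
  obtain ⟨C', hC0', hC'⟩ := (BG_ez h.cs B).Wf hw A
  refine ⟨C + C', by positivity, fun z hz y hy => ⟨?_, ?_⟩⟩
  · have h1 := hC ⟨z, hz⟩ y hy
    rw [pow_zero, mul_one] at h1
    refine h1.trans ?_
    gcongr
    linarith
  · refine (hC' ⟨z, hz⟩ y hy).trans ?_
    gcongr
    linarith

/-- **uniform bound for `g(W)`** -/
theorem gg_ez {f : ℂ → ℂ} (h : Ev f) (A B : ℕ) : ∃ C : ℝ, 0 ≤ C ∧ ∀ z : ℝ, 0 ≤ z → ∀ y : ℂ, y ≠ 0 →
    ‖gg (Wf (ez f z)) y‖ ≤ C * ((1 + z) ^ B)⁻¹ ∧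
      ‖gg (Wf (ez f z)) y‖ ≤ C * ((1 + z) ^ B)⁻¹ * ‖y‖ ^ A := by
  obtain ⟨C, hC0, hC⟩ := Wf_ez h A B
  have hk : (3 * toC R012.Parseval499.s3 : ℂ) ≠ 0 :=
    mul_ne_zero (by norm_num) Parseval499.toC_s3_ne
  set K : ℝ := ‖(3 * toC R012.Parseval499.s3 : ℂ)‖ with hK
  have hKp : 0 < K := norm_pos_iff.mpr hk
  refine ⟨C * (1 + (K ^ A)⁻¹), by positivity, fun z hz y hy => ?_⟩
  obtain ⟨h1, h2⟩ := hC z hz y hy
  obtain ⟨h3, h4⟩ := hC z hz _ (div_ne_zero hy hk)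
  have h5 : ‖(1 / 3 : ℂ)‖ = 1 / 3 := by norm_num
  have hzB : 0 ≤ ((1 + z) ^ B)⁻¹ := by positivity
  have e1 : ‖gg (Wf (ez f z)) y‖ ≤ 1 / 3 * (‖Wf (ez f z) (y / (3 * toC R012.Parseval499.s3))‖ +
      ‖Wf (ez f z) y‖) := by
    unfold gg
    rw [norm_mul, h5]
    gcongr
    exact norm_sub_le _ _
  constructor
  · have hCz : 0 ≤ C * ((1 + z) ^ B)⁻¹ := by positivity
    have h6 : 0 ≤ C * (K ^ A)⁻¹ * ((1 + z) ^ B)⁻¹ := by positivity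
    have h7 : C * (1 + (K ^ A)⁻¹) * ((1 + z) ^ B)⁻¹ =
        C * ((1 + z) ^ B)⁻¹ + C * (K ^ A)⁻¹ * ((1 + z) ^ B)⁻¹ := by ring
    rw [h7]
    linarith
  · rw [norm_div, ← hK, div_pow] at h4
    have hCz : 0 ≤ C * ((1 + z) ^ B)⁻¹ * ‖y‖ ^ A := by positivity
    have h6 : 0 ≤ C * (K ^ A)⁻¹ * ((1 + z) ^ B)⁻¹ * ‖y‖ ^ A := by positivity
    have h7 : C * (1 + (K ^ A)⁻¹) * ((1 + z) ^ B)⁻¹ * ‖y‖ ^ A =
        C * ((1 + z) ^ B)⁻¹ * ‖y‖ ^ A + C * (K ^ A)⁻¹ * ((1 + z) ^ B)⁻¹ * ‖y‖ ^ A := by ring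
    have h8 : C * ((1 + z) ^ B)⁻¹ * (‖y‖ ^ A / K ^ A) =
        C * (K ^ A)⁻¹ * ((1 + z) ^ B)⁻¹ * ‖y‖ ^ A := by ring
    rw [h7]
    rw [h8] at h4
    linarith

end Crest.Agent.R017.X6B848
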