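import Crest.Agent.R017.X6C2_180

/-!
# Row 17, exceptional class, X6 (C), part 3 (helper180): the local sums `Lam δ σ`
-/

set_option autoImplicit false
set_option linter.unusedVariables false

noncomputable section

open Complex
open scoped ComplexConjugate

namespace Crest.Agent.R017.X6C180

open Crest.Agent.R012 Crest.Agent.R012.Eis Crest.Agent.R012.Sym645
open Crest.Agent.R012.Parseval499 (frq s3 toC_s3_ne)
open Crest.Agent.R017.FE47 (SM BM)
open Crest.Agent.R017.F1
open Crest.Agent.R017.PX764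

lemma wC_exp : Complex.exp (((2 * Real.pi / 3 : ℝ) : ℂ) * Complex.I) = wC := by
  rw [Complex.exp_mul_I, ← Complex.ofReal_cos, ← Complex.ofReal_sin]
  have h1 : Real.cos (2 * Real.pi / 3) = -1 / 2 := by
    rw [show 2 * Real.pi / 3 = Real.pi - Real.pi / 3 by ring, Real.cos_pi_sub,
      Real.cos_pi_div_three]
    norm_num
  have h2 : Real.sin (2 * Real.pi / 3) = Real.sqrt 3 / 2 := by
    rw [show 2 * Real.pi / 3 = Real.pi - Real.pi / 3 by ring, Real.sin_pi_sub,
      Real.sin_pi_div_three]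
  rw [h1, h2]
  apply Complex.ext <;> simp [wC]

lemma eC_third (v : Eis) : eC (toC v / (3 * toC s3)) = wC ^ v.im := by
  have h1 : (toC v / (3 * toC s3)).re = (v.im : ℝ) / 6 := by
    have h2 := Parseval499.two_re_div_s3 v
    have h3 : toC v / (3 * toC s3) = (toC v / toC s3) / ((3 : ℝ) : ℂ) := by
      have := toC_s3_ne
      push_cast
      field_simp
    rw [h3, Complex.div_ofReal_re]
    linarith
  have e : eC (toC v / (3 * toC s3)) = Complex.exp (((4 * Real.pi *
      (toC v / (3 * toC s3)).re : ℝ) : ℂ) * Complex.I) := TateC413.eC_eq _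
  rw [e, h1, ← wC_exp, ← Complex.exp_int_mul]
  congr 1
  push_cast
  ring

lemma wC_zpow_eq_one {n : ℤ} (h : wC ^ n = 1) : (3 : ℤ) ∣ n := by
  have h3 : n % 3 = 0 ∨ n % 3 = 1 ∨ n % 3 = 2 := by omega
  rcases h3 with h3 | h3 | h3
  · omega
  · exfalso
    have : wC ^ n = wC ^ (1 : ℤ) := wC_zpow_mod _ _ (by omega)
    rw [this, zpow_one] at h
    exact wC_ne_one h
  · exfalso
    have : wC ^ n = wC ^ (2 : ℤ) := wC_zpow_mod _ _ (by omega)
    rw [this] at h
    exact wC_sq_ne_one (by exact_mod_cast h)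

section lam

open Classical in
lemma pmod_lam {δ : Eis} (h3 : (3 : Eis) ∣ δ) (hδ0 : δ ≠ 0) (w : Eis) :
    PMod (3 * δ) (fun x => (if IsPrim x then (starRingEnd ℂ) (sy δ x) else 0) *
      eC (toC w * toC x / (toC s3 * toC (3 * δ)))) := by
  refine PMod.mul (fun x t => ?_) (pmod_eC3 (three_mul_ne hδ0) w)
  have h := pmod_aI δ x t
  simp only at h
  rw [aI_dvd h3, aI_dvd h3] at h
  exact h

lemma norm_sy_one' {δ u : Eis} (hu : IsPrim u) (hc : IsCoprime δ u) : ‖sy δ u‖ = 1 :=
  norm_sy_of_isCoprime (prim_nm_mod hu) hc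

lemma conj_sy_mul {δ u : Eis} (hu : IsPrim u) (hc : IsCoprime δ u) :
    conj (sy δ u) * sy δ u = 1 := by
  rw [mul_comm, Complex.mul_conj, Complex.normSq_eq_norm_sq, norm_sy_one' hu hc]; norm_num

lemma Lam_mul_prim {δ u : Eis} (h3 : (3 : Eis) ∣ δ) (hδ : δ ∈ SM 3) (hu : IsPrim u) (w : Eis) :
    Lam δ (w * u) = sy δ u * Lam δ w := by
  classical
  have hδ0 : δ ≠ 0 := hδ.1
  have hcop := SM3_coprime hδ hu
  have hcop3 : IsCoprime u (3 * δ) := (hu.isCoprime_three).mul_right hcop.symm
  have h1 : Lam δ w = conj (sy δ u) * Lam δ (w * u) := by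
    have h2 := sumMod_mul_coprime (three_mul_ne hδ0) (pmod_lam h3 hδ0 w) hcop3
    unfold Lam
    rw [← h2, ← sumMod_mul_left (three_mul_ne hδ0)]
    refine sumMod_congr fun x => ?_
    by_cases hx : IsPrim x
    · rw [if_pos hx, if_pos ((prim_mul_iff hu).mpr hx), sy_mul_right _ hu.ne_zero hx.ne_zero,
        map_mul, map_mul toC u x, map_mul toC w u,
        show toC w * (toC u * toC x) = toC w * toC u * toC x by ring]
      ring
    · rw [if_neg hx, if_neg (fun h => hx ((prim_mul_iff hu).mp h))]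
      simp
  rw [h1, ← mul_assoc, mul_comm (sy δ u), conj_sy_mul hu hcop, one_mul]

lemma isPrim_one_add (z : Eis) : IsPrim (1 + 3 * z) := ⟨z, by ring⟩

lemma Lam_char {δ w : Eis} (h3 : (3 : Eis) ∣ δ) (hδ : δ ∈ SM 3) (hd : δ ∣ 3 * w)
    (hne : Lam δ w ≠ 0) (z : Eis) :
    eC (toC w * toC z / (toC s3 * toC δ)) = sy δ (1 + 3 * z) := by
  classical
  have hδ0 : δ ≠ 0 := hδ.1
  have hδC : toC δ ≠ 0 := by rwa [Ne, toC_eq_zero]
  have hs := toC_s3_ne
  set b : Eis := 1 + 3 * z with hb
  have hbp : IsPrim b := isPrim_one_add z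
  have hcop := SM3_coprime hδ hbp
  have hcop3 : IsCoprime b (3 * δ) := (hbp.isCoprime_three).mul_right hcop.symm
  have h2 := sumMod_mul_coprime (three_mul_ne hδ0) (pmod_lam h3 hδ0 w) hcop3
  have h1 : Lam δ w = (conj (sy δ b) * eC (toC w * toC z / (toC s3 * toC δ))) * Lam δ w := by
    conv_lhs => unfold Lam
    rw [← h2]
    unfold Lam
    rw [← sumMod_mul_left (three_mul_ne hδ0)]
    refine sumMod_congr fun x => ?_
    by_cases hx : IsPrim x
    · rw [if_pos hx, if_pos ((prim_mul_iff hbp).mpr hx), sy_mul_right _ hbp.ne_zero hx.ne_zero,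
        map_mul]
      obtain ⟨y, hy⟩ : ∃ y : Eis, x = 1 + 3 * y := by
        obtain ⟨y, hy⟩ := hx
        exact ⟨y, by linear_combination hy⟩
      obtain ⟨t, ht⟩ := hd
      have e1 : toC w * toC (b * x) / (toC s3 * toC (3 * δ)) =
          toC w * toC x / (toC s3 * toC (3 * δ)) + toC w * toC z / (toC s3 * toC δ) +
            toC (t * (z * y)) / toC s3 := by
        have ht' : 3 * toC w = toC δ * toC t := by
          rw [← toC_three', ← map_mul, ← map_mul, ht]
        have e2 : toC (b * x) = toC x + 3 * toC z * (1 + 3 * toC y) := by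
          rw [hb, hy]
          simp only [map_mul, map_add, map_one, toC_three']
          ring
        rw [e2]
        simp only [map_mul, toC_three']
        field_simp
        linear_combination (3 * toC z * toC y) * ht'
      rw [e1, R012.eC_add, R012.eC_add, Parseval499.eC_toC_div_s3]
      ring
    · rw [if_neg hx, if_neg (fun h => hx ((prim_mul_iff hbp).mp h))]
      simp
  have h4 : (1 - conj (sy δ b) * eC (toC w * toC z / (toC s3 * toC δ))) * Lam δ w = 0 := by
    linear_combination h1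
  rcases mul_eq_zero.mp h4 with h5 | h5
  · have h6 := conj_sy_mul hbp hcop
    have h7 : sy δ b * conj (sy δ b) = 1 := by rw [mul_comm]; exact h6
    linear_combination (-(sy δ b)) * h5 - (eC (toC w * toC z / (toC s3 * toC δ))) * h7
  · exact absurd h5 hne

end lam

end Crest.Agent.R017.X6C180
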