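import Crest.Agent.R017.X6C3_180
import Crest.Agent.R017.P3th_283

/-!
# Row 17, exceptional class, X6 (C), part 4 (helper180): the S-unit part

* `Sg` : the frequencies `1`, `3 ε`
* `Lam_th` : `σ ∈ Sg`, `δ ∈ Dl σ`, `Lam δ σ ≠ 0` imply `th (δ σ) ≠ 0`
* `cf_mul` : `Lam δ (σ u) th (σ u) = Lam δ σ (th σ / th (δ σ)) th (δ σ u)`
-/

set_option autoImplicit false
set_option linter.unusedVariables false

noncomputable section

open Complex
open scoped ComplexConjugate

namespace Crest.Agent.R017.X6C180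

open Crest.Agent.R012 Crest.Agent.R012.Eis Crest.Agent.R012.Sym645
open Crest.Agent.R012.Parseval499 (frq s3 toC_s3_ne)
open Crest.Agent.R017.FE47 (SM BM)
open Crest.Agent.R017.F1
open Crest.Agent.R017.PX764

/-- the S-unit frequencies `1`, `3 ε` -/
def Sg (σ : Eis) : Prop := σ = 1 ∨ ∃ e : Eis, IsUnit e ∧ σ = 3 * e

lemma Sg.ne_zero {σ : Eis} (h : Sg σ) : σ ≠ 0 := by
  rcases h with rfl | ⟨e, he, rfl⟩
  · exact one_ne_zero
  · exact mul_ne_zero three_ne_zero' he.ne_zero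

lemma th_three_ne {e : Eis} (he : IsUnit e) : th (3 * e) ≠ 0 := by
  have h3 : (3 * e : Eis) = (-w ^ 2 * e) * lam ^ 2 := by rw [three_eq]; ring
  have hu : IsUnit (-w ^ 2 * e) := ((isUnit_w.pow 2).neg).mul he
  have h1 := MFinal49.rho_sq rho_MS rho_rel hu (j := 2) (by norm_num)
  rw [← h3] at h1
  intro h0
  have h2 : rho (3 * e) = 0 := by
    unfold th at h0
    exact (div_eq_zero_iff.mp h0).resolve_right cD_ne
  rw [h2, norm_zero] at h1
  have h4 : MC.kapR (3 * e) = (nm (3 * e) : ℝ) ^ (-(1 / 3) : ℝ) := by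
    unfold MC.kapR
    rw [if_pos]
    rw [show ((3 * e : Eis)).im = 3 * e.im by
      rw [im_mul']
      have h5 : (3 : Eis).re = 3 := rfl
      have h6 : (3 : Eis).im = 0 := rfl
      rw [h5, h6]; ring]
    exact dvd_mul_right _ _
  have h5 : (0 : ℝ) < nm (3 * e) := by
    exact_mod_cast nm_pos.2 (mul_ne_zero three_ne_zero' he.ne_zero)
  have h6 : 0 < (pC * M49.Dsf) ^ 2 * MC.kapR (3 * e) := by
    have := cD_pos
    unfold cD at this
    rw [h4]
    positivity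
  rw [← h1] at h6
  norm_num at h6

lemma Sg.th_ne {σ : Eis} (h : Sg σ) : th σ ≠ 0 := by
  rcases h with rfl | ⟨e, he, rfl⟩
  · rw [th_one]; exact one_ne_zero
  · exact th_three_ne he

lemma Sg.SM {σ : Eis} (h : Sg σ) : σ ∈ SM 3 := by
  refine ⟨h.ne_zero, fun p hp hd => ?_⟩
  rcases h with rfl | ⟨e, he, rfl⟩
  · exact absurd (isUnit_of_dvd_one hd) hp.not_isUnit
  · rcases hp.dvd_or_dvd hd with h | h
    · exact h
    · exact absurd (isUnit_of_dvd_unit h he) hp.not_isUnit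

/-! ### values of the symbols at `4` and `1 + 3 ω` -/

lemma p4 : (1 + 3 * (1 : Eis)) = 4 := by norm_num

lemma sy_w_4 : sy w (1 + 3 * (1 : Eis)) = wC ^ (-1 : ℤ) := by
  rw [sy_w_prim (isPrim_one_add 1)]
  rfl

lemma sy_lam_4 : sy lam (1 + 3 * (1 : Eis)) = wC ^ (1 : ℤ) := by
  rw [sy_lam (isPrim_one_add 1)]
  rfl

lemma sy_w_w : sy w (1 + 3 * w) = wC ^ (-1 : ℤ) := by
  rw [sy_w_prim (isPrim_one_add w)]
  rfl

lemma sy_lam_w : sy lam (1 + 3 * w) = wC ^ (0 : ℤ) := by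
  rw [sy_lam (isPrim_one_add w)]
  rfl

lemma sy_3_4 : sy 3 (1 + 3 * (1 : Eis)) = wC ^ (0 : ℤ) := by
  rw [sy_three (prim_nm_mod (isPrim_one_add 1)), sy_w_4, sy_lam_4, ← zpow_natCast, ← zpow_natCast,
    ← zpow_mul, ← zpow_mul, ← zpow_add₀ wC_ne_zero]
  norm_num

lemma sy_3_w : sy 3 (1 + 3 * w) = wC ^ (-2 : ℤ) := by
  rw [sy_three (prim_nm_mod (isPrim_one_add w)), sy_w_w, sy_lam_w, ← zpow_natCast, ← zpow_natCast,
    ← zpow_mul, ← zpow_mul, ← zpow_add₀ wC_ne_zero]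
  norm_num

lemma unit_pow_cases {e : Eis} (he : IsUnit e) : ∃ i : ℕ, i < 3 ∧ (e = w ^ i ∨ e = -w ^ i) := by
  have h := P3all283.mem_of_isUnit he
  simp only [P3all283.U6, Finset.mem_insert, Finset.mem_singleton] at h
  rcases h with rfl | rfl | rfl | rfl | rfl | rfl
  · exact ⟨0, by norm_num, Or.inl (by simp)⟩
  · exact ⟨0, by norm_num, Or.inr (by simp)⟩
  · exact ⟨1, by norm_num, Or.inl (by simp)⟩
  · exact ⟨1, by norm_num, Or.inr (by simp)⟩
  · exact ⟨2, by norm_num, Or.inl rfl⟩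
  · exact ⟨2, by norm_num, Or.inr rfl⟩

lemma sy_u_4 {e : Eis} {i : ℕ} (h : e = w ^ i ∨ e = -w ^ i) :
    sy e (1 + 3 * (1 : Eis)) = wC ^ (-(i : ℤ)) := by
  rw [sy_unit_left (prim_nm_mod (isPrim_one_add 1)) i h, sy_w_4, ← zpow_natCast, ← zpow_mul]
  congr 1; ring

lemma sy_u_w {e : Eis} {i : ℕ} (h : e = w ^ i ∨ e = -w ^ i) :
    sy e (1 + 3 * w) = wC ^ (-(i : ℤ)) := by
  rw [sy_unit_left (prim_nm_mod (isPrim_one_add w)) i h, sy_w_w, ← zpow_natCast, ← zpow_mul]
  congr 1; ring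

lemma SM_unit_mul {e : Eis} (he : IsUnit e) {k : Eis} (hk : k ∈ SM 3) : e * k ∈ SM 3 := by
  refine ⟨mul_ne_zero he.ne_zero hk.1, fun p hp hd => ?_⟩
  rcases hp.dvd_or_dvd hd with h | h
  · exact absurd (isUnit_of_dvd_unit h he) hp.not_isUnit
  · exact hk.2 p hp h

lemma three_SM : (3 : Eis) ∈ SM 3 := ⟨three_ne_zero', fun p _ h => h⟩

lemma nine_SM : (9 : Eis) ∈ SM 3 := by
  refine ⟨by decide, fun p hp hd => ?_⟩
  have : (9 : Eis) = 3 * 3 := by norm_num
  rw [this] at hd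
  rcases hp.dvd_or_dvd hd with h | h <;> exact h

/-- no term `δ = 3 ε'` at `σ = 3 ε`. -/
lemma Lam_33 {e e' : Eis} (he : IsUnit e) (he' : IsUnit e') : Lam (3 * e') (3 * e) = 0 := by
  by_contra hne
  have hSM : (3 * e' : Eis) ∈ SM 3 := by rw [mul_comm]; exact SM_unit_mul he' three_SM
  obtain ⟨v, hv⟩ := he'.exists_right_inv
  have hdvd : (3 * e' : Eis) ∣ 3 * (3 * e) := ⟨3 * e * v, by linear_combination (-9 * e) * hv⟩
  have key := Lam_char (dvd_mul_right _ _) hSM hdvd hne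
  have h1 : ∀ z : Eis, eC (toC (3 * e) * toC z / (toC s3 * toC (3 * e'))) = 1 := by
    intro z
    have e1 : toC (3 * e) * toC z / (toC s3 * toC (3 * e')) = toC (e * v * z) / toC s3 := by
      have hs := toC_s3_ne
      have he0 : toC e' ≠ 0 := by rw [Ne, toC_eq_zero]; exact he'.ne_zero
      have hv' : toC e' * toC v = 1 := by rw [← map_mul, hv, map_one]
      simp only [map_mul, toC_three']
      field_simp
      linear_combination (-(toC e * toC z)) * hv'
    rw [e1, Parseval499.eC_toC_div_s3]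
  obtain ⟨i, hi, hi'⟩ := unit_pow_cases he'
  have k1 := key 1
  have k2 := key w
  rw [h1, sy_mul_left (prim_nm_mod (isPrim_one_add 1)), sy_3_4, sy_u_4 hi',
    ← zpow_add₀ wC_ne_zero] at k1
  rw [h1, sy_mul_left (prim_nm_mod (isPrim_one_add w)), sy_3_w, sy_u_w hi',
    ← zpow_add₀ wC_ne_zero] at k2
  have d1 := wC_zpow_eq_one k1.symm
  have d2 := wC_zpow_eq_one k2.symm
  omega

lemma nine_case : ∀ η ∈ P3all283.U6, ∀ i ∈ Finset.range 3,
    (3 : ℤ) ∣ η.im + i → (3 : ℤ) ∣ (η * w).im + 4 + i →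
    η * w ^ (2 * i) = 1 ∨ η * w ^ (2 * i) = -1 := by decide

/-- the terms `δ = 9 ε'` at `σ = 3 ε`. -/
lemma Lam_93 {e e' : Eis} (he : IsUnit e) (he' : IsUnit e') (hne : Lam (9 * e') (3 * e) ≠ 0) :
    e * e' = 1 ∨ e * e' = -1 := by
  have hSM : (9 * e' : Eis) ∈ SM 3 := by rw [mul_comm]; exact SM_unit_mul he' nine_SM
  obtain ⟨v, hv⟩ := he'.exists_right_inv
  have hdvd : (9 * e' : Eis) ∣ 3 * (3 * e) := ⟨e * v, by linear_combination (-9 * e) * hv⟩
  have h39 : (3 : Eis) ∣ 9 * e' := ⟨3 * e', by ring⟩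
  have key := Lam_char h39 hSM hdvd hne
  have h1 : ∀ z : Eis, eC (toC (3 * e) * toC z / (toC s3 * toC (9 * e'))) =
      wC ^ ((e * v) * z).im := by
    intro z
    have e1 : toC (3 * e) * toC z / (toC s3 * toC (9 * e')) =
        toC (e * v * z) / (3 * toC s3) := by
      have hs := toC_s3_ne
      have he0 : toC e' ≠ 0 := by rw [Ne, toC_eq_zero]; exact he'.ne_zero
      have hv' : toC e' * toC v = 1 := by rw [← map_mul, hv, map_one]
      have h9 : toC (9 * e') = 9 * toC e' := by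
        rw [show (9 * e' : Eis) = 3 * (3 * e') by ring, map_mul, map_mul, toC_three']; ring
      rw [h9]
      simp only [map_mul, toC_three']
      field_simp
      linear_combination (-9 * (toC e * toC z)) * hv'
    rw [e1, eC_third]
  obtain ⟨i, hi, hi'⟩ := unit_pow_cases he'
  have k1 := key 1
  have k2 := key w
  have h9 : (9 * e' : Eis) = 3 * (3 * e') := by ring
  rw [h1, h9, sy_mul_left (prim_nm_mod (isPrim_one_add 1)),
    sy_mul_left (prim_nm_mod (isPrim_one_add 1)), sy_3_4, sy_u_4 hi',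
    ← zpow_add₀ wC_ne_zero, ← zpow_add₀ wC_ne_zero, mul_one] at k1
  rw [h1, h9, sy_mul_left (prim_nm_mod (isPrim_one_add w)),
    sy_mul_left (prim_nm_mod (isPrim_one_add w)), sy_3_w, sy_u_w hi',
    ← zpow_add₀ wC_ne_zero, ← zpow_add₀ wC_ne_zero] at k2
  set η : Eis := e * v with hη
  have d1 : (3 : ℤ) ∣ η.im + i := by
    apply wC_zpow_eq_one
    rw [zpow_add₀ wC_ne_zero, k1, ← zpow_add₀ wC_ne_zero]
    have : (0 + (0 + -(i : ℤ)) + i) = 0 := by ring
    rw [this, zpow_zero]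
  have d2 : (3 : ℤ) ∣ (η * w).im + 4 + i := by
    apply wC_zpow_eq_one
    rw [zpow_add₀ wC_ne_zero, zpow_add₀ wC_ne_zero, k2, ← zpow_add₀ wC_ne_zero,
      ← zpow_add₀ wC_ne_zero]
    have : ((-2 : ℤ) + (-2 + -(i : ℤ)) + 4 + i) = 0 := by ring
    rw [this, zpow_zero]
  have hvU : IsUnit v := IsUnit.of_mul_eq_one e' (by rw [mul_comm]; exact hv)
  have hηU : η ∈ P3all283.U6 := P3all283.mem_of_isUnit (he.mul hvU)
  have h2 := nine_case η hηU i (Finset.mem_range.mpr hi) d1 d2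
  have h3 : e * e' = η * w ^ (2 * i) := by
    have h4 : e' * e' = w ^ (2 * i) := by
      rcases hi' with h | h <;> rw [h] <;> ring
    calc e * e' = e * (e' * v) * e' := by rw [hv]; ring
      _ = η * (e' * e') := by rw [hη]; ring
      _ = _ := by rw [h4]
  rw [h3]
  exact h2

lemma th_unit_lam6 (x : Eis) : th (27 * x) = th x := by
  have h27 : (27 * x : Eis) = lam ^ 3 * (lam ^ 3 * (-x)) := by
    have h3 := three_eq
    have h27' : (27 : Eis) = (-w ^ 2 * lam ^ 2) ^ 3 := by rw [← h3]; norm_num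
    rw [h27']
    have hw3 : w ^ 3 = 1 := w_cube
    linear_combination (-(lam ^ 6 * x) * (w ^ 3 + 1)) * hw3
  rw [h27, th_lam3, th_lam3, th_neg]

lemma nine_lam (e : Eis) : th (9 * lam * e) = th (3 * (-w * (w * e))) ∧ True := by
  refine ⟨?_, trivial⟩
  have h : (9 * lam * e : Eis) = lam ^ 3 * (3 * (-w * (w * e))) := by
    have h3 := three_eq
    have h9 : (9 : Eis) = 3 * (-w ^ 2 * lam ^ 2) := by rw [← h3]; norm_num
    rw [h9]
    ring
  rw [h, th_lam3]

/-- the divisors. -/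
lemma Dl_cases {σ δ : Eis} (hσ : Sg σ) (hδ : δ ∈ Dl σ) (hne : Lam δ σ ≠ 0) :
    th (δ * σ) ≠ 0 := by
  rw [mem_Dl hσ.ne_zero] at hδ
  obtain ⟨hSM, ⟨t, rfl⟩, hd⟩ := hδ
  rcases hσ with rfl | ⟨e, he, rfl⟩
  · have ht : IsUnit t := by
      have : t ∣ 1 := (mul_dvd_mul_iff_left three_ne_zero').mp hd
      exact isUnit_of_dvd_one this
    rw [mul_one]
    exact th_three_ne ht
  · have ht : t ∣ 3 * e := (mul_dvd_mul_iff_left three_ne_zero').mp hd
    have ht3 : t ∣ lam ^ 2 := by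
      rw [three_eq] at ht
      have h1 : t ∣ lam ^ 2 * (-w ^ 2 * e) := by
        rw [show lam ^ 2 * (-w ^ 2 * e) = -w ^ 2 * lam ^ 2 * e by ring]; exact ht
      exact (IsUnit.dvd_mul_right (((isUnit_w.pow 2).neg).mul he)).mp h1
    obtain ⟨i, hi, hti⟩ := (dvd_prime_pow prime_lam 2).mp ht3
    obtain ⟨u, hu⟩ := hti
    -- `t * u = lam ^ i`
    have htu : t = lam ^ i * ((u⁻¹ : Eisˣ) : Eis) := by
      rw [← hu, mul_assoc, Units.mul_inv, mul_one]
    have hui : IsUnit ((u⁻¹ : Eisˣ) : Eis) := (u⁻¹).isUnit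
    set e' : Eis := ((u⁻¹ : Eisˣ) : Eis) with he'
    rcases (by omega : i = 0 ∨ i = 1 ∨ i = 2) with rfl | rfl | rfl
    · rw [pow_zero, one_mul] at htu
      rw [htu] at hne
      exact absurd (Lam_33 he hui) hne
    · rw [pow_one] at htu
      have h1 : (3 * t * (3 * e) : Eis) = 9 * lam * (e' * e) := by rw [htu]; ring
      rw [h1, (nine_lam _).1]
      refine th_three_ne ?_
      exact (isUnit_w.neg).mul (isUnit_w.mul (hui.mul he))
    · have h2 : t = 3 * (-w * e') := by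
        rw [htu, three_eq]
        have hw3 : w ^ 3 = 1 := w_cube
        linear_combination (-(lam ^ 2 * e')) * hw3
      set f : Eis := -w * e' with hf
      have hfU : IsUnit f := (isUnit_w.neg).mul hui
      rw [h2, show (3 * (3 * f) : Eis) = 9 * f by ring] at hne
      have h3 := Lam_93 he hfU hne
      have h4 : (3 * t * (3 * e) : Eis) = 27 * (e * f) := by rw [h2]; ring
      rw [h4, th_unit_lam6]
      rcases h3 with h | h
      · rw [h, th_one]; exact one_ne_zero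
      · rw [h, th_neg, th_one]; exact one_ne_zero

end Crest.Agent.R017.X6C180
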