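import Crest.Agent.R017.X6C6_180
import Crest.Agent.R017.X6Defs_545

/-!
# Row 17, exceptional class, X6 (C), part 7 (helper180): every `λ`-unit frequency

The identity of `X6545.XC v0` (with the cube-free indicator).
-/

set_option autoImplicit false
set_option linter.unusedVariables false

noncomputable section

open Complex MeasureTheory Set Filter Topology
open scoped ComplexConjugate ContDiff

namespace Crest.Agent.R017.X6C180

open Crest.Agent.R012 Crest.Agent.R012.Eis Crest.Agent.R012.Sym645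
open Crest.Agent.R012.Parseval499 (frq s3 toC_s3_ne)
open Crest.Agent.R017.FE47 (SM BM)
open Crest.Agent.R017.Xi590 Crest.Agent.R017.Xn590
open Crest.Agent.R017.F1
open Crest.Agent.R017.PX764
open Crest.Agent.R017.X6545 (SU TF Bd kap0)

/-- `G x = F (log x)` on `x > 0` -/
def GF (F : ℝ → ℂ) (x : ℝ) : ℂ := if 0 < x then F (Real.log x) else 0

lemma wt_GF {F : ℝ → ℂ} (hF : TF F) : M49.Wt (GF F) where
  smooth := by
    rw [contDiff_iff_contDiffAt]
    intro x
    rcases lt_or_ge x (Real.exp (-3)) with hx | hx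
    · have h0 : GF F =ᶠ[𝓝 x] fun _ => 0 := by
        filter_upwards [gt_mem_nhds hx] with y hy
        unfold GF
        split_ifs with h
        · apply hF.supp
          have h1 : Real.log y < -3 := by
            rw [← Real.log_exp (-3)]
            exact Real.log_lt_log h hy
          rw [abs_of_neg (by linarith)]
          linarith
        · rfl
      exact (contDiffAt_const (c := (0 : ℂ))).congr_of_eventuallyEq h0
    · have hx0 : 0 < x := (Real.exp_pos _).trans_le hx
      have h0 : GF F =ᶠ[𝓝 x] fun y => F (Real.log y) := by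
        filter_upwards [lt_mem_nhds hx0] with y hy
        unfold GF
        rw [if_pos hy]
      refine ContDiffAt.congr_of_eventuallyEq ?_ h0
      exact hF.smooth.contDiffAt.comp x (Real.contDiffAt_log.mpr hx0.ne')
  supp := by
    refine ⟨Real.exp (-2), Real.exp 2, Real.exp_pos _, Real.exp_lt_exp.mpr (by norm_num),
      fun x hx => ?_⟩
    unfold GF
    split_ifs with h
    · apply hF.supp
      rcases hx with hx | hx
      · have h1 : Real.log x < -2 := by
          rw [← Real.log_exp (-2)]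
          exact Real.log_lt_log h hx
        rw [abs_of_neg (by linarith)]
        linarith
      · have h1 : 2 < Real.log x := by
          rw [← Real.log_exp 2]
          exact Real.log_lt_log (Real.exp_pos _) hx
        rw [abs_of_pos (by linarith)]
        exact h1
    · rfl

lemma mellin_GF (F : ℝ → ℂ) :
    mellin (GF F) ((2 / 3 : ℝ) : ℂ) = ∫ y : ℝ, F y * ((Real.exp (2 * y / 3) : ℝ) : ℂ) := by
  unfold mellin
  have h1 := integral_image_eq_integral_abs_deriv_smul (s := (Set.univ : Set ℝ))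
    MeasurableSet.univ (f := Real.exp) (f' := Real.exp)
    (fun x _ => (Real.hasDerivAt_exp x).hasDerivWithinAt) Real.exp_injective.injOn
    (fun t : ℝ => (t : ℂ) ^ (((2 / 3 : ℝ) : ℂ) - 1) • GF F t)
  rw [Set.image_univ, Real.range_exp, setIntegral_univ] at h1
  rw [h1]
  congr 1
  ext y
  have hy := Real.exp_pos y
  have e1 : ((Real.exp y : ℝ) : ℂ) ^ (((2 / 3 : ℝ) : ℂ) - 1) =
      ((Real.exp y ^ ((2 / 3 : ℝ) - 1) : ℝ) : ℂ) := by
    rw [Complex.ofReal_cpow hy.le]; push_cast; rfl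
  rw [e1]
  unfold GF
  rw [if_pos hy, Real.log_exp, abs_of_pos hy, smul_eq_mul, Complex.real_smul, ← mul_assoc,
    ← Complex.ofReal_mul]
  have e2 : Real.exp y * Real.exp y ^ ((2 / 3 : ℝ) - 1) = Real.exp (2 * y / 3) := by
    rw [← Real.exp_mul, ← Real.exp_add]
    congr 1; ring
  rw [e2, mul_comm]

lemma SU.SM {v0 : Eis} (h : SU v0) : v0 ∈ SM 3 := by
  obtain ⟨k, hk⟩ := h
  refine ⟨fun h0 => ?_, fun p hp hd => ?_⟩
  · rw [h0, zero_dvd_iff] at hk
    exact pow_ne_zero k lam_ne_zero hk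
  · exact (hp.dvd_of_dvd_pow (hd.trans hk)).trans lam_dvd_three

lemma SM3_SU {v : Eis} (h : v ∈ SM 3) : SU v := by
  obtain ⟨h0, h1⟩ := h
  obtain ⟨n, hn⟩ : ∃ n, nm v = n := ⟨_, rfl⟩
  induction n using Nat.strong_induction_on generalizing v with
  | _ n ih =>
    by_cases hu : IsUnit v
    · exact ⟨0, by rw [pow_zero]; exact hu.dvd⟩
    · obtain ⟨q, hq, v', rfl⟩ := WfDvdMonoid.exists_irreducible_factor hu h0
      have hv0 : v' ≠ 0 := right_ne_zero_of_mul h0
      have hq3 : q ∣ 3 := h1 q hq.prime (dvd_mul_right _ _)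
      have hql : q ∣ lam := by
        rw [three_eq] at hq3
        rcases hq.prime.dvd_or_dvd hq3 with h | h
        · exact absurd (isUnit_of_dvd_unit h (isUnit_w.pow 2).neg) hq.not_isUnit
        · exact hq.prime.dvd_of_dvd_pow h
      have hlt : nm v' < n := by
        rw [← hn, nm_mul]
        have h3 : 0 < nm v' := nm_pos.2 hv0
        have h4 : nm q ≠ 1 := fun h => hq.not_isUnit (isUnit_iff.mpr h)
        have h5 : 0 < nm q := nm_pos.2 hq.ne_zero
        have h6 : 2 ≤ nm q := by omega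
        nlinarith
      obtain ⟨k, hk⟩ := ih (nm v') hlt hv0 (fun p hp hd => h1 p hp (hd.mul_left q)) rfl
      exact ⟨k + 1, by rw [pow_succ']; exact mul_dvd_mul hql hk⟩

/-- the radial profile -/
def pr (φ : ℂ → ℂ) (t : ℝ) : ℂ := φ ((Real.sqrt t : ℝ) : ℂ)

lemma pr_eq {φ : ℂ → ℂ} (h : Rad φ) (y : ℂ) : φ y = pr φ (‖y‖ ^ 2) := by
  unfold pr
  apply h
  rw [Complex.norm_real, Real.norm_of_nonneg (Real.sqrt_nonneg _), Real.sqrt_sq (norm_nonneg _)]

lemma rad_rV (V : ℝ → ℂ) : Rad (rV V) := fun x y h => by unfold rV; rw [h]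

lemma rad_WF (F : ℝ → ℂ) : Rad (WF F) := (rad_rV _).Wf

/-- one dual term at the frequency `v0 u` with twist `δ`. -/
def DT (v0 δ u : Eis) (K : ℝ → ℂ) : ℂ := by
  classical
  exact sy δ u * ∑' d : Eis, if IsPrim d ∧ CF d then
    sy δ d * (n13 d : ℂ) * th (v0 * u * d) * K (nm d) else 0

lemma th_Cg_twist {v0 u δ : Eis} (hv0 : v0 ∈ SM 3) (hδ : δ ∈ SM 3) (hu : IsPrim u)
    (hsq : Squarefree u) (φ : ℂ → ℂ) (v : ℂ) :
    open Classical in
    th (v0 * u) * Cg (δ * (v0 * u)) (rc φ v) = ∑' d : Eis, if IsPrim d ∧ CF d then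
      sy δ d * (n13 d : ℂ) * th (v0 * u * d) * φ (v / toC d) else 0 := by
  classical
  have hw : NSq (v0 * u) := NSq_of hv0 hsq
  unfold Cg
  rw [← tsum_mul_left]
  refine tsum_congr fun d => ?_
  by_cases hd : IsPrim d
  · rw [if_pos hd]
    have hg : conj (gs (δ * (v0 * u)) d) = sy δ d * conj (gs (v0 * u) d) := by
      have hcop : IsCoprime δ d := SM3_coprime hδ hd
      rw [mul_comm δ, GaussLoc283.gs_mul_left GaussLoc283.syAx (v0 * u) hd hcop, map_mul,
        Complex.conj_conj]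
    rw [hg]
    by_cases hcf : CF d
    · rw [if_pos ⟨hd, hcf⟩, th_cf hw hd hcf]
      unfold rc
      rw [norm_toC_sq]
      have hN : (0 : ℝ) < nm d := by exact_mod_cast nm_pos.2 hd.ne_zero
      have e1 : (nm d : ℝ)⁻¹ = n23 d * n13 d := by
        unfold n23 n13
        rw [← Real.rpow_add hN, ← Real.rpow_neg_one]
        norm_num
      rw [e1]
      push_cast
      ring
    · rw [if_neg (fun h => hcf h.2), gs_ncf hd hcf (fun p hpp hp _ => hw p hpp hp)]
      simp
  · rw [if_neg hd, if_neg (fun h => hd h.1), mul_zero]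

lemma norm_vd (v d : Eis) (δ : Eis) {A : ℝ} (hA : 0 < A) :
    ‖toC v / toC δ / toC d / ((Real.sqrt A : ℝ) : ℂ)‖ ^ 2 =
      (nm v : ℝ) / nm δ / (A * nm d) := by
  rw [norm_div, norm_div, norm_div, Complex.norm_real, Real.norm_of_nonneg (Real.sqrt_nonneg _),
    div_pow, div_pow, div_pow, norm_toC_sq, norm_toC_sq, norm_toC_sq, Real.sq_sqrt hA.le]
  rw [div_div, mul_comm (nm d : ℝ) A]

lemma Dl_mul' {σ u : Eis} (hσ : σ ≠ 0) (hu : IsPrim u) : Dl (σ * u) = Dl σ := by
  ext δ
  rw [mem_Dl (mul_ne_zero hσ hu.ne_zero), mem_Dl hσ]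
  constructor
  · rintro ⟨h1, h2, h3⟩
    refine ⟨h1, h2, ?_⟩
    have hcop : IsCoprime δ u := SM3_coprime h1 hu
    rw [← mul_assoc] at h3
    exact hcop.dvd_of_dvd_mul_right h3
  · rintro ⟨h1, h2, h3⟩
    exact ⟨h1, h2, by rw [← mul_assoc]; exact h3.mul_right u⟩

/-- **(C) the functional equation at the frequency `v0 u`**, `v0` a `λ`-unit. -/
theorem PP_eq_SM {F : ℝ → ℂ} (hF : M49.Wt F) {v0 u : Eis} (hv0 : v0 ∈ SM 3) (hu : IsPrim u)
    (hsq : Squarefree u) {A : ℝ} (hA : 0 < A) :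
    PP v0 u F A = ((cM * ‖th v0‖ ^ 2 * n13 u * A ^ (2 / 3 : ℝ) : ℝ) : ℂ) *
      mellin F ((2 / 3 : ℝ) : ℂ) + ((A ^ (1 / 3 : ℝ) : ℝ) : ℂ) *
      (DT v0 1 u (fun x => (2 / 3 : ℂ) * pr (WF F) ((nm v0 : ℝ) * (nm u / (A * x)))) +
        DT v0 1 u (fun x => (eC (frq 3 v0) + eC (-frq 3 v0)) *
          pr (gg (WF F)) ((nm v0 : ℝ) * (nm u / (A * x)))) +
        ∑ δ ∈ Dl v0, DT v0 δ u (fun x => Lam δ v0 * (((nm δ : ℝ)⁻¹ : ℝ) : ℂ) *
          pr (gg (WF F)) ((nm v0 : ℝ) / nm δ * (nm u / (A * x))))) := by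
  classical
  have hw : NSq (v0 * u) := NSq_of hv0 hsq
  have hne : v0 * u ≠ 0 := mul_ne_zero hv0.1 hu.ne_zero
  rw [PP_eq_Cg hF hw hA, starR rho_MS (ev_fA hF hA) hne, mul_add, mB_fA hF hA, mB_rV1 hF]
  congr 1
  · have h1 : rho (v0 * u) = (cD : ℂ) * th (v0 * u) := by
      unfold th
      have := cD_ne
      field_simp
    have h2 := norm_th_su hv0 hu hsq
    rw [h1, map_mul, Complex.conj_ofReal]
    have h3 : (kP * cD * (Xn960.gamN 3 * (Real.pi / 3)) : ℝ) = cM := kP_cD
    have h3' : (kP : ℂ) * (cD : ℂ) * ((Xn960.gamN 3 * (Real.pi / 3) : ℝ) : ℂ) = (cM : ℂ) := by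
      rw [← h3]; push_cast; ring
    have e : ((cM * ‖th v0‖ ^ 2 * n13 u * A ^ (2 / 3 : ℝ) : ℝ) : ℂ) =
        (cM : ℂ) * ((‖th v0‖ ^ 2 * n13 u : ℝ) : ℂ) * ((A ^ (2 / 3 : ℝ) : ℝ) : ℂ) := by
      push_cast; ring
    rw [e, ← h2, ← h3']
    ring
  · set a : ℂ := ((A ^ (1 / 3 : ℝ) : ℝ) : ℂ) with ha
    set q : ℂ := ((Real.sqrt A : ℝ) : ℂ) with hq
    have e0 : Wf (fA F A) = fun y => a * WF F (y / q) := funext fun y => Wf_fA hA y
    rw [e0, Du_const_mul, ← mul_assoc, mul_comm (th (v0 * u)) a, mul_assoc]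
    congr 1
    unfold Du
    have hgg : gg (fun y => WF F (y / q)) = fun y => gg (WF F) (y / q) := by
      have := gg_dil' (WF F) 1 q
      simpa using this
    rw [hgg, (eC_frq_mul hu v0).1, (eC_frq_mul hu v0).2, Dl_mul' hv0.1 hu, mul_add, mul_add,
      Finset.mul_sum]
    have h1SM : (1 : Eis) ∈ SM 3 := ⟨one_ne_zero, fun p hp hd =>
      absurd (isUnit_of_dvd_one hd) hp.not_isUnit⟩
    have hsy1 : sy 1 u = 1 := sy_one_left (prim_nm_mod hu)
    have hrad := rad_WF F
    have hradg : Rad (gg (WF F)) := hrad.gg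
    have key1 : ∀ (φ : ℂ → ℂ), Rad φ → th (v0 * u) * Cg (v0 * u) (rc (fun y => φ (y / q))
        (toC (v0 * u))) = ∑' d : Eis, if IsPrim d ∧ CF d then
        sy 1 d * (n13 d : ℂ) * th (v0 * u * d) * pr φ ((nm v0 : ℝ) * (nm u / (A * nm d)))
        else 0 := by
      intro φ hφ
      have h1 := th_Cg_twist hv0 h1SM hu hsq (fun y => φ (y / q)) (toC (v0 * u))
      rw [one_mul] at h1
      rw [h1]
      refine tsum_congr fun d => ?_
      split_ifs with h
      · rw [pr_eq hφ]
        have h2 := norm_vd (v0 * u) d 1 hA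
        rw [map_one, div_one, nm_one, Nat.cast_one, div_one] at h2
        rw [h2, nm_mul]
        push_cast
        rw [mul_div_assoc]
      · rfl
    congr 1
    · congr 1
      · rw [mul_left_comm, key1 _ hrad]
        unfold DT
        rw [hsy1, one_mul, ← tsum_mul_left]
        refine tsum_congr fun d => ?_
        split_ifs
        · ring
        · rw [mul_zero]
      · rw [mul_left_comm, key1 _ hradg]
        unfold DT
        rw [hsy1, one_mul, ← tsum_mul_left]
        refine tsum_congr fun d => ?_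
        split_ifs
        · ring
        · rw [mul_zero]
    · refine Finset.sum_congr rfl fun δ hδ => ?_
      have hd := (mem_Dl hv0.1).mp hδ
      rw [Lam_mul_prim hd.2.1 hd.1 hu]
      have h1 := th_Cg_twist hv0 hd.1 hu hsq (fun y => gg (WF F) (y / q))
        (toC (v0 * u) / toC δ)
      have e3 : th (v0 * u) * (sy δ u * Lam δ v0 * (((nm δ : ℝ)⁻¹ : ℝ) : ℂ) *
          Cg (δ * (v0 * u)) (rc (fun y => gg (WF F) (y / q)) (toC (v0 * u) / toC δ))) =
          sy δ u * (Lam δ v0 * (((nm δ : ℝ)⁻¹ : ℝ) : ℂ)) * (th (v0 * u) *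
          Cg (δ * (v0 * u)) (rc (fun y => gg (WF F) (y / q)) (toC (v0 * u) / toC δ))) := by ring
      rw [e3, h1, mul_assoc (sy δ u)]
      unfold DT
      congr 1
      rw [← tsum_mul_left]
      refine tsum_congr fun d => ?_
      split_ifs with h
      · simp only
        rw [pr_eq hradg]
        have h2 := norm_vd (v0 * u) d δ hA
        rw [h2, nm_mul]
        push_cast
        rw [show (nm v0 : ℝ) * nm u / nm δ / (A * nm d) =
          (nm v0 : ℝ) / nm δ * (nm u / (A * nm d)) by ring]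
        ring
      · rw [mul_zero]

end Crest.Agent.R017.X6C180
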