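import Crest.Agent.R017.X6C7_180
import Crest.Agent.R017.X6B3_848

/-!
# Row 17, exceptional class, X6 (C), part 8 (helper180): `XC v0` for every `λ`-unit `v0`

`XC' v0` is `X6545.XC v0` with the dual sum restricted to cube-free `d` (the natural Gauss sum
series has no other terms).
-/

set_option autoImplicit false
set_option linter.unusedVariables false

noncomputable section

open Complex MeasureTheory Set Filter Topology
open scoped ComplexConjugate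

namespace Crest.Agent.R017.X6C180

open Crest.Agent.R012 Crest.Agent.R012.Eis Crest.Agent.R012.Sym645
open Crest.Agent.R012.Parseval499 (frq s3 toC_s3_ne)
open Crest.Agent.R017.FE47 (SM BM)
open Crest.Agent.R017.F1
open Crest.Agent.R017.PX764
open Crest.Agent.R017.X6545 (SU TF Bd kap0)
open Crest.Agent.R017.X6B848 (fyw ev_fyw XB)

/-- **(C)**, with the cube-free indicator -/
def XC' (v0 : Eis) : Prop :=
  ∃ (J : ℕ) (δ : Fin J → Eis) (ω : Fin J → (ℝ → ℂ) → ℝ → ℂ), (∀ j, SU (δ j)) ∧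
    (∀ M : ℕ, ∃ (k : ℕ) (C : ℝ), 0 ≤ C ∧ ∀ (F : ℝ → ℂ) (S : ℝ), TF F → Bd F k S →
      ∀ (j : Fin J) (t : ℝ), 0 < t → ‖ω j F t‖ ≤ C * S * min 1 (t ^ M)) ∧
    ∀ F : ℝ → ℂ, TF F → ∀ (B : ℝ) (u : Eis), 0 < B → IsPrim u → Squarefree u →
      X6545.PP (v0 * u) (fun x => F (Real.log x - Real.log B)) =
        ((kap0 * ‖th v0‖ ^ 2 * (nm u : ℝ) ^ (-(1 : ℝ) / 3) * B ^ ((2 : ℝ) / 3) : ℝ) : ℂ) *
            (∫ y : ℝ, F y * ((Real.exp (2 * y / 3) : ℝ) : ℂ)) +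
          ((B ^ ((1 : ℝ) / 3) : ℝ) : ℂ) * ∑ j, sy (δ j) u * ∑' d : Eis,
            open Classical in if IsPrim d ∧ CF d then
              sy (δ j) d * (((nm d : ℝ) ^ (-(1 : ℝ) / 3) : ℝ) : ℂ) * th (v0 * u * d) *
                ω j F ((nm u : ℝ) / (B * nm d)) else 0

lemma rV_V1_GF {F : ℝ → ℂ} (hF : TF F) : rV (V1 (GF F)) = fyw (-(4 / 3)) F := by
  funext x
  unfold rV V1 GF fyw
  by_cases hx : x = 0
  · subst hx
    rw [norm_zero]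
    have h1 : (0 : ℝ) ^ (-(4 / 3) : ℝ) = 0 := Real.zero_rpow (by norm_num)
    rw [h1, if_neg (by norm_num)]
    simp
  · have hn : 0 < ‖x‖ := norm_pos_iff.mpr hx
    rw [if_pos (by positivity), ← Real.rpow_natCast, ← Real.rpow_mul hn.le]
    norm_num

lemma PP_conv {F : ℝ → ℂ} {v0 u : Eis} {B : ℝ} (hB : 0 < B) :
    X6545.PP (v0 * u) (fun x => F (Real.log x - Real.log B)) = PP v0 u (GF F) B := by
  classical
  unfold X6545.PP PP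
  refine tsum_congr fun h => ?_
  by_cases hh : IsPrim h
  · rw [if_pos hh, if_pos hh]
    have hN : (0 : ℝ) < nm h := by exact_mod_cast nm_pos.2 hh.ne_zero
    unfold GF
    rw [if_pos (by positivity), Real.log_div hN.ne' hB.ne']
  · rw [if_neg hh, if_neg hh]

/-- index type of the dual terms -/
abbrev IX (v0 : Eis) : Type := Option (Option (Dl v0))

def dl' (v0 : Eis) : IX v0 → Eis
  | none => 1
  | some none => 1
  | some (some δ) => δ.1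

def om' (v0 : Eis) (F : ℝ → ℂ) : IX v0 → ℝ → ℂ
  | none => fun t => (2 / 3 : ℂ) * pr (Wf (fyw (-(4 / 3)) F)) ((nm v0 : ℝ) * t)
  | some none => fun t => (eC (frq 3 v0) + eC (-frq 3 v0)) *
      pr (gg (Wf (fyw (-(4 / 3)) F))) ((nm v0 : ℝ) * t)
  | some (some δ) => fun t => Lam δ.1 v0 * (((nm δ.1 : ℝ)⁻¹ : ℝ) : ℂ) *
      pr (gg (Wf (fyw (-(4 / 3)) F))) ((nm v0 : ℝ) / nm δ.1 * t)

lemma pr_bd {φ : ℂ → ℂ} {C S : ℝ} {M : ℕ} (hC : 0 ≤ C) (hS : 0 ≤ S)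
    (h : ∀ y : ℂ, y ≠ 0 → ‖φ y‖ ≤ C * S ∧ ‖φ y‖ ≤ C * S * ‖y‖ ^ (2 * M)) {κ c : ℝ} (hκ : 0 < κ)
    (a : ℂ) (hc : ‖a‖ * (1 + κ ^ M) ≤ c) {t : ℝ} (ht : 0 < t) :
    ‖a * pr φ (κ * t)‖ ≤ c * C * S * min 1 (t ^ M) := by
  have hkt : 0 < κ * t := by positivity
  have hne : ((Real.sqrt (κ * t) : ℝ) : ℂ) ≠ 0 := by
    have := Real.sqrt_pos.mpr hkt
    exact_mod_cast this.ne'
  obtain ⟨h1, h2⟩ := h _ hne
  have hn : ‖((Real.sqrt (κ * t) : ℝ) : ℂ)‖ ^ (2 * M) = κ ^ M * t ^ M := by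
    rw [Complex.norm_real, Real.norm_of_nonneg (Real.sqrt_nonneg _), pow_mul,
      Real.sq_sqrt hkt.le, mul_pow]
  rw [hn] at h2
  have hκM : 0 < κ ^ M := by positivity
  have htM : 0 < t ^ M := by positivity
  have h3 : ‖pr φ (κ * t)‖ ≤ (1 + κ ^ M) * C * S * min 1 (t ^ M) := by
    unfold pr
    rcases le_total 1 (t ^ M) with h | h
    · rw [min_eq_left h, mul_one]
      refine h1.trans ?_
      have : 0 ≤ κ ^ M * C * S := by positivity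
      nlinarith
    · rw [min_eq_right h]
      refine h2.trans ?_
      have : 0 ≤ C * S * t ^ M := by positivity
      nlinarith
  rw [norm_mul]
  have hmin : 0 ≤ min 1 (t ^ M) := le_min zero_le_one htM.le
  calc ‖a‖ * ‖pr φ (κ * t)‖ ≤ ‖a‖ * ((1 + κ ^ M) * C * S * min 1 (t ^ M)) := by gcongr
    _ = (‖a‖ * (1 + κ ^ M)) * C * S * min 1 (t ^ M) := by ring
    _ ≤ c * C * S * min 1 (t ^ M) := by gcongr

lemma dl_SU {v0 : Eis} (h0 : v0 ≠ 0) (i : IX v0) : SU (dl' v0 i) := by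
  rcases i with _ | _ | δ
  · exact ⟨0, one_dvd _⟩
  · exact ⟨0, one_dvd _⟩
  · exact SM3_SU ((mem_Dl h0).mp δ.2).1

/-- weights for the bound -/
def cw (v0 : Eis) (M : ℕ) : IX v0 → ℝ
  | none => ‖(2 / 3 : ℂ)‖ * (1 + (nm v0 : ℝ) ^ M)
  | some none => ‖(eC (frq 3 v0) + eC (-frq 3 v0))‖ * (1 + (nm v0 : ℝ) ^ M)
  | some (some δ) => ‖Lam δ.1 v0 * (((nm δ.1 : ℝ)⁻¹ : ℝ) : ℂ)‖ *
      (1 + ((nm v0 : ℝ) / nm δ.1) ^ M)

lemma cw_nonneg (v0 : Eis) (M : ℕ) (i : IX v0) : 0 ≤ cw v0 M i := by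
  rcases i with _ | _ | δ
  · unfold cw; positivity
  · unfold cw; positivity
  · unfold cw; positivity

lemma om_bd {v0 : Eis} (h0 : v0 ≠ 0) (M : ℕ) : ∃ (k : ℕ) (C : ℝ), 0 ≤ C ∧
    ∀ (F : ℝ → ℂ) (S : ℝ), TF F → Bd F k S → ∀ (i : IX v0) (t : ℝ), 0 < t →
      ‖om' v0 F i t‖ ≤ C * S * min 1 (t ^ M) := by
  have hN0 : (0 : ℝ) < nm v0 := by exact_mod_cast nm_pos.2 h0
  obtain ⟨k, C, hC0, hC⟩ := XB (s := -(4 / 3)) (by norm_num) (2 * M)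
  set c : ℝ := ∑ i : IX v0, cw v0 M i with hc
  have hle : ∀ i, cw v0 M i ≤ c := fun i =>
    Finset.single_le_sum (f := cw v0 M) (fun i _ => cw_nonneg v0 M i) (Finset.mem_univ i)
  have hc0 : 0 ≤ c := Finset.sum_nonneg fun i _ => cw_nonneg v0 M i
  refine ⟨k, c * C, by positivity, fun F S hF hB i t ht => ?_⟩
  have hS : 0 ≤ S := (norm_nonneg _).trans (hB 0 (Nat.zero_le _) 0)
  obtain ⟨-, -, h3⟩ := hC F S hF hB
  have hW : ∀ y : ℂ, y ≠ 0 → ‖Wf (fyw (-(4 / 3)) F) y‖ ≤ C * S ∧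
      ‖Wf (fyw (-(4 / 3)) F) y‖ ≤ C * S * ‖y‖ ^ (2 * M) := fun y hy => (h3 y hy).1
  have hG : ∀ y : ℂ, y ≠ 0 → ‖gg (Wf (fyw (-(4 / 3)) F)) y‖ ≤ C * S ∧
      ‖gg (Wf (fyw (-(4 / 3)) F)) y‖ ≤ C * S * ‖y‖ ^ (2 * M) := fun y hy => (h3 y hy).2
  rcases i with _ | _ | δ
  · exact pr_bd hC0 hS hW hN0 (2 / 3 : ℂ) (hle none) ht
  · exact pr_bd hC0 hS hG hN0 _ (hle (some none)) ht
  · have hdl : (0 : ℝ) < nm δ.1 := by exact_mod_cast nm_pos.2 ((mem_Dl h0).mp δ.2).1.1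
    exact pr_bd hC0 hS hG (div_pos hN0 hdl) _ (hle (some (some δ))) ht

/-- the dual term with index `i` -/
def TI (v0 u : Eis) (F : ℝ → ℂ) (B : ℝ) (i : IX v0) : ℂ := by
  classical
  exact sy (dl' v0 i) u * ∑' d : Eis,
      (if IsPrim d ∧ CF d then sy (dl' v0 i) d * (((nm d : ℝ) ^ (-(1 : ℝ) / 3) : ℝ) : ℂ) *
        th (v0 * u * d) * om' v0 F i ((nm u : ℝ) / (B * nm d)) else 0)

lemma id_TI {v0 : Eis} (hSM : v0 ∈ SM 3) {F : ℝ → ℂ} (hF : TF F) {B : ℝ} {u : Eis} (hB : 0 < B)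
    (hu : IsPrim u) (hsq : Squarefree u) :
    X6545.PP (v0 * u) (fun x => F (Real.log x - Real.log B)) =
        ((kap0 * ‖th v0‖ ^ 2 * (nm u : ℝ) ^ (-(1 : ℝ) / 3) * B ^ ((2 : ℝ) / 3) : ℝ) : ℂ) *
            (∫ y : ℝ, F y * ((Real.exp (2 * y / 3) : ℝ) : ℂ)) +
          ((B ^ ((1 : ℝ) / 3) : ℝ) : ℂ) * ∑ i, TI v0 u F B i := by
  classical
  rw [PP_conv hB, PP_eq_SM (wt_GF hF) hSM hu hsq hB, mellin_GF]
  have hWF : WF (GF F) = Wf (fyw (-(4 / 3)) F) := by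
    unfold WF
    rw [rV_V1_GF hF]
  congr 2
  rw [Fintype.sum_option, Fintype.sum_option, ← add_assoc, hWF]
  congr 1
  rw [← Finset.sum_coe_sort (Dl v0)]
  rfl

/-- **(C) for every `λ`-unit.** -/
theorem xc' {v0 : Eis} (hv0 : SU v0) : XC' v0 := by
  classical
  have hSM := SU.SM hv0
  set e : Fin (Fintype.card (IX v0)) ≃ IX v0 := (Fintype.equivFin (IX v0)).symm with he
  refine ⟨Fintype.card (IX v0), fun j => dl' v0 (e j), fun j F => om' v0 F (e j),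
    fun j => dl_SU hSM.1 (e j), fun M => ?_, fun F hF B u hB hu hsq => ?_⟩
  · obtain ⟨k, C, hC0, hC⟩ := om_bd hSM.1 M
    exact ⟨k, C, hC0, fun F S hF hB j t ht => hC F S hF hB (e j) t ht⟩
  · rw [id_TI hSM hF hB hu hsq, ← Equiv.sum_comp e (TI v0 u F B)]
    rfl

end Crest.Agent.R017.X6C180
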