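import Crest.Agent.R017.X6D_502
import Crest.Agent.R017.PG2_106
import Crest.Agent.R012.MellinExp_448

/-!
# Row 17, exceptional class, X6 part (E), direct range (helper502): tools

* `sep` : separation of the variables in `exp (-x_l h_m)`
-/

set_option autoImplicit false

noncomputable section

open Finset MeasureTheory
open scoped ComplexConjugate

namespace Crest.Agent.R017.X6E502

open Crest.Agent.R012 Crest.Agent.R012.Eis Crest.Agent.R012.Gauss880
open Crest.Agent.R012.LS2 Crest.Agent.R012.Div277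
open Crest.Agent.R017.PX764 Crest.Agent.R017.X6D502
open Crest.Agent.R012.MellinExp448

/-! ### separation of variables -/

/-- the constant -/
def cSep (σ : ℝ) : ℝ :=
  1 / (2 * Real.pi) * ∫ t : ℝ, ‖Complex.Gamma ((σ : ℂ) + t * Complex.I)‖

lemma cSep_nonneg (σ : ℝ) : 0 ≤ cSep σ := by
  unfold cSep
  have : 0 ≤ ∫ t : ℝ, ‖Complex.Gamma ((σ : ℂ) + t * Complex.I)‖ :=
    integral_nonneg fun _ => norm_nonneg _
  positivity

section
variable {ι : Type*} (s : Finset ι) (c : ι → ℂ) (h : ι → ℝ) (F : Eis → ι → ℂ)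

/-- the separated sum over `i` -/
def Ssum (σ : ℝ) (l : Eis) (t : ℝ) : ℂ :=
  ∑ i ∈ s, c i * (h i : ℂ) ^ (-((σ : ℂ) + t * Complex.I)) * F l i

lemma continuous_Ssum (hh : ∀ i ∈ s, 0 < h i) (σ : ℝ) (l : Eis) :
    Continuous (Ssum s c h F σ l) := by
  unfold Ssum
  refine continuous_finsetSum _ fun i hi => ?_
  have h0 : (h i : ℂ) ≠ 0 := by exact_mod_cast (hh i hi).ne'
  have : Continuous (fun t : ℝ => (h i : ℂ) ^ (-((σ : ℂ) + t * Complex.I))) :=
    Continuous.const_cpow (by fun_prop) (Or.inl h0)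
  exact (continuous_const.mul this).mul continuous_const

lemma norm_Ssum_le (hh : ∀ i ∈ s, 0 < h i) (σ : ℝ) (l : Eis) (t : ℝ) :
    ‖Ssum s c h F σ l t‖ ≤ ∑ i ∈ s, ‖c i‖ * h i ^ (-σ) * ‖F l i‖ := by
  unfold Ssum
  refine (norm_sum_le _ _).trans (Finset.sum_le_sum fun i hi => ?_)
  rw [norm_mul, norm_mul, Complex.norm_cpow_eq_rpow_re_of_pos (hh i hi)]
  simp

lemma sep_point {σ : ℝ} (hσ : 0 < σ) (hh : ∀ i ∈ s, 0 < h i) {l : Eis} {x : ℝ} (hx : 0 < x) :
    ‖∑ i ∈ s, c i * F l i * ((Real.exp (-(x * h i)) : ℝ) : ℂ)‖ ≤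
      1 / (2 * Real.pi) * ∫ t : ℝ, ‖Complex.Gamma ((σ : ℂ) + t * Complex.I)‖ *
        (x ^ (-σ) * ‖Ssum s c h F σ l t‖) := by
  have e1 : ∀ i ∈ s, c i * F l i * ((Real.exp (-(x * h i)) : ℝ) : ℂ) =
      (1 / (2 * Real.pi) : ℝ) * ∫ t : ℝ, Complex.Gamma ((σ : ℂ) + t * Complex.I) *
        ((x : ℂ) ^ (-((σ : ℂ) + t * Complex.I)) *
          (c i * (h i : ℂ) ^ (-((σ : ℂ) + t * Complex.I)) * F l i)) := by
    intro i hi
    have hxh : 0 < x * h i := mul_pos hx (hh i hi)
    rw [exp_neg_eq_integral hσ hxh]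
    have e2 : ∀ t : ℝ, Complex.Gamma ((σ : ℂ) + t * Complex.I) *
        ((x : ℂ) ^ (-((σ : ℂ) + t * Complex.I)) *
          (c i * (h i : ℂ) ^ (-((σ : ℂ) + t * Complex.I)) * F l i)) =
        (c i * F l i) * (Complex.Gamma ((σ : ℂ) + t * Complex.I) *
          (((x * h i : ℝ) : ℂ)) ^ (-((σ : ℂ) + t * Complex.I))) := by
      intro t
      rw [Complex.ofReal_mul, Complex.mul_cpow_ofReal_nonneg hx.le (hh i hi).le]
      ring
    rw [integral_congr_ae (Filter.Eventually.of_forall e2), integral_const_mul]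
    ring
  rw [Finset.sum_congr rfl e1, ← Finset.mul_sum, ← integral_finsetSum]
  · rw [norm_mul, Complex.norm_real, Real.norm_eq_abs, abs_of_pos (by positivity)]
    refine mul_le_mul_of_nonneg_left ?_ (by positivity)
    refine (norm_integral_le_integral_norm _).trans (le_of_eq ?_)
    refine integral_congr_ae (Filter.Eventually.of_forall fun t => ?_)
    simp only
    rw [← Finset.mul_sum, ← Finset.mul_sum, norm_mul, norm_mul,
      Complex.norm_cpow_eq_rpow_re_of_pos hx]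
    unfold Ssum
    simp
  · intro i hi
    have hxh : 0 < x * h i := mul_pos hx (hh i hi)
    have e2 : ∀ t : ℝ, Complex.Gamma ((σ : ℂ) + t * Complex.I) *
        ((x : ℂ) ^ (-((σ : ℂ) + t * Complex.I)) *
          (c i * (h i : ℂ) ^ (-((σ : ℂ) + t * Complex.I)) * F l i)) =
        (c i * F l i) * (Complex.Gamma ((σ : ℂ) + t * Complex.I) *
          (((x * h i : ℝ) : ℂ)) ^ (-((σ : ℂ) + t * Complex.I))) := by
      intro t
      rw [Complex.ofReal_mul, Complex.mul_cpow_ofReal_nonneg hx.le (hh i hi).le]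
      ring
    refine ((integrable_integrand hσ hxh).const_mul (c i * F l i)).congr
      (Filter.Eventually.of_forall fun t => (e2 t).symm)

/-- **separation of the variables**: if all the separated sums are at most `B`, so is the sum with
the coupled weight `exp (-x_l h_i)`, up to a constant. -/
theorem sep {σ : ℝ} (hσ : 0 < σ) (hh : ∀ i ∈ s, 0 < h i) {v x : Eis → ℝ} (hv : ∀ l, 0 ≤ v l)
    (hx : ∀ l, v l ≠ 0 → 0 < x l) {B : ℝ}
    (hb : ∀ t : ℝ, Summable (fun l => v l * (x l ^ (-σ) * ‖Ssum s c h F σ l t‖)) ∧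
      ∑' l, v l * (x l ^ (-σ) * ‖Ssum s c h F σ l t‖) ≤ B) :
    Summable (fun l => v l * ‖∑ i ∈ s, c i * F l i * ((Real.exp (-(x l * h i)) : ℝ) : ℂ)‖) ∧
    ∑' l, v l * ‖∑ i ∈ s, c i * F l i * ((Real.exp (-(x l * h i)) : ℝ) : ℂ)‖ ≤ cSep σ * B := by
  have hg0 : ∀ l t, 0 ≤ v l * (x l ^ (-σ) * ‖Ssum s c h F σ l t‖) := by
    intro l t
    by_cases hvl : v l = 0
    · rw [hvl, zero_mul]
    · have := (hx l hvl).le
      exact mul_nonneg (hv l) (by positivity)
  have hint : ∀ l, v l ≠ 0 → Integrable (fun t : ℝ => ‖Complex.Gamma ((σ : ℂ) + t * Complex.I)‖ *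
        (x l ^ (-σ) * ‖Ssum s c h F σ l t‖)) := by
    intro l hvl
    refine (integrable_Gamma_vertical hσ).norm.mul_bdd
      (c := x l ^ (-σ) * ∑ i ∈ s, ‖c i‖ * h i ^ (-σ) * ‖F l i‖) ?_ ?_
    · exact (continuous_const.mul (continuous_Ssum s c h F hh σ l).norm).aestronglyMeasurable
    · refine Filter.Eventually.of_forall fun t => ?_
      have h0 : 0 ≤ x l ^ (-σ) := Real.rpow_nonneg (hx l hvl).le _
      rw [Real.norm_eq_abs, abs_of_nonneg (mul_nonneg h0 (norm_nonneg _))]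
      exact mul_le_mul_of_nonneg_left (norm_Ssum_le s c h F hh σ l t) h0
  have key : ∀ T : Finset Eis,
      ∑ l ∈ T, v l * ‖∑ i ∈ s, c i * F l i * ((Real.exp (-(x l * h i)) : ℝ) : ℂ)‖ ≤ cSep σ * B := by
    intro T
    have h1 : ∀ l ∈ T, v l * ‖∑ i ∈ s, c i * F l i * ((Real.exp (-(x l * h i)) : ℝ) : ℂ)‖ ≤
        1 / (2 * Real.pi) * ∫ t : ℝ, ‖Complex.Gamma ((σ : ℂ) + t * Complex.I)‖ *
          (v l * (x l ^ (-σ) * ‖Ssum s c h F σ l t‖)) := by
      intro l _
      by_cases hvl : v l = 0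
      · simp [hvl]
      · refine (mul_le_mul_of_nonneg_left (sep_point s c h F hσ hh (hx l hvl)) (hv l)).trans
          (le_of_eq ?_)
        have e1 : ∀ t : ℝ, ‖Complex.Gamma ((σ : ℂ) + t * Complex.I)‖ *
            (v l * (x l ^ (-σ) * ‖Ssum s c h F σ l t‖)) =
            v l * (‖Complex.Gamma ((σ : ℂ) + t * Complex.I)‖ *
              (x l ^ (-σ) * ‖Ssum s c h F σ l t‖)) := fun t => by ring
        rw [integral_congr_ae (Filter.Eventually.of_forall e1), integral_const_mul]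
        ring
    have hint2 : ∀ l ∈ T, Integrable (fun t : ℝ => ‖Complex.Gamma ((σ : ℂ) + t * Complex.I)‖ *
          (v l * (x l ^ (-σ) * ‖Ssum s c h F σ l t‖))) := by
      intro l _
      by_cases hvl : v l = 0
      · simp [hvl]
      · refine ((hint l hvl).const_mul (v l)).congr (Filter.Eventually.of_forall fun t => ?_)
        simp only
        ring
    refine (Finset.sum_le_sum h1).trans ?_
    rw [← Finset.mul_sum, ← integral_finsetSum _ hint2]
    unfold cSep
    rw [mul_assoc]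
    refine mul_le_mul_of_nonneg_left ?_ (by positivity)
    rw [← integral_mul_const]
    refine integral_mono_of_nonneg (Filter.Eventually.of_forall fun t => ?_)
      ((integrable_Gamma_vertical hσ).norm.mul_const B) (Filter.Eventually.of_forall fun t => ?_)
    · exact Finset.sum_nonneg fun l _ => mul_nonneg (norm_nonneg _) (hg0 l t)
    · simp only
      rw [← Finset.mul_sum]
      refine mul_le_mul_of_nonneg_left ?_ (norm_nonneg _)
      exact ((hb t).1.sum_le_tsum T (fun l _ => hg0 l t)).trans (hb t).2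
  have hnn : ∀ l, 0 ≤ v l * ‖∑ i ∈ s, c i * F l i * ((Real.exp (-(x l * h i)) : ℝ) : ℂ)‖ :=
    fun l => mul_nonneg (hv l) (norm_nonneg _)
  have hsum := summable_of_sum_le hnn key
  exact ⟨hsum, hsum.tsum_le_of_sum_le key⟩

end

end Crest.Agent.R017.X6E502
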