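import Crest.Agent.R017.CM1_106
import Crest.Agent.R012.LS2Main_448

/-!
# Row 17, exceptional class (helper792): the windows of the cross term

For a bilinear sequence `β * α` (`b ≤ B`, `m ≤ A`) on the Gauss side, over **all** nonzero
frequencies `l` (units, powers of `lam`, squares and cubes included) and with an arbitrary fixed
twist `q`:

`∑ l ∈ bl L, nm l ^ (-1/2) * ‖TG2 Bs β α (q * l)‖
    ≤ C (L B A)^ε (L B + A + (L B A)^(2/3))^(1/2) ‖β‖ ‖α‖`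

* `TG_hb` : the cubic large sieve on the Gauss side
* `TG2_hb` : the same for bilinear sequences, squarefree frequencies, fixed twist
* `dec_le` : `∑ l ∈ bl L, F l ≤ ∑ t b c a, F (t a b² c³)`
* `X6b` : the statement above; `X6b_window` : the window `L B, A ≤ (L B A)^(2/3)`.
-/

set_option autoImplicit false

noncomputable section

open Complex
open scoped ComplexConjugate

namespace Crest.Agent.R017.X6b792

open Crest.Agent.R012 Crest.Agent.R012.Eis Crest.Agent.R012.LS2 Crest.Agent.R012.Gauss880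
open Crest.Agent.R012.Div277 (tau dvs mem_dvs tau_le_rpow)
open Crest.Agent.R017.CM106

/-- supported on primary elements of norm at most `A` -/
def Sp (A : ℝ) (α : Eis → ℂ) : Prop := ∀ m, α m ≠ 0 → IsPrim m ∧ (nm m : ℝ) ≤ A

lemma Sp.FS {A : ℝ} {α : Eis → ℂ} (h : Sp A α) : FS α where
  fin := by
    refine ((primBall ⌊A⌋₊).finite_toSet).subset fun m hm => ?_
    obtain ⟨h1, h2⟩ := h m hm
    rw [Finset.mem_coe, mem_primBall]
    exact ⟨Nat.le_floor h2, h1⟩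
  prim m hm := (h m hm).1

lemma Sp.mul {A : ℝ} {α : Eis → ℂ} (h : Sp A α) (f : Eis → ℂ) : Sp A (fun m => α m * f m) :=
  fun m hm => h m (left_ne_zero_of_mul hm)

/-- only squarefree elements matter -/
lemma TG_eq_sum {A : ℝ} (hA : 0 ≤ A) {α : Eis → ℂ} (h : Sp A α) (l : Eis) :
    TG α l = ∑ m ∈ S A, α m * (G m * conj (sy l m)) := by
  unfold TG
  refine tsum_eq_sum fun m hm => ?_
  by_cases h0 : α m = 0
  · rw [h0, zero_mul]
  · obtain ⟨h1, h2⟩ := h m h0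
    have hs : ¬ Squarefree m := fun hs => hm ((mem_S hA).2 ⟨h2, h1, hs⟩)
    rw [G_eq_zero syG h1 hs]; ring

/-- **the cubic large sieve on the Gauss side** -/
theorem TG_hb {ε : ℝ} (hε : 0 < ε) : ∃ C : ℝ, 0 < C ∧ ∀ R A : ℝ, 1 ≤ R → 1 ≤ A →
    ∀ α : Eis → ℂ, Sp A α → ∑ r ∈ S R, ‖TG α r‖ ^ 2 ≤
      C * (R * A) ^ ε * (R + A + (R * A) ^ ((2 : ℝ) / 3)) * ∑ m ∈ S A, ‖α m‖ ^ 2 := by
  obtain ⟨C, hC, h⟩ := LS448.hb_final ε hε
  refine ⟨C, hC, fun R A hR hA α hα => ?_⟩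
  have h1 := h R A hR hA (fun m => conj (α m * G m))
  have e : ∀ r, ‖TG α r‖ = ‖∑ n ∈ S A, conj (α n * G n) * sy r n‖ := by
    intro r
    rw [TG_eq_sum (by linarith) hα, ← RCLike.norm_conj, map_sum]
    congr 1
    refine Finset.sum_congr rfl fun m _ => ?_
    simp only [map_mul, Complex.conj_conj]
    ring
  calc ∑ r ∈ S R, ‖TG α r‖ ^ 2 = ∑ r ∈ S R, ‖∑ n ∈ S A, conj (α n * G n) * sy r n‖ ^ 2 :=
        Finset.sum_congr rfl fun r _ => by rw [e r]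
    _ ≤ _ := h1
    _ ≤ _ := by
        refine mul_le_mul_of_nonneg_left (Finset.sum_le_sum fun m hm => ?_) (by positivity)
        have hm' := (mem_S (by linarith)).1 hm
        refine pow_le_pow_left₀ (norm_nonneg _) ?_ 2
        rw [RCLike.norm_conj, norm_mul]
        exact mul_le_of_le_one_right (norm_nonneg _) (norm_G_le syG hm'.2.1)

/-- a twist on the frequency side is a twist of the coefficients -/
lemma TG_twist {A : ℝ} {α : Eis → ℂ} (h : Sp A α) (u r : Eis) :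
    TG α (u * r) = TG (fun m => α m * conj (sy u m)) r := by
  unfold TG
  refine tsum_congr fun m => ?_
  by_cases h0 : α m = 0
  · simp [h0]
  · rw [Sym645.sy_mul_left (Sym645.prim_nm_mod (h m h0).1), map_mul]; ring

open Classical in
/-- merging squarefree frequencies -/
lemma merge_S {B L : ℝ} (hB : 0 ≤ B) (hL : 0 ≤ L) {Bs : Finset Eis}
    (hBs : ∀ b ∈ Bs, IsPrim b ∧ (nm b : ℝ) ≤ B) (F : Eis → ℝ) (hF : ∀ r, 0 ≤ F r) :
    ∑ a ∈ S L, ∑ b ∈ Bs, (if Squarefree (a * b) then F (a * b) else 0) ≤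
      ∑ r ∈ S (L * B), (tau r : ℝ) * F r := by
  classical
  rw [← Finset.sum_product' (S L) Bs (fun a b => if Squarefree (a * b) then F (a * b) else 0),
    ← Finset.sum_filter]
  have hmaps : ∀ x ∈ (S L ×ˢ Bs).filter (fun x => Squarefree (x.1 * x.2)),
      x.1 * x.2 ∈ S (L * B) := by
    intro x hx
    rw [Finset.mem_filter, Finset.mem_product, mem_S hL] at hx
    rw [mem_S (mul_nonneg hL hB)]
    refine ⟨?_, hx.1.1.2.1.mul (hBs _ hx.1.2).1, hx.2⟩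
    rw [nm_mul]
    push_cast
    exact mul_le_mul hx.1.1.1 (hBs _ hx.1.2).2 (Nat.cast_nonneg _) hL
  rw [← Finset.sum_fiberwise_of_maps_to hmaps]
  refine Finset.sum_le_sum fun r hr => ?_
  have hr0 : r ≠ 0 := ((mem_S (mul_nonneg hL hB)).mp hr).2.1.ne_zero
  rw [Finset.sum_congr rfl (g := fun _ => F r) (fun x hx => by
    rw [(Finset.mem_filter.mp hx).2]), Finset.sum_const, nsmul_eq_mul]
  refine mul_le_mul_of_nonneg_right ?_ (hF r)
  unfold tau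
  norm_cast
  refine Finset.card_le_card_of_injOn (fun x => x.2) ?_ ?_
  · intro x hx
    have hx' := Finset.mem_filter.mp (Finset.mem_coe.mp hx)
    rw [Finset.mem_coe, mem_dvs hr0]
    refine ⟨(hBs _ (Finset.mem_product.mp (Finset.mem_filter.mp hx'.1).1).2).1, ?_⟩
    exact ⟨x.1, by rw [← hx'.2, mul_comm]⟩
  · intro x hx y hy hxy
    have hx' := Finset.mem_filter.mp (Finset.mem_coe.mp hx)
    have hy' := Finset.mem_filter.mp (Finset.mem_coe.mp hy)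
    have hxy' : x.2 = y.2 := hxy
    have h0 : x.2 ≠ 0 := (hBs _ (Finset.mem_product.mp (Finset.mem_filter.mp hx'.1).1).2).1.ne_zero
    have h1 : x.1 = y.1 := by
      apply mul_right_cancel₀ h0
      rw [hx'.2, hxy', hy'.2]
    exact Prod.ext h1 hxy'

/-- **the large sieve for bilinear sequences**, squarefree frequencies, fixed twist `u` -/
theorem TG2_hb {ε : ℝ} (hε : 0 < ε) : ∃ C : ℝ, 0 < C ∧ ∀ L B A : ℝ, 1 ≤ L → 1 ≤ B → 1 ≤ A →
    ∀ (Bs : Finset Eis) (β α : Eis → ℂ), (∀ b ∈ Bs, IsPrim b ∧ (nm b : ℝ) ≤ B) → Sp A α →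
    ∀ u : Eis, ∑ a ∈ S L, ‖TG2 Bs β α (u * a)‖ ^ 2 ≤
      C * (L * B * A) ^ ε * (L * B + A + (L * B * A) ^ ((2 : ℝ) / 3)) *
        ((∑ b ∈ Bs, ‖β b‖ ^ 2) * ∑ m ∈ S A, ‖α m‖ ^ 2) := by
  classical
  obtain ⟨C, hC, h⟩ := TG_hb (ε := ε / 2) (half_pos hε)
  obtain ⟨C', hC', hτ⟩ := tau_le_rpow (ε := ε / 2) (half_pos hε)
  refine ⟨C' * C, by positivity, fun L B A hL hB hA Bs β α hBs hα u => ?_⟩
  have hLB : 1 ≤ L * B := one_le_mul_of_one_le_of_one_le hL hB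
  set α' : Eis → ℂ := fun m => α m * conj (sy u m) with hα'
  have hSp : Sp A α' := hα.mul _
  -- step 1: pointwise
  have step1 : ∀ a ∈ S L, ‖TG2 Bs β α (u * a)‖ ^ 2 ≤ (∑ b ∈ Bs, ‖β b‖ ^ 2) *
      ∑ b ∈ Bs, (if Squarefree (a * b) then ‖TG α' (a * b)‖ ^ 2 else 0) := by
    intro a ha
    have ha' := (mem_S (by linarith)).1 ha
    rw [TG2_split (fun b hb => (hBs b hb).1) hα.FS]
    have e : ∑ b ∈ Bs, (β b * (G b * conj (sy (u * a) b))) * TG α (u * a * b) =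
        ∑ b ∈ Bs, β b * ((G b * conj (sy (u * a) b)) * TG α (u * a * b)) :=
      Finset.sum_congr rfl fun b _ => by ring
    rw [e]
    refine (cauchy Bs _ _).trans ?_
    refine mul_le_mul_of_nonneg_left ?_ (Finset.sum_nonneg fun _ _ => by positivity)
    refine Finset.sum_le_sum fun b hb => ?_
    have hbp := (hBs b hb).1
    split_ifs with hs
    · rw [mul_assoc u a b, TG_twist hα u (a * b)]
      refine pow_le_pow_left₀ (norm_nonneg _) ?_ 2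
      rw [norm_mul]
      exact mul_le_of_le_one_left (norm_nonneg _) (norm_Gsy_le hbp)
    · have h0 : G b * conj (sy (u * a) b) = 0 := by
        by_cases hsb : Squarefree b
        · have hc : ¬ IsCoprime (u * a) b := by
            intro hc
            apply hs
            have hc' : IsCoprime a b := hc.of_mul_left_right
            exact squarefree_mul_iff.2 ⟨hc'.isRelPrime, ha'.2.2, hsb⟩
          have := (syG.eq_zero (u * a) b hbp).2 hc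
          rw [this]; simp
        · rw [G_eq_zero syG hbp hsb, zero_mul]
      rw [h0, zero_mul, norm_zero]; simp
  calc ∑ a ∈ S L, ‖TG2 Bs β α (u * a)‖ ^ 2
      ≤ ∑ a ∈ S L, (∑ b ∈ Bs, ‖β b‖ ^ 2) *
          ∑ b ∈ Bs, (if Squarefree (a * b) then ‖TG α' (a * b)‖ ^ 2 else 0) :=
        Finset.sum_le_sum step1
    _ = (∑ b ∈ Bs, ‖β b‖ ^ 2) * ∑ a ∈ S L,
          ∑ b ∈ Bs, (if Squarefree (a * b) then ‖TG α' (a * b)‖ ^ 2 else 0) := by
        rw [Finset.mul_sum]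
    _ ≤ (∑ b ∈ Bs, ‖β b‖ ^ 2) * ∑ r ∈ S (L * B), (tau r : ℝ) * ‖TG α' r‖ ^ 2 := by
        refine mul_le_mul_of_nonneg_left ?_ (Finset.sum_nonneg fun _ _ => by positivity)
        exact merge_S (by linarith) (by linarith) hBs (fun r => ‖TG α' r‖ ^ 2)
          fun r => by positivity
    _ ≤ (∑ b ∈ Bs, ‖β b‖ ^ 2) * ∑ r ∈ S (L * B), (C' * (L * B * A) ^ (ε / 2)) *
          ‖TG α' r‖ ^ 2 := by
        refine mul_le_mul_of_nonneg_left ?_ (Finset.sum_nonneg fun _ _ => by positivity)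
        refine Finset.sum_le_sum fun r hr => ?_
        refine mul_le_mul_of_nonneg_right ?_ (by positivity)
        have hr' := (mem_S (by linarith)).1 hr
        refine (hτ r hr'.2.1.ne_zero).trans ?_
        refine mul_le_mul_of_nonneg_left ?_ (by linarith)
        refine Real.rpow_le_rpow (Nat.cast_nonneg _) ?_ (by linarith)
        refine hr'.1.trans (le_mul_of_one_le_right (by linarith) hA)
    _ = (∑ b ∈ Bs, ‖β b‖ ^ 2) * ((C' * (L * B * A) ^ (ε / 2)) *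
          ∑ r ∈ S (L * B), ‖TG α' r‖ ^ 2) := by rw [← Finset.mul_sum]
    _ ≤ (∑ b ∈ Bs, ‖β b‖ ^ 2) * ((C' * (L * B * A) ^ (ε / 2)) *
          (C * (L * B * A) ^ (ε / 2) * (L * B + A + (L * B * A) ^ ((2 : ℝ) / 3)) *
            ∑ m ∈ S A, ‖α m‖ ^ 2)) := by
        have h0 : 0 ≤ C' * (L * B * A) ^ (ε / 2) := by positivity
        refine mul_le_mul_of_nonneg_left ?_ (Finset.sum_nonneg fun _ _ => by positivity)
        refine mul_le_mul_of_nonneg_left ?_ h0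
        refine (h (L * B) A hLB hA α' hSp).trans ?_
        refine mul_le_mul_of_nonneg_left (Finset.sum_le_sum fun m hm => ?_) (by positivity)
        have hm' := (mem_S (by linarith)).1 hm
        refine pow_le_pow_left₀ (norm_nonneg _) ?_ 2
        rw [hα', norm_mul, RCLike.norm_conj]
        exact mul_le_of_le_one_right (norm_nonneg _) (norm_sy_le' hm'.2.1)
    _ = _ := by
        have hx : 0 < L * B * A := by positivity
        have : (L * B * A) ^ ε = (L * B * A) ^ (ε / 2) * (L * B * A) ^ (ε / 2) := by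
          rw [← Real.rpow_add hx]; congr 1; ring
        rw [this]; ring

/-! ### all frequencies -/

/-- every nonzero `l` is `t a b² c³` -/
theorem dec_le (L : ℝ) (F : Eis → ℝ) (hF : ∀ r, 0 ≤ F r) :
    ∑ l ∈ bl L, F l ≤ ∑ t ∈ bl 27, ∑ b ∈ bl L, ∑ c ∈ bl L, ∑ a ∈ S L,
      F (t * b ^ 2 * c ^ 3 * a) := by
  classical
  rcases lt_or_ge L 0 with hL | hL
  · have : bl L = ∅ := by
      refine Finset.eq_empty_of_forall_notMem fun z hz => ?_
      have h1 : z ∈ LS448.nz L := hz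
      rw [LS448.mem_nz] at h1
      have := h1.2
      have h2 : (0 : ℝ) ≤ nm z := Nat.cast_nonneg _
      linarith
    rw [this]; simp
  have hex : ∀ l : Eis, ∃ x : Eis × Eis × Eis × Eis, l ≠ 0 →
      (x.1 ≠ 0 ∧ nm x.1 ≤ 27 ∧ x.2.1 ≠ 0 ∧ x.2.2.1 ≠ 0 ∧ IsPrim x.2.2.2 ∧ Squarefree x.2.2.2 ∧
        l = x.1 * x.2.1 ^ 2 * x.2.2.1 ^ 3 * x.2.2.2) := by
    intro l
    by_cases h0 : l = 0
    · exact ⟨(0, 0, 0, 0), fun h => absurd h0 h⟩
    · obtain ⟨t, a, b, c, h1, h2, h3, h4, h5, h6, _, h8⟩ := LS448.exists_decomp h0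
      exact ⟨(t, b, c, a), fun _ => ⟨h2, h3, h6.ne_zero, h8, h4, h5, by rw [h1]; ring⟩⟩
  choose g hg using hex
  set P : Finset (Eis × Eis × Eis × Eis) := bl 27 ×ˢ (bl L ×ˢ (bl L ×ˢ S L)) with hP
  have hR : ∑ t ∈ bl 27, ∑ b ∈ bl L, ∑ c ∈ bl L, ∑ a ∈ S L, F (t * b ^ 2 * c ^ 3 * a) =
      ∑ x ∈ P, F (x.1 * x.2.1 ^ 2 * x.2.2.1 ^ 3 * x.2.2.2) := by
    rw [hP, Finset.sum_product]
    refine Finset.sum_congr rfl fun t _ => ?_
    rw [Finset.sum_product]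
    refine Finset.sum_congr rfl fun b _ => ?_
    rw [Finset.sum_product]
  rw [hR]
  have hl0 : ∀ l ∈ bl L, l ≠ 0 ∧ (nm l : ℝ) ≤ L := fun l hl => (mem_bl hL).1 hl
  have hinj : Set.InjOn g (bl L : Set Eis) := by
    intro x hx y hy hxy
    have h1 := (hg x (hl0 x hx).1).2.2.2.2.2.2
    have h2 := (hg y (hl0 y hy).1).2.2.2.2.2.2
    rw [h1, hxy, ← h2]
  have e1 : ∑ l ∈ bl L, F l =
      ∑ x ∈ (bl L).image g, F (x.1 * x.2.1 ^ 2 * x.2.2.1 ^ 3 * x.2.2.2) := by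
    rw [Finset.sum_image hinj]
    refine Finset.sum_congr rfl fun l hl => ?_
    rw [← (hg l (hl0 l hl).1).2.2.2.2.2.2]
  rw [e1]
  refine Finset.sum_le_sum_of_subset_of_nonneg ?_ fun x _ _ => hF _
  intro x hx
  obtain ⟨l, hl, rfl⟩ := Finset.mem_image.1 hx
  obtain ⟨hl1, hl2⟩ := hl0 l hl
  obtain ⟨h1, h2, h3, h4, h5, h6, h7⟩ := hg l hl1
  have hn : nm l = nm (g l).1 * nm (g l).2.1 ^ 2 * nm (g l).2.2.1 ^ 3 * nm (g l).2.2.2 := by
    conv_lhs => rw [h7]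
    rw [nm_mul, nm_mul, nm_mul, nm_pow, nm_pow]
  have p1 := nm_pos.mpr h1
  have p2 := nm_pos.mpr h3
  have p3 := nm_pos.mpr h4
  have p4 := nm_pos.mpr h5.ne_zero
  have q1 : nm (g l).2.1 ≤ nm l := by
    apply Nat.le_of_dvd (nm_pos.mpr hl1)
    rw [hn]
    exact ((((dvd_pow_self _ two_ne_zero).mul_left _).mul_right _).mul_right _)
  have q2 : nm (g l).2.2.1 ≤ nm l := by
    apply Nat.le_of_dvd (nm_pos.mpr hl1)
    rw [hn]
    exact ((dvd_pow_self _ three_ne_zero).mul_left _).mul_right _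
  have q3 : nm (g l).2.2.2 ≤ nm l := by
    apply Nat.le_of_dvd (nm_pos.mpr hl1)
    rw [hn]
    exact dvd_mul_left _ _
  rw [hP, Finset.mem_product, Finset.mem_product, Finset.mem_product, mem_bl (by norm_num),
    mem_bl hL, mem_bl hL, mem_S hL]
  refine ⟨⟨h1, by exact_mod_cast h2⟩, ⟨h3, ?_⟩, ⟨h4, ?_⟩, ?_, h5, h6⟩
  · exact le_trans (by exact_mod_cast q1) hl2
  · exact le_trans (by exact_mod_cast q2) hl2
  · exact le_trans (by exact_mod_cast q3) hl2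

/-- Cauchy's inequality, real form -/
lemma cauchy_sqrt {ι : Type*} (s : Finset ι) (x y : ι → ℝ) :
    ∑ i ∈ s, x i * y i ≤ Real.sqrt (∑ i ∈ s, x i ^ 2) * Real.sqrt (∑ i ∈ s, y i ^ 2) := by
  rw [← Real.sqrt_mul (Finset.sum_nonneg fun _ _ => sq_nonneg _)]
  exact Real.le_sqrt_of_sq_le (Finset.sum_mul_sq_le_sq_mul_sq s x y)

lemma sum_inv_S_le {L : ℝ} (hL : 0 ≤ L) : ∑ a ∈ S L, (nm a : ℝ) ^ (-(1 : ℝ)) ≤ LS448.LL L := by
  unfold LS448.LL
  calc ∑ a ∈ S L, (nm a : ℝ) ^ (-(1 : ℝ)) = ∑ a ∈ S L, 1 / (nm a : ℝ) :=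
        Finset.sum_congr rfl fun a _ => by rw [Real.rpow_neg_one, one_div]
    _ ≤ _ := by
        refine Finset.sum_le_sum_of_subset_of_nonneg ?_ fun _ _ _ => by positivity
        intro a ha
        have ha' := (mem_S hL).1 ha
        rw [LS448.mem_nz]
        exact ⟨ha'.2.1.ne_zero, ha'.1⟩

/-- weights on the frequencies `u a` -/
theorem fixed {ε : ℝ} (hε : 0 < ε) : ∃ C : ℝ, 0 < C ∧ ∀ L B A : ℝ, 1 ≤ L → 1 ≤ B → 1 ≤ A →
    ∀ (Bs : Finset Eis) (β α : Eis → ℂ), (∀ b ∈ Bs, IsPrim b ∧ (nm b : ℝ) ≤ B) → Sp A α →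
    ∀ (u : Eis) (w : Eis → ℝ), ∑ a ∈ S L, w a * ‖TG2 Bs β α (u * a)‖ ≤
      C * (L * B * A) ^ ε * Real.sqrt (∑ a ∈ S L, w a ^ 2) *
        (Real.sqrt (L * B + A + (L * B * A) ^ ((2 : ℝ) / 3)) *
        (Real.sqrt (∑ b ∈ Bs, ‖β b‖ ^ 2) * Real.sqrt (∑ m ∈ S A, ‖α m‖ ^ 2))) := by
  obtain ⟨C, hC, h⟩ := TG2_hb (ε := 2 * ε) (by positivity)
  refine ⟨Real.sqrt C, by positivity, fun L B A hL hB hA Bs β α hBs hα u w => ?_⟩
  have hsb : 0 ≤ ∑ b ∈ Bs, ‖β b‖ ^ 2 := Finset.sum_nonneg fun _ _ => by positivity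
  have hx : 0 < L * B * A := by positivity
  refine (cauchy_sqrt (S L) w (fun a => ‖TG2 Bs β α (u * a)‖)).trans ?_
  have h1 := Real.sqrt_le_sqrt (h L B A hL hB hA Bs β α hBs hα u)
  have hDs : Real.sqrt (C * (L * B * A) ^ (2 * ε) * (L * B + A + (L * B * A) ^ ((2 : ℝ) / 3)) *
        ((∑ b ∈ Bs, ‖β b‖ ^ 2) * ∑ m ∈ S A, ‖α m‖ ^ 2)) = Real.sqrt C * (L * B * A) ^ ε *
            (Real.sqrt (L * B + A + (L * B * A) ^ ((2 : ℝ) / 3)) *
            (Real.sqrt (∑ b ∈ Bs, ‖β b‖ ^ 2) * Real.sqrt (∑ m ∈ S A, ‖α m‖ ^ 2))) := by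
    rw [Real.sqrt_mul (by positivity), Real.sqrt_mul (by positivity),
      Real.sqrt_mul hC.le, Real.sqrt_mul hsb]
    have : Real.sqrt ((L * B * A) ^ (2 * ε)) = (L * B * A) ^ ε := by
      rw [Real.sqrt_eq_rpow, ← Real.rpow_mul hx.le]
      congr 1; ring
    rw [this]; ring
  rw [hDs] at h1
  calc _ ≤ Real.sqrt (∑ a ∈ S L, w a ^ 2) * (Real.sqrt C * (L * B * A) ^ ε *
            (Real.sqrt (L * B + A + (L * B * A) ^ ((2 : ℝ) / 3)) *
            (Real.sqrt (∑ b ∈ Bs, ‖β b‖ ^ 2) * Real.sqrt (∑ m ∈ S A, ‖α m‖ ^ 2)))) :=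
        mul_le_mul_of_nonneg_left h1 (Real.sqrt_nonneg _)
    _ = _ := by ring

lemma sum_neg_one_le (L : ℝ) : ∑ b ∈ bl L, (nm b : ℝ) ^ (-(1 : ℝ)) ≤ LS448.LL L := by
  refine le_of_eq ?_
  unfold LS448.LL
  exact Finset.sum_congr rfl fun a _ => by rw [Real.rpow_neg_one, one_div]

lemma rpow_dec (s : ℝ) (t b c a : Eis) : ((nm (t * b ^ 2 * c ^ 3 * a) : ℕ) : ℝ) ^ s =
    (nm t : ℝ) ^ s * (nm b : ℝ) ^ (2 * s) * (nm c : ℝ) ^ (3 * s) * (nm a : ℝ) ^ s := by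
  have hb : ((nm b : ℝ) ^ 2) ^ s = (nm b : ℝ) ^ (2 * s) := by
    rw [← Real.rpow_natCast, ← Real.rpow_mul (Nat.cast_nonneg _)]; norm_num
  have hc : ((nm c : ℝ) ^ 3) ^ s = (nm c : ℝ) ^ (3 * s) := by
    rw [← Real.rpow_natCast, ← Real.rpow_mul (Nat.cast_nonneg _)]; norm_num
  rw [nm_mul, nm_mul, nm_mul, nm_pow, nm_pow]
  push_cast
  rw [Real.mul_rpow (by positivity) (by positivity), Real.mul_rpow (by positivity) (by positivity),
    Real.mul_rpow (by positivity) (by positivity), hb, hc]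

/-- all frequencies from a bound at the fixed twists `t b² c³` -/
theorem all_of_fixed (L E : ℝ) (hE : 0 ≤ E) (hL : 0 ≤ L) (F : Eis → ℝ) (hF : ∀ r, 0 ≤ F r)
    (h : ∀ u : Eis, ∑ a ∈ S L, (nm a : ℝ) ^ (-(1 : ℝ) / 2) * F (u * a) ≤ E) :
    ∑ l ∈ bl L, (nm l : ℝ) ^ (-(1 : ℝ) / 2) * F l ≤
      (∑ t ∈ bl 27, (nm t : ℝ) ^ (-(1 : ℝ) / 2)) * LS448.LL L * LS448.LL L * E := by
  refine (dec_le L (fun l => (nm l : ℝ) ^ (-(1 : ℝ) / 2) * F l)
    fun r => mul_nonneg (by positivity) (hF r)).trans ?_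
  have bound : ∀ t b c : Eis, ∑ a ∈ S L, ((nm (t * b ^ 2 * c ^ 3 * a) : ℕ) : ℝ) ^ (-(1 : ℝ) / 2) *
      F (t * b ^ 2 * c ^ 3 * a) ≤
      (nm t : ℝ) ^ (-(1 : ℝ) / 2) * (nm b : ℝ) ^ (2 * (-(1 : ℝ) / 2)) *
        (nm c : ℝ) ^ (3 * (-(1 : ℝ) / 2)) * E := by
    intro t b c
    refine le_trans (le_of_eq ?_) (mul_le_mul_of_nonneg_left (h (t * b ^ 2 * c ^ 3))
      (by positivity))
    rw [Finset.mul_sum]
    refine Finset.sum_congr rfl fun a _ => ?_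
    rw [rpow_dec]
    ring
  have s1 : ∑ b ∈ bl L, (nm b : ℝ) ^ (2 * (-(1 : ℝ) / 2)) ≤ LS448.LL L := by
    have := sum_neg_one_le L
    norm_num at this ⊢
    exact this
  have s2 : ∑ c ∈ bl L, (nm c : ℝ) ^ (3 * (-(1 : ℝ) / 2)) ≤ LS448.LL L := by
    refine le_trans (Finset.sum_le_sum fun c hc => ?_) s1
    have hc' := ((mem_bl hL).1 hc).1
    have : (1 : ℝ) ≤ nm c := by exact_mod_cast nm_pos.mpr hc'
    exact Real.rpow_le_rpow_of_exponent_le this (by norm_num)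
  have hT0 : 0 ≤ ∑ t ∈ bl 27, (nm t : ℝ) ^ (-(1 : ℝ) / 2) :=
    Finset.sum_nonneg fun _ _ => by positivity
  calc ∑ t ∈ bl 27, ∑ b ∈ bl L, ∑ c ∈ bl L, ∑ a ∈ S L,
        ((nm (t * b ^ 2 * c ^ 3 * a) : ℕ) : ℝ) ^ (-(1 : ℝ) / 2) * F (t * b ^ 2 * c ^ 3 * a)
      ≤ ∑ t ∈ bl 27, ∑ b ∈ bl L, ∑ c ∈ bl L,
        (nm t : ℝ) ^ (-(1 : ℝ) / 2) * (nm b : ℝ) ^ (2 * (-(1 : ℝ) / 2)) *
          (nm c : ℝ) ^ (3 * (-(1 : ℝ) / 2)) * E :=
        Finset.sum_le_sum fun t _ => Finset.sum_le_sum fun b _ => Finset.sum_le_sum fun c _ =>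
          bound t b c
    _ = (∑ t ∈ bl 27, (nm t : ℝ) ^ (-(1 : ℝ) / 2)) *
          (∑ b ∈ bl L, (nm b : ℝ) ^ (2 * (-(1 : ℝ) / 2))) *
          (∑ c ∈ bl L, (nm c : ℝ) ^ (3 * (-(1 : ℝ) / 2))) * E := by
        rw [Finset.sum_mul_sum, Finset.sum_mul, Finset.sum_mul]
        refine Finset.sum_congr rfl fun t _ => ?_
        rw [Finset.sum_mul, Finset.sum_mul]
        refine Finset.sum_congr rfl fun b _ => ?_
        rw [Finset.mul_sum, Finset.sum_mul]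
    _ ≤ _ := by
        have hLL0 := LS448.LL_nonneg L
        refine mul_le_mul_of_nonneg_right ?_ hE
        refine mul_le_mul (mul_le_mul le_rfl s1 ?_ hT0) s2 ?_ (by positivity)
        · exact Finset.sum_nonneg fun _ _ => by positivity
        · exact Finset.sum_nonneg fun _ _ => by positivity

/-- **X6b**: the first moment over all nonzero frequencies, fixed twist `q` -/
theorem X6b {ε : ℝ} (hε : 0 < ε) : ∃ C : ℝ, 0 < C ∧ ∀ L B A : ℝ, 1 ≤ L → 1 ≤ B → 1 ≤ A →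
    ∀ (Bs : Finset Eis) (β α : Eis → ℂ), (∀ b ∈ Bs, IsPrim b ∧ (nm b : ℝ) ≤ B) → Sp A α →
    ∀ q : Eis, ∑ l ∈ bl L, (nm l : ℝ) ^ (-(1 : ℝ) / 2) * ‖TG2 Bs β α (q * l)‖ ≤
      C * (L * B * A) ^ ε * (Real.sqrt (L * B + A + (L * B * A) ^ ((2 : ℝ) / 3)) *
        (Real.sqrt (∑ b ∈ Bs, ‖β b‖ ^ 2) * Real.sqrt (∑ m ∈ S A, ‖α m‖ ^ 2))) := by
  obtain ⟨C, hC, h⟩ := fixed (ε := ε / 6) (by positivity)
  obtain ⟨K, hK, hLL⟩ := LS448.LL_le (ε := ε / 6) (by positivity)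
  set T : ℝ := ∑ t ∈ bl 27, (nm t : ℝ) ^ (-(1 : ℝ) / 2) with hT
  have hT0 : 0 ≤ T := Finset.sum_nonneg fun _ _ => by positivity
  refine ⟨(T + 1) * K * K * Real.sqrt K * C, by positivity,
    fun L B A hL hB hA Bs β α hBs hα q => ?_⟩
  have hN : 1 ≤ L * B * A := one_le_mul_of_one_le_of_one_le
    (one_le_mul_of_one_le_of_one_le hL hB) hA
  have hLN : L ≤ L * B * A := by
    calc L ≤ L * B := le_mul_of_one_le_right (by linarith) hB
      _ ≤ L * B * A := le_mul_of_one_le_right (by positivity) hA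
  have hx : 0 < L * B * A := by positivity
  have hLLe : LS448.LL L ≤ K * (L * B * A) ^ (ε / 6) :=
    (hLL L hL).trans (mul_le_mul_of_nonneg_left
      (Real.rpow_le_rpow (by linarith) hLN (by positivity)) hK.le)
  have hLL0 := LS448.LL_nonneg L
  set D : ℝ := Real.sqrt (L * B + A + (L * B * A) ^ ((2 : ℝ) / 3)) *
        (Real.sqrt (∑ b ∈ Bs, ‖β b‖ ^ 2) * Real.sqrt (∑ m ∈ S A, ‖α m‖ ^ 2)) with hD
  have hD0 : 0 ≤ D := by positivity
  have inner : ∀ u : Eis, ∑ a ∈ S L, (nm a : ℝ) ^ (-(1 : ℝ) / 2) *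
      ‖TG2 Bs β α (q * (u * a))‖ ≤
      C * (L * B * A) ^ (ε / 6) * (Real.sqrt K * (L * B * A) ^ (ε / 6)) * D := by
    intro u
    have e : ∀ a, q * (u * a) = (q * u) * a := fun a => by ring
    simp only [e]
    refine (h L B A hL hB hA Bs β α hBs hα (q * u) fun a => (nm a : ℝ) ^ (-(1 : ℝ) / 2)).trans ?_
    refine mul_le_mul_of_nonneg_right ?_ hD0
    refine mul_le_mul_of_nonneg_left ?_ (by positivity)
    have e2 : ∑ a ∈ S L, ((nm a : ℝ) ^ (-(1 : ℝ) / 2)) ^ 2 ≤ K * (L * B * A) ^ (ε / 6) := by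
      refine le_trans (le_of_eq ?_) ((sum_inv_S_le (by linarith)).trans hLLe)
      refine Finset.sum_congr rfl fun a _ => ?_
      rw [← Real.rpow_natCast, ← Real.rpow_mul (Nat.cast_nonneg _)]
      norm_num
    refine (Real.sqrt_le_sqrt e2).trans ?_
    rw [Real.sqrt_mul hK.le]
    refine mul_le_mul_of_nonneg_left ?_ (Real.sqrt_nonneg _)
    rw [Real.sqrt_eq_rpow, ← Real.rpow_mul hx.le]
    exact Real.rpow_le_rpow_of_exponent_le hN (by linarith)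
  refine (all_of_fixed L _ (by positivity) (by linarith) (fun l => ‖TG2 Bs β α (q * l)‖)
    (fun _ => norm_nonneg _) inner).trans ?_
  have hpow : (L * B * A) ^ (ε / 6) * (L * B * A) ^ (ε / 6) * (L * B * A) ^ (ε / 6) *
      (L * B * A) ^ (ε / 6) ≤ (L * B * A) ^ ε := by
    rw [← Real.rpow_add hx, ← Real.rpow_add hx, ← Real.rpow_add hx]
    exact Real.rpow_le_rpow_of_exponent_le hN (by linarith)
  set W : ℝ := (L * B * A) ^ (ε / 6) with hW
  have hW0 : 0 ≤ W := by positivity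
  calc T * LS448.LL L * LS448.LL L * (C * W * (Real.sqrt K * W) * D)
      ≤ (T + 1) * (K * W) * (K * W) * (C * W * (Real.sqrt K * W) * D) := by
        gcongr
        linarith
    _ = ((T + 1) * K * K * Real.sqrt K * C) * (W * W * W * W) * D := by ring
    _ ≤ ((T + 1) * K * K * Real.sqrt K * C) * (L * B * A) ^ ε * D := by
        gcongr

/-- the window -/
theorem X6b_window {ε : ℝ} (hε : 0 < ε) : ∃ C : ℝ, 0 < C ∧ ∀ L B A : ℝ, 1 ≤ L → 1 ≤ B → 1 ≤ A →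
    L * B ≤ (L * B * A) ^ ((2 : ℝ) / 3) → A ≤ (L * B * A) ^ ((2 : ℝ) / 3) →
    ∀ (Bs : Finset Eis) (β α : Eis → ℂ), (∀ b ∈ Bs, IsPrim b ∧ (nm b : ℝ) ≤ B) → Sp A α →
    ∀ q : Eis, ∑ l ∈ bl L, (nm l : ℝ) ^ (-(1 : ℝ) / 2) * ‖TG2 Bs β α (q * l)‖ ≤
      C * (L * B * A) ^ ε * ((L * B * A) ^ ((1 : ℝ) / 3) *
        (Real.sqrt (∑ b ∈ Bs, ‖β b‖ ^ 2) * Real.sqrt (∑ m ∈ S A, ‖α m‖ ^ 2))) := by
  obtain ⟨C, hC, h⟩ := X6b hε
  refine ⟨C * Real.sqrt 3, by positivity, fun L B A hL hB hA h1 h2 Bs β α hBs hα q => ?_⟩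
  refine (h L B A hL hB hA Bs β α hBs hα q).trans ?_
  have hx : 0 < L * B * A := by positivity
  have hs : Real.sqrt (L * B + A + (L * B * A) ^ ((2 : ℝ) / 3)) ≤
      Real.sqrt 3 * (L * B * A) ^ ((1 : ℝ) / 3) := by
    have e : (L * B * A) ^ ((1 : ℝ) / 3) = Real.sqrt ((L * B * A) ^ ((2 : ℝ) / 3)) := by
      rw [Real.sqrt_eq_rpow, ← Real.rpow_mul hx.le]; norm_num
    rw [e, ← Real.sqrt_mul (by norm_num)]
    apply Real.sqrt_le_sqrt
    linarith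
  calc _ ≤ C * (L * B * A) ^ ε * ((Real.sqrt 3 * (L * B * A) ^ ((1 : ℝ) / 3)) *
        (Real.sqrt (∑ b ∈ Bs, ‖β b‖ ^ 2) * Real.sqrt (∑ m ∈ S A, ‖α m‖ ^ 2))) := by gcongr
    _ = _ := by ring

end Crest.Agent.R017.X6b792
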