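import Crest.Agent.R017.X6E1_502
import Crest.Agent.R017.X6b_792
import Crest.Agent.R012.CF_61
import Crest.Agent.R012.Per_277

/-!
# Row 17, exceptional class, X6 part (E), direct range (helper502): the first moments

* `kball` : `∑ l ∈ bl L, ‖th l‖ ‖∑ m ∈ S N, α m conj (Gh (l f) m)‖
    ≤ C (L N)^ε L^(1/3) (L + N + (L N)^(2/3))^(1/2) ‖α‖`
* `kexp` : the same with the weight `exp (-N l / Y)`
-/

set_option autoImplicit false

noncomputable section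

open Finset
open scoped ComplexConjugate

namespace Crest.Agent.R017.X6E502

open Crest.Agent.R012 Crest.Agent.R012.Eis Crest.Agent.R012.Gauss880
open Crest.Agent.R012.LS2 Crest.Agent.R012.Div277
open Crest.Agent.R017.PX764 Crest.Agent.R017.X6D502

/-- the nonzero residues live on `t c³ a` -/
lemma exists_th {l : Eis} (hl : l ≠ 0) (h : th l ≠ 0) : ∃ t c a : Eis, l = t * c ^ 3 * a ∧ t ≠ 0 ∧
    nm t ≤ 27 ∧ c ≠ 0 ∧ IsPrim a ∧ Squarefree a ∧ ‖th l‖ ≤ n6 a := by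
  obtain ⟨u, j, m, a, b, hu, hm, ha, hb, hsa, hsb, hab, hx⟩ := CF61.exists_decomp hl
  have e1 : l = (u * lam ^ j * (a * b ^ 2)) * m ^ 3 := by rw [hx]; ring
  have e2 : th l = th (u * lam ^ j * (a * b ^ 2)) := by rw [e1, th_cube hm]
  have hb1 : b = 1 := by
    by_contra hb1
    obtain ⟨p, hpp, hp, hpb⟩ := exists_prim_prime_dvd hb hb1
    obtain ⟨b', rfl⟩ := hpb
    apply h
    rw [e2, show u * lam ^ j * (a * (p * b') ^ 2) = (u * lam ^ j * (a * b' ^ 2)) * p ^ 2 by ring]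
    refine th_two hpp hp fun hd => ?_
    rcases hpp.dvd_or_dvd hd with h1 | h1
    · exact Sg51.not_dvd_ulam hpp hp hu j h1
    · rcases hpp.dvd_or_dvd h1 with h2 | h2
      · exact hpp.not_isUnit (hab.isUnit_of_dvd' h2 ⟨b', rfl⟩)
      · have h3 := hpp.dvd_of_dvd_pow h2
        obtain ⟨s, rfl⟩ := h3
        exact hpp.not_isUnit (hsb p ⟨s, by ring⟩)
  subst hb1
  refine ⟨u * lam ^ (j % 3), lam ^ (j / 3) * m, a, ?_, ?_, ?_, ?_, ha, hsa, ?_⟩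
  · rw [hx]
    have : (lam : Eis) ^ j = lam ^ (j % 3) * (lam ^ (j / 3)) ^ 3 := by
      rw [← pow_mul, ← pow_add]
      congr 1
      omega
    rw [this]; ring
  · exact mul_ne_zero hu.ne_zero (pow_ne_zero _ lam_ne_zero)
  · rw [P3all283.nm_ulam hu]
    have : j % 3 < 3 := Nat.mod_lt _ (by norm_num)
    interval_cases (j % 3) <;> norm_num
  · exact mul_ne_zero (pow_ne_zero _ lam_ne_zero) hm.ne_zero
  · have hco : IsCoprime (u * lam ^ j) a := by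
      have := (P3all283.isCoprime_ulam hu j (a := 1) ha).2 isCoprime_one_left
      rwa [mul_one] at this
    have h0 : u * lam ^ j ≠ 0 := mul_ne_zero hu.ne_zero (pow_ne_zero _ lam_ne_zero)
    rw [e2, one_pow, mul_one, th_mul ha hsa hco, norm_mul, norm_mul, RCLike.norm_conj,
      norm_Gh_one ha hsa hco, one_mul, Complex.norm_real, Real.norm_eq_abs,
      abs_of_nonneg (n6_nonneg _)]
    exact mul_le_of_le_one_right (n6_nonneg _) (P3all283.norm_th_le h0)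

lemma bl_eq_empty {L : ℝ} (hL : L < 1) : bl L = ∅ := by
  refine Finset.eq_empty_of_forall_notMem fun z hz => ?_
  have h1 : z ∈ LS448.nz L := hz
  rw [LS448.mem_nz] at h1
  have h2 : (1 : ℝ) ≤ nm z := by exact_mod_cast nm_pos.2 h1.1
  linarith [h1.2]

/-- the frequencies that matter -/
theorem dec_th {L : ℝ} (hL : 0 ≤ L) (F : Eis → ℝ) (hF : ∀ r, 0 ≤ F r) :
    ∑ l ∈ bl L, ‖th l‖ * F l ≤ ∑ t ∈ bl 27, ∑ c ∈ bl L, ∑ a ∈ S (L / (nm c : ℝ) ^ 3),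
      n6 a * F (t * c ^ 3 * a) := by
  classical
  have hex : ∀ l : Eis, ∃ x : Eis × Eis × Eis, l ≠ 0 → th l ≠ 0 →
      (l = x.1 * x.2.1 ^ 3 * x.2.2 ∧ x.1 ≠ 0 ∧ nm x.1 ≤ 27 ∧ x.2.1 ≠ 0 ∧ IsPrim x.2.2 ∧
        Squarefree x.2.2 ∧ ‖th l‖ ≤ n6 x.2.2) := by
    intro l
    by_cases h0 : l = 0
    · exact ⟨(0, 0, 0), fun h => absurd h0 h⟩
    by_cases h1 : th l = 0
    · exact ⟨(0, 0, 0), fun _ h => absurd h1 h⟩
    obtain ⟨t, c, a, h⟩ := exists_th h0 h1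
    exact ⟨(t, c, a), fun _ _ => h⟩
  choose g hg using hex
  set P : Finset (Eis × Eis × Eis) := bl 27 ×ˢ (bl L ×ˢ S L) with hP
  set Q : Eis × Eis × Eis → ℝ := fun x => if (nm x.2.2 : ℝ) ≤ L / (nm x.2.1 : ℝ) ^ 3 then
    n6 x.2.2 * F (x.1 * x.2.1 ^ 3 * x.2.2) else 0 with hQ
  have hQ0 : ∀ x, 0 ≤ Q x := by
    intro x
    rw [hQ]
    simp only
    split_ifs
    · exact mul_nonneg (n6_nonneg _) (hF _)
    · exact le_rfl
  have hR : ∑ x ∈ P, Q x ≤ ∑ t ∈ bl 27, ∑ c ∈ bl L, ∑ a ∈ S (L / (nm c : ℝ) ^ 3),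
      n6 a * F (t * c ^ 3 * a) := by
    rw [hP, Finset.sum_product]
    refine Finset.sum_le_sum fun t _ => ?_
    rw [Finset.sum_product]
    refine Finset.sum_le_sum fun c hc => ?_
    have hc' := (mem_bl hL).1 hc
    have hc1 : (0 : ℝ) < nm c := by exact_mod_cast nm_pos.2 hc'.1
    rw [hQ]
    simp only
    rw [← Finset.sum_filter]
    refine Finset.sum_le_sum_of_subset_of_nonneg ?_ fun a _ _ => mul_nonneg (n6_nonneg _) (hF _)
    intro a ha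
    rw [Finset.mem_filter, mem_S hL] at ha
    rw [mem_S (by positivity)]
    exact ⟨ha.2, ha.1.2⟩
  refine le_trans ?_ hR
  set B : Finset Eis := (bl L).filter (fun l => th l ≠ 0) with hB
  have hBm : ∀ l ∈ B, l ≠ 0 ∧ (nm l : ℝ) ≤ L ∧ th l ≠ 0 := by
    intro l hl
    rw [hB, Finset.mem_filter, mem_bl hL] at hl
    exact ⟨hl.1.1, hl.1.2, hl.2⟩
  have e0 : ∑ l ∈ bl L, ‖th l‖ * F l = ∑ l ∈ B, ‖th l‖ * F l := by
    symm
    apply Finset.sum_filter_of_ne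
    intro l _ hne h0
    rw [h0, norm_zero, zero_mul] at hne
    exact hne rfl
  have hinj : Set.InjOn g (B : Set Eis) := by
    intro x hx y hy hxy
    have h1 := (hg x (hBm x hx).1 (hBm x hx).2.2).1
    have h2 := (hg y (hBm y hy).1 (hBm y hy).2.2).1
    rw [h1, hxy, ← h2]
  have hnc : ∀ l ∈ B, (nm l : ℝ) = nm (g l).1 * (nm (g l).2.1 : ℝ) ^ 3 * nm (g l).2.2 := by
    intro l hl
    have h1 := (hg l (hBm l hl).1 (hBm l hl).2.2).1
    conv_lhs => rw [h1]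
    rw [nm_mul, nm_mul, nm_pow]
    push_cast
    ring
  have hle : ∀ l ∈ B, (nm (g l).2.2 : ℝ) ≤ L / (nm (g l).2.1 : ℝ) ^ 3 := by
    intro l hl
    obtain ⟨h1, h2, h3, h4, h5, h6, h7⟩ := hg l (hBm l hl).1 (hBm l hl).2.2
    have p1 : (1 : ℝ) ≤ nm (g l).1 := by exact_mod_cast nm_pos.mpr h2
    have p2 : (1 : ℝ) ≤ nm (g l).2.1 := by exact_mod_cast nm_pos.mpr h4
    have p3 : (1 : ℝ) ≤ nm (g l).2.2 := by exact_mod_cast nm_pos.mpr h5.ne_zero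
    rw [le_div_iff₀ (by positivity)]
    refine le_trans ?_ (hBm l hl).2.1
    rw [hnc l hl]
    have : (0 : ℝ) ≤ (nm (g l).2.1 : ℝ) ^ 3 * nm (g l).2.2 := by positivity
    nlinarith
  have e1 : ∑ l ∈ B, ‖th l‖ * F l ≤ ∑ l ∈ B, Q (g l) := by
    refine Finset.sum_le_sum fun l hl => ?_
    obtain ⟨h1, h2, h3, h4, h5, h6, h7⟩ := hg l (hBm l hl).1 (hBm l hl).2.2
    rw [hQ]
    simp only
    rw [if_pos (hle l hl), ← h1]
    exact mul_le_mul_of_nonneg_right h7 (hF _)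
  rw [e0]
  refine e1.trans ?_
  rw [← Finset.sum_image (f := Q) hinj]
  refine Finset.sum_le_sum_of_subset_of_nonneg ?_ fun x _ _ => hQ0 x
  intro x hx
  obtain ⟨l, hl, rfl⟩ := Finset.mem_image.1 hx
  obtain ⟨h1, h2, h3, h4, h5, h6, h7⟩ := hg l (hBm l hl).1 (hBm l hl).2.2
  have p1 : (1 : ℝ) ≤ nm (g l).1 := by exact_mod_cast nm_pos.mpr h2
  have p2 : (1 : ℝ) ≤ nm (g l).2.1 := by exact_mod_cast nm_pos.mpr h4
  have p3 : (1 : ℝ) ≤ nm (g l).2.2 := by exact_mod_cast nm_pos.mpr h5.ne_zero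
  have hn := hnc l hl
  have hlL := (hBm l hl).2.1
  rw [hP, Finset.mem_product, Finset.mem_product, mem_bl (by norm_num), mem_bl hL, mem_S hL]
  refine ⟨⟨h2, by exact_mod_cast h3⟩, ⟨h4, ?_⟩, ?_, h5, h6⟩
  · have q : (nm (g l).2.1 : ℝ) ≤ (nm (g l).2.1 : ℝ) ^ 3 := le_self_pow₀ p2 (by norm_num)
    have q2 : (nm (g l).2.1 : ℝ) ^ 3 ≤ nm (g l).1 * (nm (g l).2.1 : ℝ) ^ 3 :=
      le_mul_of_one_le_left (by positivity) p1
    have q3 : nm (g l).1 * (nm (g l).2.1 : ℝ) ^ 3 ≤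
        nm (g l).1 * (nm (g l).2.1 : ℝ) ^ 3 * nm (g l).2.2 :=
      le_mul_of_one_le_right (by positivity) p3
    linarith
  · have q2 : (1 : ℝ) ≤ nm (g l).1 * (nm (g l).2.1 : ℝ) ^ 3 :=
      one_le_mul_of_one_le_of_one_le p1 (one_le_pow₀ p2)
    have q3 : (nm (g l).2.2 : ℝ) ≤ nm (g l).1 * (nm (g l).2.1 : ℝ) ^ 3 * nm (g l).2.2 :=
      le_mul_of_one_le_left (by positivity) q2
    linarith

lemma sum_n6_sq {L : ℝ} (hL : 1 ≤ L) : ∑ a ∈ S L, n6 a ^ 2 ≤ 150 * L ^ ((2 : ℝ) / 3) := by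
  have h0 : 0 ≤ L := by linarith
  have h1 := Per277.sum_nz_rpow_neg_le (s := (1 : ℝ) / 3) (by norm_num) (by norm_num) ⌊L⌋₊
  have h2 : ∑ a ∈ S L, n6 a ^ 2 ≤ ∑ x ∈ Div277.nz ⌊L⌋₊, (nm x : ℝ) ^ (-((1 : ℝ) / 3)) := by
    have e : ∀ a, n6 a ^ 2 = (nm a : ℝ) ^ (-((1 : ℝ) / 3)) := by
      intro a
      unfold n6
      rw [← Real.rpow_natCast, ← Real.rpow_mul (Nat.cast_nonneg _)]
      norm_num
    simp only [e]
    refine Finset.sum_le_sum_of_subset_of_nonneg ?_ fun _ _ _ => by positivity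
    intro a ha
    have ha' := (mem_S h0).1 ha
    rw [Div277.mem_nz]
    exact ⟨ha'.2.1.ne_zero, Nat.le_floor ha'.1⟩
  have h3 : ((⌊L⌋₊ : ℕ) : ℝ) ^ ((1 : ℝ) - 1 / 3) ≤ L ^ ((2 : ℝ) / 3) := by
    rw [show (1 : ℝ) - 1 / 3 = 2 / 3 by norm_num]
    exact Real.rpow_le_rpow (Nat.cast_nonneg _) (Nat.floor_le h0) (by norm_num)
  calc _ ≤ 100 * (((⌊L⌋₊ : ℕ) : ℝ) ^ ((1 : ℝ) - 1 / 3) / (1 - 1 / 3)) := h2.trans h1
    _ ≤ 100 * (L ^ ((2 : ℝ) / 3) / (1 - 1 / 3)) := by gcongr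
    _ = _ := by ring

/-- squarefree frequencies, fixed twist -/
theorem fixedT {ε : ℝ} (hε : 0 < ε) : ∃ C : ℝ, 0 < C ∧ ∀ L N : ℝ, 1 ≤ L → 1 ≤ N → ∀ α : Eis → ℂ,
    (∀ m, α m ≠ 0 → m ∈ S N) → ∀ u : Eis,
    ∑ a ∈ S L, n6 a * ‖∑ m ∈ S N, α m * conj (Gh (u * a) m)‖ ≤
      C * (L * N) ^ ε * L ^ ((1 : ℝ) / 3) * (Real.sqrt (L + N + (L * N) ^ ((2 : ℝ) / 3)) *
        Real.sqrt (∑ m ∈ S N, ‖α m‖ ^ 2)) := by
  obtain ⟨C, hC, h⟩ := X6b792.TG_hb (ε := 2 * ε) (by positivity)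
  refine ⟨Real.sqrt 150 * Real.sqrt C, by positivity, fun L N hL hN α hα u => ?_⟩
  have hN0 : 0 ≤ N := by linarith
  have hsum0 : 0 ≤ ∑ m ∈ S N, ‖α m‖ ^ 2 := Finset.sum_nonneg fun _ _ => by positivity
  have hx : 0 < L * N := by positivity
  set α' : Eis → ℂ := fun m => conj (α m) with hα'
  have hSp : X6b792.Sp N α' := by
    intro m hm
    have h1 : α m ≠ 0 := by
      intro h0; apply hm; rw [hα']; simp [h0]
    have h2 := (mem_S hN0).1 (hα m h1)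
    exact ⟨h2.2.1, h2.1⟩
  have e1 : ∀ a, ‖∑ m ∈ S N, α m * conj (Gh (u * a) m)‖ =
      ‖CM106.TG (fun m => α' m * conj (sy u m)) a‖ := by
    intro a
    rw [← X6b792.TG_twist hSp u a, X6b792.TG_eq_sum hN0 hSp, ← RCLike.norm_conj, map_sum]
    congr 1
    refine Finset.sum_congr rfl fun m _ => ?_
    simp only [map_mul, Complex.conj_conj, hα', Gh]
  simp only [e1]
  refine (X6b792.cauchy_sqrt (S L) n6 _).trans ?_
  have h1 := h L N hL hN _ (hSp.mul fun m => conj (sy u m))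
  have h2 : ∑ m ∈ S N, ‖α' m * conj (sy u m)‖ ^ 2 ≤ ∑ m ∈ S N, ‖α m‖ ^ 2 := by
    refine Finset.sum_le_sum fun m hm => ?_
    have hm' := (mem_S hN0).1 hm
    refine pow_le_pow_left₀ (norm_nonneg _) ?_ 2
    rw [hα', norm_mul, RCLike.norm_conj, RCLike.norm_conj]
    exact mul_le_of_le_one_right (norm_nonneg _) (CM106.norm_sy_le' hm'.2.1)
  have h3 : ∑ a ∈ S L, ‖CM106.TG (fun m => α' m * conj (sy u m)) a‖ ^ 2 ≤
      C * (L * N) ^ (2 * ε) * (L + N + (L * N) ^ ((2 : ℝ) / 3)) * ∑ m ∈ S N, ‖α m‖ ^ 2 :=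
    h1.trans (mul_le_mul_of_nonneg_left h2 (by positivity))
  have h4 := Real.sqrt_le_sqrt h3
  have h5 := Real.sqrt_le_sqrt (sum_n6_sq hL)
  have e2 : Real.sqrt (C * (L * N) ^ (2 * ε) * (L + N + (L * N) ^ ((2 : ℝ) / 3)) *
      ∑ m ∈ S N, ‖α m‖ ^ 2) = Real.sqrt C * (L * N) ^ ε *
        (Real.sqrt (L + N + (L * N) ^ ((2 : ℝ) / 3)) * Real.sqrt (∑ m ∈ S N, ‖α m‖ ^ 2)) := by
    rw [Real.sqrt_mul (by positivity), Real.sqrt_mul (by positivity), Real.sqrt_mul hC.le]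
    have : Real.sqrt ((L * N) ^ (2 * ε)) = (L * N) ^ ε := by
      rw [Real.sqrt_eq_rpow, ← Real.rpow_mul hx.le]
      congr 1; ring
    rw [this]; ring
  have e3 : Real.sqrt (150 * L ^ ((2 : ℝ) / 3)) = Real.sqrt 150 * L ^ ((1 : ℝ) / 3) := by
    rw [Real.sqrt_mul (by norm_num), Real.sqrt_eq_rpow (L ^ ((2 : ℝ) / 3)),
      ← Real.rpow_mul (by linarith)]
    norm_num
  rw [e2] at h4
  rw [e3] at h5
  calc _ ≤ (Real.sqrt 150 * L ^ ((1 : ℝ) / 3)) * (Real.sqrt C * (L * N) ^ ε *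
        (Real.sqrt (L + N + (L * N) ^ ((2 : ℝ) / 3)) * Real.sqrt (∑ m ∈ S N, ‖α m‖ ^ 2))) :=
        mul_le_mul h5 h4 (Real.sqrt_nonneg _) (by positivity)
    _ = _ := by ring

/-- **the first moment over a ball** -/
theorem kball {ε : ℝ} (hε : 0 < ε) : ∃ C : ℝ, 0 < C ∧ ∀ L N : ℝ, 1 ≤ L → 1 ≤ N → ∀ α : Eis → ℂ,
    (∀ m, α m ≠ 0 → m ∈ S N) → ∀ f : Eis,
    ∑ l ∈ bl L, ‖th l‖ * ‖∑ m ∈ S N, α m * conj (Gh (l * f) m)‖ ≤
      C * (L * N) ^ ε * L ^ ((1 : ℝ) / 3) * (Real.sqrt (L + N + (L * N) ^ ((2 : ℝ) / 3)) *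
        Real.sqrt (∑ m ∈ S N, ‖α m‖ ^ 2)) := by
  obtain ⟨C, hC, h⟩ := fixedT (ε := ε / 2) (half_pos hε)
  obtain ⟨K, hK, hLL⟩ := LS448.LL_le (ε := ε / 2) (half_pos hε)
  set T : ℝ := ((bl 27).card : ℝ) with hT
  refine ⟨(T + 1) * (C * K), by positivity, fun L N hL hN α hα f => ?_⟩
  have hL0 : 0 ≤ L := by linarith
  have hx : 1 ≤ L * N := one_le_mul_of_one_le_of_one_le hL hN
  set D : ℝ := Real.sqrt (L + N + (L * N) ^ ((2 : ℝ) / 3)) * Real.sqrt (∑ m ∈ S N, ‖α m‖ ^ 2)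
    with hD
  have hD0 : 0 ≤ D := by positivity
  refine (dec_th hL0 (fun l => ‖∑ m ∈ S N, α m * conj (Gh (l * f) m)‖)
    (fun _ => norm_nonneg _)).trans ?_
  have key : ∀ t : Eis, ∀ c ∈ bl L, ∑ a ∈ S (L / (nm c : ℝ) ^ 3),
      n6 a * ‖∑ m ∈ S N, α m * conj (Gh (t * c ^ 3 * a * f) m)‖ ≤
      C * (L * N) ^ (ε / 2) * L ^ ((1 : ℝ) / 3) * D * (1 / (nm c : ℝ)) := by
    intro t c hc
    have hc' := (mem_bl hL0).1 hc
    have hc1 : (1 : ℝ) ≤ nm c := by exact_mod_cast nm_pos.2 hc'.1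
    have hc3 : (1 : ℝ) ≤ (nm c : ℝ) ^ 3 := one_le_pow₀ hc1
    have hL'L : L / (nm c : ℝ) ^ 3 ≤ L := div_le_self hL0 hc3
    rcases lt_or_ge (L / (nm c : ℝ) ^ 3) 1 with h1 | h1
    · have : S (L / (nm c : ℝ) ^ 3) = ∅ := by
        refine Finset.eq_empty_of_forall_notMem fun z hz => ?_
        have h2 := (mem_S (by positivity)).1 hz
        have h3 : (1 : ℝ) ≤ nm z := by exact_mod_cast nm_pos.2 h2.2.1.ne_zero
        linarith [h2.1]
      rw [this, Finset.sum_empty]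
      positivity
    · have e : ∀ a : Eis, t * c ^ 3 * a * f = (t * c ^ 3 * f) * a := fun a => by ring
      simp only [e]
      refine (h (L / (nm c : ℝ) ^ 3) N h1 hN α hα (t * c ^ 3 * f)).trans ?_
      have e2 : (L / (nm c : ℝ) ^ 3) ^ ((1 : ℝ) / 3) = L ^ ((1 : ℝ) / 3) * (1 / (nm c : ℝ)) := by
        rw [Real.div_rpow hL0 (by positivity), ← Real.rpow_natCast, ← Real.rpow_mul (by positivity)]
        norm_num
        ring
      rw [e2]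
      have hx' : 0 < L / (nm c : ℝ) ^ 3 * N := by positivity
      calc C * (L / (nm c : ℝ) ^ 3 * N) ^ (ε / 2) * (L ^ ((1 : ℝ) / 3) * (1 / (nm c : ℝ))) *
            (Real.sqrt (L / (nm c : ℝ) ^ 3 + N + (L / (nm c : ℝ) ^ 3 * N) ^ ((2 : ℝ) / 3)) *
            Real.sqrt (∑ m ∈ S N, ‖α m‖ ^ 2))
          ≤ C * (L * N) ^ (ε / 2) * (L ^ ((1 : ℝ) / 3) * (1 / (nm c : ℝ))) * D := by
            rw [hD]
            gcongr
        _ = _ := by ring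
  have hsum : ∑ c ∈ bl L, 1 / (nm c : ℝ) ≤ K * (L * N) ^ (ε / 2) := by
    refine (hLL L hL).trans (mul_le_mul_of_nonneg_left ?_ hK.le)
    exact Real.rpow_le_rpow hL0 (le_mul_of_one_le_right hL0 hN) (by positivity)
  calc ∑ t ∈ bl 27, ∑ c ∈ bl L, ∑ a ∈ S (L / (nm c : ℝ) ^ 3),
        n6 a * ‖∑ m ∈ S N, α m * conj (Gh (t * c ^ 3 * a * f) m)‖
      ≤ ∑ t ∈ bl 27, ∑ c ∈ bl L,
        C * (L * N) ^ (ε / 2) * L ^ ((1 : ℝ) / 3) * D * (1 / (nm c : ℝ)) :=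
        Finset.sum_le_sum fun t _ => Finset.sum_le_sum fun c hc => key t c hc
    _ = T * (C * (L * N) ^ (ε / 2) * L ^ ((1 : ℝ) / 3) * D * ∑ c ∈ bl L, 1 / (nm c : ℝ)) := by
        rw [Finset.sum_const, ← Finset.mul_sum, nsmul_eq_mul]
    _ ≤ (T + 1) * (C * (L * N) ^ (ε / 2) * L ^ ((1 : ℝ) / 3) * D * (K * (L * N) ^ (ε / 2))) := by
        have : 0 ≤ ∑ c ∈ bl L, 1 / (nm c : ℝ) := Finset.sum_nonneg fun _ _ => by positivity
        have hT0 : 0 ≤ T := by rw [hT]; positivity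
        gcongr
        linarith
    _ = (T + 1) * (C * K) * ((L * N) ^ (ε / 2) * (L * N) ^ (ε / 2)) * L ^ ((1 : ℝ) / 3) * D := by
        ring
    _ = _ := by
        rw [← Real.rpow_add (by positivity)]
        norm_num

lemma rpow_le_self {p s : ℝ} (hp : 1 ≤ p) (hs : s ≤ 1) : p ^ s ≤ p := by
  have := Real.rpow_le_rpow_of_exponent_le hp hs
  rwa [Real.rpow_one] at this

open Classical in
/-- **the first moment with exponential weights** -/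
theorem kexp {ε : ℝ} (hε : 0 < ε) (hε1 : ε ≤ 1) : ∃ C : ℝ, 0 < C ∧ ∀ Y N : ℝ, 0 < Y → 1 ≤ N →
    ∀ α : Eis → ℂ, (∀ m, α m ≠ 0 → m ∈ S N) → ∀ f : Eis,
    ∑' l : Eis, (if l = 0 then 0 else Real.exp (-(nm l : ℝ) / Y) *
      (‖th l‖ * ‖∑ m ∈ S N, α m * conj (Gh (l * f) m)‖)) ≤
      C * (Y * N) ^ ε * Y ^ ((1 : ℝ) / 3) * (Real.sqrt (Y + N + (Y * N) ^ ((2 : ℝ) / 3)) *
        Real.sqrt (∑ m ∈ S N, ‖α m‖ ^ 2)) := by
  obtain ⟨C, hC, h⟩ := kball hε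
  have hcK := PG106.cK_nonneg
  refine ⟨(PG106.cK + 1) * C, by positivity, fun Y N hY hN α hα f => ?_⟩
  set A : ℝ := Real.sqrt (∑ m ∈ S N, ‖α m‖ ^ 2) with hA
  have hA0 : 0 ≤ A := Real.sqrt_nonneg _
  set B : ℝ := C * (Y * N) ^ ε * Y ^ ((1 : ℝ) / 3) *
    (Real.sqrt (Y + N + (Y * N) ^ ((2 : ℝ) / 3)) * A) with hB
  have hB0 : 0 ≤ B := by positivity
  set g : Eis → ℝ := fun l => if l = 0 then 0 else
    ‖th l‖ * ‖∑ m ∈ S N, α m * conj (Gh (l * f) m)‖ with hg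
  have hg0 : ∀ l, 0 ≤ g l := by
    intro l; rw [hg]; simp only; split_ifs
    · exact le_rfl
    · exact mul_nonneg (norm_nonneg _) (norm_nonneg _)
  have hj : ∀ j : ℕ, ∑ n ∈ bl (2 ^ j * Y), g n ≤ B * 16 ^ j := by
    intro j
    rcases lt_or_ge ((2 : ℝ) ^ j * Y) 1 with h1 | h1
    · rw [bl_eq_empty h1, Finset.sum_empty]
      positivity
    · have e1 : ∑ n ∈ bl (2 ^ j * Y), g n = ∑ l ∈ bl (2 ^ j * Y), ‖th l‖ *
          ‖∑ m ∈ S N, α m * conj (Gh (l * f) m)‖ := by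
        refine Finset.sum_congr rfl fun l hl => ?_
        rw [hg]
        simp only
        rw [if_neg ((mem_bl (by positivity)).1 hl).1]
      rw [e1]
      refine (h _ N h1 hN α hα f).trans ?_
      set p : ℝ := (2 : ℝ) ^ j with hp
      have hp1 : 1 ≤ p := one_le_pow₀ (by norm_num)
      have hp0 : 0 ≤ p := by linarith
      have a1 : (p * Y * N) ^ ε ≤ p * (Y * N) ^ ε := by
        rw [mul_assoc, Real.mul_rpow hp0 (by positivity)]
        exact mul_le_mul_of_nonneg_right (rpow_le_self hp1 hε1) (by positivity)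
      have a2 : (p * Y) ^ ((1 : ℝ) / 3) ≤ p * Y ^ ((1 : ℝ) / 3) := by
        rw [Real.mul_rpow hp0 hY.le]
        exact mul_le_mul_of_nonneg_right (rpow_le_self hp1 (by norm_num)) (by positivity)
      have a4 : (p * Y * N) ^ ((2 : ℝ) / 3) ≤ p * (Y * N) ^ ((2 : ℝ) / 3) := by
        rw [mul_assoc, Real.mul_rpow hp0 (by positivity)]
        exact mul_le_mul_of_nonneg_right (rpow_le_self hp1 (by norm_num)) (by positivity)
      have a3 : Real.sqrt (p * Y + N + (p * Y * N) ^ ((2 : ℝ) / 3)) ≤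
          p * Real.sqrt (Y + N + (Y * N) ^ ((2 : ℝ) / 3)) := by
        have e : p * Real.sqrt (Y + N + (Y * N) ^ ((2 : ℝ) / 3)) =
            Real.sqrt (p ^ 2 * (Y + N + (Y * N) ^ ((2 : ℝ) / 3))) := by
          rw [Real.sqrt_mul (by positivity), Real.sqrt_sq hp0]
        rw [e]
        apply Real.sqrt_le_sqrt
        have b1 : p ≤ p ^ 2 := by nlinarith
        have b2 : p * (Y + N + (Y * N) ^ ((2 : ℝ) / 3)) ≤
            p ^ 2 * (Y + N + (Y * N) ^ ((2 : ℝ) / 3)) :=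
          mul_le_mul_of_nonneg_right b1 (by positivity)
        have b3 : N ≤ p * N := le_mul_of_one_le_left (by linarith) hp1
        linarith
      have e16 : (16 : ℝ) ^ j = p ^ 4 := by
        rw [hp, ← pow_mul, mul_comm, pow_mul]; norm_num
      calc C * (p * Y * N) ^ ε * (p * Y) ^ ((1 : ℝ) / 3) *
            (Real.sqrt (p * Y + N + (p * Y * N) ^ ((2 : ℝ) / 3)) * A)
          ≤ C * (p * (Y * N) ^ ε) * (p * Y ^ ((1 : ℝ) / 3)) *
            (p * Real.sqrt (Y + N + (Y * N) ^ ((2 : ℝ) / 3)) * A) := by gcongr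
        _ = B * p ^ 3 := by rw [hB]; ring
        _ ≤ B * p ^ 4 := by
            refine mul_le_mul_of_nonneg_left ?_ hB0
            exact pow_le_pow_right₀ hp1 (by norm_num)
        _ = B * 16 ^ j := by rw [e16]
  have h2 := PG106.exp_le hY hg0 hj
  have e2 : ∀ l : Eis, (if l = 0 then 0 else Real.exp (-(nm l : ℝ) / Y) *
      (‖th l‖ * ‖∑ m ∈ S N, α m * conj (Gh (l * f) m)‖)) = Real.exp (-(nm l : ℝ) / Y) * g l := by
    intro l
    rw [hg]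
    simp only
    split_ifs <;> simp
  simp only [e2]
  have e3 : g 0 = 0 := by rw [hg]; simp
  rw [e3, zero_add] at h2
  refine h2.trans ?_
  calc PG106.cK * B ≤ (PG106.cK + 1) * B := mul_le_mul_of_nonneg_right (by linarith) hB0
    _ = _ := by rw [hB]; ring

end Crest.Agent.R017.X6E502
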