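import Crest.Agent.R017.X6E2_502
import Crest.Agent.R012.LS2Ineq_381

/-!
# Row 17, exceptional class, X6 part (E), direct range (helper502): the core bound

* `core1` : `∑ l ≠ 0, exp (-ρ N l) ‖∑ m, c m th (l m b)‖` for `|c m| ≤ κ N(m)^(-1/3)`
* `core2` : the same with the coupled weight `exp (-ξ N l / N m)`
-/

set_option autoImplicit false

noncomputable section

open Finset
open scoped ComplexConjugate

namespace Crest.Agent.R017.X6E502

open Crest.Agent.R012 Crest.Agent.R012.Eis Crest.Agent.R012.Gauss880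
open Crest.Agent.R012.LS2 Crest.Agent.R012.Div277
open Crest.Agent.R017.PX764 Crest.Agent.R017.X6D502

/-- the bound -/
def Bd1 (η N ρ : ℝ) : ℝ :=
  N ^ (2 * η) * (N / ρ) ^ η * (1 / ρ) ^ ((1 : ℝ) / 3) *
    Real.sqrt (1 / ρ + N + (N / ρ) ^ ((2 : ℝ) / 3))

lemma Bd1_nonneg {η N ρ : ℝ} (hN : 0 ≤ N) (hρ : 0 ≤ ρ) : 0 ≤ Bd1 η N ρ := by
  unfold Bd1; positivity

/-- one pair `(g₁, g₂)` -/
lemma pair_bound {η : ℝ} (hη : 0 < η) (hη1 : η ≤ 1) : ∃ C : ℝ, 0 < C ∧ ∀ N ρ κ : ℝ, 1 ≤ N →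
    0 < ρ → 0 ≤ κ → ∀ g₁ g₂ b' : Eis, IsPrim g₁ → IsPrim g₂ → ∀ c : Eis → ℂ,
    (∀ m, c m ≠ 0 → m ∈ S N) → (∀ m ∈ S N, ‖c m‖ ≤ κ * (nm m : ℝ) ^ (-(1 : ℝ) / 3)) →
    open Classical in
    ∑' l : Eis, (if l = 0 then 0 else Real.exp (-(ρ * nm ((g₁ * g₂) ^ 2 * l))) *
      (‖th l‖ * ‖Tc N (fun m => c (g₁ * m)) (l * b')‖)) ≤
      C * κ * (1 / (nm g₁ : ℝ)) * (1 / (nm g₂ : ℝ)) ^ ((2 : ℝ) / 3) * (N ^ η * (N / ρ) ^ η *
        (1 / ρ) ^ ((1 : ℝ) / 3) * Real.sqrt (1 / ρ + N + (N / ρ) ^ ((2 : ℝ) / 3))) := by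
  classical
  obtain ⟨C, hC, h⟩ := kexp hη hη1
  obtain ⟨K, hK, hLL⟩ := LS448.LL_le (ε := 2 * η) (by positivity)
  refine ⟨C * Real.sqrt K, by positivity, fun N ρ κ hN hρ hκ g₁ g₂ b' hg₁ hg₂ c hS hc => ?_⟩
  have hN0 : 0 ≤ N := by linarith
  have n1 : (1 : ℝ) ≤ nm g₁ := by exact_mod_cast nm_pos.2 hg₁.ne_zero
  have n2 : (1 : ℝ) ≤ nm g₂ := by exact_mod_cast nm_pos.2 hg₂.ne_zero
  set q : ℝ := (nm g₁ : ℝ) * nm g₂ with hq
  have hq1 : 1 ≤ q := one_le_mul_of_one_le_of_one_le n1 n2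
  set Y : ℝ := 1 / (ρ * q ^ 2) with hY
  have hY0 : 0 < Y := by positivity
  have hYle : Y ≤ 1 / ρ := by
    rw [hY]
    apply one_div_le_one_div_of_le hρ
    exact le_mul_of_one_le_right hρ.le (one_le_pow₀ hq1)
  set α : Eis → ℂ := fun m => c (g₁ * m) * (n6 m : ℂ) with hα
  have hαS : ∀ m, α m ≠ 0 → m ∈ S N := by
    intro m hm
    have h1 : c (g₁ * m) ≠ 0 := left_ne_zero_of_mul hm
    have h2 := (mem_S hN0).1 (hS _ h1)
    rw [mem_S hN0]
    refine ⟨?_, (prim_mul_iff hg₁).1 h2.2.1, h2.2.2.of_mul_right⟩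
    refine le_trans ?_ h2.1
    rw [nm_mul]
    push_cast
    exact le_mul_of_one_le_left (Nat.cast_nonneg _) n1
  have h1 := h Y N hY0 hN α hαS b'
  have e1 : ∀ l : Eis, (if l = 0 then (0 : ℝ) else Real.exp (-(ρ * nm ((g₁ * g₂) ^ 2 * l))) *
      (‖th l‖ * ‖Tc N (fun m => c (g₁ * m)) (l * b')‖)) =
      (if l = 0 then 0 else Real.exp (-(nm l : ℝ) / Y) *
      (‖th l‖ * ‖∑ m ∈ S N, α m * conj (Gh (l * b') m)‖)) := by
    intro l
    split_ifs
    · rfl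
    · have e : -(ρ * (nm ((g₁ * g₂) ^ 2 * l) : ℝ)) = -(nm l : ℝ) / Y := by
        rw [hY, hq, nm_mul, nm_pow, nm_mul]
        push_cast
        field_simp
      rw [e]
      rfl
  simp only [e1]
  refine h1.trans ?_
  -- the norm of `α`
  have h2 : ∑ m ∈ S N, ‖α m‖ ^ 2 ≤ (κ * (nm g₁ : ℝ) ^ (-(1 : ℝ) / 3)) ^ 2 * (K * N ^ (2 * η)) := by
    have hpt : ∀ m ∈ S N, ‖α m‖ ^ 2 ≤ (κ * (nm g₁ : ℝ) ^ (-(1 : ℝ) / 3)) ^ 2 * (1 / (nm m : ℝ)) := by
      intro m hm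
      have hm' := (mem_S hN0).1 hm
      have m1 : (0 : ℝ) < nm m := by exact_mod_cast nm_pos.2 hm'.2.1.ne_zero
      by_cases h0 : c (g₁ * m) = 0
      · have : ‖α m‖ = 0 := by simp [hα, h0]
        rw [this, zero_pow two_ne_zero]
        positivity
      · have h3 := hc _ (hS _ h0)
        have e2 : ‖α m‖ = ‖c (g₁ * m)‖ * n6 m := by
          rw [hα, norm_mul, Complex.norm_real, Real.norm_eq_abs, abs_of_nonneg (n6_nonneg _)]
        have e3 : (nm (g₁ * m) : ℝ) ^ (-(1 : ℝ) / 3) =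
            (nm g₁ : ℝ) ^ (-(1 : ℝ) / 3) * (nm m : ℝ) ^ (-(1 : ℝ) / 3) := by
          rw [nm_mul]; push_cast
          rw [Real.mul_rpow (Nat.cast_nonneg _) (Nat.cast_nonneg _)]
        have e4 : (nm m : ℝ) ^ (-(1 : ℝ) / 3) * n6 m = (nm m : ℝ) ^ (-(1 : ℝ) / 2) := by
          unfold n6
          rw [← Real.rpow_add m1]; norm_num
        have h4 : ‖α m‖ ≤ κ * (nm g₁ : ℝ) ^ (-(1 : ℝ) / 3) * (nm m : ℝ) ^ (-(1 : ℝ) / 2) := by
          rw [e2]
          calc ‖c (g₁ * m)‖ * n6 m ≤ κ * (nm (g₁ * m) : ℝ) ^ (-(1 : ℝ) / 3) * n6 m :=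
                mul_le_mul_of_nonneg_right h3 (n6_nonneg _)
            _ = κ * (nm g₁ : ℝ) ^ (-(1 : ℝ) / 3) * ((nm m : ℝ) ^ (-(1 : ℝ) / 3) * n6 m) := by
                rw [e3]; ring
            _ = _ := by rw [e4]
        calc ‖α m‖ ^ 2 ≤ (κ * (nm g₁ : ℝ) ^ (-(1 : ℝ) / 3) * (nm m : ℝ) ^ (-(1 : ℝ) / 2)) ^ 2 :=
              pow_le_pow_left₀ (norm_nonneg _) h4 2
          _ = (κ * (nm g₁ : ℝ) ^ (-(1 : ℝ) / 3)) ^ 2 * ((nm m : ℝ) ^ (-(1 : ℝ) / 2)) ^ 2 := by ring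
          _ = _ := by
              congr 1
              rw [← Real.rpow_natCast, ← Real.rpow_mul m1.le]
              norm_num
              rw [Real.rpow_neg_one]
    refine (Finset.sum_le_sum hpt).trans ?_
    rw [← Finset.mul_sum]
    refine mul_le_mul_of_nonneg_left ?_ (by positivity)
    have h5 := X6b792.sum_inv_S_le hN0
    simp only [Real.rpow_neg_one] at h5
    simp only [one_div]
    exact h5.trans (hLL N hN)
  have h3 : Real.sqrt (∑ m ∈ S N, ‖α m‖ ^ 2) ≤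
      κ * (nm g₁ : ℝ) ^ (-(1 : ℝ) / 3) * (Real.sqrt K * N ^ η) := by
    refine (Real.sqrt_le_sqrt h2).trans (le_of_eq ?_)
    rw [Real.sqrt_mul (by positivity), Real.sqrt_sq (by positivity), Real.sqrt_mul hK.le]
    have : Real.sqrt (N ^ (2 * η)) = N ^ η := by
      rw [Real.sqrt_eq_rpow, ← Real.rpow_mul hN0]
      congr 1; ring
    rw [this]
  have e5 : Y ^ ((1 : ℝ) / 3) = (1 / ρ) ^ ((1 : ℝ) / 3) * (1 / (nm g₁ : ℝ)) ^ ((2 : ℝ) / 3) *
      (1 / (nm g₂ : ℝ)) ^ ((2 : ℝ) / 3) := by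
    have : Y = (1 / ρ) * ((1 / (nm g₁ : ℝ)) * (1 / (nm g₂ : ℝ))) ^ 2 := by
      rw [hY, hq]; field_simp
    rw [this, Real.mul_rpow (by positivity) (by positivity), ← Real.rpow_natCast,
      ← Real.rpow_mul (by positivity), Real.mul_rpow (by positivity) (by positivity)]
    norm_num
    ring
  have e6 : (1 / (nm g₁ : ℝ)) ^ ((2 : ℝ) / 3) * (nm g₁ : ℝ) ^ (-(1 : ℝ) / 3) = 1 / (nm g₁ : ℝ) := by
    have hp : (0 : ℝ) < nm g₁ := by linarith
    rw [one_div, Real.inv_rpow hp.le, ← Real.rpow_neg hp.le, ← Real.rpow_add hp]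
    norm_num
    rw [Real.rpow_neg_one]
  have h6 : (Y * N) ^ η ≤ (N / ρ) ^ η := by
    refine Real.rpow_le_rpow (by positivity) ?_ hη.le
    calc Y * N ≤ 1 / ρ * N := mul_le_mul_of_nonneg_right hYle hN0
      _ = N / ρ := by ring
  have h7 : Real.sqrt (Y + N + (Y * N) ^ ((2 : ℝ) / 3)) ≤
      Real.sqrt (1 / ρ + N + (N / ρ) ^ ((2 : ℝ) / 3)) := by
    apply Real.sqrt_le_sqrt
    have : (Y * N) ^ ((2 : ℝ) / 3) ≤ (N / ρ) ^ ((2 : ℝ) / 3) := by
      refine Real.rpow_le_rpow (by positivity) ?_ (by norm_num)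
      calc Y * N ≤ 1 / ρ * N := mul_le_mul_of_nonneg_right hYle hN0
        _ = N / ρ := by ring
    linarith
  calc C * (Y * N) ^ η * Y ^ ((1 : ℝ) / 3) * (Real.sqrt (Y + N + (Y * N) ^ ((2 : ℝ) / 3)) *
        Real.sqrt (∑ m ∈ S N, ‖α m‖ ^ 2))
      ≤ C * (N / ρ) ^ η * Y ^ ((1 : ℝ) / 3) *
        (Real.sqrt (1 / ρ + N + (N / ρ) ^ ((2 : ℝ) / 3)) *
        (κ * (nm g₁ : ℝ) ^ (-(1 : ℝ) / 3) * (Real.sqrt K * N ^ η))) := by gcongr
    _ = C * Real.sqrt K * κ * ((1 / (nm g₁ : ℝ)) ^ ((2 : ℝ) / 3) *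
        (nm g₁ : ℝ) ^ (-(1 : ℝ) / 3)) * (1 / (nm g₂ : ℝ)) ^ ((2 : ℝ) / 3) *
        (N ^ η * (N / ρ) ^ η * (1 / ρ) ^ ((1 : ℝ) / 3) *
        Real.sqrt (1 / ρ + N + (N / ρ) ^ ((2 : ℝ) / 3))) := by rw [e5]; ring
    _ = _ := by rw [e6]

open Classical in
/-- **the core bound**, uncoupled weight -/
theorem core1 {η : ℝ} (hη : 0 < η) (hη1 : η ≤ 1) : ∃ C : ℝ, 0 < C ∧ ∀ N ρ κ : ℝ, 1 ≤ N → 0 < ρ →
    0 ≤ κ → ∀ b : Eis, IsPrim b → Squarefree b → ∀ c : Eis → ℂ, (∀ m, c m ≠ 0 → m ∈ S N) →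
    SuppC c b → (∀ m ∈ S N, ‖c m‖ ≤ κ * (nm m : ℝ) ^ (-(1 : ℝ) / 3)) →
    ∑' l : Eis, (if l = 0 then 0 else Real.exp (-(ρ * nm l)) * ‖∑ m ∈ S N, c m * th (l * m * b)‖) ≤
      C * κ * (tau b : ℝ) * n6 b * Bd1 η N ρ := by
  obtain ⟨C, hC, h⟩ := pair_bound hη hη1
  obtain ⟨K, hK, hLL⟩ := LS448.LL_le (ε := η) hη
  refine ⟨C * K, by positivity, fun N ρ κ hN hρ hκ b hb hsb c hS hcb hc => ?_⟩
  have hN0 : 0 ≤ N := by linarith
  have h1 := dual_abs2 (X := N) hN0 hS hb hsb hcb (V := fun l => Real.exp (-(ρ * nm l)))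
    (fun l => (Real.exp_pos _).le) (Crest.Agent.R012.LS2.summable_exp_nm hρ)
  refine h1.trans ?_
  set B : ℝ := N ^ η * (N / ρ) ^ η * (1 / ρ) ^ ((1 : ℝ) / 3) *
    Real.sqrt (1 / ρ + N + (N / ρ) ^ ((2 : ℝ) / 3)) with hB
  have hB0 : 0 ≤ B := by positivity
  have key : ∀ g₂ ∈ dvs b, ∀ g₁ ∈ S N, (∑' l : Eis, if l = 0 then 0 else
        Real.exp (-(ρ * nm ((g₁ * g₂) ^ 2 * l))) * (n6 (b / g₂) * ‖th l‖ *
          ‖Tc N (fun m => c (g₁ * m)) (l * (b / g₂))‖)) ≤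
      C * κ * n6 b * B * (1 / (nm g₁ : ℝ)) := by
    intro g₂ h2 g₁ hg₁
    have hg₁' := (mem_S hN0).1 hg₁
    obtain ⟨hgp, v, hv⟩ := (mem_dvs hb.ne_zero).1 h2
    have hv0 : v ≠ 0 := by rintro rfl; rw [mul_zero] at hv; exact hb.ne_zero hv
    have e1 : b / g₂ = v := by rw [hv, mul_div_cancel_left₀ _ hgp.ne_zero]
    have n2 : (1 : ℝ) ≤ nm g₂ := by exact_mod_cast nm_pos.2 hgp.ne_zero
    have n1 : (1 : ℝ) ≤ nm g₁ := by exact_mod_cast nm_pos.2 hg₁'.2.1.ne_zero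
    rw [e1]
    have e2 : ∀ l : Eis, (if l = 0 then (0 : ℝ) else
        Real.exp (-(ρ * nm ((g₁ * g₂) ^ 2 * l))) * (n6 v * ‖th l‖ *
          ‖Tc N (fun m => c (g₁ * m)) (l * v)‖)) = n6 v * (if l = 0 then 0 else
        Real.exp (-(ρ * nm ((g₁ * g₂) ^ 2 * l))) * (‖th l‖ *
          ‖Tc N (fun m => c (g₁ * m)) (l * v)‖)) := by
      intro l
      split_ifs
      · rw [mul_zero]
      · ring
    simp only [e2]
    rw [tsum_mul_left]
    have h3 := h N ρ κ hN hρ hκ g₁ g₂ v hg₁'.2.1 hgp c hS hc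
    refine (mul_le_mul_of_nonneg_left h3 (n6_nonneg _)).trans ?_
    -- `n6 v * (1 / nm g₂) ^ (2/3) ≤ n6 b`
    have h4 : n6 v * (1 / (nm g₂ : ℝ)) ^ ((2 : ℝ) / 3) ≤ n6 b := by
      have e3 : n6 b = n6 g₂ * n6 v := by rw [hv, n6_mul]
      rw [e3, mul_comm]
      refine mul_le_mul_of_nonneg_right ?_ (n6_nonneg _)
      unfold n6
      rw [one_div, Real.inv_rpow (by linarith), ← Real.rpow_neg (by linarith)]
      exact Real.rpow_le_rpow_of_exponent_le n2 (by norm_num)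
    calc n6 v * (C * κ * (1 / (nm g₁ : ℝ)) * (1 / (nm g₂ : ℝ)) ^ ((2 : ℝ) / 3) * B)
        = (n6 v * (1 / (nm g₂ : ℝ)) ^ ((2 : ℝ) / 3)) * (C * κ * (1 / (nm g₁ : ℝ)) * B) := by ring
      _ ≤ n6 b * (C * κ * (1 / (nm g₁ : ℝ)) * B) :=
          mul_le_mul_of_nonneg_right h4 (by positivity)
      _ = _ := by ring
  refine (Finset.sum_le_sum fun g₂ h2 => Finset.sum_le_sum fun g₁ hg₁ => key g₂ h2 g₁ hg₁).trans ?_
  rw [Finset.sum_const, ← Finset.mul_sum, nsmul_eq_mul]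
  have h5 : ∑ g₁ ∈ S N, 1 / (nm g₁ : ℝ) ≤ K * N ^ η := by
    have h5 := X6b792.sum_inv_S_le hN0
    simp only [Real.rpow_neg_one] at h5
    simp only [one_div]
    exact h5.trans (hLL N hN)
  have h6 : ((dvs b).card : ℝ) = (tau b : ℝ) := rfl
  rw [h6]
  have hn := n6_nonneg b
  calc (tau b : ℝ) * (C * κ * n6 b * B * ∑ g₁ ∈ S N, 1 / (nm g₁ : ℝ))
      ≤ (tau b : ℝ) * (C * κ * n6 b * B * (K * N ^ η)) := by
        refine mul_le_mul_of_nonneg_left (mul_le_mul_of_nonneg_left h5 ?_) (Nat.cast_nonneg _)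
        positivity
    _ = C * K * κ * (tau b : ℝ) * n6 b * ((N ^ η * N ^ η) * (N / ρ) ^ η * (1 / ρ) ^ ((1 : ℝ) / 3) *
        Real.sqrt (1 / ρ + N + (N / ρ) ^ ((2 : ℝ) / 3))) := by rw [hB]; ring
    _ = _ := by
        unfold Bd1
        rw [← Real.rpow_add (by linarith)]
        congr 4
        ring_nf

open Classical in
lemma summ1 {N ρ : ℝ} (hN : 0 ≤ N) (hρ : 0 < ρ) {b : Eis} (hb : b ≠ 0) (c : Eis → ℂ) :
    Summable (fun l : Eis => if l = 0 then 0 else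
      Real.exp (-(ρ * nm l)) * ‖∑ m ∈ S N, c m * th (l * m * b)‖) := by
  refine Summable.of_nonneg_of_le (fun l => ?_) (fun l => ?_)
    ((Crest.Agent.R012.LS2.summable_exp_nm hρ).mul_right (∑ m ∈ S N, ‖c m‖))
  · split_ifs
    · exact le_rfl
    · positivity
  · split_ifs with hl
    · have : 0 ≤ ∑ m ∈ S N, ‖c m‖ := Finset.sum_nonneg fun _ _ => norm_nonneg _
      positivity
    · refine mul_le_mul_of_nonneg_left ?_ (Real.exp_pos _).le
      refine (norm_sum_le _ _).trans (Finset.sum_le_sum fun m hm => ?_)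
      have hm' := (mem_S hN).1 hm
      rw [norm_mul]
      exact mul_le_of_le_one_right (norm_nonneg _)
        (norm_th_le_one (mul_ne_zero (mul_ne_zero hl hm'.2.1.ne_zero) hb))

open Classical in
/-- **the core bound**, coupled weight `exp (-ξ N l / N m)` -/
theorem core2 {η : ℝ} (hη : 0 < η) (hη1 : η ≤ 1) : ∃ C : ℝ, 0 < C ∧ ∀ N ξ κ : ℝ, 1 ≤ N → 0 < ξ →
    0 ≤ κ → ∀ b : Eis, IsPrim b → Squarefree b → ∀ c : Eis → ℂ, (∀ m, c m ≠ 0 → m ∈ S N) →
    SuppC c b → (∀ m ∈ S N, ‖c m‖ ≤ κ * (nm m : ℝ) ^ (-(1 : ℝ) / 3)) →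
    Summable (fun l : Eis => if l = 0 then 0 else
      ‖∑ m ∈ S N, c m * th (3 * (l * (m * b))) * ((Real.exp (-(ξ * nm l / nm m)) : ℝ) : ℂ)‖) ∧
    ∑' l : Eis, (if l = 0 then 0 else
      ‖∑ m ∈ S N, c m * th (3 * (l * (m * b))) * ((Real.exp (-(ξ * nm l / nm m)) : ℝ) : ℂ)‖) ≤
      C * κ * ξ ^ (-η) * (2 * N) ^ η * (tau b : ℝ) * n6 b * Bd1 η N (ξ / (18 * N)) := by
  obtain ⟨C, hC, h⟩ := core1 hη hη1
  have hcs := cSep_nonneg η
  refine ⟨(cSep η + 1) * C, by positivity, fun N ξ κ hN hξ hκ b hb hsb c hS hcb hc => ?_⟩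
  have hN0 : 0 ≤ N := by linarith
  have hNp : 0 < N := by linarith
  set ρ : ℝ := ξ / (18 * N) with hρ
  have hρ0 : 0 < ρ := by positivity
  set hh : Eis → ℝ := fun m => 1 / (nm m : ℝ) - 1 / (2 * N) with hhd
  have hm1 : ∀ m ∈ S N, (1 : ℝ) ≤ nm m ∧ (nm m : ℝ) ≤ N := by
    intro m hm
    have hm' := (mem_S hN0).1 hm
    exact ⟨by exact_mod_cast nm_pos.2 hm'.2.1.ne_zero, hm'.1⟩
  have hhlo : ∀ m ∈ S N, 1 / (2 * N) ≤ hh m := by
    intro m hm
    obtain ⟨h1, h2⟩ := hm1 m hm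
    have h3 : 1 / N ≤ 1 / (nm m : ℝ) := one_div_le_one_div_of_le (by linarith) h2
    have h4 : 1 / N = 1 / (2 * N) + 1 / (2 * N) := by field_simp; norm_num
    rw [hhd]
    simp only
    linarith
  have hhpos : ∀ m ∈ S N, 0 < hh m := fun m hm =>
    lt_of_lt_of_le (by positivity) (hhlo m hm)
  set v : Eis → ℝ := fun l => if l = 0 then 0 else Real.exp (-(ξ * nm l / (2 * N))) with hv
  have hv0 : ∀ l, 0 ≤ v l := by
    intro l; rw [hv]; simp only; split_ifs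
    · exact le_rfl
    · exact (Real.exp_pos _).le
  set x : Eis → ℝ := fun l => ξ * nm l with hx
  have hx0 : ∀ l, v l ≠ 0 → 0 < x l := by
    intro l hl
    have : l ≠ 0 := by
      rintro rfl
      apply hl
      rw [hv]; simp
    have h1 : (0 : ℝ) < nm l := by exact_mod_cast nm_pos.2 this
    rw [hx]
    positivity
  set B : ℝ := ξ ^ (-η) * (C * (κ * (2 * N) ^ η) * (tau b : ℝ) * n6 b * Bd1 η N ρ) with hB
  have hbd := Bd1_nonneg (η := η) hN0 hρ0.le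
  have hn6 := n6_nonneg b
  have hB0 : 0 ≤ B := by positivity
  set F : Eis → Eis → ℂ := fun l m => th (3 * (l * (m * b))) with hF
  have hs := sep (S N) c hh F hη hhpos hv0 hx0 (B := B) (fun t => by
    set ct : Eis → ℂ := fun m => c m * (hh m : ℂ) ^ (-((η : ℂ) + t * Complex.I)) with hct
    set Gf : Eis → ℝ := fun l => if l = 0 then 0 else
      Real.exp (-(ρ * nm l)) * ‖∑ m ∈ S N, ct m * th (l * m * b)‖ with hGf
    have hGs : Summable Gf := summ1 hN0 hρ0 hb.ne_zero ct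
    have hG0 : ∀ l, 0 ≤ Gf l := by
      intro l; rw [hGf]; simp only; split_ifs
      · exact le_rfl
      · positivity
    have hinj : Function.Injective (fun l : Eis => 3 * l) := fun a b hab =>
      mul_left_cancel₀ (by decide : (3 : Eis) ≠ 0) hab
    have hle : ∀ l, v l * (x l ^ (-η) * ‖Ssum (S N) c hh F η l t‖) ≤ ξ ^ (-η) * Gf (3 * l) := by
      intro l
      by_cases hl : l = 0
      · subst hl
        rw [hv]
        simp only [if_true, zero_mul]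
        exact mul_nonneg (by positivity) (hG0 _)
      · have h3l : (3 : Eis) * l ≠ 0 := mul_ne_zero (by decide) hl
        have e1 : v l = Real.exp (-(ρ * nm (3 * l))) := by
          rw [hv]
          simp only
          rw [if_neg hl, hρ, nm_mul]
          have : nm (3 : Eis) = 9 := by decide
          rw [this]
          congr 1
          push_cast
          field_simp
          ring
        have e2 : Ssum (S N) c hh F η l t = ∑ m ∈ S N, ct m * th (3 * l * m * b) := by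
          unfold Ssum
          refine Finset.sum_congr rfl fun m _ => ?_
          rw [hct, hF]
          simp only
          rw [show 3 * (l * (m * b)) = 3 * l * m * b by ring]
        have h1 : (1 : ℝ) ≤ nm l := by exact_mod_cast nm_pos.2 hl
        have e3 : x l ^ (-η) ≤ ξ ^ (-η) := by
          apply Real.rpow_le_rpow_of_nonpos hξ ?_ (by linarith)
          rw [hx]
          exact le_mul_of_one_le_right hξ.le h1
        rw [hGf]
        simp only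
        rw [if_neg h3l, ← e1, e2]
        calc v l * (x l ^ (-η) * ‖∑ m ∈ S N, ct m * th (3 * l * m * b)‖)
            ≤ v l * (ξ ^ (-η) * ‖∑ m ∈ S N, ct m * th (3 * l * m * b)‖) :=
              mul_le_mul_of_nonneg_left (mul_le_mul_of_nonneg_right e3 (norm_nonneg _)) (hv0 l)
          _ = _ := by ring
    have hG3 : Summable (fun l => ξ ^ (-η) * Gf (3 * l)) :=
      (hGs.comp_injective hinj).mul_left _
    have hnn : ∀ l, 0 ≤ v l * (x l ^ (-η) * ‖Ssum (S N) c hh F η l t‖) := by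
      intro l
      by_cases hvl : v l = 0
      · rw [hvl, zero_mul]
      · have := (hx0 l hvl).le
        exact mul_nonneg (hv0 l) (by positivity)
    have hsum := Summable.of_nonneg_of_le hnn hle hG3
    refine ⟨hsum, ?_⟩
    refine (hsum.tsum_le_tsum hle hG3).trans ?_
    rw [tsum_mul_left, hB]
    refine mul_le_mul_of_nonneg_left ?_ (by positivity)
    refine (tsum_comp_le_tsum_of_inj hGs hG0 hinj).trans ?_
    refine h N ρ (κ * (2 * N) ^ η) hN hρ0 (by positivity) b hb hsb ct ?_ ?_ ?_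
    · intro m hm
      exact hS m (left_ne_zero_of_mul hm)
    · intro m hm
      exact hcb m (left_ne_zero_of_mul hm)
    · intro m hm
      have h1 := hhlo m hm
      have h2 := hhpos m hm
      rw [hct, norm_mul, Complex.norm_cpow_eq_rpow_re_of_pos h2]
      have e1 : (-((η : ℂ) + t * Complex.I)).re = -η := by simp
      rw [e1]
      have e2 : hh m ^ (-η) ≤ (2 * N) ^ η := by
        have h3 := Real.rpow_le_rpow_of_nonpos (by positivity : 0 < 1 / (2 * N)) h1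
          (by linarith : -η ≤ 0)
        refine h3.trans (le_of_eq ?_)
        rw [one_div, Real.inv_rpow (by positivity), ← Real.rpow_neg (by positivity), neg_neg]
      calc ‖c m‖ * hh m ^ (-η) ≤ (κ * (nm m : ℝ) ^ (-(1 : ℝ) / 3)) * (2 * N) ^ η :=
            mul_le_mul (hc m hm) e2 (by positivity) (by positivity)
        _ = _ := by ring)
  have e0 : ∀ l : Eis, v l * ‖∑ m ∈ S N, c m * F l m * ((Real.exp (-(x l * hh m)) : ℝ) : ℂ)‖ =
      (if l = 0 then 0 else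
      ‖∑ m ∈ S N, c m * th (3 * (l * (m * b))) * ((Real.exp (-(ξ * nm l / nm m)) : ℝ) : ℂ)‖) := by
    intro l
    by_cases hl : l = 0
    · rw [if_pos hl, hv]
      simp only
      rw [if_pos hl, zero_mul]
    · rw [if_neg hl, hv]
      simp only
      rw [if_neg hl]
      have e1 : Real.exp (-(ξ * nm l / (2 * N))) =
          ‖((Real.exp (-(ξ * nm l / (2 * N))) : ℝ) : ℂ)‖ := by
        rw [Complex.norm_real, Real.norm_of_nonneg (Real.exp_pos _).le]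
      rw [e1, ← norm_mul, Finset.mul_sum]
      congr 1
      refine Finset.sum_congr rfl fun m hm => ?_
      have h1 := (hm1 m hm).1
      have e2 : Real.exp (-(ξ * nm l / nm m)) =
          Real.exp (-(ξ * nm l / (2 * N))) * Real.exp (-(x l * hh m)) := by
        rw [← Real.exp_add]
        congr 1
        rw [hx, hhd]
        simp only
        have : (nm m : ℝ) ≠ 0 := by linarith
        field_simp
        ring
      rw [e2, hF]
      push_cast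
      ring
  simp only [e0] at hs
  refine ⟨hs.1, hs.2.trans ?_⟩
  calc cSep η * B ≤ (cSep η + 1) * B := mul_le_mul_of_nonneg_right (by linarith) hB0
    _ = _ := by rw [hB]; ring

end Crest.Agent.R017.X6E502
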