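import Crest.Agent.R017.X6E3_502
import Crest.Agent.R017.X6Asm_545
import Crest.Agent.R012.Mob_705

/-!
# Row 17, exceptional class, X6 part (E), the direct range (helper502)

* `dirP : X6545.DirP`
-/

set_option autoImplicit false

noncomputable section

open Finset
open scoped ComplexConjugate

namespace Crest.Agent.R017.X6E502

open Crest.Agent.R012 Crest.Agent.R012.Eis Crest.Agent.R012.Gauss880
open Crest.Agent.R012.LS2 Crest.Agent.R012.Div277
open Crest.Agent.R017.PX764 Crest.Agent.R017.X6D502 Crest.Agent.R017.X6545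

/-! ### the inequality between powers -/

lemma sqrt_add3 {A B C : ℝ} (hA : 0 ≤ A) (hB : 0 ≤ B) (hC : 0 ≤ C) :
    Real.sqrt (A + B + C) ≤ Real.sqrt A + Real.sqrt B + Real.sqrt C := by
  rw [Real.sqrt_le_left (by positivity)]
  have h1 := Real.sq_sqrt hA
  have h2 := Real.sq_sqrt hB
  have h3 := Real.sq_sqrt hC
  have p1 := mul_nonneg (Real.sqrt_nonneg A) (Real.sqrt_nonneg B)
  have p2 := mul_nonneg (Real.sqrt_nonneg A) (Real.sqrt_nonneg C)
  have p3 := mul_nonneg (Real.sqrt_nonneg B) (Real.sqrt_nonneg C)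
  nlinarith

lemma sqrt_exp' (x : ℝ) : Real.sqrt (Real.exp x) = Real.exp (x / 2) := by
  rw [Real.sqrt_eq_rpow, ← Real.exp_mul]; congr 1; ring

theorem ineqE {z n m a b y : ℝ} (hz : 1 ≤ z) (hm : 1 ≤ m) (hmn : m ≤ n) (ha : 1 ≤ a)
    (hb : 1 ≤ b) (hbn : b ≤ n) (hab : n * z ^ (-(1 : ℝ) / 2) ≤ a * b) (hy0 : 0 ≤ y)
    (hy : y ≤ Real.exp 1 * (n * m / (z * a ^ 2 * b))) :
    z * (m ^ (-(1 : ℝ) / 2) * m ^ (-(1 : ℝ) / 6)) * a ^ (-(1 : ℝ) / 3) * b ^ (-(1 : ℝ) / 6) *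
      (y ^ ((1 : ℝ) / 3) * Real.sqrt (y + n / a + (n / a * y) ^ ((2 : ℝ) / 3))) ≤
      9 * ((z * n + n ^ 2) * (1 / m) * (1 / a)) := by
  have hn : 1 ≤ n := hm.trans hmn
  obtain ⟨ζ, rfl⟩ : ∃ ζ, z = Real.exp ζ := ⟨Real.log z, (Real.exp_log (by linarith)).symm⟩
  obtain ⟨ν, rfl⟩ : ∃ ν, n = Real.exp ν := ⟨Real.log n, (Real.exp_log (by linarith)).symm⟩
  obtain ⟨μ, rfl⟩ : ∃ μ, m = Real.exp μ := ⟨Real.log m, (Real.exp_log (by linarith)).symm⟩
  obtain ⟨α, rfl⟩ : ∃ α, a = Real.exp α := ⟨Real.log a, (Real.exp_log (by linarith)).symm⟩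
  obtain ⟨β, rfl⟩ : ∃ β, b = Real.exp β := ⟨Real.log b, (Real.exp_log (by linarith)).symm⟩
  have lz : 0 ≤ ζ := Real.one_le_exp_iff.1 hz
  have lm : 0 ≤ μ := Real.one_le_exp_iff.1 hm
  have lmn : μ ≤ ν := Real.exp_le_exp.1 hmn
  have la : 0 ≤ α := Real.one_le_exp_iff.1 ha
  have lb : 0 ≤ β := Real.one_le_exp_iff.1 hb
  have lbn : β ≤ ν := Real.exp_le_exp.1 hbn
  have lab : ν - ζ / 2 ≤ α + β := by
    rw [← Real.exp_mul, ← Real.exp_add, ← Real.exp_add, Real.exp_le_exp] at hab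
    linarith
  set θ : ℝ := 1 + ν + μ - ζ - 2 * α - β with hθ
  have hyθ : y ≤ Real.exp θ := by
    refine hy.trans (le_of_eq ?_)
    rw [← Real.exp_nat_mul, ← Real.exp_add, ← Real.exp_add, ← Real.exp_add, ← Real.exp_sub,
      ← Real.exp_add, hθ]
    congr 1
    push_cast
    ring
  have h1 : y ^ ((1 : ℝ) / 3) ≤ Real.exp (θ / 3) := by
    refine (Real.rpow_le_rpow hy0 hyθ (by norm_num)).trans (le_of_eq ?_)
    rw [← Real.exp_mul]; congr 1; ring
  have hna : Real.exp ν / Real.exp α = Real.exp (ν - α) := (Real.exp_sub _ _).symm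
  have h2 : Real.sqrt (y + Real.exp ν / Real.exp α +
      (Real.exp ν / Real.exp α * y) ^ ((2 : ℝ) / 3)) ≤
      Real.exp (θ / 2) + Real.exp ((ν - α) / 2) + Real.exp ((ν - α + θ) / 3) := by
    rw [hna]
    have h3 : (Real.exp (ν - α) * y) ^ ((2 : ℝ) / 3) ≤ Real.exp ((ν - α + θ) * (2 / 3)) := by
      refine (Real.rpow_le_rpow (by positivity)
        (mul_le_mul_of_nonneg_left hyθ (Real.exp_pos _).le) (by norm_num)).trans (le_of_eq ?_)
      rw [← Real.exp_add, ← Real.exp_mul]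
    refine (Real.sqrt_le_sqrt (add_le_add (add_le_add hyθ le_rfl) h3)).trans ?_
    refine (sqrt_add3 (Real.exp_pos _).le (Real.exp_pos _).le (Real.exp_pos _).le).trans ?_
    rw [sqrt_exp', sqrt_exp', sqrt_exp']
    have : (ν - α + θ) * (2 / 3) / 2 = (ν - α + θ) / 3 := by ring
    rw [this]
  have e0 : Real.exp ζ * (Real.exp μ ^ (-(1 : ℝ) / 2) * Real.exp μ ^ (-(1 : ℝ) / 6)) *
      Real.exp α ^ (-(1 : ℝ) / 3) * Real.exp β ^ (-(1 : ℝ) / 6) =
      Real.exp (ζ - 2 / 3 * μ - α / 3 - β / 6) := by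
    rw [← Real.exp_mul, ← Real.exp_mul, ← Real.exp_mul, ← Real.exp_mul, ← Real.exp_add,
      ← Real.exp_add, ← Real.exp_add, ← Real.exp_add]
    congr 1
    ring
  have e1 : (Real.exp ζ * Real.exp ν + Real.exp ν ^ 2) * (1 / Real.exp μ) * (1 / Real.exp α) =
      Real.exp (ζ + ν - μ - α) + Real.exp (2 * ν - μ - α) := by
    rw [← Real.exp_add, ← Real.exp_nat_mul, one_div, one_div, ← Real.exp_neg, ← Real.exp_neg,
      add_mul, add_mul, ← Real.exp_add, ← Real.exp_add, ← Real.exp_add, ← Real.exp_add]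
    congr 1
  rw [e0, e1]
  have he : Real.exp 1 ≤ 3 := by
    have := Real.exp_one_lt_d9
    linarith
  have key : ∀ A : ℝ, (A ≤ 1 + (ζ + ν - μ - α) ∨ A ≤ 1 + (2 * ν - μ - α)) → Real.exp A ≤
      3 * (Real.exp (ζ + ν - μ - α) + Real.exp (2 * ν - μ - α)) := by
    intro A hA
    have p1 := Real.exp_pos (ζ + ν - μ - α)
    have p2 := Real.exp_pos (2 * ν - μ - α)
    rcases hA with hA | hA
    · have := Real.exp_le_exp.2 hA
      rw [Real.exp_add] at this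
      nlinarith
    · have := Real.exp_le_exp.2 hA
      rw [Real.exp_add] at this
      nlinarith
  have t1 := key (ζ - 2 / 3 * μ - α / 3 - β / 6 + (θ / 3 + θ / 2)) (Or.inl (by rw [hθ]; linarith))
  have t2 := key (ζ - 2 / 3 * μ - α / 3 - β / 6 + (θ / 3 + (ν - α) / 2))
    (Or.inl (by rw [hθ]; linarith))
  have t3 := key (ζ - 2 / 3 * μ - α / 3 - β / 6 + (θ / 3 + (ν - α + θ) / 3)) (by
    rw [hθ]
    rcases le_total ζ ν with h | h
    · right; linarith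
    · left; linarith)
  have hpos := Real.exp_pos (ζ - 2 / 3 * μ - α / 3 - β / 6)
  calc Real.exp (ζ - 2 / 3 * μ - α / 3 - β / 6) * (y ^ ((1 : ℝ) / 3) *
        Real.sqrt (y + Real.exp ν / Real.exp α + (Real.exp ν / Real.exp α * y) ^ ((2 : ℝ) / 3)))
      ≤ Real.exp (ζ - 2 / 3 * μ - α / 3 - β / 6) * (Real.exp (θ / 3) *
        (Real.exp (θ / 2) + Real.exp ((ν - α) / 2) + Real.exp ((ν - α + θ) / 3))) := by
        gcongr
    _ = Real.exp (ζ - 2 / 3 * μ - α / 3 - β / 6 + (θ / 3 + θ / 2)) +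
        Real.exp (ζ - 2 / 3 * μ - α / 3 - β / 6 + (θ / 3 + (ν - α) / 2)) +
        Real.exp (ζ - 2 / 3 * μ - α / 3 - β / 6 + (θ / 3 + (ν - α + θ) / 3)) := by
        simp only [Real.exp_add]
        ring
    _ ≤ _ := by linarith

/-! ### swap of the divisor sum -/

open Classical in
lemma swap {A : Type*} [AddCommMonoid A] {X : ℝ} (hX : 0 ≤ X) (g : Eis → Eis → A) :
    ∑ n ∈ S X, ∑ a ∈ dvs n, g n a =
      ∑ a ∈ S X, ∑ m ∈ S X, if a * m ∈ S X then g (a * m) a else 0 := by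
  rw [Finset.sum_comm' (s' := fun a => (S X).filter (fun n => a ∣ n)) (t' := S X)]
  · refine Finset.sum_congr rfl fun a ha => ?_
    have ha' := (mem_S hX).1 ha
    rw [← Finset.sum_filter]
    have himg : (S X).filter (fun n => a ∣ n) =
        ((S X).filter (fun m => a * m ∈ S X)).image (fun m => a * m) := by
      ext n
      simp only [Finset.mem_filter, Finset.mem_image]
      constructor
      · rintro ⟨hn, m, rfl⟩
        have hn' := (mem_S hX).1 hn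
        refine ⟨m, ⟨?_, hn⟩, rfl⟩
        rw [mem_S hX]
        refine ⟨?_, (prim_mul_iff ha'.2.1).1 hn'.2.1, hn'.2.2.of_mul_right⟩
        refine le_trans ?_ hn'.1
        have h1 : (1 : ℝ) ≤ nm a := by exact_mod_cast nm_pos.2 ha'.2.1.ne_zero
        rw [nm_mul]
        push_cast
        exact le_mul_of_one_le_left (Nat.cast_nonneg _) h1
      · rintro ⟨m, ⟨_, h2⟩, rfl⟩
        exact ⟨h2, dvd_mul_right _ _⟩
    rw [himg, Finset.sum_image]
    intro x _ y _ hxy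
    exact mul_left_cancel₀ ha'.2.1.ne_zero hxy
  · intro n a
    simp only [Finset.mem_filter]
    constructor
    · rintro ⟨hn, ha⟩
      have hn' := (mem_S hX).1 hn
      obtain ⟨h1, h2⟩ := (mem_dvs hn'.2.1.ne_zero).1 ha
      refine ⟨⟨hn, h2⟩, (mem_S hX).2 ⟨?_, h1, hn'.2.2.squarefree_of_dvd h2⟩⟩
      refine le_trans ?_ hn'.1
      exact_mod_cast nm_le_of_dvd hn'.2.1.ne_zero h2
    · rintro ⟨⟨hn, h2⟩, ha⟩
      exact ⟨hn, (mem_dvs ((mem_S hX).1 hn).2.1.ne_zero).2 ⟨((mem_S hX).1 ha).2.1, h2⟩⟩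

/-! ### the inner sum -/

lemma norm_ws_le {w : Eis → ℂ} {X W : ℝ} (hW : 0 ≤ W) (h : ∀ n, ‖w n‖ ≤ W) (n : Eis) :
    ‖ws w X n‖ ≤ W := by
  unfold ws
  split_ifs
  · exact h n
  · simpa using hW

open Classical in
/-- `Tab` with the frequency sum written out -/
lemma Tab_eq (Z : ℝ) {m₁ a m b : Eis} (hm₁ : m₁ ≠ 0) (ha : a ≠ 0) (hm : m ≠ 0) :
    Tab Z m₁ (a * m) a b = ∑' l : Eis, if l = 0 then 0 else
      th (3 * (l * (m * b))) * ((Real.exp (-((4 * Real.pi ^ 2 * Z * nm a * nm b / (3 * nm m₁)) *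
        nm l / nm m)) : ℝ) : ℂ) := by
  unfold Tab X6A848.T
  refine tsum_congr fun l => ?_
  rw [mul_div_cancel_left₀ _ ha]
  by_cases hl : l = 0
  · rw [if_neg (by simp [hl]), if_pos hl]
  · rw [if_pos ⟨hl, isCoprime_one_right⟩, if_neg hl]
    congr 3
    unfold Amm
    rw [nm_mul]
    have h1 : (nm m₁ : ℝ) ≠ 0 := by exact_mod_cast (nm_pos.2 hm₁).ne'
    have h2 : (nm a : ℝ) ≠ 0 := by exact_mod_cast (nm_pos.2 ha).ne'
    have h3 : (nm m : ℝ) ≠ 0 := by exact_mod_cast (nm_pos.2 hm).ne'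
    have hpi := Real.pi_pos
    push_cast
    field_simp

open Classical in
/-- the coefficients of the inner sum -/
def cin (w : Eis → ℂ) (X : ℝ) (d m₁ a m : Eis) : ℂ :=
  if a * m ∈ S X ∧ IsCoprime m₁ (a * m) then
    conj (ws w X (d * (a * m))) * (((nm (a * m) : ℝ) ^ (-(1 : ℝ) / 3) : ℝ) : ℂ) else 0

lemma cin_mem {w : Eis → ℂ} {X : ℝ} (hX : 0 ≤ X) {d m₁ a m : Eis} (hd : IsPrim d) (ha : IsPrim a)
    (h : cin w X d m₁ a m ≠ 0) : m ∈ S (X / nm d / nm a) := by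
  classical
  unfold cin at h
  split_ifs at h with h1
  · have h2 : ws w X (d * (a * m)) ≠ 0 := by
      intro h0
      rw [h0] at h
      simp at h
    have h3 : d * (a * m) ∈ S X := by
      by_contra hn
      exact h2 (ws_of_not_mem hn)
    have h4 := (mem_S hX).1 h3
    have h5 := (mem_S hX).1 h1.1
    have pd : (0 : ℝ) < nm d := by exact_mod_cast nm_pos.2 hd.ne_zero
    have pa : (0 : ℝ) < nm a := by exact_mod_cast nm_pos.2 ha.ne_zero
    rw [mem_S (by positivity)]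
    refine ⟨?_, (prim_mul_iff ha).1 h5.2.1, h5.2.2.of_mul_right⟩
    rw [le_div_iff₀ pa, le_div_iff₀ pd]
    refine le_trans (le_of_eq ?_) h4.1
    rw [nm_mul, nm_mul]
    push_cast
    ring
  · exact absurd rfl h

lemma norm_cin_le {w : Eis → ℂ} {X W : ℝ} (hW : 0 ≤ W) (hw : ∀ n, ‖w n‖ ≤ W) (d m₁ a m : Eis) :
    ‖cin w X d m₁ a m‖ ≤ W * (nm a : ℝ) ^ (-(1 : ℝ) / 3) * (nm m : ℝ) ^ (-(1 : ℝ) / 3) := by
  classical
  unfold cin
  split_ifs
  · rw [norm_mul, RCLike.norm_conj, Complex.norm_real, Real.norm_of_nonneg (by positivity), nm_mul]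
    push_cast
    rw [Real.mul_rpow (Nat.cast_nonneg _) (Nat.cast_nonneg _), mul_assoc]
    exact mul_le_mul_of_nonneg_right (norm_ws_le hW hw _) (by positivity)
  · rw [norm_zero]; positivity

open Classical in
/-- the inner sum in terms of `cin` -/
lemma inner_eq {w : Eis → ℂ} {X Z : ℝ} (hX : 0 ≤ X) {d m₁ a b : Eis} (hd : IsPrim d)
    (ha : IsPrim a) (hm₁ : m₁ ≠ 0) :
    (∑ m ∈ S X, if a * m ∈ S X then (if IsCoprime m₁ (a * m) then
      conj (ws w X (d * (a * m))) *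
        (((nm (a * m) : ℝ) ^ (-(1 : ℝ) / 2) * (nm (a * m) : ℝ) ^ ((1 : ℝ) / 6) : ℝ) : ℂ) *
        Tab Z m₁ (a * m) a b else 0) else 0) =
    ∑ m ∈ S (X / nm d / nm a), cin w X d m₁ a m * ∑' l : Eis, if l = 0 then 0 else
      th (3 * (l * (m * b))) * ((Real.exp (-((4 * Real.pi ^ 2 * Z * nm a * nm b / (3 * nm m₁)) *
        nm l / nm m)) : ℝ) : ℂ) := by
  have pd : (1 : ℝ) ≤ nm d := by exact_mod_cast nm_pos.2 hd.ne_zero
  have pa : (1 : ℝ) ≤ nm a := by exact_mod_cast nm_pos.2 ha.ne_zero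
  have hsub : S (X / nm d / nm a) ⊆ S X := by
    intro m hm
    have h1 := (mem_S (by positivity)).1 hm
    rw [mem_S hX]
    refine ⟨h1.1.trans ?_, h1.2⟩
    exact (div_le_self (by positivity) pa).trans (div_le_self hX pd)
  rw [Finset.sum_subset hsub (f := fun m => cin w X d m₁ a m * ∑' l : Eis, if l = 0 then 0 else
      th (3 * (l * (m * b))) * ((Real.exp (-((4 * Real.pi ^ 2 * Z * nm a * nm b / (3 * nm m₁)) *
        nm l / nm m)) : ℝ) : ℂ)) (fun m _ hm => by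
      have : cin w X d m₁ a m = 0 := by
        by_contra h0
        exact hm (cin_mem hX hd ha h0)
      rw [this, zero_mul])]
  refine Finset.sum_congr rfl fun m hm => ?_
  have hm' := (mem_S hX).1 hm
  by_cases h1 : a * m ∈ S X
  · by_cases h2 : IsCoprime m₁ (a * m)
    · rw [if_pos h1, if_pos h2, Tab_eq Z hm₁ ha.ne_zero hm'.2.1.ne_zero]
      congr 1
      unfold cin
      rw [if_pos ⟨h1, h2⟩]
      congr 2
      have h3 : (0 : ℝ) < nm (a * m) := by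
        exact_mod_cast nm_pos.2 ((mem_S hX).1 h1).2.1.ne_zero
      rw [← Real.rpow_add h3]
      norm_num
    · rw [if_pos h1, if_neg h2]
      unfold cin
      rw [if_neg (fun h => h2 h.2), zero_mul]
  · rw [if_neg h1]
    unfold cin
    rw [if_neg (fun h => h1 h.1), zero_mul]

open Classical in
/-- the frequency sum is pulled out -/
lemma pull_le {N ξ : ℝ} (hN : 0 ≤ N) (hξ : 0 < ξ) {b : Eis} (hb : b ≠ 0) (c : Eis → ℂ)
    (hs : Summable (fun l : Eis => if l = 0 then 0 else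
      ‖∑ m ∈ S N, c m * th (3 * (l * (m * b))) * ((Real.exp (-(ξ * nm l / nm m)) : ℝ) : ℂ)‖)) :
    ‖∑ m ∈ S N, c m * ∑' l : Eis, (if l = 0 then 0 else
      th (3 * (l * (m * b))) * ((Real.exp (-(ξ * nm l / nm m)) : ℝ) : ℂ))‖ ≤
    ∑' l : Eis, (if l = 0 then 0 else
      ‖∑ m ∈ S N, c m * th (3 * (l * (m * b))) * ((Real.exp (-(ξ * nm l / nm m)) : ℝ) : ℂ)‖) := by
  have hsm : ∀ m ∈ S N, Summable (fun l : Eis => c m * (if l = 0 then 0 else
      th (3 * (l * (m * b))) * ((Real.exp (-(ξ * nm l / nm m)) : ℝ) : ℂ))) := by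
    intro m hm
    have hm' := (mem_S hN).1 hm
    have pm : (0 : ℝ) < nm m := by exact_mod_cast nm_pos.2 hm'.2.1.ne_zero
    refine Summable.mul_left _ ?_
    refine Summable.of_norm_bounded
      (Crest.Agent.R012.LS2.summable_exp_nm (a := ξ / nm m) (by positivity)) (fun l => ?_)
    split_ifs with hl
    · rw [norm_zero]; exact (Real.exp_pos _).le
    · rw [norm_mul, Complex.norm_real, Real.norm_of_nonneg (Real.exp_pos _).le]
      have h1 := norm_th_le_one (h := 3 * (l * (m * b)))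
        (mul_ne_zero (by decide) (mul_ne_zero hl (mul_ne_zero hm'.2.1.ne_zero hb)))
      have e : ξ * nm l / nm m = ξ / nm m * nm l := by ring
      rw [e]
      exact mul_le_of_le_one_left (Real.exp_pos _).le h1
  have e1 : ∑ m ∈ S N, c m * ∑' l : Eis, (if l = 0 then 0 else
      th (3 * (l * (m * b))) * ((Real.exp (-(ξ * nm l / nm m)) : ℝ) : ℂ)) =
      ∑' l : Eis, (if l = 0 then 0 else
      ∑ m ∈ S N, c m * th (3 * (l * (m * b))) * ((Real.exp (-(ξ * nm l / nm m)) : ℝ) : ℂ)) := by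
    have e2 : ∀ m ∈ S N, c m * ∑' l : Eis, (if l = 0 then 0 else
        th (3 * (l * (m * b))) * ((Real.exp (-(ξ * nm l / nm m)) : ℝ) : ℂ)) =
        ∑' l : Eis, c m * (if l = 0 then 0 else
        th (3 * (l * (m * b))) * ((Real.exp (-(ξ * nm l / nm m)) : ℝ) : ℂ)) :=
      fun m _ => tsum_mul_left.symm
    rw [Finset.sum_congr rfl e2, ← Summable.tsum_finsetSum hsm]
    refine tsum_congr fun l => ?_
    split_ifs with hl
    · simp
    · refine Finset.sum_congr rfl fun m _ => ?_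
      ring
  rw [e1]
  have e3 : ∀ l : Eis, ‖(if l = 0 then (0 : ℂ) else
      ∑ m ∈ S N, c m * th (3 * (l * (m * b))) * ((Real.exp (-(ξ * nm l / nm m)) : ℝ) : ℂ))‖ =
      (if l = 0 then 0 else
      ‖∑ m ∈ S N, c m * th (3 * (l * (m * b))) * ((Real.exp (-(ξ * nm l / nm m)) : ℝ) : ℂ)‖) := by
    intro l
    split_ifs
    · simp
    · rfl
  refine (norm_tsum_le_tsum_norm (by simpa only [e3] using hs)).trans (le_of_eq ?_)
  exact tsum_congr e3

set_option maxHeartbeats 1000000 in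
/-- **the inner sum** -/
theorem inner_bound {η : ℝ} (hη : 0 < η) (hη1 : η ≤ 1) : ∃ C : ℝ, 0 < C ∧ ∀ X Z W : ℝ, 1 ≤ X →
    1 ≤ Z → 0 ≤ W → ∀ w : Eis → ℂ, (∀ n, ‖w n‖ ≤ W) → ∀ d : Eis, IsPrim d → ∀ m₁ b a : Eis,
    IsPrim m₁ → Squarefree m₁ → (nm m₁ : ℝ) ≤ X / nm d → b ∈ dvs m₁ → IsPrim a →
    kap X Z d < (nm a : ℝ) * nm b →
    open Classical in
    Z * ((nm m₁ : ℝ) ^ (-(1 : ℝ) / 2) * n6 m₁) *
      ‖∑ m ∈ S X, if a * m ∈ S X then (if IsCoprime m₁ (a * m) then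
      conj (ws w X (d * (a * m))) *
        (((nm (a * m) : ℝ) ^ (-(1 : ℝ) / 2) * (nm (a * m) : ℝ) ^ ((1 : ℝ) / 6) : ℝ) : ℂ) *
        Tab Z m₁ (a * m) a b else 0) else 0‖ ≤
      C * X ^ (7 * η) * (tau b : ℝ) * W *
        ((Z * (X / nm d) + (X / nm d) ^ 2) * (1 / (nm m₁ : ℝ)) * (1 / (nm a : ℝ))) := by
  classical
  obtain ⟨C, hC, h⟩ := core2 hη hη1
  refine ⟨54 * C, by positivity, fun X Z W hX hZ hW w hw d hd m₁ b a hm₁ hsm₁ hmN hb ha hk => ?_⟩
  have hX0 : 0 ≤ X := by linarith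
  have hZ0 : 0 < Z := by linarith
  obtain ⟨hbp, hbd⟩ := (mem_dvs hm₁.ne_zero).1 hb
  have hsb : Squarefree b := hsm₁.squarefree_of_dvd hbd
  have pd : (1 : ℝ) ≤ nm d := by exact_mod_cast nm_pos.2 hd.ne_zero
  have pa : (1 : ℝ) ≤ nm a := by exact_mod_cast nm_pos.2 ha.ne_zero
  have pb : (1 : ℝ) ≤ nm b := by exact_mod_cast nm_pos.2 hbp.ne_zero
  have pm : (1 : ℝ) ≤ nm m₁ := by exact_mod_cast nm_pos.2 hm₁.ne_zero
  have hbm : (nm b : ℝ) ≤ nm m₁ := by exact_mod_cast nm_le_of_dvd hm₁.ne_zero hbd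
  rw [inner_eq (Z := Z) (b := b) hX0 hd ha hm₁.ne_zero]
  set N : ℝ := X / nm d with hN
  have hNX : N ≤ X := div_le_self hX0 pd
  have hN1 : 1 ≤ N := pm.trans hmN
  set N' : ℝ := N / nm a with hN'
  have hN'N : N' ≤ N := div_le_self (by linarith) pa
  set ξ : ℝ := 4 * Real.pi ^ 2 * Z * nm a * nm b / (3 * nm m₁) with hξ
  have hpi := Real.pi_pos
  have hξ0 : 0 < ξ := by positivity
  have hRHS0 : 0 ≤ 54 * C * X ^ (7 * η) * (tau b : ℝ) * W *
        ((Z * N + N ^ 2) * (1 / (nm m₁ : ℝ)) * (1 / (nm a : ℝ))) := by positivity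
  rcases lt_or_ge N' 1 with h1 | h1
  · have : S N' = ∅ := by
      refine Finset.eq_empty_of_forall_notMem fun z hz => ?_
      have h2 := (mem_S (by positivity)).1 hz
      have h3 : (1 : ℝ) ≤ nm z := by exact_mod_cast nm_pos.2 h2.2.1.ne_zero
      linarith [h2.1]
    rw [this, Finset.sum_empty, norm_zero, mul_zero]
    exact hRHS0
  have hc := h N' ξ (W * (nm a : ℝ) ^ (-(1 : ℝ) / 3)) h1 hξ0 (by positivity) b hbp hsb
    (cin w X d m₁ a) (fun m hm => cin_mem hX0 hd ha hm) (fun m hm => by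
      unfold cin at hm
      split_ifs at hm with h2
      · exact (IsCoprime.of_mul_right_right (h2.2.of_isCoprime_of_dvd_left hbd)).symm
      · exact absurd rfl hm) (fun m _ => norm_cin_le hW hw d m₁ a m)
  have hpull := (pull_le (by linarith) hξ0 hbp.ne_zero _ hc.1).trans hc.2
  set ρ : ℝ := ξ / (18 * N') with hρ
  have hρ0 : 0 < ρ := by positivity
  set y : ℝ := 1 / ρ with hy
  have hy0 : 0 ≤ y := by positivity
  have hye : y ≤ Real.exp 1 * (N * nm m₁ / (Z * (nm a : ℝ) ^ 2 * nm b)) := by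
    have e1 : y = 27 / (2 * Real.pi ^ 2) * (N * nm m₁ / (Z * (nm a : ℝ) ^ 2 * nm b)) := by
      rw [hy, hρ, hξ, hN']
      field_simp
      norm_num
    rw [e1]
    refine mul_le_mul_of_nonneg_right ?_ (by positivity)
    have h2 : (27 : ℝ) / (2 * Real.pi ^ 2) ≤ 2 := by
      rw [div_le_iff₀ (by positivity)]
      nlinarith [Real.pi_gt_three]
    have h3 := Real.add_one_le_exp (1 : ℝ)
    linarith
  have hI := ineqE (z := Z) (n := N) (m := nm m₁) (a := nm a) (b := nm b) (y := y) hZ pm hmN pa pb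
    (hbm.trans hmN) hk.le hy0 hye
  -- the powers of `η`
  have hE : ξ ^ (-η) * (2 * N') ^ η * (N' ^ (2 * η) * (N' / ρ) ^ η) ≤ 6 * X ^ (7 * η) := by
    have a1 : ξ ^ (-η) ≤ X ^ η := by
      rw [Real.rpow_neg hξ0.le, ← Real.inv_rpow hξ0.le]
      refine Real.rpow_le_rpow (by positivity) ?_ hη.le
      rw [hξ, inv_div, div_le_iff₀ (by positivity)]
      have h4 : (nm m₁ : ℝ) ≤ X := hmN.trans hNX
      have h5 : 1 ≤ Z * nm a * nm b := by
        refine one_le_mul_of_one_le_of_one_le (one_le_mul_of_one_le_of_one_le hZ pa) pb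
      have h6 : 3 ≤ 4 * Real.pi ^ 2 := by nlinarith [Real.pi_gt_three]
      calc 3 * (nm m₁ : ℝ) ≤ (4 * Real.pi ^ 2) * X := mul_le_mul h6 h4 (by positivity) (by positivity)
        _ = X * (4 * Real.pi ^ 2) * 1 := by ring
        _ ≤ X * (4 * Real.pi ^ 2) * (Z * nm a * nm b) :=
            mul_le_mul_of_nonneg_left h5 (by positivity)
        _ = _ := by ring
    have hN'X : N' ≤ X := hN'N.trans hNX
    have a2 : (2 * N') ^ η ≤ 2 * X ^ η := by
      rw [Real.mul_rpow (by norm_num) (by linarith)]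
      exact mul_le_mul (rpow_le_self (by norm_num) hη1)
        (Real.rpow_le_rpow (by linarith) hN'X hη.le) (by positivity) (by norm_num)
    have a3 : N' ^ (2 * η) ≤ X ^ (2 * η) := Real.rpow_le_rpow (by linarith) hN'X (by positivity)
    have a4 : (N' / ρ) ^ η ≤ 3 * X ^ (3 * η) := by
      have b1 : N' / ρ ≤ 3 * X ^ 3 := by
        have b2 : N' / ρ = N' * y := by rw [hy]; ring
        have b3 : y ≤ 3 * (X * X) := by
          refine hye.trans ?_
          have c1 : Real.exp 1 ≤ 3 := by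
            have := Real.exp_one_lt_d9
            linarith
          have c2 : N * nm m₁ / (Z * (nm a : ℝ) ^ 2 * nm b) ≤ X * X := by
            refine (div_le_self (by positivity) ?_).trans ?_
            · exact one_le_mul_of_one_le_of_one_le
                (one_le_mul_of_one_le_of_one_le hZ (one_le_pow₀ pa)) pb
            · exact mul_le_mul hNX (hmN.trans hNX) (by positivity) hX0
          exact mul_le_mul c1 c2 (by positivity) (by norm_num)
        rw [b2]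
        calc N' * y ≤ X * (3 * (X * X)) := mul_le_mul hN'X b3 hy0 hX0
          _ = _ := by ring
      refine (Real.rpow_le_rpow (by positivity) b1 hη.le).trans ?_
      rw [Real.mul_rpow (by norm_num) (by positivity), ← Real.rpow_natCast, ← Real.rpow_mul hX0]
      push_cast
      exact mul_le_mul_of_nonneg_right (rpow_le_self (by norm_num) hη1) (by positivity)
    calc ξ ^ (-η) * (2 * N') ^ η * (N' ^ (2 * η) * (N' / ρ) ^ η)
        ≤ X ^ η * (2 * X ^ η) * (X ^ (2 * η) * (3 * X ^ (3 * η))) := by gcongr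
      _ = 6 * (X ^ η * X ^ η * X ^ (2 * η) * X ^ (3 * η)) := by ring
      _ = _ := by
          have hXp : 0 < X := by linarith
          rw [← Real.rpow_add hXp, ← Real.rpow_add hXp, ← Real.rpow_add hXp]
          congr 2
          ring
  have hn6 : n6 m₁ = (nm m₁ : ℝ) ^ (-(1 : ℝ) / 6) := rfl
  have hn6b : n6 b = (nm b : ℝ) ^ (-(1 : ℝ) / 6) := rfl
  have eBd : Bd1 η N' ρ = N' ^ (2 * η) * (N' / ρ) ^ η *
      (y ^ ((1 : ℝ) / 3) * Real.sqrt (y + N' + (N' * y) ^ ((2 : ℝ) / 3))) := by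
    unfold Bd1
    rw [hy, mul_one_div]
    ring
  have hpos : 0 ≤ Z * ((nm m₁ : ℝ) ^ (-(1 : ℝ) / 2) * n6 m₁) := by
    rw [hn6]; positivity
  refine (mul_le_mul_of_nonneg_left hpull hpos).trans ?_
  calc Z * ((nm m₁ : ℝ) ^ (-(1 : ℝ) / 2) * n6 m₁) * (C * (W * (nm a : ℝ) ^ (-(1 : ℝ) / 3)) *
        ξ ^ (-η) * (2 * N') ^ η * (tau b : ℝ) * n6 b * Bd1 η N' ρ)
      = C * (tau b : ℝ) * W * (ξ ^ (-η) * (2 * N') ^ η * (N' ^ (2 * η) * (N' / ρ) ^ η)) *
        (Z * ((nm m₁ : ℝ) ^ (-(1 : ℝ) / 2) * (nm m₁ : ℝ) ^ (-(1 : ℝ) / 6)) *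
        (nm a : ℝ) ^ (-(1 : ℝ) / 3) * (nm b : ℝ) ^ (-(1 : ℝ) / 6) *
        (y ^ ((1 : ℝ) / 3) * Real.sqrt (y + N' + (N' * y) ^ ((2 : ℝ) / 3)))) := by
        rw [eBd, hn6, hn6b]; ring
    _ ≤ C * (tau b : ℝ) * W * (6 * X ^ (7 * η)) *
        (9 * ((Z * N + N ^ 2) * (1 / (nm m₁ : ℝ)) * (1 / (nm a : ℝ)))) := by
        refine mul_le_mul (mul_le_mul_of_nonneg_left hE (by positivity)) hI ?_ (by positivity)
        positivity
    _ = _ := by ring

open Classical in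
/-- the inner sum of `inner_bound` -/
def Inn (w : Eis → ℂ) (X Z : ℝ) (d m₁ a b : Eis) : ℂ :=
  ∑ m ∈ S X, if a * m ∈ S X then (if IsCoprime m₁ (a * m) then
      conj (ws w X (d * (a * m))) *
        (((nm (a * m) : ℝ) ^ (-(1 : ℝ) / 2) * (nm (a * m) : ℝ) ^ ((1 : ℝ) / 6) : ℝ) : ℂ) *
        Tab Z m₁ (a * m) a b else 0) else 0

open Classical in
/-- the sum over `m₂` and `a ∣ m₂` for fixed `m₁` -/
lemma row_eq (w : Eis → ℂ) {X : ℝ} (hX : 0 ≤ X) (Z : ℝ) (d m₁ : Eis) (P : Eis → Eis → Prop) :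
    (∑ m₂ ∈ S X, if IsCoprime m₁ m₂ then
    ws w X (d * m₁) * conj (ws w X (d * m₂)) *
      (((nm m₁ : ℝ) ^ (-(1 : ℝ) / 2) * (nm m₂ : ℝ) ^ (-(1 : ℝ) / 2) : ℝ) : ℂ) *
      ((n6 m₁ * (nm m₂ : ℝ) ^ ((1 : ℝ) / 6) : ℝ) : ℂ) *
      ∑ b ∈ dvs m₁, ∑ a ∈ (dvs m₂).filter (fun a => P a b), (muE a : ℂ) * (muE b : ℂ) *
        Tab Z m₁ m₂ a b
    else 0) =
    ws w X (d * m₁) * (((nm m₁ : ℝ) ^ (-(1 : ℝ) / 2) * n6 m₁ : ℝ) : ℂ) *
      ∑ b ∈ dvs m₁, (muE b : ℂ) * ∑ a ∈ S X, if P a b then (muE a : ℂ) * Inn w X Z d m₁ a b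
        else 0 := by
  have e1 : ∀ b : Eis, (∑ a ∈ S X, if P a b then (muE a : ℂ) * Inn w X Z d m₁ a b else 0) =
      ∑ m₂ ∈ S X, ∑ a ∈ dvs m₂, (if P a b then (muE a : ℂ) * (if IsCoprime m₁ m₂ then
        conj (ws w X (d * m₂)) *
        (((nm m₂ : ℝ) ^ (-(1 : ℝ) / 2) * (nm m₂ : ℝ) ^ ((1 : ℝ) / 6) : ℝ) : ℂ) *
        Tab Z m₁ m₂ a b else 0) else 0) := by
    intro b
    rw [swap hX (fun m₂ a => (if P a b then (muE a : ℂ) * (if IsCoprime m₁ m₂ then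
        conj (ws w X (d * m₂)) *
        (((nm m₂ : ℝ) ^ (-(1 : ℝ) / 2) * (nm m₂ : ℝ) ^ ((1 : ℝ) / 6) : ℝ) : ℂ) *
        Tab Z m₁ m₂ a b else 0) else 0))]
    refine Finset.sum_congr rfl fun a _ => ?_
    by_cases hP : P a b
    · simp only [if_pos hP]
      unfold Inn
      rw [Finset.mul_sum]
      refine Finset.sum_congr rfl fun m _ => ?_
      rw [mul_ite, mul_zero]
    · simp only [if_neg hP]
      symm
      exact Finset.sum_eq_zero fun m _ => by split_ifs <;> rfl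
  simp only [e1]
  rw [Finset.mul_sum]
  have e2 : ∀ b ∈ dvs m₁, ws w X (d * m₁) * (((nm m₁ : ℝ) ^ (-(1 : ℝ) / 2) * n6 m₁ : ℝ) : ℂ) *
      ((muE b : ℂ) * ∑ m₂ ∈ S X, ∑ a ∈ dvs m₂, (if P a b then (muE a : ℂ) *
        (if IsCoprime m₁ m₂ then conj (ws w X (d * m₂)) *
        (((nm m₂ : ℝ) ^ (-(1 : ℝ) / 2) * (nm m₂ : ℝ) ^ ((1 : ℝ) / 6) : ℝ) : ℂ) *
        Tab Z m₁ m₂ a b else 0) else 0)) =
      ∑ m₂ ∈ S X, (ws w X (d * m₁) * (((nm m₁ : ℝ) ^ (-(1 : ℝ) / 2) * n6 m₁ : ℝ) : ℂ) *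
      ((muE b : ℂ) * ∑ a ∈ dvs m₂, (if P a b then (muE a : ℂ) *
        (if IsCoprime m₁ m₂ then conj (ws w X (d * m₂)) *
        (((nm m₂ : ℝ) ^ (-(1 : ℝ) / 2) * (nm m₂ : ℝ) ^ ((1 : ℝ) / 6) : ℝ) : ℂ) *
        Tab Z m₁ m₂ a b else 0) else 0))) := by
    intro b _
    rw [Finset.mul_sum, Finset.mul_sum]
  rw [Finset.sum_congr rfl e2, Finset.sum_comm]
  refine Finset.sum_congr rfl fun m₂ _ => ?_
  by_cases hco : IsCoprime m₁ m₂
  · simp only [if_pos hco]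
    rw [Finset.mul_sum]
    refine Finset.sum_congr rfl fun b _ => ?_
    rw [← Finset.sum_filter, Finset.mul_sum, Finset.mul_sum, Finset.mul_sum]
    refine Finset.sum_congr rfl fun a _ => ?_
    push_cast
    ring
  · simp only [if_neg hco]
    symm
    refine Finset.sum_eq_zero fun b _ => ?_
    have : (∑ a ∈ dvs m₂, if P a b then (muE a : ℂ) * 0 else 0) = 0 :=
      Finset.sum_eq_zero fun a _ => by split_ifs <;> simp
    rw [this, mul_zero, mul_zero]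

set_option maxHeartbeats 1000000 in
/-- **the direct part** -/
theorem dirP : X6545.DirP := by
  classical
  intro ε hε
  set η : ℝ := min (ε / 11) 1 with hη
  have hη0 : 0 < η := lt_min (by positivity) one_pos
  have hη1 : η ≤ 1 := min_le_right _ _
  have hηε : 11 * η ≤ ε := by
    have := min_le_left (ε / 11) 1
    rw [← hη] at this
    linarith
  obtain ⟨C, hC, h⟩ := inner_bound hη0 hη1
  obtain ⟨Cτ, hCτ, hτ⟩ := tau_le_rpow (ε := η) hη0
  obtain ⟨K, hK, hLL⟩ := LS448.LL_le (ε := η) hη0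
  have hCτ0 : 0 < Cτ := by linarith
  refine ⟨C * Cτ ^ 2 * K ^ 2, by positivity, fun X Z W hX hZ hW w hw hwW d hd => ?_⟩
  have hX0 : 0 ≤ X := by linarith
  have hXp : 0 < X := by linarith
  have hd' := (mem_S hX0).1 hd
  have pd : (1 : ℝ) ≤ nm d := by exact_mod_cast nm_pos.2 hd'.2.1.ne_zero
  set N : ℝ := X / nm d with hN
  have hN0 : 0 ≤ N := by positivity
  set P : Eis → Eis → Prop := fun a b => kap X Z d < (nm a : ℝ) * nm b with hP
  have hsumX : ∑ a ∈ S X, 1 / (nm a : ℝ) ≤ K * X ^ η := by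
    have h5 := X6b792.sum_inv_S_le hX0
    simp only [Real.rpow_neg_one] at h5
    simp only [one_div]
    exact h5.trans (hLL X hX)
  have hsum0 : 0 ≤ ∑ a ∈ S X, 1 / (nm a : ℝ) := Finset.sum_nonneg fun _ _ => by positivity
  have hτb : ∀ b : Eis, IsPrim b → (nm b : ℝ) ≤ X → (tau b : ℝ) ≤ Cτ * X ^ η := by
    intro b hb hbX
    refine (hτ b hb.ne_zero).trans (mul_le_mul_of_nonneg_left ?_ hCτ0.le)
    exact Real.rpow_le_rpow (Nat.cast_nonneg _) hbX hη0.le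
  set D : ℝ := Z * N + N ^ 2 with hD
  have hD0 : 0 ≤ D := by positivity
  -- one row
  have row : ∀ m₁ ∈ S X, Z * ‖ws w X (d * m₁) *
      (((nm m₁ : ℝ) ^ (-(1 : ℝ) / 2) * n6 m₁ : ℝ) : ℂ) *
      ∑ b ∈ dvs m₁, (muE b : ℂ) * ∑ a ∈ S X, (if P a b then (muE a : ℂ) * Inn w X Z d m₁ a b
        else 0)‖ ≤ C * Cτ ^ 2 * K * X ^ (10 * η) * W ^ 2 * D * (1 / (nm m₁ : ℝ)) := by
    intro m₁ hm
    have hm' := (mem_S hX0).1 hm
    have pm : (1 : ℝ) ≤ nm m₁ := by exact_mod_cast nm_pos.2 hm'.2.1.ne_zero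
    have hR0 : 0 ≤ C * Cτ ^ 2 * K * X ^ (10 * η) * W ^ 2 * D * (1 / (nm m₁ : ℝ)) := by
      positivity
    by_cases hws : ws w X (d * m₁) = 0
    · rw [hws, zero_mul, zero_mul, norm_zero, mul_zero]
      exact hR0
    have hdm : d * m₁ ∈ S X := by
      by_contra hn
      exact hws (ws_of_not_mem hn)
    have hmN : (nm m₁ : ℝ) ≤ N := by
      have h1 := ((mem_S hX0).1 hdm).1
      rw [hN, le_div_iff₀ (by linarith)]
      refine le_trans (le_of_eq ?_) h1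
      rw [nm_mul]; push_cast; ring
    have hq0 : 0 ≤ (nm m₁ : ℝ) ^ (-(1 : ℝ) / 2) * n6 m₁ :=
      mul_nonneg (by positivity) (n6_nonneg _)
    rw [norm_mul, norm_mul, Complex.norm_real, Real.norm_of_nonneg hq0]
    have h1 : ‖∑ b ∈ dvs m₁, (muE b : ℂ) * ∑ a ∈ S X, (if P a b then
        (muE a : ℂ) * Inn w X Z d m₁ a b else 0)‖ ≤
        ∑ b ∈ dvs m₁, ∑ a ∈ S X, (if P a b then ‖Inn w X Z d m₁ a b‖ else 0) := by
      refine (norm_sum_le _ _).trans (Finset.sum_le_sum fun b _ => ?_)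
      rw [norm_mul]
      refine (mul_le_of_le_one_left (norm_nonneg _) (norm_muE_le b)).trans ?_
      refine (norm_sum_le _ _).trans (Finset.sum_le_sum fun a _ => ?_)
      split_ifs
      · rw [norm_mul]
        exact mul_le_of_le_one_left (norm_nonneg _) (norm_muE_le a)
      · rw [norm_zero]
    have h2 : ∀ b ∈ dvs m₁, ∀ a ∈ S X, (Z * ((nm m₁ : ℝ) ^ (-(1 : ℝ) / 2) * n6 m₁)) *
        (if P a b then ‖Inn w X Z d m₁ a b‖ else 0) ≤
        C * X ^ (7 * η) * (Cτ * X ^ η) * W * (D * (1 / (nm m₁ : ℝ))) * (1 / (nm a : ℝ)) := by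
      intro b hb a ha
      have ha' := (mem_S hX0).1 ha
      obtain ⟨hbp, hbd⟩ := (mem_dvs hm'.2.1.ne_zero).1 hb
      have hbX : (nm b : ℝ) ≤ X := le_trans (by
        exact_mod_cast nm_le_of_dvd hm'.2.1.ne_zero hbd) hm'.1
      split_ifs with hPab
      · refine (h X Z W hX hZ hW w hwW d hd'.2.1 m₁ b a hm'.2.1 hm'.2.2 hmN hb ha'.2.1
          hPab).trans ?_
        calc C * X ^ (7 * η) * (tau b : ℝ) * W *
              ((Z * N + N ^ 2) * (1 / (nm m₁ : ℝ)) * (1 / (nm a : ℝ)))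
            ≤ C * X ^ (7 * η) * (Cτ * X ^ η) * W *
              ((Z * N + N ^ 2) * (1 / (nm m₁ : ℝ)) * (1 / (nm a : ℝ))) := by
              have := hτb b hbp hbX
              gcongr
          _ = _ := by rw [hD]; ring
      · rw [mul_zero]; positivity
    have h3 : (Z * ((nm m₁ : ℝ) ^ (-(1 : ℝ) / 2) * n6 m₁)) * (∑ b ∈ dvs m₁, ∑ a ∈ S X,
        (if P a b then ‖Inn w X Z d m₁ a b‖ else 0)) ≤
        (tau m₁ : ℝ) * (C * X ^ (7 * η) * (Cτ * X ^ η) * W * (D * (1 / (nm m₁ : ℝ))) *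
          ∑ a ∈ S X, 1 / (nm a : ℝ)) := by
      rw [Finset.mul_sum]
      have : ∀ b ∈ dvs m₁, (Z * ((nm m₁ : ℝ) ^ (-(1 : ℝ) / 2) * n6 m₁)) * (∑ a ∈ S X,
          (if P a b then ‖Inn w X Z d m₁ a b‖ else 0)) ≤
          C * X ^ (7 * η) * (Cτ * X ^ η) * W * (D * (1 / (nm m₁ : ℝ))) *
          ∑ a ∈ S X, 1 / (nm a : ℝ) := by
        intro b hb
        rw [Finset.mul_sum, Finset.mul_sum]
        exact Finset.sum_le_sum fun a ha => h2 b hb a ha
      refine (Finset.sum_le_sum this).trans (le_of_eq ?_)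
      rw [Finset.sum_const, nsmul_eq_mul]
      rfl
    have hτm := hτb m₁ hm'.2.1 hm'.1
    have hzp : 0 ≤ Z := by linarith
    calc Z * (‖ws w X (d * m₁)‖ * ((nm m₁ : ℝ) ^ (-(1 : ℝ) / 2) * n6 m₁) *
          ‖∑ b ∈ dvs m₁, (muE b : ℂ) * ∑ a ∈ S X, (if P a b then
            (muE a : ℂ) * Inn w X Z d m₁ a b else 0)‖)
        ≤ Z * (W * ((nm m₁ : ℝ) ^ (-(1 : ℝ) / 2) * n6 m₁) *
          ∑ b ∈ dvs m₁, ∑ a ∈ S X, (if P a b then ‖Inn w X Z d m₁ a b‖ else 0)) := by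
          refine mul_le_mul_of_nonneg_left ?_ hzp
          refine mul_le_mul (mul_le_mul_of_nonneg_right (norm_ws_le hW hwW _) hq0) h1
            (norm_nonneg _) (mul_nonneg hW hq0)
      _ = W * ((Z * ((nm m₁ : ℝ) ^ (-(1 : ℝ) / 2) * n6 m₁)) * (∑ b ∈ dvs m₁, ∑ a ∈ S X,
          (if P a b then ‖Inn w X Z d m₁ a b‖ else 0))) := by ring
      _ ≤ W * ((tau m₁ : ℝ) * (C * X ^ (7 * η) * (Cτ * X ^ η) * W * (D * (1 / (nm m₁ : ℝ))) *
          ∑ a ∈ S X, 1 / (nm a : ℝ))) := mul_le_mul_of_nonneg_left h3 hW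
      _ ≤ W * ((Cτ * X ^ η) * (C * X ^ (7 * η) * (Cτ * X ^ η) * W * (D * (1 / (nm m₁ : ℝ))) *
          (K * X ^ η))) := by gcongr
      _ = C * Cτ ^ 2 * K * (X ^ η * X ^ (7 * η) * X ^ η * X ^ η) * W ^ 2 * D *
          (1 / (nm m₁ : ℝ)) := by ring
      _ = _ := by
          rw [← Real.rpow_add hXp, ← Real.rpow_add hXp, ← Real.rpow_add hXp]
          congr 5
          ring
  -- all rows
  unfold AB
  have e1 := fun m₁ : Eis => row_eq w hX0 Z d m₁ P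
  simp only [e1]
  have hzp : 0 ≤ Z := by linarith
  calc Z * ‖∑ m₁ ∈ S X, ws w X (d * m₁) * (((nm m₁ : ℝ) ^ (-(1 : ℝ) / 2) * n6 m₁ : ℝ) : ℂ) *
        ∑ b ∈ dvs m₁, (muE b : ℂ) * ∑ a ∈ S X, (if P a b then (muE a : ℂ) * Inn w X Z d m₁ a b
        else 0)‖
      ≤ Z * ∑ m₁ ∈ S X, ‖ws w X (d * m₁) * (((nm m₁ : ℝ) ^ (-(1 : ℝ) / 2) * n6 m₁ : ℝ) : ℂ) *
        ∑ b ∈ dvs m₁, (muE b : ℂ) * ∑ a ∈ S X, (if P a b then (muE a : ℂ) * Inn w X Z d m₁ a b
        else 0)‖ := mul_le_mul_of_nonneg_left (norm_sum_le _ _) hzp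
    _ ≤ ∑ m₁ ∈ S X, C * Cτ ^ 2 * K * X ^ (10 * η) * W ^ 2 * D * (1 / (nm m₁ : ℝ)) := by
        rw [Finset.mul_sum]
        exact Finset.sum_le_sum row
    _ = C * Cτ ^ 2 * K * X ^ (10 * η) * W ^ 2 * D * ∑ m₁ ∈ S X, 1 / (nm m₁ : ℝ) := by
        rw [Finset.mul_sum]
    _ ≤ C * Cτ ^ 2 * K * X ^ (10 * η) * W ^ 2 * D * (K * X ^ η) :=
        mul_le_mul_of_nonneg_left hsumX (by positivity)
    _ = C * Cτ ^ 2 * K ^ 2 * (X ^ (10 * η) * X ^ η) * (W ^ 2 * D) := by ring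
    _ = C * Cτ ^ 2 * K ^ 2 * X ^ (11 * η) * (W ^ 2 * D) := by
        rw [← Real.rpow_add hXp]
        congr 3
        ring
    _ ≤ C * Cτ ^ 2 * K ^ 2 * (X * Z) ^ ε * (W ^ 2 * D) := by
        have h1 : X ^ (11 * η) ≤ (X * Z) ^ ε :=
          (Real.rpow_le_rpow_of_exponent_le hX hηε).trans
            (Real.rpow_le_rpow hX0 (le_mul_of_one_le_right hX0 hZ) hε.le)
        gcongr
    _ = _ := by rw [hD]; ring

end Crest.Agent.R017.X6E502
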