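import Crest.Agent.R017.X6B3_848

/-!
# Row 17, exceptional class, X6 (helper848): the test functions `F_z(y) = h(y) e^{-z e^y}`

`Fy z` is a `TF` test function, `Bd (Fy z) k (C (1+z)^{-K})`, and
`∑_n e^{2n/3} ∫ Fy e^n y e^{2y/3} dy = Γ(2/3)`.
-/

set_option autoImplicit false

noncomputable section

open MeasureTheory Complex Set Filter Topology
open scoped ContDiff

namespace Crest.Agent.R017.X6B848

open Crest.Agent.R012 Crest.Agent.R012.Eis
open Crest.Agent.R017.FE47 (PU h00 pu0)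
open Crest.Agent.R017.X6545 (TF Bd)

/-- derivatives of `e^{-z ρ}` on a compact set where `ρ ≥ c`, any space -/
lemma exp_der' {E : Type*} [NormedAddCommGroup E] [NormedSpace ℝ E] {ρ : E → ℝ}
    (hρ : ContDiff ℝ ∞ ρ) {S : Set E} (hS : IsCompact S) {c : ℝ} (hc : 0 < c)
    (hρc : ∀ x ∈ S, c ≤ ρ x) (n B : ℕ) : ∃ C : ℝ, 0 ≤ C ∧ ∀ z : ℝ, 0 ≤ z → ∀ x ∈ S,
    ‖iteratedFDeriv ℝ n (fun x => Real.exp (-z * ρ x)) x‖ ≤ C * ((1 + z) ^ B)⁻¹ := by
  have hD : ∀ i : ℕ, ∃ M : ℝ, ∀ x ∈ S, ‖iteratedFDeriv ℝ i ρ x‖ ≤ M := by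
    intro i
    have hcont : Continuous (iteratedFDeriv ℝ i ρ) :=
      hρ.continuous_iteratedFDeriv (by exact_mod_cast le_top)
    obtain ⟨M, hM⟩ := hS.exists_bound_of_continuousOn hcont.continuousOn
    exact ⟨M, hM⟩
  choose M hM using hD
  set D : ℝ := 1 + ∑ i ∈ Finset.range (n + 1), |M i| with hDdef
  have hsum : 0 ≤ ∑ i ∈ Finset.range (n + 1), |M i| := Finset.sum_nonneg fun _ _ => abs_nonneg _
  have hD1 : 1 ≤ D := by rw [hDdef]; linarith
  obtain ⟨E', hE0, hE⟩ := pow_exp_bd hc (n + B)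
  refine ⟨n.factorial * E' * D ^ n, by positivity, fun z hz x hx => ?_⟩
  have h1 : ∀ i, i ≤ n → ‖iteratedFDeriv ℝ i (fun s : ℝ => Real.exp (-z * s)) (ρ x)‖ ≤
      (1 + z) ^ n * Real.exp (-(c * z)) := by
    intro i hi
    rw [norm_iteratedFDeriv_eq_norm_iteratedDeriv, iteratedDeriv_exp_const_mul]
    rw [norm_mul, norm_pow, norm_neg, Real.norm_of_nonneg hz, Real.norm_of_nonneg (Real.exp_pos _).le]
    have e1 : z ^ i ≤ (1 + z) ^ n := by
      calc z ^ i ≤ (1 + z) ^ i := by gcongr; linarith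
        _ ≤ (1 + z) ^ n := pow_le_pow_right₀ (by linarith) hi
    have e2 : Real.exp (-z * ρ x) ≤ Real.exp (-(c * z)) := by
      apply Real.exp_le_exp.mpr
      have := hρc x hx
      nlinarith
    gcongr
  have h2 : ∀ i, 1 ≤ i → i ≤ n → ‖iteratedFDeriv ℝ i ρ x‖ ≤ D ^ i := by
    intro i hi1 hin
    calc ‖iteratedFDeriv ℝ i ρ x‖ ≤ M i := hM i x hx
      _ ≤ |M i| := le_abs_self _
      _ ≤ ∑ i ∈ Finset.range (n + 1), |M i| :=
          Finset.single_le_sum (f := fun i => |M i|) (fun _ _ => abs_nonneg _)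
            (Finset.mem_range.mpr (by omega))
      _ ≤ D := by rw [hDdef]; linarith
      _ = D ^ 1 := (pow_one D).symm
      _ ≤ D ^ i := pow_le_pow_right₀ hD1 hi1
  have hg : ContDiff ℝ ∞ (fun s : ℝ => Real.exp (-z * s)) :=
    Real.contDiff_exp.comp (contDiff_const.mul contDiff_id)
  have h3 := norm_iteratedFDeriv_comp_le (n := n) hg hρ (by exact_mod_cast le_top) x h1 h2
  have h4 : (fun x => Real.exp (-z * ρ x)) = (fun s : ℝ => Real.exp (-z * s)) ∘ ρ := rfl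
  rw [h4]
  refine h3.trans ?_
  have h5 : (1 + z) ^ n * Real.exp (-(c * z)) ≤ E' * ((1 + z) ^ B)⁻¹ := by
    rw [← div_eq_mul_inv, le_div_iff₀ (by positivity)]
    calc (1 + z) ^ n * Real.exp (-(c * z)) * (1 + z) ^ B
        = (1 + z) ^ (n + B) * Real.exp (-(c * z)) := by rw [pow_add]; ring
      _ ≤ E' := hE z hz
  calc (n.factorial : ℝ) * ((1 + z) ^ n * Real.exp (-(c * z))) * D ^ n
      ≤ n.factorial * (E' * ((1 + z) ^ B)⁻¹) * D ^ n := by gcongr
    _ = _ := by ring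

/-- derivatives of `G e^{-z ρ}`, `G` supported in a compact set -/
lemma der_gen {E : Type*} [NormedAddCommGroup E] [NormedSpace ℝ E] {G : E → ℂ}
    (hG : ContDiff ℝ ∞ G) {ρ : E → ℝ} (hρ : ContDiff ℝ ∞ ρ) {S : Set E} (hS : IsCompact S) {c : ℝ}
    (hc : 0 < c) (hs : ∀ x, x ∉ S → G x = 0) (hρc : ∀ x ∈ S, c ≤ ρ x) (n B : ℕ) :
    ∃ C : ℝ, 0 ≤ C ∧ ∀ z : ℝ, 0 ≤ z → ∀ x,
      ‖iteratedFDeriv ℝ n (fun x => Real.exp (-z * ρ x) • G x) x‖ ≤ C * ((1 + z) ^ B)⁻¹ := by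
  have h1 := fun i => exp_der' hρ hS hc hρc i B
  choose E' hE0 hE using h1
  have h2 : ∀ i : ℕ, ∃ M : ℝ, ∀ x ∈ S, ‖iteratedFDeriv ℝ i G x‖ ≤ M := by
    intro i
    have hcont : Continuous (iteratedFDeriv ℝ i G) :=
      hG.continuous_iteratedFDeriv (by exact_mod_cast le_top)
    obtain ⟨M, hM⟩ := hS.exists_bound_of_continuousOn hcont.continuousOn
    exact ⟨M, hM⟩
  choose M hM using h2
  have hpos : 0 ≤ ∑ i ∈ Finset.range (n + 1), (n.choose i : ℝ) * E' i * |M (n - i)| :=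
    Finset.sum_nonneg fun i _ => by have := hE0 i; positivity
  refine ⟨∑ i ∈ Finset.range (n + 1), (n.choose i : ℝ) * E' i * |M (n - i)|, hpos,
    fun z hz x => ?_⟩
  by_cases hx : x ∈ S
  · have hexp : ContDiff ℝ ∞ fun x => Real.exp (-z * ρ x) :=
      Real.contDiff_exp.comp (contDiff_const.mul hρ)
    have h3 := norm_iteratedFDeriv_smul_le hexp hG x (n := n) (by exact_mod_cast le_top)
    calc ‖iteratedFDeriv ℝ n (fun x => Real.exp (-z * ρ x) • G x) x‖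
        ≤ ∑ i ∈ Finset.range (n + 1), (n.choose i : ℝ) *
          ‖iteratedFDeriv ℝ i (fun x => Real.exp (-z * ρ x)) x‖ *
            ‖iteratedFDeriv ℝ (n - i) G x‖ := h3
      _ ≤ ∑ i ∈ Finset.range (n + 1), (n.choose i : ℝ) *
          (E' i * ((1 + z) ^ B)⁻¹) * |M (n - i)| := by
          gcongr with i hi
          · have := hE0 i
            positivity
          · exact hE i z hz x hx
          · exact (hM _ x hx).trans (le_abs_self _)
      _ = _ := by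
          rw [Finset.sum_mul]
          refine Finset.sum_congr rfl fun i _ => by ring
  · have h3 : iteratedFDeriv ℝ n (fun x => Real.exp (-z * ρ x) • G x) x = 0 := by
      have h4 : tsupport (fun x => Real.exp (-z * ρ x) • G x) ⊆ S := by
        refine closure_minimal (fun y hy => ?_) hS.isClosed
        rw [Function.mem_support] at hy
        by_contra h5
        exact hy (by rw [hs y h5, smul_zero])
      by_contra h5
      exact hx (h4 (support_iteratedFDeriv_subset n h5))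
    rw [h3, norm_zero]
    positivity

/-! ### the functions `F_z` -/

/-- `h(y) e^{-z e^y}` -/
def Fy (z y : ℝ) : ℂ := Real.exp (-z * Real.exp y) • ((h00 y : ℝ) : ℂ)

lemma h00_ne {y : ℝ} (h : h00 y ≠ 0) : -(3 / 2) < y ∧ y < 1 / 2 := by
  have := Weight600.cutL_ne_zero (a := -1) (b := 0) (η := 1 / 2) (by norm_num) (by norm_num) h
  constructor <;> linarith [this.1, this.2]

lemma h00_nonneg (y : ℝ) : 0 ≤ h00 y := Weight600.cutL_nonneg (by norm_num) (by norm_num) y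

lemma h00_le (y : ℝ) : h00 y ≤ 1 := Weight600.cutL_le_one y

lemma tf_Fy (z : ℝ) : TF (Fy z) where
  smooth := by
    unfold Fy
    exact (Real.contDiff_exp.comp (contDiff_const.mul Real.contDiff_exp)).smul
      (Complex.ofRealCLM.contDiff.comp pu0.cd)
  supp y hy := by
    unfold Fy
    have : h00 y = 0 := by
      by_contra h
      have h1 := h00_ne h
      have : |y| ≤ 2 := abs_le.mpr ⟨by linarith, by linarith⟩
      linarith
    rw [this, Complex.ofReal_zero, smul_zero]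

/-- uniform derivative bounds -/
lemma bd_Fy (k K : ℕ) : ∃ C : ℝ, 0 ≤ C ∧ ∀ z : ℝ, 0 ≤ z → Bd (Fy z) k (C * ((1 + z) ^ K)⁻¹) := by
  have hG : ContDiff ℝ ∞ (fun y : ℝ => ((h00 y : ℝ) : ℂ)) := Complex.ofRealCLM.contDiff.comp pu0.cd
  have h1 := fun n => der_gen (S := Icc (-2 : ℝ) 2) hG Real.contDiff_exp isCompact_Icc
    (Real.exp_pos (-2)) (fun x hx => by
      by_contra h
      have h2 : h00 x ≠ 0 := by exact_mod_cast h
      have h3 := h00_ne h2
      exact hx ⟨by linarith, by linarith⟩) (fun x hx => Real.exp_le_exp.mpr hx.1) n K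
  choose C hC0 hC using h1
  refine ⟨∑ i ∈ Finset.range (k + 1), C i, Finset.sum_nonneg fun i _ => hC0 i,
    fun z hz i hi y => ?_⟩
  rw [← norm_iteratedFDeriv_eq_norm_iteratedDeriv]
  refine (hC i z hz y).trans ?_
  gcongr
  exact Finset.single_le_sum (f := C) (fun i _ => hC0 i) (Finset.mem_range.mpr (by omega))

/-- `∫ F_z(y) e^{2y/3} dy` -/
def IF (z : ℝ) : ℂ := ∫ y : ℝ, Fy z y * ((Real.exp (2 * y / 3) : ℝ) : ℂ)

lemma norm_Fy (z y : ℝ) : ‖Fy z y‖ = Real.exp (-z * Real.exp y) * h00 y := by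
  unfold Fy
  rw [norm_smul, Complex.norm_real, Real.norm_of_nonneg (Real.exp_pos _).le,
    Real.norm_of_nonneg (h00_nonneg y)]

/-- substitution `y = e^x` -/
lemma integral_exp_univ (g : ℝ → ℂ) :
    ∫ x : ℝ, Real.exp x • g (Real.exp x) = ∫ y in Ioi (0 : ℝ), g y := by
  have h := integral_image_eq_integral_abs_deriv_smul (s := univ) MeasurableSet.univ
    (fun x _ => (Real.hasDerivAt_exp x).hasDerivWithinAt) (Real.exp_injective.injOn) g
  rw [image_univ, Real.range_exp] at h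
  rw [h]
  simp [abs_of_pos (Real.exp_pos _)]

lemma IF_eq (z : ℝ) : IF z = mellin (Fz h00 z) ((2 / 3 : ℝ) : ℂ) := by
  unfold mellin
  rw [← integral_exp_univ]
  unfold IF
  congr 1
  ext y
  have hy : 0 < Real.exp y := Real.exp_pos y
  have e1 : ((Real.exp y : ℝ) : ℂ) ^ (((2 / 3 : ℝ) : ℂ) - 1) =
      ((Real.exp (-(1 / 3) * y) : ℝ) : ℂ) := by
    rw [show (((2 / 3 : ℝ) : ℂ) - 1) = ((-(1 / 3) : ℝ) : ℂ) by push_cast; ring,
      ← Complex.ofReal_cpow hy.le, ← Real.exp_mul, mul_comm]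
  rw [e1]
  unfold Fy Fz
  rw [hL_pos hy, Real.log_exp]
  simp only [smul_eq_mul, Complex.real_smul]
  have e2 : ((Real.exp (2 * y / 3) : ℝ) : ℂ) =
      ((Real.exp y : ℝ) : ℂ) * ((Real.exp (-(1 / 3) * y) : ℝ) : ℂ) := by
    rw [← Complex.ofReal_mul, ← Real.exp_add]
    congr 2
    ring
  rw [e2]
  ring

lemma IF_le (K : ℕ) : ∃ C : ℝ, 0 ≤ C ∧ ∀ z : ℝ, 0 ≤ z → ‖IF z‖ ≤ C * ((1 + z) ^ K)⁻¹ := by
  obtain ⟨C, hC0, hC⟩ := mellin_Fz_le pu0 (2 / 3) K
  exact ⟨C, hC0, fun z hz => by rw [IF_eq]; exact hC z hz⟩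

/-- `∑_n e^{2n/3} ∫ F_{e^n}(y) e^{2y/3} dy = Γ(2/3)` -/
theorem hasSum_IF :
    (Summable fun n : ℤ => ‖((Real.exp n ^ (2 / 3 : ℝ) : ℝ) : ℂ) * IF (Real.exp n)‖) ∧
    HasSum (fun n : ℤ => ((Real.exp n ^ (2 / 3 : ℝ) : ℝ) : ℂ) * IF (Real.exp n))
      ((Real.Gamma (2 / 3) : ℝ) : ℂ) := by
  have h := hasSum_mellin pu0 (s := 2 / 3) (by norm_num)
  simp only [one_mul] at h
  simp_rw [IF_eq]
  exact h

/-- the blocks of `e^{-X}` -/
lemma Fy_shift {X : ℝ} (hX : 0 < X) (n : ℤ) :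
    Fy (Real.exp n) (Real.log X - n) = ((h00 (Real.log X - n) * Real.exp (-X) : ℝ) : ℂ) := by
  unfold Fy
  have : Real.exp n * Real.exp (Real.log X - n) = X := by
    rw [← Real.exp_add, add_sub_cancel, Real.exp_log hX]
  rw [neg_mul, this, Complex.real_smul]
  push_cast
  ring

end Crest.Agent.R017.X6B848
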