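import Crest.Agent.R017.X6F1_848

/-!
# Row 17, exceptional class, X6 (helper848): bookkeeping of the blocks `(k, n)`

scale `e^n / 3^k`; `e^{-2} 3^k ≤ Am e^n` : the blocks which are not empty.
-/

set_option autoImplicit false

noncomputable section

open Set Filter Topology

namespace Crest.Agent.R017.X6B848

/-- the weight -/
def qw (x : ℕ × ℤ) : ℝ := ((1 + (x.1 : ℝ)) ^ 2)⁻¹ * ((1 + |(x.2 : ℝ)|) ^ 2)⁻¹

lemma qw_pos (x : ℕ × ℤ) : 0 < qw x := by unfold qw; positivity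

lemma summable_qw : Summable qw := by
  have h1 : Summable fun k : ℕ => ((1 + (k : ℝ)) ^ 2)⁻¹ := by
    have := (summable_nat_add_iff (f := fun n : ℕ => ((n : ℝ) ^ 2)⁻¹) 1).mpr
      (Real.summable_nat_pow_inv.mpr (by norm_num))
    refine this.congr fun k => ?_
    push_cast
    ring_nf
  have h2 : Summable fun n : ℤ => ((1 + |(n : ℝ)|) ^ 2)⁻¹ := by
    refine Summable.of_nat_of_neg (f := fun n : ℤ => ((1 + |(n : ℝ)|) ^ 2)⁻¹) ?_ ?_
    · refine h1.congr fun k => ?_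
      simp
    · refine h1.congr fun k => ?_
      simp
  exact h1.mul_of_nonneg h2 (fun k => by positivity) (fun n => by positivity)

lemma one_lt_log3 : 1 < Real.log 3 := by
  rw [Real.lt_log_iff_exp_lt (by norm_num)]
  have := Real.exp_one_lt_d9
  linarith

/-- the exponent `D = k log 3 - n - log Am` -/
def DD (Am : ℝ) (k : ℕ) (n : ℤ) : ℝ := k * Real.log 3 - n - Real.log Am

lemma exp_DD {Am : ℝ} (hA : 0 < Am) (k : ℕ) (n : ℤ) :
    Real.exp (-DD Am k n) = Am * Real.exp n / 3 ^ k := by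
  unfold DD
  have e : -((k : ℝ) * Real.log 3 - n - Real.log Am) = Real.log Am + n - k * Real.log 3 := by ring
  rw [e, Real.exp_sub, Real.exp_add, Real.exp_log hA, Real.exp_nat_mul, Real.exp_log (by norm_num)]

/-- common part -/
lemma q_common {Am : ℝ} (hA : 1 ≤ Am) (k : ℕ) (n : ℤ) {E : ℝ} (hE : 0 ≤ E)
    (hD : DD Am k n ≤ E) :
    1 ≤ qw (k, n) * ((1 + E) ^ 4 * (1 + Real.log Am) ^ 4 * (1 + Real.exp n) ^ 4) := by
  have hL : 0 ≤ Real.log Am := Real.log_nonneg hA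
  have hk : (0 : ℝ) ≤ k := Nat.cast_nonneg k
  have h3 := one_lt_log3
  have hen : 0 < Real.exp n := Real.exp_pos _
  have hn1 : (n : ℝ) ≤ Real.exp n := by
    have := Real.add_one_le_exp (n : ℝ)
    linarith
  unfold DD at hD
  have h1 : 1 + (k : ℝ) ≤ (1 + E) * (1 + Real.log Am) * (1 + Real.exp n) := by
    have a : (k : ℝ) ≤ k * Real.log 3 := by nlinarith
    have b : 1 + (k : ℝ) ≤ 1 + E + Real.log Am + Real.exp n := by linarith
    have c : 0 ≤ E * Real.log Am := by positivity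
    have d : 0 ≤ E * Real.exp n := by positivity
    have e : 0 ≤ Real.log Am * Real.exp n := by positivity
    have f : 0 ≤ E * Real.log Am * Real.exp n := by positivity
    nlinarith
  have h2 : 1 + |(n : ℝ)| ≤ (1 + E) * (1 + Real.log Am) * (1 + Real.exp n) := by
    have a : |(n : ℝ)| ≤ E + Real.log Am + Real.exp n := by
      rw [abs_le]
      constructor
      · have : 0 ≤ (k : ℝ) * Real.log 3 := by positivity
        linarith
      · linarith
    have c : 0 ≤ E * Real.log Am := by positivity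
    have d : 0 ≤ E * Real.exp n := by positivity
    have e : 0 ≤ Real.log Am * Real.exp n := by positivity
    have f : 0 ≤ E * Real.log Am * Real.exp n := by positivity
    nlinarith
  set Q : ℝ := (1 + E) * (1 + Real.log Am) * (1 + Real.exp n) with hQ
  have h4 : (1 + (k : ℝ)) ^ 2 * (1 + |(n : ℝ)|) ^ 2 ≤ Q ^ 2 * Q ^ 2 := by gcongr
  have h5 : Q ^ 2 * Q ^ 2 = (1 + E) ^ 4 * (1 + Real.log Am) ^ 4 * (1 + Real.exp n) ^ 4 := by
    rw [hQ]; ring
  rw [← h5]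
  unfold qw
  simp only
  rw [← mul_inv, inv_mul_eq_div, one_le_div (by positivity)]
  exact h4

/-- the non-empty blocks -/
def Pp (Am : ℝ) (x : ℕ × ℤ) : Prop := Real.exp (-2) * 3 ^ x.1 ≤ Am * Real.exp x.2

lemma Pp_DD {Am : ℝ} (hA : 0 < Am) {x : ℕ × ℤ} : Pp Am x ↔ DD Am x.1 x.2 ≤ 2 := by
  have h3 : (0 : ℝ) < 3 ^ x.1 := by positivity
  unfold Pp
  rw [← le_div_iff₀ h3, ← exp_DD hA, Real.exp_le_exp]
  constructor <;> intro h <;> linarith

lemma W1 {Am : ℝ} (hA : 1 ≤ Am) {x : ℕ × ℤ} (hx : Pp Am x) :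
    ((1 + Real.exp x.2) ^ 4)⁻¹ ≤ 81 * (1 + Real.log Am) ^ 4 * qw x := by
  have h := q_common hA x.1 x.2 (E := 2) (by norm_num) ((Pp_DD (by linarith)).mp hx)
  rw [inv_le_iff_one_le_mul₀ (by positivity)]
  calc (1 : ℝ) ≤ _ := h
    _ = _ := by norm_num; ring

lemma W2 : ∃ C : ℝ, 0 ≤ C ∧ ∀ Am : ℝ, 1 ≤ Am → ∀ x : ℕ × ℤ, ¬ Pp Am x →
    (Am * Real.exp x.2 / 3 ^ x.1) ^ (2 / 3 : ℝ) * ((1 + Real.exp x.2) ^ 4)⁻¹ ≤
      C * (1 + Real.log Am) ^ 4 * qw x := by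
  obtain ⟨C, hC0, hC⟩ := pow_exp_bd (c := 2 / 3) (by norm_num) 4
  refine ⟨C, hC0, fun Am hA x hx => ?_⟩
  have hA0 : 0 < Am := by linarith
  rw [Pp_DD hA0, not_le] at hx
  set D := DD Am x.1 x.2 with hD
  have hD0 : 0 ≤ D := by linarith
  have h1 := q_common hA x.1 x.2 (E := D) hD0 le_rfl
  have h2 := hC D hD0
  have hL : 0 ≤ Real.log Am := Real.log_nonneg hA
  have h3 : (Am * Real.exp x.2 / 3 ^ x.1) ^ (2 / 3 : ℝ) = Real.exp (-(2 / 3 * D)) := by
    rw [← exp_DD hA0, ← Real.exp_mul]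
    congr 1
    rw [← hD]; ring
  rw [h3, ← div_eq_mul_inv, div_le_iff₀ (by positivity)]
  have hq := qw_pos x
  have h4 : 0 ≤ qw x * ((1 + Real.log Am) ^ 4 * (1 + Real.exp x.2) ^ 4) := by positivity
  calc Real.exp (-(2 / 3 * D)) = Real.exp (-(2 / 3 * D)) * 1 := (mul_one _).symm
    _ ≤ Real.exp (-(2 / 3 * D)) *
        (qw (x.1, x.2) * ((1 + D) ^ 4 * (1 + Real.log Am) ^ 4 * (1 + Real.exp x.2) ^ 4)) := by
        gcongr
    _ = ((1 + D) ^ 4 * Real.exp (-(2 / 3 * D))) *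
        (qw x * ((1 + Real.log Am) ^ 4 * (1 + Real.exp x.2) ^ 4)) := by ring
    _ ≤ C * (qw x * ((1 + Real.log Am) ^ 4 * (1 + Real.exp x.2) ^ 4)) := by gcongr
    _ = _ := by ring

/-- the dual weight of one block -/
lemma W3 {Am : ℝ} (hA : 1 ≤ Am) {x : ℕ × ℤ} (hx : Pp Am x) (M : ℕ) {t : ℝ} (ht : 0 < t) :
    (Real.exp x.2 / 3 ^ x.1) ^ (1 / 3 : ℝ) *
        min 1 ((t * (3 ^ x.1 / Real.exp x.2)) ^ (M + 1)) * ((1 + Real.exp x.2) ^ 5)⁻¹ ≤
      (Real.exp 2 ^ M * 81) * (1 + Real.log Am) ^ 4 * qw x *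
        (min 1 (t ^ (1 / 3 : ℝ)) * min 1 ((Am * t) ^ M)) := by
  set ρ : ℝ := Real.exp x.2 / 3 ^ x.1 with hρ
  have hen : 0 < Real.exp x.2 := Real.exp_pos _
  have h3 : (1 : ℝ) ≤ 3 ^ x.1 := one_le_pow₀ (by norm_num)
  have hρ0 : 0 < ρ := by positivity
  have hρe : ρ ≤ Real.exp x.2 := div_le_self hen.le h3
  have hinv : t * (3 ^ x.1 / Real.exp x.2) = t / ρ := by
    rw [hρ]; field_simp
  rw [hinv]
  set m : ℝ := min 1 (t / ρ) with hm
  have htρ : 0 < t / ρ := by positivity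
  have hm0 : 0 < m := lt_min one_pos htρ
  have hm1 : m ≤ 1 := min_le_left _ _
  -- the minimum of powers
  have hpow : min 1 ((t / ρ) ^ (M + 1)) = m ^ (M + 1) := by
    rcases le_total 1 (t / ρ) with h | h
    · rw [hm, min_eq_left h, one_pow, min_eq_left (one_le_pow₀ h)]
    · rw [hm, min_eq_right h, min_eq_right (pow_le_one₀ htρ.le h)]
  rw [hpow]
  have e1 : m ^ (M + 1) ≤ m ^ (1 / 3 : ℝ) * m ^ M := by
    rw [pow_succ, mul_comm]
    have : m ≤ m ^ (1 / 3 : ℝ) := by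
      nth_rewrite 1 [← Real.rpow_one m]
      exact Real.rpow_le_rpow_of_exponent_ge hm0 hm1 (by norm_num)
    gcongr
  have e2 : ρ ^ (1 / 3 : ℝ) * m ^ (1 / 3 : ℝ) * (1 + Real.exp x.2)⁻¹ ≤ min 1 (t ^ (1 / 3 : ℝ)) := by
    rw [← Real.mul_rpow hρ0.le hm0.le]
    have h5 : ρ * m ≤ t := by
      calc ρ * m ≤ ρ * (t / ρ) := by gcongr; exact min_le_right _ _
        _ = t := by field_simp
    have h6 : ρ * m ≤ Real.exp x.2 := by nlinarith
    have hpm : 0 ≤ ρ * m := by positivity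
    refine le_min ?_ ?_
    · rw [← div_eq_mul_inv, div_le_one (by positivity)]
      have h8 : (ρ * m) ^ (1 / 3 : ℝ) ≤ (1 + Real.exp x.2) ^ (1 / 3 : ℝ) :=
        Real.rpow_le_rpow hpm (by linarith) (by norm_num)
      refine h8.trans ?_
      nth_rewrite 2 [← Real.rpow_one (1 + Real.exp x.2)]
      exact Real.rpow_le_rpow_of_exponent_le (by linarith) (by norm_num)
    · have h7 : (1 + Real.exp x.2)⁻¹ ≤ 1 := inv_le_one_of_one_le₀ (by linarith)
      have h8 : (ρ * m) ^ (1 / 3 : ℝ) ≤ t ^ (1 / 3 : ℝ) := Real.rpow_le_rpow hpm h5 (by norm_num)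
      calc (ρ * m) ^ (1 / 3 : ℝ) * (1 + Real.exp x.2)⁻¹ ≤ t ^ (1 / 3 : ℝ) * 1 := by gcongr
        _ = _ := mul_one _
  have e3 : m ^ M ≤ Real.exp 2 ^ M * min 1 ((Am * t) ^ M) := by
    have hAt : 0 < Am * t := by positivity
    have h9 : m ≤ Real.exp 2 * min 1 (Am * t) := by
      have he2 : 1 ≤ Real.exp 2 := Real.one_le_exp (by norm_num)
      rw [mul_min_of_nonneg _ _ (Real.exp_pos 2).le]
      refine le_min (by linarith) ?_
      refine (min_le_right _ _).trans ?_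
      unfold Pp at hx
      rw [div_le_iff₀ hρ0, hρ]
      have h10 : Real.exp (-2) ≤ Am * (Real.exp x.2 / 3 ^ x.1) := by
        rw [← mul_div_assoc, le_div_iff₀ (by positivity)]
        exact hx
      have h11 : 1 ≤ Real.exp 2 * (Am * (Real.exp x.2 / 3 ^ x.1)) := by
        calc (1 : ℝ) = Real.exp 2 * Real.exp (-2) := by rw [← Real.exp_add]; simp
          _ ≤ _ := by gcongr
      calc t = t * 1 := (mul_one t).symm
        _ ≤ t * (Real.exp 2 * (Am * (Real.exp x.2 / 3 ^ x.1))) := by gcongr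
        _ = _ := by ring
    have h12 : min 1 ((Am * t) ^ M) = (min 1 (Am * t)) ^ M := by
      rcases le_total 1 (Am * t) with h | h
      · rw [min_eq_left h, one_pow, min_eq_left (one_le_pow₀ h)]
      · rw [min_eq_right h, min_eq_right (pow_le_one₀ hAt.le h)]
    rw [h12, ← mul_pow]
    gcongr
  have e4 := W1 hA hx
  have h13 : ((1 + Real.exp x.2) ^ 5)⁻¹ = (1 + Real.exp x.2)⁻¹ * ((1 + Real.exp x.2) ^ 4)⁻¹ := by
    rw [← mul_inv, ← pow_succ']
  have hL : 0 ≤ Real.log Am := Real.log_nonneg hA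
  have hq := qw_pos x
  have hmin1 : 0 ≤ min 1 (t ^ (1 / 3 : ℝ)) := le_min zero_le_one (by positivity)
  have hmin2 : 0 ≤ min 1 ((Am * t) ^ M) := le_min zero_le_one (by positivity)
  calc ρ ^ (1 / 3 : ℝ) * m ^ (M + 1) * ((1 + Real.exp x.2) ^ 5)⁻¹
      ≤ ρ ^ (1 / 3 : ℝ) * (m ^ (1 / 3 : ℝ) * m ^ M) * ((1 + Real.exp x.2) ^ 5)⁻¹ := by gcongr
    _ = (ρ ^ (1 / 3 : ℝ) * m ^ (1 / 3 : ℝ) * (1 + Real.exp x.2)⁻¹) * m ^ M *
        ((1 + Real.exp x.2) ^ 4)⁻¹ := by rw [h13]; ring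
    _ ≤ min 1 (t ^ (1 / 3 : ℝ)) * (Real.exp 2 ^ M * min 1 ((Am * t) ^ M)) *
        (81 * (1 + Real.log Am) ^ 4 * qw x) := by gcongr
    _ = _ := by ring

end Crest.Agent.R017.X6B848
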