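import Crest.Agent.R017.X6F2_848
import Crest.Agent.R017.X6C8_180

/-!
# Row 17, exceptional class, X6 (helper848): decomposition of the theta sum into blocks

`T = ∑_{v unit} ∑'_{(k, n)} PP (r v λ^(k mod 3) u) (F_{e^n}(log x - log (A e^n / 3^k)))`
-/

set_option autoImplicit false

noncomputable section

open Set Filter Topology
open scoped ComplexConjugate

namespace Crest.Agent.R017.X6F848

open Crest.Agent.R012 Crest.Agent.R012.Eis
open Crest.Agent.R017.FE47 (h00 pu0)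
open Crest.Agent.R017.X6545 (SU TF Bd kap0 PP)
open Crest.Agent.R017.X6B848
open Crest.Agent.R017.P3all283 (U6 Ix phi phi_ne_zero phi_injective exists_phi isUnit_of_mem norm_th_le)
open Crest.Agent.R017.PX764 (th)
open Crest.Agent.R017.X6C180 (CF xc' XC')

/-- the frequencies `r v λ^s` -/
def vv (r : Eis) (y : U6 × Fin 3) : Eis := r * y.1.1 * lam ^ (y.2 : ℕ)

lemma SU_mul {a b : Eis} (ha : SU a) (hb : SU b) : SU (a * b) := by
  obtain ⟨i, hi⟩ := ha
  obtain ⟨j, hj⟩ := hb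
  exact ⟨i + j, by rw [pow_add]; exact mul_dvd_mul hi hj⟩

lemma SU_unit {a : Eis} (ha : IsUnit a) : SU a := ⟨0, by rw [pow_zero]; exact ha.dvd⟩

lemma SU_lam (s : ℕ) : SU (lam ^ s) := ⟨s, dvd_rfl⟩

lemma SU_three : SU 3 := ⟨2, ⟨-w, by rw [three_eq]; have := w_cube; linear_combination (-lam ^ 2) * this⟩⟩

lemma SU_ne {a : Eis} (ha : SU a) : a ≠ 0 := by
  obtain ⟨k, hk⟩ := ha
  rintro rfl
  rw [zero_dvd_iff] at hk
  exact pow_ne_zero k lam_ne_zero hk

lemma SU_vv {r : Eis} (hr : SU r) (y : U6 × Fin 3) : SU (vv r y) :=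
  SU_mul (SU_mul hr (SU_unit (isUnit_of_mem y.1.2))) (SU_lam _)

/-- residue mod 3 -/
def rs (k : ℕ) : Fin 3 := ⟨k % 3, Nat.mod_lt _ (by norm_num)⟩

lemma th_red (k : ℕ) (x : Eis) : th (lam ^ k * x) = th (lam ^ ((rs k : Fin 3) : ℕ) * x) := by
  have h : ∀ q : ℕ, ∀ y : Eis, th (lam ^ (3 * q) * y) = th y := by
    intro q
    induction q with
    | zero => intro y; simp
    | succ q ih =>
      intro y
      rw [show lam ^ (3 * (q + 1)) * y = lam ^ 3 * (lam ^ (3 * q) * y) by ring, PX764.th_lam3, ih]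
  have e : (rs k : Fin 3).val = k % 3 := rfl
  rw [e]
  conv_lhs => rw [← Nat.div_add_mod k 3, pow_add, mul_assoc]
  exact h _ _

/-- the scale of a block -/
def Bs (A : ℝ) (x : ℕ × ℤ) : ℝ := A * (Real.exp x.2 / 3 ^ x.1)

lemma Bs_pos {A : ℝ} (hA : 0 < A) (x : ℕ × ℤ) : 0 < Bs A x := by unfold Bs; positivity

/-- the test function of a block -/
def bf (A : ℝ) (x : ℕ × ℤ) (y : ℝ) : ℂ := Fy (Real.exp x.2) (Real.log y - Real.log (Bs A x))

lemma nm_phi (x : Ix) : (nm (phi x) : ℝ) = 3 ^ x.1 * nm x.2.2.1 := by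
  unfold phi
  rw [nm_mul, nm_mul, isUnit_iff.mp (isUnit_of_mem x.2.1.2), nm_pow]
  have : nm lam = 3 := by decide
  rw [this]
  push_cast
  ring

/-- primary elements -/
abbrev Pr : Type := {a : Eis // IsPrim a}

/-- reordering of the indices -/
def eqv : U6 × ((ℕ × ℤ) × Pr) ≃ ℤ × Ix where
  toFun q := (q.2.1.2, (q.2.1.1, (q.1, q.2.2)))
  invFun p := (p.2.2.1, ((p.2.1, p.1), p.2.2.2))
  left_inv _ := rfl
  right_inv _ := rfl

lemma PP_eq_sub (v : Eis) (φ : ℝ → ℂ) : PP v φ = ∑' a : Pr, th (v * a.1) * φ (nm a.1) := by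
  classical
  unfold X6545.PP
  have h := tsum_subtype {a : Eis | IsPrim a} (fun a => th (v * a) * φ (nm a))
  have h2 : ∑' a : Pr, th (v * a.1) * φ (nm a.1) =
      ∑' a : Eis, Set.indicator {a : Eis | IsPrim a} (fun a => th (v * a) * φ (nm a)) a := h
  rw [h2]
  refine tsum_congr fun a => ?_
  simp only [Set.indicator_apply, Set.mem_ofPred_eq]

lemma bf_eq {A : ℝ} (hA : 0 < A) (k : ℕ) (n : ℤ) {N : ℝ} (hN : 0 < N) :
    bf A (k, n) N = Fz h00 (Real.exp (1 * n)) ((3 ^ k * N / A) / Real.exp (1 * n)) := by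
  have hX : 0 < 3 ^ k * N / A := by positivity
  rw [Fz_div hX, one_mul]
  unfold bf
  have e : Real.log N - Real.log (Bs A (k, n)) = Real.log (3 ^ k * N / A) - n := by
    unfold Bs
    have h3 : (0 : ℝ) < 3 ^ k := by positivity
    have hen : 0 < Real.exp n := Real.exp_pos _
    rw [Real.log_mul hA.ne' (by positivity), Real.log_div hen.ne' h3.ne', Real.log_exp,
      Real.log_div (by positivity) hA.ne', Real.log_mul h3.ne' hN.ne']
    ring
  rw [e, Fy_shift hX]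
  push_cast
  ring

/-- **decomposition into blocks** -/
theorem T_decomp {r u : Eis} (hr : r ≠ 0) (hu : u ≠ 0) {A : ℝ} (hA : 0 < A) :
    (∀ v : U6, Summable fun x : ℕ × ℤ => PP (r * v.1 * lam ^ x.1 * u) (bf A x)) ∧
    X6A848.T (fun x => th (r * x)) (fun x => ((Real.exp (-x / A) : ℝ) : ℂ)) 1 u 1 =
      ∑ v : U6, ∑' x : ℕ × ℤ, PP (r * v.1 * lam ^ x.1 * u) (bf A x) := by
  classical
  obtain ⟨g, hg⟩ : ∃ g : Ix → ℂ, ∀ x, g x = th (r * (phi x * u)) := ⟨_, fun _ => rfl⟩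
  obtain ⟨X, hX⟩ : ∃ X : Ix → ℝ, ∀ x, X x = nm (phi x) / A := ⟨_, fun _ => rfl⟩
  have hnp : ∀ x : Ix, (0 : ℝ) < nm (phi x) := fun x => by
    exact_mod_cast nm_pos.2 (phi_ne_zero x)
  have hX0 : ∀ x, 0 < X x := fun x => by
    have := hnp x
    rw [hX]; positivity
  have hgle : ∀ x, ‖g x‖ ≤ 1 := fun x => by
    rw [hg]
    exact norm_th_le (mul_ne_zero hr (mul_ne_zero (phi_ne_zero x) hu))
  have hexp : Summable fun l : Eis => Real.exp (-(nm l : ℝ) / A) := P3all283.summable_exp hA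
  have hs : Summable fun x : Ix => ‖g x‖ * Real.exp (-X x) := by
    refine Summable.of_nonneg_of_le (fun x => by positivity) (fun x => ?_)
      (hexp.comp_injective phi_injective)
    have e : -X x = -(nm (phi x) : ℝ) / A := by rw [hX]; ring
    rw [e]
    have := hgle x
    calc ‖g x‖ * Real.exp (-(nm (phi x) : ℝ) / A) ≤ 1 * Real.exp (-(nm (phi x) : ℝ) / A) := by gcongr
      _ = _ := one_mul _
  obtain ⟨h1, h2, h3⟩ := sum_blocks pu0 (g := g) (x := X) (fun x _ => hX0 x) hs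
  set G : ℤ × Ix → ℂ := fun p => g p.2 * Fz h00 (Real.exp (1 * p.1)) (X p.2 / Real.exp (1 * p.1))
    with hG
  have hGs : Summable fun p => ‖G p‖ := by
    rw [summable_prod_of_nonneg (fun p => norm_nonneg _)]
    exact ⟨h1, h2⟩
  have hGt : ∑' p, G p = ∑' i, g i * ((Real.exp (-X i) : ℝ) : ℂ) := by
    rw [hGs.of_norm.tsum_prod]
    exact h3.tsum_eq
  have hG' : Summable fun q : U6 × ((ℕ × ℤ) × Pr) => G (eqv q) :=
    (eqv.summable_iff (f := G)).mpr hGs.of_norm
  have hin : ∀ (v : U6) (x : ℕ × ℤ), ∑' a : Pr, G (eqv (v, (x, a))) =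
      PP (r * v.1 * lam ^ x.1 * u) (bf A x) := by
    intro v x
    rw [PP_eq_sub]
    refine tsum_congr fun a => ?_
    have ha : (0 : ℝ) < nm a.1 := by exact_mod_cast nm_pos.2 a.2.ne_zero
    have e0 : eqv (v, (x, a)) = (x.2, (x.1, (v, a))) := rfl
    rw [hG, e0]
    simp only
    rw [hg, hX, nm_phi]
    have e1 : phi (x.1, (v, a)) = v.1 * lam ^ x.1 * a.1 := rfl
    rw [e1]
    have e2 : bf A x (nm a.1) = bf A (x.1, x.2) (nm a.1) := rfl
    rw [e2, bf_eq hA x.1 x.2 ha]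
    congr 2
    ring
  have hT : X6A848.T (fun x => th (r * x)) (fun x => ((Real.exp (-x / A) : ℝ) : ℂ)) 1 u 1 =
      ∑' i, g i * ((Real.exp (-X i) : ℝ) : ℂ) := by
    unfold X6A848.T
    have hsup : Function.support (fun l : Eis => if l ≠ 0 ∧ IsCoprime l 1 then
        th (r * (l * u)) * ((Real.exp (-(1 * (nm l : ℝ)) / A) : ℝ) : ℂ) else 0) ⊆ Set.range phi := by
      intro l hl
      have : l ≠ 0 := by
        rintro rfl
        simp at hl
      exact exists_phi this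
    rw [← phi_injective.tsum_eq hsup]
    refine tsum_congr fun x => ?_
    rw [if_pos ⟨phi_ne_zero x, isCoprime_one_right⟩, hg, hX, one_mul, neg_div]
  rw [hT, ← hGt, ← eqv.tsum_eq G]
  have hfib : ∀ v : U6, Summable fun y : (ℕ × ℤ) × Pr => G (eqv (v, y)) :=
    fun v => hG'.prod_factor v
  refine ⟨fun v => ?_, ?_⟩
  · have := (hfib v).prod
    exact this.congr fun x => (hin v x)
  · rw [hG'.tsum_prod, tsum_fintype]
    refine Finset.sum_congr rfl fun v _ => ?_
    rw [(hfib v).tsum_prod]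
    exact tsum_congr fun x => hin v x

end Crest.Agent.R017.X6F848
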