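import Crest.Agent.R017.X6F3_848

/-!
# Row 17, exceptional class, X6 (helper848): `F1X'` : the functional equation for all `l`
and the exponential weight
-/

set_option autoImplicit false

noncomputable section

open Set Filter Topology
open scoped ComplexConjugate

namespace Crest.Agent.R017.X6F848

open Crest.Agent.R012 Crest.Agent.R012.Eis
open Crest.Agent.R017.FE47 (h00 pu0)
open Crest.Agent.R017.X6545 (SU TF Bd kap0 PP)
open Crest.Agent.R017.X6B848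
open Crest.Agent.R017.P3all283 (U6 Ix phi phi_ne_zero phi_injective exists_phi isUnit_of_mem norm_th_le)
open Crest.Agent.R017.PX764 (th)
open Crest.Agent.R017.X6C180 (CF xc' XC')

/-! ### summation over `d` -/

/-- exchange of the sums over the blocks and over `d` -/
lemma fubini {f : ℕ × ℤ → ℝ → ℂ} {K Y Am : ℝ} {M : ℕ} (hM : 2 ≤ M) (hK : 0 ≤ K) (hY : 0 < Y)
    (hAm : 0 < Am) (hf : ∀ x t, 0 < t → ‖f x t‖ ≤ K * qw x * min 1 ((Am * t) ^ M)) {c : Eis → ℂ}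
    (hc : ∀ d, ‖c d‖ ≤ 1) (hc0 : ∀ d, c d ≠ 0 → d ≠ 0) :
    (∀ x, Summable fun d => c d * f x (Y / nm d)) ∧
    (Summable fun x => ∑' d, c d * f x (Y / nm d)) ∧
    ∑' x, ∑' d, c d * f x (Y / nm d) = ∑' d, c d * ∑' x, f x (Y / nm d) := by
  set H : (ℕ × ℤ) × Eis → ℂ := fun p => c p.2 * f p.1 (Y / nm p.2) with hH
  have hb : ∀ p, ‖H p‖ ≤ K * (Am * Y) ^ 2 * (qw p.1 * ((nm p.2 : ℝ) ^ 2)⁻¹) := by
    intro p
    have hq := qw_pos p.1
    by_cases h0 : c p.2 = 0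
    · rw [hH]
      simp only
      rw [h0, zero_mul, norm_zero]
      positivity
    · have hd : (0 : ℝ) < nm p.2 := by exact_mod_cast nm_pos.2 (hc0 _ h0)
      have ht : 0 < Y / nm p.2 := by positivity
      have h1 := hf p.1 _ ht
      have h2 : min 1 ((Am * (Y / nm p.2)) ^ M) ≤ (Am * (Y / nm p.2)) ^ 2 := by
        have hAt : 0 < Am * (Y / nm p.2) := by positivity
        rcases le_total 1 (Am * (Y / nm p.2)) with h | h
        · exact (min_le_left _ _).trans (one_le_pow₀ h)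
        · exact (min_le_right _ _).trans (pow_le_pow_of_le_one hAt.le h hM)
      rw [hH]
      simp only
      rw [norm_mul]
      calc ‖c p.2‖ * ‖f p.1 (Y / nm p.2)‖ ≤ 1 * (K * qw p.1 * (Am * (Y / nm p.2)) ^ 2) := by
            gcongr
            · exact hc _
            · exact h1.trans (by gcongr)
        _ = _ := by field_simp
  have hs : Summable H := by
    refine Summable.of_norm_bounded ?_ hb
    exact (summable_qw.mul_of_nonneg F1.summable_inv_nm_sq (fun x => (qw_pos x).le)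
      (fun d => by positivity)).mul_left _
  refine ⟨fun x => hs.prod_factor x, hs.prod, ?_⟩
  have h1 : ∑' x, ∑' d, c d * f x (Y / nm d) = ∑' d, ∑' x, c d * f x (Y / nm d) :=
    (Summable.tsum_comm (f := fun x d => c d * f x (Y / nm d)) hs).symm
  rw [h1]
  exact tsum_congr fun d => tsum_mul_left

/-! ### the empty blocks -/

lemma PP_zero {Am A : ℝ} (hA : 0 < A) (hAm : A ≤ Am) {x : ℕ × ℤ} (hx : ¬ Pp Am x) (v : Eis) :
    PP v (bf A x) = 0 := by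
  rw [PP_eq_sub]
  have h0 : ∀ a : Pr, th (v * a.1) * bf A x (nm a.1) = 0 := by
    intro a
    have ha : (1 : ℝ) ≤ nm a.1 := by exact_mod_cast nm_pos.2 a.2.ne_zero
    unfold bf
    rw [(tf_Fy _).supp, mul_zero]
    have h1 : Bs A x < Real.exp (-2) := by
      unfold Pp at hx
      rw [not_le] at hx
      unfold Bs
      have h3 : (0 : ℝ) < 3 ^ x.1 := by positivity
      rw [← mul_div_assoc, div_lt_iff₀ h3]
      have hen : 0 < Real.exp x.2 := Real.exp_pos _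
      nlinarith
    have h2 : Real.log (Bs A x) < -2 := by
      rw [Real.log_lt_iff_lt_exp (Bs_pos hA x)]
      exact h1
    have h4 : 0 ≤ Real.log (nm a.1) := Real.log_nonneg ha
    rw [abs_of_pos (by linarith)]
    linarith
  simp only [h0, tsum_zero]

lemma PP_red (r v u : Eis) (k : ℕ) (φ : ℝ → ℂ) :
    PP (r * v * lam ^ k * u) φ = PP (r * v * lam ^ ((rs k : Fin 3) : ℕ) * u) φ := by
  rw [PP_eq_sub, PP_eq_sub]
  refine tsum_congr fun a => ?_
  have h := th_red k (r * v * u * a.1)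
  rw [show r * v * lam ^ k * u * a.1 = lam ^ k * (r * v * u * a.1) by ring, h,
    show r * v * lam ^ ((rs k : Fin 3) : ℕ) * u * a.1 =
      lam ^ ((rs k : Fin 3) : ℕ) * (r * v * u * a.1) by ring]

/-! ### the dual weights of the blocks -/

section

variable {J : U6 × Fin 3 → ℕ} (ω : (y : U6 × Fin 3) → Fin (J y) → (ℝ → ℂ) → ℝ → ℂ)

open Classical in
/-- the summand of `Ω` -/
def tm (Am : ℝ) (y : U6 × Fin 3) (j : Fin (J y)) (x : ℕ × ℤ) (t : ℝ) : ℂ :=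
  if Pp Am x ∧ rs x.1 = y.2 then (((Real.exp x.2 / 3 ^ x.1) ^ (1 / 3 : ℝ) : ℝ) : ℂ) *
    ω y j (Fy (Real.exp x.2)) (t * (3 ^ x.1 / Real.exp x.2)) else 0

/-- uniform bounds -/
lemma om_unif (h2 : ∀ y, ∀ M : ℕ, ∃ (k : ℕ) (C : ℝ), 0 ≤ C ∧ ∀ (F : ℝ → ℂ) (S : ℝ), TF F → Bd F k S →
      ∀ (j : Fin (J y)) (t : ℝ), 0 < t → ‖ω y j F t‖ ≤ C * S * min 1 (t ^ M)) (M : ℕ) :
    ∃ C : ℝ, 0 ≤ C ∧ ∀ y (j : Fin (J y)) (z t : ℝ), 0 ≤ z → 0 < t →
      ‖ω y j (Fy z) t‖ ≤ C * ((1 + z) ^ 5)⁻¹ * min 1 (t ^ M) := by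
  choose k C hC0 hC using fun y => h2 y M
  choose C' hC0' hC' using fun y => bd_Fy (k y) 5
  refine ⟨∑ y, C y * C' y, Finset.sum_nonneg fun y _ => mul_nonneg (hC0 y) (hC0' y),
    fun y j z t hz ht => ?_⟩
  have h := hC y (Fy z) _ (tf_Fy z) (hC' y z hz) j t ht
  have h3 : C y * C' y ≤ ∑ y, C y * C' y :=
    Finset.single_le_sum (f := fun y => C y * C' y)
      (fun y _ => mul_nonneg (hC0 y) (hC0' y)) (Finset.mem_univ y)
  have h4 : 0 ≤ min 1 (t ^ M) := le_min zero_le_one (by positivity)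
  calc ‖ω y j (Fy z) t‖ ≤ C y * (C' y * ((1 + z) ^ 5)⁻¹) * min 1 (t ^ M) := h
    _ = (C y * C' y) * ((1 + z) ^ 5)⁻¹ * min 1 (t ^ M) := by ring
    _ ≤ _ := by gcongr

lemma tm_bd {M : ℕ} {C : ℝ} (hC0 : 0 ≤ C)
    (hC : ∀ y (j : Fin (J y)) (z t : ℝ), 0 ≤ z → 0 < t →
      ‖ω y j (Fy z) t‖ ≤ C * ((1 + z) ^ 5)⁻¹ * min 1 (t ^ (M + 1)))
    {Am : ℝ} (hAm : 1 ≤ Am) (y : U6 × Fin 3) (j : Fin (J y)) (x : ℕ × ℤ) {t : ℝ} (ht : 0 < t) :
    ‖tm ω Am y j x t‖ ≤ (C * (Real.exp 2 ^ M * 81)) * (1 + Real.log Am) ^ 4 * qw x *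
      (min 1 (t ^ (1 / 3 : ℝ)) * min 1 ((Am * t) ^ M)) := by
  have hL : 0 ≤ Real.log Am := Real.log_nonneg hAm
  have hq := qw_pos x
  have hm1 : 0 ≤ min 1 (t ^ (1 / 3 : ℝ)) := le_min zero_le_one (by positivity)
  have hAm0 : 0 < Am := by linarith
  have hm2 : 0 ≤ min 1 ((Am * t) ^ M) := le_min zero_le_one (by positivity)
  unfold tm
  split_ifs with h
  · have h1 := W3 hAm h.1 M ht
    have ht' : 0 < t * (3 ^ x.1 / Real.exp x.2) := by positivity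
    have h2 := hC y j (Real.exp x.2) _ (Real.exp_pos _).le ht'
    have h3 : 0 ≤ (Real.exp x.2 / 3 ^ x.1) ^ (1 / 3 : ℝ) := by positivity
    rw [norm_mul, Complex.norm_real, Real.norm_of_nonneg h3]
    calc (Real.exp x.2 / 3 ^ x.1) ^ (1 / 3 : ℝ) *
          ‖ω y j (Fy (Real.exp x.2)) (t * (3 ^ x.1 / Real.exp x.2))‖
        ≤ (Real.exp x.2 / 3 ^ x.1) ^ (1 / 3 : ℝ) * (C * ((1 + Real.exp x.2) ^ 5)⁻¹ *
          min 1 ((t * (3 ^ x.1 / Real.exp x.2)) ^ (M + 1))) := by gcongr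
      _ = C * ((Real.exp x.2 / 3 ^ x.1) ^ (1 / 3 : ℝ) *
          min 1 ((t * (3 ^ x.1 / Real.exp x.2)) ^ (M + 1)) * ((1 + Real.exp x.2) ^ 5)⁻¹) := by ring
      _ ≤ C * ((Real.exp 2 ^ M * 81) * (1 + Real.log Am) ^ 4 * qw x *
          (min 1 (t ^ (1 / 3 : ℝ)) * min 1 ((Am * t) ^ M))) := by gcongr
      _ = _ := by ring
  · rw [norm_zero]; positivity

end

end Crest.Agent.R017.X6F848
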