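import Crest.Agent.R017.X6F4_848

/-!
# Row 17, exceptional class, X6 (helper848): `F1X'`, main terms and conclusion
-/

set_option autoImplicit false

noncomputable section

open Set Filter Topology
open scoped ComplexConjugate

namespace Crest.Agent.R017.X6F848

open Crest.Agent.R012 Crest.Agent.R012.Eis
open Crest.Agent.R017.FE47 (h00 pu0)
open Crest.Agent.R017.X6545 (SU TF Bd kap0 PP)
open Crest.Agent.R017.X6B848
open Crest.Agent.R017.P3all283 (U6 Ix phi phi_ne_zero phi_injective exists_phi isUnit_of_mem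
  norm_th_le x23 x23_pos x23_lt c0 cR sR)
open Crest.Agent.R017.PX764 (th)
open Crest.Agent.R017.X6C180 (CF xc' XC')

/-! ### the constants -/

lemma th_sq {v0 v : Eis} (hv0 : IsUnit v0) (hv : IsUnit v) (s0 k : ℕ) :
    ‖th (v0 * lam ^ s0 * v * lam ^ k)‖ ^ 2 = MC.kapR (v0 * v * lam ^ ((k + s0) % 3)) := by
  have e1 : v0 * lam ^ s0 * v * lam ^ k = lam ^ (k + s0) * (v0 * v) := by rw [pow_add]; ring
  rw [e1, th_red]
  have e2 : ((rs (k + s0) : Fin 3) : ℕ) = (k + s0) % 3 := rfl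
  rw [e2, mul_comm]
  have h := P3all283.rho18 PX764.rho_MS PX764.rho_rel (v0 * v) (hv0.mul hv) ((k + s0) % 3)
    (by omega)
  have hc := PX764.cD_pos
  unfold PX764.th
  rw [norm_div, div_pow, h, Complex.norm_real, Real.norm_of_nonneg hc.le]
  unfold PX764.cD at hc ⊢
  exact mul_div_cancel_left₀ _ (pow_ne_zero 2 hc.ne')

/-- `|th (r v λ^s)|²` summed over the units -/
lemma sum_th_sq {v0 : Eis} (hv0 : IsUnit v0) (s0 k : ℕ) :
    ∑ v : U6, ‖th (vv (v0 * lam ^ s0) (v, rs k))‖ ^ 2 = sR v0 s0 k := by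
  unfold P3all283.sR
  rw [← Finset.sum_coe_sort U6 (fun u => MC.kapR (v0 * u * lam ^ ((k + s0) % 3)))]
  refine Finset.sum_congr rfl fun v _ => ?_
  rw [← th_sq hv0 (isUnit_of_mem v.2) s0 k]
  unfold vv
  simp only
  congr 2
  have h := th_red k (v0 * lam ^ s0 * v.1)
  rw [mul_comm (lam ^ k), mul_comm (lam ^ _)] at h
  exact h.symm

lemma pow23 (k : ℕ) : ((3 : ℝ) ^ k) ^ (2 / 3 : ℝ) = (x23 ^ k)⁻¹ := by
  unfold P3all283.x23
  rw [← Real.rpow_natCast, ← Real.rpow_natCast, ← Real.rpow_mul (by norm_num),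
    ← Real.rpow_mul (by norm_num), ← Real.rpow_neg (by norm_num)]
  congr 1
  ring

lemma Bs_pow {A : ℝ} (hA : 0 < A) (x : ℕ × ℤ) :
    Bs A x ^ (2 / 3 : ℝ) = A ^ (2 / 3 : ℝ) * (Real.exp x.2 ^ (2 / 3 : ℝ) * x23 ^ x.1) := by
  have hx := x23_pos
  unfold Bs
  rw [Real.mul_rpow hA.le (by positivity), Real.div_rpow (Real.exp_pos _).le (by positivity), pow23,
    div_inv_eq_mul]

lemma kap0_Gamma : kap0 * Real.Gamma (2 / 3) = pC * c0 := by
  unfold X6545.kap0 P3all283.c0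
  ring

lemma kap0_pos : 0 < kap0 := by
  have := PX764.pC_pos
  unfold X6545.kap0
  positivity

section

variable (r : Eis)

/-- the `k`-part of the main term -/
def ma (v : U6) (k : ℕ) : ℝ := ‖th (vv r (v, rs k))‖ ^ 2 * x23 ^ k

/-- the `n`-part of the main term -/
def mb (n : ℤ) : ℂ := ((Real.exp n ^ (2 / 3 : ℝ) : ℝ) : ℂ) * IF (Real.exp n)

variable {r}

lemma ma_nonneg (v : U6) (k : ℕ) : 0 ≤ ma r v k := by
  have := x23_pos
  unfold ma; positivity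

lemma ma_le (hr : SU r) (v : U6) (k : ℕ) : ma r v k ≤ x23 ^ k := by
  have h := norm_th_le (SU_ne (SU_vv hr (v, rs k)))
  have := x23_pos
  unfold ma
  have h2 : ‖th (vv r (v, rs k))‖ ^ 2 ≤ 1 := pow_le_one₀ (norm_nonneg _) h
  calc _ ≤ 1 * x23 ^ k := by gcongr
    _ = _ := one_mul _

lemma summable_ma (hr : SU r) (v : U6) : Summable (ma r v) :=
  Summable.of_nonneg_of_le (ma_nonneg v) (ma_le hr v)
    (summable_geometric_of_lt_one x23_pos.le x23_lt)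

lemma summable_mb : Summable fun n => ‖mb n‖ := hasSum_IF.1

lemma tsum_mb : ∑' n, mb n = ((Real.Gamma (2 / 3) : ℝ) : ℂ) := hasSum_IF.2.tsum_eq

lemma summable_mm (hr : SU r) (v : U6) :
    Summable fun x : ℕ × ℤ => ‖((ma r v x.1 : ℝ) : ℂ) * mb x.2‖ := by
  have h1 : Summable fun k => ‖((ma r v k : ℝ) : ℂ)‖ := by
    refine (summable_ma hr v).congr fun k => ?_
    rw [Complex.norm_real, Real.norm_of_nonneg (ma_nonneg v k)]
  exact h1.mul_norm summable_mb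

lemma tsum_mm (hr : SU r) (v : U6) :
    ∑' x : ℕ × ℤ, ((ma r v x.1 : ℝ) : ℂ) * mb x.2 =
      (((∑' k, ma r v k) * Real.Gamma (2 / 3) : ℝ) : ℂ) := by
  have h1 : Summable fun k => ‖((ma r v k : ℝ) : ℂ)‖ := by
    refine (summable_ma hr v).congr fun k => ?_
    rw [Complex.norm_real, Real.norm_of_nonneg (ma_nonneg v k)]
  rw [← tsum_mul_tsum_of_summable_norm h1 summable_mb, tsum_mb, ← Complex.ofReal_tsum]
  push_cast
  rfl

/-- the main terms of the empty blocks -/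
lemma tail (hr : SU r) : open Classical in ∃ C : ℝ, 0 ≤ C ∧ ∀ Am : ℝ, 1 ≤ Am → ∀ v : U6,
    ∑' x : ℕ × ℤ, (if Pp Am x then 0 else ‖((ma r v x.1 : ℝ) : ℂ) * mb x.2‖) ≤
      C * (1 + Real.log Am) ^ 4 * Am ^ (-(2 / 3) : ℝ) := by
  classical
  obtain ⟨C1, hC1, h1⟩ := IF_le 4
  obtain ⟨C2, hC2, h2⟩ := W2
  have hx0 := x23_pos
  refine ⟨C1 * C2 * ∑' x, qw x, by
    have : 0 ≤ ∑' x, qw x := tsum_nonneg fun x => (qw_pos x).le
    positivity, fun Am hAm v => ?_⟩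
  have hA0 : 0 < Am := by linarith
  have hL : 0 ≤ Real.log Am := Real.log_nonneg hAm
  have hb : ∀ x : ℕ × ℤ, (if Pp Am x then 0 else ‖((ma r v x.1 : ℝ) : ℂ) * mb x.2‖) ≤
      (C1 * C2 * (1 + Real.log Am) ^ 4 * Am ^ (-(2 / 3) : ℝ)) * qw x := by
    intro x
    have hq := qw_pos x
    split_ifs with hx
    · positivity
    · have h3 := h2 Am hAm x hx
      have h4 := h1 (Real.exp x.2) (Real.exp_pos _).le
      rw [norm_mul, Complex.norm_real, Real.norm_of_nonneg (ma_nonneg v x.1)]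
      unfold mb
      rw [norm_mul, Complex.norm_real, Real.norm_of_nonneg (by positivity)]
      have h5 := ma_le hr v x.1
      have h6 : (Am * Real.exp x.2 / 3 ^ x.1) ^ (2 / 3 : ℝ) =
          Am ^ (2 / 3 : ℝ) * (Real.exp x.2 ^ (2 / 3 : ℝ) * x23 ^ x.1) := by
        rw [← Bs_pow hA0 x]
        unfold Bs
        rw [mul_div_assoc]
      have h7 : Am ^ (-(2 / 3) : ℝ) * Am ^ (2 / 3 : ℝ) = 1 := by
        rw [← Real.rpow_add hA0]; norm_num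
      have hAn : 0 ≤ Am ^ (-(2 / 3) : ℝ) := by positivity
      calc ma r v x.1 * (Real.exp x.2 ^ (2 / 3 : ℝ) * ‖IF (Real.exp x.2)‖)
          ≤ x23 ^ x.1 * (Real.exp x.2 ^ (2 / 3 : ℝ) * (C1 * ((1 + Real.exp x.2) ^ 4)⁻¹)) := by
            gcongr
        _ = (Am ^ (-(2 / 3) : ℝ) * Am ^ (2 / 3 : ℝ)) *
            (C1 * ((Real.exp x.2 ^ (2 / 3 : ℝ) * x23 ^ x.1) * ((1 + Real.exp x.2) ^ 4)⁻¹)) := by
            rw [h7]; ring
        _ = Am ^ (-(2 / 3) : ℝ) * C1 *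
            ((Am * Real.exp x.2 / 3 ^ x.1) ^ (2 / 3 : ℝ) * ((1 + Real.exp x.2) ^ 4)⁻¹) := by
            rw [h6]; ring
        _ ≤ Am ^ (-(2 / 3) : ℝ) * C1 * (C2 * (1 + Real.log Am) ^ 4 * qw x) := by gcongr
        _ = _ := by ring
  have hs : Summable fun x : ℕ × ℤ =>
      (C1 * C2 * (1 + Real.log Am) ^ 4 * Am ^ (-(2 / 3) : ℝ)) * qw x := summable_qw.mul_left _
  have hs1 : Summable fun x : ℕ × ℤ =>
      (if Pp Am x then 0 else ‖((ma r v x.1 : ℝ) : ℂ) * mb x.2‖) :=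
    Summable.of_nonneg_of_le (fun x => by split_ifs <;> positivity) hb hs
  refine (hs1.tsum_le_tsum hb hs).trans (le_of_eq ?_)
  rw [tsum_mul_left]
  ring

end

/-! ### the statement -/

/-- the bound of the dual weight -/
def OmB' (Am C : ℝ) (M : ℕ) (Ω : ℝ → ℂ) : Prop := ∀ t : ℝ, 0 < t →
  ‖Ω t‖ ≤ C * (1 + Real.log Am) ^ 4 * (min 1 (t ^ ((1 : ℝ) / 3)) * min 1 ((Am * t) ^ M))

/-- **(B)+(C)**: `F1` for `e^{-x/A}` and all `l ≠ 0`; `X6545.F1X` with cube-free `d` and the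
fourth power of the logarithm. -/
def F1X' (r : Eis) (κ : ℝ) : Prop :=
  ∃ (J : ℕ) (v δ : Fin J → Eis), (∀ j, SU (v j) ∧ SU (δ j)) ∧ ∀ M : ℕ, ∃ C : ℝ, 0 ≤ C ∧
    ∀ Am : ℝ, 1 ≤ Am → ∃ Ω : Fin J → ℝ → ℂ, (∀ j, OmB' Am C M (Ω j)) ∧
      ∀ (A : ℝ) (u : Eis), 0 < A → A ≤ Am → IsPrim u → Squarefree u →
        ‖X6A848.T (fun x => th (r * x)) (fun x => ((Real.exp (-x / A) : ℝ) : ℂ)) 1 u 1 -
            ((κ * (nm u : ℝ) ^ (-(1 : ℝ) / 3) * A ^ ((2 : ℝ) / 3) : ℝ) : ℂ) -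
            ((A ^ ((1 : ℝ) / 3) : ℝ) : ℂ) * ∑ j, sy (δ j) u * ∑' d : Eis,
              open Classical in if IsPrim d ∧ CF d then
                sy (δ j) d * (((nm d : ℝ) ^ (-(1 : ℝ) / 3) : ℝ) : ℂ) * th (v j * u * d) *
                  Ω j ((nm u : ℝ) / (A * nm d)) else 0‖ ≤
          C * (1 + Real.log Am) ^ 4 * (A / Am) ^ ((2 : ℝ) / 3) * (nm u : ℝ) ^ (-(1 : ℝ) / 3)

/-- the same with an arbitrary finite index type -/
def F1Xi (I : Type) [Fintype I] (v δ : I → Eis) (r : Eis) (κ : ℝ) : Prop :=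
  (∀ j, SU (v j) ∧ SU (δ j)) ∧ ∀ M : ℕ, ∃ C : ℝ, 0 ≤ C ∧
    ∀ Am : ℝ, 1 ≤ Am → ∃ Ω : I → ℝ → ℂ, (∀ j, OmB' Am C M (Ω j)) ∧
      ∀ (A : ℝ) (u : Eis), 0 < A → A ≤ Am → IsPrim u → Squarefree u →
        ‖X6A848.T (fun x => th (r * x)) (fun x => ((Real.exp (-x / A) : ℝ) : ℂ)) 1 u 1 -
            ((κ * (nm u : ℝ) ^ (-(1 : ℝ) / 3) * A ^ ((2 : ℝ) / 3) : ℝ) : ℂ) -
            ((A ^ ((1 : ℝ) / 3) : ℝ) : ℂ) * ∑ j, sy (δ j) u * ∑' d : Eis,
              open Classical in if IsPrim d ∧ CF d then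
                sy (δ j) d * (((nm d : ℝ) ^ (-(1 : ℝ) / 3) : ℝ) : ℂ) * th (v j * u * d) *
                  Ω j ((nm u : ℝ) / (A * nm d)) else 0‖ ≤
          C * (1 + Real.log Am) ^ 4 * (A / Am) ^ ((2 : ℝ) / 3) * (nm u : ℝ) ^ (-(1 : ℝ) / 3)

lemma F1Xi.toFin {I : Type} [Fintype I] {v δ : I → Eis} {r : Eis} {κ : ℝ}
    (h : F1Xi I v δ r κ) : F1X' r κ := by
  classical
  obtain ⟨h1, h2⟩ := h
  set e := (Fintype.equivFin I).symm with he
  refine ⟨Fintype.card I, fun j => v (e j), fun j => δ (e j), fun j => h1 (e j), fun M => ?_⟩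
  obtain ⟨C, hC0, hC⟩ := h2 M
  refine ⟨C, hC0, fun Am hAm => ?_⟩
  obtain ⟨Ω, hΩ, hid⟩ := hC Am hAm
  refine ⟨fun j => Ω (e j), fun j => hΩ (e j), fun A u hA hAA hu hsq => ?_⟩
  have := hid A u hA hAA hu hsq
  rw [← Equiv.sum_comp e] at this
  exact this

end Crest.Agent.R017.X6F848
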