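import Crest.Agent.R017.X6F5_848

/-!
# Row 17, exceptional class, X6 (helper848): `F1X3'`, `F1X1'`
-/

set_option autoImplicit false

noncomputable section

open Set Filter Topology
open scoped ComplexConjugate

namespace Crest.Agent.R017.X6F848

open Crest.Agent.R012 Crest.Agent.R012.Eis
open Crest.Agent.R017.FE47 (h00 pu0)
open Crest.Agent.R017.X6545 (SU TF Bd kap0 PP)
open Crest.Agent.R017.X6B848
open Crest.Agent.R017.P3all283 (U6 Ix phi phi_ne_zero phi_injective exists_phi isUnit_of_mem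
  norm_th_le x23 x23_pos x23_lt c0 cR sR)
open Crest.Agent.R017.PX764 (th)
open Crest.Agent.R017.X6C180 (CF xc' XC')

lemma sum_ma {v0 : Eis} (hv0 : IsUnit v0) (s0 : ℕ) (hr : SU (v0 * lam ^ s0)) :
    ∑ v : U6, ∑' k, ma (v0 * lam ^ s0) v k = cR v0 s0 := by
  rw [← Summable.tsum_finsetSum (fun v _ => summable_ma hr v)]
  unfold P3all283.cR
  refine tsum_congr fun k => ?_
  rw [← sum_th_sq hv0 s0 k, Finset.sum_mul]
  rfl

/-- one block -/
lemma block {r : Eis} {J : U6 × Fin 3 → ℕ} {δ : (y : U6 × Fin 3) → Fin (J y) → Eis}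
    (ω : (y : U6 × Fin 3) → Fin (J y) → (ℝ → ℂ) → ℝ → ℂ) {c : (y : U6 × Fin 3) → Fin (J y) → Eis → ℂ}
    {u : Eis} (hu : IsPrim u)
    (hc : open Classical in ∀ y j d, c y j d = if IsPrim d ∧ CF d then
      sy (δ y j) d * (((nm d : ℝ) ^ (-(1 : ℝ) / 3) : ℝ) : ℂ) * th (vv r y * u * d) else 0)
    (h3 : open Classical in ∀ y (F : ℝ → ℂ), TF F → ∀ (B : ℝ) (u : Eis), 0 < B → IsPrim u →
      Squarefree u →
      PP (vv r y * u) (fun x => F (Real.log x - Real.log B)) =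
        ((kap0 * ‖th (vv r y)‖ ^ 2 * (nm u : ℝ) ^ (-(1 : ℝ) / 3) * B ^ ((2 : ℝ) / 3) : ℝ) : ℂ) *
            (∫ y : ℝ, F y * ((Real.exp (2 * y / 3) : ℝ) : ℂ)) +
          ((B ^ ((1 : ℝ) / 3) : ℝ) : ℂ) * ∑ j, sy (δ y j) u * ∑' d : Eis,
            if IsPrim d ∧ CF d then
              sy (δ y j) d * (((nm d : ℝ) ^ (-(1 : ℝ) / 3) : ℝ) : ℂ) * th (vv r y * u * d) *
                ω y j F ((nm u : ℝ) / (B * nm d)) else 0)
    (hsq : Squarefree u) {A Am : ℝ} (hA : 0 < A) (hAA : A ≤ Am) (v : U6) (x : ℕ × ℤ) :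
    open Classical in
    PP (r * v.1 * lam ^ x.1 * u) (bf A x) =
      ((kap0 * (nm u : ℝ) ^ (-(1 : ℝ) / 3) * A ^ ((2 : ℝ) / 3) : ℝ) : ℂ) *
        (if Pp Am x then ((ma r v x.1 : ℝ) : ℂ) * mb x.2 else 0) +
      ((A ^ ((1 : ℝ) / 3) : ℝ) : ℂ) * ∑ s : Fin 3, ∑ j, sy (δ (v, s) j) u * ∑' d : Eis,
        c (v, s) j d * tm ω Am (v, s) j x ((nm u : ℝ) / A / nm d) := by
  classical
  by_cases hx : Pp Am x
  · rw [if_pos hx, PP_red]
    have e0 : r * v.1 * lam ^ ((rs x.1 : Fin 3) : ℕ) = vv r (v, rs x.1) := rfl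
    have e1 : bf A x = fun y => Fy (Real.exp x.2) (Real.log y - Real.log (Bs A x)) := rfl
    rw [e0, e1, h3 (v, rs x.1) (Fy (Real.exp x.2)) (tf_Fy _) (Bs A x) u (Bs_pos hA x) hu hsq]
    congr 1
    · rw [Bs_pow hA x]
      unfold ma mb IF
      push_cast
      ring
    · rw [Finset.sum_eq_single (rs x.1)]
      · have h13 : ((Bs A x ^ ((1 : ℝ) / 3) : ℝ) : ℂ) = ((A ^ ((1 : ℝ) / 3) : ℝ) : ℂ) *
            (((Real.exp x.2 / 3 ^ x.1) ^ (1 / 3 : ℝ) : ℝ) : ℂ) := by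
          rw [← Complex.ofReal_mul]
          congr 1
          unfold Bs
          rw [Real.mul_rpow hA.le (by positivity)]
        rw [h13, mul_assoc, Finset.mul_sum]
        congr 1
        refine Finset.sum_congr rfl fun j _ => ?_
        rw [mul_left_comm, ← tsum_mul_left]
        congr 1
        refine tsum_congr fun d => ?_
        rw [hc]
        split_ifs with hd
        · unfold tm
          rw [if_pos ⟨hx, rfl⟩]
          have hd0 : (nm d : ℝ) ≠ 0 := by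
            have := nm_pos.2 hd.1.ne_zero
            exact_mod_cast this.ne'
          have e2 : (nm u : ℝ) / (Bs A x * nm d) =
              (nm u : ℝ) / A / nm d * (3 ^ x.1 / Real.exp x.2) := by
            unfold Bs
            have hen := (Real.exp_pos (x.2 : ℝ)).ne'
            have hA' := hA.ne'
            field_simp
          rw [e2]
          ring
        · rw [zero_mul, mul_zero]
      · intro s _ hs
        refine Finset.sum_eq_zero fun j _ => ?_
        have : ∀ d : Eis, c (v, s) j d * tm ω Am (v, s) j x ((nm u : ℝ) / A / nm d) = 0 := by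
          intro d
          unfold tm
          rw [if_neg (fun h => hs h.2.symm), mul_zero]
        simp only [this, tsum_zero, mul_zero]
      · intro h; exact absurd (Finset.mem_univ _) h
  · rw [if_neg hx, PP_zero hA hAA hx]
    have : ∀ s j, ∀ d : Eis, c (v, s) j d * tm ω Am (v, s) j x ((nm u : ℝ) / A / nm d) = 0 := by
      intro s j d
      unfold tm
      rw [if_neg (fun h => hx h.1), mul_zero]
    simp only [this, tsum_zero, mul_zero, Finset.sum_const_zero, add_zero]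

/-- **the functional equation for all `l` and the exponential weight** -/
theorem F1X_gen {v0 : Eis} (hv0 : IsUnit v0) (s0 : ℕ) :
    F1X' (v0 * lam ^ s0) (pC * (cR v0 s0 * c0)) := by
  classical
  have hr : SU (v0 * lam ^ s0) := SU_mul (SU_unit hv0) (SU_lam s0)
  set r := v0 * lam ^ s0 with hrdef
  choose J δ ω h1 h2 h3 using fun y : U6 × Fin 3 => xc' (SU_vv hr y)
  apply F1Xi.toFin (I := Σ y : U6 × Fin 3, Fin (J y)) (v := fun i => vv r i.1)
    (δ := fun i => δ i.1 i.2)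
  refine ⟨fun i => ⟨SU_vv hr _, h1 _ _⟩, fun M => ?_⟩
  set M' := max M 2 with hM'
  have hMM : M ≤ M' := le_max_left _ _
  have h2M : 2 ≤ M' := le_max_right _ _
  obtain ⟨C0, hC0, hω⟩ := om_unif ω h2 (M' + 1)
  obtain ⟨C1, hC1, htail⟩ := tail hr
  have hQ : 0 ≤ ∑' x, qw x := tsum_nonneg fun x => (qw_pos x).le
  have hkap := kap0_pos
  refine ⟨(C0 * (Real.exp 2 ^ M' * 81)) * ∑' x, qw x + kap0 * ((Fintype.card U6 : ℝ) * C1),
    by positivity, fun Am hAm => ?_⟩
  have hAm0 : 0 < Am := by linarith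
  have hL : 0 ≤ Real.log Am := Real.log_nonneg hAm
  set K : ℝ := (C0 * (Real.exp 2 ^ M' * 81)) * (1 + Real.log Am) ^ 4 with hK
  have hK0 : 0 ≤ K := by positivity
  have htm : ∀ y (j : Fin (J y)) x t, 0 < t → ‖tm ω Am y j x t‖ ≤
      K * qw x * (min 1 (t ^ (1 / 3 : ℝ)) * min 1 ((Am * t) ^ M')) :=
    fun y j x t ht => tm_bd ω hC0 hω hAm y j x ht
  have htm2 : ∀ y (j : Fin (J y)) x t, 0 < t → ‖tm ω Am y j x t‖ ≤
      K * qw x * min 1 ((Am * t) ^ M') := by
    intro y j x t ht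
    have hq := qw_pos x
    have hm2 : 0 ≤ min 1 ((Am * t) ^ M') := le_min zero_le_one (by positivity)
    refine (htm y j x t ht).trans ?_
    have : min 1 (t ^ (1 / 3 : ℝ)) * min 1 ((Am * t) ^ M') ≤ 1 * min 1 ((Am * t) ^ M') :=
      mul_le_mul_of_nonneg_right (min_le_left _ _) hm2
    rw [one_mul] at this
    gcongr
  refine ⟨fun i t => ∑' x, tm ω Am i.1 i.2 x t, fun i t ht => ?_, fun A u hA hAA hu hsq => ?_⟩
  · -- the bound of `Ω`
    have hm1 : 0 ≤ min 1 (t ^ (1 / 3 : ℝ)) := le_min zero_le_one (by positivity)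
    have hm2 : 0 ≤ min 1 ((Am * t) ^ M) := le_min zero_le_one (by positivity)
    have hmono : min 1 ((Am * t) ^ M') ≤ min 1 ((Am * t) ^ M) := by
      have hAt : 0 < Am * t := by positivity
      rcases le_total 1 (Am * t) with h | h
      · exact (min_le_left _ _).trans (le_min le_rfl (one_le_pow₀ h))
      · exact le_min (min_le_left _ _)
          ((min_le_right _ _).trans (pow_le_pow_of_le_one hAt.le h hMM))
    have hb : ∀ x, ‖tm ω Am i.1 i.2 x t‖ ≤
        (K * (min 1 (t ^ (1 / 3 : ℝ)) * min 1 ((Am * t) ^ M))) * qw x := by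
      intro x
      have hq := qw_pos x
      calc _ ≤ K * qw x * (min 1 (t ^ (1 / 3 : ℝ)) * min 1 ((Am * t) ^ M')) := htm _ _ x t ht
        _ ≤ K * qw x * (min 1 (t ^ (1 / 3 : ℝ)) * min 1 ((Am * t) ^ M)) := by gcongr
        _ = _ := by ring
    have h := tsum_of_norm_bounded (summable_qw.mul_left _).hasSum hb
    rw [tsum_mul_left] at h
    refine h.trans ?_
    have e : K * (min 1 (t ^ (1 / 3 : ℝ)) * min 1 ((Am * t) ^ M)) * ∑' x, qw x =
        ((C0 * (Real.exp 2 ^ M' * 81)) * ∑' x, qw x) * (1 + Real.log Am) ^ 4 *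
          (min 1 (t ^ (1 / 3 : ℝ)) * min 1 ((Am * t) ^ M)) := by
      rw [hK]; ring
    rw [e]
    gcongr
    exact le_add_of_nonneg_right (by positivity)
  · -- the identity
    have hN : (0 : ℝ) < nm u := by exact_mod_cast nm_pos.2 hu.ne_zero
    have hY : 0 < (nm u : ℝ) / A := by positivity
    obtain ⟨hsP, hT⟩ := T_decomp (SU_ne hr) hu.ne_zero hA
    obtain ⟨c, hc⟩ : ∃ c : (y : U6 × Fin 3) → Fin (J y) → Eis → ℂ, ∀ y j d, c y j d =
        if IsPrim d ∧ CF d then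
          sy (δ y j) d * (((nm d : ℝ) ^ (-(1 : ℝ) / 3) : ℝ) : ℂ) * th (vv r y * u * d) else 0 :=
      ⟨_, fun _ _ _ => rfl⟩
    have hcle : ∀ y j d, ‖c y j d‖ ≤ 1 := by
      intro y j d
      rw [hc]
      split_ifs with hd
      · have hd1 : (1 : ℝ) ≤ nm d := by exact_mod_cast nm_pos.2 hd.1.ne_zero
        rw [norm_mul, norm_mul, Complex.norm_real, Real.norm_of_nonneg (by positivity)]
        have a1 := Tau671.norm_sy_le (x := δ y j) hd.1
        have a2 : (nm d : ℝ) ^ (-(1 : ℝ) / 3) ≤ 1 :=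
          Real.rpow_le_one_of_one_le_of_nonpos hd1 (by norm_num)
        have a3 := norm_th_le (mul_ne_zero (mul_ne_zero (SU_ne (SU_vv hr y)) hu.ne_zero) hd.1.ne_zero)
        calc _ ≤ (1 : ℝ) * 1 * 1 := by gcongr
          _ = 1 := by norm_num
      · rw [norm_zero]; exact zero_le_one
    have hc0 : ∀ y j d, c y j d ≠ 0 → d ≠ 0 := by
      intro y j d h0 hd
      apply h0
      rw [hc, if_neg]
      rintro ⟨h4, -⟩
      exact h4.ne_zero hd
    have hfub := fun y j => fubini h2M hK0 hY hAm0 (f := tm ω Am y j) (c := c y j)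
      (fun x t ht => htm2 y j x t ht) (hcle y j) (hc0 y j)
    have hblk := fun v x => block ω hu hc h3 hsq hA hAA v x
    -- the two parts
    set P : ℂ := ((kap0 * (nm u : ℝ) ^ (-(1 : ℝ) / 3) * A ^ ((2 : ℝ) / 3) : ℝ) : ℂ) with hP
    set a13 : ℂ := ((A ^ ((1 : ℝ) / 3) : ℝ) : ℂ) with ha13
    have hs1 : ∀ v : U6, Summable fun x : ℕ × ℤ =>
        (if Pp Am x then ((ma r v x.1 : ℝ) : ℂ) * mb x.2 else 0) := by
      intro v
      refine Summable.of_norm_bounded (summable_mm hr v) fun x => ?_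
      split_ifs
      · exact le_rfl
      · rw [norm_zero]; positivity
    have hs1' : ∀ v : U6, Summable fun x : ℕ × ℤ =>
        (if Pp Am x then 0 else ((ma r v x.1 : ℝ) : ℂ) * mb x.2) := by
      intro v
      refine Summable.of_norm_bounded (summable_mm hr v) fun x => ?_
      split_ifs
      · rw [norm_zero]; positivity
      · exact le_rfl
    have hs2 : ∀ (v : U6) (s : Fin 3) (j : Fin (J (v, s))), Summable fun x : ℕ × ℤ =>
        sy (δ (v, s) j) u * ∑' d : Eis, c (v, s) j d * tm ω Am (v, s) j x ((nm u : ℝ) / A / nm d) :=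
      fun v s j => (hfub (v, s) j).2.1.mul_left _
    have hs3 : ∀ (v : U6) (s : Fin 3), Summable fun x : ℕ × ℤ =>
        ∑ j, sy (δ (v, s) j) u *
          ∑' d : Eis, c (v, s) j d * tm ω Am (v, s) j x ((nm u : ℝ) / A / nm d) :=
      fun v s => summable_sum fun j _ => hs2 v s j
    have hs4 : ∀ v : U6, Summable fun x : ℕ × ℤ => ∑ s : Fin 3, ∑ j, sy (δ (v, s) j) u *
          ∑' d : Eis, c (v, s) j d * tm ω Am (v, s) j x ((nm u : ℝ) / A / nm d) :=
      fun v => summable_sum fun s _ => hs3 v s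
    have hT2 : X6A848.T (fun x => th (r * x)) (fun x => ((Real.exp (-x / A) : ℝ) : ℂ)) 1 u 1 =
        P * (∑ v : U6, ∑' x : ℕ × ℤ, (if Pp Am x then ((ma r v x.1 : ℝ) : ℂ) * mb x.2 else 0)) +
        a13 * ∑ v : U6, ∑ s : Fin 3, ∑ j, sy (δ (v, s) j) u * ∑' d : Eis,
          c (v, s) j d * ∑' x, tm ω Am (v, s) j x ((nm u : ℝ) / A / nm d) := by
      rw [hT, Finset.mul_sum, Finset.mul_sum, ← Finset.sum_add_distrib]
      refine Finset.sum_congr rfl fun v _ => ?_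
      rw [tsum_congr fun x => hblk v x, ((hs1 v).mul_left P).tsum_add ((hs4 v).mul_left a13),
        tsum_mul_left, tsum_mul_left]
      congr 2
      rw [Summable.tsum_finsetSum fun s _ => hs3 v s]
      refine Finset.sum_congr rfl fun s _ => ?_
      rw [Summable.tsum_finsetSum fun j _ => hs2 v s j]
      refine Finset.sum_congr rfl fun j _ => ?_
      rw [tsum_mul_left, (hfub (v, s) j).2.2]
    -- the dual side in the wanted form
    have hD : ∑ v : U6, ∑ s : Fin 3, ∑ j, sy (δ (v, s) j) u * ∑' d : Eis,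
          c (v, s) j d * ∑' x, tm ω Am (v, s) j x ((nm u : ℝ) / A / nm d) =
        ∑ i : Σ y : U6 × Fin 3, Fin (J y), sy (δ i.1 i.2) u * ∑' d : Eis,
          (if IsPrim d ∧ CF d then
            sy (δ i.1 i.2) d * (((nm d : ℝ) ^ (-(1 : ℝ) / 3) : ℝ) : ℂ) * th (vv r i.1 * u * d) *
              (∑' x, tm ω Am i.1 i.2 x ((nm u : ℝ) / (A * nm d))) else 0) := by
      rw [Fintype.sum_sigma, Fintype.sum_prod_type]
      refine Finset.sum_congr rfl fun v _ => Finset.sum_congr rfl fun s _ =>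
        Finset.sum_congr rfl fun j _ => ?_
      congr 1
      refine tsum_congr fun d => ?_
      rw [hc, div_div]
      split_ifs
      · rfl
      · rw [zero_mul]
    -- the main term
    have hM1 : ((pC * (cR v0 s0 * c0) * (nm u : ℝ) ^ (-(1 : ℝ) / 3) * A ^ ((2 : ℝ) / 3) : ℝ) : ℂ) =
        P * ∑ v : U6, ∑' x : ℕ × ℤ, ((ma r v x.1 : ℝ) : ℂ) * mb x.2 := by
      have e1 : ∑ v : U6, ∑' x : ℕ × ℤ, ((ma r v x.1 : ℝ) : ℂ) * mb x.2 =
          ((cR v0 s0 * Real.Gamma (2 / 3) : ℝ) : ℂ) := by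
        rw [← sum_ma hv0 s0 hr, Finset.sum_mul, Complex.ofReal_sum]
        exact Finset.sum_congr rfl fun v _ => tsum_mm hr v
      rw [e1, hP, ← Complex.ofReal_mul]
      congr 1
      have := kap0_Gamma
      linear_combination (-(cR v0 s0) * (nm u : ℝ) ^ (-(1 : ℝ) / 3) * A ^ ((2 : ℝ) / 3)) * this
    have hM2 : ∀ v : U6, ∑' x : ℕ × ℤ, ((ma r v x.1 : ℝ) : ℂ) * mb x.2 =
        ∑' x : ℕ × ℤ, (if Pp Am x then ((ma r v x.1 : ℝ) : ℂ) * mb x.2 else 0) +
        ∑' x : ℕ × ℤ, (if Pp Am x then 0 else ((ma r v x.1 : ℝ) : ℂ) * mb x.2) := by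
      intro v
      rw [← (hs1 v).tsum_add (hs1' v)]
      refine tsum_congr fun x => ?_
      split_ifs <;> ring
    have hE : X6A848.T (fun x => th (r * x)) (fun x => ((Real.exp (-x / A) : ℝ) : ℂ)) 1 u 1 -
        ((pC * (cR v0 s0 * c0) * (nm u : ℝ) ^ (-(1 : ℝ) / 3) * A ^ ((2 : ℝ) / 3) : ℝ) : ℂ) -
        a13 * ∑ i : Σ y : U6 × Fin 3, Fin (J y), sy (δ i.1 i.2) u * ∑' d : Eis,
          (if IsPrim d ∧ CF d then
            sy (δ i.1 i.2) d * (((nm d : ℝ) ^ (-(1 : ℝ) / 3) : ℝ) : ℂ) * th (vv r i.1 * u * d) *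
              (∑' x, tm ω Am i.1 i.2 x ((nm u : ℝ) / (A * nm d))) else 0) =
        -(P * ∑ v : U6, ∑' x : ℕ × ℤ,
          (if Pp Am x then 0 else ((ma r v x.1 : ℝ) : ℂ) * mb x.2)) := by
      rw [hT2, hD, hM1, Finset.sum_congr rfl fun v _ => hM2 v, Finset.sum_add_distrib]
      ring
    have hgoal : ‖X6A848.T (fun x => th (r * x)) (fun x => ((Real.exp (-x / A) : ℝ) : ℂ)) 1 u 1 -
        ((pC * (cR v0 s0 * c0) * (nm u : ℝ) ^ (-(1 : ℝ) / 3) * A ^ ((2 : ℝ) / 3) : ℝ) : ℂ) -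
        a13 * ∑ i : Σ y : U6 × Fin 3, Fin (J y), sy (δ i.1 i.2) u * ∑' d : Eis,
          (if IsPrim d ∧ CF d then
            sy (δ i.1 i.2) d * (((nm d : ℝ) ^ (-(1 : ℝ) / 3) : ℝ) : ℂ) * th (vv r i.1 * u * d) *
              (∑' x, tm ω Am i.1 i.2 x ((nm u : ℝ) / (A * nm d))) else 0)‖ ≤
        ((C0 * (Real.exp 2 ^ M' * 81)) * ∑' x, qw x + kap0 * ((Fintype.card U6 : ℝ) * C1)) *
          (1 + Real.log Am) ^ 4 * (A / Am) ^ ((2 : ℝ) / 3) * (nm u : ℝ) ^ (-(1 : ℝ) / 3) := by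
      rw [hE, norm_neg, norm_mul]
      have hPn : ‖P‖ = kap0 * (nm u : ℝ) ^ (-(1 : ℝ) / 3) * A ^ ((2 : ℝ) / 3) := by
        rw [hP, Complex.norm_real, Real.norm_of_nonneg (by positivity)]
      have hsum : ‖∑ v : U6, ∑' x : ℕ × ℤ,
          (if Pp Am x then 0 else ((ma r v x.1 : ℝ) : ℂ) * mb x.2)‖ ≤
          (Fintype.card U6 : ℝ) * (C1 * (1 + Real.log Am) ^ 4 * Am ^ (-(2 / 3) : ℝ)) := by
        refine (norm_sum_le _ _).trans ?_
        have : ∀ v ∈ (Finset.univ : Finset U6), ‖∑' x : ℕ × ℤ,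
            (if Pp Am x then 0 else ((ma r v x.1 : ℝ) : ℂ) * mb x.2)‖ ≤
            C1 * (1 + Real.log Am) ^ 4 * Am ^ (-(2 / 3) : ℝ) := by
          intro v _
          have hsn := (hs1' v).norm
          refine (norm_tsum_le_tsum_norm hsn).trans ((le_of_eq ?_).trans (htail Am hAm v))
          refine tsum_congr fun x => ?_
          split_ifs
          · rw [norm_zero]
          · rfl
        refine (Finset.sum_le_sum this).trans (le_of_eq ?_)
        rw [Finset.sum_const, nsmul_eq_mul, Finset.card_univ]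
      have hdiv : (A / Am) ^ ((2 : ℝ) / 3) = A ^ ((2 : ℝ) / 3) * Am ^ (-(2 / 3) : ℝ) := by
        rw [Real.div_rpow hA.le hAm0.le, Real.rpow_neg hAm0.le, div_eq_mul_inv]
      rw [hPn, hdiv]
      have hAn : 0 ≤ Am ^ (-(2 / 3) : ℝ) := by positivity
      have hu13 : 0 ≤ (nm u : ℝ) ^ (-(1 : ℝ) / 3) := by positivity
      have hA23 : 0 ≤ A ^ ((2 : ℝ) / 3) := by positivity
      calc kap0 * (nm u : ℝ) ^ (-(1 : ℝ) / 3) * A ^ ((2 : ℝ) / 3) * ‖∑ v : U6, ∑' x : ℕ × ℤ,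
            (if Pp Am x then 0 else ((ma r v x.1 : ℝ) : ℂ) * mb x.2)‖
          ≤ kap0 * (nm u : ℝ) ^ (-(1 : ℝ) / 3) * A ^ ((2 : ℝ) / 3) *
            ((Fintype.card U6 : ℝ) * (C1 * (1 + Real.log Am) ^ 4 * Am ^ (-(2 / 3) : ℝ))) := by gcongr
        _ = (kap0 * ((Fintype.card U6 : ℝ) * C1)) * (1 + Real.log Am) ^ 4 *
            (A ^ ((2 : ℝ) / 3) * Am ^ (-(2 / 3) : ℝ)) * (nm u : ℝ) ^ (-(1 : ℝ) / 3) := by ring
        _ ≤ _ := by
            gcongr
            exact le_add_of_nonneg_left (by positivity)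
    exact hgoal

/-- **`r = 3`** -/
theorem F1X3' : F1X' 3 (pC * ((3 : ℝ) ^ ((4 : ℝ) / 3) * c0)) := by
  have h := F1X_gen (v0 := -w ^ 2) ((isUnit_w.pow 2).neg) 2
  rw [← P3all283.three_eq, P3all283.cR_three] at h
  exact h

/-- **`r = 1`** -/
theorem F1X1' : F1X' 1 (pC * (3 * c0)) := by
  have h := F1X_gen (v0 := 1) isUnit_one 0
  rw [pow_zero, mul_one, P3all283.cR_one] at h
  exact h

end Crest.Agent.R017.X6F848
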