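import Crest.Agent.R017.X6W2_180

/-!
# Row 17 (helper180): global (Mellin) separation of the dual kernels

`om' v0 F i y = ∫ kk t · y^(σ + i t) dt` for every `y > 0`, any `σ > 0`, `kk` of arbitrary polynomial
decay.
-/

set_option autoImplicit false
set_option linter.unusedVariables false

noncomputable section

open Complex MeasureTheory Set Filter Topology
open scoped ComplexConjugate

namespace Crest.Agent.R017.X6W180

open Crest.Agent.R012 Crest.Agent.R012.Eis
open Crest.Agent.R012.Weight600 (osc ker)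
open Crest.Agent.R017.X6545 (SU TF Bd)
open Crest.Agent.R017.X6C180

/-- Fourier inversion from integrable derivatives -/
theorem kernel_global (A : ℕ) (g : ℕ → ℝ → ℂ) (M : ℝ) (hM : 0 ≤ M)
    (hg : ∀ n u, HasDerivAt (g n) (g (n + 1) u) u)
    (hi : ∀ n, Integrable (g n)) (hb : ∀ n ≤ A + 2, ∫ u, ‖g n u‖ ≤ M) :
    ∃ k : ℝ → ℂ, Continuous k ∧ Integrable k ∧
      (∀ t, ‖k t‖ * (1 + |t|) ^ A ≤ 2 ^ (A + 3) * M) ∧ ∀ u, g 0 u = ∫ t, k t * osc t u := by
  have hc : ∀ n, Continuous (g n) := fun n =>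
    continuous_iff_continuousAt.mpr fun u => (hg n u).continuousAt
  have hk : ∀ n t, ker (g n) t = (I * t) ^ n * ker (g 0) t := by
    intro n t
    induction n with
    | zero => simp
    | succ n ih =>
      have hd : deriv (g n) = g (n + 1) := funext fun u => (hg n u).deriv
      have := Weight600.ker_deriv (w := g n) (hi n) (fun u => (hg n u).differentiableAt)
        (by rw [hd]; exact hi (n + 1)) t
      rw [hd] at this
      rw [this, ih]
      ring
  have hkn : ∀ n ≤ A + 2, ∀ t, |t| ^ n * ‖ker (g 0) t‖ ≤ M := by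
    intro n hn t
    have h2 : |t| ^ n * ‖ker (g 0) t‖ = ‖ker (g n) t‖ := by
      rw [hk n t, norm_mul, norm_pow, norm_mul, Complex.norm_I, one_mul, Complex.norm_real,
        Real.norm_eq_abs]
    rw [h2]
    refine (Weight600.norm_ker_le _ t).trans ?_
    have h3 : (1 / (2 * Real.pi)) ≤ 1 := by
      rw [div_le_one (by positivity)]
      nlinarith [Real.pi_gt_three]
    calc (1 / (2 * Real.pi)) * ∫ u, ‖g n u‖ ≤ 1 * M :=
          mul_le_mul h3 (hb n hn) (integral_nonneg fun _ => norm_nonneg _) (by norm_num)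
      _ = M := one_mul _
  have hdec : ∀ B ≤ A + 2, ∀ t, ‖ker (g 0) t‖ * (1 + |t|) ^ B ≤ 2 ^ (B + 1) * M := by
    intro B hB t
    have h0 := hkn 0 (Nat.zero_le _) t
    rw [pow_zero, one_mul] at h0
    have hA := hkn B hB t
    have h1 : (1 + |t|) ^ B ≤ 2 ^ B * (1 + |t| ^ B) := by
      rcases le_total |t| 1 with ht | ht
      · calc (1 + |t|) ^ B ≤ 2 ^ B := by gcongr; linarith
          _ ≤ 2 ^ B * (1 + |t| ^ B) := by
            have : 0 ≤ |t| ^ B := by positivity
            have h2 : (0 : ℝ) < 2 ^ B := by positivity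
            nlinarith
      · calc (1 + |t|) ^ B ≤ (2 * |t|) ^ B := by gcongr; linarith
          _ = 2 ^ B * |t| ^ B := mul_pow _ _ _
          _ ≤ 2 ^ B * (1 + |t| ^ B) := by
            have h2 : (0 : ℝ) < 2 ^ B := by positivity
            nlinarith
    calc ‖ker (g 0) t‖ * (1 + |t|) ^ B ≤ ‖ker (g 0) t‖ * (2 ^ B * (1 + |t| ^ B)) :=
          mul_le_mul_of_nonneg_left h1 (norm_nonneg _)
      _ = 2 ^ B * (‖ker (g 0) t‖ + |t| ^ B * ‖ker (g 0) t‖) := by ring
      _ ≤ 2 ^ B * (M + M) := by gcongr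
      _ = _ := by ring
  have hcont : Continuous (ker (g 0)) := Weight600.continuous_ker (hi 0)
  have hint : Integrable (ker (g 0)) := by
    have h1 : Integrable (fun t : ℝ => 2 ^ (2 + 1) * M * (1 + t ^ 2)⁻¹) :=
      integrable_inv_one_add_sq.const_mul _
    refine h1.mono' hcont.aestronglyMeasurable (Eventually.of_forall fun t => ?_)
    have h2 := hdec 2 (by omega) t
    have h3 : 1 + t ^ 2 ≤ (1 + |t|) ^ 2 := by
      have := abs_nonneg t
      nlinarith [sq_abs t]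
    have h4 : (0 : ℝ) < 1 + t ^ 2 := by positivity
    rw [← div_eq_mul_inv, le_div_iff₀ h4]
    exact (mul_le_mul_of_nonneg_left h3 (norm_nonneg _)).trans h2
  refine ⟨ker (g 0), hcont, hint, fun t => ?_, fun u => ?_⟩
  · refine (hdec A (by omega) t).trans ?_
    have : (2 : ℝ) ^ (A + 1) ≤ 2 ^ (A + 3) := pow_le_pow_right₀ (by norm_num) (by omega)
    gcongr
  · exact (Weight600.inversion (hc 0) (hi 0) hint u).symm

/-- the operator `F ↦ c F + F'` -/
def DS (c : ℂ) (F : ℝ → ℂ) (y : ℝ) : ℂ := c * F y + deriv F y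

lemma tf1_DS (c : ℂ) {F : ℝ → ℂ} (h : TF1 F) : TF1 (DS c F) where
  smooth := (contDiff_const.mul h.smooth).add (tf1_deriv h).smooth
  supp := fun y hy => by unfold DS; rw [h.supp y hy, (tf1_deriv h).supp y hy]; simp

lemma bd_DS (c : ℂ) {F : ℝ → ℂ} (h : TF1 F) {k : ℕ} {S : ℝ} (hB : Bd F (k + 1) S) :
    Bd (DS c F) k ((‖c‖ + 1) * S) := by
  intro i hi y
  have hseq := E1c146.iteratedDeriv_seq (g := fun n y => c * iteratedDeriv n F y +
    iteratedDeriv (n + 1) F y) (fun n u => ((hasDeriv_iter h.smooth n u).const_mul _).add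
      (hasDeriv_iter h.smooth (n + 1) u)) i
  have e0 : (fun y => c * iteratedDeriv 0 F y + iteratedDeriv (0 + 1) F y) = DS c F := by
    funext y
    unfold DS
    rw [iteratedDeriv_zero, zero_add, iteratedDeriv_one]
  rw [e0] at hseq
  rw [hseq]
  simp only
  have h1 := hB i (by omega) y
  have h2 := hB (i + 1) (by omega) y
  refine (norm_add_le _ _).trans ?_
  rw [norm_mul]
  nlinarith [norm_nonneg c]

lemma tf1_iterS (c : ℂ) {F : ℝ → ℂ} (hF : TF1 F) (n : ℕ) : TF1 ((DS c)^[n] F) := by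
  induction n with
  | zero => exact hF
  | succ n ih =>
    rw [Function.iterate_succ_apply']
    exact tf1_DS c ih

lemma bd_iterS (c : ℂ) {F : ℝ → ℂ} (hF : TF1 F) {k : ℕ} {S : ℝ} (n : ℕ) (hB : Bd F (k + n) S) :
    Bd ((DS c)^[n] F) k ((‖c‖ + 1) ^ n * S) := by
  induction n generalizing k with
  | zero => simpa using hB
  | succ n ih =>
    rw [Function.iterate_succ_apply']
    have h1 := ih (k := k + 1) (by rwa [show k + 1 + n = k + (n + 1) by ring])
    have := bd_DS c (tf1_iterS c hF n) h1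
    rwa [← mul_assoc, ← pow_succ'] at this

lemma exp_abs_le {δ : ℝ} (hδ : 0 < δ) (hδ1 : δ ≤ 1) (x : ℝ) :
    Real.exp (-(δ * |x|)) ≤ 2 / δ ^ 2 * (1 + x ^ 2)⁻¹ := by
  have h1 : 0 ≤ δ * |x| := by positivity
  have h2 := Real.quadratic_le_exp_of_nonneg h1
  have h3 : (0 : ℝ) < 1 + x ^ 2 := by positivity
  have h4 : δ ^ 2 / 2 * (1 + x ^ 2) ≤ Real.exp (δ * |x|) := by
    have e : (δ * |x|) ^ 2 = δ ^ 2 * x ^ 2 := by rw [mul_pow, sq_abs]
    have h5 : δ ^ 2 ≤ 1 := by nlinarith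
    nlinarith
  rw [Real.exp_neg, inv_le_comm₀ (Real.exp_pos _) (by positivity), mul_inv, inv_inv, inv_div]
  exact h4

/-- **global separation** -/
theorem op_mellin {L : (ℝ → ℂ) → ℝ → ℂ} (hL : Op L) {σ : ℝ} (hσ : 0 < σ) (A : ℕ) :
    ∃ (k : ℕ) (C : ℝ), 0 ≤ C ∧ ∀ (F : ℝ → ℂ) (S : ℝ), TF1 F → Bd F k S → ∃ kk : ℝ → ℂ,
      Continuous kk ∧ Integrable kk ∧ (∀ t, ‖kk t‖ * (1 + |t|) ^ A ≤ C * S) ∧
      ∀ x, L F x = ((Real.exp (σ * x) : ℝ) : ℂ) * ∫ t, kk t * osc t x := by
  set M : ℕ := ⌈σ⌉₊ + 1 with hMdef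
  have hM : σ + 1 ≤ (M : ℝ) := by
    rw [hMdef]; push_cast
    have := Nat.le_ceil σ
    linarith
  set δ : ℝ := min σ 1 with hδdef
  have hδ : 0 < δ := lt_min hσ one_pos
  have hδ1 : δ ≤ 1 := min_le_right _ _
  have hδσ : δ ≤ σ := min_le_left _ _
  obtain ⟨k, C, hC0, hC⟩ := hL.bd M
  set c : ℂ := (1 / 3 : ℂ) - σ with hc
  set K : ℝ := (‖c‖ + 1) ^ (A + 2) with hK
  have hK0 : 0 ≤ K := by positivity
  refine ⟨k + (A + 2), 2 ^ (A + 3) * (C * K * (2 / δ ^ 2 * Real.pi)), by positivity,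
    fun F S hF hB => ?_⟩
  have hS : 0 ≤ S := (norm_nonneg _).trans (hB 0 (Nat.zero_le _) 0)
  set g : ℕ → ℝ → ℂ := fun n x => ((Real.exp (-σ * x) : ℝ) : ℂ) * L ((DS c)^[n] F) x with hg
  have hder : ∀ n u, HasDerivAt (g n) (g (n + 1) u) u := by
    intro n u
    have hG := tf1_iterS c hF n
    have h1 := hL.hasDerivAt hG u
    have h2 : HasDerivAt (fun x : ℝ => Real.exp (-σ * x)) (Real.exp (-σ * u) * (-σ)) u := by
      have h3 : HasDerivAt (fun x : ℝ => -σ * x) (-σ) u := by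
        have := (hasDerivAt_id u).const_mul (-σ)
        simpa using this
      exact h3.exp
    have h4 := h2.ofReal_comp.mul h1
    have h5 : L (DF ((DS c)^[n] F)) u = (1 / 3 : ℂ) * L ((DS c)^[n] F) u +
        L (deriv ((DS c)^[n] F)) u := by
      have e1 : DF ((DS c)^[n] F) = fun y => (1 / 3 : ℂ) * ((DS c)^[n] F) y +
        deriv ((DS c)^[n] F) y := rfl
      rw [e1, hL.add (fun y => (1 / 3 : ℂ) * ((DS c)^[n] F) y) (deriv ((DS c)^[n] F))
        (TF_mul (tf1_tf hG) _) (tf1_tf (tf1_deriv hG)), hL.smul _ _ (tf1_tf hG)]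
    have h6 : L ((DS c)^[n + 1] F) u = c * L ((DS c)^[n] F) u +
        L (deriv ((DS c)^[n] F)) u := by
      rw [Function.iterate_succ_apply']
      have e1 : DS c ((DS c)^[n] F) = fun y => c * ((DS c)^[n] F) y +
        deriv ((DS c)^[n] F) y := rfl
      rw [e1, hL.add (fun y => c * ((DS c)^[n] F) y) (deriv ((DS c)^[n] F))
        (TF_mul (tf1_tf hG) _) (tf1_tf (tf1_deriv hG)), hL.smul _ _ (tf1_tf hG)]
    have h7 : g (n + 1) u = ((Real.exp (-σ * u) * (-σ) : ℝ) : ℂ) * L ((DS c)^[n] F) u +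
        ((Real.exp (-σ * u) : ℝ) : ℂ) * L (DF ((DS c)^[n] F)) u := by
      simp only [hg]
      rw [h5, h6, hc]
      push_cast
      ring
    rw [h7]
    exact h4
  have hbound : ∀ n x, ∀ S', Bd ((DS c)^[n] F) k S' →
      ‖g n x‖ ≤ C * S' * (2 / δ ^ 2 * (1 + x ^ 2)⁻¹) := by
    intro n x S' hB'
    have hS' : 0 ≤ S' := (norm_nonneg _).trans (hB' 0 (Nat.zero_le _) 0)
    simp only [hg]
    rw [norm_mul, Complex.norm_real, Real.norm_of_nonneg (Real.exp_pos _).le]
    have h1 := hC _ _ (tf1_tf (tf1_iterS c hF n)) hB' x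
    have h2 : Real.exp (-σ * x) * min 1 (Real.exp (M * x)) ≤ Real.exp (-(δ * |x|)) := by
      rcases le_total 0 x with h | h
      · rw [abs_of_nonneg h]
        calc Real.exp (-σ * x) * min 1 (Real.exp (M * x)) ≤ Real.exp (-σ * x) * 1 :=
              mul_le_mul_of_nonneg_left (min_le_left _ _) (Real.exp_pos _).le
          _ ≤ _ := by
              rw [mul_one]
              apply Real.exp_le_exp.mpr
              nlinarith
      · rw [abs_of_nonpos h]
        calc Real.exp (-σ * x) * min 1 (Real.exp (M * x)) ≤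
              Real.exp (-σ * x) * Real.exp (M * x) :=
              mul_le_mul_of_nonneg_left (min_le_right _ _) (Real.exp_pos _).le
          _ ≤ _ := by
              rw [← Real.exp_add]
              apply Real.exp_le_exp.mpr
              nlinarith
    calc Real.exp (-σ * x) * ‖L ((DS c)^[n] F) x‖ ≤
          Real.exp (-σ * x) * (C * S' * min 1 (Real.exp (M * x))) := by gcongr
      _ = C * S' * (Real.exp (-σ * x) * min 1 (Real.exp (M * x))) := by ring
      _ ≤ C * S' * (2 / δ ^ 2 * (1 + x ^ 2)⁻¹) :=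
          mul_le_mul_of_nonneg_left (h2.trans (exp_abs_le hδ hδ1 x)) (by positivity)
  have hcont : ∀ n, Continuous (g n) := fun n =>
    continuous_iff_continuousAt.mpr fun u => (hder n u).continuousAt
  have hI0 : ∀ S' : ℝ, Integrable (fun x : ℝ => C * S' * (2 / δ ^ 2 * (1 + x ^ 2)⁻¹)) := fun S' =>
    (integrable_inv_one_add_sq.const_mul _).const_mul _
  have hint : ∀ n, Integrable (g n) := by
    intro n
    obtain ⟨S', -, hB'⟩ := exists_Bd (tf1_iterS c hF n) k
    exact (hI0 S').mono' (hcont n).aestronglyMeasurable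
      (Eventually.of_forall fun x => hbound n x S' hB')
  have hbd : ∀ n ≤ A + 2, ∫ u, ‖g n u‖ ≤ C * K * (2 / δ ^ 2 * Real.pi) * S := by
    intro n hn
    have hB' := bd_iterS c hF n (bd_mono hB (by omega : k + n ≤ k + (A + 2)))
    have h1 := integral_mono (hint n).norm (hI0 _) fun x => hbound n x _ hB'
    refine h1.trans ?_
    rw [integral_const_mul, integral_const_mul, integral_univ_inv_one_add_sq]
    have h2 : (‖c‖ + 1) ^ n ≤ K := by
      rw [hK]
      exact pow_le_pow_right₀ (by linarith [norm_nonneg c]) hn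
    calc C * ((‖c‖ + 1) ^ n * S) * (2 / δ ^ 2 * Real.pi) ≤
          C * (K * S) * (2 / δ ^ 2 * Real.pi) := by gcongr
      _ = _ := by ring
  obtain ⟨kk, h1, h2, h3, h4⟩ := kernel_global A g (C * K * (2 / δ ^ 2 * Real.pi) * S)
    (by positivity) hder hint hbd
  refine ⟨kk, h1, h2, fun t => (h3 t).trans (le_of_eq (by ring)), fun x => ?_⟩
  rw [← h4 x]
  simp only [hg, Function.iterate_zero, id]
  rw [← mul_assoc, ← Complex.ofReal_mul, ← Real.exp_add]
  rw [show σ * x + -σ * x = 0 by ring, Real.exp_zero, Complex.ofReal_one, one_mul]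

/-- **global separation of the dual kernels**: `om' v0 F i y = ∫ kk t y^(σ + i t) dt`. -/
theorem om_mellin {v0 : Eis} (h0 : v0 ≠ 0) {σ : ℝ} (hσ : 0 < σ) (A : ℕ) :
    ∃ (k : ℕ) (C : ℝ), 0 ≤ C ∧ ∀ (F : ℝ → ℂ) (S : ℝ), TF1 F → Bd F k S →
      ∀ i : IX v0, ∃ kk : ℝ → ℂ, Continuous kk ∧
      Integrable kk ∧ (∀ t, ‖kk t‖ * (1 + |t|) ^ A ≤ C * S) ∧
      ∀ y : ℝ, 0 < y → om' v0 F i y = ((y ^ σ : ℝ) : ℂ) * ∫ t, kk t * osc t (Real.log y) := by
  classical
  have h := fun i : IX v0 => op_mellin (op_om h0 i) hσ A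
  choose k C hC0 hC using h
  refine ⟨∑ i, k i, ∑ i, C i, Finset.sum_nonneg fun i _ => hC0 i,
    fun F S hF hB i => ?_⟩
  have hk : k i ≤ ∑ i, k i := Finset.single_le_sum (f := k) (fun i _ => Nat.zero_le _)
    (Finset.mem_univ i)
  have hCi : C i ≤ ∑ i, C i := Finset.single_le_sum (f := C) (fun i _ => hC0 i)
    (Finset.mem_univ i)
  have hS : 0 ≤ S := (norm_nonneg _).trans (hB 0 (Nat.zero_le _) 0)
  obtain ⟨kk, h1, h2, h3, h4⟩ := hC i F S hF (bd_mono hB hk)
  refine ⟨kk, h1, h2, fun t => (h3 t).trans (by gcongr), fun y hy => ?_⟩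
  have h5 := h4 (Real.log y)
  rw [Real.exp_log hy] at h5
  rw [h5, Real.rpow_def_of_pos hy, mul_comm σ]

end Crest.Agent.R017.X6W180
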