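import Crest.Agent.R017.X6F6_848
import Crest.Agent.R017.X6W3_180

/-!
# Row 17, exceptional class, X6 (helper180): `F1` for `e^{-x/A}` with separated dual weights, part 1

* `Mel s C Ω` : `Ω y = y^s ∫ kk t y^(i t) dt`, `‖kk t‖ (1+|t|)^A ≤ C`
* `xcM` : `X6C180.xc'` with the Mellin property of the dual weights
* `mel_sum` : summation over the blocks
-/

set_option autoImplicit false

noncomputable section

open Complex MeasureTheory Set Filter Topology
open scoped ComplexConjugate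

namespace Crest.Agent.R017.X6W180

open Crest.Agent.R012 Crest.Agent.R012.Eis Crest.Agent.R012.Sym645
open Crest.Agent.R012.Weight600 (osc)
open Crest.Agent.R017.FE47 (SM h00 pu0)
open Crest.Agent.R017.X6545 (SU TF Bd kap0 PP)
open Crest.Agent.R017.X6C180
open Crest.Agent.R017.PX764 (th)
open Crest.Agent.R017.X6B848 (qw qw_pos summable_qw Pp W1 Fy tf_Fy bd_Fy h00_ne)

/-- the Mellin property -/
def Mel (s : ℝ) (A : ℕ) (C : ℝ) (Ω : ℝ → ℂ) : Prop :=
  ∃ kk : ℝ → ℂ, Continuous kk ∧ Integrable kk ∧ (∀ t, ‖kk t‖ * (1 + |t|) ^ A ≤ C) ∧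
    ∀ y : ℝ, 0 < y → Ω y = ((y ^ s : ℝ) : ℂ) * ∫ t, kk t * osc t (Real.log y)

/-- **(C)**, with the cube-free indicator and the Mellin property -/
def XCM (v0 : Eis) : Prop :=
  ∃ (J : ℕ) (δ : Fin J → Eis) (ω : Fin J → (ℝ → ℂ) → ℝ → ℂ), (∀ j, SU (δ j)) ∧
    (∀ M : ℕ, ∃ (k : ℕ) (C : ℝ), 0 ≤ C ∧ ∀ (F : ℝ → ℂ) (S : ℝ), TF F → Bd F k S →
      ∀ (j : Fin J) (t : ℝ), 0 < t → ‖ω j F t‖ ≤ C * S * min 1 (t ^ M)) ∧
    (∀ (s : ℝ) (A : ℕ), 0 < s → ∃ (k : ℕ) (C : ℝ), 0 ≤ C ∧ ∀ (F : ℝ → ℂ) (S : ℝ), TF1 F →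
      Bd F k S → ∀ j : Fin J, Mel s A (C * S) (ω j F)) ∧
    ∀ F : ℝ → ℂ, TF F → ∀ (B : ℝ) (u : Eis), 0 < B → IsPrim u → Squarefree u →
      X6545.PP (v0 * u) (fun x => F (Real.log x - Real.log B)) =
        ((kap0 * ‖th v0‖ ^ 2 * (nm u : ℝ) ^ (-(1 : ℝ) / 3) * B ^ ((2 : ℝ) / 3) : ℝ) : ℂ) *
            (∫ y : ℝ, F y * ((Real.exp (2 * y / 3) : ℝ) : ℂ)) +
          ((B ^ ((1 : ℝ) / 3) : ℝ) : ℂ) * ∑ j, sy (δ j) u * ∑' d : Eis,
            open Classical in if IsPrim d ∧ CF d then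
              sy (δ j) d * (((nm d : ℝ) ^ (-(1 : ℝ) / 3) : ℝ) : ℂ) * th (v0 * u * d) *
                ω j F ((nm u : ℝ) / (B * nm d)) else 0

theorem xcM {v0 : Eis} (hv0 : SU v0) : XCM v0 := by
  classical
  have hSM := SU.SM hv0
  set e : Fin (Fintype.card (IX v0)) ≃ IX v0 := (Fintype.equivFin (IX v0)).symm with he
  refine ⟨Fintype.card (IX v0), fun j => dl' v0 (e j), fun j F => om' v0 F (e j),
    fun j => dl_SU hSM.1 (e j), fun M => ?_, fun s A hs => ?_, fun F hF B u hB hu hsq => ?_⟩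
  · obtain ⟨k, C, hC0, hC⟩ := om_bd hSM.1 M
    exact ⟨k, C, hC0, fun F S hF hB j t ht => hC F S hF hB (e j) t ht⟩
  · obtain ⟨k, C, hC0, hC⟩ := om_mellin hSM.1 hs A
    exact ⟨k, C, hC0, fun F S hF hB j => hC F S hF hB (e j)⟩
  · rw [id_TI hSM hF hB hu hsq, ← Equiv.sum_comp e (TI v0 u F B)]
    rfl

lemma tf1_Fy (z : ℝ) : TF1 (Fy z) where
  smooth := (tf_Fy z).smooth
  supp y hy := by
    unfold X6B848.Fy
    have : h00 y = 0 := by
      by_contra h
      have h1 := h00_ne h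
      have : |y| ≤ 3 / 2 := abs_le.mpr ⟨by linarith, by linarith⟩
      linarith
    rw [this, Complex.ofReal_zero, smul_zero]

lemma continuous_osc1 (a : ℝ) : Continuous fun t : ℝ => osc t a := by
  unfold Weight600.osc
  fun_prop

/-- **summation over the blocks** -/
theorem mel_sum {s : ℝ} {A : ℕ} {C G Am : ℝ} (hC : 0 ≤ C) (hG : 0 ≤ G) (hAm : 1 ≤ Am)
    (hGb : ∀ x : ℕ × ℤ, Pp Am x → (Real.exp x.2 / 3 ^ x.1) ^ (1 / 3 - s) ≤ G * (1 + Real.exp x.2))
    (P : ℕ × ℤ → Prop) (hP : ∀ x, P x → Pp Am x) (W : ℕ × ℤ → ℝ → ℂ)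
    (hW : ∀ x, Mel s (A + 2) (C * ((1 + Real.exp x.2) ^ 5)⁻¹) (W x)) :
    open Classical in
    Mel s A (C * G * (81 * (1 + Real.log Am) ^ 4) * ∑' x, qw x)
      (fun t => ∑' x : ℕ × ℤ, if P x then (((Real.exp x.2 / 3 ^ x.1) ^ (1 / 3 : ℝ) : ℝ) : ℂ) *
        W x (t * (3 ^ x.1 / Real.exp x.2)) else 0) := by
  classical
  choose kk hk1 hk2 hk3 hk4 using hW
  have hL : 0 ≤ Real.log Am := Real.log_nonneg hAm
  set C' : ℝ := C * G * (81 * (1 + Real.log Am) ^ 4) with hC'
  have hC'0 : 0 ≤ C' := by positivity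
  set ρ : ℕ × ℤ → ℝ := fun x => Real.exp x.2 / 3 ^ x.1 with hρ
  have hρ0 : ∀ x, 0 < ρ x := fun x => by simp only [hρ]; positivity
  set K : ℕ × ℤ → ℝ → ℂ := fun x t => if P x then (((ρ x) ^ (1 / 3 - s) : ℝ) : ℂ) *
    (kk x t * osc t (-Real.log (ρ x))) else 0 with hK
  have hKc : ∀ x, Continuous (K x) := by
    intro x
    by_cases hx : P x
    · simp only [hK, if_pos hx]
      exact continuous_const.mul ((hk1 x).mul (continuous_osc1 _))
    · simp only [hK, if_neg hx]
      exact continuous_const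
  have hKb : ∀ x t, ‖K x t‖ * (1 + |t|) ^ (A + 2) ≤ C' * qw x := by
    intro x t
    have hq := qw_pos x
    by_cases hx : P x
    · have h1 := hGb x (hP x hx)
      have h2 := hk3 x t
      have h3 := W1 hAm (hP x hx)
      simp only [hK, if_pos hx]
      rw [norm_mul, norm_mul, Weight600.norm_osc, mul_one, Complex.norm_real,
        Real.norm_of_nonneg (by have := hρ0 x; positivity)]
      have hen : 0 < Real.exp x.2 := Real.exp_pos _
      have h13 : ((1 + Real.exp x.2) ^ 5)⁻¹ = (1 + Real.exp x.2)⁻¹ * ((1 + Real.exp x.2) ^ 4)⁻¹ := by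
        rw [← mul_inv, ← pow_succ']
      calc (ρ x) ^ (1 / 3 - s) * ‖kk x t‖ * (1 + |t|) ^ (A + 2)
          = (ρ x) ^ (1 / 3 - s) * (‖kk x t‖ * (1 + |t|) ^ (A + 2)) := by ring
        _ ≤ (G * (1 + Real.exp x.2)) * (C * ((1 + Real.exp x.2) ^ 5)⁻¹) := by
            gcongr
        _ = C * G * ((1 + Real.exp x.2) * (1 + Real.exp x.2)⁻¹) * ((1 + Real.exp x.2) ^ 4)⁻¹ := by
            rw [h13]; ring
        _ = C * G * ((1 + Real.exp x.2) ^ 4)⁻¹ := by
            rw [mul_inv_cancel₀ (by positivity), mul_one]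
        _ ≤ C * G * (81 * (1 + Real.log Am) ^ 4 * qw x) := by gcongr
        _ = C' * qw x := by rw [hC']; ring
    · simp only [hK, if_neg hx]
      rw [norm_zero, zero_mul]
      positivity
  have hpos : ∀ (t : ℝ) (n : ℕ), (1 : ℝ) ≤ (1 + |t|) ^ n := fun t n =>
    one_le_pow₀ (by linarith [abs_nonneg t])
  have hKb0 : ∀ x t, ‖K x t‖ ≤ C' * qw x := fun x t =>
    (le_mul_of_one_le_right (norm_nonneg _) (hpos t _)).trans (hKb x t)
  have hKb2 : ∀ x t, ‖K x t‖ ≤ C' * qw x * (1 + t ^ 2)⁻¹ := by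
    intro x t
    have h4 : (0 : ℝ) < 1 + t ^ 2 := by positivity
    rw [← div_eq_mul_inv, le_div_iff₀ h4]
    refine le_trans (mul_le_mul_of_nonneg_left ?_ (norm_nonneg _)) (hKb x t)
    have h3 : 1 + t ^ 2 ≤ (1 + |t|) ^ 2 := by
      have := abs_nonneg t
      nlinarith [sq_abs t]
    refine h3.trans (pow_le_pow_right₀ (by linarith [abs_nonneg t]) (by omega))
  have hsum : Summable fun x => C' * qw x := summable_qw.mul_left _
  have hcont : Continuous fun t => ∑' x, K x t := continuous_tsum hKc hsum hKb0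
  have hbd : ∀ t, ‖∑' x, K x t‖ * (1 + |t|) ^ (A + 2) ≤ C' * ∑' x, qw x := by
    intro t
    have hs : Summable fun x => ‖K x t‖ := Summable.of_nonneg_of_le (fun _ => norm_nonneg _)
      (fun x => hKb0 x t) hsum
    calc ‖∑' x, K x t‖ * (1 + |t|) ^ (A + 2) ≤ (∑' x, ‖K x t‖) * (1 + |t|) ^ (A + 2) :=
          mul_le_mul_of_nonneg_right (norm_tsum_le_tsum_norm hs) (by positivity)
      _ = ∑' x, ‖K x t‖ * (1 + |t|) ^ (A + 2) := tsum_mul_right.symm
      _ ≤ ∑' x, C' * qw x := (hs.mul_right _).tsum_le_tsum (fun x => hKb x t) hsum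
      _ = C' * ∑' x, qw x := tsum_mul_left
  have hint : Integrable fun t => ∑' x, K x t := by
    have h1 : Integrable (fun t : ℝ => (C' * ∑' x, qw x) * (1 + t ^ 2)⁻¹) :=
      integrable_inv_one_add_sq.const_mul _
    refine h1.mono' hcont.aestronglyMeasurable (Eventually.of_forall fun t => ?_)
    have hs : Summable fun x => ‖K x t‖ := Summable.of_nonneg_of_le (fun _ => norm_nonneg _)
      (fun x => hKb0 x t) hsum
    refine (norm_tsum_le_tsum_norm hs).trans ?_
    rw [← tsum_mul_left, ← tsum_mul_right]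
    exact hs.tsum_le_tsum (fun x => hKb2 x t) (hsum.mul_right _)
  refine ⟨fun t => ∑' x, K x t, hcont, hint, fun t => ?_, fun y hy => ?_⟩
  · refine le_trans (mul_le_mul_of_nonneg_left ?_ (norm_nonneg _)) (hbd t)
    exact pow_le_pow_right₀ (by linarith [abs_nonneg t]) (by omega)
  · -- each term
    have hterm : ∀ x, (if P x then (((Real.exp x.2 / 3 ^ x.1) ^ (1 / 3 : ℝ) : ℝ) : ℂ) *
        W x (y * (3 ^ x.1 / Real.exp x.2)) else 0) =
        ((y ^ s : ℝ) : ℂ) * ∫ t, K x t * osc t (Real.log y) := by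
      intro x
      by_cases hx : P x
      · rw [if_pos hx]
        have hρx := hρ0 x
        have e0 : y * (3 ^ x.1 / Real.exp x.2) = y / ρ x := by
          simp only [hρ]
          have hen : (0 : ℝ) < Real.exp x.2 := Real.exp_pos _
          have h3 : (0 : ℝ) < 3 ^ x.1 := by positivity
          field_simp
        rw [e0, hk4 x _ (div_pos hy hρx), Real.log_div hy.ne' hρx.ne', Real.div_rpow hy.le hρx.le]
        have e1 : ∀ t, K x t * osc t (Real.log y) = (((ρ x) ^ (1 / 3 - s) : ℝ) : ℂ) *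
            (kk x t * osc t (Real.log y - Real.log (ρ x))) := by
          intro t
          have e4 := osc_add t (Real.log y) (-Real.log (ρ x))
          rw [← sub_eq_add_neg] at e4
          simp only [hK, if_pos hx]
          rw [e4]
          ring
        simp_rw [e1]
        rw [integral_const_mul]
        have e2 : (ρ x) ^ (1 / 3 - s) = (ρ x) ^ (1 / 3 : ℝ) / (ρ x) ^ s := Real.rpow_sub hρx _ _
        rw [e2]
        have e3 : ρ x = Real.exp x.2 / 3 ^ x.1 := rfl
        rw [← e3]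
        push_cast
        ring
      · rw [if_neg hx]
        simp only [hK, if_neg hx, zero_mul, integral_zero, mul_zero]
    simp_rw [hterm]
    rw [tsum_mul_left]
    congr 1
    have hosc : Continuous fun t : ℝ => osc t (Real.log y) := continuous_osc1 _
    have hFi : ∀ x, Integrable fun t => K x t * osc t (Real.log y) := by
      intro x
      refine (integrable_inv_one_add_sq.const_mul (C' * qw x)).mono'
        ((hKc x).mul hosc).aestronglyMeasurable (Eventually.of_forall fun t => ?_)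
      rw [norm_mul, Weight600.norm_osc, mul_one]
      exact hKb2 x t
    have hFs : Summable fun x => ∫ t, ‖K x t * osc t (Real.log y)‖ := by
      refine Summable.of_nonneg_of_le (fun x => integral_nonneg fun _ => norm_nonneg _)
        (fun x => ?_) (hsum.mul_right Real.pi)
      have h1 := integral_mono (hFi x).norm (integrable_inv_one_add_sq.const_mul (C' * qw x))
        (fun t => by
          rw [norm_mul, Weight600.norm_osc, mul_one]
          exact hKb2 x t)
      rw [integral_const_mul, integral_univ_inv_one_add_sq] at h1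
      exact h1
    rw [integral_tsum_of_summable_integral_norm hFi hFs]
    refine integral_congr_ae (Eventually.of_forall fun t => ?_)
    simp only
    rw [tsum_mul_right]

end Crest.Agent.R017.X6W180
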