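import Crest.Agent.R017.X6F7_180

/-!
# Row 17, exceptional class, X6 (helper180): `F1` for `e^{-x/A}` with separated dual weights, part 2

`F1XS_gen` : 848's `F1X_gen` with the Mellin property of the dual weights (same proof, from `xcM`).
-/

set_option autoImplicit false

noncomputable section

open Set Filter Topology
open scoped ComplexConjugate

namespace Crest.Agent.R017.X6W180

open Crest.Agent.R012 Crest.Agent.R012.Eis
open Crest.Agent.R017.FE47 (h00 pu0)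
open Crest.Agent.R017.X6545 (SU TF Bd kap0 PP)
open Crest.Agent.R017.X6B848
open Crest.Agent.R017.X6F848
open Crest.Agent.R017.P3all283 (U6 Ix phi phi_ne_zero phi_injective exists_phi isUnit_of_mem
  norm_th_le x23 x23_pos x23_lt c0 cR sR)
open Crest.Agent.R017.PX764 (th)
open Crest.Agent.R017.X6C180 (CF)

lemma Mel.mono {s : ℝ} {A : ℕ} {C C' : ℝ} {Ω : ℝ → ℂ} (h : Mel s A C Ω) (hC : C ≤ C') :
    Mel s A C' Ω := by
  obtain ⟨kk, h1, h2, h3, h4⟩ := h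
  exact ⟨kk, h1, h2, fun t => (h3 t).trans hC, h4⟩

lemma Mel.congr {s : ℝ} {A : ℕ} {C : ℝ} {Ω Ω' : ℝ → ℂ} (h : Mel s A C Ω) (e : ∀ t, Ω' t = Ω t) :
    Mel s A C Ω' := by
  rwa [show Ω' = Ω from funext e]

/-- **(B)+(C)**: `F1` for `e^{-x/A}` and all `l ≠ 0`, with separated dual weights -/
def F1XS (r : Eis) (κ : ℝ) : Prop :=
  ∃ (J : ℕ) (v δ : Fin J → Eis), (∀ j, SU (v j) ∧ SU (δ j)) ∧ ∀ (M A0 : ℕ) (s : ℝ), 0 < s →
    s ≤ 1 / 3 → ∃ C : ℝ, 0 ≤ C ∧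
    ∀ Am : ℝ, 1 ≤ Am → ∃ Ω : Fin J → ℝ → ℂ, (∀ j, OmB' Am C M (Ω j)) ∧
      (∀ j, Mel s A0 (C * (1 + Real.log Am) ^ 4) (Ω j)) ∧
      (∀ j, Mel 3 A0 (C * (1 + Real.log Am) ^ 4 * Am ^ ((8 : ℝ) / 3)) (Ω j)) ∧
      ∀ (A : ℝ) (u : Eis), 0 < A → A ≤ Am → IsPrim u → Squarefree u →
        ‖X6A848.T (fun x => th (r * x)) (fun x => ((Real.exp (-x / A) : ℝ) : ℂ)) 1 u 1 -
            ((κ * (nm u : ℝ) ^ (-(1 : ℝ) / 3) * A ^ ((2 : ℝ) / 3) : ℝ) : ℂ) -
            ((A ^ ((1 : ℝ) / 3) : ℝ) : ℂ) * ∑ j, sy (δ j) u * ∑' d : Eis,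
              open Classical in if IsPrim d ∧ CF d then
                sy (δ j) d * (((nm d : ℝ) ^ (-(1 : ℝ) / 3) : ℝ) : ℂ) * th (v j * u * d) *
                  Ω j ((nm u : ℝ) / (A * nm d)) else 0‖ ≤
          C * (1 + Real.log Am) ^ 4 * (A / Am) ^ ((2 : ℝ) / 3) * (nm u : ℝ) ^ (-(1 : ℝ) / 3)

/-- the same with an arbitrary finite index type -/
def F1XSi (I : Type) [Fintype I] (v δ : I → Eis) (r : Eis) (κ : ℝ) : Prop :=
  (∀ j, SU (v j) ∧ SU (δ j)) ∧ ∀ (M A0 : ℕ) (s : ℝ), 0 < s → s ≤ 1 / 3 → ∃ C : ℝ, 0 ≤ C ∧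
    ∀ Am : ℝ, 1 ≤ Am → ∃ Ω : I → ℝ → ℂ, (∀ j, OmB' Am C M (Ω j)) ∧
      (∀ j, Mel s A0 (C * (1 + Real.log Am) ^ 4) (Ω j)) ∧
      (∀ j, Mel 3 A0 (C * (1 + Real.log Am) ^ 4 * Am ^ ((8 : ℝ) / 3)) (Ω j)) ∧
      ∀ (A : ℝ) (u : Eis), 0 < A → A ≤ Am → IsPrim u → Squarefree u →
        ‖X6A848.T (fun x => th (r * x)) (fun x => ((Real.exp (-x / A) : ℝ) : ℂ)) 1 u 1 -
            ((κ * (nm u : ℝ) ^ (-(1 : ℝ) / 3) * A ^ ((2 : ℝ) / 3) : ℝ) : ℂ) -
            ((A ^ ((1 : ℝ) / 3) : ℝ) : ℂ) * ∑ j, sy (δ j) u * ∑' d : Eis,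
              open Classical in if IsPrim d ∧ CF d then
                sy (δ j) d * (((nm d : ℝ) ^ (-(1 : ℝ) / 3) : ℝ) : ℂ) * th (v j * u * d) *
                  Ω j ((nm u : ℝ) / (A * nm d)) else 0‖ ≤
          C * (1 + Real.log Am) ^ 4 * (A / Am) ^ ((2 : ℝ) / 3) * (nm u : ℝ) ^ (-(1 : ℝ) / 3)

lemma F1XSi.toFin {I : Type} [Fintype I] {v δ : I → Eis} {r : Eis} {κ : ℝ}
    (h : F1XSi I v δ r κ) : F1XS r κ := by
  classical
  obtain ⟨h1, h2⟩ := h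
  set e := (Fintype.equivFin I).symm with he
  refine ⟨Fintype.card I, fun j => v (e j), fun j => δ (e j), fun j => h1 (e j),
    fun M A0 s hs hs3 => ?_⟩
  obtain ⟨C, hC0, hC⟩ := h2 M A0 s hs hs3
  refine ⟨C, hC0, fun Am hAm => ?_⟩
  obtain ⟨Ω, hΩ, hm1, hm2, hid⟩ := hC Am hAm
  refine ⟨fun j => Ω (e j), fun j => hΩ (e j), fun j => hm1 (e j), fun j => hm2 (e j),
    fun A u hA hAA hu hsq => ?_⟩
  have := hid A u hA hAA hu hsq
  rw [← Equiv.sum_comp e] at this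
  exact this

lemma mel_unif {J : U6 × Fin 3 → ℕ} (ω : (y : U6 × Fin 3) → Fin (J y) → (ℝ → ℂ) → ℝ → ℂ)
    (h : ∀ y, ∀ (s : ℝ) (A : ℕ), 0 < s → ∃ (k : ℕ) (C : ℝ), 0 ≤ C ∧ ∀ (F : ℝ → ℂ) (S : ℝ), TF1 F →
      Bd F k S → ∀ j : Fin (J y), Mel s A (C * S) (ω y j F)) (s : ℝ) (A : ℕ) (hs : 0 < s) :
    ∃ C : ℝ, 0 ≤ C ∧ ∀ y (j : Fin (J y)) (z : ℝ), 0 ≤ z →
      Mel s (A + 2) (C * ((1 + z) ^ 5)⁻¹) (ω y j (Fy z)) := by
  choose k C hC0 hC using fun y => h y s (A + 2) hs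
  choose C' hC0' hC' using fun y => bd_Fy (k y) 5
  refine ⟨∑ y, C y * C' y, Finset.sum_nonneg fun y _ => mul_nonneg (hC0 y) (hC0' y),
    fun y j z hz => ?_⟩
  have h := hC y (Fy z) _ (tf1_Fy z) (hC' y z hz) j
  have h3 : C y * C' y ≤ ∑ y, C y * C' y :=
    Finset.single_le_sum (f := fun y => C y * C' y)
      (fun y _ => mul_nonneg (hC0 y) (hC0' y)) (Finset.mem_univ y)
  refine h.mono ?_
  calc C y * (C' y * ((1 + z) ^ 5)⁻¹) = (C y * C' y) * ((1 + z) ^ 5)⁻¹ := by ring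
    _ ≤ _ := by gcongr

lemma g_small {s : ℝ} (hs : 0 ≤ s) (hs3 : s ≤ 1 / 3) (x : ℕ × ℤ) :
    (Real.exp x.2 / 3 ^ x.1) ^ (1 / 3 - s) ≤ 1 * (1 + Real.exp x.2) := by
  have hen : 0 < Real.exp x.2 := Real.exp_pos _
  have h3 : (1 : ℝ) ≤ 3 ^ x.1 := one_le_pow₀ (by norm_num)
  have h1 : Real.exp x.2 / 3 ^ x.1 ≤ 1 + Real.exp x.2 := (div_le_self hen.le h3).trans (by linarith)
  rw [one_mul]
  calc (Real.exp x.2 / 3 ^ x.1) ^ (1 / 3 - s) ≤ (1 + Real.exp x.2) ^ (1 / 3 - s) :=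
        Real.rpow_le_rpow (by positivity) h1 (by linarith)
    _ ≤ (1 + Real.exp x.2) ^ (1 : ℝ) :=
        Real.rpow_le_rpow_of_exponent_le (by linarith) (by linarith)
    _ = _ := Real.rpow_one _

lemma g_big {Am : ℝ} (hAm : 1 ≤ Am) {x : ℕ × ℤ} (hx : Pp Am x) :
    (Real.exp x.2 / 3 ^ x.1) ^ ((1 : ℝ) / 3 - 3) ≤
      (Real.exp 2 * Am) ^ ((8 : ℝ) / 3) * (1 + Real.exp x.2) := by
  have hen : 0 < Real.exp x.2 := Real.exp_pos _
  have hAm0 : 0 < Am := by linarith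
  have h2 : 0 < Real.exp 2 * Am := by positivity
  have h1 : (Real.exp 2 * Am)⁻¹ ≤ Real.exp x.2 / 3 ^ x.1 := by
    rw [inv_le_iff_one_le_mul₀ h2]
    unfold X6B848.Pp at hx
    have h11 : Real.exp (-2) ≤ Am * (Real.exp x.2 / 3 ^ x.1) := by
      rw [← mul_div_assoc, le_div_iff₀ (by positivity)]
      exact hx
    calc (1 : ℝ) = Real.exp 2 * Real.exp (-2) := by rw [← Real.exp_add]; simp
      _ ≤ Real.exp 2 * (Am * (Real.exp x.2 / 3 ^ x.1)) := by gcongr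
      _ = _ := by ring
  calc (Real.exp x.2 / 3 ^ x.1) ^ ((1 : ℝ) / 3 - 3) ≤ ((Real.exp 2 * Am)⁻¹) ^ ((1 : ℝ) / 3 - 3) :=
        Real.rpow_le_rpow_of_nonpos (by positivity) h1 (by norm_num)
    _ = (Real.exp 2 * Am) ^ ((8 : ℝ) / 3) := by
        rw [← Real.rpow_neg_one, ← Real.rpow_mul h2.le]
        norm_num
    _ ≤ _ := le_mul_of_one_le_right (by positivity) (by linarith)

/-- **the functional equation for all `l` and the exponential weight**, separated -/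
theorem F1XS_gen {v0 : Eis} (hv0 : IsUnit v0) (s0 : ℕ) :
    F1XS (v0 * lam ^ s0) (pC * (cR v0 s0 * c0)) := by
  classical
  have hr : SU (v0 * lam ^ s0) := SU_mul (SU_unit hv0) (SU_lam s0)
  set r := v0 * lam ^ s0 with hrdef
  choose J δ ω h1 h2 hml h3 using fun y : U6 × Fin 3 => xcM (SU_vv hr y)
  apply F1XSi.toFin (I := Σ y : U6 × Fin 3, Fin (J y)) (v := fun i => vv r i.1)
    (δ := fun i => δ i.1 i.2)
  refine ⟨fun i => ⟨SU_vv hr _, h1 _ _⟩, fun M A0 s hs hs3 => ?_⟩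
  set M' := max M 2 with hM'
  have hMM : M ≤ M' := le_max_left _ _
  have h2M : 2 ≤ M' := le_max_right _ _
  obtain ⟨C0, hC0, hω⟩ := om_unif ω h2 (M' + 1)
  obtain ⟨C1, hC1, htail⟩ := tail hr
  obtain ⟨Cm, hCm0, hCm⟩ := mel_unif ω hml s A0 hs
  obtain ⟨Cn, hCn0, hCn⟩ := mel_unif ω hml 3 A0 (by norm_num)
  have hQ : 0 ≤ ∑' x, qw x := tsum_nonneg fun x => (qw_pos x).le
  have hkap := kap0_pos
  set CX : ℝ := (Cm * 81 + Cn * Real.exp 2 ^ ((8 : ℝ) / 3) * 81) * ∑' x, qw x with hCX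
  have hCX0 : 0 ≤ CX := by positivity
  refine ⟨(C0 * (Real.exp 2 ^ M' * 81)) * ∑' x, qw x + kap0 * ((Fintype.card U6 : ℝ) * C1) + CX,
    by positivity, fun Am hAm => ?_⟩
  have hAm0 : 0 < Am := by linarith
  have hL : 0 ≤ Real.log Am := Real.log_nonneg hAm
  set K : ℝ := (C0 * (Real.exp 2 ^ M' * 81)) * (1 + Real.log Am) ^ 4 with hK
  have hK0 : 0 ≤ K := by positivity
  have htm : ∀ y (j : Fin (J y)) x t, 0 < t → ‖tm ω Am y j x t‖ ≤
      K * qw x * (min 1 (t ^ (1 / 3 : ℝ)) * min 1 ((Am * t) ^ M')) :=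
    fun y j x t ht => tm_bd ω hC0 hω hAm y j x ht
  have htm2 : ∀ y (j : Fin (J y)) x t, 0 < t → ‖tm ω Am y j x t‖ ≤
      K * qw x * min 1 ((Am * t) ^ M') := by
    intro y j x t ht
    have hq := qw_pos x
    have hm2 : 0 ≤ min 1 ((Am * t) ^ M') := le_min zero_le_one (by positivity)
    refine (htm y j x t ht).trans ?_
    have : min 1 (t ^ (1 / 3 : ℝ)) * min 1 ((Am * t) ^ M') ≤ 1 * min 1 ((Am * t) ^ M') :=
      mul_le_mul_of_nonneg_right (min_le_left _ _) hm2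
    rw [one_mul] at this
    gcongr
  refine ⟨fun i t => ∑' x, tm ω Am i.1 i.2 x t, fun i t ht => ?_, fun i => ?_, fun i => ?_,
    fun A u hA hAA hu hsq => ?_⟩
  · -- the bound of `Ω`
    have hm1 : 0 ≤ min 1 (t ^ (1 / 3 : ℝ)) := le_min zero_le_one (by positivity)
    have hm2 : 0 ≤ min 1 ((Am * t) ^ M) := le_min zero_le_one (by positivity)
    have hmono : min 1 ((Am * t) ^ M') ≤ min 1 ((Am * t) ^ M) := by
      have hAt : 0 < Am * t := by positivity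
      rcases le_total 1 (Am * t) with h | h
      · exact (min_le_left _ _).trans (le_min le_rfl (one_le_pow₀ h))
      · exact le_min (min_le_left _ _)
          ((min_le_right _ _).trans (pow_le_pow_of_le_one hAt.le h hMM))
    have hb : ∀ x, ‖tm ω Am i.1 i.2 x t‖ ≤
        (K * (min 1 (t ^ (1 / 3 : ℝ)) * min 1 ((Am * t) ^ M))) * qw x := by
      intro x
      have hq := qw_pos x
      calc _ ≤ K * qw x * (min 1 (t ^ (1 / 3 : ℝ)) * min 1 ((Am * t) ^ M')) := htm _ _ x t ht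
        _ ≤ K * qw x * (min 1 (t ^ (1 / 3 : ℝ)) * min 1 ((Am * t) ^ M)) := by gcongr
        _ = _ := by ring
    have h := tsum_of_norm_bounded (summable_qw.mul_left _).hasSum hb
    rw [tsum_mul_left] at h
    refine h.trans ?_
    have e : K * (min 1 (t ^ (1 / 3 : ℝ)) * min 1 ((Am * t) ^ M)) * ∑' x, qw x =
        ((C0 * (Real.exp 2 ^ M' * 81)) * ∑' x, qw x) * (1 + Real.log Am) ^ 4 *
          (min 1 (t ^ (1 / 3 : ℝ)) * min 1 ((Am * t) ^ M)) := by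
      rw [hK]; ring
    rw [e]
    gcongr
    rw [add_assoc]
    exact le_add_of_nonneg_right (by positivity)
  · -- Mellin, small exponent
    have h := mel_sum (s := s) (A := A0) (C := Cm) (G := 1) hCm0 zero_le_one hAm
      (fun x hx => g_small hs.le hs3 x) (fun x => Pp Am x ∧ rs x.1 = i.1.2) (fun x hx => hx.1)
      (fun x => ω i.1 i.2 (Fy (Real.exp x.2)))
      (fun x => hCm i.1 i.2 _ (Real.exp_pos _).le)
    refine (h.congr fun t => tsum_congr fun x => by unfold tm; split_ifs <;> rfl).mono ?_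
    have e : Cm * 1 * (81 * (1 + Real.log Am) ^ 4) * ∑' x, qw x =
        ((Cm * 81) * ∑' x, qw x) * (1 + Real.log Am) ^ 4 := by ring
    rw [e]
    gcongr
    have h5 : Cm * 81 * ∑' x, qw x ≤ CX := by
      rw [hCX]
      gcongr
      exact le_add_of_nonneg_right (by positivity)
    refine h5.trans (le_add_of_nonneg_left (by positivity))
  · -- Mellin, exponent 3
    have h := mel_sum (s := 3) (A := A0) (C := Cn) (G := (Real.exp 2 * Am) ^ ((8 : ℝ) / 3)) hCn0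
      (by positivity) hAm
      (fun x hx => g_big hAm hx) (fun x => Pp Am x ∧ rs x.1 = i.1.2) (fun x hx => hx.1)
      (fun x => ω i.1 i.2 (Fy (Real.exp x.2)))
      (fun x => hCn i.1 i.2 _ (Real.exp_pos _).le)
    refine (h.congr fun t => tsum_congr fun x => by unfold tm; split_ifs <;> rfl).mono ?_
    have e : Cn * (Real.exp 2 * Am) ^ ((8 : ℝ) / 3) * (81 * (1 + Real.log Am) ^ 4) * ∑' x, qw x =
        ((Cn * Real.exp 2 ^ ((8 : ℝ) / 3) * 81) * ∑' x, qw x) *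
          (1 + Real.log Am) ^ 4 * Am ^ ((8 : ℝ) / 3) := by
      rw [Real.mul_rpow (Real.exp_pos _).le hAm0.le]
      ring
    rw [e]
    gcongr
    have h5 : Cn * Real.exp 2 ^ ((8 : ℝ) / 3) * 81 * ∑' x, qw x ≤ CX := by
      rw [hCX]
      gcongr
      exact le_add_of_nonneg_left (by positivity)
    refine h5.trans (le_add_of_nonneg_left (by positivity))
  · -- the identity
    have hN : (0 : ℝ) < nm u := by exact_mod_cast nm_pos.2 hu.ne_zero
    have hY : 0 < (nm u : ℝ) / A := by positivity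
    obtain ⟨hsP, hT⟩ := T_decomp (SU_ne hr) hu.ne_zero hA
    obtain ⟨c, hc⟩ : ∃ c : (y : U6 × Fin 3) → Fin (J y) → Eis → ℂ, ∀ y j d, c y j d =
        if IsPrim d ∧ CF d then
          sy (δ y j) d * (((nm d : ℝ) ^ (-(1 : ℝ) / 3) : ℝ) : ℂ) * th (vv r y * u * d) else 0 :=
      ⟨_, fun _ _ _ => rfl⟩
    have hcle : ∀ y j d, ‖c y j d‖ ≤ 1 := by
      intro y j d
      rw [hc]
      split_ifs with hd
      · have hd1 : (1 : ℝ) ≤ nm d := by exact_mod_cast nm_pos.2 hd.1.ne_zero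
        rw [norm_mul, norm_mul, Complex.norm_real, Real.norm_of_nonneg (by positivity)]
        have a1 := Tau671.norm_sy_le (x := δ y j) hd.1
        have a2 : (nm d : ℝ) ^ (-(1 : ℝ) / 3) ≤ 1 :=
          Real.rpow_le_one_of_one_le_of_nonpos hd1 (by norm_num)
        have a3 := norm_th_le (mul_ne_zero (mul_ne_zero (SU_ne (SU_vv hr y)) hu.ne_zero) hd.1.ne_zero)
        calc _ ≤ (1 : ℝ) * 1 * 1 := by gcongr
          _ = 1 := by norm_num
      · rw [norm_zero]; exact zero_le_one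
    have hc0 : ∀ y j d, c y j d ≠ 0 → d ≠ 0 := by
      intro y j d h0 hd
      apply h0
      rw [hc, if_neg]
      rintro ⟨h4, -⟩
      exact h4.ne_zero hd
    have hfub := fun y j => fubini h2M hK0 hY hAm0 (f := tm ω Am y j) (c := c y j)
      (fun x t ht => htm2 y j x t ht) (hcle y j) (hc0 y j)
    have hblk := fun v x => block ω hu hc h3 hsq hA hAA v x
    -- the two parts
    set P : ℂ := ((kap0 * (nm u : ℝ) ^ (-(1 : ℝ) / 3) * A ^ ((2 : ℝ) / 3) : ℝ) : ℂ) with hP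
    set a13 : ℂ := ((A ^ ((1 : ℝ) / 3) : ℝ) : ℂ) with ha13
    have hs1 : ∀ v : U6, Summable fun x : ℕ × ℤ =>
        (if Pp Am x then ((ma r v x.1 : ℝ) : ℂ) * mb x.2 else 0) := by
      intro v
      refine Summable.of_norm_bounded (summable_mm hr v) fun x => ?_
      split_ifs
      · exact le_rfl
      · rw [norm_zero]; positivity
    have hs1' : ∀ v : U6, Summable fun x : ℕ × ℤ =>
        (if Pp Am x then 0 else ((ma r v x.1 : ℝ) : ℂ) * mb x.2) := by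
      intro v
      refine Summable.of_norm_bounded (summable_mm hr v) fun x => ?_
      split_ifs
      · rw [norm_zero]; positivity
      · exact le_rfl
    have hs2 : ∀ (v : U6) (s : Fin 3) (j : Fin (J (v, s))), Summable fun x : ℕ × ℤ =>
        sy (δ (v, s) j) u * ∑' d : Eis, c (v, s) j d * tm ω Am (v, s) j x ((nm u : ℝ) / A / nm d) :=
      fun v s j => (hfub (v, s) j).2.1.mul_left _
    have hs3 : ∀ (v : U6) (s : Fin 3), Summable fun x : ℕ × ℤ =>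
        ∑ j, sy (δ (v, s) j) u *
          ∑' d : Eis, c (v, s) j d * tm ω Am (v, s) j x ((nm u : ℝ) / A / nm d) :=
      fun v s => summable_sum fun j _ => hs2 v s j
    have hs4 : ∀ v : U6, Summable fun x : ℕ × ℤ => ∑ s : Fin 3, ∑ j, sy (δ (v, s) j) u *
          ∑' d : Eis, c (v, s) j d * tm ω Am (v, s) j x ((nm u : ℝ) / A / nm d) :=
      fun v => summable_sum fun s _ => hs3 v s
    have hT2 : X6A848.T (fun x => th (r * x)) (fun x => ((Real.exp (-x / A) : ℝ) : ℂ)) 1 u 1 =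
        P * (∑ v : U6, ∑' x : ℕ × ℤ, (if Pp Am x then ((ma r v x.1 : ℝ) : ℂ) * mb x.2 else 0)) +
        a13 * ∑ v : U6, ∑ s : Fin 3, ∑ j, sy (δ (v, s) j) u * ∑' d : Eis,
          c (v, s) j d * ∑' x, tm ω Am (v, s) j x ((nm u : ℝ) / A / nm d) := by
      rw [hT, Finset.mul_sum, Finset.mul_sum, ← Finset.sum_add_distrib]
      refine Finset.sum_congr rfl fun v _ => ?_
      rw [tsum_congr fun x => hblk v x, ((hs1 v).mul_left P).tsum_add ((hs4 v).mul_left a13),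
        tsum_mul_left, tsum_mul_left]
      congr 2
      rw [Summable.tsum_finsetSum fun s _ => hs3 v s]
      refine Finset.sum_congr rfl fun s _ => ?_
      rw [Summable.tsum_finsetSum fun j _ => hs2 v s j]
      refine Finset.sum_congr rfl fun j _ => ?_
      rw [tsum_mul_left, (hfub (v, s) j).2.2]
    -- the dual side in the wanted form
    have hD : ∑ v : U6, ∑ s : Fin 3, ∑ j, sy (δ (v, s) j) u * ∑' d : Eis,
          c (v, s) j d * ∑' x, tm ω Am (v, s) j x ((nm u : ℝ) / A / nm d) =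
        ∑ i : Σ y : U6 × Fin 3, Fin (J y), sy (δ i.1 i.2) u * ∑' d : Eis,
          (if IsPrim d ∧ CF d then
            sy (δ i.1 i.2) d * (((nm d : ℝ) ^ (-(1 : ℝ) / 3) : ℝ) : ℂ) * th (vv r i.1 * u * d) *
              (∑' x, tm ω Am i.1 i.2 x ((nm u : ℝ) / (A * nm d))) else 0) := by
      rw [Fintype.sum_sigma, Fintype.sum_prod_type]
      refine Finset.sum_congr rfl fun v _ => Finset.sum_congr rfl fun s _ =>
        Finset.sum_congr rfl fun j _ => ?_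
      congr 1
      refine tsum_congr fun d => ?_
      rw [hc, div_div]
      split_ifs
      · rfl
      · rw [zero_mul]
    -- the main term
    have hM1 : ((pC * (cR v0 s0 * c0) * (nm u : ℝ) ^ (-(1 : ℝ) / 3) * A ^ ((2 : ℝ) / 3) : ℝ) : ℂ) =
        P * ∑ v : U6, ∑' x : ℕ × ℤ, ((ma r v x.1 : ℝ) : ℂ) * mb x.2 := by
      have e1 : ∑ v : U6, ∑' x : ℕ × ℤ, ((ma r v x.1 : ℝ) : ℂ) * mb x.2 =
          ((cR v0 s0 * Real.Gamma (2 / 3) : ℝ) : ℂ) := by
        rw [← sum_ma hv0 s0 hr, Finset.sum_mul, Complex.ofReal_sum]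
        exact Finset.sum_congr rfl fun v _ => tsum_mm hr v
      rw [e1, hP, ← Complex.ofReal_mul]
      congr 1
      have := kap0_Gamma
      linear_combination (-(cR v0 s0) * (nm u : ℝ) ^ (-(1 : ℝ) / 3) * A ^ ((2 : ℝ) / 3)) * this
    have hM2 : ∀ v : U6, ∑' x : ℕ × ℤ, ((ma r v x.1 : ℝ) : ℂ) * mb x.2 =
        ∑' x : ℕ × ℤ, (if Pp Am x then ((ma r v x.1 : ℝ) : ℂ) * mb x.2 else 0) +
        ∑' x : ℕ × ℤ, (if Pp Am x then 0 else ((ma r v x.1 : ℝ) : ℂ) * mb x.2) := by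
      intro v
      rw [← (hs1 v).tsum_add (hs1' v)]
      refine tsum_congr fun x => ?_
      split_ifs <;> ring
    have hE : X6A848.T (fun x => th (r * x)) (fun x => ((Real.exp (-x / A) : ℝ) : ℂ)) 1 u 1 -
        ((pC * (cR v0 s0 * c0) * (nm u : ℝ) ^ (-(1 : ℝ) / 3) * A ^ ((2 : ℝ) / 3) : ℝ) : ℂ) -
        a13 * ∑ i : Σ y : U6 × Fin 3, Fin (J y), sy (δ i.1 i.2) u * ∑' d : Eis,
          (if IsPrim d ∧ CF d then
            sy (δ i.1 i.2) d * (((nm d : ℝ) ^ (-(1 : ℝ) / 3) : ℝ) : ℂ) * th (vv r i.1 * u * d) *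
              (∑' x, tm ω Am i.1 i.2 x ((nm u : ℝ) / (A * nm d))) else 0) =
        -(P * ∑ v : U6, ∑' x : ℕ × ℤ,
          (if Pp Am x then 0 else ((ma r v x.1 : ℝ) : ℂ) * mb x.2)) := by
      rw [hT2, hD, hM1, Finset.sum_congr rfl fun v _ => hM2 v, Finset.sum_add_distrib]
      ring
    have hgoal : ‖X6A848.T (fun x => th (r * x)) (fun x => ((Real.exp (-x / A) : ℝ) : ℂ)) 1 u 1 -
        ((pC * (cR v0 s0 * c0) * (nm u : ℝ) ^ (-(1 : ℝ) / 3) * A ^ ((2 : ℝ) / 3) : ℝ) : ℂ) -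
        a13 * ∑ i : Σ y : U6 × Fin 3, Fin (J y), sy (δ i.1 i.2) u * ∑' d : Eis,
          (if IsPrim d ∧ CF d then
            sy (δ i.1 i.2) d * (((nm d : ℝ) ^ (-(1 : ℝ) / 3) : ℝ) : ℂ) * th (vv r i.1 * u * d) *
              (∑' x, tm ω Am i.1 i.2 x ((nm u : ℝ) / (A * nm d))) else 0)‖ ≤
        ((C0 * (Real.exp 2 ^ M' * 81)) * ∑' x, qw x + kap0 * ((Fintype.card U6 : ℝ) * C1) + CX) *
          (1 + Real.log Am) ^ 4 * (A / Am) ^ ((2 : ℝ) / 3) * (nm u : ℝ) ^ (-(1 : ℝ) / 3) := by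
      rw [hE, norm_neg, norm_mul]
      have hPn : ‖P‖ = kap0 * (nm u : ℝ) ^ (-(1 : ℝ) / 3) * A ^ ((2 : ℝ) / 3) := by
        rw [hP, Complex.norm_real, Real.norm_of_nonneg (by positivity)]
      have hsum : ‖∑ v : U6, ∑' x : ℕ × ℤ,
          (if Pp Am x then 0 else ((ma r v x.1 : ℝ) : ℂ) * mb x.2)‖ ≤
          (Fintype.card U6 : ℝ) * (C1 * (1 + Real.log Am) ^ 4 * Am ^ (-(2 / 3) : ℝ)) := by
        refine (norm_sum_le _ _).trans ?_
        have : ∀ v ∈ (Finset.univ : Finset U6), ‖∑' x : ℕ × ℤ,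
            (if Pp Am x then 0 else ((ma r v x.1 : ℝ) : ℂ) * mb x.2)‖ ≤
            C1 * (1 + Real.log Am) ^ 4 * Am ^ (-(2 / 3) : ℝ) := by
          intro v _
          have hsn := (hs1' v).norm
          refine (norm_tsum_le_tsum_norm hsn).trans ((le_of_eq ?_).trans (htail Am hAm v))
          refine tsum_congr fun x => ?_
          split_ifs
          · rw [norm_zero]
          · rfl
        refine (Finset.sum_le_sum this).trans (le_of_eq ?_)
        rw [Finset.sum_const, nsmul_eq_mul, Finset.card_univ]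
      have hdiv : (A / Am) ^ ((2 : ℝ) / 3) = A ^ ((2 : ℝ) / 3) * Am ^ (-(2 / 3) : ℝ) := by
        rw [Real.div_rpow hA.le hAm0.le, Real.rpow_neg hAm0.le, div_eq_mul_inv]
      rw [hPn, hdiv]
      have hAn : 0 ≤ Am ^ (-(2 / 3) : ℝ) := by positivity
      have hu13 : 0 ≤ (nm u : ℝ) ^ (-(1 : ℝ) / 3) := by positivity
      have hA23 : 0 ≤ A ^ ((2 : ℝ) / 3) := by positivity
      calc kap0 * (nm u : ℝ) ^ (-(1 : ℝ) / 3) * A ^ ((2 : ℝ) / 3) * ‖∑ v : U6, ∑' x : ℕ × ℤ,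
            (if Pp Am x then 0 else ((ma r v x.1 : ℝ) : ℂ) * mb x.2)‖
          ≤ kap0 * (nm u : ℝ) ^ (-(1 : ℝ) / 3) * A ^ ((2 : ℝ) / 3) *
            ((Fintype.card U6 : ℝ) * (C1 * (1 + Real.log Am) ^ 4 * Am ^ (-(2 / 3) : ℝ))) := by gcongr
        _ = (kap0 * ((Fintype.card U6 : ℝ) * C1)) * (1 + Real.log Am) ^ 4 *
            (A ^ ((2 : ℝ) / 3) * Am ^ (-(2 / 3) : ℝ)) * (nm u : ℝ) ^ (-(1 : ℝ) / 3) := by ring
        _ ≤ _ := by
            gcongr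
            rw [add_assoc]
            refine le_add_of_nonneg_of_le (by positivity) ?_
            exact le_add_of_nonneg_right hCX0
    exact hgoal


/-- **`r = 1`** -/
theorem F1XS1 : F1XS 1 (pC * (3 * c0)) := by
  have h := F1XS_gen (v0 := 1) isUnit_one 0
  rw [pow_zero, mul_one, P3all283.cR_one] at h
  exact h

end Crest.Agent.R017.X6W180
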