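import Crest.Agent.R017.X6Asm_545
import Crest.Agent.R012.LS2Main_381
import Crest.Agent.R012.LatW_413

/-!
# Row 17, exceptional class, X6 (E), dual part, 1 (helper545): second moments of `TT`

`hsd` : `∑ x ∈ S L, ‖TT w X d δ q (v x)‖² ≤ C (X L)^ε (B + W²) (N^(4/3) L^(2/3) + N^(2/3) Z^(2/3) + L N^(2/3))`
for all `L ≥ 1` (`N = X / nm d / nm δ`), from `HS` and the cubic large sieve.
-/

set_option autoImplicit false

noncomputable section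

open scoped ComplexConjugate

namespace Crest.Agent.R017.X6545

open Crest.Agent.R012 Crest.Agent.R012.Eis Crest.Agent.R012.Gauss880
open Crest.Agent.R012.LS2 Crest.Agent.R012.Div277
open Crest.Agent.R017.PA842 (Supp)
open Crest.Agent.R017.PX764 (th n6 Gh Cross cD)

/-- `HS` for one `q` -/
def HSq (w : Eis → ℂ) (X Z : ℝ) (d q : Eis) (B : ℝ) : Prop :=
  ∀ δ v : Eis, δ ∈ S X → SU v → ∀ L : ℝ, 1 ≤ L → Z ≤ L * (X / nm d / nm δ) →
    L * L ≤ X / nm d / nm δ →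
    ∑ x ∈ S L, ‖TT w X d δ q (v * x)‖ ^ 2 ≤ B * (X / nm d / nm δ) ^ ((4 : ℝ) / 3) * L ^ ((2 : ℝ) / 3)

/-- `HS` with a loss `N(q)^κ` (for sides where `(m, q) = 1` has to be opened) -/
def HSk (w : Eis → ℂ) (X Z : ℝ) (d : Eis) (B κ : ℝ) : Prop :=
  ∀ q : Eis, q ≠ 0 → HSq w X Z d q (B * (nm q : ℝ) ^ κ)

lemma HSk_of_HS {w : Eis → ℂ} {X Z : ℝ} {d : Eis} {B κ : ℝ} (hX : 0 ≤ X) (hB : 0 ≤ B) (hκ : 0 ≤ κ)
    (h : HS w X Z d B) : HSk w X Z d B κ := by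
  intro q hq δ v hδ hv L hL h1 h2
  refine (h δ q v hδ hq hv L hL h1 h2).trans ?_
  have h3 : (1 : ℝ) ≤ (nm q : ℝ) ^ κ := Real.one_le_rpow (by exact_mod_cast nm_pos.2 hq) hκ
  have h4 : B ≤ B * (nm q : ℝ) ^ κ := le_mul_of_one_le_right hB h3
  have h5 : 0 ≤ X / nm d / nm δ := by positivity
  gcongr

/-! ### power sums -/

/-- the constant `∑ N(z)^(-1-ε)` -/
def Ks (ε : ℝ) : ℝ := ∑' z : Eis, (nm z : ℝ) ^ (-(1 + ε))

lemma Ks_nonneg (ε : ℝ) : 0 ≤ Ks ε := tsum_nonneg fun _ => by positivity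

lemma nm1 {x : Eis} (hx : x ≠ 0) : (1 : ℝ) ≤ nm x := by exact_mod_cast nm_pos.2 hx

lemma nm0 {x : Eis} (hx : x ≠ 0) : (0 : ℝ) < nm x := by exact_mod_cast nm_pos.2 hx

/-- `∑ N(z)^s ≤ Ks X^(1+s+ε)` over any set of nonzero `z` with `N(z) ≤ X`, if `-1 ≤ s` -/
lemma sum_pow_le {ε s : ℝ} (hε : 0 < ε) (hs : -1 ≤ s) {X : ℝ} (hX : 0 ≤ X) (T : Finset Eis)
    (hT : ∀ z ∈ T, z ≠ 0 ∧ (nm z : ℝ) ≤ X) :
    ∑ z ∈ T, (nm z : ℝ) ^ s ≤ Ks ε * X ^ (1 + s + ε) := by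
  have hsm : Summable fun z : Eis => (nm z : ℝ) ^ (-(1 + ε)) :=
    LatSum413.summable_nm_rpow (by linarith)
  have h1 : ∀ z ∈ T, (nm z : ℝ) ^ s ≤ (nm z : ℝ) ^ (-(1 + ε)) * X ^ (1 + s + ε) := by
    intro z hz
    obtain ⟨h0, h1⟩ := hT z hz
    have hp := nm0 h0
    have e : (nm z : ℝ) ^ s = (nm z : ℝ) ^ (-(1 + ε)) * (nm z : ℝ) ^ (1 + s + ε) := by
      rw [← Real.rpow_add hp]; congr 1; ring
    rw [e]
    have : 0 ≤ 1 + s + ε := by linarith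
    gcongr
  refine (Finset.sum_le_sum h1).trans ?_
  rw [← Finset.sum_mul]
  exact mul_le_mul_of_nonneg_right (hsm.sum_le_tsum _ fun _ _ => by positivity) (by positivity)

lemma sum_pow_S {ε s : ℝ} (hε : 0 < ε) (hs : -1 ≤ s) {X : ℝ} (hX : 0 ≤ X) :
    ∑ z ∈ S X, (nm z : ℝ) ^ s ≤ Ks ε * X ^ (1 + s + ε) :=
  sum_pow_le hε hs hX _ fun _ hz => ⟨((mem_S hX).1 hz).2.1.ne_zero, ((mem_S hX).1 hz).1⟩

/-! ### the structured sums as character sums -/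

lemma norm_sy_le {x m : Eis} (hm : IsPrim m) : ‖sy x m‖ ≤ 1 := by
  by_cases h : IsCoprime x m
  · exact (PX764.norm_sy_one hm h).le
  · rw [(syG.eq_zero x m hm).mpr h, norm_zero]; exact zero_le_one

lemma norm_G_le {m : Eis} (hm : IsPrim m) : ‖G m‖ ≤ 1 := by
  by_cases h : Squarefree m
  · exact (PX764.norm_G_one hm h).le
  · rw [G_eq_zero syG hm h, norm_zero]; exact zero_le_one

open Classical in
/-- the coefficients of `conj (TT (v x))` in `sy x m` -/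
def cT (w : Eis → ℂ) (d δ q v m : Eis) : ℂ :=
  if IsCoprime m q then conj (w (d * δ * m)) * (n6 m : ℂ) * (conj (G m) * sy v m) else 0

lemma norm_cT_le {w : Eis → ℂ} {W : ℝ} (hW : 0 ≤ W) (hw : ∀ n, ‖w n‖ ≤ W) (d δ q v : Eis) {m : Eis}
    (hm : IsPrim m) : ‖cT w d δ q v m‖ ≤ W * n6 m := by
  have hn := (PX764.n6_pos hm.ne_zero).le
  unfold cT
  split_ifs
  · rw [norm_mul, norm_mul, norm_mul, RCLike.norm_conj, RCLike.norm_conj, Complex.norm_real,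
      Real.norm_of_nonneg hn]
    calc ‖w (d * δ * m)‖ * n6 m * (‖G m‖ * ‖sy v m‖) ≤ W * n6 m * (1 * 1) := by
          have h1 := hw (d * δ * m)
          have h2 := norm_G_le hm
          have h3 := norm_sy_le (x := v) hm
          gcongr
      _ = _ := by ring
  · rw [norm_zero]; positivity

lemma nm_le_of_mem {w : Eis → ℂ} {X : ℝ} (hX : 0 ≤ X) (hw : Supp w X) {d δ m : Eis} (hd : IsPrim d)
    (hδ : IsPrim δ) (h : w (d * δ * m) ≠ 0) : (nm m : ℝ) ≤ X / nm d / nm δ ∧ m ∈ S X := by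
  obtain ⟨h1, h2, h3⟩ := (mem_S hX).1 (hw _ h)
  have hd1 := nm1 hd.ne_zero
  have hδ1 := nm1 hδ.ne_zero
  have hm0 : (0 : ℝ) ≤ nm m := Nat.cast_nonneg _
  rw [nm_mul, nm_mul] at h1
  push_cast at h1
  have h4 : (nm m : ℝ) ≤ X / nm d / nm δ := by
    rw [div_div, le_div_iff₀ (by positivity)]
    linarith [h1, mul_comm (nm m : ℝ) ((nm d : ℝ) * nm δ)]
  refine ⟨h4, ?_⟩
  rw [mem_S hX]
  have h5 : X / nm d / nm δ ≤ X := by
    rw [div_div]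
    exact div_le_self hX (one_le_mul_of_one_le_of_one_le hd1 hδ1)
  exact ⟨h4.trans h5, IsPrim.of_mul_left h2 (hd.mul hδ), h3.of_mul_right⟩

lemma Gh_mul_left {v x m : Eis} (hm : IsPrim m) :
    Gh (v * x) m = G m * conj (sy v m) * conj (sy x m) := by
  unfold PX764.Gh
  rw [syG.mul_left v x m hm, map_mul]; ring

/-- the structured sum as a character sum over `S (X / nm d / nm δ)` -/
lemma TT_eq {w : Eis → ℂ} {X : ℝ} (hX : 0 ≤ X) (hw : Supp w X) {d δ : Eis} (hd : IsPrim d)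
    (hδ : IsPrim δ) (q v x : Eis) :
    TT w X d δ q (v * x) = conj (∑ m ∈ S (X / nm d / nm δ), cT w d δ q v m * sy x m) := by
  classical
  have hN : 0 ≤ X / nm d / nm δ := by positivity
  have hsub : S (X / nm d / nm δ) ⊆ S X := by
    intro m hm
    rw [mem_S hN] at hm
    rw [mem_S hX]
    refine ⟨hm.1.trans ?_, hm.2⟩
    rw [div_div]
    exact div_le_self hX (one_le_mul_of_one_le_of_one_le (nm1 hd.ne_zero) (nm1 hδ.ne_zero))
  unfold TT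
  rw [← Finset.sum_subset hsub]
  · rw [map_sum]
    refine Finset.sum_congr rfl fun m hm => ?_
    have hmp := ((mem_S hN).1 hm).2.1
    unfold cT
    by_cases hc : IsCoprime m q
    · rw [if_pos hc, if_pos hc, Gh_mul_left hmp]
      simp only [map_mul, Complex.conj_conj, Complex.conj_ofReal]
      ring
    · rw [if_neg hc, if_neg hc]; simp
  · intro m _ hm
    have h0 : w (d * δ * m) = 0 := by
      by_contra h
      obtain ⟨h1, h2⟩ := nm_le_of_mem hX hw hd hδ h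
      have h3 := (mem_S hX).1 h2
      exact hm ((mem_S hN).2 ⟨h1, h3.2⟩)
    rw [h0]
    split_ifs <;> simp

/-- the large sieve bound for `TT` -/
theorem ls_TT {ε : ℝ} (hε : 0 < ε) : ∃ C : ℝ, 0 ≤ C ∧ ∀ X W : ℝ, 1 ≤ X → 0 ≤ W → ∀ w : Eis → ℂ,
    Supp w X → (∀ n, ‖w n‖ ≤ W) → ∀ d δ q v : Eis, IsPrim d → IsPrim δ → ∀ L : ℝ, 1 ≤ L →
      ∑ x ∈ S L, ‖TT w X d δ q (v * x)‖ ^ 2 ≤ C * (X * L) ^ ε * W ^ 2 *
        ((X / nm d / nm δ) ^ ((2 : ℝ) / 3) * L + (X / nm d / nm δ) ^ ((5 : ℝ) / 3) +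
          (X / nm d / nm δ) ^ ((4 : ℝ) / 3) * L ^ ((2 : ℝ) / 3)) := by
  obtain ⟨C, hC, hb⟩ := hb_final (ε / 2) (by linarith)
  refine ⟨C * Ks (ε / 2), by have := Ks_nonneg (ε / 2); positivity, ?_⟩
  intro X W hX hW w hw hwW d δ q v hd hδ L hL
  have hX0 : (0 : ℝ) ≤ X := by linarith
  set N := X / nm d / nm δ with hN
  have hN0 : 0 ≤ N := by positivity
  have hNX : N ≤ X := by
    rw [hN, div_div]
    exact div_le_self hX0 (one_le_mul_of_one_le_of_one_le (nm1 hd.ne_zero) (nm1 hδ.ne_zero))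
  have hK := Ks_nonneg (ε / 2)
  rcases lt_or_ge N 1 with hN1 | hN1
  · have h0 : ∀ x ∈ S L, ‖TT w X d δ q (v * x)‖ ^ 2 = 0 := by
      intro x _
      rw [TT_eq hX0 hw hd hδ, ← hN, RCLike.norm_conj]
      have : S N = ∅ := by
        ext m
        rw [mem_S hN0]
        constructor
        · rintro ⟨h1, h2, _⟩
          have := nm1 h2.ne_zero
          linarith
        · intro h; simp at h
      rw [this]; simp
    rw [Finset.sum_congr rfl h0, Finset.sum_const_zero]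
    positivity
  · have h1 := hb L N hL hN1 (cT w d δ q v)
    have h2 : ∑ x ∈ S L, ‖TT w X d δ q (v * x)‖ ^ 2 =
        ∑ x ∈ S L, ‖∑ m ∈ S N, cT w d δ q v m * sy x m‖ ^ 2 := by
      refine Finset.sum_congr rfl fun x _ => ?_
      rw [TT_eq hX0 hw hd hδ, RCLike.norm_conj]
    have h3 : ∑ m ∈ S N, ‖cT w d δ q v m‖ ^ 2 ≤ W ^ 2 * (Ks (ε / 2) * N ^ ((2 : ℝ) / 3 + ε / 2)) := by
      have e1 : (2 : ℝ) / 3 + ε / 2 = 1 + -(1 / 3) + ε / 2 := by ring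
      rw [e1]
      refine le_trans ?_ (mul_le_mul_of_nonneg_left (sum_pow_S (ε := ε / 2) (s := -(1 / 3))
        (by linarith) (by norm_num) hN0) (by positivity))
      rw [Finset.mul_sum]
      refine Finset.sum_le_sum fun m hm => ?_
      have hmp := ((mem_S hN0).1 hm).2.1
      have h4 := norm_cT_le hW hwW d δ q v hmp
      have h5 : (W * n6 m) ^ 2 = W ^ 2 * (nm m : ℝ) ^ (-(1 / 3) : ℝ) := by
        unfold PX764.n6
        rw [mul_pow, ← Real.rpow_natCast ((nm m : ℝ) ^ (-(1 : ℝ) / 6)), ← Real.rpow_mul (by positivity)]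
        congr 2
        norm_num
      rw [← h5]
      exact pow_le_pow_left₀ (norm_nonneg _) h4 2
    rw [h2]
    refine h1.trans ?_
    have hL0 : (0 : ℝ) < L := by linarith
    have hNp : (0 : ℝ) < N := by linarith
    calc C * (L * N) ^ (ε / 2) * (L + N + (L * N) ^ ((2 : ℝ) / 3)) * ∑ m ∈ S N, ‖cT w d δ q v m‖ ^ 2
        ≤ C * (L * N) ^ (ε / 2) * (L + N + (L * N) ^ ((2 : ℝ) / 3)) *
          (W ^ 2 * (Ks (ε / 2) * N ^ ((2 : ℝ) / 3 + ε / 2))) := by gcongr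
      _ = C * Ks (ε / 2) * ((L * N) ^ (ε / 2) * N ^ (ε / 2)) * W ^ 2 *
          (N ^ ((2 : ℝ) / 3) * (L + N + (L * N) ^ ((2 : ℝ) / 3))) := by
        rw [Real.rpow_add hNp]; ring
      _ ≤ C * Ks (ε / 2) * ((X * L) ^ ε) * W ^ 2 *
          (N ^ ((2 : ℝ) / 3) * L + N ^ ((5 : ℝ) / 3) + N ^ ((4 : ℝ) / 3) * L ^ ((2 : ℝ) / 3)) := by
        have e2 : (L * N) ^ (ε / 2) * N ^ (ε / 2) ≤ (X * L) ^ ε := by
          have e3 : (X * L) ^ ε = (X * L) ^ (ε / 2) * (X * L) ^ (ε / 2) := by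
            rw [← Real.rpow_add (by positivity)]; congr 1; ring
          rw [e3]
          have h6 : L * N ≤ X * L := by nlinarith
          have h7 : N ≤ X * L := by nlinarith
          gcongr
        have e4 : N ^ ((2 : ℝ) / 3) * (L + N + (L * N) ^ ((2 : ℝ) / 3)) =
            N ^ ((2 : ℝ) / 3) * L + N ^ ((5 : ℝ) / 3) + N ^ ((4 : ℝ) / 3) * L ^ ((2 : ℝ) / 3) := by
          have e5 : N ^ ((2 : ℝ) / 3) * N = N ^ ((5 : ℝ) / 3) := by
            nth_rewrite 2 [← Real.rpow_one N]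
            rw [← Real.rpow_add hNp]; norm_num
          have e6 : N ^ ((2 : ℝ) / 3) * N ^ ((2 : ℝ) / 3) = N ^ ((4 : ℝ) / 3) := by
            rw [← Real.rpow_add hNp]; norm_num
          rw [Real.mul_rpow hL0.le hN0, mul_add, mul_add, e5, ← e6]; ring
        rw [e4]
        gcongr

set_option maxHeartbeats 1600000 in
/-- **the second moment for every length** -/
theorem hsd {ε : ℝ} (hε : 0 < ε) : ∃ C : ℝ, 0 ≤ C ∧ ∀ X Z W B : ℝ, 1 ≤ X → 1 ≤ Z → 0 ≤ W → 0 ≤ B →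
    ∀ w : Eis → ℂ, Supp w X → (∀ n, ‖w n‖ ≤ W) → ∀ d δ q v : Eis, IsPrim d → IsPrim δ →
      SU v → HSq w X Z d q B → ∀ L : ℝ, 1 ≤ L →
      ∑ x ∈ S L, ‖TT w X d δ q (v * x)‖ ^ 2 ≤ C * (X * L) ^ ε * (B + W ^ 2) *
        ((X / nm d / nm δ) ^ ((4 : ℝ) / 3) * L ^ ((2 : ℝ) / 3) +
          (X / nm d / nm δ) ^ ((2 : ℝ) / 3) * Z ^ ((2 : ℝ) / 3) +
          (X / nm d / nm δ) ^ ((2 : ℝ) / 3) * L) := by
  obtain ⟨C, hC, hb⟩ := ls_TT hε
  refine ⟨2 * C + 1, by positivity, ?_⟩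
  intro X Z W B hX hZ hW hB w hw hwW d δ q v hd hδ hv hHS L hL
  have hX0 : (0 : ℝ) ≤ X := by linarith
  have hLS := hb X W hX hW w hw hwW d δ q v hd hδ L hL
  set N := X / nm d / nm δ with hN
  have hN0 : 0 ≤ N := by positivity
  have hL0 : (0 : ℝ) < L := by linarith
  have hZ0 : (0 : ℝ) < Z := by linarith
  have hXL : 1 ≤ (X * L) ^ ε := Real.one_le_rpow (by nlinarith) hε.le
  by_cases hδS : δ ∈ S X
  swap
  · -- `TT = 0`
    have h0 : ∀ x ∈ S L, ‖TT w X d δ q (v * x)‖ ^ 2 = 0 := by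
      intro x _
      have : TT w X d δ q (v * x) = 0 := by
        unfold TT
        refine Finset.sum_eq_zero fun m _ => ?_
        have hz : w (d * δ * m) = 0 := by
          by_contra h
          obtain ⟨h1, h2, h3⟩ := (mem_S hX0).1 (hw _ h)
          apply hδS
          rw [mem_S hX0]
          have hd1 := nm1 hd.ne_zero
          have hmne : m ≠ 0 := by
            rintro rfl
            rw [mul_zero] at h2
            exact h2.ne_zero rfl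
          have hm1 := nm1 hmne
          have hδ1 := nm1 hδ.ne_zero
          rw [nm_mul, nm_mul] at h1
          push_cast at h1
          refine ⟨?_, hδ, h3.of_mul_left.of_mul_right⟩
          have : (nm δ : ℝ) ≤ nm d * nm δ * nm m := by
            calc (nm δ : ℝ) = 1 * nm δ * 1 := by ring
              _ ≤ nm d * nm δ * nm m := by gcongr
          linarith
        rw [hz]; split_ifs <;> simp
      rw [this]; simp
    rw [Finset.sum_congr rfl h0, Finset.sum_const_zero]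
    positivity
  rcases lt_or_ge N 1 with hN1 | hN1
  · have e1 : N ^ ((5 : ℝ) / 3) ≤ N ^ ((2 : ℝ) / 3) * L := by
      have : N ^ ((5 : ℝ) / 3) ≤ N ^ ((2 : ℝ) / 3) :=
        Real.rpow_le_rpow_of_exponent_ge_of_imp hN0 hN1.le (by norm_num) (by norm_num)
      nlinarith [Real.rpow_nonneg hN0 ((2 : ℝ) / 3)]
    refine hLS.trans ?_
    calc C * (X * L) ^ ε * W ^ 2 * (N ^ ((2 : ℝ) / 3) * L + N ^ ((5 : ℝ) / 3) +
          N ^ ((4 : ℝ) / 3) * L ^ ((2 : ℝ) / 3))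
        ≤ C * (X * L) ^ ε * (B + W ^ 2) * (N ^ ((2 : ℝ) / 3) * L + N ^ ((2 : ℝ) / 3) * L +
          N ^ ((4 : ℝ) / 3) * L ^ ((2 : ℝ) / 3)) := by
          gcongr
          linarith
      _ ≤ (2 * C + 1) * (X * L) ^ ε * (B + W ^ 2) * (N ^ ((4 : ℝ) / 3) * L ^ ((2 : ℝ) / 3) +
          N ^ ((2 : ℝ) / 3) * Z ^ ((2 : ℝ) / 3) + N ^ ((2 : ℝ) / 3) * L) := by
          have a1 : 0 ≤ N ^ ((4 : ℝ) / 3) * L ^ ((2 : ℝ) / 3) := by positivity
          have a2 : 0 ≤ N ^ ((2 : ℝ) / 3) * Z ^ ((2 : ℝ) / 3) := by positivity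
          have a3 : 0 ≤ N ^ ((2 : ℝ) / 3) * L := by positivity
          have a4 : 0 ≤ (X * L) ^ ε * (B + W ^ 2) := by positivity
          have : C * (N ^ ((2 : ℝ) / 3) * L + N ^ ((2 : ℝ) / 3) * L +
              N ^ ((4 : ℝ) / 3) * L ^ ((2 : ℝ) / 3)) ≤ (2 * C + 1) *
              (N ^ ((4 : ℝ) / 3) * L ^ ((2 : ℝ) / 3) +
              N ^ ((2 : ℝ) / 3) * Z ^ ((2 : ℝ) / 3) + N ^ ((2 : ℝ) / 3) * L) := by
            nlinarith [mul_nonneg hC a1, mul_nonneg hC a2, mul_nonneg hC a3]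
          calc C * (X * L) ^ ε * (B + W ^ 2) * (N ^ ((2 : ℝ) / 3) * L + N ^ ((2 : ℝ) / 3) * L +
                N ^ ((4 : ℝ) / 3) * L ^ ((2 : ℝ) / 3)) = ((X * L) ^ ε * (B + W ^ 2)) *
                (C * (N ^ ((2 : ℝ) / 3) * L + N ^ ((2 : ℝ) / 3) * L +
                N ^ ((4 : ℝ) / 3) * L ^ ((2 : ℝ) / 3))) := by ring
            _ ≤ ((X * L) ^ ε * (B + W ^ 2)) * _ := mul_le_mul_of_nonneg_left this a4
            _ = _ := by ring
  have hNp : (0 : ℝ) < N := by linarith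
  -- the large sieve is enough as soon as `N^(5/3)` is absorbed
  have key : ∀ Q : ℝ, 0 ≤ Q → N ^ ((5 : ℝ) / 3) ≤ Q →
      ∑ x ∈ S L, ‖TT w X d δ q (v * x)‖ ^ 2 ≤ C * (X * L) ^ ε * (B + W ^ 2) *
        (N ^ ((4 : ℝ) / 3) * L ^ ((2 : ℝ) / 3) + Q + N ^ ((2 : ℝ) / 3) * L) := by
    intro Q hQ h
    refine hLS.trans ?_
    calc C * (X * L) ^ ε * W ^ 2 * (N ^ ((2 : ℝ) / 3) * L + N ^ ((5 : ℝ) / 3) +
          N ^ ((4 : ℝ) / 3) * L ^ ((2 : ℝ) / 3))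
        ≤ C * (X * L) ^ ε * (B + W ^ 2) * (N ^ ((2 : ℝ) / 3) * L + Q +
          N ^ ((4 : ℝ) / 3) * L ^ ((2 : ℝ) / 3)) := by
          gcongr
          linarith
      _ = _ := by ring
  have a1 : 0 ≤ N ^ ((4 : ℝ) / 3) * L ^ ((2 : ℝ) / 3) := by positivity
  have a2 : 0 ≤ N ^ ((2 : ℝ) / 3) * Z ^ ((2 : ℝ) / 3) := by positivity
  have a3 : 0 ≤ N ^ ((2 : ℝ) / 3) * L := by positivity
  have a4 : 0 ≤ (X * L) ^ ε * (B + W ^ 2) := by positivity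
  -- from a bound `B * (...)`
  have key2 : ∀ Q : ℝ, 0 ≤ Q → Q ≤ N ^ ((4 : ℝ) / 3) * L ^ ((2 : ℝ) / 3) +
      N ^ ((2 : ℝ) / 3) * Z ^ ((2 : ℝ) / 3) →
      ∑ x ∈ S L, ‖TT w X d δ q (v * x)‖ ^ 2 ≤ B * Q →
      ∑ x ∈ S L, ‖TT w X d δ q (v * x)‖ ^ 2 ≤ (2 * C + 1) * (X * L) ^ ε * (B + W ^ 2) *
        (N ^ ((4 : ℝ) / 3) * L ^ ((2 : ℝ) / 3) + N ^ ((2 : ℝ) / 3) * Z ^ ((2 : ℝ) / 3) +
          N ^ ((2 : ℝ) / 3) * L) := by
    intro Q hQ h h'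
    refine h'.trans ?_
    have b1 : B ≤ (2 * C + 1) * (X * L) ^ ε * (B + W ^ 2) := by
      have : B ≤ 1 * 1 * (B + W ^ 2) := by nlinarith [sq_nonneg W]
      refine this.trans ?_
      gcongr
      linarith
    calc B * Q ≤ (2 * C + 1) * (X * L) ^ ε * (B + W ^ 2) * (N ^ ((4 : ℝ) / 3) * L ^ ((2 : ℝ) / 3) +
          N ^ ((2 : ℝ) / 3) * Z ^ ((2 : ℝ) / 3)) := by gcongr
      _ ≤ _ := by
        have : 0 ≤ (2 * C + 1) * (X * L) ^ ε * (B + W ^ 2) := by positivity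
        nlinarith [mul_nonneg this a3]
  rcases le_or_gt N (L * L) with h1 | h1
  · -- `N ≤ L²`
    have h2 : N ^ ((5 : ℝ) / 3) ≤ N ^ ((4 : ℝ) / 3) * L ^ ((2 : ℝ) / 3) := by
      have e1 : N ^ ((5 : ℝ) / 3) = N ^ ((4 : ℝ) / 3) * N ^ ((1 : ℝ) / 3) := by
        rw [← Real.rpow_add hNp]; norm_num
      have e2 : L ^ ((2 : ℝ) / 3) = (L * L) ^ ((1 : ℝ) / 3) := by
        rw [← pow_two, ← Real.rpow_natCast, ← Real.rpow_mul hL0.le]; norm_num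
      rw [e1, e2]
      gcongr
    refine (key _ a1 h2).trans ?_
    have : C * (X * L) ^ ε * (B + W ^ 2) * (N ^ ((4 : ℝ) / 3) * L ^ ((2 : ℝ) / 3) +
        N ^ ((4 : ℝ) / 3) * L ^ ((2 : ℝ) / 3) + N ^ ((2 : ℝ) / 3) * L) =
        ((X * L) ^ ε * (B + W ^ 2)) * (C * (N ^ ((4 : ℝ) / 3) * L ^ ((2 : ℝ) / 3) +
        N ^ ((4 : ℝ) / 3) * L ^ ((2 : ℝ) / 3) + N ^ ((2 : ℝ) / 3) * L)) := by ring
    rw [this]
    have h3 : C * (N ^ ((4 : ℝ) / 3) * L ^ ((2 : ℝ) / 3) +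
        N ^ ((4 : ℝ) / 3) * L ^ ((2 : ℝ) / 3) + N ^ ((2 : ℝ) / 3) * L) ≤ (2 * C + 1) *
        (N ^ ((4 : ℝ) / 3) * L ^ ((2 : ℝ) / 3) + N ^ ((2 : ℝ) / 3) * Z ^ ((2 : ℝ) / 3) +
          N ^ ((2 : ℝ) / 3) * L) := by
      nlinarith [mul_nonneg hC a1, mul_nonneg hC a2, mul_nonneg hC a3]
    calc _ ≤ ((X * L) ^ ε * (B + W ^ 2)) * _ := mul_le_mul_of_nonneg_left h3 a4
      _ = _ := by ring
  rcases le_or_gt Z (L * N) with h2 | h2
  · have h3 := hHS δ v hδS hv L hL h2 h1.le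
    rw [← hN] at h3
    refine key2 (N ^ ((4 : ℝ) / 3) * L ^ ((2 : ℝ) / 3)) a1 (by linarith) ?_
    rw [← mul_assoc]
    exact h3
  -- `L N < Z`
  set L' := Z / N with hL'
  have hLL' : L < L' := by rw [hL', lt_div_iff₀ hNp]; exact h2
  have hL'1 : 1 ≤ L' := by linarith
  have hL'N : L' * N = Z := by rw [hL']; field_simp
  rcases le_or_gt (L' * L') N with h3 | h3
  · have h4 := hHS δ v hδS hv L' hL'1 (by rw [← hN, hL'N]) h3
    rw [← hN] at h4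
    have h5 : ∑ x ∈ S L, ‖TT w X d δ q (v * x)‖ ^ 2 ≤ ∑ x ∈ S L', ‖TT w X d δ q (v * x)‖ ^ 2 := by
      refine Finset.sum_le_sum_of_subset_of_nonneg ?_ (fun _ _ _ => by positivity)
      intro x hx
      rw [mem_S (by linarith)] at hx ⊢
      exact ⟨hx.1.trans hLL'.le, hx.2⟩
    have h6 : N ^ ((4 : ℝ) / 3) * L' ^ ((2 : ℝ) / 3) = N ^ ((2 : ℝ) / 3) * Z ^ ((2 : ℝ) / 3) := by
      rw [← hL'N, Real.mul_rpow (by linarith) hN0]
      have : N ^ ((4 : ℝ) / 3) = N ^ ((2 : ℝ) / 3) * N ^ ((2 : ℝ) / 3) := by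
        rw [← Real.rpow_add hNp]; norm_num
      rw [this]; ring
    refine key2 (N ^ ((2 : ℝ) / 3) * Z ^ ((2 : ℝ) / 3)) a2 (by linarith) ?_
    rw [← h6, ← mul_assoc]
    exact h5.trans h4
  · have h4 : N ^ ((5 : ℝ) / 3) ≤ N ^ ((2 : ℝ) / 3) * Z ^ ((2 : ℝ) / 3) := by
      -- `N < L'^2`, `L' N = Z`: `N^3 < Z^2`
      have h5 : N ^ 3 ≤ Z ^ 2 := by
        have : N * N ^ 2 ≤ (L' * L') * N ^ 2 := by gcongr
        calc N ^ 3 = N * N ^ 2 := by ring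
          _ ≤ (L' * L') * N ^ 2 := this
          _ = (L' * N) ^ 2 := by ring
          _ = Z ^ 2 := by rw [hL'N]
      have h6 : N ≤ Z ^ ((2 : ℝ) / 3) := by
        have e1 : N = (N ^ 3) ^ ((1 : ℝ) / 3) := by
          rw [← Real.rpow_natCast, ← Real.rpow_mul hN0]; norm_num
        have e2 : Z ^ ((2 : ℝ) / 3) = (Z ^ 2) ^ ((1 : ℝ) / 3) := by
          rw [← Real.rpow_natCast, ← Real.rpow_mul hZ0.le]; norm_num
        rw [e1, e2]
        gcongr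
      have e3 : N ^ ((5 : ℝ) / 3) = N ^ ((2 : ℝ) / 3) * N := by
        nth_rewrite 3 [← Real.rpow_one N]
        rw [← Real.rpow_add hNp]; norm_num
      rw [e3]
      gcongr
    refine (key _ a2 h4).trans ?_
    set T := (X * L) ^ ε * (B + W ^ 2) * (N ^ ((4 : ℝ) / 3) * L ^ ((2 : ℝ) / 3) +
        N ^ ((2 : ℝ) / 3) * Z ^ ((2 : ℝ) / 3) + N ^ ((2 : ℝ) / 3) * L) with hT
    have hT0 : 0 ≤ T := by positivity
    have e1 : C * (X * L) ^ ε * (B + W ^ 2) * (N ^ ((4 : ℝ) / 3) * L ^ ((2 : ℝ) / 3) +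
        N ^ ((2 : ℝ) / 3) * Z ^ ((2 : ℝ) / 3) + N ^ ((2 : ℝ) / 3) * L) = C * T := by rw [hT]; ring
    have e2 : (2 * C + 1) * (X * L) ^ ε * (B + W ^ 2) * (N ^ ((4 : ℝ) / 3) * L ^ ((2 : ℝ) / 3) +
        N ^ ((2 : ℝ) / 3) * Z ^ ((2 : ℝ) / 3) + N ^ ((2 : ℝ) / 3) * L) = (2 * C + 1) * T := by
      rw [hT]; ring
    rw [e1, e2]
    exact mul_le_mul_of_nonneg_right (by linarith) hT0

end Crest.Agent.R017.X6545
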