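import Crest.Agent.R017.X6G1_545
import Crest.Agent.R017.X6C2_180

/-!
# Row 17, exceptional class, X6 (E), dual part, 2 (helper545): sums over all frequencies

`xs` : `∑_{x ≠ 0} τ(x) Gw D E (N x) |th x| |TT (v x)| ≤ C X^η (1+E)^(4η) √(B+W²) Br`,
`Br = N^(2/3) D^(1/3) + N^(1/3) Z^(1/3) + D^(1/3) E^(1/6) N^(1/3)`
-/

set_option autoImplicit false

noncomputable section

open scoped ComplexConjugate

namespace Crest.Agent.R017.X6545

open Crest.Agent.R012 Crest.Agent.R012.Eis Crest.Agent.R012.Gauss880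
open Crest.Agent.R012.LS2 Crest.Agent.R012.Div277
open Crest.Agent.R017.PA842 (Supp)
open Crest.Agent.R017.PX764 (th n6 Gh Cross cD)
open Crest.Agent.R017.P3all283 (U6)

/-! ### generalities -/

lemma tsum_cover {α ι : Type*} (F : α → ENNReal) (g : ι → ENNReal) (φ : ι → α)
    (h : ∀ x, F x ≠ 0 → ∃ i, φ i = x ∧ F x ≤ g i) : ∑' x, F x ≤ ∑' i, g i := by
  classical
  have h' : ∀ x : Function.support F, ∃ i, φ i = x ∧ F x ≤ g i := fun x => h x x.2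
  choose s hs using h'
  have e1 : ∑' x, F x = ∑' x : Function.support F, F x :=
    (tsum_subtype_eq_of_support_subset subset_rfl).symm
  rw [e1]
  have hinj : Function.Injective s := by
    intro x y hxy
    apply Subtype.ext
    rw [← (hs x).1, ← (hs y).1, hxy]
  calc ∑' x : Function.support F, F x ≤ ∑' x : Function.support F, g (s x) :=
        ENNReal.tsum_le_tsum fun x => (hs x).2
    _ ≤ _ := ENNReal.tsum_comp_le_tsum_of_injective hinj g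

/-- from `ENNReal` back to `ℝ` -/
lemma tsum_le_of_ofReal {α : Type*} {f : α → ℝ} (hf : ∀ x, 0 ≤ f x) {b : ℝ} (hb : 0 ≤ b)
    (h : ∑' x, ENNReal.ofReal (f x) ≤ ENNReal.ofReal b) : Summable f ∧ ∑' x, f x ≤ b := by
  have hne : ∑' x, ENNReal.ofReal (f x) ≠ ⊤ := (h.trans_lt ENNReal.ofReal_lt_top).ne
  have hs : Summable f := by
    have := ENNReal.summable_toReal hne
    refine this.congr fun x => ?_
    rw [ENNReal.toReal_ofReal (hf x)]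
  refine ⟨hs, ?_⟩
  rw [← ENNReal.ofReal_tsum_of_nonneg hf hs] at h
  exact (ENNReal.ofReal_le_ofReal_iff hb).1 h

/-! ### the arithmetic of the frequencies -/

lemma cop_unit {k : ℕ} {u c : Eis} (hu : IsUnit u) (hc : IsPrim c) : IsCoprime (lam ^ k * u) c := by
  have h1 : IsCoprime lam c := by
    rw [prime_lam.irreducible.coprime_iff_not_dvd]
    exact hc.not_lam_dvd
  have h2 : IsCoprime u c := by
    obtain ⟨v, rfl⟩ := hu
    exact ⟨((v⁻¹ : Eisˣ) : Eis), 0, by simp⟩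
  exact h1.pow_left.mul_left h2

/-- a primary element without primary square prime divisors is squarefree -/
lemma sqf_of {c : Eis} (hc : IsPrim c) (h : ∀ p, Prime p → IsPrim p → ¬ p ^ 2 ∣ c) :
    Squarefree c := by
  intro y hy
  by_contra hu
  have hyl : ¬ lam ∣ y := fun h' => hc.not_lam_dvd ((h'.trans (dvd_mul_right y y)).trans hy)
  have h1 : prim y ≠ 1 := by
    intro h1
    have := prim_associated y
    rw [h1] at this
    exact hu (associated_one_iff_isUnit.mp this)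
  obtain ⟨p, hp, hpp, hpy⟩ := exists_prim_prime_dvd (prim_isPrim hyl) h1
  have h2 : p ∣ y := hpy.trans (prim_associated y).symm.dvd
  exact h p hp hpp (by rw [pow_two]; exact (mul_dvd_mul h2 h2).trans hy)

/-- the frequencies with `th x ≠ 0` -/
lemma th_decomp {x : Eis} (hx : x ≠ 0) (ht : th x ≠ 0) : ∃ (k : ℕ) (u c e : Eis),
    IsUnit u ∧ IsPrim c ∧ Squarefree c ∧ IsPrim e ∧ x = (lam ^ k * u) * c * e ^ 3 := by
  obtain ⟨k, u, m, hu, hm, rfl⟩ := CharSum852.exists_decomp hx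
  obtain ⟨c, e, hc, he, hcf, rfl⟩ := X6C180.exists_cf _ m le_rfl hm
  refine ⟨k, u, c, e, hu, hc, ?_, he, by ring⟩
  refine sqf_of hc fun p hp hpp hd => ht ?_
  obtain ⟨c', rfl⟩ := hd
  have h1 : ¬ p ∣ c' := by
    rintro ⟨t, rfl⟩
    exact hcf p hp hpp ⟨t, by ring⟩
  have h2 : ¬ p ∣ lam ^ k * u * c' := by
    intro h
    rcases hp.dvd_or_dvd h with h | h
    · exact hp.not_isUnit ((cop_unit (k := k) hu hpp).symm.isUnit_of_dvd' dvd_rfl h)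
    · exact h1 h
  have e1 : lam ^ k * (u * (p ^ 2 * c' * e ^ 3)) = (lam ^ k * u * c') * p ^ 2 * e ^ 3 := by ring
  rw [e1, PX764.th_cube he, PX764.th_two hp hpp h2]

lemma norm_Gh_le {h a : Eis} (ha : IsPrim a) : ‖Gh h a‖ ≤ 1 := X6D502.norm_Gh_le ha

lemma norm_th_c {k : ℕ} {u c e : Eis} (hu : IsUnit u) (hc : IsPrim c) (hs : Squarefree c)
    (he : IsPrim e) : ‖th ((lam ^ k * u) * c * e ^ 3)‖ ≤ n6 c := by
  have h0 : lam ^ k * u ≠ 0 := mul_ne_zero (pow_ne_zero _ lam_ne_zero) hu.ne_zero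
  have hn := (PX764.n6_pos hc.ne_zero).le
  rw [PX764.th_cube he, PX764.th_mul hc hs (cop_unit hu hc), norm_mul, norm_mul, RCLike.norm_conj,
    Complex.norm_real, Real.norm_of_nonneg hn]
  calc ‖Gh (lam ^ k * u) c‖ * n6 c * ‖th (lam ^ k * u)‖ ≤ 1 * n6 c * 1 := by
        have h1 := norm_Gh_le (h := lam ^ k * u) hc
        have h2 := P3all283.norm_th_le h0
        gcongr
    _ = _ := by ring

/-- cubes in the frequency of `TT` -/
lemma TT_cube {w : Eis → ℂ} {X : ℝ} (hX : 0 ≤ X) (d δ q x : Eis) {e : Eis} :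
    TT w X d δ q (x * e ^ 3) = TT w X d δ (q * e) x := by
  classical
  unfold TT
  refine Finset.sum_congr rfl fun m hm => ?_
  have hmp := ((mem_S hX).1 hm).2.1
  by_cases h1 : IsCoprime m q
  · by_cases h2 : IsCoprime m e
    · rw [if_pos h1, if_pos (h1.mul_right h2)]
      unfold PX764.Gh
      rw [PX764.sy_cube_left hmp x h2.symm]
    · rw [if_pos h1, if_neg (fun h => h2 h.of_mul_right_right)]
      have h3 : ¬ IsCoprime (x * e ^ 3) m := by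
        intro h
        apply h2
        have h4 : IsCoprime (e ^ 3) m := h.of_mul_left_right
        exact ((IsCoprime.pow_left_iff (by norm_num)).mp h4).symm
      rw [PX764.Gh_zero hmp h3, mul_zero]
  · rw [if_neg h1, if_neg (fun h => h1 h.of_mul_right_left)]

/-! ### the weights -/

/-- the weight -/
def Gw (D E x : ℝ) : ℝ :=
  x ^ (-(1 : ℝ) / 3) * (min 1 ((D / x) ^ ((1 : ℝ) / 3)) * min 1 ((E / x) ^ 2))

lemma Gw_nonneg {D E x : ℝ} (hD : 0 ≤ D) (hx : 0 ≤ x) : 0 ≤ Gw D E x := by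
  unfold Gw
  have h1 : 0 ≤ min 1 ((D / x) ^ ((1 : ℝ) / 3)) := le_min zero_le_one (by positivity)
  have h2 : 0 ≤ min 1 ((E / x) ^ 2) := le_min zero_le_one (by positivity)
  positivity

lemma min_pow_le {E t a : ℝ} (hE : 0 ≤ E) (ht : 1 ≤ t) (ha : 0 ≤ a) (ha1 : a ≤ 1) :
    min 1 (E / t) ≤ (1 + E) ^ a * t ^ (-a) := by
  have ht0 : 0 < t := by linarith
  have e : (1 + E) ^ a * t ^ (-a) = ((1 + E) / t) ^ a := by
    rw [Real.div_rpow (by linarith) ht0.le, Real.rpow_neg ht0.le]; ring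
  rw [e]
  rcases le_or_gt t (1 + E) with h | h
  · refine (min_le_left _ _).trans (Real.one_le_rpow ?_ ha)
    rwa [one_le_div ht0]
  · have h1 : (1 + E) / t ≤ 1 := by rw [div_le_one ht0]; exact h.le
    have h2 : (0 : ℝ) < (1 + E) / t := by positivity
    calc min 1 (E / t) ≤ E / t := min_le_right _ _
      _ ≤ (1 + E) / t := by gcongr; linarith
      _ = ((1 + E) / t) ^ (1 : ℝ) := (Real.rpow_one _).symm
      _ ≤ _ := Real.rpow_le_rpow_of_exponent_ge h2 h1 ha1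

lemma min_sixth_le {E t : ℝ} (hE : 0 ≤ E) (ht : 0 < t) :
    min 1 (E / t) ≤ (E / t) ^ ((1 : ℝ) / 6) := by
  have h0 : 0 ≤ E / t := by positivity
  rcases le_or_gt 1 (E / t) with h | h
  · exact (min_le_left _ _).trans (Real.one_le_rpow h (by norm_num))
  · refine (min_le_right _ _).trans ?_
    rcases h0.eq_or_lt with h1 | h1
    · rw [← h1, Real.zero_rpow (by norm_num)]
    · calc E / t = (E / t) ^ (1 : ℝ) := (Real.rpow_one _).symm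
        _ ≤ _ := Real.rpow_le_rpow_of_exponent_ge h1 h.le (by norm_num)

lemma min_sq {y : ℝ} (hy : 0 ≤ y) : min 1 (y ^ 2) = min 1 y * min 1 y := by
  rcases le_or_gt y 1 with h | h
  · rw [min_eq_right h, min_eq_right (by nlinarith)]; ring
  · rw [min_eq_left h.le, min_eq_left (by nlinarith)]; ring

/-- the bracket -/
def Br (N Z D E : ℝ) : ℝ :=
  N ^ ((2 : ℝ) / 3) * D ^ ((1 : ℝ) / 3) + N ^ ((1 : ℝ) / 3) * Z ^ ((1 : ℝ) / 3) +
    D ^ ((1 : ℝ) / 3) * E ^ ((1 : ℝ) / 6) * N ^ ((1 : ℝ) / 3)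

lemma Br_nonneg {N Z D E : ℝ} (hN : 0 ≤ N) (hZ : 0 ≤ Z) (hD : 0 ≤ D) (hE : 0 ≤ E) :
    0 ≤ Br N Z D E := by
  unfold Br; positivity

/-- the elementary inequality behind the dyadic blocks -/
lemma block_aux {N Z D E s Y : ℝ} (hN : 0 ≤ N) (hZ : 0 ≤ Z) (hD : 0 ≤ D) (hE : 0 ≤ E)
    (hs : 1 ≤ s) (hY : 1 ≤ Y) :
    min 1 ((D / (s * Y)) ^ ((1 : ℝ) / 3)) * min 1 ((E / (s * Y)) ^ 2) *
      (N ^ ((2 : ℝ) / 3) * Y ^ ((1 : ℝ) / 3) + N ^ ((1 : ℝ) / 3) * Z ^ ((1 : ℝ) / 3) +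
        N ^ ((1 : ℝ) / 3) * Y ^ ((1 : ℝ) / 2)) ≤ min 1 (E / (s * Y)) * Br N Z D E := by
  have hs0 : 0 < s := by linarith
  have hY0 : 0 < Y := by linarith
  have ht : 0 < s * Y := by positivity
  set m1 := min 1 ((D / (s * Y)) ^ ((1 : ℝ) / 3)) with hm1
  set m := min 1 (E / (s * Y)) with hm
  have hm0 : 0 ≤ m := le_min zero_le_one (by positivity)
  have hm1' : m ≤ 1 := min_le_left _ _
  have hm10 : 0 ≤ m1 := le_min zero_le_one (by positivity)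
  have hm11 : m1 ≤ 1 := min_le_left _ _
  have hm6 : m ≤ (E / (s * Y)) ^ ((1 : ℝ) / 6) := min_sixth_le hE ht
  have hm13 : m1 ≤ (D / (s * Y)) ^ ((1 : ℝ) / 3) := min_le_right _ _
  rw [min_sq (by positivity), ← hm]
  have a1 : m1 * (N ^ ((2 : ℝ) / 3) * Y ^ ((1 : ℝ) / 3)) ≤ N ^ ((2 : ℝ) / 3) * D ^ ((1 : ℝ) / 3) := by
    calc m1 * (N ^ ((2 : ℝ) / 3) * Y ^ ((1 : ℝ) / 3))
        ≤ (D / (s * Y)) ^ ((1 : ℝ) / 3) * (N ^ ((2 : ℝ) / 3) * Y ^ ((1 : ℝ) / 3)) := by gcongr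
      _ = N ^ ((2 : ℝ) / 3) * (D / s) ^ ((1 : ℝ) / 3) := by
          rw [show D / (s * Y) = (D / s) / Y by field_simp, Real.div_rpow (by positivity) hY0.le]
          have : Y ^ ((1 : ℝ) / 3) ≠ 0 := by positivity
          field_simp
      _ ≤ N ^ ((2 : ℝ) / 3) * D ^ ((1 : ℝ) / 3) := by
          have : D / s ≤ D := div_le_self hD hs
          gcongr
  have a2 : m1 * (m * (N ^ ((1 : ℝ) / 3) * Y ^ ((1 : ℝ) / 2))) ≤
      D ^ ((1 : ℝ) / 3) * E ^ ((1 : ℝ) / 6) * N ^ ((1 : ℝ) / 3) := by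
    calc m1 * (m * (N ^ ((1 : ℝ) / 3) * Y ^ ((1 : ℝ) / 2)))
        ≤ (D / (s * Y)) ^ ((1 : ℝ) / 3) * ((E / (s * Y)) ^ ((1 : ℝ) / 6) *
          (N ^ ((1 : ℝ) / 3) * Y ^ ((1 : ℝ) / 2))) := by gcongr
      _ = (D / s) ^ ((1 : ℝ) / 3) * (E / s) ^ ((1 : ℝ) / 6) * N ^ ((1 : ℝ) / 3) := by
          rw [show D / (s * Y) = (D / s) / Y by field_simp,
            show E / (s * Y) = (E / s) / Y by field_simp,
            Real.div_rpow (by positivity) hY0.le, Real.div_rpow (by positivity) hY0.le]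
          have e1 : Y ^ ((1 : ℝ) / 2) = Y ^ ((1 : ℝ) / 3) * Y ^ ((1 : ℝ) / 6) := by
            rw [← Real.rpow_add hY0]; norm_num
          rw [e1]
          have h1 : Y ^ ((1 : ℝ) / 3) ≠ 0 := by positivity
          have h2 : Y ^ ((1 : ℝ) / 6) ≠ 0 := by positivity
          field_simp
      _ ≤ _ := by
          have h1 : D / s ≤ D := div_le_self hD hs
          have h2 : E / s ≤ E := div_le_self hE hs
          gcongr
  have a3 : m1 * (N ^ ((1 : ℝ) / 3) * Z ^ ((1 : ℝ) / 3)) ≤ N ^ ((1 : ℝ) / 3) * Z ^ ((1 : ℝ) / 3) :=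
    mul_le_of_le_one_left (by positivity) hm11
  have a1' : m * (m * (m1 * (N ^ ((2 : ℝ) / 3) * Y ^ ((1 : ℝ) / 3)))) ≤
      m * (N ^ ((2 : ℝ) / 3) * D ^ ((1 : ℝ) / 3)) := by
    refine mul_le_mul_of_nonneg_left ?_ hm0
    exact (mul_le_of_le_one_left (by positivity) hm1').trans a1
  have a3' : m * (m * (m1 * (N ^ ((1 : ℝ) / 3) * Z ^ ((1 : ℝ) / 3)))) ≤
      m * (N ^ ((1 : ℝ) / 3) * Z ^ ((1 : ℝ) / 3)) := by
    refine mul_le_mul_of_nonneg_left ?_ hm0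
    exact (mul_le_of_le_one_left (by positivity) hm1').trans a3
  have a2' := mul_le_mul_of_nonneg_left a2 hm0
  unfold Br
  calc m1 * (m * m) * (N ^ ((2 : ℝ) / 3) * Y ^ ((1 : ℝ) / 3) + N ^ ((1 : ℝ) / 3) * Z ^ ((1 : ℝ) / 3) +
        N ^ ((1 : ℝ) / 3) * Y ^ ((1 : ℝ) / 2))
      = m * (m * (m1 * (N ^ ((2 : ℝ) / 3) * Y ^ ((1 : ℝ) / 3)))) +
        m * (m * (m1 * (N ^ ((1 : ℝ) / 3) * Z ^ ((1 : ℝ) / 3)))) +
        m * (m1 * (m * (N ^ ((1 : ℝ) / 3) * Y ^ ((1 : ℝ) / 2)))) := by ring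
    _ ≤ m * (N ^ ((2 : ℝ) / 3) * D ^ ((1 : ℝ) / 3)) + m * (N ^ ((1 : ℝ) / 3) * Z ^ ((1 : ℝ) / 3)) +
        m * (D ^ ((1 : ℝ) / 3) * E ^ ((1 : ℝ) / 6) * N ^ ((1 : ℝ) / 3)) := by linarith
    _ = _ := by ring

/-! ### one dyadic block -/

/-- squarefree primary `c` with `2^i ≤ N(c) ≤ 2^(i+1)` -/
def blk (i : ℕ) : Finset Eis := by
  classical
  exact (S ((2 : ℝ) ^ (i + 1))).filter (fun c => (2 : ℝ) ^ i ≤ nm c)

lemma mem_blk {i : ℕ} {c : Eis} : c ∈ blk i ↔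
    (2 : ℝ) ^ i ≤ nm c ∧ (nm c : ℝ) ≤ 2 ^ (i + 1) ∧ IsPrim c ∧ Squarefree c := by
  unfold blk
  rw [Finset.mem_filter, mem_S (by positivity)]
  tauto

lemma exists_blk {c : Eis} (hc : IsPrim c) (hs : Squarefree c) : ∃ i, c ∈ blk i := by
  have h0 : nm c ≠ 0 := (nm_pos.2 hc.ne_zero).ne'
  refine ⟨Nat.log 2 (nm c), ?_⟩
  rw [mem_blk]
  refine ⟨?_, ?_, hc, hs⟩
  · exact_mod_cast Nat.pow_log_le_self 2 h0
  · exact_mod_cast (Nat.lt_pow_succ_log_self (by norm_num) (nm c)).le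

lemma sqrt_three_le {a b c : ℝ} (ha : 0 ≤ a) (hb : 0 ≤ b) (hc : 0 ≤ c) :
    Real.sqrt (a ^ 2 + b ^ 2 + c ^ 2) ≤ a + b + c := by
  rw [Real.sqrt_le_left (by positivity)]
  nlinarith [mul_nonneg ha hb, mul_nonneg hb hc, mul_nonneg ha hc]

set_option maxHeartbeats 1600000 in
lemma blk_sum {η : ℝ} (hη : 0 < η) (hη1 : η ≤ 1 / 8) : ∃ C : ℝ, 0 ≤ C ∧ ∀ X Z W B : ℝ, 1 ≤ X →
    1 ≤ Z → 0 ≤ W → 0 ≤ B → ∀ w : Eis → ℂ, Supp w X → (∀ n, ‖w n‖ ≤ W) →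
    ∀ d δ q v : Eis, IsPrim d → IsPrim δ → SU v → HSq w X Z d q B →
    ∀ D E s : ℝ, 0 ≤ D → 0 ≤ E → 1 ≤ s → ∀ i : ℕ,
      ∑ c ∈ blk i, (s * nm c) ^ η * (Gw D E (s * nm c) * (n6 c * ‖TT w X d δ q (v * c)‖)) ≤
        C * X ^ η * (1 + E) ^ (4 * η) * Real.sqrt (B + W ^ 2) * Br (X / nm d / nm δ) Z D E *
          (s ^ (-(1 / 3 + 2 * η)) * ((2 : ℝ) ^ i) ^ (-(2 * η))) := by
  obtain ⟨Ch, hCh, hh⟩ := hsd (ε := 2 * η) (by linarith)
  refine ⟨64 * Real.sqrt Ch, by positivity, ?_⟩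
  intro X Z W B hX hZ hW hB w hw hwW d δ q v hd hδ hv hHS D E s hD hE hs i
  set Y : ℝ := (2 : ℝ) ^ i with hY
  have hY1 : 1 ≤ Y := one_le_pow₀ (by norm_num)
  have hY2 : (2 : ℝ) ^ (i + 1) = 2 * Y := by rw [pow_succ, hY]; ring
  have hY0 : 0 < Y := by linarith
  have hs0 : 0 < s := by linarith
  have hX0 : 0 < X := by linarith
  set N := X / nm d / nm δ with hN
  have hN0 : 0 ≤ N := by positivity
  have hZ0 : 0 ≤ Z := by linarith
  set t : ℝ := s * Y with ht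
  have ht1 : 1 ≤ t := by nlinarith
  have ht0 : 0 < t := by linarith
  set m1 := min 1 ((D / t) ^ ((1 : ℝ) / 3)) with hm1
  set m2 := min 1 ((E / t) ^ 2) with hm2
  have hm10 : 0 ≤ m1 := le_min zero_le_one (by positivity)
  have hm20 : 0 ≤ m2 := le_min zero_le_one (by positivity)
  -- pointwise
  have hpt : ∀ c ∈ blk i, (s * nm c) ^ η * (Gw D E (s * nm c) *
      (n6 c * ‖TT w X d δ q (v * c)‖)) ≤
      ((2 * t) ^ η * (t ^ (-(1 : ℝ) / 3) * (m1 * m2)) * Y ^ (-(1 : ℝ) / 6)) *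
        ‖TT w X d δ q (v * c)‖ := by
    intro c hc
    obtain ⟨h1, h2, h3, _⟩ := mem_blk.1 hc
    rw [← hY] at h1
    rw [hY2] at h2
    have hc0 := nm0 h3.ne_zero
    have ht' : t ≤ s * nm c := by rw [ht]; gcongr
    have ht2 : s * nm c ≤ 2 * t := by rw [ht]; nlinarith
    have hn6 := (PX764.n6_pos h3.ne_zero).le
    have b1 : (s * nm c) ^ η ≤ (2 * t) ^ η := by gcongr
    have b2 : Gw D E (s * nm c) ≤ t ^ (-(1 : ℝ) / 3) * (m1 * m2) := by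
      unfold Gw
      have c1 : (s * (nm c : ℝ)) ^ (-(1 : ℝ) / 3) ≤ t ^ (-(1 : ℝ) / 3) :=
        Real.rpow_le_rpow_of_nonpos ht0 ht' (by norm_num)
      have c2 : min 1 ((D / (s * (nm c : ℝ))) ^ ((1 : ℝ) / 3)) ≤ m1 := by
        refine min_le_min le_rfl ?_
        gcongr
      have c3 : min 1 ((E / (s * (nm c : ℝ))) ^ 2) ≤ m2 := by
        refine min_le_min le_rfl ?_
        gcongr
      have c4 : 0 ≤ min 1 ((D / (s * (nm c : ℝ))) ^ ((1 : ℝ) / 3)) :=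
        le_min zero_le_one (by positivity)
      have c5 : 0 ≤ min 1 ((E / (s * (nm c : ℝ))) ^ 2) := le_min zero_le_one (by positivity)
      gcongr
    have b3 : n6 c ≤ Y ^ (-(1 : ℝ) / 6) := by
      unfold PX764.n6
      exact Real.rpow_le_rpow_of_nonpos hY0 h1 (by norm_num)
    have b4 := Gw_nonneg (E := E) hD (show 0 ≤ s * (nm c : ℝ) by positivity)
    calc (s * nm c) ^ η * (Gw D E (s * nm c) * (n6 c * ‖TT w X d δ q (v * c)‖))
        ≤ (2 * t) ^ η * ((t ^ (-(1 : ℝ) / 3) * (m1 * m2)) * (Y ^ (-(1 : ℝ) / 6) *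
          ‖TT w X d δ q (v * c)‖)) := by gcongr
      _ = _ := by ring
  -- Cauchy
  have hcs : ∑ c ∈ blk i, ‖TT w X d δ q (v * c)‖ ≤ Real.sqrt (32 * Y) *
      Real.sqrt (∑ c ∈ S (2 * Y), ‖TT w X d δ q (v * c)‖ ^ 2) := by
    have h1 : (∑ c ∈ blk i, ‖TT w X d δ q (v * c)‖) ^ 2 ≤
        ((blk i).card : ℝ) * ∑ c ∈ blk i, ‖TT w X d δ q (v * c)‖ ^ 2 := by
      have := sq_sum_le_card_mul_sum_sq (s := blk i) (f := fun c => ‖TT w X d δ q (v * c)‖)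
      exact this
    have hsub : blk i ⊆ S (2 * Y) := by
      intro c hc
      rw [← hY2]
      unfold blk at hc
      exact (Finset.mem_filter.1 hc).1
    have h2 : ((blk i).card : ℝ) ≤ 32 * Y := by
      have h3 : ((blk i).card : ℝ) ≤ (S (2 * Y)).card := by exact_mod_cast Finset.card_le_card hsub
      have h4 := card_S_le' (X := 2 * Y) (by linarith)
      linarith
    have h5 : ∑ c ∈ blk i, ‖TT w X d δ q (v * c)‖ ^ 2 ≤
        ∑ c ∈ S (2 * Y), ‖TT w X d δ q (v * c)‖ ^ 2 :=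
      Finset.sum_le_sum_of_subset_of_nonneg hsub (fun _ _ _ => by positivity)
    rw [← Real.sqrt_mul (by positivity)]
    apply Real.le_sqrt_of_sq_le
    refine h1.trans ?_
    have h6 : 0 ≤ ∑ c ∈ blk i, ‖TT w X d δ q (v * c)‖ ^ 2 :=
      Finset.sum_nonneg fun _ _ => by positivity
    gcongr
  have hsdd := hh X Z W B hX hZ hW hB w hw hwW d δ q v hd hδ hv hHS (2 * Y) (by linarith)
  rw [← hN] at hsdd
  have hsq : Real.sqrt (∑ c ∈ S (2 * Y), ‖TT w X d δ q (v * c)‖ ^ 2) ≤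
      Real.sqrt Ch * (2 * (X * Y) ^ η) * Real.sqrt (B + W ^ 2) *
        (2 * (N ^ ((2 : ℝ) / 3) * Y ^ ((1 : ℝ) / 3) + N ^ ((1 : ℝ) / 3) * Z ^ ((1 : ℝ) / 3) +
          N ^ ((1 : ℝ) / 3) * Y ^ ((1 : ℝ) / 2))) := by
    refine (Real.sqrt_le_sqrt hsdd).trans ?_
    rw [Real.sqrt_mul (by positivity), Real.sqrt_mul (by positivity), Real.sqrt_mul hCh]
    have e1 : Real.sqrt ((X * (2 * Y)) ^ (2 * η)) ≤ 2 * (X * Y) ^ η := by
      have e2 : Real.sqrt ((X * (2 * Y)) ^ (2 * η)) = (X * (2 * Y)) ^ η := by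
        rw [Real.sqrt_eq_rpow, ← Real.rpow_mul (by positivity)]; congr 1; ring
      rw [e2, show X * (2 * Y) = 2 * (X * Y) by ring, Real.mul_rpow (by norm_num) (by positivity)]
      have e3 : (2 : ℝ) ^ η ≤ 2 := by
        calc (2 : ℝ) ^ η ≤ (2 : ℝ) ^ (1 : ℝ) :=
              Real.rpow_le_rpow_of_exponent_le (by norm_num) (by linarith)
          _ = 2 := Real.rpow_one 2
      gcongr
    have e4 : Real.sqrt (N ^ ((4 : ℝ) / 3) * (2 * Y) ^ ((2 : ℝ) / 3) +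
        N ^ ((2 : ℝ) / 3) * Z ^ ((2 : ℝ) / 3) + N ^ ((2 : ℝ) / 3) * (2 * Y)) ≤
        2 * (N ^ ((2 : ℝ) / 3) * Y ^ ((1 : ℝ) / 3) + N ^ ((1 : ℝ) / 3) * Z ^ ((1 : ℝ) / 3) +
          N ^ ((1 : ℝ) / 3) * Y ^ ((1 : ℝ) / 2)) := by
      have f1 : N ^ ((4 : ℝ) / 3) * (2 * Y) ^ ((2 : ℝ) / 3) =
          (N ^ ((2 : ℝ) / 3) * (2 * Y) ^ ((1 : ℝ) / 3)) ^ 2 := by
        rw [mul_pow, ← Real.rpow_natCast, ← Real.rpow_mul hN0, ← Real.rpow_natCast,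
          ← Real.rpow_mul (by positivity)]
        norm_num
      have f2 : N ^ ((2 : ℝ) / 3) * Z ^ ((2 : ℝ) / 3) =
          (N ^ ((1 : ℝ) / 3) * Z ^ ((1 : ℝ) / 3)) ^ 2 := by
        rw [mul_pow, ← Real.rpow_natCast, ← Real.rpow_mul hN0, ← Real.rpow_natCast,
          ← Real.rpow_mul hZ0]
        norm_num
      have f3 : N ^ ((2 : ℝ) / 3) * (2 * Y) = (N ^ ((1 : ℝ) / 3) * (2 * Y) ^ ((1 : ℝ) / 2)) ^ 2 := by
        rw [mul_pow, ← Real.rpow_natCast, ← Real.rpow_mul hN0, ← Real.rpow_natCast,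
          ← Real.rpow_mul (by positivity)]
        norm_num
      rw [f1, f2, f3]
      refine (sqrt_three_le (by positivity) (by positivity) (by positivity)).trans ?_
      rw [Real.mul_rpow (by norm_num) hY0.le, Real.mul_rpow (by norm_num) hY0.le]
      have g1 : (2 : ℝ) ^ ((1 : ℝ) / 3) ≤ 2 := by
        calc (2 : ℝ) ^ ((1 : ℝ) / 3) ≤ (2 : ℝ) ^ (1 : ℝ) :=
              Real.rpow_le_rpow_of_exponent_le (by norm_num) (by norm_num)
          _ = 2 := Real.rpow_one 2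
      have g2 : (2 : ℝ) ^ ((1 : ℝ) / 2) ≤ 2 := by
        calc (2 : ℝ) ^ ((1 : ℝ) / 2) ≤ (2 : ℝ) ^ (1 : ℝ) :=
              Real.rpow_le_rpow_of_exponent_le (by norm_num) (by norm_num)
          _ = 2 := Real.rpow_one 2
      calc N ^ ((2 : ℝ) / 3) * (2 ^ ((1 : ℝ) / 3) * Y ^ ((1 : ℝ) / 3)) +
            N ^ ((1 : ℝ) / 3) * Z ^ ((1 : ℝ) / 3) +
            N ^ ((1 : ℝ) / 3) * (2 ^ ((1 : ℝ) / 2) * Y ^ ((1 : ℝ) / 2))
          ≤ N ^ ((2 : ℝ) / 3) * (2 * Y ^ ((1 : ℝ) / 3)) +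
            2 * (N ^ ((1 : ℝ) / 3) * Z ^ ((1 : ℝ) / 3)) +
            N ^ ((1 : ℝ) / 3) * (2 * Y ^ ((1 : ℝ) / 2)) := by
            have h0 : 0 ≤ N ^ ((1 : ℝ) / 3) * Z ^ ((1 : ℝ) / 3) := by positivity
            have h1 : N ^ ((1 : ℝ) / 3) * Z ^ ((1 : ℝ) / 3) ≤
                2 * (N ^ ((1 : ℝ) / 3) * Z ^ ((1 : ℝ) / 3)) := by linarith
            exact add_le_add (add_le_add (by gcongr) h1) (by gcongr)
        _ = _ := by ring
    gcongr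
  -- collect
  have hblock := block_aux (N := N) (Z := Z) hN0 hZ0 hD hE hs hY1
  rw [← ht, ← hm1, ← hm2] at hblock
  have hmp := min_pow_le (a := 4 * η) hE ht1 (by linarith) (by linarith)
  have hBr := Br_nonneg hN0 hZ0 hD hE
  refine (Finset.sum_le_sum hpt).trans ?_
  rw [← Finset.mul_sum]
  set br := N ^ ((2 : ℝ) / 3) * Y ^ ((1 : ℝ) / 3) + N ^ ((1 : ℝ) / 3) * Z ^ ((1 : ℝ) / 3) +
    N ^ ((1 : ℝ) / 3) * Y ^ ((1 : ℝ) / 2) with hbr
  have hbr0 : 0 ≤ br := by positivity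
  calc (2 * t) ^ η * (t ^ (-(1 : ℝ) / 3) * (m1 * m2)) * Y ^ (-(1 : ℝ) / 6) *
        ∑ c ∈ blk i, ‖TT w X d δ q (v * c)‖
      ≤ (2 * t) ^ η * (t ^ (-(1 : ℝ) / 3) * (m1 * m2)) * Y ^ (-(1 : ℝ) / 6) *
        (Real.sqrt (32 * Y) * (Real.sqrt Ch * (2 * (X * Y) ^ η) * Real.sqrt (B + W ^ 2) *
          (2 * br))) := by
        have := hcs.trans (mul_le_mul_of_nonneg_left hsq (Real.sqrt_nonneg _))
        gcongr
    _ = ((2 * t) ^ η * t ^ (-(1 : ℝ) / 3) * Y ^ (-(1 : ℝ) / 6) * Real.sqrt (32 * Y) *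
        (Real.sqrt Ch * (2 * (X * Y) ^ η) * Real.sqrt (B + W ^ 2) * 2)) * (m1 * m2 * br) := by ring
    _ ≤ ((2 * t) ^ η * t ^ (-(1 : ℝ) / 3) * Y ^ (-(1 : ℝ) / 6) * Real.sqrt (32 * Y) *
        (Real.sqrt Ch * (2 * (X * Y) ^ η) * Real.sqrt (B + W ^ 2) * 2)) *
          ((1 + E) ^ (4 * η) * t ^ (-(4 * η)) * Br N Z D E) := by
        refine mul_le_mul_of_nonneg_left (hblock.trans ?_) (by positivity)
        gcongr
    _ ≤ _ := ?_
  -- powers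
  have p1 : (2 * t) ^ η ≤ 2 * t ^ η := by
    rw [Real.mul_rpow (by norm_num) ht0.le]
    have e3 : (2 : ℝ) ^ η ≤ 2 := by
      calc (2 : ℝ) ^ η ≤ (2 : ℝ) ^ (1 : ℝ) :=
            Real.rpow_le_rpow_of_exponent_le (by norm_num) (by linarith)
        _ = 2 := Real.rpow_one 2
    gcongr
  have p2 : Real.sqrt (32 * Y) ≤ 8 * Y ^ ((1 : ℝ) / 2) := by
    rw [Real.sqrt_mul (by norm_num), Real.sqrt_eq_rpow Y]
    have : Real.sqrt 32 ≤ 8 := by rw [Real.sqrt_le_left (by norm_num)]; norm_num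
    gcongr
  have p3 : t ^ η * t ^ (-(1 : ℝ) / 3) * Y ^ (-(1 : ℝ) / 6) * Y ^ ((1 : ℝ) / 2) * (X * Y) ^ η *
      t ^ (-(4 * η)) ≤ X ^ η * (s ^ (-(1 / 3 + 2 * η)) * Y ^ (-(2 * η))) := by
    rw [Real.mul_rpow hX0.le hY0.le]
    have e1 : t ^ η * t ^ (-(1 : ℝ) / 3) * Y ^ (-(1 : ℝ) / 6) * Y ^ ((1 : ℝ) / 2) *
        (X ^ η * Y ^ η) * t ^ (-(4 * η)) = X ^ η * ((t ^ η * t ^ (-(1 : ℝ) / 3) * t ^ (-(4 * η))) *
        (Y ^ (-(1 : ℝ) / 6) * Y ^ ((1 : ℝ) / 2) * Y ^ η)) := by ring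
    rw [e1, ← Real.rpow_add ht0, ← Real.rpow_add ht0, ← Real.rpow_add hY0, ← Real.rpow_add hY0]
    have e2 : η + -(1 : ℝ) / 3 + -(4 * η) = -(1 / 3 + 3 * η) := by ring
    rw [e2, ht, Real.mul_rpow hs0.le hY0.le]
    have e3 : s ^ (-(1 / 3 + 3 * η)) ≤ s ^ (-(1 / 3 + 2 * η)) :=
      Real.rpow_le_rpow_of_exponent_le hs (by linarith)
    have e4 : Y ^ (-(1 / 3 + 3 * η)) * Y ^ (-(1 : ℝ) / 6 + 1 / 2 + η) = Y ^ (-(2 * η)) := by
      rw [← Real.rpow_add hY0]; congr 1; ring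
    rw [mul_assoc (s ^ (-(1 / 3 + 3 * η))), e4]
    gcongr
  calc (2 * t) ^ η * t ^ (-(1 : ℝ) / 3) * Y ^ (-(1 : ℝ) / 6) * Real.sqrt (32 * Y) *
        (Real.sqrt Ch * (2 * (X * Y) ^ η) * Real.sqrt (B + W ^ 2) * 2) *
          ((1 + E) ^ (4 * η) * t ^ (-(4 * η)) * Br N Z D E)
      ≤ (2 * t ^ η) * t ^ (-(1 : ℝ) / 3) * Y ^ (-(1 : ℝ) / 6) * (8 * Y ^ ((1 : ℝ) / 2)) *
        (Real.sqrt Ch * (2 * (X * Y) ^ η) * Real.sqrt (B + W ^ 2) * 2) *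
          ((1 + E) ^ (4 * η) * t ^ (-(4 * η)) * Br N Z D E) := by gcongr
    _ = 64 * Real.sqrt Ch * (1 + E) ^ (4 * η) * Real.sqrt (B + W ^ 2) * Br N Z D E *
        (t ^ η * t ^ (-(1 : ℝ) / 3) * Y ^ (-(1 : ℝ) / 6) * Y ^ ((1 : ℝ) / 2) * (X * Y) ^ η *
          t ^ (-(4 * η))) := by ring
    _ ≤ 64 * Real.sqrt Ch * (1 + E) ^ (4 * η) * Real.sqrt (B + W ^ 2) * Br N Z D E *
        (X ^ η * (s ^ (-(1 / 3 + 2 * η)) * Y ^ (-(2 * η)))) := by gcongr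
    _ = _ := by ring

end Crest.Agent.R017.X6545
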