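import Crest.Agent.R017.X6G2_545

/-!
# Row 17, exceptional class, X6 (E), dual part, 3 (helper545): the sum over all frequencies
-/

set_option autoImplicit false

noncomputable section

open scoped ComplexConjugate

namespace Crest.Agent.R017.X6545

open Crest.Agent.R012 Crest.Agent.R012.Eis Crest.Agent.R012.Gauss880
open Crest.Agent.R012.LS2 Crest.Agent.R012.Div277
open Crest.Agent.R017.PA842 (Supp)
open Crest.Agent.R017.PX764 (th n6 Gh Cross cD)
open Crest.Agent.R017.P3all283 (U6)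

lemma ofReal_tsum_mul {α : Type*} {f : α → ℝ} (hf : ∀ x, 0 ≤ f x) (hs : Summable f) {K : ℝ}
    (hK : 0 ≤ K) : ∑' x, ENNReal.ofReal (K * f x) = ENNReal.ofReal (K * ∑' x, f x) := by
  rw [← tsum_mul_left, ENNReal.ofReal_tsum_of_nonneg (fun x => mul_nonneg hK (hf x)) (hs.mul_left K)]

lemma SU.mul {v v' : Eis} (h : SU v) (h' : SU v') : SU (v * v') := by
  obtain ⟨k, hk⟩ := h
  obtain ⟨k', hk'⟩ := h'
  exact ⟨k + k', by rw [pow_add]; exact mul_dvd_mul hk hk'⟩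

lemma SU_unit {u : Eis} (hu : IsUnit u) : SU u := ⟨0, hu.dvd⟩

lemma SU_lam (k : ℕ) : SU (lam ^ k) := ⟨k, dvd_rfl⟩

lemma SU.ne_zero {v : Eis} (h : SU v) : v ≠ 0 := by
  obtain ⟨k, hk⟩ := h
  rintro rfl
  exact pow_ne_zero k lam_ne_zero (zero_dvd_iff.1 hk)

lemma nm_unit {u : Eis} (hu : IsUnit u) : nm u = 1 := isUnit_iff.mp hu

lemma summable_geo {r : ℝ} (hr : 1 < r) {a : ℝ} (ha : 0 < a) :
    Summable fun i : ℕ => ((r : ℝ) ^ i) ^ (-a) := by
  have h0 : (0 : ℝ) < r := by linarith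
  have e : (fun i : ℕ => ((r : ℝ) ^ i) ^ (-a)) = fun i : ℕ => (r ^ (-a)) ^ i := by
    funext i
    rw [← Real.rpow_natCast, ← Real.rpow_mul h0.le, ← Real.rpow_natCast, ← Real.rpow_mul h0.le]
    congr 1; ring
  rw [e]
  exact summable_geometric_of_lt_one (by positivity)
    (Real.rpow_lt_one_of_one_lt_of_neg hr (by linarith))

set_option maxHeartbeats 1600000 in
/-- **the sum over all frequencies** -/
theorem xs {η : ℝ} (hη : 0 < η) (hη1 : η ≤ 1 / 8) : ∃ C : ℝ, 0 ≤ C ∧ ∀ X Z W B : ℝ, 1 ≤ X →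
    1 ≤ Z → 0 ≤ W → 0 ≤ B → ∀ w : Eis → ℂ, Supp w X → (∀ n, ‖w n‖ ≤ W) →
    ∀ d δ q v : Eis, IsPrim d → IsPrim δ → q ≠ 0 → SU v → HSk w X Z d B (2 * η) →
    ∀ D E : ℝ, 0 ≤ D → 0 ≤ E →
      ∑' x : Eis, ENNReal.ofReal (if x = 0 then 0 else (tau x : ℝ) * (Gw D E (nm x) *
        (‖th x‖ * ‖TT w X d δ q (v * x)‖))) ≤
        ENNReal.ofReal (C * (X ^ η * (nm q : ℝ) ^ η * (1 + E) ^ (4 * η) * Real.sqrt (B + W ^ 2) *
          Br (X / nm d / nm δ) Z D E)) := by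
  classical
  obtain ⟨Cb, hCb, hb⟩ := blk_sum hη hη1
  obtain ⟨Ct, hCt, ht⟩ := tau_le_rpow hη
  set Sk : ℝ := ∑' k : ℕ, ((3 : ℝ) ^ k) ^ (-(1 / 3 + 2 * η)) with hSk
  set Si : ℝ := ∑' i : ℕ, ((2 : ℝ) ^ i) ^ (-(2 * η)) with hSi
  set Se : ℝ := ∑' e : Eis, (nm e : ℝ) ^ (-(1 + 5 * η)) with hSe
  have sk := summable_geo (r := 3) (by norm_num) (a := 1 / 3 + 2 * η) (by linarith)
  have si := summable_geo (r := 2) (by norm_num) (a := 2 * η) (by linarith)
  have se : Summable fun e : Eis => (nm e : ℝ) ^ (-(1 + 5 * η)) :=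
    LatSum413.summable_nm_rpow (by linarith)
  have hSk0 : 0 ≤ Sk := tsum_nonneg fun _ => by positivity
  have hSi0 : 0 ≤ Si := tsum_nonneg fun _ => by positivity
  have hSe0 : 0 ≤ Se := tsum_nonneg fun _ => by positivity
  refine ⟨6 * (Ct * Cb * (Sk * (Se * Si))), by positivity, ?_⟩
  intro X Z W B hX hZ hW hB w hw hwW d δ q v hd hδ hq hv hHS D E hD hE
  have hX0 : 0 ≤ X := by linarith
  have hBr : 0 ≤ Br (X / nm d / nm δ) Z D E := Br_nonneg (by positivity) (by linarith) hD hE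
  set K0 : ℝ := X ^ η * (nm q : ℝ) ^ η * (1 + E) ^ (4 * η) * Real.sqrt (B + W ^ 2) *
    Br (X / nm d / nm δ) Z D E with hK0
  have hK00 : 0 ≤ K0 := by positivity
  -- the real terms
  set T : Eis → ℕ → Eis → Eis → ℝ := fun u k e c =>
    Ct * (((3 : ℝ) ^ k * (nm e : ℝ) ^ 3 * nm c) ^ η * (Gw D E ((3 : ℝ) ^ k * (nm e : ℝ) ^ 3 * nm c) *
      (n6 c * ‖TT w X d δ (q * e) (v * (lam ^ k * u) * c)‖))) with hT
  set g : Eis × ℕ × Eis × ℕ × Eis → ENNReal := fun y =>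
    if y.1 ∈ U6 then (if IsPrim y.2.2.1 then (if y.2.2.2.2 ∈ blk y.2.2.2.1 then
      ENNReal.ofReal (T y.1 y.2.1 y.2.2.1 y.2.2.2.2) else 0) else 0) else 0 with hg
  set φ : Eis × ℕ × Eis × ℕ × Eis → Eis := fun y =>
    (lam ^ y.2.1 * y.1) * y.2.2.2.2 * y.2.2.1 ^ 3 with hφ
  have hcov := tsum_cover (fun x : Eis => ENNReal.ofReal (if x = 0 then 0 else (tau x : ℝ) *
    (Gw D E (nm x) * (‖th x‖ * ‖TT w X d δ q (v * x)‖)))) g φ ?_
  swap
  · intro x hx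
    have hx0 : x ≠ 0 := by
      rintro rfl
      simp at hx
    have hth : th x ≠ 0 := by
      intro h
      apply hx
      beta_reduce
      rw [h, norm_zero]; simp
    obtain ⟨k, u, c, e, hu, hc, hcs, he, rfl⟩ := th_decomp hx0 hth
    obtain ⟨i, hi⟩ := exists_blk hc hcs
    refine ⟨(u, k, e, i, c), rfl, ?_⟩
    have hnx : (nm ((lam ^ k * u) * c * e ^ 3) : ℝ) = (3 : ℝ) ^ k * (nm e : ℝ) ^ 3 * nm c := by
      have h1 : nm (lam ^ k) = 3 ^ k := by
        rw [nm_pow, nm_lam]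
      rw [nm_mul, nm_mul, nm_mul, nm_pow e, nm_unit hu, h1]
      push_cast; ring
    rw [hg]
    simp only
    rw [if_pos (P3all283.mem_of_isUnit hu), if_pos he, if_pos hi, if_neg hx0, hT]
    refine ENNReal.ofReal_le_ofReal ?_
    have e1 : TT w X d δ q (v * ((lam ^ k * u) * c * e ^ 3)) =
        TT w X d δ (q * e) (v * (lam ^ k * u) * c) := by
      rw [← TT_cube hX0 d δ q (v * (lam ^ k * u) * c)]
      congr 1; ring
    rw [e1]
    have h1 := ht _ hx0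
    have h2 := norm_th_c (k := k) hu hc hcs he
    have h3 := Gw_nonneg (E := E) hD (Nat.cast_nonneg (α := ℝ) (nm ((lam ^ k * u) * c * e ^ 3)))
    rw [hnx] at h1 h3 ⊢
    calc (tau ((lam ^ k * u) * c * e ^ 3) : ℝ) * (Gw D E ((3 : ℝ) ^ k * (nm e : ℝ) ^ 3 * nm c) *
          (‖th ((lam ^ k * u) * c * e ^ 3)‖ * ‖TT w X d δ (q * e) (v * (lam ^ k * u) * c)‖))
        ≤ (Ct * ((3 : ℝ) ^ k * (nm e : ℝ) ^ 3 * nm c) ^ η) *
          (Gw D E ((3 : ℝ) ^ k * (nm e : ℝ) ^ 3 * nm c) *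
          (n6 c * ‖TT w X d δ (q * e) (v * (lam ^ k * u) * c)‖)) := by gcongr
      _ = _ := by ring
  refine hcov.trans ?_
  -- iterate the sums
  have hinner : ∀ u ∈ U6, ∀ k : ℕ, ∀ e : Eis, IsPrim e → ∀ i : ℕ,
      ∑' c : Eis, (if c ∈ blk i then ENNReal.ofReal (T u k e c) else 0) ≤
        ENNReal.ofReal ((Ct * Cb * K0 * ((3 : ℝ) ^ k) ^ (-(1 / 3 + 2 * η)) *
          (nm e : ℝ) ^ (-(1 + 5 * η))) * ((2 : ℝ) ^ i) ^ (-(2 * η))) := by
    intro u hu k e he i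
    have hT0 : ∀ c, 0 ≤ T u k e c := by
      intro c
      rw [hT]
      have h3 := Gw_nonneg (E := E) hD
        (show (0 : ℝ) ≤ (3 : ℝ) ^ k * (nm e : ℝ) ^ 3 * nm c by positivity)
      have h4 : 0 ≤ n6 c := by unfold PX764.n6; positivity
      positivity
    have h1 : ∑' c : Eis, (if c ∈ blk i then ENNReal.ofReal (T u k e c) else 0) =
        ENNReal.ofReal (∑ c ∈ blk i, T u k e c) := by
      rw [ENNReal.ofReal_sum_of_nonneg (fun c _ => hT0 c), tsum_eq_sum (s := blk i)]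
      · exact Finset.sum_congr rfl fun c hc => if_pos hc
      · intro c hc; exact if_neg hc
    rw [h1]
    refine ENNReal.ofReal_le_ofReal ?_
    have he0 : e ≠ 0 := he.ne_zero
    have hs1 : 1 ≤ (3 : ℝ) ^ k * (nm e : ℝ) ^ 3 := by
      have h2 : (1 : ℝ) ≤ (3 : ℝ) ^ k := one_le_pow₀ (by norm_num)
      have h3 : (1 : ℝ) ≤ (nm e : ℝ) ^ 3 := one_le_pow₀ (nm1 he0)
      nlinarith
    have hub : IsUnit u := P3all283.isUnit_of_mem hu
    have hqe : q * e ≠ 0 := mul_ne_zero hq he0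
    have hB' : 0 ≤ B * (nm (q * e) : ℝ) ^ (2 * η) := by positivity
    have h2' := hb X Z W (B * (nm (q * e) : ℝ) ^ (2 * η)) hX hZ hW hB' w hw hwW d δ (q * e)
      (v * (lam ^ k * u)) hd hδ (hv.mul ((SU_lam k).mul (SU_unit hub))) (hHS _ hqe) D E
      ((3 : ℝ) ^ k * (nm e : ℝ) ^ 3) hD hE hs1 i
    have hqe1 : (1 : ℝ) ≤ (nm (q * e) : ℝ) ^ (2 * η) := Real.one_le_rpow (nm1 hqe) (by linarith)
    have hsqr : Real.sqrt (B * (nm (q * e) : ℝ) ^ (2 * η) + W ^ 2) ≤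
        ((nm q : ℝ) ^ η * (nm e : ℝ) ^ η) * Real.sqrt (B + W ^ 2) := by
      have e3 : (nm q : ℝ) ^ η * (nm e : ℝ) ^ η = Real.sqrt ((nm (q * e) : ℝ) ^ (2 * η)) := by
        rw [Real.sqrt_eq_rpow, ← Real.rpow_mul (nm0 hqe).le, nm_mul]
        push_cast
        rw [← Real.mul_rpow (nm0 hq).le (nm0 he0).le]
        congr 1; ring
      rw [e3, ← Real.sqrt_mul (by positivity)]
      apply Real.sqrt_le_sqrt
      nlinarith [sq_nonneg W]
    have h2 : ∑ c ∈ blk i, ((3 : ℝ) ^ k * (nm e : ℝ) ^ 3 * nm c) ^ η *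
        (Gw D E ((3 : ℝ) ^ k * (nm e : ℝ) ^ 3 * nm c) *
          (n6 c * ‖TT w X d δ (q * e) (v * (lam ^ k * u) * c)‖)) ≤
        Cb * X ^ η * (1 + E) ^ (4 * η) * (((nm q : ℝ) ^ η * (nm e : ℝ) ^ η) *
          Real.sqrt (B + W ^ 2)) * Br (X / nm d / nm δ) Z D E *
          (((3 : ℝ) ^ k * (nm e : ℝ) ^ 3) ^ (-(1 / 3 + 2 * η)) * ((2 : ℝ) ^ i) ^ (-(2 * η))) := by
      refine h2'.trans ?_
      gcongr
    have h3 : ∑ c ∈ blk i, T u k e c = Ct * ∑ c ∈ blk i,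
        ((3 : ℝ) ^ k * (nm e : ℝ) ^ 3 * nm c) ^ η * (Gw D E ((3 : ℝ) ^ k * (nm e : ℝ) ^ 3 * nm c) *
          (n6 c * ‖TT w X d δ (q * e) (v * (lam ^ k * u) * c)‖)) := by
      rw [Finset.mul_sum]
    rw [h3]
    refine (mul_le_mul_of_nonneg_left h2 (by linarith)).trans (le_of_eq ?_)
    have hnm0 := nm0 he0
    have e2 : ((3 : ℝ) ^ k * (nm e : ℝ) ^ 3) ^ (-(1 / 3 + 2 * η)) =
        ((3 : ℝ) ^ k) ^ (-(1 / 3 + 2 * η)) * (nm e : ℝ) ^ (-(1 + 6 * η)) := by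
      rw [Real.mul_rpow (by positivity) (by positivity), ← Real.rpow_natCast (nm e : ℝ),
        ← Real.rpow_mul hnm0.le]
      congr 2
      push_cast; ring
    have e3 : (nm e : ℝ) ^ (-(1 + 5 * η)) = (nm e : ℝ) ^ η * (nm e : ℝ) ^ (-(1 + 6 * η)) := by
      rw [← Real.rpow_add hnm0]; congr 1; ring
    rw [e2, e3, hK0]
    ring
  have hfin : ∑' y, g y ≤ ∑' u : Eis, if u ∈ U6 then
      ENNReal.ofReal (Ct * Cb * K0 * (Sk * (Se * Si))) else 0 := by
    rw [hg, ENNReal.tsum_prod']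
    refine ENNReal.tsum_le_tsum fun u => ?_
    by_cases hu : u ∈ U6
    swap
    · simp only [if_neg hu, tsum_zero, le_refl]
    simp only [if_pos hu]
    rw [ENNReal.tsum_prod']
    have hk : ∀ k : ℕ, ∑' b : Eis × ℕ × Eis, (if IsPrim b.1 then
        (if b.2.2 ∈ blk b.2.1 then ENNReal.ofReal (T u k b.1 b.2.2) else 0) else 0) ≤
        ENNReal.ofReal ((Ct * Cb * K0 * (Se * Si)) * ((3 : ℝ) ^ k) ^ (-(1 / 3 + 2 * η))) := by
      intro k
      rw [ENNReal.tsum_prod']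
      have he : ∀ e : Eis, ∑' b : ℕ × Eis, (if IsPrim e then
          (if b.2 ∈ blk b.1 then ENNReal.ofReal (T u k e b.2) else 0) else 0) ≤
          ENNReal.ofReal ((Ct * Cb * K0 * Si * ((3 : ℝ) ^ k) ^ (-(1 / 3 + 2 * η))) *
            (nm e : ℝ) ^ (-(1 + 5 * η))) := by
        intro e
        by_cases hep : IsPrim e
        swap
        · simp only [if_neg hep, tsum_zero, zero_le]
        simp only [if_pos hep]
        rw [ENNReal.tsum_prod']
        refine (ENNReal.tsum_le_tsum fun i => hinner u hu k e hep i).trans ?_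
        rw [ofReal_tsum_mul (fun i => by positivity) si (by positivity), ← hSi]
        refine ENNReal.ofReal_le_ofReal (le_of_eq ?_)
        ring
      refine (ENNReal.tsum_le_tsum he).trans ?_
      rw [ofReal_tsum_mul (fun i => by positivity) se (by positivity), ← hSe]
      refine ENNReal.ofReal_le_ofReal (le_of_eq ?_)
      ring
    refine (ENNReal.tsum_le_tsum hk).trans ?_
    rw [ofReal_tsum_mul (fun i => by positivity) sk (by positivity), ← hSk]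
    refine ENNReal.ofReal_le_ofReal (le_of_eq ?_)
    ring
  refine hfin.trans ?_
  rw [tsum_eq_sum (s := U6) (fun u hu => if_neg hu),
    Finset.sum_congr rfl (fun u hu => if_pos hu), Finset.sum_const]
  have hcard : U6.card ≤ 6 := by
    unfold U6
    exact Finset.card_le_six
  rw [nsmul_eq_mul]
  set R : ℝ := Ct * Cb * K0 * (Sk * (Se * Si)) with hR
  have h6 : ENNReal.ofReal (6 * R) = (6 : ENNReal) * ENNReal.ofReal R := by
    rw [ENNReal.ofReal_mul (by norm_num)]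
    congr 1
    exact ENNReal.ofReal_ofNat 6
  calc (U6.card : ENNReal) * ENNReal.ofReal R ≤ (6 : ENNReal) * ENNReal.ofReal R := by
        gcongr
        exact_mod_cast hcard
    _ = ENNReal.ofReal (6 * R) := h6.symm
    _ ≤ _ := by
        refine ENNReal.ofReal_le_ofReal (le_of_eq ?_)
        rw [hR]; ring

end Crest.Agent.R017.X6545
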