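import Crest.Agent.R017.X6G3_545

/-!
# Row 17, exceptional class, X6 (E), dual part, 4 (helper545): the D-step and the merging
-/

set_option autoImplicit false

noncomputable section

open scoped ComplexConjugate

namespace Crest.Agent.R017.X6545

open Crest.Agent.R012 Crest.Agent.R012.Eis Crest.Agent.R012.Gauss880
open Crest.Agent.R012.LS2 Crest.Agent.R012.Div277
open Crest.Agent.R017.PA842 (Supp)
open Crest.Agent.R017.PX764 (th n6 Gh Cross cD)
open Crest.Agent.R017.X6D502 (Tc SuppC dual_abs')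

/-! ### generalities -/

lemma ofReal_tsum_le {α : Type*} {f : α → ℝ} (hf : ∀ x, 0 ≤ f x) :
    ENNReal.ofReal (∑' x, f x) ≤ ∑' x, ENNReal.ofReal (f x) := by
  by_cases hs : Summable f
  · rw [ENNReal.ofReal_tsum_of_nonneg hf hs]
  · rw [tsum_eq_zero_of_not_summable hs, ENNReal.ofReal_zero]; exact zero_le

lemma sum_inj_le {ι κ : Type*} {M : Type*} [AddCommMonoid M] [PartialOrder M] [IsOrderedAddMonoid M]
    [DecidableEq κ]
    (s : Finset ι) (t : Finset κ) (e : ι → κ) (he : ∀ i ∈ s, e i ∈ t) (hinj : Set.InjOn e s)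
    (f : ι → M) (g : κ → M) (hg : ∀ k ∈ t, 0 ≤ g k) (hfg : ∀ i ∈ s, f i ≤ g (e i)) :
    ∑ i ∈ s, f i ≤ ∑ k ∈ t, g k := by
  calc ∑ i ∈ s, f i ≤ ∑ i ∈ s, g (e i) := Finset.sum_le_sum hfg
    _ = ∑ k ∈ s.image e, g k := (Finset.sum_image hinj).symm
    _ ≤ _ := Finset.sum_le_sum_of_subset_of_nonneg
        (by intro k hk; rw [Finset.mem_image] at hk; obtain ⟨i, hi, rfl⟩ := hk; exact he i hi)
        (fun k hk _ => hg k hk)

/-- merging `x = l b` -/
lemma merge (T : Finset Eis) (hT : ∀ b ∈ T, IsPrim b) (H : Eis → ENNReal) :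
    ∑ b ∈ T, ∑' l : Eis, (if l = 0 then 0 else H (l * b)) ≤
      ∑' x : Eis, if x = 0 then 0 else (tau x : ENNReal) * H x := by
  classical
  have h1 : ∀ b ∈ T, ∑' l : Eis, (if l = 0 then 0 else H (l * b)) ≤
      ∑' x : Eis, if x = 0 then 0 else (if b ∣ x then H x else 0) := by
    intro b hb
    have hb0 := (hT b hb).ne_zero
    have hinj : Function.Injective fun l : Eis => l * b := fun x y h => mul_right_cancel₀ hb0 h
    refine le_trans (le_of_eq ?_) (ENNReal.tsum_comp_le_tsum_of_injective hinj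
      (fun x : Eis => if x = 0 then 0 else (if b ∣ x then H x else 0)))
    refine tsum_congr fun l => ?_
    by_cases hl : l = 0
    · subst hl; simp
    · have : l * b ≠ 0 := mul_ne_zero hl hb0
      simp [hl, hb0]
  refine (Finset.sum_le_sum h1).trans ?_
  rw [← Summable.tsum_finsetSum (fun _ _ => ENNReal.summable)]
  refine ENNReal.tsum_le_tsum fun x => ?_
  by_cases hx : x = 0
  · simp [hx]
  simp only [if_neg hx]
  rw [← Finset.sum_filter, Finset.sum_const, nsmul_eq_mul]
  gcongr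
  unfold tau
  refine Finset.card_le_card fun b hb => ?_
  rw [Finset.mem_filter] at hb
  exact (mem_dvs hx).2 ⟨hT b hb.1, hb.2⟩

/-! ### the D-step -/

/-- the coefficients -/
def cc (w : Eis → ℂ) (X : ℝ) (d m₁ a δj m : Eis) : ℂ := by
  classical
  exact if IsCoprime m₁ (a * m) then conj (ws w X (d * (a * m))) * sy δj m else 0

lemma ws_mem {w : Eis → ℂ} {X : ℝ} {k : Eis} (h : ws w X k ≠ 0) : k ∈ S X := by
  by_contra hk
  exact h (by unfold ws; exact if_neg hk)

lemma ws_eq' {w : Eis → ℂ} {X : ℝ} (hw : Supp w X) (k : Eis) : ws w X k = w k := by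
  unfold ws
  by_cases h : k ∈ S X
  · rw [if_pos h]
  · rw [if_neg h]
    by_contra h'
    exact h (hw k (fun h0 => h' h0.symm))

lemma mem_of_mul {X : ℝ} (hX : 0 ≤ X) {d m : Eis} (hd : IsPrim d) (h : d * m ∈ S X) : m ∈ S X := by
  obtain ⟨h1, h2, h3⟩ := (mem_S hX).1 h
  rw [mem_S hX]
  have h4 : IsPrim m := IsPrim.of_mul_left h2 hd
  refine ⟨?_, h4, h3.of_mul_right⟩
  rw [nm_mul] at h1
  push_cast at h1
  have := nm1 hd.ne_zero
  nlinarith [Nat.cast_nonneg (α := ℝ) (nm m)]

lemma cc_supp {w : Eis → ℂ} {X : ℝ} (hX : 0 ≤ X) {d m₁ a δj m : Eis} (hd : IsPrim d) (ha : IsPrim a)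
    (h : cc w X d m₁ a δj m ≠ 0) : m ∈ S X := by
  unfold cc at h
  split_ifs at h with hc
  · have h1 : ws w X (d * (a * m)) ≠ 0 := by
      intro h0; apply h; rw [h0]; simp
    exact mem_of_mul hX ha (mem_of_mul hX hd (ws_mem h1))
  · exact absurd rfl h

lemma cc_cop {w : Eis → ℂ} {X : ℝ} {d m₁ a δj b : Eis} (hb : b ∣ m₁) :
    SuppC (cc w X d m₁ a δj) b := by
  intro m h
  unfold cc at h
  split_ifs at h with hc
  · have h1 : IsCoprime m₁ m := hc.of_mul_right_right
    exact (h1.of_isCoprime_of_dvd_left hb).symm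
  · exact absurd rfl h

lemma norm_cc_le {w : Eis → ℂ} {X W : ℝ} (hW : 0 ≤ W) (hwW : ∀ n, ‖w n‖ ≤ W) {d m₁ a δj m : Eis}
    (hm : IsPrim m) : ‖cc w X d m₁ a δj m‖ ≤ W := by
  unfold cc
  split_ifs
  · rw [norm_mul, RCLike.norm_conj]
    have h1 : ‖ws w X (d * (a * m))‖ ≤ W := by
      unfold ws; split_ifs
      · exact hwW _
      · rw [norm_zero]; exact hW
    have h2 := norm_sy_le (x := δj) hm
    calc _ ≤ W * 1 := by gcongr
      _ = W := mul_one W
  · rw [norm_zero]; exact hW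

/-- the sums of the D-step are the structured sums -/
lemma norm_Tc_TT {w : Eis → ℂ} {X : ℝ} (hX : 0 ≤ X) (hw : Supp w X) {d a g₁ b' q δj l : Eis}
    (hg₁ : IsPrim g₁) :
    ‖Tc X (fun m => cc w X d (q * b') a δj (g₁ * m)) (l * b')‖ ≤
      ‖TT w X d (a * g₁) q (δj * (l * b'))‖ := by
  classical
  by_cases hc : IsCoprime (q * b') (a * g₁)
  · have e : Tc X (fun m => cc w X d (q * b') a δj (g₁ * m)) (l * b') =
        sy δj g₁ * conj (TT w X d (a * g₁) q (δj * (l * b'))) := by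
      unfold X6D502.Tc TT
      rw [map_sum, Finset.mul_sum]
      refine Finset.sum_congr rfl fun m hm => ?_
      have hmp := ((mem_S hX).1 hm).2.1
      by_cases hb : IsCoprime m b'
      · by_cases hq : IsCoprime m q
        · have h1 : IsCoprime (q * b') (a * (g₁ * m)) := by
            rw [← mul_assoc]
            exact hc.mul_right (hq.symm.mul_left hb.symm)
          have h2 : Gh (δj * (l * b')) m = Gh (l * b') m * conj (sy δj m) := by
            unfold PX764.Gh
            rw [syG.mul_left δj (l * b') m hmp, map_mul]; ring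
          unfold cc
          beta_reduce
          rw [if_pos h1, if_pos hq, h2, ws_eq' hw, syG.mul_right δj g₁ m hg₁ hmp,
            show d * (a * (g₁ * m)) = d * (a * g₁) * m by ring]
          simp only [map_mul, Complex.conj_conj, Complex.conj_ofReal]
          ring
        · have h1 : ¬ IsCoprime (q * b') (a * (g₁ * m)) := by
            intro h
            exact hq (h.of_mul_left_left.of_mul_right_right.of_mul_right_right).symm
          unfold cc
          beta_reduce
          rw [if_neg h1, if_neg hq]; simp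
      · have h1 : ¬ IsCoprime (l * b') m := fun h => hb h.of_mul_left_right.symm
        have h2 : ¬ IsCoprime (δj * (l * b')) m := fun h => h1 h.of_mul_left_right
        rw [PX764.Gh_zero hmp h1, PX764.Gh_zero hmp h2]
        split_ifs <;> simp
    rw [e, norm_mul, RCLike.norm_conj]
    exact mul_le_of_le_one_left (norm_nonneg _) (norm_sy_le hg₁)
  · have e : Tc X (fun m => cc w X d (q * b') a δj (g₁ * m)) (l * b') = 0 := by
      unfold X6D502.Tc
      refine Finset.sum_eq_zero fun m _ => ?_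
      have h1 : ¬ IsCoprime (q * b') (a * (g₁ * m)) := by
        intro h
        apply hc
        rw [← mul_assoc] at h
        exact h.of_mul_right_left
      unfold cc
      beta_reduce
      rw [if_neg h1]; simp
    rw [e, norm_zero]; exact norm_nonneg _

/-- **one pair `(m₁, b)` and one `a`** -/
theorem dual_one {w : Eis → ℂ} {X : ℝ} (hX : 0 ≤ X) (hw : Supp w X) {d a m₁ b δj : Eis}
    (hd : IsPrim d) (ha : IsPrim a) (hb : IsPrim b) (hsb : Squarefree b) (hbm : b ∣ m₁)
    {V : Eis → ℝ} (hV : ∀ l, 0 ≤ V l) (hVs : Summable V) :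
    ENNReal.ofReal (∑' l : Eis, (if l = 0 then 0 else V l *
      ‖∑ m ∈ S X, cc w X d m₁ a δj m * th (l * m * b)‖)) ≤
      ∑ g₂ ∈ dvs b, ∑ g₁ ∈ S X, ∑' l : Eis, ENNReal.ofReal (if l = 0 then 0 else
        V ((g₁ * g₂) ^ 2 * l) * (‖th (l * (b / g₂))‖ *
          ‖TT w X d (a * g₁) (m₁ / (b / g₂)) (δj * (l * (b / g₂)))‖)) := by
  have h := dual_abs' hX (c := cc w X d m₁ a δj) (fun m hm => cc_supp hX hd ha hm) hb hsb
    (cc_cop hbm) hV hVs
  refine (ENNReal.ofReal_le_ofReal h).trans ?_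
  have hn : ∀ g₂ g₁ l : Eis, 0 ≤ (if l = 0 then 0 else
      V ((g₁ * g₂) ^ 2 * l) * (‖th (l * (b / g₂))‖ *
        ‖Tc X (fun m => cc w X d m₁ a δj (g₁ * m)) (l * (b / g₂))‖) : ℝ) := by
    intro g₂ g₁ l
    split_ifs
    · exact le_rfl
    · exact mul_nonneg (hV _) (mul_nonneg (norm_nonneg _) (norm_nonneg _))
  rw [ENNReal.ofReal_sum_of_nonneg (fun g₂ _ => Finset.sum_nonneg fun g₁ _ =>
    tsum_nonneg (hn g₂ g₁))]
  refine Finset.sum_le_sum fun g₂ hg₂ => ?_
  rw [ENNReal.ofReal_sum_of_nonneg (fun g₁ _ => tsum_nonneg (hn g₂ g₁))]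
  refine Finset.sum_le_sum fun g₁ hg₁ => ?_
  refine (ofReal_tsum_le (hn g₂ g₁)).trans ?_
  refine ENNReal.tsum_le_tsum fun l => ENNReal.ofReal_le_ofReal ?_
  split_ifs
  · exact le_rfl
  · obtain ⟨hg2p, b', hbb⟩ := (mem_dvs hb.ne_zero).1 hg₂
    have hb'0 : b' ≠ 0 := by
      rintro rfl
      rw [mul_zero] at hbb
      exact hb.ne_zero hbb
    have e1 : b / g₂ = b' := by rw [hbb, mul_div_cancel_left₀ _ hg2p.ne_zero]
    obtain ⟨q', hq'⟩ : b' ∣ m₁ := (Dvd.intro_left _ hbb.symm).trans hbm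
    have e2 : m₁ / b' = q' := by rw [hq', mul_div_cancel_left₀ _ hb'0]
    rw [e1, e2]
    have h3 := norm_Tc_TT (l := l) (d := d) (a := a) (b' := b') (q := q') (δj := δj) hX hw
      (((mem_S hX).1 hg₁).2.1)
    rw [show q' * b' = m₁ by rw [hq']; ring] at h3
    refine mul_le_mul_of_nonneg_left ?_ (hV _)
    exact mul_le_mul_of_nonneg_left h3 (norm_nonneg _)

end Crest.Agent.R017.X6545
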