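import Crest.Agent.R017.X6G4_545

/-!
# Row 17, exceptional class, X6 (E), dual part, 5 (helper545): weights and exponents
-/

set_option autoImplicit false

noncomputable section

open scoped ComplexConjugate

namespace Crest.Agent.R017.X6545

open Crest.Agent.R012 Crest.Agent.R012.Eis Crest.Agent.R012.Gauss880
open Crest.Agent.R012.LS2 Crest.Agent.R012.Div277
open Crest.Agent.R017.PA842 (Supp)
open Crest.Agent.R017.PX764 (th n6 Gh Cross cD)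

/-! ### the weight -/

lemma Gw_scale {D E y s : ℝ} (hy : 0 ≤ y) (hs : 0 < s) :
    Gw D E (y / s) = s ^ ((1 : ℝ) / 3) * Gw (D * s) (E * s) y := by
  unfold Gw
  have e1 : (y / s) ^ (-(1 : ℝ) / 3) = s ^ ((1 : ℝ) / 3) * y ^ (-(1 : ℝ) / 3) := by
    rw [Real.div_rpow hy hs.le, show (-(1 : ℝ) / 3) = -(1 / 3) by ring, Real.rpow_neg hs.le]
    rw [div_inv_eq_mul]; ring
  rw [e1, div_div_eq_mul_div, div_div_eq_mul_div]
  ring

lemma Gw_mono {D E D' E' x : ℝ} (hD : 0 ≤ D) (hE : 0 ≤ E) (hx : 0 ≤ x) (h1 : D ≤ D') (h2 : E ≤ E') :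
    Gw D E x ≤ Gw D' E' x := by
  unfold Gw
  have c2 : min 1 ((D / x) ^ ((1 : ℝ) / 3)) ≤ min 1 ((D' / x) ^ ((1 : ℝ) / 3)) := by
    refine min_le_min le_rfl ?_
    gcongr
  have c3 : min 1 ((E / x) ^ 2) ≤ min 1 ((E' / x) ^ 2) := by
    refine min_le_min le_rfl ?_
    gcongr
  have c4 : 0 ≤ min 1 ((E / x) ^ 2) := le_min zero_le_one (by positivity)
  have c5 : 0 ≤ min 1 ((D' / x) ^ ((1 : ℝ) / 3)) :=
    le_min zero_le_one (Real.rpow_nonneg (div_nonneg (hD.trans h1) hx) _)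
  gcongr

lemma Gw_le {D E x : ℝ} (hD : 0 ≤ D) (hx : 0 < x) :
    Gw D E x ≤ E ^ 2 * x ^ (-(7 : ℝ) / 3) := by
  unfold Gw
  have h1 : min 1 ((D / x) ^ ((1 : ℝ) / 3)) ≤ 1 := min_le_left _ _
  have h1' : 0 ≤ min 1 ((D / x) ^ ((1 : ℝ) / 3)) := le_min zero_le_one (by positivity)
  have h2 : min 1 ((E / x) ^ 2) ≤ (E / x) ^ 2 := min_le_right _ _
  have h2' : 0 ≤ min 1 ((E / x) ^ 2) := le_min zero_le_one (by positivity)
  calc x ^ (-(1 : ℝ) / 3) * (min 1 ((D / x) ^ ((1 : ℝ) / 3)) * min 1 ((E / x) ^ 2))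
      ≤ x ^ (-(1 : ℝ) / 3) * (1 * (E / x) ^ 2) := by gcongr
    _ = E ^ 2 * (x ^ (-(1 : ℝ) / 3) * x ^ (-(2 : ℝ))) := by
        have : x ^ (-(2 : ℝ)) = (x ^ 2)⁻¹ := by
          rw [Real.rpow_neg hx.le]; norm_num
        rw [this]; ring
    _ = _ := by rw [← Real.rpow_add hx]; norm_num

lemma Br_scale {N Z D E k : ℝ} (hN : 0 ≤ N) (hZ : 0 ≤ Z) (hD : 0 ≤ D) (hE : 0 ≤ E) (hk : 1 ≤ k) :
    Br N Z (k * D) (k * E) ≤ k * Br N Z D E := by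
  have hk0 : 0 ≤ k := by linarith
  have a1 : k ^ ((1 : ℝ) / 3) ≤ k := by
    calc k ^ ((1 : ℝ) / 3) ≤ k ^ (1 : ℝ) := Real.rpow_le_rpow_of_exponent_le hk (by norm_num)
      _ = k := Real.rpow_one k
  have a2 : k ^ ((1 : ℝ) / 3) * k ^ ((1 : ℝ) / 6) ≤ k := by
    rw [← Real.rpow_add (by linarith)]
    calc k ^ ((1 : ℝ) / 3 + 1 / 6) ≤ k ^ (1 : ℝ) :=
          Real.rpow_le_rpow_of_exponent_le hk (by norm_num)
      _ = k := Real.rpow_one k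
  unfold Br
  rw [Real.mul_rpow hk0 hD, Real.mul_rpow hk0 hE]
  have b1 : 0 ≤ N ^ ((2 : ℝ) / 3) * D ^ ((1 : ℝ) / 3) := by positivity
  have b2 : 0 ≤ N ^ ((1 : ℝ) / 3) * Z ^ ((1 : ℝ) / 3) := by positivity
  have b3 : 0 ≤ D ^ ((1 : ℝ) / 3) * E ^ ((1 : ℝ) / 6) * N ^ ((1 : ℝ) / 3) := by positivity
  calc N ^ ((2 : ℝ) / 3) * (k ^ ((1 : ℝ) / 3) * D ^ ((1 : ℝ) / 3)) +
        N ^ ((1 : ℝ) / 3) * Z ^ ((1 : ℝ) / 3) +
        k ^ ((1 : ℝ) / 3) * D ^ ((1 : ℝ) / 3) * (k ^ ((1 : ℝ) / 6) * E ^ ((1 : ℝ) / 6)) *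
          N ^ ((1 : ℝ) / 3)
      = k ^ ((1 : ℝ) / 3) * (N ^ ((2 : ℝ) / 3) * D ^ ((1 : ℝ) / 3)) +
        1 * (N ^ ((1 : ℝ) / 3) * Z ^ ((1 : ℝ) / 3)) +
        (k ^ ((1 : ℝ) / 3) * k ^ ((1 : ℝ) / 6)) *
          (D ^ ((1 : ℝ) / 3) * E ^ ((1 : ℝ) / 6) * N ^ ((1 : ℝ) / 3)) := by ring
    _ ≤ k * (N ^ ((2 : ℝ) / 3) * D ^ ((1 : ℝ) / 3)) +
        k * (N ^ ((1 : ℝ) / 3) * Z ^ ((1 : ℝ) / 3)) +
        k * (D ^ ((1 : ℝ) / 3) * E ^ ((1 : ℝ) / 6) * N ^ ((1 : ℝ) / 3)) :=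
        add_le_add (add_le_add (mul_le_mul_of_nonneg_right a1 b1)
          (mul_le_mul_of_nonneg_right hk b2)) (mul_le_mul_of_nonneg_right a2 b3)
    _ = _ := by ring

/-! ### the exponents -/

/-- the normalised lengths -/
def D1 (Z q a g₁ β : ℝ) : ℝ := Z * a * β ^ 2 / (q * g₁ ^ 2)

def E1 (N Z q a g₂ g₁ β : ℝ) : ℝ := D1 Z q a g₁ β + N * β ^ 2 / (a * g₂ * g₁ ^ 2)

lemma exp_rpow (x y : ℝ) : Real.exp x ^ y = Real.exp (x * y) := (Real.exp_mul x y).symm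

/-- **the exponents** of the dual part -/
theorem expo {N Z q a g₂ g₁ β : ℝ} (hN : 1 ≤ N) (hZ : 1 ≤ Z) (hq : 1 ≤ q) (ha : 1 ≤ a) (hg₂ : 1 ≤ g₂)
    (hg₁ : 1 ≤ g₁) (hβ : 1 ≤ β) (h1 : q * β ≤ N) (h2 : a * g₂ * β ≤ N * Z ^ (-(1 : ℝ) / 2)) :
    Z ^ ((2 : ℝ) / 3) * (q ^ (-(1 : ℝ) / 3) * g₂ ^ (-(1 : ℝ) / 3) * β ^ (-(2 : ℝ) / 3) *
      a ^ (-(2 : ℝ) / 3) * (β / (g₁ * g₂) ^ 2) ^ ((1 : ℝ) / 3)) *
        Br (N / (a * g₁)) Z (D1 Z q a g₁ β) (E1 N Z q a g₂ g₁ β) ≤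
      4 * (N * (Z + N)) * (q⁻¹ * g₂⁻¹ * a⁻¹ * g₁⁻¹) := by
  obtain ⟨n, rfl⟩ : ∃ t, Real.exp t = N := ⟨Real.log N, Real.exp_log (by linarith)⟩
  obtain ⟨z, rfl⟩ : ∃ t, Real.exp t = Z := ⟨Real.log Z, Real.exp_log (by linarith)⟩
  obtain ⟨q, rfl⟩ : ∃ t, Real.exp t = q := ⟨Real.log q, Real.exp_log (by linarith)⟩
  obtain ⟨a, rfl⟩ : ∃ t, Real.exp t = a := ⟨Real.log a, Real.exp_log (by linarith)⟩
  obtain ⟨g₂, rfl⟩ : ∃ t, Real.exp t = g₂ := ⟨Real.log g₂, Real.exp_log (by linarith)⟩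
  obtain ⟨g₁, rfl⟩ : ∃ t, Real.exp t = g₁ := ⟨Real.log g₁, Real.exp_log (by linarith)⟩
  obtain ⟨β, rfl⟩ : ∃ t, Real.exp t = β := ⟨Real.log β, Real.exp_log (by linarith)⟩
  rw [Real.one_le_exp_iff] at hN hZ hq ha hg₂ hg₁ hβ
  rw [← Real.exp_add, Real.exp_le_exp] at h1
  rw [exp_rpow, ← Real.exp_add, ← Real.exp_add, ← Real.exp_add, Real.exp_le_exp] at h2
  have hD : D1 (Real.exp z) (Real.exp q) (Real.exp a) (Real.exp g₁) (Real.exp β) =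
      Real.exp (z + a + 2 * β - q - 2 * g₁) := by
    unfold D1
    rw [← Real.exp_nat_mul, ← Real.exp_nat_mul, ← Real.exp_add, ← Real.exp_add, ← Real.exp_add,
      ← Real.exp_sub]
    congr 1; push_cast; ring
  have hE2 : Real.exp n * Real.exp β ^ 2 / (Real.exp a * Real.exp g₂ * Real.exp g₁ ^ 2) =
      Real.exp (n + 2 * β - a - g₂ - 2 * g₁) := by
    rw [← Real.exp_nat_mul, ← Real.exp_nat_mul, ← Real.exp_add, ← Real.exp_add, ← Real.exp_add,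
      ← Real.exp_sub]
    congr 1; push_cast; ring
  have hN' : Real.exp n / (Real.exp a * Real.exp g₁) = Real.exp (n - a - g₁) := by
    rw [← Real.exp_add, ← Real.exp_sub]; congr 1; ring
  have hp : Real.exp z ^ ((2 : ℝ) / 3) * (Real.exp q ^ (-(1 : ℝ) / 3) * Real.exp g₂ ^ (-(1 : ℝ) / 3) *
      Real.exp β ^ (-(2 : ℝ) / 3) * Real.exp a ^ (-(2 : ℝ) / 3) *
      (Real.exp β / (Real.exp g₁ * Real.exp g₂) ^ 2) ^ ((1 : ℝ) / 3)) =
      Real.exp (2 / 3 * z - q / 3 - g₂ - β / 3 - 2 / 3 * a - 2 / 3 * g₁) := by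
    rw [← Real.exp_add, ← Real.exp_nat_mul, ← Real.exp_sub]
    simp only [exp_rpow, ← Real.exp_add]
    congr 1; push_cast; ring
  -- the sixth root
  have hsix : (E1 (Real.exp n) (Real.exp z) (Real.exp q) (Real.exp a) (Real.exp g₂) (Real.exp g₁)
      (Real.exp β)) ^ ((1 : ℝ) / 6) ≤ Real.exp ((z + a + 2 * β - q - 2 * g₁) / 6) +
        Real.exp ((n + 2 * β - a - g₂ - 2 * g₁) / 6) := by
    unfold E1
    rw [hD, hE2]
    refine (Real.rpow_add_le_add_rpow (Real.exp_pos _).le (Real.exp_pos _).le (by norm_num)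
      (by norm_num)).trans (le_of_eq ?_)
    rw [exp_rpow, exp_rpow]
    congr 2 <;> ring
  have hBr : Br (Real.exp n / (Real.exp a * Real.exp g₁)) (Real.exp z)
      (D1 (Real.exp z) (Real.exp q) (Real.exp a) (Real.exp g₁) (Real.exp β))
      (E1 (Real.exp n) (Real.exp z) (Real.exp q) (Real.exp a) (Real.exp g₂) (Real.exp g₁)
        (Real.exp β)) ≤
      Real.exp (2 / 3 * (n - a - g₁) + (z + a + 2 * β - q - 2 * g₁) / 3) +
      Real.exp ((n - a - g₁) / 3 + z / 3) +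
      (Real.exp ((z + a + 2 * β - q - 2 * g₁) / 3 + (z + a + 2 * β - q - 2 * g₁) / 6 +
        (n - a - g₁) / 3) +
      Real.exp ((z + a + 2 * β - q - 2 * g₁) / 3 + (n + 2 * β - a - g₂ - 2 * g₁) / 6 +
        (n - a - g₁) / 3)) := by
    unfold Br
    rw [hN', hD]
    have e1 : Real.exp (n - a - g₁) ^ ((2 : ℝ) / 3) *
        Real.exp (z + a + 2 * β - q - 2 * g₁) ^ ((1 : ℝ) / 3) =
        Real.exp (2 / 3 * (n - a - g₁) + (z + a + 2 * β - q - 2 * g₁) / 3) := by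
      rw [exp_rpow, exp_rpow, ← Real.exp_add]; congr 1; ring
    have e2 : Real.exp (n - a - g₁) ^ ((1 : ℝ) / 3) * Real.exp z ^ ((1 : ℝ) / 3) =
        Real.exp ((n - a - g₁) / 3 + z / 3) := by
      rw [exp_rpow, exp_rpow, ← Real.exp_add]; congr 1; ring
    rw [e1, e2]
    refine add_le_add le_rfl ?_
    calc Real.exp (z + a + 2 * β - q - 2 * g₁) ^ ((1 : ℝ) / 3) *
          (E1 (Real.exp n) (Real.exp z) (Real.exp q) (Real.exp a) (Real.exp g₂) (Real.exp g₁)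
            (Real.exp β)) ^ ((1 : ℝ) / 6) * Real.exp (n - a - g₁) ^ ((1 : ℝ) / 3)
        ≤ Real.exp (z + a + 2 * β - q - 2 * g₁) ^ ((1 : ℝ) / 3) *
          (Real.exp ((z + a + 2 * β - q - 2 * g₁) / 6) +
            Real.exp ((n + 2 * β - a - g₂ - 2 * g₁) / 6)) *
            Real.exp (n - a - g₁) ^ ((1 : ℝ) / 3) := by gcongr
      _ = _ := by
          rw [exp_rpow, exp_rpow, mul_add, add_mul, ← Real.exp_add, ← Real.exp_add, ← Real.exp_add,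
            ← Real.exp_add]
          refine congrArg₂ (· + ·) (congrArg Real.exp ?_) (congrArg Real.exp ?_) <;> ring
  rw [hp]
  have hR : ∀ t : ℝ, t ≤ n + z ∨ t ≤ n + n →
      Real.exp (t - q - g₂ - a - g₁) ≤ Real.exp n * (Real.exp z + Real.exp n) *
        ((Real.exp q)⁻¹ * (Real.exp g₂)⁻¹ * (Real.exp a)⁻¹ * (Real.exp g₁)⁻¹) := by
    intro t ht
    have e1 : (Real.exp q)⁻¹ * (Real.exp g₂)⁻¹ * (Real.exp a)⁻¹ * (Real.exp g₁)⁻¹ =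
        Real.exp (-q - g₂ - a - g₁) := by
      rw [← Real.exp_neg, ← Real.exp_neg, ← Real.exp_neg, ← Real.exp_neg, ← Real.exp_add,
        ← Real.exp_add, ← Real.exp_add]
      exact congrArg Real.exp (by ring)
    rw [e1, show t - q - g₂ - a - g₁ = t + (-q - g₂ - a - g₁) by ring, Real.exp_add]
    refine mul_le_mul_of_nonneg_right ?_ (Real.exp_pos _).le
    rw [mul_add, ← Real.exp_add, ← Real.exp_add]
    rcases ht with h | h
    · have := Real.exp_le_exp.mpr h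
      linarith [Real.exp_pos (n + n)]
    · have := Real.exp_le_exp.mpr h
      linarith [Real.exp_pos (n + z)]
  have hkey : Real.exp (2 / 3 * z - q / 3 - g₂ - β / 3 - 2 / 3 * a - 2 / 3 * g₁) *
      (Real.exp (2 / 3 * (n - a - g₁) + (z + a + 2 * β - q - 2 * g₁) / 3) +
      Real.exp ((n - a - g₁) / 3 + z / 3) +
      (Real.exp ((z + a + 2 * β - q - 2 * g₁) / 3 + (z + a + 2 * β - q - 2 * g₁) / 6 +
        (n - a - g₁) / 3) +
      Real.exp ((z + a + 2 * β - q - 2 * g₁) / 3 + (n + 2 * β - a - g₂ - 2 * g₁) / 6 +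
        (n - a - g₁) / 3))) ≤ 4 * (Real.exp n * (Real.exp z + Real.exp n)) *
        ((Real.exp q)⁻¹ * (Real.exp g₂)⁻¹ * (Real.exp a)⁻¹ * (Real.exp g₁)⁻¹) := by
    have t1 : Real.exp (2 / 3 * z - q / 3 - g₂ - β / 3 - 2 / 3 * a - 2 / 3 * g₁) *
        Real.exp (2 / 3 * (n - a - g₁) + (z + a + 2 * β - q - 2 * g₁) / 3) ≤
        Real.exp ((n + z) - q - g₂ - a - g₁) := by
      rw [← Real.exp_add, Real.exp_le_exp]; linarith
    have t2 : Real.exp (2 / 3 * z - q / 3 - g₂ - β / 3 - 2 / 3 * a - 2 / 3 * g₁) *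
        Real.exp ((n - a - g₁) / 3 + z / 3) ≤ Real.exp ((n + z) - q - g₂ - a - g₁) := by
      rw [← Real.exp_add, Real.exp_le_exp]; linarith
    have t3 : Real.exp (2 / 3 * z - q / 3 - g₂ - β / 3 - 2 / 3 * a - 2 / 3 * g₁) *
        Real.exp ((z + a + 2 * β - q - 2 * g₁) / 3 + (z + a + 2 * β - q - 2 * g₁) / 6 +
        (n - a - g₁) / 3) ≤ Real.exp ((n + z) - q - g₂ - a - g₁) := by
      rw [← Real.exp_add, Real.exp_le_exp]; linarith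
    have t4 : Real.exp (2 / 3 * z - q / 3 - g₂ - β / 3 - 2 / 3 * a - 2 / 3 * g₁) *
        Real.exp ((z + a + 2 * β - q - 2 * g₁) / 3 + (n + 2 * β - a - g₂ - 2 * g₁) / 6 +
        (n - a - g₁) / 3) ≤ Real.exp ((n + max z n) - q - g₂ - a - g₁) := by
      rw [← Real.exp_add, Real.exp_le_exp]
      rcases max_cases z n with ⟨h, h'⟩ | ⟨h, h'⟩ <;> rw [h] <;> linarith
    have r1 := hR (n + z) (Or.inl le_rfl)
    have r2 := hR (n + max z n) (by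
      rcases max_cases z n with ⟨h, h'⟩ | ⟨h, h'⟩ <;> rw [h]
      · exact Or.inl le_rfl
      · exact Or.inr le_rfl)
    rw [mul_add, mul_add, mul_add]
    linarith
  exact (mul_le_mul_of_nonneg_left hBr (Real.exp_pos _).le).trans hkey

end Crest.Agent.R017.X6545
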