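import Crest.Agent.R017.X6H0_545

/-!
# Row 17, exceptional class, X6 (E), dual part, 6 (helper545): the core
-/

set_option autoImplicit false

noncomputable section

open scoped ComplexConjugate

namespace Crest.Agent.R017.X6545

open Crest.Agent.R012 Crest.Agent.R012.Eis Crest.Agent.R012.Gauss880
open Crest.Agent.R012.LS2 Crest.Agent.R012.Div277
open Crest.Agent.R017.PA842 (Supp)
open Crest.Agent.R017.PX764 (th n6 Gh Cross cD)

open Classical in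
lemma reidx {X N : ℝ} (hX : 0 ≤ X) (F : Eis → Eis → Eis → ENNReal) :
    ∑ m₁ ∈ (S X).filter (fun m => (nm m : ℝ) ≤ N), ∑ b ∈ dvs m₁, ∑ g₂ ∈ dvs b, F m₁ b g₂ ≤
      ∑ q ∈ S X, ∑ g₂ ∈ S X, ∑ b' ∈ S X,
        if (nm q : ℝ) * nm b' ≤ N then F (q * b') (g₂ * b') g₂ else 0 := by
  have e1 : ∑ m₁ ∈ (S X).filter (fun m => (nm m : ℝ) ≤ N), ∑ b ∈ dvs m₁, ∑ g₂ ∈ dvs b, F m₁ b g₂ =
      ∑ y ∈ ((S X).filter (fun m => (nm m : ℝ) ≤ N)).sigma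
        (fun m₁ => (dvs m₁).sigma (fun b => dvs b)), F y.1 y.2.1 y.2.2 := by
    rw [Finset.sum_sigma]
    refine Finset.sum_congr rfl fun m₁ _ => ?_
    rw [Finset.sum_sigma]
  have e2 : ∑ q ∈ S X, ∑ g₂ ∈ S X, ∑ b' ∈ S X,
        (if (nm q : ℝ) * nm b' ≤ N then F (q * b') (g₂ * b') g₂ else 0) =
      ∑ y ∈ S X ×ˢ S X ×ˢ S X, if (nm y.1 : ℝ) * nm y.2.2 ≤ N then
        F (y.1 * y.2.2) (y.2.1 * y.2.2) y.2.1 else 0 := by
    rw [Finset.sum_product]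
    refine Finset.sum_congr rfl fun q _ => ?_
    rw [Finset.sum_product]
  rw [e1, e2]
  have key : ∀ y ∈ ((S X).filter (fun m => (nm m : ℝ) ≤ N)).sigma
        (fun m₁ => (dvs m₁).sigma (fun b => dvs b)), ∃ q b' : Eis,
        y.1 = q * b' ∧ y.2.1 = y.2.2 * b' ∧ y.1 / (y.2.1 / y.2.2) = q ∧ y.2.1 / y.2.2 = b' ∧
        q ∈ S X ∧ b' ∈ S X ∧ y.2.2 ∈ S X ∧ (nm q : ℝ) * nm b' ≤ N := by
    rintro ⟨m₁, b, g₂⟩ hy
    rw [Finset.mem_sigma, Finset.mem_sigma, Finset.mem_filter] at hy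
    obtain ⟨⟨hm, hmN⟩, hb, hg⟩ := hy
    obtain ⟨h1, h2, h3⟩ := (mem_S hX).1 hm
    obtain ⟨hbp, hbm⟩ := (mem_dvs h2.ne_zero).1 hb
    obtain ⟨hgp, b', hgb⟩ := (mem_dvs hbp.ne_zero).1 hg
    obtain ⟨c, hc⟩ := hbm
    dsimp only at hgb hc hm hmN h1 h2 h3 hbp hgp ⊢
    have hb'p : IsPrim b' := IsPrim.of_mul_left (hgb ▸ hbp) hgp
    have hcp : IsPrim c := IsPrim.of_mul_left (hc ▸ h2) hbp
    have hmq : m₁ = (g₂ * c) * b' := by rw [hc, hgb]; ring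
    have hqp : IsPrim (g₂ * c) := hgp.mul hcp
    have hm1 : (nm m₁ : ℝ) = nm (g₂ * c) * nm b' := by rw [hmq, nm_mul]; push_cast; ring
    have eb : b / g₂ = b' := by rw [hgb, mul_div_cancel_left₀ _ hgp.ne_zero]
    have em : m₁ / b' = g₂ * c := by rw [hmq, mul_div_cancel_right₀ _ hb'p.ne_zero]
    have n1 := nm1 hqp.ne_zero
    have n2 := nm1 hb'p.ne_zero
    have hsq : Squarefree ((g₂ * c) * b') := hmq ▸ h3
    have hg2 : (nm g₂ : ℝ) ≤ nm (g₂ * c) := by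
      rw [nm_mul]; push_cast
      exact le_mul_of_one_le_right (Nat.cast_nonneg _) (nm1 hcp.ne_zero)
    refine ⟨g₂ * c, b', hmq, hgb, by rw [eb, em], eb, ?_, ?_, ?_, ?_⟩
    · rw [mem_S hX]; exact ⟨by nlinarith, hqp, hsq.of_mul_left⟩
    · rw [mem_S hX]; exact ⟨by nlinarith, hb'p, hsq.of_mul_right⟩
    · rw [mem_S hX]; exact ⟨by nlinarith, hgp, hsq.of_mul_left.of_mul_left⟩
    · rw [← hm1]; exact hmN
  refine sum_inj_le _ _ (fun y => (y.1 / (y.2.1 / y.2.2), y.2.2, y.2.1 / y.2.2)) ?_ ?_ _ _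
    (fun _ _ => zero_le) ?_
  · intro y hy
    obtain ⟨q, b', h1, h2, h3, h4, h5, h6, h7, h8⟩ := key y hy
    rw [Finset.mem_product, Finset.mem_product]
    dsimp only
    rw [h3, h4]
    exact ⟨h5, h7, h6⟩
  · intro y hy z hz h
    obtain ⟨q, b', h1, h2, h3, h4, h5, h6, h7, h8⟩ := key y hy
    obtain ⟨q', b'', h1', h2', h3', h4', -⟩ := key z hz
    dsimp only at h
    rw [h3, h4, h3', h4'] at h
    rw [Prod.mk.injEq, Prod.mk.injEq] at h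
    obtain ⟨hq, hg, hb⟩ := h
    obtain ⟨y1, y2, y3⟩ := y
    obtain ⟨z1, z2, z3⟩ := z
    dsimp only at h1 h2 h1' h2' hg
    subst hq hg hb
    rw [h1, h2, h1', h2']
  · intro y hy
    obtain ⟨q, b', h1, h2, h3, h4, h5, h6, h7, h8⟩ := key y hy
    dsimp only
    rw [h3, h4, if_pos h8, ← h1, ← h2]

lemma c1_pos : 0 < c1 := by unfold c1; positivity

lemma c1_ge : 4 / c1 ≤ 56 := by
  have h := c1_pos
  rw [div_le_iff₀ h]
  unfold c1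
  rw [mul_div_assoc', le_div_iff₀ (by positivity)]
  nlinarith [Real.pi_gt_three, Real.pi_lt_d2]

/-- the weights in one block -/
lemma wt_le {N Z q a g₂ g₁ β b y : ℝ} (hN : 0 ≤ N) (hZ : 0 < Z) (hq : 0 < q) (ha : 0 < a)
    (hg₂ : 0 < g₂) (hg₁ : 0 < g₁) (hβ : 0 < β) (hb : β ≤ b) (hb2 : b ≤ 2 * β) (hy : 0 ≤ y) :
    (q * b) ^ (-(1 : ℝ) / 3) * (g₂ * b) ^ (-(1 : ℝ) / 3) * a ^ (-(2 : ℝ) / 3) *
      Gw (Z * a * (g₂ * b) ^ 2 / (c1 * (q * b)))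
        (max 1 (c1 * (q * b) * N / (Z * a ^ 2 * (g₂ * b))) * (Z * a * (g₂ * b) ^ 2 / (c1 * (q * b))))
        (y / (b / (g₁ * g₂) ^ 2)) ≤
      2 * (q ^ (-(1 : ℝ) / 3) * g₂ ^ (-(1 : ℝ) / 3) * β ^ (-(2 : ℝ) / 3) *
        a ^ (-(2 : ℝ) / 3) * (β / (g₁ * g₂) ^ 2) ^ ((1 : ℝ) / 3)) *
        Gw (56 * D1 Z q a g₁ β) (56 * E1 N Z q a g₂ g₁ β) y := by
  have hc := c1_pos
  have hb0 : 0 < b := hβ.trans_le hb
  have hs : 0 < b / (g₁ * g₂) ^ 2 := by positivity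
  set D0 : ℝ := Z * a * (g₂ * b) ^ 2 / (c1 * (q * b)) with hD0
  have hD00 : 0 < D0 := by positivity
  rw [Gw_scale hy hs]
  have hD1 : 0 ≤ D1 Z q a g₁ β := by unfold D1; positivity
  have hbb : b ^ 2 ≤ 4 * β ^ 2 := by nlinarith
  have hDs : D0 * (b / (g₁ * g₂) ^ 2) = (1 / c1) * (Z * a * b ^ 2 / (q * g₁ ^ 2)) := by
    rw [hD0]; field_simp
  have hDle : D0 * (b / (g₁ * g₂) ^ 2) ≤ 56 * D1 Z q a g₁ β := by
    rw [hDs]
    calc (1 / c1) * (Z * a * b ^ 2 / (q * g₁ ^ 2)) ≤ (1 / c1) * (Z * a * (4 * β ^ 2) / (q * g₁ ^ 2)) := by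
          gcongr
      _ = (4 / c1) * D1 Z q a g₁ β := by unfold D1; ring
      _ ≤ _ := mul_le_mul_of_nonneg_right c1_ge hD1
  have hEle : max 1 (c1 * (q * b) * N / (Z * a ^ 2 * (g₂ * b))) * D0 * (b / (g₁ * g₂) ^ 2) ≤
      56 * E1 N Z q a g₂ g₁ β := by
    have h1 : max 1 (c1 * (q * b) * N / (Z * a ^ 2 * (g₂ * b))) ≤
        1 + c1 * (q * b) * N / (Z * a ^ 2 * (g₂ * b)) :=
      max_le (by linarith [show 0 ≤ c1 * (q * b) * N / (Z * a ^ 2 * (g₂ * b)) by positivity])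
        (by linarith)
    calc max 1 (c1 * (q * b) * N / (Z * a ^ 2 * (g₂ * b))) * D0 * (b / (g₁ * g₂) ^ 2)
        ≤ (1 + c1 * (q * b) * N / (Z * a ^ 2 * (g₂ * b))) * D0 * (b / (g₁ * g₂) ^ 2) := by gcongr
      _ = D0 * (b / (g₁ * g₂) ^ 2) + N * b ^ 2 / (a * g₂ * g₁ ^ 2) := by
          rw [hD0]; field_simp
      _ ≤ 56 * D1 Z q a g₁ β + N * (4 * β ^ 2) / (a * g₂ * g₁ ^ 2) := by gcongr
      _ ≤ 56 * E1 N Z q a g₂ g₁ β := by
          unfold E1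
          have : 0 ≤ N * β ^ 2 / (a * g₂ * g₁ ^ 2) := by positivity
          have e : N * (4 * β ^ 2) / (a * g₂ * g₁ ^ 2) = 4 * (N * β ^ 2 / (a * g₂ * g₁ ^ 2)) := by ring
          rw [e]; linarith
  have hG := Gw_mono (D := D0 * (b / (g₁ * g₂) ^ 2))
    (E := max 1 (c1 * (q * b) * N / (Z * a ^ 2 * (g₂ * b))) * D0 * (b / (g₁ * g₂) ^ 2)) (by positivity)
    (by positivity) hy hDle hEle
  have hG0 := Gw_nonneg (E := 56 * E1 N Z q a g₂ g₁ β)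
    (show 0 ≤ 56 * D1 Z q a g₁ β by positivity) hy
  have p1 : (q * b) ^ (-(1 : ℝ) / 3) ≤ q ^ (-(1 : ℝ) / 3) * β ^ (-(1 : ℝ) / 3) := by
    rw [Real.mul_rpow hq.le hb0.le]
    exact mul_le_mul_of_nonneg_left (Real.rpow_le_rpow_of_nonpos hβ hb (by norm_num)) (by positivity)
  have p2 : (g₂ * b) ^ (-(1 : ℝ) / 3) ≤ g₂ ^ (-(1 : ℝ) / 3) * β ^ (-(1 : ℝ) / 3) := by
    rw [Real.mul_rpow hg₂.le hb0.le]
    exact mul_le_mul_of_nonneg_left (Real.rpow_le_rpow_of_nonpos hβ hb (by norm_num)) (by positivity)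
  have p3 : (b / (g₁ * g₂) ^ 2) ^ ((1 : ℝ) / 3) ≤ 2 * (β / (g₁ * g₂) ^ 2) ^ ((1 : ℝ) / 3) := by
    calc (b / (g₁ * g₂) ^ 2) ^ ((1 : ℝ) / 3) ≤ (2 * (β / (g₁ * g₂) ^ 2)) ^ ((1 : ℝ) / 3) := by
          rw [← mul_div_assoc]; gcongr
      _ = (2 : ℝ) ^ ((1 : ℝ) / 3) * (β / (g₁ * g₂) ^ 2) ^ ((1 : ℝ) / 3) :=
          Real.mul_rpow (by norm_num) (by positivity)
      _ ≤ 2 * (β / (g₁ * g₂) ^ 2) ^ ((1 : ℝ) / 3) := by
          refine mul_le_mul_of_nonneg_right ?_ (by positivity)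
          calc (2 : ℝ) ^ ((1 : ℝ) / 3) ≤ 2 ^ (1 : ℝ) :=
                Real.rpow_le_rpow_of_exponent_le (by norm_num) (by norm_num)
            _ = 2 := Real.rpow_one 2
  have e3 : β ^ (-(2 : ℝ) / 3) = β ^ (-(1 : ℝ) / 3) * β ^ (-(1 : ℝ) / 3) := by
    rw [← Real.rpow_add hβ]; norm_num
  calc (q * b) ^ (-(1 : ℝ) / 3) * (g₂ * b) ^ (-(1 : ℝ) / 3) * a ^ (-(2 : ℝ) / 3) *
        ((b / (g₁ * g₂) ^ 2) ^ ((1 : ℝ) / 3) * Gw (D0 * (b / (g₁ * g₂) ^ 2))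
          (max 1 (c1 * (q * b) * N / (Z * a ^ 2 * (g₂ * b))) * D0 * (b / (g₁ * g₂) ^ 2)) y)
      ≤ (q ^ (-(1 : ℝ) / 3) * β ^ (-(1 : ℝ) / 3)) * (g₂ ^ (-(1 : ℝ) / 3) * β ^ (-(1 : ℝ) / 3)) *
          a ^ (-(2 : ℝ) / 3) * ((2 * (β / (g₁ * g₂) ^ 2) ^ ((1 : ℝ) / 3)) *
          Gw (56 * D1 Z q a g₁ β) (56 * E1 N Z q a g₂ g₁ β) y) := by
        gcongr
        · exact mul_nonneg (by positivity) (Gw_nonneg (by positivity) hy)
        · exact Gw_nonneg (by positivity) hy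
    _ = _ := by rw [e3]; ring

lemma E1_le {N Z X q a g₂ g₁ β : ℝ} (hN0 : 0 ≤ N) (hNX : N ≤ X) (hX : 1 ≤ X) (hZ : 1 ≤ Z) (hq : 1 ≤ q)
    (ha : 1 ≤ a) (haX : a ≤ X) (hg₂ : 1 ≤ g₂) (hg₁ : 1 ≤ g₁) (hβ : 1 ≤ β) (hβX : β ≤ X) :
    1 + 56 * E1 N Z q a g₂ g₁ β ≤ 113 * (X * Z) ^ 3 := by
  have h1 : D1 Z q a g₁ β ≤ (X * Z) ^ 3 := by
    unfold D1
    have hden : 1 ≤ q * g₁ ^ 2 := by nlinarith [one_le_pow₀ hg₁ (n := 2)]
    calc Z * a * β ^ 2 / (q * g₁ ^ 2) ≤ Z * a * β ^ 2 := div_le_self (by positivity) hden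
      _ ≤ Z * X * X ^ 2 := by gcongr
      _ = Z * X ^ 3 := by ring
      _ ≤ Z ^ 3 * X ^ 3 := by gcongr; exact le_self_pow₀ hZ (by norm_num)
      _ = _ := by ring
  have h2 : N * β ^ 2 / (a * g₂ * g₁ ^ 2) ≤ (X * Z) ^ 3 := by
    have h3 : 1 ≤ a * g₂ := by nlinarith
    have hden : 1 ≤ a * g₂ * g₁ ^ 2 := by nlinarith [one_le_pow₀ hg₁ (n := 2)]
    calc N * β ^ 2 / (a * g₂ * g₁ ^ 2) ≤ N * β ^ 2 := div_le_self (by positivity) hden
      _ ≤ X * X ^ 2 := by gcongr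
      _ = X ^ 3 * 1 := by ring
      _ ≤ X ^ 3 * Z ^ 3 := by gcongr; exact one_le_pow₀ hZ
      _ = _ := by ring
  have h3 : 1 ≤ (X * Z) ^ 3 := one_le_pow₀ (by nlinarith)
  unfold E1
  linarith

lemma fin_le {η : ℝ} (hη : 0 < η) (hη1 : η ≤ 1 / 8) {X N Z q a g₂ g₁ β : ℝ} (hN : 1 ≤ N)
    (hNX : N ≤ X) (hZ : 1 ≤ Z) (hq : 1 ≤ q) (ha : 1 ≤ a) (haX : a ≤ X) (hg₂ : 1 ≤ g₂)
    (hg₁ : 1 ≤ g₁) (hβ : 1 ≤ β) (h1 : q * β ≤ N) (h2 : a * g₂ * β ≤ N * Z ^ (-(1 : ℝ) / 2)) :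
    Z ^ ((2 : ℝ) / 3) * (2 * (q ^ (-(1 : ℝ) / 3) * g₂ ^ (-(1 : ℝ) / 3) * β ^ (-(2 : ℝ) / 3) *
      a ^ (-(2 : ℝ) / 3) * (β / (g₁ * g₂) ^ 2) ^ ((1 : ℝ) / 3))) *
      (X ^ η * q ^ η * (1 + 56 * E1 N Z q a g₂ g₁ β) ^ (4 * η) *
        Br (N / (a * g₁)) Z (56 * D1 Z q a g₁ β) (56 * E1 N Z q a g₂ g₁ β)) ≤
      (50624 * ((X * Z) ^ (15 * η) * (N * (Z + N))) * (q⁻¹ * g₂⁻¹ * a⁻¹ * g₁⁻¹)) * β ^ (-η) := by
  have hX : 1 ≤ X := hN.trans hNX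
  have hβX : β ≤ X := by nlinarith
  have hqX : q ≤ X := by nlinarith
  have hXZ : 1 ≤ X * Z := by nlinarith
  have hexp := expo hN hZ hq ha hg₂ hg₁ hβ h1 h2
  have hE := E1_le (by linarith) hNX hX hZ hq ha haX hg₂ hg₁ hβ hβX
  have hD0 : 0 ≤ D1 Z q a g₁ β := by unfold D1; positivity
  have hE0 : 0 ≤ E1 N Z q a g₂ g₁ β := by unfold E1; positivity
  have hBs := Br_scale (N := N / (a * g₁)) (Z := Z) (k := 56) (by positivity) (by linarith) hD0 hE0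
    (by norm_num)
  have hBr0 : 0 ≤ Br (N / (a * g₁)) Z (D1 Z q a g₁ β) (E1 N Z q a g₂ g₁ β) :=
    Br_nonneg (by positivity) (by linarith) hD0 hE0
  -- the powers
  have p1 : (1 + 56 * E1 N Z q a g₂ g₁ β) ^ (4 * η) ≤ 113 * (X * Z) ^ (12 * η) := by
    calc (1 + 56 * E1 N Z q a g₂ g₁ β) ^ (4 * η) ≤ (113 * (X * Z) ^ 3) ^ (4 * η) := by gcongr
      _ = (113 : ℝ) ^ (4 * η) * (X * Z) ^ (12 * η) := by
          rw [Real.mul_rpow (by norm_num) (by positivity), ← Real.rpow_natCast (X * Z),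
            ← Real.rpow_mul (by positivity)]
          congr 2; push_cast; ring
      _ ≤ 113 * (X * Z) ^ (12 * η) := by
          refine mul_le_mul_of_nonneg_right ?_ (by positivity)
          calc (113 : ℝ) ^ (4 * η) ≤ 113 ^ (1 : ℝ) :=
                Real.rpow_le_rpow_of_exponent_le (by norm_num) (by linarith)
            _ = 113 := Real.rpow_one _
  have p2 : X ^ η * q ^ η * (113 * (X * Z) ^ (12 * η)) ≤ (113 * (X * Z) ^ (15 * η)) * β ^ (-η) := by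
    have hXX : X ^ η ≤ (X * Z) ^ η := by
      gcongr
      nlinarith
    have hq1 : q ^ η ≤ (X * Z) ^ η := by
      gcongr
      nlinarith
    have hb1 : 1 ≤ (X * Z) ^ η * β ^ (-η) := by
      rw [Real.rpow_neg (by linarith), ← div_eq_mul_inv, one_le_div (by positivity)]
      gcongr
      nlinarith
    have hb0 : 0 < β ^ (-η) := by positivity
    calc X ^ η * q ^ η * (113 * (X * Z) ^ (12 * η))
        ≤ (X * Z) ^ η * (X * Z) ^ η * (113 * (X * Z) ^ (12 * η)) := by gcongr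
      _ ≤ (X * Z) ^ η * (X * Z) ^ η * (113 * (X * Z) ^ (12 * η)) * ((X * Z) ^ η * β ^ (-η)) :=
          le_mul_of_one_le_right (by positivity) hb1
      _ = 113 * ((X * Z) ^ η * (X * Z) ^ η * (X * Z) ^ η * (X * Z) ^ (12 * η)) * β ^ (-η) := by ring
      _ = _ := by
          rw [← Real.rpow_add (by positivity), ← Real.rpow_add (by positivity),
            ← Real.rpow_add (by positivity)]
          congr 3; ring
  set pref : ℝ := q ^ (-(1 : ℝ) / 3) * g₂ ^ (-(1 : ℝ) / 3) * β ^ (-(2 : ℝ) / 3) *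
      a ^ (-(2 : ℝ) / 3) * (β / (g₁ * g₂) ^ 2) ^ ((1 : ℝ) / 3) with hpref
  have hpref0 : 0 ≤ pref := by positivity
  calc Z ^ ((2 : ℝ) / 3) * (2 * pref) * (X ^ η * q ^ η * (1 + 56 * E1 N Z q a g₂ g₁ β) ^ (4 * η) *
        Br (N / (a * g₁)) Z (56 * D1 Z q a g₁ β) (56 * E1 N Z q a g₂ g₁ β))
      ≤ Z ^ ((2 : ℝ) / 3) * (2 * pref) * (X ^ η * q ^ η * (113 * (X * Z) ^ (12 * η)) *
        (56 * Br (N / (a * g₁)) Z (D1 Z q a g₁ β) (E1 N Z q a g₂ g₁ β))) := by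
        gcongr
        exact Br_nonneg (by positivity) (by linarith) (by positivity) (by positivity)
    _ = 112 * (X ^ η * q ^ η * (113 * (X * Z) ^ (12 * η))) *
        (Z ^ ((2 : ℝ) / 3) * pref * Br (N / (a * g₁)) Z (D1 Z q a g₁ β) (E1 N Z q a g₂ g₁ β)) := by ring
    _ ≤ 112 * ((113 * (X * Z) ^ (15 * η)) * β ^ (-η)) *
        (4 * (N * (Z + N)) * (q⁻¹ * g₂⁻¹ * a⁻¹ * g₁⁻¹)) := by
        gcongr
    _ = _ := by ring

lemma cover_blk {X : ℝ} (hX : 0 ≤ X) (f : Eis → ENNReal) :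
    ∑ b ∈ S X, f b ≤ ∑' i : ℕ, ∑ b ∈ blk i, f b := by
  classical
  have h1 : ∀ b ∈ S X, f b ≤ ∑' i : ℕ, if b ∈ blk i then f b else 0 := by
    intro b hb
    obtain ⟨_, hbp, hbs⟩ := (mem_S hX).1 hb
    obtain ⟨i, hi⟩ := exists_blk hbp hbs
    calc f b = if b ∈ blk i then f b else 0 := (if_pos hi).symm
      _ ≤ _ := ENNReal.le_tsum (f := fun i : ℕ => if b ∈ blk i then f b else 0) i
  refine (Finset.sum_le_sum h1).trans ?_
  rw [← Summable.tsum_finsetSum (fun _ _ => ENNReal.summable)]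
  refine ENNReal.tsum_le_tsum fun i => ?_
  rw [← Finset.sum_filter]
  refine Finset.sum_le_sum_of_subset ?_
  intro b hb
  exact (Finset.mem_filter.1 hb).2

/-- the powers -/
def Pw (m₁ b a : Eis) : ℝ :=
  (nm m₁ : ℝ) ^ (-(1 : ℝ) / 3) * (nm b : ℝ) ^ (-(1 : ℝ) / 3) * (nm a : ℝ) ^ (-(2 : ℝ) / 3)

lemma Pw_nonneg (m₁ b a : Eis) : 0 ≤ Pw m₁ b a := by unfold Pw; positivity

set_option maxHeartbeats 1600000 in
open Classical in
theorem core_fix {η : ℝ} (hη : 0 < η) (hη1 : η ≤ 1 / 8) : ∃ C : ℝ, 0 ≤ C ∧ ∀ X Z W B : ℝ, 1 ≤ X →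
    1 ≤ Z → 0 ≤ W → 0 ≤ B → ∀ w : Eis → ℂ, Supp w X → (∀ n, ‖w n‖ ≤ W) →
    ∀ d ∈ S X, HSk w X Z d B (2 * η) → ∀ δj : Eis, SU δj → ∀ q ∈ S X, ∀ g₂ ∈ S X, ∀ a ∈ S X,
      ∀ g₁ ∈ S X,
      ∑ b' ∈ S X, (if (nm q : ℝ) * nm b' ≤ X / nm d ∧ (nm a : ℝ) * nm (g₂ * b') ≤ kap X Z d then
        ∑' l : Eis, ENNReal.ofReal (if l = 0 then 0 else Z ^ ((2 : ℝ) / 3) * (Pw (q * b') (g₂ * b') a *
          (Gw (Dz Z (q * b') a (g₂ * b'))
            (Amx (X / nm d) Z (q * b') a (g₂ * b') * Dz Z (q * b') a (g₂ * b'))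
            (nm ((g₁ * g₂) ^ 2 * l)) *
              (‖th (l * b')‖ * ‖TT w X d (a * g₁) q (δj * (l * b'))‖)))) else 0) ≤
        ENNReal.ofReal (C * ((X * Z) ^ (15 * η) * Real.sqrt (B + W ^ 2) *
          ((X / nm d) * (Z + X / nm d))) *
          ((nm q : ℝ)⁻¹ * (nm g₂ : ℝ)⁻¹ * (nm a : ℝ)⁻¹ * (nm g₁ : ℝ)⁻¹)) := by
  obtain ⟨C0, hC0, hxs⟩ := xs hη hη1
  set Si : ℝ := ∑' i : ℕ, ((2 : ℝ) ^ i) ^ (-η) with hSi
  have si := summable_geo (r := 2) (by norm_num) (a := η) hη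
  have hSi0 : 0 ≤ Si := tsum_nonneg fun _ => by positivity
  refine ⟨50624 * C0 * Si, by positivity, ?_⟩
  intro X Z W B hX hZ hW hB w hw hwW d hd hHS δj hδj q hq g₂ hg₂ a ha g₁ hg₁
  have hX0 : 0 ≤ X := by linarith
  obtain ⟨hdX, hdp, _⟩ := (mem_S hX0).1 hd
  obtain ⟨hqX, hqp, _⟩ := (mem_S hX0).1 hq
  obtain ⟨hg₂X, hg₂p, _⟩ := (mem_S hX0).1 hg₂
  obtain ⟨haX, hap, _⟩ := (mem_S hX0).1 ha
  obtain ⟨hg₁X, hg₁p, _⟩ := (mem_S hX0).1 hg₁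
  have hd1 := nm1 hdp.ne_zero
  have hq1 := nm1 hqp.ne_zero
  have hg₂1 := nm1 hg₂p.ne_zero
  have ha1 := nm1 hap.ne_zero
  have hg₁1 := nm1 hg₁p.ne_zero
  set N : ℝ := X / nm d with hN
  have hN1 : 1 ≤ N := by rw [hN, le_div_iff₀ (by linarith)]; linarith
  have hNX : N ≤ X := div_le_self hX0 hd1
  set K : ℝ := C0 * 50624 * ((X * Z) ^ (15 * η) * Real.sqrt (B + W ^ 2) * (N * (Z + N))) *
    ((nm q : ℝ)⁻¹ * (nm g₂ : ℝ)⁻¹ * (nm a : ℝ)⁻¹ * (nm g₁ : ℝ)⁻¹) with hK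
  have hK0 : 0 ≤ K := by positivity
  have hblk : ∀ i : ℕ, ∑ b' ∈ blk i, (if (nm q : ℝ) * nm b' ≤ N ∧
        (nm a : ℝ) * nm (g₂ * b') ≤ kap X Z d then
        ∑' l : Eis, ENNReal.ofReal (if l = 0 then 0 else Z ^ ((2 : ℝ) / 3) * (Pw (q * b') (g₂ * b') a *
          (Gw (Dz Z (q * b') a (g₂ * b')) (Amx N Z (q * b') a (g₂ * b') * Dz Z (q * b') a (g₂ * b'))
            (nm ((g₁ * g₂) ^ 2 * l)) *
              (‖th (l * b')‖ * ‖TT w X d (a * g₁) q (δj * (l * b'))‖)))) else 0) ≤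
        ENNReal.ofReal (K * ((2 : ℝ) ^ i) ^ (-η)) := by
    intro i
    set β : ℝ := (2 : ℝ) ^ i with hβ
    have hβ1 : 1 ≤ β := one_le_pow₀ (by norm_num)
    by_cases hc : (nm q : ℝ) * β ≤ N ∧ (nm a : ℝ) * nm g₂ * β ≤ N * Z ^ (-(1 : ℝ) / 2)
    swap
    · rw [Finset.sum_eq_zero]
      · exact zero_le
      · intro b' hb'
        obtain ⟨hb1, hb2, hbp, _⟩ := mem_blk.1 hb'
        refine if_neg fun h => hc ⟨?_, ?_⟩
        · exact le_trans (by gcongr) h.1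
        · have h3 := h.2
          rw [nm_mul] at h3
          push_cast at h3
          unfold kap at h3
          rw [← hN] at h3
          refine le_trans ?_ h3
          rw [mul_assoc]
          gcongr
    · obtain ⟨hc1, hc2⟩ := hc
      set D' : ℝ := 56 * D1 Z (nm q) (nm a) (nm g₁) β with hD'
      set E' : ℝ := 56 * E1 N Z (nm q) (nm a) (nm g₂) (nm g₁) β with hE'
      have hD0 : 0 ≤ D' := by rw [hD']; unfold D1; positivity
      have hE0 : 0 ≤ E' := by rw [hE']; unfold E1 D1; positivity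
      set Kβ : ℝ := Z ^ ((2 : ℝ) / 3) * (2 * ((nm q : ℝ) ^ (-(1 : ℝ) / 3) *
        (nm g₂ : ℝ) ^ (-(1 : ℝ) / 3) * β ^ (-(2 : ℝ) / 3) * (nm a : ℝ) ^ (-(2 : ℝ) / 3) *
        (β / ((nm g₁ : ℝ) * nm g₂) ^ 2) ^ ((1 : ℝ) / 3))) with hKβ
      have hKβ0 : 0 ≤ Kβ := by positivity
      set H : Eis → ENNReal := fun x => ENNReal.ofReal (Kβ * (Gw D' E' (nm x) *
        (‖th x‖ * ‖TT w X d (a * g₁) q (δj * x)‖))) with hH
      have hstep : ∀ b' ∈ blk i, (if (nm q : ℝ) * nm b' ≤ N ∧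
          (nm a : ℝ) * nm (g₂ * b') ≤ kap X Z d then
          ∑' l : Eis, ENNReal.ofReal (if l = 0 then 0 else Z ^ ((2 : ℝ) / 3) *
          (Pw (q * b') (g₂ * b') a * (Gw (Dz Z (q * b') a (g₂ * b'))
            (Amx N Z (q * b') a (g₂ * b') * Dz Z (q * b') a (g₂ * b'))
            (nm ((g₁ * g₂) ^ 2 * l)) *
              (‖th (l * b')‖ * ‖TT w X d (a * g₁) q (δj * (l * b'))‖)))) else 0) ≤
          ∑' l : Eis, if l = 0 then 0 else H (l * b') := by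
        intro b' hb'
        obtain ⟨hb1, hb2, hbp, _⟩ := mem_blk.1 hb'
        have hb0 := nm0 hbp.ne_zero
        split_ifs with hcc
        swap
        · exact zero_le
        refine ENNReal.tsum_le_tsum fun l => ?_
        by_cases hl : l = 0
        · rw [if_pos hl, if_pos hl]; simp
        rw [if_neg hl, if_neg hl, hH]
        beta_reduce
        refine ENNReal.ofReal_le_ofReal ?_
        have hwt := wt_le (N := N) (Z := Z) (q := nm q) (a := nm a) (g₂ := nm g₂) (g₁ := nm g₁)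
          (β := β) (b := nm b') (y := nm (l * b')) (by linarith) (by linarith) (by linarith)
          (by linarith) (by linarith) (by linarith) (by linarith) hb1
          (by rw [hβ]; rw [pow_succ] at hb2; linarith) (Nat.cast_nonneg _)
        have e1 : (nm ((g₁ * g₂) ^ 2 * l) : ℝ) =
            (nm (l * b') : ℝ) / ((nm b' : ℝ) / ((nm g₁ : ℝ) * nm g₂) ^ 2) := by
          rw [nm_mul, nm_mul, nm_pow, nm_mul]
          push_cast
          field_simp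
        have e2 : Dz Z (q * b') a (g₂ * b') = Z * nm a * ((nm g₂ : ℝ) * nm b') ^ 2 /
            (c1 * ((nm q : ℝ) * nm b')) := by
          unfold Dz
          rw [nm_mul, nm_mul]
          push_cast; rfl
        have e3 : Amx N Z (q * b') a (g₂ * b') = max 1 (c1 * ((nm q : ℝ) * nm b') * N /
            (Z * (nm a : ℝ) ^ 2 * ((nm g₂ : ℝ) * nm b'))) := by
          unfold Amx
          rw [nm_mul, nm_mul]
          push_cast; rfl
        have e4 : Pw (q * b') (g₂ * b') a = ((nm q : ℝ) * nm b') ^ (-(1 : ℝ) / 3) *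
            ((nm g₂ : ℝ) * nm b') ^ (-(1 : ℝ) / 3) * (nm a : ℝ) ^ (-(2 : ℝ) / 3) := by
          unfold Pw
          rw [nm_mul, nm_mul]
          push_cast; rfl
        rw [e1, e2, e3, e4]
        have hR : 0 ≤ ‖th (l * b')‖ * ‖TT w X d (a * g₁) q (δj * (l * b'))‖ := by positivity
        have hZ3 : 0 ≤ Z ^ ((2 : ℝ) / 3) := by positivity
        have := mul_le_mul_of_nonneg_left (mul_le_mul_of_nonneg_right hwt hR) hZ3
        refine le_trans (le_of_eq ?_) (this.trans (le_of_eq ?_))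
        · ring
        · rw [hKβ]; ring
      refine (Finset.sum_le_sum hstep).trans ?_
      refine (merge (blk i) (fun b hb => (mem_blk.1 hb).2.2.1) H).trans ?_
      have hx := hxs X Z W B hX hZ hW hB w hw hwW d (a * g₁) q δj hdp (hap.mul hg₁p) hqp.ne_zero hδj
        hHS D' E' hD0 hE0
      have e5 : ∑' x : Eis, (if x = 0 then 0 else (tau x : ENNReal) * H x) =
          ENNReal.ofReal Kβ * ∑' x : Eis, ENNReal.ofReal (if x = 0 then 0 else (tau x : ℝ) *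
            (Gw D' E' (nm x) * (‖th x‖ * ‖TT w X d (a * g₁) q (δj * x)‖))) := by
        rw [← ENNReal.tsum_mul_left]
        refine tsum_congr fun x => ?_
        by_cases hx0 : x = 0
        · rw [if_pos hx0, if_pos hx0]; simp
        rw [if_neg hx0, if_neg hx0, ← ENNReal.ofReal_mul hKβ0, hH, ← ENNReal.ofReal_natCast,
          ← ENNReal.ofReal_mul (Nat.cast_nonneg _)]
        congr 1; ring
      rw [e5]
      refine (mul_le_mul_right hx (ENNReal.ofReal Kβ)).trans ?_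
      rw [← ENNReal.ofReal_mul hKβ0]
      refine ENNReal.ofReal_le_ofReal ?_
      have hf := fin_le hη hη1 (X := X) (N := N) (Z := Z) (q := nm q) (a := nm a) (g₂ := nm g₂)
        (g₁ := nm g₁) (β := β) hN1 hNX hZ hq1 ha1 haX hg₂1 hg₁1 hβ1 hc1 hc2
      have e6 : N / (nm (a * g₁) : ℝ) = N / ((nm a : ℝ) * nm g₁) := by
        rw [nm_mul]; push_cast; rfl
      rw [e6]
      have hs0 : 0 ≤ C0 * Real.sqrt (B + W ^ 2) := by positivity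
      have := mul_le_mul_of_nonneg_left hf hs0
      refine le_trans (le_of_eq ?_) (this.trans (le_of_eq ?_))
      · rw [hKβ, hE', hD']; ring
      · rw [hK]; ring
  refine (cover_blk hX0 _).trans ((ENNReal.tsum_le_tsum hblk).trans ?_)
  rw [ofReal_tsum_mul (fun i => by positivity) si hK0, ← hSi]
  refine ENNReal.ofReal_le_ofReal (le_of_eq ?_)
  rw [hK]; ring

end Crest.Agent.R017.X6545
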