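import Crest.Agent.R017.X6G6_545

/-!
# Row 17, exceptional class, X6 (E), dual part, 7 (helper545): `coreP`
-/

set_option autoImplicit false

noncomputable section

open scoped ComplexConjugate

namespace Crest.Agent.R017.X6545

open Crest.Agent.R012 Crest.Agent.R012.Eis Crest.Agent.R012.Gauss880
open Crest.Agent.R012.LS2 Crest.Agent.R012.Div277
open Crest.Agent.R017.PA842 (Supp)
open Crest.Agent.R017.PX764 (th n6 Gh Cross cD)

lemma Gw_summable {D E : ℝ} (hD : 0 ≤ D) : Summable fun l : Eis => Gw D E (nm l) := by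
  have h1 : Summable fun l : Eis => (nm l : ℝ) ^ (-(1 + 4 / 3) : ℝ) :=
    LatSum413.summable_nm_rpow (by norm_num)
  refine Summable.of_nonneg_of_le (fun l => Gw_nonneg hD (Nat.cast_nonneg _)) (fun l => ?_)
    (h1.mul_left (E ^ 2))
  by_cases hl : l = 0
  · subst hl
    have e : Gw D E (nm (0 : Eis)) = 0 := by
      unfold Gw
      rw [nm_zero, Nat.cast_zero, Real.zero_rpow (by norm_num), zero_mul]
    rw [e]
    positivity
  · refine (Gw_le hD (nm0 hl)).trans (le_of_eq ?_)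
    norm_num

lemma Dz_nonneg {Z : ℝ} (hZ : 0 ≤ Z) (m₁ a b : Eis) : 0 ≤ Dz Z m₁ a b := by
  have := c1_pos
  unfold Dz; positivity

set_option maxHeartbeats 1600000 in
theorem coreP : CoreP := by
  classical
  intro ε hε
  set η : ℝ := min (ε / 19) (1 / 8) with hηd
  have hη : 0 < η := by rw [hηd]; exact lt_min (by positivity) (by norm_num)
  have hη1 : η ≤ 1 / 8 := min_le_right _ _
  have hη19 : 19 * η ≤ ε := by
    have : η ≤ ε / 19 := min_le_left _ _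
    linarith
  obtain ⟨C0, hC0, hfix⟩ := core_fix hη hη1
  have hKs : 0 ≤ Ks η := by unfold Ks; exact tsum_nonneg fun _ => by positivity
  refine ⟨2 * η, by positivity, C0 * Ks η ^ 4, by positivity, ?_⟩
  intro X Z W B hX hZ hW hB w hw hwW d hd hHS δj hδj
  have hX0 : 0 ≤ X := by linarith
  obtain ⟨hdX, hdp, _⟩ := (mem_S hX0).1 hd
  have hd1 := nm1 hdp.ne_zero
  set N : ℝ := X / nm d with hN
  have hN0 : 0 ≤ N := by positivity
  have hXZ : 1 ≤ X * Z := by nlinarith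
  set T : Eis → Eis → Eis → ℝ := fun m₁ b a => ∑' l : Eis, if l = 0 then 0 else
      Gw (Dz Z m₁ a b) (Amx N Z m₁ a b * Dz Z m₁ a b) (nm l) *
        ‖∑ m ∈ S X, cc w X d m₁ a δj m * th (l * m * b)‖ with hT
  have hT0 : ∀ m₁ b a, 0 ≤ T m₁ b a := by
    intro m₁ b a
    rw [hT]
    refine tsum_nonneg fun l => ?_
    split_ifs
    · exact le_rfl
    · exact mul_nonneg (Gw_nonneg (Dz_nonneg (by linarith) _ _ _) (Nat.cast_nonneg _))
        (norm_nonneg _)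
  have e0 : Z * CoreSum w X Z d δj = ∑ m₁ ∈ (S X).filter (fun m => (nm m : ℝ) ≤ N),
      ∑ b ∈ dvs m₁, ∑ a ∈ (S X).filter (fun a => (nm a : ℝ) * nm b ≤ kap X Z d),
        Z ^ ((2 : ℝ) / 3) * Pw m₁ b a * T m₁ b a := by
    have h1 : Z * Z ^ (-(1 : ℝ) / 3) = Z ^ ((2 : ℝ) / 3) := by
      nth_rewrite 1 [← Real.rpow_one Z]
      rw [← Real.rpow_add (by linarith)]; norm_num
    unfold CoreSum
    rw [← mul_assoc, h1, Finset.mul_sum]
    refine Finset.sum_congr rfl fun m₁ _ => ?_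
    rw [Finset.mul_sum]
    refine Finset.sum_congr rfl fun b _ => ?_
    rw [Finset.mul_sum]
    refine Finset.sum_congr rfl fun a _ => ?_
    rw [mul_assoc (Z ^ ((2 : ℝ) / 3)) (Pw m₁ b a)]
    rfl
  set G : Eis → Eis → Eis → Eis → Eis → ENNReal := fun m₁ b g₂ a g₁ =>
    ∑' l : Eis, ENNReal.ofReal (if l = 0 then 0 else Z ^ ((2 : ℝ) / 3) * (Pw m₁ b a *
      (Gw (Dz Z m₁ a b) (Amx N Z m₁ a b * Dz Z m₁ a b) (nm ((g₁ * g₂) ^ 2 * l)) *
        (‖th (l * (b / g₂))‖ *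
          ‖TT w X d (a * g₁) (m₁ / (b / g₂)) (δj * (l * (b / g₂)))‖)))) with hG
  -- the D-step
  have hD : ENNReal.ofReal (Z * CoreSum w X Z d δj) ≤
      ∑ m₁ ∈ (S X).filter (fun m => (nm m : ℝ) ≤ N), ∑ b ∈ dvs m₁, ∑ g₂ ∈ dvs b,
        ∑ a ∈ (S X).filter (fun a => (nm a : ℝ) * nm b ≤ kap X Z d), ∑ g₁ ∈ S X,
          G m₁ b g₂ a g₁ := by
    rw [e0, ENNReal.ofReal_sum_of_nonneg (fun m₁ _ => Finset.sum_nonneg fun b _ =>
      Finset.sum_nonneg fun a _ => mul_nonneg (mul_nonneg (by positivity) (Pw_nonneg _ _ _))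
        (hT0 _ _ _))]
    refine Finset.sum_le_sum fun m₁ hm₁ => ?_
    rw [ENNReal.ofReal_sum_of_nonneg (fun b _ =>
      Finset.sum_nonneg fun a _ => mul_nonneg (mul_nonneg (by positivity) (Pw_nonneg _ _ _))
        (hT0 _ _ _))]
    refine Finset.sum_le_sum fun b hb => ?_
    rw [ENNReal.ofReal_sum_of_nonneg (fun a _ => mul_nonneg (mul_nonneg (by positivity)
      (Pw_nonneg _ _ _)) (hT0 _ _ _)), Finset.sum_comm]
    refine Finset.sum_le_sum fun a ha => ?_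
    have hm := (mem_S hX0).1 (Finset.mem_filter.1 hm₁).1
    have hb' := (mem_dvs hm.2.1.ne_zero).1 hb
    have ha' := (mem_S hX0).1 (Finset.mem_filter.1 ha).1
    have h1 := dual_one (δj := δj) hX0 hw hdp ha'.2.1 hb'.1 (hm.2.2.squarefree_of_dvd hb'.2) hb'.2
      (V := fun l => Gw (Dz Z m₁ a b) (Amx N Z m₁ a b * Dz Z m₁ a b) (nm l))
      (fun l => Gw_nonneg (Dz_nonneg (by linarith) _ _ _) (Nat.cast_nonneg _))
      (Gw_summable (Dz_nonneg (by linarith) _ _ _))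
    have hpp : 0 ≤ Z ^ ((2 : ℝ) / 3) * Pw m₁ b a := mul_nonneg (by positivity) (Pw_nonneg _ _ _)
    rw [ENNReal.ofReal_mul hpp]
    refine (mul_le_mul_right h1 _).trans (le_of_eq ?_)
    rw [Finset.mul_sum]
    refine Finset.sum_congr rfl fun g₂ _ => ?_
    rw [Finset.mul_sum]
    refine Finset.sum_congr rfl fun g₁ _ => ?_
    rw [← ENNReal.tsum_mul_left, hG]
    refine tsum_congr fun l => ?_
    rw [← ENNReal.ofReal_mul hpp]
    congr 1
    split_ifs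
    · rw [mul_zero]
    · ring
  -- reindexing
  have hR := reidx (N := N) hX0 (fun m₁ b g₂ => ∑ a ∈ (S X).filter
    (fun a => (nm a : ℝ) * nm b ≤ kap X Z d), ∑ g₁ ∈ S X, G m₁ b g₂ a g₁)
  have hA : ∑ q ∈ S X, ∑ g₂ ∈ S X, ∑ b' ∈ S X, (if (nm q : ℝ) * nm b' ≤ N then
      ∑ a ∈ (S X).filter (fun a => (nm a : ℝ) * nm (g₂ * b') ≤ kap X Z d), ∑ g₁ ∈ S X,
        G (q * b') (g₂ * b') g₂ a g₁ else 0) ≤
      ∑ q ∈ S X, ∑ g₂ ∈ S X, ∑ a ∈ S X, ∑ g₁ ∈ S X,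
        ENNReal.ofReal (C0 * ((X * Z) ^ (15 * η) * Real.sqrt (B + W ^ 2) * (N * (Z + N))) *
          ((nm q : ℝ)⁻¹ * (nm g₂ : ℝ)⁻¹ * (nm a : ℝ)⁻¹ * (nm g₁ : ℝ)⁻¹)) := by
    refine Finset.sum_le_sum fun q hq => Finset.sum_le_sum fun g₂ hg₂ => ?_
    have hqp := ((mem_S hX0).1 hq).2.1
    have hg₂p := ((mem_S hX0).1 hg₂).2.1
    have e1 : ∑ b' ∈ S X, (if (nm q : ℝ) * nm b' ≤ N then
        ∑ a ∈ (S X).filter (fun a => (nm a : ℝ) * nm (g₂ * b') ≤ kap X Z d), ∑ g₁ ∈ S X,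
          G (q * b') (g₂ * b') g₂ a g₁ else 0) =
        ∑ a ∈ S X, ∑ g₁ ∈ S X, ∑ b' ∈ S X,
          (if (nm q : ℝ) * nm b' ≤ N ∧ (nm a : ℝ) * nm (g₂ * b') ≤ kap X Z d then
          ∑' l : Eis, ENNReal.ofReal (if l = 0 then 0 else Z ^ ((2 : ℝ) / 3) *
          (Pw (q * b') (g₂ * b') a *
          (Gw (Dz Z (q * b') a (g₂ * b')) (Amx N Z (q * b') a (g₂ * b') * Dz Z (q * b') a (g₂ * b'))
            (nm ((g₁ * g₂) ^ 2 * l)) *
              (‖th (l * b')‖ * ‖TT w X d (a * g₁) q (δj * (l * b'))‖)))) else 0) := by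
      have e2 : ∀ b' ∈ S X, (if (nm q : ℝ) * nm b' ≤ N then
          ∑ a ∈ (S X).filter (fun a => (nm a : ℝ) * nm (g₂ * b') ≤ kap X Z d), ∑ g₁ ∈ S X,
          G (q * b') (g₂ * b') g₂ a g₁ else 0) =
          ∑ a ∈ S X, ∑ g₁ ∈ S X,
          (if (nm q : ℝ) * nm b' ≤ N ∧ (nm a : ℝ) * nm (g₂ * b') ≤ kap X Z d then
          ∑' l : Eis, ENNReal.ofReal (if l = 0 then 0 else Z ^ ((2 : ℝ) / 3) *
          (Pw (q * b') (g₂ * b') a *
          (Gw (Dz Z (q * b') a (g₂ * b')) (Amx N Z (q * b') a (g₂ * b') * Dz Z (q * b') a (g₂ * b'))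
            (nm ((g₁ * g₂) ^ 2 * l)) *
              (‖th (l * b')‖ * ‖TT w X d (a * g₁) q (δj * (l * b'))‖)))) else 0) := by
        intro b' hb'
        have hbp := ((mem_S hX0).1 hb').2.1
        have d1 : g₂ * b' / g₂ = b' := mul_div_cancel_left₀ _ hg₂p.ne_zero
        have d2 : q * b' / b' = q := mul_div_cancel_right₀ _ hbp.ne_zero
        by_cases hc : (nm q : ℝ) * nm b' ≤ N
        · rw [if_pos hc, Finset.sum_filter]
          refine Finset.sum_congr rfl fun a _ => ?_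
          by_cases hc2 : (nm a : ℝ) * nm (g₂ * b') ≤ kap X Z d
          · rw [if_pos hc2]
            refine Finset.sum_congr rfl fun g₁ _ => ?_
            rw [if_pos ⟨hc, hc2⟩, hG]
            beta_reduce
            rw [d1, d2]
          · rw [if_neg hc2]
            symm
            exact Finset.sum_eq_zero fun g₁ _ => if_neg fun h => hc2 h.2
        · rw [if_neg hc]
          symm
          exact Finset.sum_eq_zero fun a _ => Finset.sum_eq_zero fun g₁ _ => if_neg fun h => hc h.1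
      rw [Finset.sum_congr rfl e2, Finset.sum_comm]
      refine Finset.sum_congr rfl fun a _ => ?_
      rw [Finset.sum_comm]
    rw [e1]
    refine Finset.sum_le_sum fun a ha => Finset.sum_le_sum fun g₁ hg₁ => ?_
    exact hfix X Z W B hX hZ hW hB w hw hwW d hd hHS δj hδj q hq g₂ hg₂ a ha g₁ hg₁
  -- the last sums
  set K : ℝ := C0 * ((X * Z) ^ (15 * η) * Real.sqrt (B + W ^ 2) * (N * (Z + N))) with hK
  have hK0 : 0 ≤ K := by positivity
  set σ : ℝ := ∑ z ∈ S X, (nm z : ℝ)⁻¹ with hσ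
  have hσ0 : 0 ≤ σ := Finset.sum_nonneg fun _ _ => by positivity
  have hσ1 : σ ≤ Ks η * X ^ η := by
    have h1 := sum_pow_S (s := -1) hη le_rfl hX0
    have e : ∀ z ∈ S X, (nm z : ℝ)⁻¹ = (nm z : ℝ) ^ (-1 : ℝ) := by
      intro z _
      rw [Real.rpow_neg_one]
    rw [hσ, Finset.sum_congr rfl e]
    refine h1.trans (le_of_eq ?_)
    norm_num
  have hlast : ∑ q ∈ S X, ∑ g₂ ∈ S X, ∑ a ∈ S X, ∑ g₁ ∈ S X,
      ENNReal.ofReal (K * ((nm q : ℝ)⁻¹ * (nm g₂ : ℝ)⁻¹ * (nm a : ℝ)⁻¹ * (nm g₁ : ℝ)⁻¹)) =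
      ENNReal.ofReal (K * σ ^ 4) := by
    have h4 : K * σ ^ 4 = ∑ q ∈ S X, ∑ g₂ ∈ S X, ∑ a ∈ S X, ∑ g₁ ∈ S X,
        (K * ((nm q : ℝ)⁻¹ * (nm g₂ : ℝ)⁻¹ * (nm a : ℝ)⁻¹ * (nm g₁ : ℝ)⁻¹)) := by
      have s1 : ∀ q g₂ a : Eis, ∑ g₁ ∈ S X, (K * ((nm q : ℝ)⁻¹ * (nm g₂ : ℝ)⁻¹ * (nm a : ℝ)⁻¹ *
          (nm g₁ : ℝ)⁻¹)) = K * ((nm q : ℝ)⁻¹ * (nm g₂ : ℝ)⁻¹ * (nm a : ℝ)⁻¹) * σ := by
        intro q g₂ a
        rw [hσ, Finset.mul_sum]
        exact Finset.sum_congr rfl fun _ _ => by ring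
      have s2 : ∀ q g₂ : Eis, ∑ a ∈ S X, (K * ((nm q : ℝ)⁻¹ * (nm g₂ : ℝ)⁻¹ * (nm a : ℝ)⁻¹) * σ) =
          K * ((nm q : ℝ)⁻¹ * (nm g₂ : ℝ)⁻¹) * σ * σ := by
        intro q g₂
        nth_rewrite 3 [hσ]
        rw [Finset.mul_sum]
        exact Finset.sum_congr rfl fun _ _ => by ring
      have s3 : ∀ q : Eis, ∑ g₂ ∈ S X, (K * ((nm q : ℝ)⁻¹ * (nm g₂ : ℝ)⁻¹) * σ * σ) =
          K * ((nm q : ℝ)⁻¹) * σ * σ * σ := by
        intro q
        nth_rewrite 5 [hσ]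
        rw [Finset.mul_sum]
        exact Finset.sum_congr rfl fun _ _ => by ring
      simp_rw [s1, s2, s3]
      rw [← Finset.sum_mul, ← Finset.sum_mul, ← Finset.sum_mul, ← Finset.mul_sum, ← hσ]
      ring
    rw [h4, ENNReal.ofReal_sum_of_nonneg (fun q _ => Finset.sum_nonneg fun g₂ _ =>
      Finset.sum_nonneg fun a _ => Finset.sum_nonneg fun g₁ _ => by positivity)]
    refine Finset.sum_congr rfl fun q _ => ?_
    rw [ENNReal.ofReal_sum_of_nonneg (fun g₂ _ =>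
      Finset.sum_nonneg fun a _ => Finset.sum_nonneg fun g₁ _ => by positivity)]
    refine Finset.sum_congr rfl fun g₂ _ => ?_
    rw [ENNReal.ofReal_sum_of_nonneg (fun a _ => Finset.sum_nonneg fun g₁ _ => by positivity)]
    refine Finset.sum_congr rfl fun a _ => ?_
    rw [ENNReal.ofReal_sum_of_nonneg (fun g₁ _ => by positivity)]
  have htot := hD.trans (hR.trans (hA.trans (le_of_eq hlast)))
  have hfin : Z * CoreSum w X Z d δj ≤ K * σ ^ 4 :=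
    (ENNReal.ofReal_le_ofReal_iff (by positivity)).1 htot
  refine hfin.trans ?_
  have hX19 : (X ^ η) ^ 4 * (X * Z) ^ (15 * η) ≤ (X * Z) ^ ε := by
    calc (X ^ η) ^ 4 * (X * Z) ^ (15 * η) ≤ ((X * Z) ^ η) ^ 4 * (X * Z) ^ (15 * η) := by
          gcongr
          nlinarith
      _ = (X * Z) ^ (19 * η) := by
          rw [← Real.rpow_natCast ((X * Z) ^ η), ← Real.rpow_mul (by positivity),
            ← Real.rpow_add (by positivity)]
          congr 1; push_cast; ring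
      _ ≤ _ := Real.rpow_le_rpow_of_exponent_le hXZ hη19
  calc K * σ ^ 4 ≤ K * (Ks η * X ^ η) ^ 4 := by gcongr
    _ = C0 * Ks η ^ 4 * ((X ^ η) ^ 4 * (X * Z) ^ (15 * η)) *
        (Real.sqrt (B + W ^ 2) * (N * (Z + N))) := by rw [hK]; ring
    _ ≤ C0 * Ks η ^ 4 * (X * Z) ^ ε * (Real.sqrt (B + W ^ 2) * (N * (Z + N))) := by gcongr

end Crest.Agent.R017.X6545
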