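import Crest.Agent.R017.PX6f_241
import Crest.Agent.R017.X6G3_545
import Crest.Agent.R017.X6E2_502

/-!
# Row 17, exceptional class, the cross lemma of (P'_ex), interfaces (helper180)

`CrossT X L g w d` (241, `PX6c`), `g` squarefree primary, `w` supported on elements prime to `g`.

* `TabG r L m₁ m₂ a b = ∑_{l ≠ 0} th (r l (m₂/a) b) exp (-N(a)² N(b) N(l) / L)`
* `ABG` : the bilinear sum, `CrossT = ∑_{e ∣ d} μ(e) ABG (all) (TabG (g (d/e)) (L / N(e)²)) - bias`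
* `PolarG`, `DirG` (241), `DualG` (180), `XGStmt`
-/

set_option autoImplicit false

noncomputable section

open scoped ComplexConjugate

namespace Crest.Agent.R017.X6G180

open Crest.Agent.R012 Crest.Agent.R012.Eis Crest.Agent.R012.Gauss880
open Crest.Agent.R012.LS2 Crest.Agent.R012.Div277
open Crest.Agent.R017.PA842 (Supp)
open Crest.Agent.R017.PX764 (th n6 Gh)
open Crest.Agent.R017.PX6 (CrossT CopG)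
open Crest.Agent.R017.P3all283 (c0)
open Crest.Agent.R017.X6545 (SU HSk)

/-- the constant of `F1` at `r = 1` -/
def kap1 : ℝ := pC * (3 * c0)

/-- the sum attached to `(a, b)` -/
def TabG (r : Eis) (L : ℝ) (m₁ m₂ a b : Eis) : ℂ :=
  X6A848.T (fun x => th (r * x)) (fun x => ((Real.exp (-x / L) : ℝ) : ℂ)) 1 ((m₂ / a) * b)
    ((nm a : ℝ) ^ 2 * nm b)

/-- the main term of `TabG` -/
def MabG (r : Eis) (L : ℝ) (m₁ m₂ a b : Eis) : ℝ :=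
  kap1 * (nm (r * ((m₂ / a) * b)) : ℝ) ^ (-(1 : ℝ) / 3) *
    (L / ((nm a : ℝ) ^ 2 * nm b)) ^ ((2 : ℝ) / 3)

open Classical in
/-- the bilinear sum -/
def ABG (w : Eis → ℂ) (X : ℝ) (d : Eis) (P : Eis → Eis → Prop) (F : Eis → Eis → Eis → Eis → ℂ) : ℂ :=
  ∑ m₁ ∈ S X, ∑ m₂ ∈ S X, if IsCoprime m₁ m₂ then
    ws w X (d * m₁) * conj (ws w X (d * m₂)) *
      ((n6 m₁ * (nm m₂ : ℝ) ^ ((1 : ℝ) / 6) : ℝ) : ℂ) *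
      ∑ b ∈ dvs m₁, ∑ a ∈ (dvs m₂).filter (fun a => P a b), (muE a : ℂ) * (muE b : ℂ) * F m₁ m₂ a b
    else 0

/-- the cut -/
def kapG (X : ℝ) (d : Eis) : ℝ := (X / nm d) ^ ((1 : ℝ) / 3)

/-- **polar cancellation** (241): from `X6A848.T_mn`, `PX6b.P3all_g` and any dual expression. -/
def PolarG : Prop := ∀ ε : ℝ, 0 < ε → ∃ C : ℝ, 0 ≤ C ∧ ∀ X L W E : ℝ, 1 ≤ X → 1 ≤ L → 0 ≤ W → 0 ≤ E →
  ∀ g : Eis, IsPrim g → Squarefree g → ∀ w : Eis → ℂ, Supp w X → CopG g w → (∀ n, ‖w n‖ ≤ W) →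
  ∀ d ∈ S X, ∀ Du : Eis → Eis → Eis → Eis → Eis → ℂ,
    (∀ e ∈ dvs d, ∀ m₁ ∈ S X, ∀ m₂ ∈ S X, IsCoprime m₁ m₂ → (nm m₁ : ℝ) ≤ X / nm d →
      (nm m₂ : ℝ) ≤ X / nm d → IsCoprime (g * d) m₁ → IsCoprime (g * d) m₂ →
      ∀ b ∈ dvs m₁, ∀ a ∈ dvs m₂, (nm a : ℝ) * nm b ≤ kapG X d →
      ‖TabG (g * (d / e)) (L / (nm e : ℝ) ^ 2) m₁ m₂ a b -
          (MabG (g * (d / e)) (L / (nm e : ℝ) ^ 2) m₁ m₂ a b : ℂ) - Du e m₁ m₂ a b‖ ≤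
        E * (nm ((m₂ / a) * b) : ℝ) ^ (-(1 : ℝ) / 3)) →
    ‖CrossT X L g w d - ∑ e ∈ dvs d, (muE e : ℂ) *
        (ABG w X d (fun a b => kapG X d < (nm a : ℝ) * nm b)
            (TabG (g * (d / e)) (L / (nm e : ℝ) ^ 2)) +
          ABG w X d (fun a b => (nm a : ℝ) * nm b ≤ kapG X d) (Du e))‖ ≤
      C * (1 + E) * (nm g * X * L) ^ ε * (W ^ 2 * (X / nm d) * (nm g * X + L))

/-- **direct part** (241): `LS2.Final` only -/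
def DirG : Prop := ∀ ε : ℝ, 0 < ε → ∃ C : ℝ, 0 ≤ C ∧ ∀ X L W : ℝ, 1 ≤ X → 1 ≤ L → 0 ≤ W →
  ∀ g : Eis, IsPrim g → Squarefree g → ∀ w : Eis → ℂ, Supp w X → CopG g w → (∀ n, ‖w n‖ ≤ W) →
  ∀ d ∈ S X, ∀ e ∈ dvs d,
    ‖ABG w X d (fun a b => kapG X d < (nm a : ℝ) * nm b)
        (TabG (g * (d / e)) (L / (nm e : ℝ) ^ 2))‖ ≤
      C * (nm g * X * L) ^ ε * (W ^ 2 * (X / nm d) * (nm g * X + L))

/-- twists -/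
def twS (δ : Eis) (s : ℂ) (w : Eis → ℂ) (n : Eis) : ℂ := w n * conj (sy δ n) * (nm n : ℂ) ^ s

/-- the hypothesis on the short range: 545's `HS` (all `L ≥ 1`, `L² ≤ N'`) for the twists of `w` by
`conj (sy (δ γ))`, `δ` a `λ`-unit, `γ ∣ r`, and by `N^s`, `0 ≤ Re s ≤ 4`; loss `N(q)^κ (1+|Im s|)^Ak`. -/
def HSG (Ak : ℕ) (κ : ℝ) (w : Eis → ℂ) (X : ℝ) (d r : Eis) (B : ℝ) : Prop :=
  ∀ δ γ : Eis, SU δ → γ ∈ dvs r → ∀ s : ℂ, 0 ≤ s.re → s.re ≤ 4 →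
    HSk (twS (δ * γ) s w) X 1 d (B * X ^ (2 * s.re) * (1 + |s.im|) ^ Ak) κ

/-- **dual part** (180) -/
def DualG : Prop := ∀ (ε : ℝ) (Ak : ℕ), 0 < ε → ∃ (κ C : ℝ), 0 < κ ∧ 0 ≤ C ∧ ∀ X L W B : ℝ, 1 ≤ X →
  1 ≤ L → 0 ≤ W → 0 ≤ B → ∀ g : Eis, IsPrim g → Squarefree g → ∀ w : Eis → ℂ, Supp w X → CopG g w →
  (∀ n, ‖w n‖ ≤ W) → ∀ d ∈ S X, HSG Ak κ w X d (g * d) B → ∃ Du : Eis → Eis → Eis → Eis → Eis → ℂ,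
    (∀ e ∈ dvs d, ∀ m₁ ∈ S X, ∀ m₂ ∈ S X, IsCoprime m₁ m₂ → (nm m₁ : ℝ) ≤ X / nm d →
      (nm m₂ : ℝ) ≤ X / nm d → IsCoprime (g * d) m₁ → IsCoprime (g * d) m₂ →
      ∀ b ∈ dvs m₁, ∀ a ∈ dvs m₂, (nm a : ℝ) * nm b ≤ kapG X d →
      ‖TabG (g * (d / e)) (L / (nm e : ℝ) ^ 2) m₁ m₂ a b -
          (MabG (g * (d / e)) (L / (nm e : ℝ) ^ 2) m₁ m₂ a b : ℂ) - Du e m₁ m₂ a b‖ ≤
        C * (1 + Real.log L) * (nm ((m₂ / a) * b) : ℝ) ^ (-(1 : ℝ) / 3)) ∧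
    ∀ e ∈ dvs d, ‖ABG w X d (fun a b => (nm a : ℝ) * nm b ≤ kapG X d) (Du e)‖ ≤
      C * (nm g * X * L) ^ ε * ((W ^ 2 + W * Real.sqrt B) * ((X / nm d) * (nm g * X)))

/-- **the cross lemma of (P'_ex)** -/
def XGStmt : Prop := ∀ (ε : ℝ) (Ak : ℕ), 0 < ε → ∃ (κ C : ℝ), 0 < κ ∧ 0 ≤ C ∧ ∀ X L W B : ℝ, 1 ≤ X →
  1 ≤ L → 0 ≤ W → 0 ≤ B → ∀ g : Eis, IsPrim g → Squarefree g → ∀ w : Eis → ℂ, Supp w X → CopG g w →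
  (∀ n, ‖w n‖ ≤ W) → ∀ d ∈ S X, HSG Ak κ w X d (g * d) B →
    ‖CrossT X L g w d‖ ≤ C * (nm g * X * L) ^ ε *
      (W ^ 2 * (X / nm d) * (nm g * X + L) + W * Real.sqrt B * ((X / nm d) * (nm g * X)))

end Crest.Agent.R017.X6G180
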