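import Crest.Agent.R017.PX6f_241
import Crest.Agent.R017.X6A_848

/-!
# Row 17, exceptional class, X6 at `r = g` (helper848): literal objects

`CrossT X L g w d` (241), `g` squarefree primary, `w` supported on elements prime to `g`;
`a` runs over the divisors of `d m₂`, `b` over the divisors of `m₁`.

* `TabG g L d m₂ a b = ∑_{l ≠ 0} th (g l ((d m₂)/a) b) exp (-N(a)² N(b) N(l) / L)`
* `MabG` : its main term (`F1X1'` at `u = g ((d m₂)/a) b`)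
* `ABG w X d P F` : the bilinear sum
* `PolarG` : the polar part (848), `DirG` : the direct part (502)
-/

set_option autoImplicit false

noncomputable section

open scoped ComplexConjugate

namespace Crest.Agent.R017.X6Q848

open Crest.Agent.R012 Crest.Agent.R012.Eis Crest.Agent.R012.Gauss880
open Crest.Agent.R012.LS2 Crest.Agent.R012.Div277
open Crest.Agent.R017.PX764 (th n6)
open Crest.Agent.R017.PA842 (Supp)
open Crest.Agent.R017.PX6 (CrossT CopG)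
open Crest.Agent.R017.P3all283 (c0)

/-- the sum attached to `(a, b)` -/
def TabG (g : Eis) (L : ℝ) (d m₂ a b : Eis) : ℂ :=
  X6A848.T (fun x => th (g * x)) (fun x => ((Real.exp (-x / L) : ℝ) : ℂ)) 1 (((d * m₂) / a) * b)
    ((nm a : ℝ) ^ 2 * nm b)

/-- its main term -/
def MabG (g : Eis) (L : ℝ) (d m₂ a b : Eis) : ℝ :=
  pC * (3 * c0) * (nm (g * (((d * m₂) / a) * b)) : ℝ) ^ (-(1 : ℝ) / 3) *
    (L / ((nm a : ℝ) ^ 2 * nm b)) ^ ((2 : ℝ) / 3)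

open Classical in
/-- the bilinear sum -/
def ABG (w : Eis → ℂ) (X : ℝ) (d : Eis) (P : Eis → Eis → Prop) (F : Eis → Eis → Eis → Eis → ℂ) : ℂ :=
  ∑ m₁ ∈ S X, ∑ m₂ ∈ S X, if IsCoprime m₁ m₂ then
    ws w X (d * m₁) * conj (ws w X (d * m₂)) *
      ((n6 (d * m₁) * (nm (d * m₂) : ℝ) ^ ((1 : ℝ) / 6) : ℝ) : ℂ) *
      ∑ b ∈ dvs m₁, ∑ a ∈ (dvs (d * m₂)).filter (fun a => P a b),
        (muE a : ℂ) * (muE b : ℂ) * F m₁ m₂ a b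
    else 0

/-- the direct region -/
def PK (X L : ℝ) (d : Eis) (a b : Eis) : Prop :=
  (X / nm d) ^ ((1 : ℝ) / 2) < (nm a : ℝ) * nm b ∨ L < (nm a : ℝ) ^ 2 * nm b

/-- **polar part** -/
def PolarG : Prop := ∀ ε : ℝ, 0 < ε → ∃ C : ℝ, 0 ≤ C ∧ ∀ X L W E : ℝ, 1 ≤ X → 1 ≤ L → 0 ≤ W → 0 ≤ E →
  ∀ g : Eis, IsPrim g → Squarefree g → ∀ w : Eis → ℂ, Supp w X → CopG g w → (∀ n, ‖w n‖ ≤ W) →
  ∀ d ∈ S X, ∀ P : Eis → Eis → Prop,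
    (∀ a b, P a b → (X / nm d) ^ ((1 : ℝ) / 2) ≤ (nm a : ℝ) * nm b ∨ L ≤ (nm a : ℝ) ^ 2 * nm b) →
    (∀ a b, ¬ P a b → (nm a : ℝ) * nm b ≤ (X / nm d) ^ ((1 : ℝ) / 2)) →
    ∀ Du : Eis → Eis → Eis → Eis → ℂ,
    (∀ m₁ ∈ S X, ∀ m₂ ∈ S X, IsCoprime m₁ m₂ → (nm m₁ : ℝ) ≤ X / nm d → (nm m₂ : ℝ) ≤ X / nm d →
      Squarefree (d * m₁) → Squarefree (d * m₂) → IsCoprime g (d * m₁) → IsCoprime g (d * m₂) →
      ∀ b ∈ dvs m₁, ∀ a ∈ dvs (d * m₂), ¬ P a b →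
      ‖TabG g L d m₂ a b - (MabG g L d m₂ a b : ℂ) - Du m₁ m₂ a b‖ ≤
        E * (nm (g * (((d * m₂) / a) * b)) : ℝ) ^ (-(1 : ℝ) / 3)) →
    ‖CrossT X L g w d - ABG w X d P (fun _ m₂ a b => TabG g L d m₂ a b) -
        ABG w X d (fun a b => ¬ P a b) Du‖ ≤
      C * (1 + E) * (nm g * X * L) ^ ε * (W ^ 2 * (X / nm d) * (X / nm d + L))

/-- **direct part** -/
def DirG : Prop := ∀ ε : ℝ, 0 < ε → ∃ C : ℝ, 0 ≤ C ∧ ∀ X L W : ℝ, 1 ≤ X → 1 ≤ L → 0 ≤ W →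
  ∀ g : Eis, IsPrim g → Squarefree g → ∀ w : Eis → ℂ, Supp w X → CopG g w → (∀ n, ‖w n‖ ≤ W) →
  ∀ d ∈ S X, ∀ P : Eis → Eis → Prop,
    (∀ a b, P a b → (X / nm d) ^ ((1 : ℝ) / 2) ≤ (nm a : ℝ) * nm b ∨ L ≤ (nm a : ℝ) ^ 2 * nm b) →
    ‖ABG w X d P (fun _ m₂ a b => TabG g L d m₂ a b)‖ ≤
      C * (nm g * X * L) ^ ε * (W ^ 2 * X * (X / nm d + L))

end Crest.Agent.R017.X6Q848
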