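import Crest.Agent.R017.X6GDefs_180
import Crest.Agent.R017.X6QDefs_848
import Crest.Agent.R017.X6G5_545

/-!
# Row 17, exceptional class, the cross lemma of (P'_ex), dual part 1 (helper180)

* `HSG2` : the hypothesis on the short range (frequencies `v γ x`, `γ ∣ g d`, twists `N^s`)
* `twT` : the twisted sequence, `TT_twT`, `HSk_twT`
* `dual_abs3` : `X6D502.dual_abs2` with the coprimality condition kept
-/

set_option autoImplicit false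

noncomputable section

open scoped ComplexConjugate

namespace Crest.Agent.R017.X6G180

open Crest.Agent.R012 Crest.Agent.R012.Eis Crest.Agent.R012.Gauss880
open Crest.Agent.R012.LS2 Crest.Agent.R012.Div277
open Crest.Agent.R017.PA842 (Supp)
open Crest.Agent.R017.PX764 (th n6 Gh)
open Crest.Agent.R017.PX6 (CrossT CopG)
open Crest.Agent.R017.X6545
open Crest.Agent.R017.X6D502 (Tc SuppC exists_gcd dual_point' norm_Tc_le n6_nonneg dvd_sq_eq)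

/-- **the hypothesis on the short range**: frequencies `v γ x`, `γ ∣ r` (`r = g d`), weights `N^s`;
loss `N(γ) N(q)^κ (1+|Im s|)^Ak`. -/
def HSG2 (Ak : ℕ) (κ : ℝ) (w : Eis → ℂ) (X : ℝ) (d r : Eis) (B : ℝ) : Prop :=
  ∀ γ ∈ dvs r, ∀ s : ℂ, 0 ≤ s.re → s.re ≤ 4 → ∀ q : Eis, q ≠ 0 → ∀ δ v : Eis, δ ∈ S X → SU v →
    ∀ L : ℝ, 1 ≤ L → L * L ≤ X / nm d / nm δ →
      ∑ x ∈ S L, ‖TT (fun n => w n * (nm n : ℂ) ^ s) X d δ q (v * γ * x)‖ ^ 2 ≤
        (B * nm γ * X ^ (2 * s.re) * (1 + |s.im|) ^ Ak * (nm q : ℝ) ^ κ) *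
          (X / nm d / nm δ) ^ ((4 : ℝ) / 3) * L ^ ((2 : ℝ) / 3)

open Classical in
/-- the twisted sequence -/
def twT (d γ : Eis) (s : ℂ) (w : Eis → ℂ) (n : Eis) : ℂ :=
  if d ∣ n then w n * conj (sy γ (n / d)) * (nm n : ℂ) ^ s else 0

lemma twT_supp {w : Eis → ℂ} {X : ℝ} (hw : Supp w X) (d γ : Eis) (s : ℂ) : Supp (twT d γ s w) X := by
  intro n hn
  refine hw n fun h => hn ?_
  unfold twT
  split_ifs
  · rw [h]; simp
  · rfl

lemma norm_nm_cpow {n : Eis} (hn : n ≠ 0) (s : ℂ) : ‖(nm n : ℂ) ^ s‖ = (nm n : ℝ) ^ s.re := by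
  have := nm0 hn
  rw [show ((nm n : ℕ) : ℂ) = ((nm n : ℝ) : ℂ) by push_cast; rfl]
  exact Complex.norm_cpow_eq_rpow_re_of_pos this s

lemma twT_le {w : Eis → ℂ} {X W : ℝ} (hX : 0 ≤ X) (hw : Supp w X) (hW : 0 ≤ W)
    (hwW : ∀ n, ‖w n‖ ≤ W) {d : Eis} (hd : IsPrim d) (γ : Eis) {s : ℂ} (hs : 0 ≤ s.re) (n : Eis) :
    ‖twT d γ s w n‖ ≤ W * X ^ s.re := by
  unfold twT
  split_ifs with h
  swap
  · rw [norm_zero]; positivity
  by_cases hn : w n = 0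
  · rw [hn]; simp; positivity
  have hnS : n ∈ S X := hw n hn
  obtain ⟨h1, h2, h3⟩ := (mem_S hX).1 hnS
  obtain ⟨k, rfl⟩ := h
  have hk : IsPrim k := IsPrim.of_mul_left h2 hd
  rw [mul_div_cancel_left₀ _ hd.ne_zero, norm_mul, norm_mul, RCLike.norm_conj,
    norm_nm_cpow h2.ne_zero]
  have a1 := norm_sy_le (x := γ) hk
  have a2 := hwW (d * k)
  have a3 : (nm (d * k) : ℝ) ^ s.re ≤ X ^ s.re := Real.rpow_le_rpow (by positivity) h1 hs
  calc ‖w (d * k)‖ * ‖sy γ k‖ * (nm (d * k) : ℝ) ^ s.re ≤ W * 1 * X ^ s.re := by gcongr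
    _ = _ := by ring

/-- the twisted sums in terms of frequencies -/
lemma TT_twT {w : Eis → ℂ} {X : ℝ} (hX : 0 ≤ X) {d δ : Eis} (hd : IsPrim d) (hδ : IsPrim δ)
    (γ q x : Eis) (s : ℂ) : TT (twT d γ s w) X d δ q x =
      conj (sy γ δ) * TT (fun n => w n * (nm n : ℂ) ^ s) X d δ q (γ * x) := by
  classical
  unfold TT
  rw [Finset.mul_sum]
  refine Finset.sum_congr rfl fun m hm => ?_
  have hmp := ((mem_S hX).1 hm).2.1
  split_ifs with hc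
  · have h2 : Gh (γ * x) m = Gh x m * conj (sy γ m) := by
      unfold PX764.Gh
      rw [syG.mul_left γ x m hmp, map_mul]; ring
    have e1 : d * δ * m / d = δ * m := by
      rw [mul_assoc, mul_div_cancel_left₀ _ hd.ne_zero]
    unfold twT
    rw [if_pos (by rw [mul_assoc]; exact dvd_mul_right _ _), e1, h2, syG.mul_right γ δ m hδ hmp,
      map_mul]
    ring
  · rw [mul_zero]

theorem HSk_twT {Ak : ℕ} {κ : ℝ} {w : Eis → ℂ} {X : ℝ} (hX : 0 ≤ X) {d r : Eis} {B : ℝ}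
    (h : HSG2 Ak κ w X d r B) (hd : IsPrim d) {γ : Eis} (hγ : γ ∈ dvs r) {s : ℂ}
    (hs : 0 ≤ s.re) (hs4 : s.re ≤ 4) :
    HSk (twT d γ s w) X 1 d (B * nm γ * X ^ (2 * s.re) * (1 + |s.im|) ^ Ak) κ := by
  intro q hq δ v hδ hv L hL _ h2
  refine le_trans (Finset.sum_le_sum fun x _ => ?_) (h γ hγ s hs hs4 q hq δ v hδ hv L hL h2)
  have hδp := ((mem_S hX).1 hδ).2.1
  rw [TT_twT hX hd hδp, norm_mul, RCLike.norm_conj, show v * γ * x = γ * (v * x) by ring]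
  have h3 := norm_sy_le (x := γ) hδp
  have h4 : ‖sy γ δ‖ * ‖TT (fun n => w n * (nm n : ℂ) ^ s) X d δ q (γ * (v * x))‖ ≤
      1 * ‖TT (fun n => w n * (nm n : ℂ) ^ s) X d δ q (γ * (v * x))‖ := by gcongr
  rw [one_mul] at h4
  gcongr

/-! ### (D4) with the coprimality condition -/

open Classical in
/-- **(D4''')** in `ENNReal`, the new frequencies prime to `b / g₂` -/
theorem dual_abs3 {X : ℝ} (hX : 0 ≤ X) {c : Eis → ℂ} (hS : ∀ h, c h ≠ 0 → h ∈ S X) {b : Eis}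
    (hb : IsPrim b) (hsb : Squarefree b) (hc : SuppC c b) {V : Eis → ℝ} (hV : ∀ l, 0 ≤ V l) :
    ∑' l : Eis, (if l = 0 then 0 else ENNReal.ofReal (V l * ‖∑ m ∈ S X, c m * th (l * m * b)‖)) ≤
      ∑ g₂ ∈ dvs b, ∑ g₁ ∈ S X, ∑' l : Eis, if l ≠ 0 ∧ IsCoprime l (b / g₂) then
        ENNReal.ofReal (V ((g₁ * g₂) ^ 2 * l) * (‖th (l * (b / g₂))‖ *
          ‖Tc X (fun m => c (g₁ * m)) (l * (b / g₂))‖)) else 0 := by
  set H : Eis → Eis → Eis → ENNReal := fun g₂ g₁ l => if l ≠ 0 ∧ IsCoprime l (b / g₂) then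
        ENNReal.ofReal (V ((g₁ * g₂) ^ 2 * l) * (‖th (l * (b / g₂))‖ *
          ‖Tc X (fun m => c (g₁ * m)) (l * (b / g₂))‖)) else 0 with hH
  have hne : ∀ g₂ ∈ dvs b, ∀ g₁ ∈ S X, g₁ * g₂ ≠ 0 := fun g₂ h2 g₁ h1 =>
    (((mem_S hX).1 h1).2.1.mul (isPrim_of_mem_dvs h2)).ne_zero
  -- pointwise
  have hpt : ∀ l : Eis, (if l = 0 then 0 else
      ENNReal.ofReal (V l * ‖∑ m ∈ S X, c m * th (l * m * b)‖)) ≤
      ∑ g₂ ∈ dvs b, ∑ g₁ ∈ S X, (if (g₁ * g₂) ^ 2 ∣ l then H g₂ g₁ (l / (g₁ * g₂) ^ 2) else 0) := by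
    intro l
    by_cases hl : l = 0
    · rw [if_pos hl]; exact zero_le
    rw [if_neg hl]
    obtain ⟨g₂, b', hg₂, hb', hbg, hcop, he⟩ := dual_point' hX hS hb hsb hc l
    have hmem : g₂ ∈ dvs b := (mem_dvs hb.ne_zero).2 ⟨hg₂, ⟨b', hbg⟩⟩
    have hb'e : b / g₂ = b' := by rw [hbg, mul_div_cancel_left₀ _ hg₂.ne_zero]
    rw [he]
    refine le_trans ?_ (Finset.single_le_sum (f := fun g₂ => ∑ g₁ ∈ S X,
      (if (g₁ * g₂) ^ 2 ∣ l then H g₂ g₁ (l / (g₁ * g₂) ^ 2) else 0)) (fun g _ => zero_le) hmem)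
    have h1 : V l * ‖∑ g₁ ∈ S X, (if (g₁ * g₂) ^ 2 ∣ l then
          th ((l / (g₁ * g₂) ^ 2) * b') *
            Tc X (fun m => c (g₁ * m)) ((l / (g₁ * g₂) ^ 2) * b') else 0)‖ ≤
        ∑ g₁ ∈ S X, V l * ‖(if (g₁ * g₂) ^ 2 ∣ l then
          th ((l / (g₁ * g₂) ^ 2) * b') *
            Tc X (fun m => c (g₁ * m)) ((l / (g₁ * g₂) ^ 2) * b') else 0)‖ := by
      rw [← Finset.mul_sum]
      exact mul_le_mul_of_nonneg_left (norm_sum_le _ _) (hV l)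
    refine (ENNReal.ofReal_le_ofReal h1).trans ?_
    rw [ENNReal.ofReal_sum_of_nonneg (fun g₁ _ => mul_nonneg (hV l) (norm_nonneg _))]
    refine Finset.sum_le_sum (fun g₁ hg₁ => ?_)
    split_ifs with hd
    · have hg0 := hne g₂ hmem g₁ hg₁
      have hq : l / (g₁ * g₂) ^ 2 ≠ 0 := by
        intro h0
        have := dvd_sq_eq hg0 hd
        rw [h0, mul_zero] at this
        exact hl this
      have hcc : IsCoprime (l / (g₁ * g₂) ^ 2) b' := hcop g₁ _ (dvd_sq_eq hg0 hd)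
      rw [hH]
      beta_reduce
      rw [hb'e, if_pos ⟨hq, hcc⟩, ← dvd_sq_eq hg0 hd, norm_mul]
    · simp
  refine (ENNReal.tsum_le_tsum hpt).trans ?_
  rw [Summable.tsum_finsetSum (fun _ _ => ENNReal.summable)]
  refine Finset.sum_le_sum fun g₂ h2 => ?_
  rw [Summable.tsum_finsetSum (fun _ _ => ENNReal.summable)]
  refine Finset.sum_le_sum fun g₁ h1 => ?_
  have hg2 : (g₁ * g₂) ^ 2 ≠ 0 := pow_ne_zero 2 (hne g₂ h2 g₁ h1)
  have hinj : Function.Injective (fun l : Eis => (g₁ * g₂) ^ 2 * l) := fun a b h =>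
    mul_left_cancel₀ hg2 h
  refine le_of_eq ?_
  have h3 : ∑' l : Eis, (fun l => if (g₁ * g₂) ^ 2 ∣ l then H g₂ g₁ (l / (g₁ * g₂) ^ 2) else 0)
      ((g₁ * g₂) ^ 2 * l) = ∑' l : Eis, (if (g₁ * g₂) ^ 2 ∣ l then
        H g₂ g₁ (l / (g₁ * g₂) ^ 2) else 0) := by
    refine hinj.tsum_eq (f := fun l : Eis => if (g₁ * g₂) ^ 2 ∣ l then
      H g₂ g₁ (l / (g₁ * g₂) ^ 2) else 0) ?_
    intro l hl
    rw [Function.mem_support] at hl
    by_cases hd : (g₁ * g₂) ^ 2 ∣ l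
    · obtain ⟨t, rfl⟩ := hd
      exact ⟨t, rfl⟩
    · exfalso; apply hl
      simp only [if_neg hd]
  rw [← h3]
  refine tsum_congr fun l => ?_
  beta_reduce
  rw [if_pos (dvd_mul_right _ _), mul_div_cancel_left₀ _ hg2]

end Crest.Agent.R017.X6G180
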