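import Crest.Agent.R017.X6GE_180
import Crest.Agent.R017.X6F8_180

/-!
# Row 17, exceptional class, the cross lemma of (P'_ex), dual part, interface (helper180)

* `DuG` : the dual expression of `X6Q848.TabG`, `A = L / (N(a)² N(b))` (`≥ 1` off `PK`)
* `cG` : coefficients, `CoreSumG` : absolute values at one `s = 1/6 + σ + i t`
* `DualLeG` : algebra + separation of the dual weight (Mellin), `CorePG` : the core
* `DualG2` : the dual part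
-/

set_option autoImplicit false

noncomputable section

open Complex MeasureTheory
open scoped ComplexConjugate

namespace Crest.Agent.R017.X6G180

open Crest.Agent.R012 Crest.Agent.R012.Eis Crest.Agent.R012.Gauss880
open Crest.Agent.R012.LS2 Crest.Agent.R012.Div277
open Crest.Agent.R017.PA842 (Supp)
open Crest.Agent.R017.PX764 (th n6 Gh)
open Crest.Agent.R017.PX6 (CrossT CopG)
open Crest.Agent.R017.X6545 (SU Gw TT)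
open Crest.Agent.R017.X6F848 (OmB')
open Crest.Agent.R017.X6W180 (Mel)

open Classical in
/-- the dual expression of `TabG` (`Ω Am j` at `Am = A = L / (N(a)² N(b))`) -/
def DuG {J : ℕ} (v δ : Fin J → Eis) (Ω : ℝ → Fin J → ℝ → ℂ) (g : Eis) (L : ℝ) (d : Eis)
    (_m₁ m₂ a b : Eis) : ℂ :=
  (((L / ((nm a : ℝ) ^ 2 * nm b)) ^ ((1 : ℝ) / 3) : ℝ) : ℂ) *
    ∑ j, sy (δ j) (g * (((d * m₂) / a) * b)) * ∑' x : Eis, if IsPrim x ∧ X6C180.CF x then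
      sy (δ j) x * (((nm x : ℝ) ^ (-(1 : ℝ) / 3) : ℝ) : ℂ) *
        th (v j * (g * (((d * m₂) / a) * b)) * x) *
        Ω (L / ((nm a : ℝ) ^ 2 * nm b)) j
          ((nm (g * (((d * m₂) / a) * b)) : ℝ) / (L / ((nm a : ℝ) ^ 2 * nm b) * nm x)) else 0

open Classical in
/-- the coefficients -/
def cG (w : Eis → ℂ) (X : ℝ) (d m₁ a δj : Eis) (s : ℂ) (m : Eis) : ℂ :=
  if IsCoprime m₁ (a * m) then
    conj (ws w X (d * (a * m))) * (nm (d * (a * m)) : ℂ) ^ s * sy δj m else 0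

/-- the dual length -/
def EG (X : ℝ) (d r a b : Eis) : ℝ := nm r * nm b * (X / nm d) / nm a

open Classical in
/-- the absolute values -/
def CoreSumG (w : Eis → ℂ) (X : ℝ) (d r v δj : Eis) (s : ℂ) : ENNReal :=
  ∑ m₁ ∈ (S X).filter (fun m => (nm m : ℝ) ≤ X / nm d ∧ IsCoprime r m), ∑ b ∈ dvs m₁,
    ∑ a ∈ (S X).filter (fun a => (nm a : ℝ) * nm b ≤ (X / nm d) ^ ((1 : ℝ) / 2)),
      ENNReal.ofReal ((nm (d * m₁) : ℝ) ^ (-(1 : ℝ) / 6) * (EG X d r a b) ^ ((1 : ℝ) / 3)) *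
        ∑' x : Eis, if x = 0 then 0 else ENNReal.ofReal (Gw 1 (EG X d r a b) (nm x) *
          ‖∑ m ∈ S X, cG w X d m₁ a δj s m * th (v * x * m * (r * b))‖)

/-- the two abscissae -/
def sg (i : Fin 2) : ℝ := if i = 0 then 1 / 3 else 3

/-- **the algebra and the separation** -/
def DualLeG : Prop := ∀ (J : ℕ) (v δ : Fin J → Eis), (∀ j, SU (v j) ∧ SU (δ j)) →
  ∀ (A0 : ℕ) (C1 : ℝ) (Ω : ℝ → Fin J → ℝ → ℂ), 2 ≤ A0 → 0 ≤ C1 →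
    (∀ Am : ℝ, 1 ≤ Am → ∀ j, OmB' Am C1 2 (Ω Am j)) →
    (∀ Am : ℝ, 1 ≤ Am → ∀ j, Mel (1 / 3) A0 (C1 * (1 + Real.log Am) ^ 4) (Ω Am j)) →
    (∀ Am : ℝ, 1 ≤ Am → ∀ j,
      Mel 3 A0 (C1 * (1 + Real.log Am) ^ 4 * Am ^ ((8 : ℝ) / 3)) (Ω Am j)) →
    ∀ X L W : ℝ, 1 ≤ X → 1 ≤ L → 0 ≤ W → ∀ g : Eis, IsPrim g → Squarefree g → ∀ w : Eis → ℂ,
      Supp w X → CopG g w → (∀ n, ‖w n‖ ≤ W) → ∀ d ∈ S X,
      ENNReal.ofReal ‖X6Q848.ABG w X d (fun a b => ¬ X6Q848.PK X L d a b) (DuG v δ Ω g L d)‖ ≤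
        ENNReal.ofReal (C1 * (1 + Real.log L) ^ 4 * W) *
          ∑ e ∈ dvs d, ∑ j, ∑ i : Fin 2, ∫⁻ t : ℝ,
            ENNReal.ofReal (((1 + |t|) ^ A0)⁻¹ * X ^ (-(sg i))) *
              CoreSumG w X d (g * (d / e)) (v j) (δ j) (((1 / 6 + sg i : ℝ) : ℂ) + (t : ℂ) * I)

/-- **the core** -/
def CorePG : Prop := ∀ (ε : ℝ) (Ak : ℕ), 0 < ε → ∃ κ : ℝ, 0 < κ ∧ ∀ v δj : Eis, SU v → SU δj →
  ∃ C : ℝ, 0 ≤ C ∧ ∀ X W B : ℝ, 1 ≤ X → 0 ≤ W → 0 ≤ B → ∀ g : Eis, IsPrim g → Squarefree g →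
    ∀ w : Eis → ℂ, Supp w X → CopG g w → (∀ n, ‖w n‖ ≤ W) → ∀ d ∈ S X,
    HSG2 Ak κ w X d (g * d) B → ∀ e ∈ dvs d, ∀ σ t : ℝ, 0 ≤ σ → σ ≤ 3 →
      CoreSumG w X d (g * (d / e)) v δj (((1 / 6 + σ : ℝ) : ℂ) + (t : ℂ) * I) ≤
        ENNReal.ofReal (C * (nm g * X) ^ ε * X ^ σ * (1 + |t|) ^ Ak *
          (Real.sqrt (B + W ^ 2) * ((X / nm d) * (nm g * X))))

/-- **the dual part** -/
def DualG2 : Prop := ∀ (ε : ℝ) (Ak : ℕ), 0 < ε → ∃ (κ C : ℝ), 0 < κ ∧ 0 ≤ C ∧ ∀ X L W B : ℝ, 1 ≤ X →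
  1 ≤ L → 0 ≤ W → 0 ≤ B → ∀ g : Eis, IsPrim g → Squarefree g → ∀ w : Eis → ℂ, Supp w X → CopG g w →
  (∀ n, ‖w n‖ ≤ W) → ∀ d ∈ S X, HSG2 Ak κ w X d (g * d) B → ∃ Du : Eis → Eis → Eis → Eis → ℂ,
    (∀ m₁ ∈ S X, ∀ m₂ ∈ S X, IsCoprime m₁ m₂ → (nm m₁ : ℝ) ≤ X / nm d → (nm m₂ : ℝ) ≤ X / nm d →
      Squarefree (d * m₁) → Squarefree (d * m₂) → IsCoprime g (d * m₁) → IsCoprime g (d * m₂) →
      ∀ b ∈ dvs m₁, ∀ a ∈ dvs (d * m₂), ¬ X6Q848.PK X L d a b →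
      ‖X6Q848.TabG g L d m₂ a b - (X6Q848.MabG g L d m₂ a b : ℂ) - Du m₁ m₂ a b‖ ≤
        (C * (1 + Real.log L) ^ 4) * (nm (g * (((d * m₂) / a) * b)) : ℝ) ^ (-(1 : ℝ) / 3)) ∧
    ‖X6Q848.ABG w X d (fun a b => ¬ X6Q848.PK X L d a b) Du‖ ≤
      C * (nm g * X * L) ^ ε * ((W ^ 2 + W * Real.sqrt B) * ((X / nm d) * (nm g * X)))

end Crest.Agent.R017.X6G180
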