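import Crest.Agent.R017.X6GI_180
import Crest.Agent.R017.X6G7_545

/-!
# Row 17, exceptional class, the cross lemma of (P'_ex), dual part 2 (helper180): the D-step
-/

set_option autoImplicit false

noncomputable section

open Complex MeasureTheory
open scoped ComplexConjugate

namespace Crest.Agent.R017.X6G180

open Crest.Agent.R012 Crest.Agent.R012.Eis Crest.Agent.R012.Gauss880
open Crest.Agent.R012.LS2 Crest.Agent.R012.Div277
open Crest.Agent.R017.PA842 (Supp)
open Crest.Agent.R017.PX764 (th n6 Gh)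
open Crest.Agent.R017.PX6 (CrossT CopG)
open Crest.Agent.R017.X6545 (SU Gw TT nm0 nm1 norm_sy_le ws_eq' ws_mem mem_of_mul)
open Crest.Agent.R017.X6D502 (Tc SuppC n6_nonneg)

lemma cG_ne {w : Eis → ℂ} {X : ℝ} {d m₁ a δj : Eis} {s : ℂ} {m : Eis}
    (h : cG w X d m₁ a δj s m ≠ 0) : IsCoprime m₁ (a * m) ∧ ws w X (d * (a * m)) ≠ 0 := by
  unfold cG at h
  split_ifs at h with hc
  · refine ⟨hc, fun h0 => h ?_⟩
    rw [h0]; simp
  · exact absurd rfl h

lemma cG_supp {w : Eis → ℂ} {X : ℝ} (hX : 0 ≤ X) {d m₁ a δj : Eis} {s : ℂ} {m : Eis}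
    (hd : IsPrim d) (ha : IsPrim a) (h : cG w X d m₁ a δj s m ≠ 0) : m ∈ S X :=
  mem_of_mul hX ha (mem_of_mul hX hd (ws_mem (cG_ne h).2))

/-- on the support everything is prime to `g d` -/
lemma cop_of_w {w : Eis → ℂ} {X : ℝ} (hX : 0 ≤ X) (hw : Supp w X) {g d n : Eis} (hg : CopG g w)
    (hd : d ≠ 0) (h : w (d * n) ≠ 0) : IsCoprime (g * d) n := by
  have h1 := hg _ h
  obtain ⟨_, _, h3⟩ := (mem_S hX).1 (hw _ h)
  have h4 : IsCoprime d n := by
    by_contra h5
    exact PX764.not_sqf_of_not_coprime hd h5 h3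
  exact h1.of_mul_right_right.mul_left h4

lemma cG_cop {w : Eis → ℂ} {X : ℝ} (hX : 0 ≤ X) (hw : Supp w X) {g d r m₁ a δj b : Eis} {s : ℂ}
    (hg : CopG g w) (hd : d ≠ 0) (hr : r ∣ g * d) (hb : b ∣ m₁) :
    SuppC (cG w X d m₁ a δj s) (r * b) := by
  intro m h
  obtain ⟨h1, h2⟩ := cG_ne h
  rw [ws_eq' hw] at h2
  have h3 := cop_of_w hX hw hg hd h2
  have h4 : IsCoprime r m := (h3.of_mul_right_right).of_isCoprime_of_dvd_left hr
  have h5 : IsCoprime b m := (h1.of_mul_right_right).of_isCoprime_of_dvd_left hb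
  exact (h4.mul_left h5).symm

lemma conj_nm_cpow {n : Eis} (hn : n ≠ 0) (s : ℂ) :
    conj ((nm n : ℂ) ^ (conj s)) = (nm n : ℂ) ^ s := by
  have h0 := nm0 hn
  have e : (nm n : ℂ) = ((nm n : ℝ) : ℂ) := by push_cast; rfl
  have harg : (nm n : ℂ).arg ≠ Real.pi := by
    rw [e, Complex.arg_ofReal_of_nonneg h0.le]
    exact Real.pi_pos.ne
  rw [Complex.cpow_conj _ _ harg, Complex.conj_conj, e, Complex.conj_ofReal]

/-- the sums of the D-step are the structured sums -/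
lemma norm_Tc_TTG {w : Eis → ℂ} {X : ℝ} (hX : 0 ≤ X) (hw : Supp w X) {g d a g₁ b' q γ δj l : Eis}
    (hg : CopG g w) (hd : IsPrim d) (ha : IsPrim a) (hg₁ : IsPrim g₁) (hγ : γ ∣ g * d) (s : ℂ) :
    ‖Tc X (fun m => cG w X d (q * b') a δj s (g₁ * m)) (l * (γ * b'))‖ ≤
      ‖TT (twT d γ (conj s) w) X d (a * g₁) q (δj * (l * b'))‖ := by
  classical
  by_cases hz : ∀ m ∈ S X, cG w X d (q * b') a δj s (g₁ * m) = 0
  · have e : Tc X (fun m => cG w X d (q * b') a δj s (g₁ * m)) (l * (γ * b')) = 0 := by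
      unfold X6D502.Tc
      refine Finset.sum_eq_zero fun m hm => ?_
      beta_reduce
      rw [hz m hm]; simp
    rw [e, norm_zero]; exact norm_nonneg _
  push Not at hz
  obtain ⟨m₀, hm₀, hm₀'⟩ := hz
  obtain ⟨k1, k2⟩ := cG_ne hm₀'
  have hc : IsCoprime (q * b') (a * g₁) := by
    rw [← mul_assoc] at k1
    exact k1.of_mul_right_left
  have hγc : IsCoprime γ (a * g₁) := by
    rw [ws_eq' hw] at k2
    have h3 := cop_of_w hX hw hg hd.ne_zero k2
    rw [← mul_assoc] at h3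
    exact (h3.of_mul_right_left).of_isCoprime_of_dvd_left hγ
  have e : sy γ (a * g₁) * Tc X (fun m => cG w X d (q * b') a δj s (g₁ * m)) (l * (γ * b')) =
      sy δj g₁ * conj (TT (twT d γ (conj s) w) X d (a * g₁) q (δj * (l * b'))) := by
    unfold X6D502.Tc TT
    rw [map_sum, Finset.mul_sum, Finset.mul_sum]
    refine Finset.sum_congr rfl fun m hm => ?_
    have hmp := ((mem_S hX).1 hm).2.1
    have hag : IsPrim (a * g₁) := ha.mul hg₁
    by_cases hb : IsCoprime m b'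
    · by_cases hq : IsCoprime m q
      · have h1 : IsCoprime (q * b') (a * (g₁ * m)) := by
          rw [← mul_assoc]
          exact hc.mul_right (hq.symm.mul_left hb.symm)
        have h2 : Gh (δj * (l * b')) m = Gh (l * b') m * conj (sy δj m) := by
          unfold PX764.Gh
          rw [syG.mul_left δj (l * b') m hmp, map_mul]; ring
        have h3 : Gh (l * (γ * b')) m = Gh (l * b') m * conj (sy γ m) := by
          rw [show l * (γ * b') = γ * (l * b') by ring]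
          unfold PX764.Gh
          rw [syG.mul_left γ (l * b') m hmp, map_mul]; ring
        have h4 : twT d γ (conj s) w (d * (a * g₁) * m) =
            w (d * (a * g₁) * m) * conj (sy γ (a * g₁ * m)) *
              (nm (d * (a * g₁) * m) : ℂ) ^ (conj s) := by
          unfold twT
          rw [if_pos (by rw [mul_assoc]; exact dvd_mul_right _ _), mul_assoc d,
            mul_div_cancel_left₀ _ hd.ne_zero]
        have h5 := conj_nm_cpow (n := d * (a * g₁) * m)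
          (mul_ne_zero (mul_ne_zero hd.ne_zero hag.ne_zero) hmp.ne_zero) s
        unfold cG
        beta_reduce
        rw [if_pos h1, if_pos hq, h2, h3, ws_eq' hw, syG.mul_right δj g₁ m hg₁ hmp,
          show d * (a * (g₁ * m)) = d * (a * g₁) * m by ring, h4,
          syG.mul_right γ (a * g₁) m hag hmp]
        simp only [map_mul, Complex.conj_conj, Complex.conj_ofReal]
        rw [h5]
        ring
      · have h1 : ¬ IsCoprime (q * b') (a * (g₁ * m)) := by
          intro h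
          exact hq (h.of_mul_left_left.of_mul_right_right.of_mul_right_right).symm
        unfold cG
        beta_reduce
        rw [if_neg h1, if_neg hq]; simp
    · have h1 : ¬ IsCoprime (l * (γ * b')) m := fun h => hb h.of_mul_left_right.of_mul_left_right.symm
      have h2 : ¬ IsCoprime (δj * (l * b')) m := fun h => hb h.of_mul_left_right.of_mul_left_right.symm
      rw [PX764.Gh_zero hmp h1, PX764.Gh_zero hmp h2]
      split_ifs <;> simp
  have n1 : ‖sy γ (a * g₁)‖ = 1 := PX764.norm_sy_one (ha.mul hg₁) hγc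
  have n2 := norm_sy_le (x := δj) hg₁
  have h6 := congrArg norm e
  rw [norm_mul, norm_mul, RCLike.norm_conj, n1, one_mul] at h6
  rw [h6]
  exact mul_le_of_le_one_left (norm_nonneg _) n2

/-- divisors of a product -/
lemma sum_dvs_mul_le {r b : Eis} (hr : IsPrim r) (hb : IsPrim b)
    (f : Eis → ENNReal) : ∑ g ∈ dvs (r * b), f g ≤ ∑ γ ∈ dvs r, ∑ g₂ ∈ dvs b, f (γ * g₂) := by
  classical
  rw [← Finset.sum_product']
  have hrb : r * b ≠ 0 := (hr.mul hb).ne_zero
  have key : ∀ g : Eis, ∃ p : Eis × Eis, g ∈ dvs (r * b) → p ∈ dvs r ×ˢ dvs b ∧ p.1 * p.2 = g := by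
    intro g
    by_cases h : g ∈ dvs (r * b)
    · obtain ⟨hgp, hgd⟩ := (mem_dvs hrb).1 h
      obtain ⟨γ, l₁, u₁, h1, h2, h3, h4, h5⟩ := X6D502.exists_gcd g hr
      have hl : IsPrim l₁ := IsPrim.of_mul_left (h3 ▸ hgp) h1
      have hd : l₁ ∣ b := by
        have h6 : l₁ ∣ u₁ * b := by
          obtain ⟨c, hc⟩ := hgd
          refine ⟨c, mul_left_cancel₀ h1.ne_zero ?_⟩
          rw [← mul_assoc, ← mul_assoc, ← h4, ← h3, hc]
        exact h5.dvd_of_dvd_mul_left h6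
      refine ⟨(γ, l₁), fun _ => ⟨?_, h3.symm⟩⟩
      rw [Finset.mem_product]
      exact ⟨(mem_dvs hr.ne_zero).2 ⟨h1, ⟨u₁, h4⟩⟩, (mem_dvs hb.ne_zero).2 ⟨hl, hd⟩⟩
    · exact ⟨(0, 0), fun h' => absurd h' h⟩
  choose e he using key
  refine X6545.sum_inj_le _ _ e (fun g hg => (he g hg).1) ?_ _ _ (fun _ _ => zero_le) ?_
  · intro x hx y hy hxy
    rw [← (he x hx).2, ← (he y hy).2, hxy]
  · intro g hg
    rw [(he g hg).2]

open Classical in
/-- **one `(m₁, b)` and one `a`** -/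
theorem oneG {w : Eis → ℂ} {X : ℝ} (hX : 0 ≤ X) (hw : Supp w X) {g d r v a m₁ b δj : Eis}
    (hg : CopG g w) (hd : IsPrim d) (ha : IsPrim a) (hrp : IsPrim r) (hrs : Squarefree r)
    (hr : r ∣ g * d) (hb : IsPrim b) (hsb : Squarefree b) (hbm : b ∣ m₁) (hrm : IsCoprime r m₁)
    (hv : v ≠ 0) (s : ℂ) (E : ℝ) :
    ∑' x : Eis, (if x = 0 then 0 else ENNReal.ofReal (Gw 1 E (nm x) *
      ‖∑ m ∈ S X, cG w X d m₁ a δj s m * th (v * x * m * (r * b))‖)) ≤
    ∑ γ₂ ∈ dvs r, ∑ g₂ ∈ dvs b, ∑ g₁ ∈ S X, ∑' l : Eis, if l = 0 then 0 else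
      ENNReal.ofReal ((nm v : ℝ) ^ ((1 : ℝ) / 3) * Gw (nm v) (E * nm v)
        (nm ((g₁ * (γ₂ * g₂)) ^ 2 * l)) * (n6 (r / γ₂) * (‖th (l * (b / g₂))‖ *
          ‖TT (twT d (r / γ₂) (conj s) w) X d (a * g₁) (m₁ / (b / g₂))
            (δj * (l * (b / g₂)))‖))) := by
  have hv0 := nm0 hv
  set V : Eis → ℝ := fun l => (nm v : ℝ) ^ ((1 : ℝ) / 3) * Gw (nm v) (E * nm v) (nm l) with hV
  have hV0 : ∀ l, 0 ≤ V l := fun l =>
    mul_nonneg (by positivity) (X6545.Gw_nonneg hv0.le (Nat.cast_nonneg _))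
  have hrb : IsCoprime r b := hrm.of_isCoprime_of_dvd_right hbm
  have hsrb : Squarefree (r * b) := by
    rw [squarefree_mul_iff]; exact ⟨hrb.isRelPrime, hrs, hsb⟩
  -- the substitution `l = v x`
  have h1 : ∑' x : Eis, (if x = 0 then 0 else ENNReal.ofReal (Gw 1 E (nm x) *
      ‖∑ m ∈ S X, cG w X d m₁ a δj s m * th (v * x * m * (r * b))‖)) ≤
      ∑' l : Eis, (if l = 0 then 0 else ENNReal.ofReal (V l *
        ‖∑ m ∈ S X, cG w X d m₁ a δj s m * th (l * m * (r * b))‖)) := by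
    have hinj : Function.Injective (fun x : Eis => v * x) := fun x y h => mul_left_cancel₀ hv h
    refine le_trans (le_of_eq ?_) (ENNReal.tsum_comp_le_tsum_of_injective hinj
      (fun l : Eis => if l = 0 then 0 else ENNReal.ofReal (V l *
        ‖∑ m ∈ S X, cG w X d m₁ a δj s m * th (l * m * (r * b))‖)))
    refine tsum_congr fun x => ?_
    by_cases hx : x = 0
    · subst hx; simp
    · have hvx : v * x ≠ 0 := mul_ne_zero hv hx
      rw [if_neg hx, if_neg hvx, hV]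
      beta_reduce
      have e := X6545.Gw_scale (D := 1) (E := E) (y := nm (v * x)) (Nat.cast_nonneg _) hv0
      have e2 : (nm (v * x) : ℝ) / nm v = nm x := by
        rw [nm_mul]; push_cast
        field_simp
      rw [e2, one_mul] at e
      rw [e]
  refine h1.trans ?_
  refine (dual_abs3 hX (fun m hm => cG_supp hX hd ha hm) (hrp.mul hb) hsrb
    (cG_cop hX hw hg hd.ne_zero hr hbm) hV0).trans ?_
  refine (sum_dvs_mul_le hrp hb _).trans ?_
  refine Finset.sum_le_sum fun γ₂ hγ₂ => Finset.sum_le_sum fun g₂ hg₂ =>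
    Finset.sum_le_sum fun g₁ hg₁ => ENNReal.tsum_le_tsum fun l => ?_
  by_cases hl : l = 0
  · subst hl; simp
  rw [if_neg hl]
  split_ifs with hc
  swap
  · exact zero_le
  obtain ⟨hγ₂p, γ, hγ⟩ := (mem_dvs hrp.ne_zero).1 hγ₂
  obtain ⟨hg₂p, β, hβ⟩ := (mem_dvs hb.ne_zero).1 hg₂
  have e1 : r / γ₂ = γ := by rw [hγ, mul_div_cancel_left₀ _ hγ₂p.ne_zero]
  have e2 : b / g₂ = β := by rw [hβ, mul_div_cancel_left₀ _ hg₂p.ne_zero]
  have e3 : r * b / (γ₂ * g₂) = γ * β := by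
    rw [hγ, hβ, show γ₂ * γ * (g₂ * β) = (γ₂ * g₂) * (γ * β) by ring,
      mul_div_cancel_left₀ _ (hγ₂p.mul hg₂p).ne_zero]
  rw [e3] at hc
  rw [e1, e2, e3]
  have hγp : IsPrim γ := IsPrim.of_mul_left (hγ ▸ hrp) hγ₂p
  have hβp : IsPrim β := IsPrim.of_mul_left (hβ ▸ hb) hg₂p
  have hγr : γ ∣ r := ⟨γ₂, by rw [hγ]; ring⟩
  have hβb : β ∣ b := ⟨g₂, by rw [hβ]; ring⟩
  have hγs : Squarefree γ := hrs.squarefree_of_dvd hγr
  have hcl : IsCoprime (l * β) γ := by
    have h2 : IsCoprime l γ := hc.2.of_mul_right_left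
    have h3 : IsCoprime β γ := ((hrb.of_isCoprime_of_dvd_left hγr).of_isCoprime_of_dvd_right hβb).symm
    exact h2.mul_left h3
  have hth : ‖th (l * (γ * β))‖ = n6 γ * ‖th (l * β)‖ := by
    rw [show l * (γ * β) = (l * β) * γ by ring, PX764.th_mul hγp hγs hcl, norm_mul, norm_mul,
      RCLike.norm_conj, Complex.norm_real, Real.norm_eq_abs, abs_of_nonneg (n6_nonneg _),
      PX764.norm_Gh_one hγp hγs hcl, one_mul]
  obtain ⟨q', hq'⟩ : β ∣ m₁ := hβb.trans hbm
  have e4 : m₁ / β = q' := by rw [hq', mul_div_cancel_left₀ _ hβp.ne_zero]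
  have hT := norm_Tc_TTG (l := l) (b' := β) (q := q') (δj := δj) hX hw hg hd ha
    (((mem_S hX).1 hg₁).2.1) (hγr.trans hr) s
  rw [show q' * β = m₁ by rw [hq']; ring] at hT
  rw [hth, e4]
  refine ENNReal.ofReal_le_ofReal ?_
  have h0 := hV0 ((g₁ * (γ₂ * g₂)) ^ 2 * l)
  have h5 : V ((g₁ * (γ₂ * g₂)) ^ 2 * l) * (n6 γ * ‖th (l * β)‖ *
      ‖Tc X (fun m => cG w X d m₁ a δj s (g₁ * m)) (l * (γ * β))‖) ≤
      V ((g₁ * (γ₂ * g₂)) ^ 2 * l) * (n6 γ * ‖th (l * β)‖ *
      ‖TT (twT d γ (conj s) w) X d (a * g₁) q' (δj * (l * β))‖) := by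
    refine mul_le_mul_of_nonneg_left ?_ h0
    exact mul_le_mul_of_nonneg_left hT (mul_nonneg (n6_nonneg _) (norm_nonneg _))
  refine h5.trans (le_of_eq ?_)
  rw [hV]; ring

end Crest.Agent.R017.X6G180
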