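import Crest.Agent.R017.X6GJ_180

/-!
# Row 17, exceptional class, the cross lemma of (P'_ex), dual part 3 (helper180): exponents
-/

set_option autoImplicit false

noncomputable section

open Complex MeasureTheory
open scoped ComplexConjugate

namespace Crest.Agent.R017.X6G180

open Crest.Agent.R012 Crest.Agent.R012.Eis Crest.Agent.R012.Gauss880
open Crest.Agent.R012.LS2 Crest.Agent.R012.Div277
open Crest.Agent.R017.PA842 (Supp)
open Crest.Agent.R017.PX764 (th n6 Gh)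
open Crest.Agent.R017.X6545 (SU Gw TT nm0 nm1 Br exp_rpow Br_nonneg Br_scale Gw_scale Gw_mono
  Gw_nonneg)

/-- **the exponents** of the dual part -/
theorem expoG {N r q a g₂ g₁ c γ y : ℝ} (hN : 1 ≤ N) (hq : 1 ≤ q) (ha : 1 ≤ a) (hg₂ : 1 ≤ g₂)
    (hg₁ : 1 ≤ g₁) (hc : 1 ≤ c) (hγ : 1 ≤ γ) (hy : 1 ≤ y) (hr : r = γ * c) (h1 : q * y ≤ N)
    (h2 : a * g₂ * y ≤ N ^ ((1 : ℝ) / 2)) :
    (q ^ (-(1 : ℝ) / 6) * (r * g₂ * N / a) ^ ((1 : ℝ) / 3) *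
        (1 / (g₁ * (c * g₂)) ^ 2) ^ ((1 : ℝ) / 3) * y ^ ((1 : ℝ) / 2)) * N ^ ((1 : ℝ) / 6) *
      (γ ^ (-(1 : ℝ) / 6) * γ ^ ((1 : ℝ) / 2)) *
        Br (N / (a * g₁)) 1 (y / (g₁ * (c * g₂)) ^ 2)
          ((r * g₂ * y * N / a) * y / (g₁ * (c * g₂)) ^ 2) ≤
      3 * (N ^ 2 * r) * (q⁻¹ * g₂⁻¹ * a⁻¹ * g₁⁻¹) := by
  subst hr
  obtain ⟨n, rfl⟩ : ∃ t, Real.exp t = N := ⟨Real.log N, Real.exp_log (by linarith)⟩
  obtain ⟨c, rfl⟩ : ∃ t, Real.exp t = c := ⟨Real.log c, Real.exp_log (by linarith)⟩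
  obtain ⟨q, rfl⟩ : ∃ t, Real.exp t = q := ⟨Real.log q, Real.exp_log (by linarith)⟩
  obtain ⟨a, rfl⟩ : ∃ t, Real.exp t = a := ⟨Real.log a, Real.exp_log (by linarith)⟩
  obtain ⟨g₂, rfl⟩ : ∃ t, Real.exp t = g₂ := ⟨Real.log g₂, Real.exp_log (by linarith)⟩
  obtain ⟨g₁, rfl⟩ : ∃ t, Real.exp t = g₁ := ⟨Real.log g₁, Real.exp_log (by linarith)⟩
  obtain ⟨γ, rfl⟩ : ∃ t, Real.exp t = γ := ⟨Real.log γ, Real.exp_log (by linarith)⟩
  obtain ⟨y, rfl⟩ : ∃ t, Real.exp t = y := ⟨Real.log y, Real.exp_log (by linarith)⟩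
  rw [Real.one_le_exp_iff] at hN hc hq ha hg₂ hg₁ hγ hy
  rw [← Real.exp_add, Real.exp_le_exp] at h1
  rw [exp_rpow, ← Real.exp_add, ← Real.exp_add, Real.exp_le_exp] at h2
  have hG : (Real.exp g₁ * (Real.exp c * Real.exp g₂)) ^ 2 = Real.exp (2 * (g₁ + c + g₂)) := by
    rw [← Real.exp_add, ← Real.exp_add, ← Real.exp_nat_mul]
    congr 1; push_cast; ring
  have hD : Real.exp y / (Real.exp g₁ * (Real.exp c * Real.exp g₂)) ^ 2 =
      Real.exp (y - 2 * (g₁ + c + g₂)) := by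
    rw [hG, ← Real.exp_sub]
  have hE : (Real.exp γ * Real.exp c * Real.exp g₂ * Real.exp y * Real.exp n / Real.exp a) *
      Real.exp y / (Real.exp g₁ * (Real.exp c * Real.exp g₂)) ^ 2 =
      Real.exp (γ + c + g₂ + 2 * y + n - a - 2 * (g₁ + c + g₂)) := by
    rw [hG, ← Real.exp_add, ← Real.exp_add, ← Real.exp_add, ← Real.exp_add, ← Real.exp_sub,
      ← Real.exp_add, ← Real.exp_sub]
    congr 1; ring
  have hN' : Real.exp n / (Real.exp a * Real.exp g₁) = Real.exp (n - a - g₁) := by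
    rw [← Real.exp_add, ← Real.exp_sub]; congr 1; ring
  have hp : (Real.exp q ^ (-(1 : ℝ) / 6) *
        (Real.exp γ * Real.exp c * Real.exp g₂ * Real.exp n / Real.exp a) ^ ((1 : ℝ) / 3) *
        (1 / (Real.exp g₁ * (Real.exp c * Real.exp g₂)) ^ 2) ^ ((1 : ℝ) / 3) *
        Real.exp y ^ ((1 : ℝ) / 2)) * Real.exp n ^ ((1 : ℝ) / 6) *
      (Real.exp γ ^ (-(1 : ℝ) / 6) * Real.exp γ ^ ((1 : ℝ) / 2)) =
      Real.exp (-q / 6 + (γ + c + g₂ + n - a) / 3 - 2 / 3 * (g₁ + c + g₂) + y / 2 + n / 6 +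
        γ / 3) := by
    have e1 : 1 / Real.exp (2 * (g₁ + c + g₂)) = Real.exp (-(2 * (g₁ + c + g₂))) := by
      rw [Real.exp_neg, one_div]
    rw [hG, e1, ← Real.exp_add, ← Real.exp_add, ← Real.exp_add, ← Real.exp_sub]
    simp only [exp_rpow, ← Real.exp_add]
    congr 1; ring
  have hBr : Br (Real.exp n / (Real.exp a * Real.exp g₁)) 1
      (Real.exp y / (Real.exp g₁ * (Real.exp c * Real.exp g₂)) ^ 2)
      ((Real.exp γ * Real.exp c * Real.exp g₂ * Real.exp y * Real.exp n / Real.exp a) *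
      Real.exp y / (Real.exp g₁ * (Real.exp c * Real.exp g₂)) ^ 2) =
      Real.exp (2 / 3 * (n - a - g₁) + (y - 2 * (g₁ + c + g₂)) / 3) +
      Real.exp ((n - a - g₁) / 3) +
      Real.exp ((y - 2 * (g₁ + c + g₂)) / 3 +
        (γ + c + g₂ + 2 * y + n - a - 2 * (g₁ + c + g₂)) / 6 + (n - a - g₁) / 3) := by
    unfold Br
    rw [hN', hD, hE, Real.one_rpow, mul_one]
    simp only [exp_rpow, ← Real.exp_add]
    congr 1
    · congr 1
      · congr 1; ring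
      · congr 1; ring
    · congr 1; ring
  rw [hp, hBr]
  have hR : (3 : ℝ) * (Real.exp n ^ 2 * (Real.exp γ * Real.exp c)) *
      ((Real.exp q)⁻¹ * (Real.exp g₂)⁻¹ * (Real.exp a)⁻¹ * (Real.exp g₁)⁻¹) =
      3 * Real.exp (2 * n + (γ + c) - q - g₂ - a - g₁) := by
    rw [← Real.exp_neg, ← Real.exp_neg, ← Real.exp_neg, ← Real.exp_neg, ← Real.exp_nat_mul,
      mul_assoc]
    simp only [← Real.exp_add]
    congr 2; push_cast; ring
  rw [hR, mul_add, mul_add]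
  simp only [← Real.exp_add]
  have t1 : Real.exp (-q / 6 + (γ + c + g₂ + n - a) / 3 - 2 / 3 * (g₁ + c + g₂) + y / 2 + n / 6 +
        γ / 3 + (2 / 3 * (n - a - g₁) + (y - 2 * (g₁ + c + g₂)) / 3)) ≤
      Real.exp (2 * n + (γ + c) - q - g₂ - a - g₁) := by
    rw [Real.exp_le_exp]; linarith
  have t2 : Real.exp (-q / 6 + (γ + c + g₂ + n - a) / 3 - 2 / 3 * (g₁ + c + g₂) + y / 2 + n / 6 +
        γ / 3 + (n - a - g₁) / 3) ≤
      Real.exp (2 * n + (γ + c) - q - g₂ - a - g₁) := by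
    rw [Real.exp_le_exp]; linarith
  have t3 : Real.exp (-q / 6 + (γ + c + g₂ + n - a) / 3 - 2 / 3 * (g₁ + c + g₂) + y / 2 + n / 6 +
        γ / 3 + ((y - 2 * (g₁ + c + g₂)) / 3 +
        (γ + c + g₂ + 2 * y + n - a - 2 * (g₁ + c + g₂)) / 6 + (n - a - g₁) / 3)) ≤
      Real.exp (2 * n + (γ + c) - q - g₂ - a - g₁) := by
    rw [Real.exp_le_exp]; linarith
  linarith

/-- **the weights** -/
lemma wtG {N r q a g₂ g₁ c b y z k : ℝ} (hN : 0 < N) (hr : 0 < r) (hq : 0 < q) (ha : 0 < a)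
    (hg₂ : 0 < g₂) (hg₁ : 0 < g₁) (hc : 0 < c) (hb : 0 < b) (hby : b ≤ y) (hz : 0 ≤ z)
    (hk : 0 < k) :
    (q * b) ^ (-(1 : ℝ) / 6) * (r * (g₂ * b) * N / a) ^ ((1 : ℝ) / 3) *
      Gw k (r * (g₂ * b) * N / a * k) (z / (b / (g₁ * (c * g₂)) ^ 2)) ≤
      (q ^ (-(1 : ℝ) / 6) * (r * g₂ * N / a) ^ ((1 : ℝ) / 3) *
        (1 / (g₁ * (c * g₂)) ^ 2) ^ ((1 : ℝ) / 3) * y ^ ((1 : ℝ) / 2)) *
        Gw (k * (y / (g₁ * (c * g₂)) ^ 2))
          (k * ((r * g₂ * y * N / a) * y / (g₁ * (c * g₂)) ^ 2)) z := by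
  have hy : 0 < y := hb.trans_le hby
  set G : ℝ := (g₁ * (c * g₂)) ^ 2 with hG
  have hG0 : 0 < G := by positivity
  have hs : 0 < b / G := by positivity
  rw [Gw_scale hz hs]
  have hGw := Gw_mono (D := k * (b / G)) (E := r * (g₂ * b) * N / a * k * (b / G))
    (D' := k * (y / G)) (E' := k * ((r * g₂ * y * N / a) * y / G)) (by positivity) (by positivity)
    hz (by gcongr) (by
      have e1 : r * (g₂ * b) * N / a * k * (b / G) = k * ((r * g₂ * b * N / a) * b / G) := by ring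
      rw [e1]
      gcongr)
  have hGw0 : 0 ≤ Gw (k * (y / G)) (k * ((r * g₂ * y * N / a) * y / G)) z :=
    Gw_nonneg (by positivity) hz
  have e2 : (q * b) ^ (-(1 : ℝ) / 6) * (r * (g₂ * b) * N / a) ^ ((1 : ℝ) / 3) *
      (b / G) ^ ((1 : ℝ) / 3) = q ^ (-(1 : ℝ) / 6) * (r * g₂ * N / a) ^ ((1 : ℝ) / 3) *
        (1 / G) ^ ((1 : ℝ) / 3) * b ^ ((1 : ℝ) / 2) := by
    have e3 : r * (g₂ * b) * N / a = (r * g₂ * N / a) * b := by ring
    have e4 : b / G = (1 / G) * b := by ring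
    rw [e3, e4, Real.mul_rpow hq.le hb.le, Real.mul_rpow (by positivity) hb.le,
      Real.mul_rpow (by positivity) hb.le]
    have e5 : b ^ ((1 : ℝ) / 2) = b ^ (-(1 : ℝ) / 6) * b ^ ((1 : ℝ) / 3) * b ^ ((1 : ℝ) / 3) := by
      rw [← Real.rpow_add hb, ← Real.rpow_add hb]; norm_num
    rw [e5]; ring
  calc (q * b) ^ (-(1 : ℝ) / 6) * (r * (g₂ * b) * N / a) ^ ((1 : ℝ) / 3) *
        ((b / G) ^ ((1 : ℝ) / 3) * Gw (k * (b / G)) (r * (g₂ * b) * N / a * k * (b / G)) z)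
      = (q ^ (-(1 : ℝ) / 6) * (r * g₂ * N / a) ^ ((1 : ℝ) / 3) *
        (1 / G) ^ ((1 : ℝ) / 3) * b ^ ((1 : ℝ) / 2)) *
          Gw (k * (b / G)) (r * (g₂ * b) * N / a * k * (b / G)) z := by rw [← e2]; ring
    _ ≤ (q ^ (-(1 : ℝ) / 6) * (r * g₂ * N / a) ^ ((1 : ℝ) / 3) *
        (1 / G) ^ ((1 : ℝ) / 3) * y ^ ((1 : ℝ) / 2)) *
          Gw (k * (y / G)) (k * ((r * g₂ * y * N / a) * y / G)) z := by
        gcongr
        exact Gw_nonneg (by positivity) hz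

lemma finG {η : ℝ} (hη : 0 < η) (hη1 : η ≤ 1 / 8) {X N gn r q a g₂ g₁ c γ y k : ℝ} (hX : 1 ≤ X)
    (hN : 1 ≤ N) (hNX : N ≤ X) (hgn : 1 ≤ gn) (hrX : r ≤ gn * X) (hq : 1 ≤ q) (ha : 1 ≤ a)
    (hg₂ : 1 ≤ g₂) (hg₂X : g₂ ≤ X) (hg₁ : 1 ≤ g₁) (hc : 1 ≤ c) (hγ : 1 ≤ γ) (hy : 1 ≤ y)
    (hk : 1 ≤ k) (hr : r = γ * c) (h1 : q * y ≤ N) (h2 : a * g₂ * y ≤ N ^ ((1 : ℝ) / 2)) :
    (q ^ (-(1 : ℝ) / 6) * (r * g₂ * N / a) ^ ((1 : ℝ) / 3) *
        (1 / (g₁ * (c * g₂)) ^ 2) ^ ((1 : ℝ) / 3) * y ^ ((1 : ℝ) / 2)) * N ^ ((1 : ℝ) / 6) *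
      (γ ^ (-(1 : ℝ) / 6) * γ ^ ((1 : ℝ) / 2)) *
      (X ^ η * q ^ η * (1 + k * ((r * g₂ * y * N / a) * y / (g₁ * (c * g₂)) ^ 2)) ^ (4 * η) *
        Br (N / (a * g₁)) 1 (k * (y / (g₁ * (c * g₂)) ^ 2))
          (k * ((r * g₂ * y * N / a) * y / (g₁ * (c * g₂)) ^ 2))) ≤
      (6 * k ^ 2 * (gn * X) ^ (22 * η)) * ((N ^ 2 * r) * (q⁻¹ * g₂⁻¹ * a⁻¹ * g₁⁻¹)) := by
  have hexp := expoG hN hq ha hg₂ hg₁ hc hγ hy hr h1 h2
  have hr1 : 1 ≤ r := by rw [hr]; nlinarith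
  have hyX : y ≤ X := by nlinarith
  have hqX : q ≤ X := by nlinarith
  have hgX : 1 ≤ gn * X := by nlinarith
  have hXg : X ≤ gn * X := by nlinarith
  set G : ℝ := (g₁ * (c * g₂)) ^ 2 with hG
  have hG1 : 1 ≤ G := by
    rw [hG]
    refine one_le_pow₀ ?_
    have : 1 ≤ c * g₂ := by nlinarith
    nlinarith
  set D : ℝ := y / G with hD
  set E : ℝ := (r * g₂ * y * N / a) * y / G with hE
  have hD0 : 0 ≤ D := by rw [hD]; positivity
  have hE0 : 0 ≤ E := by rw [hE]; positivity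
  have hBs := Br_scale (N := N / (a * g₁)) (Z := 1) (k := k) (by positivity) zero_le_one hD0 hE0 hk
  have hBr0 : 0 ≤ Br (N / (a * g₁)) 1 D E := Br_nonneg (by positivity) zero_le_one hD0 hE0
  have hE1 : E ≤ (gn * X) ^ 5 := by
    rw [hE]
    have e1 : r * g₂ * y * N / a ≤ r * g₂ * y * N := div_le_self (by positivity) ha
    calc (r * g₂ * y * N / a) * y / G ≤ (r * g₂ * y * N / a) * y := div_le_self (by positivity) hG1
      _ ≤ (r * g₂ * y * N) * y := by gcongr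
      _ ≤ ((gn * X) * (gn * X) * (gn * X) * (gn * X)) * (gn * X) := by
          gcongr
          · exact hg₂X.trans hXg
          · exact hyX.trans hXg
          · exact hNX.trans hXg
          · exact hyX.trans hXg
      _ = _ := by ring
  have p1 : (1 + k * E) ^ (4 * η) ≤ (2 * k) * (gn * X) ^ (20 * η) := by
    have h5 : 1 ≤ (gn * X) ^ 5 := one_le_pow₀ hgX
    have h6 : 1 + k * E ≤ (2 * k) * (gn * X) ^ 5 := by nlinarith
    calc (1 + k * E) ^ (4 * η) ≤ ((2 * k) * (gn * X) ^ 5) ^ (4 * η) := by gcongr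
      _ = (2 * k) ^ (4 * η) * (gn * X) ^ (20 * η) := by
          rw [Real.mul_rpow (by positivity) (by positivity), ← Real.rpow_natCast (gn * X),
            ← Real.rpow_mul (by positivity)]
          congr 2; push_cast; ring
      _ ≤ (2 * k) * (gn * X) ^ (20 * η) := by
          refine mul_le_mul_of_nonneg_right ?_ (by positivity)
          calc (2 * k) ^ (4 * η) ≤ (2 * k) ^ (1 : ℝ) :=
                Real.rpow_le_rpow_of_exponent_le (by linarith) (by linarith)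
            _ = 2 * k := Real.rpow_one _
  have p2 : X ^ η * q ^ η * ((2 * k) * (gn * X) ^ (20 * η)) ≤ (2 * k) * (gn * X) ^ (22 * η) := by
    have hXX : X ^ η ≤ (gn * X) ^ η := by gcongr
    have hq1 : q ^ η ≤ (gn * X) ^ η := by
      gcongr
      exact hqX.trans hXg
    calc X ^ η * q ^ η * ((2 * k) * (gn * X) ^ (20 * η))
        ≤ (gn * X) ^ η * (gn * X) ^ η * ((2 * k) * (gn * X) ^ (20 * η)) := by gcongr
      _ = (2 * k) * ((gn * X) ^ η * (gn * X) ^ η * (gn * X) ^ (20 * η)) := by ring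
      _ = _ := by
          rw [← Real.rpow_add (by positivity), ← Real.rpow_add (by positivity)]
          congr 2; ring
  set pre : ℝ := (q ^ (-(1 : ℝ) / 6) * (r * g₂ * N / a) ^ ((1 : ℝ) / 3) *
        (1 / G) ^ ((1 : ℝ) / 3) * y ^ ((1 : ℝ) / 2)) * N ^ ((1 : ℝ) / 6) *
      (γ ^ (-(1 : ℝ) / 6) * γ ^ ((1 : ℝ) / 2)) with hpre
  have hpre0 : 0 ≤ pre := by positivity
  calc pre * (X ^ η * q ^ η * (1 + k * E) ^ (4 * η) * Br (N / (a * g₁)) 1 (k * D) (k * E))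
      ≤ pre * (X ^ η * q ^ η * ((2 * k) * (gn * X) ^ (20 * η)) *
          (k * Br (N / (a * g₁)) 1 D E)) := by
        gcongr
        exact Br_nonneg (by positivity) zero_le_one (by positivity) (by positivity)
    _ = (X ^ η * q ^ η * ((2 * k) * (gn * X) ^ (20 * η))) * k *
        (pre * Br (N / (a * g₁)) 1 D E) := by ring
    _ ≤ ((2 * k) * (gn * X) ^ (22 * η)) * k *
        (3 * (N ^ 2 * r) * (q⁻¹ * g₂⁻¹ * a⁻¹ * g₁⁻¹)) := by gcongr
    _ = _ := by ring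

end Crest.Agent.R017.X6G180
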