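import Crest.Agent.R017.X6GK_180

/-!
# Row 17, exceptional class, the cross lemma of (P'_ex), dual part 4 (helper180): the core, `b'`-sum
-/

set_option autoImplicit false

noncomputable section

open Complex MeasureTheory
open scoped ComplexConjugate

namespace Crest.Agent.R017.X6G180

open Crest.Agent.R012 Crest.Agent.R012.Eis Crest.Agent.R012.Gauss880
open Crest.Agent.R012.LS2 Crest.Agent.R012.Div277
open Crest.Agent.R017.PA842 (Supp)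
open Crest.Agent.R017.PX764 (th n6 Gh)
open Crest.Agent.R017.PX6 (CrossT CopG)
open Crest.Agent.R017.X6545 (SU Gw TT nm0 nm1 Br Br_nonneg Gw_nonneg HSk xs merge)
open Crest.Agent.R017.X6D502 (n6_nonneg)

lemma sqrt_tw {B W X σ' u γ : ℝ} {Ak : ℕ} (hB : 0 ≤ B) (hX : 0 ≤ X) (hu : 1 ≤ u)
    (hγ : 1 ≤ γ) :
    Real.sqrt (B * γ * X ^ (2 * σ') * u ^ Ak + (W * X ^ σ') ^ 2) ≤
      X ^ σ' * u ^ Ak * (γ ^ ((1 : ℝ) / 2)) * Real.sqrt (B + W ^ 2) := by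
  have e1 : X ^ (2 * σ') = (X ^ σ') ^ 2 := by
    rw [← Real.rpow_natCast, ← Real.rpow_mul hX]; congr 1; push_cast; ring
  have e2 : X ^ σ' * u ^ Ak * (γ ^ ((1 : ℝ) / 2)) * Real.sqrt (B + W ^ 2) =
      Real.sqrt ((X ^ σ' * u ^ Ak) ^ 2 * γ * (B + W ^ 2)) := by
    rw [Real.sqrt_mul (by positivity), Real.sqrt_mul (by positivity), Real.sqrt_sq (by positivity),
      ← Real.sqrt_eq_rpow]
  rw [e2]
  apply Real.sqrt_le_sqrt
  rw [e1]
  have hu1 : 1 ≤ u ^ Ak := one_le_pow₀ hu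
  have h1 : u ^ Ak ≤ (u ^ Ak) ^ 2 := le_self_pow₀ hu1 (by norm_num)
  have h2 : 0 ≤ (X ^ σ') ^ 2 := by positivity
  calc B * γ * (X ^ σ') ^ 2 * u ^ Ak + (W * X ^ σ') ^ 2
      = (X ^ σ') ^ 2 * (B * γ * u ^ Ak + W ^ 2 * 1 * 1) := by ring
    _ ≤ (X ^ σ') ^ 2 * (B * γ * (u ^ Ak) ^ 2 + W ^ 2 * γ * (u ^ Ak) ^ 2) := by
        gcongr
        exact one_le_pow₀ hu1
    _ = _ := by ring

set_option maxHeartbeats 1600000 in
open Classical in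
theorem core_fixG {η : ℝ} (hη : 0 < η) (hη1 : η ≤ 1 / 8) (Ak : ℕ) : ∃ C : ℝ, 0 ≤ C ∧
    ∀ X W B : ℝ, 1 ≤ X → 0 ≤ W → 0 ≤ B → ∀ g : Eis, IsPrim g → ∀ w : Eis → ℂ,
    Supp w X → (∀ n, ‖w n‖ ≤ W) → ∀ d ∈ S X, HSG2 Ak (2 * η) w X d (g * d) B →
    ∀ δj v : Eis, SU δj → SU v → ∀ r : Eis, IsPrim r → r ∣ g * d → ∀ (σ : ℝ) (s : ℂ), 0 ≤ σ →
      σ ≤ 3 → s.re = 1 / 6 + σ → ∀ γ₂ ∈ dvs r, ∀ q ∈ S X, ∀ g₂ ∈ S X, ∀ a ∈ S X, ∀ g₁ ∈ S X,
      ∑ b' ∈ S X, (if (nm q : ℝ) * nm b' ≤ X / nm d ∧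
          (nm a : ℝ) * nm (g₂ * b') ≤ (X / nm d) ^ ((1 : ℝ) / 2) then
        ENNReal.ofReal ((nm (d * (q * b')) : ℝ) ^ (-(1 : ℝ) / 6) *
          (EG X d r a (g₂ * b')) ^ ((1 : ℝ) / 3)) * ∑' l : Eis, (if l = 0 then 0 else
          ENNReal.ofReal ((nm v : ℝ) ^ ((1 : ℝ) / 3) * Gw (nm v) (EG X d r a (g₂ * b') * nm v)
            (nm ((g₁ * (γ₂ * g₂)) ^ 2 * l)) * (n6 (r / γ₂) * (‖th (l * b')‖ *
              ‖TT (twT d (r / γ₂) (conj s) w) X d (a * g₁) q (δj * (l * b'))‖)))) else 0) ≤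
        ENNReal.ofReal ((C * (nm v : ℝ) ^ 3) * ((nm g * X) ^ (22 * η) * X ^ σ * (1 + |s.im|) ^ Ak *
          (Real.sqrt (B + W ^ 2) * ((X / nm d) * (nm g * X)))) *
          ((nm q : ℝ)⁻¹ * (nm g₂ : ℝ)⁻¹ * (nm a : ℝ)⁻¹ * (nm g₁ : ℝ)⁻¹)) := by
  obtain ⟨C0, hC0, hxs⟩ := xs hη hη1
  refine ⟨6 * C0, by positivity, ?_⟩
  intro X W B hX hW hB g hg w hw hwW d hd hHS δj v hδj hv r hr hrd σ s hσ hσ3 hs γ₂ hγ₂ q hq g₂ hg₂
    a ha g₁ hg₁
  have hX0 : 0 ≤ X := by linarith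
  obtain ⟨hdX, hdp, _⟩ := (mem_S hX0).1 hd
  obtain ⟨hqX, hqp, _⟩ := (mem_S hX0).1 hq
  obtain ⟨hg₂X, hg₂p, _⟩ := (mem_S hX0).1 hg₂
  obtain ⟨haX, hap, _⟩ := (mem_S hX0).1 ha
  obtain ⟨hg₁X, hg₁p, _⟩ := (mem_S hX0).1 hg₁
  obtain ⟨hγ₂p, γ, hγ⟩ := (mem_dvs hr.ne_zero).1 hγ₂
  have hγp : IsPrim γ := IsPrim.of_mul_left (hγ ▸ hr) hγ₂p
  have erγ : r / γ₂ = γ := by rw [hγ, mul_div_cancel_left₀ _ hγ₂p.ne_zero]
  have hd1 := nm1 hdp.ne_zero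
  have hq1 := nm1 hqp.ne_zero
  have hg₂1 := nm1 hg₂p.ne_zero
  have ha1 := nm1 hap.ne_zero
  have hg₁1 := nm1 hg₁p.ne_zero
  have hg1 := nm1 hg.ne_zero
  have hγ₂1 := nm1 hγ₂p.ne_zero
  have hγ1 := nm1 hγp.ne_zero
  have hk1 := nm1 hv.ne_zero
  have hr1 := nm1 hr.ne_zero
  have hgd : g * d ≠ 0 := (hg.mul hdp).ne_zero
  have hγgd : γ ∈ dvs (g * d) := (mem_dvs hgd).2 ⟨hγp, (Dvd.intro_left _ hγ.symm).trans hrd⟩
  have hrX : (nm r : ℝ) ≤ nm g * nm d := by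
    have h1 : nm r ≤ nm (g * d) := nm_le_of_dvd hgd hrd
    rw [nm_mul] at h1
    exact_mod_cast h1
  have hrγ : (nm r : ℝ) = nm γ * nm γ₂ := by rw [hγ, nm_mul]; push_cast; ring
  set N : ℝ := X / nm d with hN
  have hN1 : 1 ≤ N := by rw [hN, le_div_iff₀ (by linarith)]; linarith
  have hNX : N ≤ X := div_le_self hX0 hd1
  have hNd : N * nm d = X := by rw [hN]; field_simp
  rw [erγ]
  set y : ℝ := min (N / nm q) (N ^ ((1 : ℝ) / 2) / ((nm a : ℝ) * nm g₂)) with hyd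
  by_cases hy : 1 ≤ y
  swap
  · rw [Finset.sum_eq_zero]
    · exact zero_le
    · intro b' hb'
      have hb1 := nm1 ((mem_S hX0).1 hb').2.1.ne_zero
      refine if_neg fun h => hy ?_
      rw [hyd, le_min_iff]
      constructor
      · rw [le_div_iff₀ (by linarith)]
        have h3 := h.1
        nlinarith
      · rw [le_div_iff₀ (by positivity)]
        have h3 := h.2
        rw [nm_mul] at h3
        push_cast at h3
        have h4 : (nm a : ℝ) * nm g₂ ≤ (nm a : ℝ) * (nm g₂ * nm b') := by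
          gcongr
          exact le_mul_of_one_le_right (by linarith) hb1
        linarith
  have hy1 : (nm q : ℝ) * y ≤ N := by
    have h3 : y ≤ N / nm q := min_le_left _ _
    rw [le_div_iff₀ (by linarith)] at h3
    linarith
  have hy2 : (nm a : ℝ) * nm g₂ * y ≤ N ^ ((1 : ℝ) / 2) := by
    have h3 : y ≤ N ^ ((1 : ℝ) / 2) / ((nm a : ℝ) * nm g₂) := min_le_right _ _
    rw [le_div_iff₀ (by positivity)] at h3
    linarith
  set G2 : ℝ := ((nm g₁ : ℝ) * (nm γ₂ * nm g₂)) ^ 2 with hG2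
  have hG20 : 0 < G2 := by positivity
  set D' : ℝ := nm v * (y / G2) with hD'
  set E' : ℝ := nm v * ((nm r * nm g₂ * y * N / nm a) * y / G2) with hE'
  have hD0 : 0 ≤ D' := by rw [hD']; positivity
  have hE0 : 0 ≤ E' := by rw [hE']; positivity
  set pre : ℝ := (nm q : ℝ) ^ (-(1 : ℝ) / 6) * (nm r * nm g₂ * N / nm a) ^ ((1 : ℝ) / 3) *
        (1 / G2) ^ ((1 : ℝ) / 3) * y ^ ((1 : ℝ) / 2) with hpre
  have hpre0 : 0 ≤ pre := by positivity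
  set K0 : ℝ := (nm d : ℝ) ^ (-(1 : ℝ) / 6) * (nm v : ℝ) ^ ((1 : ℝ) / 3) * n6 γ * pre with hK0
  have hK00 : 0 ≤ K0 := by
    have := n6_nonneg γ
    positivity
  set w' : Eis → ℂ := twT d γ (conj s) w with hw'
  set H : Eis → ENNReal := fun x => ENNReal.ofReal (K0 * (Gw D' E' (nm x) *
    (‖th x‖ * ‖TT w' X d (a * g₁) q (δj * x)‖))) with hH
  set T : Finset Eis := (S X).filter (fun b' => (nm q : ℝ) * nm b' ≤ N ∧
          (nm a : ℝ) * nm (g₂ * b') ≤ N ^ ((1 : ℝ) / 2)) with hT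
  rw [← Finset.sum_filter, ← hT]
  have hstep : ∀ b' ∈ T, ENNReal.ofReal ((nm (d * (q * b')) : ℝ) ^ (-(1 : ℝ) / 6) *
          (EG X d r a (g₂ * b')) ^ ((1 : ℝ) / 3)) * ∑' l : Eis, (if l = 0 then 0 else
          ENNReal.ofReal ((nm v : ℝ) ^ ((1 : ℝ) / 3) * Gw (nm v) (EG X d r a (g₂ * b') * nm v)
            (nm ((g₁ * (γ₂ * g₂)) ^ 2 * l)) * (n6 γ * (‖th (l * b')‖ *
              ‖TT w' X d (a * g₁) q (δj * (l * b'))‖)))) ≤
      ∑' l : Eis, if l = 0 then 0 else H (l * b') := by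
    intro b' hb'
    rw [hT, Finset.mem_filter] at hb'
    obtain ⟨hbS, hb1, hb2⟩ := hb'
    have hbp := ((mem_S hX0).1 hbS).2.1
    have hb0 := nm0 hbp.ne_zero
    have hbp1 := nm1 hbp.ne_zero
    have hby : (nm b' : ℝ) ≤ y := by
      rw [hyd, le_min_iff]
      constructor
      · rw [le_div_iff₀ (by linarith)]; linarith
      · rw [le_div_iff₀ (by positivity)]
        rw [nm_mul] at hb2
        push_cast at hb2
        linarith
    have eE : EG X d r a (g₂ * b') = nm r * (nm g₂ * nm b') * N / nm a := by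
      unfold EG
      rw [nm_mul, ← hN]; push_cast; ring
    have hpf : 0 ≤ (nm (d * (q * b')) : ℝ) ^ (-(1 : ℝ) / 6) *
          (EG X d r a (g₂ * b')) ^ ((1 : ℝ) / 3) := by rw [eE]; positivity
    rw [← ENNReal.tsum_mul_left]
    refine ENNReal.tsum_le_tsum fun l => ?_
    by_cases hl : l = 0
    · rw [if_pos hl, if_pos hl]; simp
    rw [if_neg hl, if_neg hl, hH, ← ENNReal.ofReal_mul hpf]
    beta_reduce
    refine ENNReal.ofReal_le_ofReal ?_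
    have hwt := wtG (N := N) (r := nm r) (q := nm q) (a := nm a) (g₂ := nm g₂) (g₁ := nm g₁)
      (c := nm γ₂) (b := nm b') (y := y) (z := nm (l * b')) (k := nm v) (by linarith) (by linarith)
      (by linarith) (by linarith) (by linarith) (by linarith) (by linarith) hb0 hby
      (Nat.cast_nonneg _) (by linarith)
    rw [← hG2, ← hD', ← hE', ← hpre] at hwt
    have e1 : (nm ((g₁ * (γ₂ * g₂)) ^ 2 * l) : ℝ) = (nm (l * b') : ℝ) / ((nm b' : ℝ) / G2) := by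
      rw [hG2, nm_mul, nm_mul, nm_pow, nm_mul, nm_mul]
      push_cast
      field_simp
    have e2 : (nm (d * (q * b')) : ℝ) ^ (-(1 : ℝ) / 6) =
        (nm d : ℝ) ^ (-(1 : ℝ) / 6) * ((nm q : ℝ) * nm b') ^ (-(1 : ℝ) / 6) := by
      rw [nm_mul, nm_mul]
      push_cast
      rw [Real.mul_rpow (by positivity) (by positivity)]
    rw [e1, e2, eE]
    have hR : 0 ≤ ((nm d : ℝ) ^ (-(1 : ℝ) / 6) * (nm v : ℝ) ^ ((1 : ℝ) / 3) * n6 γ) *
        (‖th (l * b')‖ * ‖TT w' X d (a * g₁) q (δj * (l * b'))‖) := by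
      have := n6_nonneg γ
      positivity
    have := mul_le_mul_of_nonneg_left hwt hR
    refine le_trans (le_of_eq ?_) (this.trans (le_of_eq ?_))
    · ring
    · rw [hK0]; ring
  refine (Finset.sum_le_sum hstep).trans ?_
  refine (merge T (fun b hb => ((mem_S hX0).1 (Finset.mem_filter.1 hb).1).2.1) H).trans ?_
  -- the frequencies
  have hsre : (conj s).re = 1 / 6 + σ := by rw [Complex.conj_re]; exact hs
  have hsim : |(conj s).im| = |s.im| := by rw [Complex.conj_im, abs_neg]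
  have hsr0 : 0 ≤ (conj s).re := by rw [hsre]; positivity
  have hsr4 : (conj s).re ≤ 4 := by rw [hsre]; linarith
  have hHk := HSk_twT hX0 hHS hdp hγgd hsr0 hsr4
  rw [← hw', hsim] at hHk
  have hB' : 0 ≤ B * nm γ * X ^ (2 * (conj s).re) * (1 + |s.im|) ^ Ak := by positivity
  have hW' : 0 ≤ W * X ^ (conj s).re := by positivity
  have hx := hxs X 1 (W * X ^ (conj s).re) (B * nm γ * X ^ (2 * (conj s).re) * (1 + |s.im|) ^ Ak)
    hX le_rfl hW' hB' w' (twT_supp hw d γ (conj s)) (twT_le hX0 hw hW hwW hdp γ hsr0) d (a * g₁) q δj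
    hdp (hap.mul hg₁p) hqp.ne_zero hδj hHk D' E' hD0 hE0
  have e5 : ∑' x : Eis, (if x = 0 then 0 else (tau x : ENNReal) * H x) =
      ENNReal.ofReal K0 * ∑' x : Eis, ENNReal.ofReal (if x = 0 then 0 else (tau x : ℝ) *
        (Gw D' E' (nm x) * (‖th x‖ * ‖TT w' X d (a * g₁) q (δj * x)‖))) := by
    rw [← ENNReal.tsum_mul_left]
    refine tsum_congr fun x => ?_
    by_cases hx0 : x = 0
    · rw [if_pos hx0, if_pos hx0]; simp
    rw [if_neg hx0, if_neg hx0, ← ENNReal.ofReal_mul hK00, hH, ← ENNReal.ofReal_natCast,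
      ← ENNReal.ofReal_mul (Nat.cast_nonneg _)]
    congr 1; ring
  rw [e5]
  refine (mul_le_mul_right hx (ENNReal.ofReal K0)).trans ?_
  rw [← ENNReal.ofReal_mul hK00]
  refine ENNReal.ofReal_le_ofReal ?_
  have hf := finG hη hη1 (X := X) (N := N) (gn := nm g) (r := nm r) (q := nm q) (a := nm a)
    (g₂ := nm g₂) (g₁ := nm g₁) (c := nm γ₂) (γ := nm γ) (y := y) (k := nm v) hX hN1 hNX hg1
    (hrX.trans (by gcongr)) hq1 ha1 hg₂1 hg₂X hg₁1 hγ₂1 hγ1 hy hk1 hrγ hy1 hy2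
  rw [← hG2, ← hD', ← hE', ← hpre] at hf
  have hsq := sqrt_tw (B := B) (W := W) (X := X) (σ' := (conj s).re) (u := 1 + |s.im|)
    (γ := nm γ) (Ak := Ak) hB hX0 (by linarith [abs_nonneg s.im]) hγ1
  have e6 : N / (nm (a * g₁) : ℝ) = N / ((nm a : ℝ) * nm g₁) := by
    rw [nm_mul]; push_cast; rfl
  rw [e6]
  have hBr0 : 0 ≤ Br (N / ((nm a : ℝ) * nm g₁)) 1 D' E' :=
    Br_nonneg (by positivity) zero_le_one hD0 hE0
  have eX : (nm d : ℝ) ^ (-(1 : ℝ) / 6) * X ^ (conj s).re = N ^ ((1 : ℝ) / 6) * X ^ σ := by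
    rw [hsre, Real.rpow_add (by linarith), ← mul_assoc]
    congr 1
    nth_rewrite 1 [← hNd]
    rw [Real.mul_rpow (by linarith) (by linarith), neg_div, Real.rpow_neg (by linarith)]
    have : (nm d : ℝ) ^ ((1 : ℝ) / 6) ≠ 0 := by positivity
    field_simp
  have en6 : n6 γ = (nm γ : ℝ) ^ (-(1 : ℝ) / 6) := rfl
  have hk3 : (nm v : ℝ) ^ ((1 : ℝ) / 3) ≤ nm v := by
    calc (nm v : ℝ) ^ ((1 : ℝ) / 3) ≤ (nm v : ℝ) ^ (1 : ℝ) :=
          Real.rpow_le_rpow_of_exponent_le hk1 (by norm_num)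
      _ = nm v := Real.rpow_one _
  set Q : ℝ := (nm q : ℝ)⁻¹ * (nm g₂ : ℝ)⁻¹ * (nm a : ℝ)⁻¹ * (nm g₁ : ℝ)⁻¹ with hQ
  have hQ0 : 0 ≤ Q := by positivity
  have hNr : N ^ 2 * nm r ≤ N * (nm g * X) := by
    calc N ^ 2 * nm r ≤ N ^ 2 * (nm g * nm d) := by gcongr
      _ = N * (nm g * (N * nm d)) := by ring
      _ = _ := by rw [hNd]
  set Sq : ℝ := Real.sqrt (B + W ^ 2) with hSq
  have hSq0 : 0 ≤ Sq := Real.sqrt_nonneg _
  set R : ℝ := X ^ η * (nm q : ℝ) ^ η * (1 + E') ^ (4 * η) *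
    Br (N / ((nm a : ℝ) * nm g₁)) 1 D' E' with hR
  have hR0 : 0 ≤ R := by positivity
  have hn6 := n6_nonneg γ
  calc K0 * (C0 * (X ^ η * (nm q : ℝ) ^ η * (1 + E') ^ (4 * η) *
        Real.sqrt (B * nm γ * X ^ (2 * (conj s).re) * (1 + |s.im|) ^ Ak +
          (W * X ^ (conj s).re) ^ 2) * Br (N / ((nm a : ℝ) * nm g₁)) 1 D' E'))
      = K0 * C0 * (R * Real.sqrt (B * nm γ * X ^ (2 * (conj s).re) * (1 + |s.im|) ^ Ak +
          (W * X ^ (conj s).re) ^ 2)) := by rw [hR]; ring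
    _ ≤ K0 * C0 * (R * (X ^ (conj s).re * (1 + |s.im|) ^ Ak * ((nm γ : ℝ) ^ ((1 : ℝ) / 2)) *
          Sq)) := by gcongr
    _ = C0 * Sq * (1 + |s.im|) ^ Ak * (nm v : ℝ) ^ ((1 : ℝ) / 3) *
          (((nm d : ℝ) ^ (-(1 : ℝ) / 6) * X ^ (conj s).re) *
            (pre * (n6 γ * (nm γ : ℝ) ^ ((1 : ℝ) / 2)) * R)) := by rw [hK0]; ring
    _ = C0 * Sq * (1 + |s.im|) ^ Ak * X ^ σ * (nm v : ℝ) ^ ((1 : ℝ) / 3) *
          (pre * N ^ ((1 : ℝ) / 6) * ((nm γ : ℝ) ^ (-(1 : ℝ) / 6) * (nm γ : ℝ) ^ ((1 : ℝ) / 2)) *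
            R) := by rw [eX, en6]; ring
    _ ≤ C0 * Sq * (1 + |s.im|) ^ Ak * X ^ σ * nm v *
          ((6 * (nm v : ℝ) ^ 2 * (nm g * X) ^ (22 * η)) * ((N ^ 2 * nm r) * Q)) := by
        rw [hR]
        gcongr
    _ ≤ C0 * Sq * (1 + |s.im|) ^ Ak * X ^ σ * nm v *
          ((6 * (nm v : ℝ) ^ 2 * (nm g * X) ^ (22 * η)) * ((N * (nm g * X)) * Q)) := by
        gcongr
    _ = _ := by ring

end Crest.Agent.R017.X6G180
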