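import Crest.Agent.R017.X6GL_180

/-!
# Row 17, exceptional class, the cross lemma of (P'_ex), dual part 5 (helper180): `corePG`
-/

set_option autoImplicit false

noncomputable section

open Complex MeasureTheory
open scoped ComplexConjugate

namespace Crest.Agent.R017.X6G180

open Crest.Agent.R012 Crest.Agent.R012.Eis Crest.Agent.R012.Gauss880
open Crest.Agent.R012.LS2 Crest.Agent.R012.Div277
open Crest.Agent.R017.PA842 (Supp)
open Crest.Agent.R017.PX764 (th n6 Gh)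
open Crest.Agent.R017.PX6 (CrossT CopG)
open Crest.Agent.R017.X6545 (SU Gw TT nm0 nm1 Br Br_nonneg Gw_nonneg HSk xs merge reidx Ks
  sum_pow_S ws_eq')

lemma cG_zero {w : Eis → ℂ} {X : ℝ} (hw : Supp w X) {g d m₁ a δj : Eis} {s : ℂ}
    (hg : CopG g w) (hgd : ¬ IsCoprime g d) (m : Eis) : cG w X d m₁ a δj s m = 0 := by
  by_contra h
  have h1 := (cG_ne h).2
  rw [ws_eq' hw] at h1
  exact hgd (hg _ h1).of_mul_right_left

lemma sum4 {X : ℝ} (K : ℝ) (hK : 0 ≤ K) :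
    ∑ q ∈ S X, ∑ g₂ ∈ S X, ∑ a ∈ S X, ∑ g₁ ∈ S X,
      ENNReal.ofReal (K * ((nm q : ℝ)⁻¹ * (nm g₂ : ℝ)⁻¹ * (nm a : ℝ)⁻¹ * (nm g₁ : ℝ)⁻¹)) =
      ENNReal.ofReal (K * (∑ z ∈ S X, (nm z : ℝ)⁻¹) ^ 4) := by
  set σ : ℝ := ∑ z ∈ S X, (nm z : ℝ)⁻¹ with hσ
  have h4 : K * σ ^ 4 = ∑ q ∈ S X, ∑ g₂ ∈ S X, ∑ a ∈ S X, ∑ g₁ ∈ S X,
      (K * ((nm q : ℝ)⁻¹ * (nm g₂ : ℝ)⁻¹ * (nm a : ℝ)⁻¹ * (nm g₁ : ℝ)⁻¹)) := by
    have s1 : ∀ q g₂ a : Eis, ∑ g₁ ∈ S X, (K * ((nm q : ℝ)⁻¹ * (nm g₂ : ℝ)⁻¹ * (nm a : ℝ)⁻¹ *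
        (nm g₁ : ℝ)⁻¹)) = K * ((nm q : ℝ)⁻¹ * (nm g₂ : ℝ)⁻¹ * (nm a : ℝ)⁻¹) * σ := by
      intro q g₂ a
      rw [hσ, Finset.mul_sum]
      exact Finset.sum_congr rfl fun _ _ => by ring
    have s2 : ∀ q g₂ : Eis, ∑ a ∈ S X, (K * ((nm q : ℝ)⁻¹ * (nm g₂ : ℝ)⁻¹ * (nm a : ℝ)⁻¹) * σ) =
        K * ((nm q : ℝ)⁻¹ * (nm g₂ : ℝ)⁻¹) * σ * σ := by
      intro q g₂
      nth_rewrite 3 [hσ]
      rw [Finset.mul_sum]
      exact Finset.sum_congr rfl fun _ _ => by ring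
    have s3 : ∀ q : Eis, ∑ g₂ ∈ S X, (K * ((nm q : ℝ)⁻¹ * (nm g₂ : ℝ)⁻¹) * σ * σ) =
        K * ((nm q : ℝ)⁻¹) * σ * σ * σ := by
      intro q
      nth_rewrite 5 [hσ]
      rw [Finset.mul_sum]
      exact Finset.sum_congr rfl fun _ _ => by ring
    simp_rw [s1, s2, s3]
    rw [← Finset.sum_mul, ← Finset.sum_mul, ← Finset.sum_mul, ← Finset.mul_sum, ← hσ]
    ring
  rw [h4, ENNReal.ofReal_sum_of_nonneg (fun q _ => Finset.sum_nonneg fun g₂ _ =>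
    Finset.sum_nonneg fun a _ => Finset.sum_nonneg fun g₁ _ => by positivity)]
  refine Finset.sum_congr rfl fun q _ => ?_
  rw [ENNReal.ofReal_sum_of_nonneg (fun g₂ _ =>
    Finset.sum_nonneg fun a _ => Finset.sum_nonneg fun g₁ _ => by positivity)]
  refine Finset.sum_congr rfl fun g₂ _ => ?_
  rw [ENNReal.ofReal_sum_of_nonneg (fun a _ => Finset.sum_nonneg fun g₁ _ => by positivity)]
  refine Finset.sum_congr rfl fun a _ => ?_
  rw [ENNReal.ofReal_sum_of_nonneg (fun g₁ _ => by positivity)]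

lemma fin_calc {η ε : ℝ} (hη : 0 ≤ η) (h27 : 27 * η ≤ ε) {cd Ct gX X C1 Ks Sg Y : ℝ}
    (hCt : 0 ≤ Ct) (hC1 : 0 ≤ C1) (_hKs : 0 ≤ Ks) (hSg0 : 0 ≤ Sg) (hY : 0 ≤ Y) (hX : 1 ≤ X)
    (hXg : X ≤ gX) (hcard : cd ≤ Ct * gX ^ η) (hSg : Sg ≤ Ks * X ^ η) :
    cd * (C1 * (gX ^ (22 * η) * Y) * Sg ^ 4) ≤ Ct * C1 * Ks ^ 4 * gX ^ ε * Y := by
  have hgX : 1 ≤ gX := hX.trans hXg
  have hg0 : 0 < gX := by linarith
  have hpow : gX ^ η * (X ^ η) ^ 4 * gX ^ (22 * η) ≤ gX ^ ε := by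
    calc gX ^ η * (X ^ η) ^ 4 * gX ^ (22 * η)
        ≤ gX ^ η * (gX ^ η) ^ 4 * gX ^ (22 * η) := by gcongr
      _ = gX ^ (27 * η) := by
          rw [← Real.rpow_natCast (gX ^ η), ← Real.rpow_mul hg0.le,
            ← Real.rpow_add hg0, ← Real.rpow_add hg0]
          congr 1; push_cast; ring
      _ ≤ _ := Real.rpow_le_rpow_of_exponent_le hgX h27
  calc cd * (C1 * (gX ^ (22 * η) * Y) * Sg ^ 4)
      ≤ (Ct * gX ^ η) * (C1 * (gX ^ (22 * η) * Y) * (Ks * X ^ η) ^ 4) := by gcongr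
    _ = Ct * C1 * Ks ^ 4 * (gX ^ η * (X ^ η) ^ 4 * gX ^ (22 * η)) * Y := by ring
    _ ≤ _ := by gcongr

set_option maxHeartbeats 1600000 in
theorem corePG : CorePG := by
  classical
  intro ε Ak hε
  set η : ℝ := min (ε / 27) (1 / 8) with hηd
  have hη : 0 < η := by rw [hηd]; exact lt_min (by positivity) (by norm_num)
  have hη1 : η ≤ 1 / 8 := min_le_right _ _
  have hη27 : 27 * η ≤ ε := by
    have : η ≤ ε / 27 := min_le_left _ _
    linarith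
  obtain ⟨C0, hC0, hfix⟩ := core_fixG hη hη1 Ak
  obtain ⟨Ct, hCt, htau⟩ := tau_le_rpow hη
  have hKs : 0 ≤ Ks η := by unfold Ks; exact tsum_nonneg fun _ => by positivity
  refine ⟨2 * η, by positivity, ?_⟩
  intro v δj hv hδj
  have hv0 := nm0 hv.ne_zero
  refine ⟨Ct * (C0 * (nm v : ℝ) ^ 3) * Ks η ^ 4, by positivity, ?_⟩
  intro X W B hX hW hB g hg hgs w hw hgw hwW d hd hHS e he σ t hσ hσ3
  have hX0 : 0 ≤ X := by linarith
  obtain ⟨hdX, hdp, hds⟩ := (mem_S hX0).1 hd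
  have hd1 := nm1 hdp.ne_zero
  have hg1 := nm1 hg.ne_zero
  set s : ℂ := ((1 / 6 + σ : ℝ) : ℂ) + (t : ℂ) * I with hs
  have hsre : s.re = 1 / 6 + σ := by
    rw [hs]; simp
  have hsim : s.im = t := by
    rw [hs]; simp
  set r : Eis := g * (d / e) with hr
  set N : ℝ := X / nm d with hN
  have hN0 : 0 ≤ N := by positivity
  by_cases hgd : IsCoprime g d
  swap
  · -- no terms
    have h0 : CoreSumG w X d r v δj s = 0 := by
      unfold CoreSumG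
      refine Finset.sum_eq_zero fun m₁ _ => Finset.sum_eq_zero fun b _ =>
        Finset.sum_eq_zero fun a _ => ?_
      have h1 : (fun x : Eis => if x = 0 then (0 : ENNReal) else ENNReal.ofReal
          (Gw 1 (EG X d r a b) (nm x) *
          ‖∑ m ∈ S X, cG w X d m₁ a δj s m * th (v * x * m * (r * b))‖)) = fun _ => 0 := by
        funext x
        split_ifs
        · rfl
        · rw [Finset.sum_eq_zero]
          · simp
          · intro m _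
            rw [cG_zero hw hgw hgd m, zero_mul]
      rw [h1, tsum_zero, mul_zero]
    rw [h0]
    exact zero_le
  obtain ⟨hep, e', he'⟩ := (mem_dvs hdp.ne_zero).1 he
  have hde : d / e = e' := by rw [he', mul_div_cancel_left₀ _ hep.ne_zero]
  have he'p : IsPrim e' := IsPrim.of_mul_left (he' ▸ hdp) hep
  have he's : Squarefree e' := by rw [he'] at hds; exact hds.of_mul_right
  have hge : IsCoprime g e' := by
    rw [he'] at hgd; exact hgd.of_mul_right_right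
  have hrp : IsPrim r := by rw [hr, hde]; exact hg.mul he'p
  have hrs : Squarefree r := by
    rw [hr, hde, squarefree_mul_iff]; exact ⟨hge.isRelPrime, hgs, he's⟩
  have hrd : r ∣ g * d := by
    rw [hr, hde]; exact mul_dvd_mul_left _ ⟨e, by rw [he']; ring⟩
  have hgd0 : g * d ≠ 0 := (hg.mul hdp).ne_zero
  have hr1 := nm1 hrp.ne_zero
  have hrX : (nm r : ℝ) ≤ nm g * X := by
    have h1 : (nm r : ℝ) ≤ nm (g * d) := by exact_mod_cast nm_le_of_dvd hgd0 hrd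
    have h2 : (nm (g * d) : ℝ) = nm g * nm d := by
      rw [nm_mul]; push_cast; rfl
    rw [h2] at h1
    exact h1.trans (by gcongr)
  have hgX : 1 ≤ (nm g : ℝ) * X := by nlinarith
  -- the terms
  set pf : Eis → Eis → Eis → ℝ := fun m₁ b a =>
    (nm (d * m₁) : ℝ) ^ (-(1 : ℝ) / 6) * (EG X d r a b) ^ ((1 : ℝ) / 3) with hpf
  set G : Eis → Eis → Eis → Eis → Eis → Eis → ENNReal := fun γ₂ m₁ b g₂ a g₁ =>
    ENNReal.ofReal (pf m₁ b a) * ∑' l : Eis, (if l = 0 then 0 else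
      ENNReal.ofReal ((nm v : ℝ) ^ ((1 : ℝ) / 3) * Gw (nm v) (EG X d r a b * nm v)
        (nm ((g₁ * (γ₂ * g₂)) ^ 2 * l)) * (n6 (r / γ₂) * (‖th (l * (b / g₂))‖ *
          ‖TT (twT d (r / γ₂) (conj s) w) X d (a * g₁) (m₁ / (b / g₂))
            (δj * (l * (b / g₂)))‖)))) with hG
  -- the D-step
  have hD : CoreSumG w X d r v δj s ≤ ∑ γ₂ ∈ dvs r,
      ∑ m₁ ∈ (S X).filter (fun m => (nm m : ℝ) ≤ N), ∑ b ∈ dvs m₁, ∑ g₂ ∈ dvs b,
        ∑ a ∈ (S X).filter (fun a => (nm a : ℝ) * nm b ≤ N ^ ((1 : ℝ) / 2)), ∑ g₁ ∈ S X,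
          G γ₂ m₁ b g₂ a g₁ := by
    have h1 : CoreSumG w X d r v δj s ≤
        ∑ m₁ ∈ (S X).filter (fun m => (nm m : ℝ) ≤ N ∧ IsCoprime r m), ∑ γ₂ ∈ dvs r,
        ∑ b ∈ dvs m₁, ∑ g₂ ∈ dvs b,
        ∑ a ∈ (S X).filter (fun a => (nm a : ℝ) * nm b ≤ N ^ ((1 : ℝ) / 2)), ∑ g₁ ∈ S X,
          G γ₂ m₁ b g₂ a g₁ := by
      unfold CoreSumG
      refine Finset.sum_le_sum fun m₁ hm₁ => ?_
      rw [Finset.sum_comm]
      refine Finset.sum_le_sum fun b hb => ?_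
      have e1 : ∑ γ₂ ∈ dvs r, ∑ g₂ ∈ dvs b,
          ∑ a ∈ (S X).filter (fun a => (nm a : ℝ) * nm b ≤ N ^ ((1 : ℝ) / 2)), ∑ g₁ ∈ S X,
          G γ₂ m₁ b g₂ a g₁ = ∑ a ∈ (S X).filter (fun a => (nm a : ℝ) * nm b ≤
            N ^ ((1 : ℝ) / 2)), ∑ γ₂ ∈ dvs r, ∑ g₂ ∈ dvs b, ∑ g₁ ∈ S X, G γ₂ m₁ b g₂ a g₁ := by
        rw [Finset.sum_comm]
        rw [Finset.sum_congr rfl fun g₂ _ => Finset.sum_comm (s := dvs r)]
        rw [Finset.sum_comm]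
        refine Finset.sum_congr rfl fun a _ => ?_
        rw [Finset.sum_comm]
      rw [e1]
      refine Finset.sum_le_sum fun a ha => ?_
      obtain ⟨hmS, -, hmr⟩ := Finset.mem_filter.1 hm₁
      have hm := (mem_S hX0).1 hmS
      have hb' := (mem_dvs hm.2.1.ne_zero).1 hb
      have ha' := (mem_S hX0).1 (Finset.mem_filter.1 ha).1
      have h1 := oneG (δj := δj) hX0 hw hgw hdp ha'.2.1 hrp hrs hrd hb'.1
        (hm.2.2.squarefree_of_dvd hb'.2) hb'.2 hmr hv.ne_zero s (EG X d r a b)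
      refine (mul_le_mul_right h1 _).trans (le_of_eq ?_)
      rw [Finset.mul_sum]
      refine Finset.sum_congr rfl fun γ₂ _ => ?_
      rw [Finset.mul_sum]
      refine Finset.sum_congr rfl fun g₂ _ => ?_
      rw [Finset.mul_sum]
    refine h1.trans ?_
    rw [Finset.sum_comm]
    refine Finset.sum_le_sum fun γ₂ _ => ?_
    refine Finset.sum_le_sum_of_subset ?_
    intro m hm
    rw [Finset.mem_filter] at hm ⊢
    exact ⟨hm.1, hm.2.1⟩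
  -- the last sums
  set K : ℝ := (C0 * (nm v : ℝ) ^ 3) * ((nm g * X) ^ (22 * η) * X ^ σ * (1 + |s.im|) ^ Ak *
          (Real.sqrt (B + W ^ 2) * (N * (nm g * X)))) with hK
  have hK0 : 0 ≤ K := by positivity
  have hA : ∀ γ₂ ∈ dvs r, ∑ m₁ ∈ (S X).filter (fun m => (nm m : ℝ) ≤ N), ∑ b ∈ dvs m₁,
      ∑ g₂ ∈ dvs b, ∑ a ∈ (S X).filter (fun a => (nm a : ℝ) * nm b ≤ N ^ ((1 : ℝ) / 2)),
        ∑ g₁ ∈ S X, G γ₂ m₁ b g₂ a g₁ ≤
      ENNReal.ofReal (K * (∑ z ∈ S X, (nm z : ℝ)⁻¹) ^ 4) := by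
    intro γ₂ hγ₂
    refine (reidx (N := N) hX0 (fun m₁ b g₂ => ∑ a ∈ (S X).filter
      (fun a => (nm a : ℝ) * nm b ≤ N ^ ((1 : ℝ) / 2)), ∑ g₁ ∈ S X, G γ₂ m₁ b g₂ a g₁)).trans ?_
    rw [← sum4 K hK0]
    refine Finset.sum_le_sum fun q hq => Finset.sum_le_sum fun g₂ hg₂ => ?_
    have hqp := ((mem_S hX0).1 hq).2.1
    have hg₂p := ((mem_S hX0).1 hg₂).2.1
    have e1 : ∑ b' ∈ S X, (if (nm q : ℝ) * nm b' ≤ N then
        ∑ a ∈ (S X).filter (fun a => (nm a : ℝ) * nm (g₂ * b') ≤ N ^ ((1 : ℝ) / 2)),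
          ∑ g₁ ∈ S X, G γ₂ (q * b') (g₂ * b') g₂ a g₁ else 0) =
        ∑ a ∈ S X, ∑ g₁ ∈ S X, ∑ b' ∈ S X,
          (if (nm q : ℝ) * nm b' ≤ N ∧ (nm a : ℝ) * nm (g₂ * b') ≤ N ^ ((1 : ℝ) / 2) then
          ENNReal.ofReal ((nm (d * (q * b')) : ℝ) ^ (-(1 : ℝ) / 6) *
          (EG X d r a (g₂ * b')) ^ ((1 : ℝ) / 3)) * ∑' l : Eis, (if l = 0 then 0 else
          ENNReal.ofReal ((nm v : ℝ) ^ ((1 : ℝ) / 3) * Gw (nm v) (EG X d r a (g₂ * b') * nm v)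
            (nm ((g₁ * (γ₂ * g₂)) ^ 2 * l)) * (n6 (r / γ₂) * (‖th (l * b')‖ *
              ‖TT (twT d (r / γ₂) (conj s) w) X d (a * g₁) q (δj * (l * b'))‖)))) else 0) := by
      have e2 : ∀ b' ∈ S X, (if (nm q : ℝ) * nm b' ≤ N then
          ∑ a ∈ (S X).filter (fun a => (nm a : ℝ) * nm (g₂ * b') ≤ N ^ ((1 : ℝ) / 2)),
          ∑ g₁ ∈ S X, G γ₂ (q * b') (g₂ * b') g₂ a g₁ else 0) =
          ∑ a ∈ S X, ∑ g₁ ∈ S X,
          (if (nm q : ℝ) * nm b' ≤ N ∧ (nm a : ℝ) * nm (g₂ * b') ≤ N ^ ((1 : ℝ) / 2) then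
          ENNReal.ofReal ((nm (d * (q * b')) : ℝ) ^ (-(1 : ℝ) / 6) *
          (EG X d r a (g₂ * b')) ^ ((1 : ℝ) / 3)) * ∑' l : Eis, (if l = 0 then 0 else
          ENNReal.ofReal ((nm v : ℝ) ^ ((1 : ℝ) / 3) * Gw (nm v) (EG X d r a (g₂ * b') * nm v)
            (nm ((g₁ * (γ₂ * g₂)) ^ 2 * l)) * (n6 (r / γ₂) * (‖th (l * b')‖ *
              ‖TT (twT d (r / γ₂) (conj s) w) X d (a * g₁) q (δj * (l * b'))‖)))) else 0) := by
        intro b' hb'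
        have hbp := ((mem_S hX0).1 hb').2.1
        have d1 : g₂ * b' / g₂ = b' := mul_div_cancel_left₀ _ hg₂p.ne_zero
        have d2 : q * b' / b' = q := mul_div_cancel_right₀ _ hbp.ne_zero
        by_cases hc : (nm q : ℝ) * nm b' ≤ N
        · rw [if_pos hc, Finset.sum_filter]
          refine Finset.sum_congr rfl fun a _ => ?_
          by_cases hc2 : (nm a : ℝ) * nm (g₂ * b') ≤ N ^ ((1 : ℝ) / 2)
          · rw [if_pos hc2]
            refine Finset.sum_congr rfl fun g₁ _ => ?_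
            rw [if_pos ⟨hc, hc2⟩, hG]
            beta_reduce
            rw [d1, d2]
          · rw [if_neg hc2]
            symm
            exact Finset.sum_eq_zero fun g₁ _ => if_neg fun h => hc2 h.2
        · rw [if_neg hc]
          symm
          exact Finset.sum_eq_zero fun a _ => Finset.sum_eq_zero fun g₁ _ => if_neg fun h => hc h.1
      rw [Finset.sum_congr rfl e2, Finset.sum_comm]
      refine Finset.sum_congr rfl fun a _ => ?_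
      rw [Finset.sum_comm]
    rw [e1]
    refine Finset.sum_le_sum fun a ha => Finset.sum_le_sum fun g₁ hg₁ => ?_
    exact hfix X W B hX hW hB g hg w hw hwW d hd hHS δj v hδj hv r hrp hrd σ s hσ hσ3 hsre γ₂ hγ₂
      q hq g₂ hg₂ a ha g₁ hg₁
  set Sg : ℝ := ∑ z ∈ S X, (nm z : ℝ)⁻¹ with hSg
  have hSg0 : 0 ≤ Sg := Finset.sum_nonneg fun _ _ => by positivity
  have hSg1 : Sg ≤ Ks η * X ^ η := by
    have h1 := sum_pow_S (s := -1) hη le_rfl hX0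
    have e : ∀ z ∈ S X, (nm z : ℝ)⁻¹ = (nm z : ℝ) ^ (-1 : ℝ) := by
      intro z _
      rw [Real.rpow_neg_one]
    rw [hSg, Finset.sum_congr rfl e]
    refine h1.trans (le_of_eq ?_)
    norm_num
  refine hD.trans ((Finset.sum_le_sum hA).trans ?_)
  rw [Finset.sum_const, nsmul_eq_mul, ← ENNReal.ofReal_natCast,
    ← ENNReal.ofReal_mul (Nat.cast_nonneg _)]
  refine ENNReal.ofReal_le_ofReal ?_
  have hcard : ((dvs r).card : ℝ) ≤ Ct * (nm g * X) ^ η := by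
    have h1 := htau r hrp.ne_zero
    unfold tau at h1
    refine h1.trans ?_
    gcongr
  have hXg : X ≤ nm g * X := by nlinarith
  have hY : 0 ≤ X ^ σ * (1 + |t|) ^ Ak * (Real.sqrt (B + W ^ 2) * (N * (nm g * X))) := by
    positivity
  have hfc := fin_calc hη.le hη27 (C1 := C0 * (nm v : ℝ) ^ 3) (by linarith) (by positivity) hKs
    hSg0 hY hX hXg hcard hSg1
  rw [hsim] at hK
  refine le_trans (le_of_eq ?_) (hfc.trans (le_of_eq ?_))
  · rw [hK]; ring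
  · ring

end Crest.Agent.R017.X6G180
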