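import Crest.Agent.R017.X6G5_545
import Crest.Agent.R017.X6F5_848

/-!
# Row 17, exceptional class, X6 (E), dual part, interface (helper545)

* `c1 = 3 / (4 π²)`, `Dz = N(u) / A'`, `Amx` the largest length (`N(m₂) ≤ X / N(d)`)
* `Du` the dual expression of `Tab`
* `CoreSum`, `CoreP` : the sum over `m₁, b, a` of the absolute values
* `DualLe` : the algebra, `AB .. Du ≤ W (1 + log X)^4 ∑_j CoreSum (δ j)`
-/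

set_option autoImplicit false

noncomputable section

open scoped ComplexConjugate

namespace Crest.Agent.R017.X6545

open Crest.Agent.R012 Crest.Agent.R012.Eis Crest.Agent.R012.Gauss880
open Crest.Agent.R012.LS2 Crest.Agent.R012.Div277
open Crest.Agent.R017.PA842 (Supp)
open Crest.Agent.R017.PX764 (th n6 Gh Cross cD)
open Crest.Agent.R017.X6F848 (OmB')

/-- the constant of the length -/
def c1 : ℝ := 3 / (4 * Real.pi ^ 2)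

/-- `N(u) / A'` with `u = (m₂ / a) b`, `A' = Amm Z m₁ m₂ / (N(a)² N(b))` -/
def Dz (Z : ℝ) (m₁ a b : Eis) : ℝ := Z * nm a * (nm b : ℝ) ^ 2 / (c1 * nm m₁)

/-- the largest `A'` (or 1) -/
def Amx (N Z : ℝ) (m₁ a b : Eis) : ℝ :=
  max 1 (c1 * nm m₁ * N / (Z * (nm a : ℝ) ^ 2 * nm b))

open Classical in
/-- the dual expression of `Tab` -/
def Du {J : ℕ} (v δ : Fin J → Eis) (Ω : ℝ → Fin J → ℝ → ℂ) (N Z : ℝ) (m₁ m₂ a b : Eis) : ℂ :=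
  (((Amm Z m₁ m₂ / ((nm a : ℝ) ^ 2 * nm b)) ^ ((1 : ℝ) / 3) : ℝ) : ℂ) *
    ∑ j, sy (δ j) ((m₂ / a) * b) * ∑' x : Eis, if IsPrim x ∧ X6C180.CF x then
      sy (δ j) x * (((nm x : ℝ) ^ (-(1 : ℝ) / 3) : ℝ) : ℂ) * th (v j * ((m₂ / a) * b) * x) *
        Ω (Amx N Z m₁ a b) j
          ((nm ((m₂ / a) * b) : ℝ) / (Amm Z m₁ m₂ / ((nm a : ℝ) ^ 2 * nm b) * nm x)) else 0

open Classical in
/-- the absolute values -/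
def CoreSum (w : Eis → ℂ) (X Z : ℝ) (d δj : Eis) : ℝ :=
  Z ^ (-(1 : ℝ) / 3) * ∑ m₁ ∈ (S X).filter (fun m => (nm m : ℝ) ≤ X / nm d), ∑ b ∈ dvs m₁,
    ∑ a ∈ (S X).filter (fun a => (nm a : ℝ) * nm b ≤ kap X Z d),
      (nm m₁ : ℝ) ^ (-(1 : ℝ) / 3) * (nm b : ℝ) ^ (-(1 : ℝ) / 3) * (nm a : ℝ) ^ (-(2 : ℝ) / 3) *
        ∑' l : Eis, if l = 0 then 0 else
          Gw (Dz Z m₁ a b) (Amx (X / nm d) Z m₁ a b * Dz Z m₁ a b) (nm l) *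
            ‖∑ m ∈ S X, cc w X d m₁ a δj m * th (l * m * b)‖

/-- **the core** (545) -/
def CoreP : Prop := ∀ ε : ℝ, 0 < ε → ∃ κ : ℝ, 0 < κ ∧ ∃ C : ℝ, 0 ≤ C ∧ ∀ X Z W B : ℝ, 1 ≤ X →
  1 ≤ Z → 0 ≤ W → 0 ≤ B → ∀ w : Eis → ℂ, Supp w X → (∀ n, ‖w n‖ ≤ W) → ∀ d ∈ S X,
    HSk w X Z d B κ → ∀ δj : Eis, SU δj →
      Z * CoreSum w X Z d δj ≤
        C * (X * Z) ^ ε * (Real.sqrt (B + W ^ 2) * (X / nm d * (Z + X / nm d)))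

/-- **the algebra** -/
def DualLe : Prop := ∀ (J : ℕ) (v δ : Fin J → Eis), (∀ j, SU (v j) ∧ SU (δ j)) →
  ∀ (C1 : ℝ) (Ω : ℝ → Fin J → ℝ → ℂ), 0 ≤ C1 →
    (∀ Am : ℝ, 1 ≤ Am → ∀ j, OmB' Am C1 2 (Ω Am j)) →
    ∃ C : ℝ, 0 ≤ C ∧ ∀ X Z W : ℝ, 1 ≤ X → 1 ≤ Z → 0 ≤ W → ∀ w : Eis → ℂ, Supp w X →
      (∀ n, ‖w n‖ ≤ W) → ∀ d ∈ S X,
      ‖AB w X d (fun a b => (nm a : ℝ) * nm b ≤ kap X Z d) (Du v δ Ω (X / nm d) Z)‖ ≤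
        C * (1 + Real.log X) ^ 4 * W * ∑ j, CoreSum w X Z d (δ j)

end Crest.Agent.R017.X6545
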