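import Crest.Agent.R017.X6E4_502
import Crest.Agent.R017.TPFam_320

/-!
# Row 17, exceptional class, X6 at `r = g` squarefree (helper502): the direct part

* `AG w X L g d P` : `∑ m₁ m₂ coprime, w(d m₁) w̄(d m₂) n6(d m₁) N(d m₂)^(1/6) ∑_{b ∣ m₁} ∑_{a ∣ d m₂, P a b}
    μ(a) μ(b) ∑_{l ≠ 0} th (g l (d m₂ / a) b) exp (-N(a)² N(b) N(l) / L)`
* `dirG` : the bound if `N^(1/2) ≤ N(a) N(b)` under `P`
-/

set_option autoImplicit false

noncomputable section

open Finset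
open scoped ComplexConjugate

namespace Crest.Agent.R017.X6H502

open Crest.Agent.R012 Crest.Agent.R012.Eis Crest.Agent.R012.Gauss880
open Crest.Agent.R012.LS2 Crest.Agent.R012.Div277
open Crest.Agent.R017.PX764 Crest.Agent.R017.X6D502 Crest.Agent.R017.X6E502
open Crest.Agent.R017.PA842 (Supp)

/-! ### the inequality between powers -/

theorem ineqG {n L m a b D y : ℝ} (hL : 1 ≤ L) (hm : 1 ≤ m) (hmn : m ≤ n) (ha : 1 ≤ a)
    (hb : 1 ≤ b) (hD : 1 ≤ D) (hab : n ^ ((1 : ℝ) / 2) ≤ D * a * b) (hy0 : 0 ≤ y)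
    (hy : y ≤ L / (a ^ 2 * b)) :
    m ^ (-(1 : ℝ) / 6) * a ^ ((1 : ℝ) / 6) * (n / a) ^ ((1 : ℝ) / 2) * b ^ (-(1 : ℝ) / 6) *
      (y ^ ((1 : ℝ) / 3) * Real.sqrt (y + n / a + (n / a * y) ^ ((2 : ℝ) / 3))) ≤
      3 * (D * (n * (n + L)) * (1 / m) * (1 / a)) := by
  have hn : 1 ≤ n := hm.trans hmn
  obtain ⟨γ, rfl⟩ : ∃ γ, L = Real.exp γ := ⟨Real.log L, (Real.exp_log (by linarith)).symm⟩
  obtain ⟨ν, rfl⟩ : ∃ ν, n = Real.exp ν := ⟨Real.log n, (Real.exp_log (by linarith)).symm⟩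
  obtain ⟨μ, rfl⟩ : ∃ μ, m = Real.exp μ := ⟨Real.log m, (Real.exp_log (by linarith)).symm⟩
  obtain ⟨α, rfl⟩ : ∃ α, a = Real.exp α := ⟨Real.log a, (Real.exp_log (by linarith)).symm⟩
  obtain ⟨β, rfl⟩ : ∃ β, b = Real.exp β := ⟨Real.log b, (Real.exp_log (by linarith)).symm⟩
  obtain ⟨δ, rfl⟩ : ∃ δ, D = Real.exp δ := ⟨Real.log D, (Real.exp_log (by linarith)).symm⟩
  have lL : 0 ≤ γ := Real.one_le_exp_iff.1 hL
  have lm : 0 ≤ μ := Real.one_le_exp_iff.1 hm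
  have lmn : μ ≤ ν := Real.exp_le_exp.1 hmn
  have la : 0 ≤ α := Real.one_le_exp_iff.1 ha
  have lb : 0 ≤ β := Real.one_le_exp_iff.1 hb
  have lD : 0 ≤ δ := Real.one_le_exp_iff.1 hD
  have lab : ν / 2 ≤ δ + α + β := by
    rw [← Real.exp_mul, ← Real.exp_add, ← Real.exp_add, Real.exp_le_exp] at hab
    linarith
  set θ : ℝ := γ - 2 * α - β with hθ
  have hyθ : y ≤ Real.exp θ := by
    refine hy.trans (le_of_eq ?_)
    rw [← Real.exp_nat_mul, ← Real.exp_add, ← Real.exp_sub, hθ]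
    congr 1
    push_cast
    ring
  have h1 : y ^ ((1 : ℝ) / 3) ≤ Real.exp (θ / 3) := by
    refine (Real.rpow_le_rpow hy0 hyθ (by norm_num)).trans (le_of_eq ?_)
    rw [← Real.exp_mul]; congr 1; ring
  have hna : Real.exp ν / Real.exp α = Real.exp (ν - α) := (Real.exp_sub _ _).symm
  have h2 : Real.sqrt (y + Real.exp ν / Real.exp α +
      (Real.exp ν / Real.exp α * y) ^ ((2 : ℝ) / 3)) ≤
      Real.exp (θ / 2) + Real.exp ((ν - α) / 2) + Real.exp ((ν - α + θ) / 3) := by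
    rw [hna]
    have h3 : (Real.exp (ν - α) * y) ^ ((2 : ℝ) / 3) ≤ Real.exp ((ν - α + θ) * (2 / 3)) := by
      refine (Real.rpow_le_rpow (by positivity)
        (mul_le_mul_of_nonneg_left hyθ (Real.exp_pos _).le) (by norm_num)).trans (le_of_eq ?_)
      rw [← Real.exp_add, ← Real.exp_mul]
    refine (Real.sqrt_le_sqrt (add_le_add (add_le_add hyθ le_rfl) h3)).trans ?_
    refine (sqrt_add3 (Real.exp_pos _).le (Real.exp_pos _).le (Real.exp_pos _).le).trans ?_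
    rw [sqrt_exp', sqrt_exp', sqrt_exp']
    have : (ν - α + θ) * (2 / 3) / 2 = (ν - α + θ) / 3 := by ring
    rw [this]
  have e0 : Real.exp μ ^ (-(1 : ℝ) / 6) * Real.exp α ^ ((1 : ℝ) / 6) *
      (Real.exp ν / Real.exp α) ^ ((1 : ℝ) / 2) * Real.exp β ^ (-(1 : ℝ) / 6) =
      Real.exp (ν / 2 - μ / 6 - α / 3 - β / 6) := by
    rw [hna, ← Real.exp_mul, ← Real.exp_mul, ← Real.exp_mul, ← Real.exp_mul, ← Real.exp_add,
      ← Real.exp_add, ← Real.exp_add]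
    congr 1
    ring
  have e1 : Real.exp δ * (Real.exp ν * (Real.exp ν + Real.exp γ)) * (1 / Real.exp μ) *
      (1 / Real.exp α) = Real.exp (δ + 2 * ν - μ - α) + Real.exp (δ + ν + γ - μ - α) := by
    rw [one_div, one_div, ← Real.exp_neg, ← Real.exp_neg]
    have a1 : Real.exp (δ + 2 * ν - μ - α) =
        Real.exp δ * (Real.exp ν * Real.exp ν) * Real.exp (-μ) * Real.exp (-α) := by
      rw [← Real.exp_add, ← Real.exp_add, ← Real.exp_add, ← Real.exp_add]; congr 1; ring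
    have a2 : Real.exp (δ + ν + γ - μ - α) =
        Real.exp δ * (Real.exp ν * Real.exp γ) * Real.exp (-μ) * Real.exp (-α) := by
      rw [← Real.exp_add, ← Real.exp_add, ← Real.exp_add, ← Real.exp_add]; congr 1; ring
    rw [a1, a2]; ring
  rw [e0, e1]
  have key : ∀ A : ℝ, (A ≤ δ + 2 * ν - μ - α ∨ A ≤ δ + ν + γ - μ - α) → Real.exp A ≤
      Real.exp (δ + 2 * ν - μ - α) + Real.exp (δ + ν + γ - μ - α) := by
    intro A hA
    have p1 := Real.exp_pos (δ + 2 * ν - μ - α)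
    have p2 := Real.exp_pos (δ + ν + γ - μ - α)
    rcases hA with hA | hA
    · have := Real.exp_le_exp.2 hA
      linarith
    · have := Real.exp_le_exp.2 hA
      linarith
  have t1 := key (ν / 2 - μ / 6 - α / 3 - β / 6 + (θ / 3 + θ / 2)) (by
    rw [hθ]
    right; linarith)
  have t2 := key (ν / 2 - μ / 6 - α / 3 - β / 6 + (θ / 3 + (ν - α) / 2)) (by
    rw [hθ]
    rcases le_total γ ν with h | h
    · left; linarith
    · right; linarith)
  have t3 := key (ν / 2 - μ / 6 - α / 3 - β / 6 + (θ / 3 + (ν - α + θ) / 3)) (by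
    rw [hθ]
    rcases le_total γ ν with h | h
    · left; linarith
    · right; linarith)
  have hpos := Real.exp_pos (ν / 2 - μ / 6 - α / 3 - β / 6)
  calc Real.exp (ν / 2 - μ / 6 - α / 3 - β / 6) * (y ^ ((1 : ℝ) / 3) *
        Real.sqrt (y + Real.exp ν / Real.exp α + (Real.exp ν / Real.exp α * y) ^ ((2 : ℝ) / 3)))
      ≤ Real.exp (ν / 2 - μ / 6 - α / 3 - β / 6) * (Real.exp (θ / 3) *
        (Real.exp (θ / 2) + Real.exp ((ν - α) / 2) + Real.exp ((ν - α + θ) / 3))) := by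
        gcongr
    _ = Real.exp (ν / 2 - μ / 6 - α / 3 - β / 6 + (θ / 3 + θ / 2)) +
        Real.exp (ν / 2 - μ / 6 - α / 3 - β / 6 + (θ / 3 + (ν - α) / 2)) +
        Real.exp (ν / 2 - μ / 6 - α / 3 - β / 6 + (θ / 3 + (ν - α + θ) / 3)) := by
        simp only [Real.exp_add]
        ring
    _ ≤ _ := by linarith

/-- the second case: `y ≤ 1` -/
theorem ineqG2 {n L m a b D y : ℝ} (hL : 1 ≤ L) (hm : 1 ≤ m) (hmn : m ≤ n) (ha : 1 ≤ a)
    (han : a ≤ n) (hb : 1 ≤ b) (hD : 1 ≤ D) (hy0 : 0 ≤ y) (hy : y ≤ 1) :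
    m ^ (-(1 : ℝ) / 6) * a ^ ((1 : ℝ) / 6) * (n / a) ^ ((1 : ℝ) / 2) * b ^ (-(1 : ℝ) / 6) *
      (y ^ ((1 : ℝ) / 3) * Real.sqrt (y + n / a + (n / a * y) ^ ((2 : ℝ) / 3))) ≤
      3 * (D * (n * (n + L)) * (1 / m) * (1 / a)) := by
  have hn : 1 ≤ n := hm.trans hmn
  obtain ⟨ν, rfl⟩ : ∃ ν, n = Real.exp ν := ⟨Real.log n, (Real.exp_log (by linarith)).symm⟩
  obtain ⟨μ, rfl⟩ : ∃ μ, m = Real.exp μ := ⟨Real.log m, (Real.exp_log (by linarith)).symm⟩
  obtain ⟨α, rfl⟩ : ∃ α, a = Real.exp α := ⟨Real.log a, (Real.exp_log (by linarith)).symm⟩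
  obtain ⟨β, rfl⟩ : ∃ β, b = Real.exp β := ⟨Real.log b, (Real.exp_log (by linarith)).symm⟩
  have lm : 0 ≤ μ := Real.one_le_exp_iff.1 hm
  have lmn : μ ≤ ν := Real.exp_le_exp.1 hmn
  have la : 0 ≤ α := Real.one_le_exp_iff.1 ha
  have lan : α ≤ ν := Real.exp_le_exp.1 han
  have lb : 0 ≤ β := Real.one_le_exp_iff.1 hb
  have h1 : y ^ ((1 : ℝ) / 3) ≤ 1 := Real.rpow_le_one hy0 hy (by norm_num)
  have hna : Real.exp ν / Real.exp α = Real.exp (ν - α) := (Real.exp_sub _ _).symm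
  have hu1 : 1 ≤ Real.exp (ν - α) := Real.one_le_exp_iff.2 (by linarith)
  have h2 : Real.sqrt (y + Real.exp ν / Real.exp α +
      (Real.exp ν / Real.exp α * y) ^ ((2 : ℝ) / 3)) ≤ 2 * Real.exp ((ν - α) / 2) := by
    rw [hna]
    have h3 : (Real.exp (ν - α) * y) ^ ((2 : ℝ) / 3) ≤ Real.exp (ν - α) := by
      refine (Real.rpow_le_rpow (by positivity)
        (mul_le_of_le_one_right (Real.exp_pos _).le hy) (by norm_num)).trans ?_
      exact rpow_le_self hu1 (by norm_num)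
    have h4 : y + Real.exp (ν - α) + (Real.exp (ν - α) * y) ^ ((2 : ℝ) / 3) ≤
        4 * Real.exp (ν - α) := by linarith
    refine (Real.sqrt_le_sqrt h4).trans (le_of_eq ?_)
    rw [Real.sqrt_mul (by norm_num), sqrt_exp']
    congr 1
    rw [show (4 : ℝ) = 2 ^ 2 by norm_num, Real.sqrt_sq (by norm_num)]
  have e0 : Real.exp μ ^ (-(1 : ℝ) / 6) * Real.exp α ^ ((1 : ℝ) / 6) *
      (Real.exp ν / Real.exp α) ^ ((1 : ℝ) / 2) * Real.exp β ^ (-(1 : ℝ) / 6) =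
      Real.exp (ν / 2 - μ / 6 - α / 3 - β / 6) := by
    rw [hna, ← Real.exp_mul, ← Real.exp_mul, ← Real.exp_mul, ← Real.exp_mul, ← Real.exp_add,
      ← Real.exp_add, ← Real.exp_add]
    congr 1
    ring
  have e1 : Real.exp (2 * ν - μ - α) ≤ D * (Real.exp ν * (Real.exp ν + L)) * (1 / Real.exp μ) *
      (1 / Real.exp α) := by
    rw [one_div, one_div, ← Real.exp_neg, ← Real.exp_neg]
    have a1 : Real.exp (2 * ν - μ - α) =
        1 * (Real.exp ν * (Real.exp ν + 0)) * Real.exp (-μ) * Real.exp (-α) := by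
      rw [add_zero, one_mul, ← Real.exp_add, ← Real.exp_add, ← Real.exp_add]; congr 1; ring
    rw [a1]
    gcongr
    linarith
  rw [e0]
  calc Real.exp (ν / 2 - μ / 6 - α / 3 - β / 6) * (y ^ ((1 : ℝ) / 3) *
        Real.sqrt (y + Real.exp ν / Real.exp α + (Real.exp ν / Real.exp α * y) ^ ((2 : ℝ) / 3)))
      ≤ Real.exp (ν / 2 - μ / 6 - α / 3 - β / 6) * (1 * (2 * Real.exp ((ν - α) / 2))) := by
        gcongr
    _ = 2 * Real.exp (ν / 2 - μ / 6 - α / 3 - β / 6 + (ν - α) / 2) := by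
        rw [Real.exp_add]; ring
    _ ≤ 2 * Real.exp (2 * ν - μ - α) := by
        refine mul_le_mul_of_nonneg_left (Real.exp_le_exp.2 ?_) (by norm_num)
        linarith
    _ ≤ 3 * Real.exp (2 * ν - μ - α) := by
        have := Real.exp_pos (2 * ν - μ - α)
        linarith
    _ ≤ _ := mul_le_mul_of_nonneg_left e1 (by norm_num)

/-! ### the inner sum -/

/-- the frequency sum (848's `TabG`) -/
def TbG (g : Eis) (L : ℝ) (d m₂ a b : Eis) : ℂ :=
  X6A848.T (fun x => th (g * x)) (fun x => ((Real.exp (-x / L) : ℝ) : ℂ)) 1 (((d * m₂) / a) * b)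
    ((nm a : ℝ) ^ 2 * nm b)

open Classical in
/-- `TbG` with the frequency sum written out; `d = s e`, the divisor is `s a` -/
lemma TbG_eq {g : Eis} {L : ℝ} {s e a m b : Eis} (hs : s ≠ 0) (ha : a ≠ 0) :
    TbG g L (s * e) (a * m) (s * a) b = ∑' l : Eis, if l = 0 then 0 else
      th (l * m * (g * e * b)) *
        ((Real.exp (-((nm (s * a) : ℝ) ^ 2 * nm b / L * nm l)) : ℝ) : ℂ) := by
  unfold TbG X6A848.T
  have e1 : s * e * (a * m) / (s * a) = e * m := by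
    rw [show s * e * (a * m) = (s * a) * (e * m) by ring,
      mul_div_cancel_left₀ _ (mul_ne_zero hs ha)]
  rw [e1]
  refine tsum_congr fun l => ?_
  by_cases hl : l = 0
  · rw [if_neg (by simp [hl]), if_pos hl]
  · rw [if_pos ⟨hl, isCoprime_one_right⟩, if_neg hl]
    congr 2
    · ring_nf
    · ring_nf

open Classical in
/-- the coefficients of the inner sum -/
def cig (w : Eis → ℂ) (X : ℝ) (d m₁ a m : Eis) : ℂ :=
  if a * m ∈ S X ∧ IsCoprime m₁ (a * m) then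
    conj (ws w X (d * (a * m))) * (((nm (d * (a * m)) : ℝ) ^ ((1 : ℝ) / 6) : ℝ) : ℂ) else 0

lemma cig_ws {w : Eis → ℂ} {X : ℝ} {d m₁ a m : Eis} (h : cig w X d m₁ a m ≠ 0) :
    ws w X (d * (a * m)) ≠ 0 ∧ d * (a * m) ∈ S X ∧ a * m ∈ S X ∧ IsCoprime m₁ (a * m) := by
  classical
  unfold cig at h
  split_ifs at h with h1
  · have h2 : ws w X (d * (a * m)) ≠ 0 := by
      intro h0
      rw [h0] at h
      simp at h
    refine ⟨h2, ?_, h1⟩
    by_contra hn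
    exact h2 (ws_of_not_mem hn)
  · exact absurd rfl h

lemma cig_mem {w : Eis → ℂ} {X : ℝ} (hX : 0 ≤ X) {d m₁ a m : Eis} (hd : IsPrim d) (ha : IsPrim a)
    (h : cig w X d m₁ a m ≠ 0) : m ∈ S (X / nm d / nm a) := by
  obtain ⟨_, h3, h5', _⟩ := cig_ws h
  have h4 := (mem_S hX).1 h3
  have h5 := (mem_S hX).1 h5'
  have pd : (0 : ℝ) < nm d := by exact_mod_cast nm_pos.2 hd.ne_zero
  have pa : (0 : ℝ) < nm a := by exact_mod_cast nm_pos.2 ha.ne_zero
  rw [mem_S (by positivity)]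
  refine ⟨?_, (prim_mul_iff ha).1 h5.2.1, h5.2.2.of_mul_right⟩
  rw [le_div_iff₀ pa, le_div_iff₀ pd]
  refine le_trans (le_of_eq ?_) h4.1
  rw [nm_mul, nm_mul]
  push_cast
  ring

lemma norm_cig_le {w : Eis → ℂ} {X W : ℝ} (hW : 0 ≤ W) (hw : ∀ n, ‖w n‖ ≤ W) (d m₁ a m : Eis) :
    ‖cig w X d m₁ a m‖ ≤ W * (nm d : ℝ) ^ ((1 : ℝ) / 6) * (nm a : ℝ) ^ ((1 : ℝ) / 6) *
      (nm m : ℝ) ^ ((1 : ℝ) / 6) := by
  classical
  unfold cig
  split_ifs
  · rw [norm_mul, RCLike.norm_conj, Complex.norm_real, Real.norm_of_nonneg (by positivity), nm_mul,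
      nm_mul]
    push_cast
    rw [Real.mul_rpow (Nat.cast_nonneg _) (by positivity),
      Real.mul_rpow (Nat.cast_nonneg _) (Nat.cast_nonneg _)]
    calc ‖ws w X (d * (a * m))‖ * ((nm d : ℝ) ^ ((1 : ℝ) / 6) * ((nm a : ℝ) ^ ((1 : ℝ) / 6) *
          (nm m : ℝ) ^ ((1 : ℝ) / 6)))
        ≤ W * ((nm d : ℝ) ^ ((1 : ℝ) / 6) * ((nm a : ℝ) ^ ((1 : ℝ) / 6) *
          (nm m : ℝ) ^ ((1 : ℝ) / 6))) :=
          mul_le_mul_of_nonneg_right (norm_ws_le hW hw _) (by positivity)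
      _ = _ := by ring
  · rw [norm_zero]; positivity

open Classical in
/-- the inner sum -/
def InG (w : Eis → ℂ) (X : ℝ) (g : Eis) (L : ℝ) (d m₁ s a b : Eis) : ℂ :=
  ∑ m ∈ S X, if a * m ∈ S X then (if IsCoprime m₁ (a * m) then
      conj (ws w X (d * (a * m))) * (((nm (d * (a * m)) : ℝ) ^ ((1 : ℝ) / 6) : ℝ) : ℂ) *
        TbG g L d (a * m) (s * a) b else 0) else 0

open Classical in
/-- the frequency sum is pulled out, uncoupled weight -/
lemma pull1_le {N ρ : ℝ} (hN : 0 ≤ N) (hρ : 0 < ρ) {b : Eis} (hb : b ≠ 0) (c : Eis → ℂ) :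
    ‖∑ m ∈ S N, c m * ∑' l : Eis, (if l = 0 then 0 else
      th (l * m * b) * ((Real.exp (-(ρ * nm l)) : ℝ) : ℂ))‖ ≤
    ∑' l : Eis, (if l = 0 then 0 else
      Real.exp (-(ρ * nm l)) * ‖∑ m ∈ S N, c m * th (l * m * b)‖) := by
  have hsm : ∀ m ∈ S N, Summable (fun l : Eis => c m * (if l = 0 then 0 else
      th (l * m * b) * ((Real.exp (-(ρ * nm l)) : ℝ) : ℂ))) := by
    intro m hm
    have hm' := (mem_S hN).1 hm
    refine Summable.mul_left _ ?_
    refine Summable.of_norm_bounded (Crest.Agent.R012.LS2.summable_exp_nm hρ) (fun l => ?_)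
    split_ifs with hl
    · rw [norm_zero]; exact (Real.exp_pos _).le
    · rw [norm_mul, Complex.norm_real, Real.norm_of_nonneg (Real.exp_pos _).le]
      have h1 := norm_th_le_one (h := l * m * b)
        (mul_ne_zero (mul_ne_zero hl hm'.2.1.ne_zero) hb)
      exact mul_le_of_le_one_left (Real.exp_pos _).le h1
  have e1 : ∑ m ∈ S N, c m * ∑' l : Eis, (if l = 0 then 0 else
      th (l * m * b) * ((Real.exp (-(ρ * nm l)) : ℝ) : ℂ)) =
      ∑' l : Eis, (if l = 0 then 0 else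
      ((Real.exp (-(ρ * nm l)) : ℝ) : ℂ) * ∑ m ∈ S N, c m * th (l * m * b)) := by
    have e2 : ∀ m ∈ S N, c m * ∑' l : Eis, (if l = 0 then 0 else
        th (l * m * b) * ((Real.exp (-(ρ * nm l)) : ℝ) : ℂ)) =
        ∑' l : Eis, c m * (if l = 0 then 0 else
        th (l * m * b) * ((Real.exp (-(ρ * nm l)) : ℝ) : ℂ)) :=
      fun m _ => tsum_mul_left.symm
    rw [Finset.sum_congr rfl e2, ← Summable.tsum_finsetSum hsm]
    refine tsum_congr fun l => ?_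
    split_ifs with hl
    · simp
    · rw [Finset.mul_sum]
      refine Finset.sum_congr rfl fun m _ => ?_
      ring
  rw [e1]
  have e3 : ∀ l : Eis, ‖(if l = 0 then (0 : ℂ) else
      ((Real.exp (-(ρ * nm l)) : ℝ) : ℂ) * ∑ m ∈ S N, c m * th (l * m * b))‖ =
      (if l = 0 then 0 else
      Real.exp (-(ρ * nm l)) * ‖∑ m ∈ S N, c m * th (l * m * b)‖) := by
    intro l
    split_ifs
    · simp
    · rw [norm_mul, Complex.norm_real, Real.norm_of_nonneg (Real.exp_pos _).le]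
  refine (norm_tsum_le_tsum_norm (by
    simp only [e3]
    exact summ1 hN hρ hb c)).trans (le_of_eq ?_)
  exact tsum_congr e3

open Classical in
/-- the inner sum in terms of `cig` -/
lemma innG_eq {w : Eis → ℂ} {X : ℝ} {g : Eis} {L : ℝ} (hX : 0 ≤ X) {s e m₁ a b : Eis}
    (hs : IsPrim s) (he : IsPrim e) (ha : IsPrim a) :
    InG w X g L (s * e) m₁ s a b =
    ∑ m ∈ S (X / nm (s * e) / nm a), cig w X (s * e) m₁ a m * ∑' l : Eis, if l = 0 then 0 else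
      th (l * m * (g * e * b)) *
        ((Real.exp (-((nm (s * a) : ℝ) ^ 2 * nm b / L * nm l)) : ℝ) : ℂ) := by
  have hd := hs.mul he
  have pd : (1 : ℝ) ≤ nm (s * e) := by exact_mod_cast nm_pos.2 hd.ne_zero
  have pa : (1 : ℝ) ≤ nm a := by exact_mod_cast nm_pos.2 ha.ne_zero
  have hsub : S (X / nm (s * e) / nm a) ⊆ S X := by
    intro m hm
    have h1 := (mem_S (by positivity)).1 hm
    rw [mem_S hX]
    refine ⟨h1.1.trans ?_, h1.2⟩
    exact (div_le_self (by positivity) pa).trans (div_le_self hX pd)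
  unfold InG
  rw [Finset.sum_subset hsub (f := fun m => cig w X (s * e) m₁ a m * ∑' l : Eis,
      if l = 0 then 0 else th (l * m * (g * e * b)) *
        ((Real.exp (-((nm (s * a) : ℝ) ^ 2 * nm b / L * nm l)) : ℝ) : ℂ)) (fun m _ hm => by
      have : cig w X (s * e) m₁ a m = 0 := by
        by_contra h0
        exact hm (cig_mem hX hd ha h0)
      rw [this, zero_mul])]
  refine Finset.sum_congr rfl fun m hm => ?_
  by_cases h1 : a * m ∈ S X
  · by_cases h2 : IsCoprime m₁ (a * m)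
    · rw [if_pos h1, if_pos h2, TbG_eq hs.ne_zero ha.ne_zero]
      congr 1
      unfold cig
      rw [if_pos ⟨h1, h2⟩]
    · rw [if_pos h1, if_neg h2]
      unfold cig
      rw [if_neg (fun h => h2 h.2), zero_mul]
  · rw [if_neg h1]
    unfold cig
    rw [if_neg (fun h => h1 h.1), zero_mul]

set_option maxHeartbeats 1000000 in
/-- **the inner sum** -/
theorem innG_bound {η : ℝ} (hη : 0 < η) (hη1 : η ≤ 1) : ∃ C : ℝ, 0 < C ∧ ∀ X L W : ℝ, 1 ≤ X →
    1 ≤ L → 0 ≤ W → ∀ w : Eis → ℂ, (∀ n, ‖w n‖ ≤ W) → ∀ g : Eis, IsPrim g → Squarefree g →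
    (∀ n, w n ≠ 0 → IsCoprime n g) → ∀ s e m₁ b a : Eis, IsPrim s → IsPrim e → IsPrim m₁ →
    s * e * m₁ ∈ S X → IsCoprime (s * e * m₁) g → b ∈ dvs m₁ → IsPrim a →
    ((X / nm (s * e)) ^ ((1 : ℝ) / 2) ≤ (nm (s * a) : ℝ) * nm b ∨
      L ≤ (nm (s * a) : ℝ) ^ 2 * nm b) →
    n6 (s * e * m₁) * ‖InG w X g L (s * e) m₁ s a b‖ ≤
      C * (X ^ 5 * L * nm g) ^ η * W * (nm (s * e) * ((X / nm (s * e)) * (X / nm (s * e) + L)) *
        (1 / (nm m₁ : ℝ)) * (1 / (nm a : ℝ))) := by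
  classical
  obtain ⟨C, hC, h⟩ := core1 hη hη1
  obtain ⟨Cτ, hCτ, hτ⟩ := tau_le_rpow (ε := η) hη
  have hCτ0 : 0 < Cτ := by linarith
  refine ⟨3 * C * Cτ, by positivity, fun X L W hX hL hW w hw g hg hsg hwg s e m₁ b a hs he hm₁ hdm
    hdg hb ha hk => ?_⟩
  have hX0 : 0 ≤ X := by linarith
  have hL0 : 0 < L := by linarith
  have hd : IsPrim (s * e) := hs.mul he
  obtain ⟨hbp, hbd⟩ := (mem_dvs hm₁.ne_zero).1 hb
  have hdm' := (mem_S hX0).1 hdm
  have hsd : Squarefree (s * e) := hdm'.2.2.of_mul_left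
  have hcdm : IsCoprime (s * e) m₁ := (squarefree_mul_iff.mp hdm'.2.2).1.isCoprime
  have hsm₁ : Squarefree m₁ := hdm'.2.2.of_mul_right
  have ps : (1 : ℝ) ≤ nm s := by exact_mod_cast nm_pos.2 hs.ne_zero
  have pe : (1 : ℝ) ≤ nm e := by exact_mod_cast nm_pos.2 he.ne_zero
  have pd : (1 : ℝ) ≤ nm (s * e) := by exact_mod_cast nm_pos.2 hd.ne_zero
  have pa : (1 : ℝ) ≤ nm a := by exact_mod_cast nm_pos.2 ha.ne_zero
  have pb : (1 : ℝ) ≤ nm b := by exact_mod_cast nm_pos.2 hbp.ne_zero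
  have pm : (1 : ℝ) ≤ nm m₁ := by exact_mod_cast nm_pos.2 hm₁.ne_zero
  have pg : (1 : ℝ) ≤ nm g := by exact_mod_cast nm_pos.2 hg.ne_zero
  have hde : (nm (s * e) : ℝ) = nm s * nm e := by rw [nm_mul]; push_cast; ring
  have hsa : (nm (s * a) : ℝ) = nm s * nm a := by rw [nm_mul]; push_cast; ring
  have hbm : (nm b : ℝ) ≤ nm m₁ := by exact_mod_cast nm_le_of_dvd hm₁.ne_zero hbd
  rw [innG_eq hX0 hs he ha]
  set N : ℝ := X / nm (s * e) with hN
  have hNX : N ≤ X := div_le_self hX0 pd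
  have hmN : (nm m₁ : ℝ) ≤ N := by
    rw [hN, le_div_iff₀ (by linarith)]
    refine le_trans (le_of_eq ?_) hdm'.1
    rw [nm_mul (s * e) m₁]; push_cast; ring
  have hN1 : 1 ≤ N := pm.trans hmN
  set N' : ℝ := N / nm a with hN'
  have hN'N : N' ≤ N := div_le_self (by linarith) pa
  have hN'0 : 0 ≤ N' := by positivity
  set ρ : ℝ := (nm (s * a) : ℝ) ^ 2 * nm b / L with hρ
  have hρ0 : 0 < ρ := by
    have : (0 : ℝ) < nm (s * a) := by rw [hsa]; positivity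
    positivity
  set B : Eis := g * e * b with hB
  have hBp : IsPrim B := (hg.mul he).mul hbp
  have hRHS0 : 0 ≤ 3 * C * Cτ * (X ^ 5 * L * nm g) ^ η * W * (nm (s * e) * (N * (N + L)) *
        (1 / (nm m₁ : ℝ)) * (1 / (nm a : ℝ))) := by positivity
  rcases lt_or_ge N' 1 with h1 | h1
  · have : S N' = ∅ := by
      refine Finset.eq_empty_of_forall_notMem fun z hz => ?_
      have h2 := (mem_S hN'0).1 hz
      have h3 : (1 : ℝ) ≤ nm z := by exact_mod_cast nm_pos.2 h2.2.1.ne_zero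
      linarith [h2.1]
    rw [this, Finset.sum_empty, norm_zero, mul_zero]
    exact hRHS0
  -- `B` is squarefree
  have hgd : IsCoprime g (s * e) := (IsCoprime.of_mul_left_left hdg).symm
  have hgm : IsCoprime g m₁ := (IsCoprime.of_mul_left_right hdg).symm
  have hge : IsCoprime g e := hgd.of_mul_right_right
  have hgb : IsCoprime g b := hgm.of_isCoprime_of_dvd_right hbd
  have heb : IsCoprime e b := (IsCoprime.of_mul_left_right hcdm).of_isCoprime_of_dvd_right hbd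
  have hsB : Squarefree B := by
    rw [hB]
    refine squarefree_mul_iff.2 ⟨(IsCoprime.mul_left hgb heb).isRelPrime, ?_,
      hsm₁.squarefree_of_dvd hbd⟩
    exact squarefree_mul_iff.2 ⟨hge.isRelPrime, hsg, hsd.of_mul_right⟩
  have hSupp : SuppC (cig w X (s * e) m₁ a) B := by
    intro m hm
    obtain ⟨h2, h3, h4, h5⟩ := cig_ws hm
    have h3' := (mem_S hX0).1 h3
    have hw0 : w (s * e * (a * m)) ≠ 0 := by
      intro h0
      apply h2
      unfold ws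
      rw [if_pos h3, h0]
    have h6 := hwg _ hw0
    have h7 : IsCoprime m g := (IsCoprime.of_mul_left_right h6).of_mul_left_right
    have h8 : IsCoprime (s * e) (a * m) := (squarefree_mul_iff.mp h3'.2.2).1.isCoprime
    have h9 : IsCoprime m e := (h8.of_mul_right_right.of_mul_left_right).symm
    have h10 : IsCoprime m b :=
      (h5.of_mul_right_right.of_isCoprime_of_dvd_left hbd).symm
    rw [hB]
    exact IsCoprime.mul_right (IsCoprime.mul_right h7 h9) h10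
  set κ : ℝ := W * (nm (s * e) : ℝ) ^ ((1 : ℝ) / 6) * (nm a : ℝ) ^ ((1 : ℝ) / 6) *
    N' ^ ((1 : ℝ) / 2) with hκ
  have hκ0 : 0 ≤ κ := by positivity
  have hcb : ∀ m ∈ S N', ‖cig w X (s * e) m₁ a m‖ ≤ κ * (nm m : ℝ) ^ (-(1 : ℝ) / 3) := by
    intro m hm
    have hm' := (mem_S hN'0).1 hm
    have h2 : (0 : ℝ) < nm m := by exact_mod_cast nm_pos.2 hm'.2.1.ne_zero
    refine (norm_cig_le hW hw _ _ _ _).trans ?_
    have e2 : (nm m : ℝ) ^ ((1 : ℝ) / 6) =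
        (nm m : ℝ) ^ ((1 : ℝ) / 2) * (nm m : ℝ) ^ (-(1 : ℝ) / 3) := by
      rw [← Real.rpow_add h2]; norm_num
    have h3 : (nm m : ℝ) ^ ((1 : ℝ) / 2) ≤ N' ^ ((1 : ℝ) / 2) :=
      Real.rpow_le_rpow h2.le hm'.1 (by norm_num)
    rw [e2, hκ]
    calc W * (nm (s * e) : ℝ) ^ ((1 : ℝ) / 6) * (nm a : ℝ) ^ ((1 : ℝ) / 6) *
          ((nm m : ℝ) ^ ((1 : ℝ) / 2) * (nm m : ℝ) ^ (-(1 : ℝ) / 3))
        ≤ W * (nm (s * e) : ℝ) ^ ((1 : ℝ) / 6) * (nm a : ℝ) ^ ((1 : ℝ) / 6) *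
          (N' ^ ((1 : ℝ) / 2) * (nm m : ℝ) ^ (-(1 : ℝ) / 3)) := by gcongr
      _ = _ := by ring
  have hc := h N' ρ κ h1 hρ0 hκ0 B hBp hsB (cig w X (s * e) m₁ a)
    (fun m hm => cig_mem hX0 hd ha hm) hSupp hcb
  have hpull := (pull1_le hN'0 hρ0 hBp.ne_zero (cig w X (s * e) m₁ a)).trans hc
  set y : ℝ := 1 / ρ with hy
  have hy0 : 0 ≤ y := by positivity
  have hyle : y ≤ L / ((nm a : ℝ) ^ 2 * nm b) := by
    rw [hy, hρ, one_div_div]
    apply div_le_div_of_nonneg_left hL0.le (by positivity)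
    rw [hsa]
    have : (nm a : ℝ) ≤ nm s * nm a := le_mul_of_one_le_left (by positivity) ps
    gcongr
  have haN : (nm a : ℝ) ≤ N := by
    rw [hN', le_div_iff₀ (by linarith)] at h1
    linarith
  have hI : (nm m₁ : ℝ) ^ (-(1 : ℝ) / 6) * (nm a : ℝ) ^ ((1 : ℝ) / 6) * (N / nm a) ^ ((1 : ℝ) / 2) *
      (nm b : ℝ) ^ (-(1 : ℝ) / 6) *
      (y ^ ((1 : ℝ) / 3) * Real.sqrt (y + N / nm a + (N / nm a * y) ^ ((2 : ℝ) / 3))) ≤
      3 * (nm (s * e) * (N * (N + L)) * (1 / (nm m₁ : ℝ)) * (1 / (nm a : ℝ))) := by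
    rcases hk with hk | hk
    · have hcut : N ^ ((1 : ℝ) / 2) ≤ (nm (s * e) : ℝ) * nm a * nm b := by
        refine hk.trans ?_
        rw [hsa, hde]
        have : (nm s : ℝ) ≤ nm s * nm e := le_mul_of_one_le_right (by positivity) pe
        gcongr
      exact ineqG (n := N) (L := L) (m := nm m₁) (a := nm a) (b := nm b) (D := nm (s * e))
        (y := y) hL pm hmN pa pb pd hcut hy0 hyle
    · refine ineqG2 (n := N) (L := L) (m := nm m₁) (a := nm a) (b := nm b) (D := nm (s * e))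
        (y := y) hL pm hmN pa haN pb pd hy0 ?_
      rw [hy, hρ, one_div_div]
      exact div_le_one_of_le₀ hk (by positivity)
  -- the powers of `η`
  have hE : (tau B : ℝ) * (N' ^ (2 * η) * (N' / ρ) ^ η) ≤ Cτ * (X ^ 5 * L * nm g) ^ η := by
    have hdX : (nm (s * e) : ℝ) * nm m₁ ≤ X := by
      refine le_trans (le_of_eq ?_) hdm'.1
      rw [nm_mul (s * e) m₁]; push_cast; ring
    have hBn : (nm B : ℝ) ≤ nm g * X := by
      rw [hB, nm_mul, nm_mul]
      push_cast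
      have h2 : (nm e : ℝ) * nm b ≤ X := by
        refine le_trans ?_ hdX
        rw [hde]
        have h3 : (nm e : ℝ) ≤ nm s * nm e := le_mul_of_one_le_left (by positivity) ps
        gcongr
      calc (nm g : ℝ) * nm e * nm b = nm g * (nm e * nm b) := by ring
        _ ≤ _ := mul_le_mul_of_nonneg_left h2 (by positivity)
    have a1 : (tau B : ℝ) ≤ Cτ * (nm g * X) ^ η :=
      (hτ B hBp.ne_zero).trans (mul_le_mul_of_nonneg_left
        (Real.rpow_le_rpow (Nat.cast_nonneg _) hBn hη.le) hCτ0.le)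
    have hN'X : N' ≤ X := hN'N.trans hNX
    have a3 : N' ^ (2 * η) ≤ (X ^ 2) ^ η := by
      rw [Real.rpow_mul hN'0]
      refine Real.rpow_le_rpow (by positivity) ?_ hη.le
      rw [Real.rpow_two]
      exact pow_le_pow_left₀ hN'0 hN'X 2
    have a4 : (N' / ρ) ^ η ≤ (X * L) ^ η := by
      refine Real.rpow_le_rpow (by positivity) ?_ hη.le
      have b2 : N' / ρ = N' * y := by rw [hy]; ring
      have b3 : y ≤ L := by
        refine hyle.trans (div_le_self hL0.le ?_)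
        exact one_le_mul_of_one_le_of_one_le (one_le_pow₀ pa) pb
      rw [b2]
      exact mul_le_mul hN'X b3 hy0 hX0
    calc (tau B : ℝ) * (N' ^ (2 * η) * (N' / ρ) ^ η)
        ≤ (Cτ * (nm g * X) ^ η) * ((X ^ 2) ^ η * (X * L) ^ η) := by gcongr
      _ = Cτ * (X ^ 4 * L * nm g) ^ η := by
          rw [mul_assoc, ← Real.mul_rpow (by positivity) (by positivity),
            ← Real.mul_rpow (by positivity) (by positivity)]
          congr 2
          ring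
      _ ≤ Cτ * (X ^ 5 * L * nm g) ^ η := by
          refine mul_le_mul_of_nonneg_left ?_ hCτ0.le
          refine Real.rpow_le_rpow (by positivity) ?_ hη.le
          gcongr
          norm_num
  have hn6 : n6 (s * e * m₁) * (nm (s * e) : ℝ) ^ ((1 : ℝ) / 6) = (nm m₁ : ℝ) ^ (-(1 : ℝ) / 6) := by
    rw [n6_mul (s * e) m₁]
    have : n6 (s * e) * (nm (s * e) : ℝ) ^ ((1 : ℝ) / 6) = 1 := by
      unfold n6
      rw [← Real.rpow_add (by linarith)]
      norm_num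
    calc n6 (s * e) * n6 m₁ * (nm (s * e) : ℝ) ^ ((1 : ℝ) / 6) =
          (n6 (s * e) * (nm (s * e) : ℝ) ^ ((1 : ℝ) / 6)) * n6 m₁ := by ring
      _ = n6 m₁ := by rw [this, one_mul]
  have hn6B : n6 B ≤ (nm b : ℝ) ^ (-(1 : ℝ) / 6) := by
    rw [hB, n6_mul]
    have h2 : n6 (g * e) ≤ 1 := n6_le_one (mul_ne_zero hg.ne_zero he.ne_zero)
    exact mul_le_of_le_one_left (n6_nonneg _) h2
  have eBd : Bd1 η N' ρ = N' ^ (2 * η) * (N' / ρ) ^ η *
      (y ^ ((1 : ℝ) / 3) * Real.sqrt (y + N' + (N' * y) ^ ((2 : ℝ) / 3))) := by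
    unfold Bd1
    rw [hy, mul_one_div]
    ring
  refine (mul_le_mul_of_nonneg_left hpull (n6_nonneg _)).trans ?_
  have hbd0 := Bd1_nonneg (η := η) hN'0 hρ0.le
  calc n6 (s * e * m₁) * (C * κ * (tau B : ℝ) * n6 B * Bd1 η N' ρ)
      ≤ n6 (s * e * m₁) * (C * κ * (tau B : ℝ) * (nm b : ℝ) ^ (-(1 : ℝ) / 6) * Bd1 η N' ρ) := by
        refine mul_le_mul_of_nonneg_left ?_ (n6_nonneg _)
        gcongr
    _ = C * W * ((tau B : ℝ) * (N' ^ (2 * η) * (N' / ρ) ^ η)) *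
        ((n6 (s * e * m₁) * (nm (s * e) : ℝ) ^ ((1 : ℝ) / 6)) * (nm a : ℝ) ^ ((1 : ℝ) / 6) *
        N' ^ ((1 : ℝ) / 2) * (nm b : ℝ) ^ (-(1 : ℝ) / 6) *
        (y ^ ((1 : ℝ) / 3) * Real.sqrt (y + N' + (N' * y) ^ ((2 : ℝ) / 3)))) := by
        rw [eBd, hκ]; ring
    _ ≤ C * W * (Cτ * (X ^ 5 * L * nm g) ^ η) *
        (3 * (nm (s * e) * (N * (N + L)) * (1 / (nm m₁ : ℝ)) * (1 / (nm a : ℝ)))) := by
        rw [hn6]
        refine mul_le_mul (mul_le_mul_of_nonneg_left hE (by positivity)) hI ?_ (by positivity)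
        positivity
    _ = _ := by ring

/-! ### the sum -/

open Classical in
/-- the direct part (848's `ABG` with `TabG`) -/
def AG (w : Eis → ℂ) (X L : ℝ) (g d : Eis) (P : Eis → Eis → Prop) : ℂ :=
  ∑ m₁ ∈ S X, ∑ m₂ ∈ S X, if IsCoprime m₁ m₂ then
    ws w X (d * m₁) * conj (ws w X (d * m₂)) *
      ((n6 (d * m₁) * (nm (d * m₂) : ℝ) ^ ((1 : ℝ) / 6) : ℝ) : ℂ) *
      ∑ b ∈ dvs m₁, ∑ a ∈ (dvs (d * m₂)).filter (fun a => P a b), (muE a : ℂ) * (muE b : ℂ) *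
        TbG g L d m₂ a b
    else 0

open Classical in
/-- the sum over `m₂` and `a ∣ d m₂` for fixed `m₁` -/
lemma rowG_eq (w : Eis → ℂ) {X : ℝ} (hX : 0 ≤ X) (L : ℝ) (g : Eis) {d : Eis} (hd : IsPrim d)
    (m₁ : Eis) (P : Eis → Eis → Prop) :
    (∑ m₂ ∈ S X, if IsCoprime m₁ m₂ then
    ws w X (d * m₁) * conj (ws w X (d * m₂)) *
      ((n6 (d * m₁) * (nm (d * m₂) : ℝ) ^ ((1 : ℝ) / 6) : ℝ) : ℂ) *
      ∑ b ∈ dvs m₁, ∑ a ∈ (dvs (d * m₂)).filter (fun a => P a b), (muE a : ℂ) * (muE b : ℂ) *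
        TbG g L d m₂ a b
    else 0) =
    ws w X (d * m₁) * ((n6 (d * m₁) : ℝ) : ℂ) *
      ∑ b ∈ dvs m₁, (muE b : ℂ) * ∑ s ∈ dvs d, ∑ a ∈ S X,
        if P (s * a) b then (muE (s * a) : ℂ) * InG w X g L d m₁ s a b else 0 := by
  have e1 : ∀ b s : Eis, (∑ a ∈ S X, if P (s * a) b then
        (muE (s * a) : ℂ) * InG w X g L d m₁ s a b else 0) =
      ∑ m₂ ∈ S X, ∑ a ∈ dvs m₂, (if P (s * a) b then (muE (s * a) : ℂ) * (if IsCoprime m₁ m₂ then
        conj (ws w X (d * m₂)) * (((nm (d * m₂) : ℝ) ^ ((1 : ℝ) / 6) : ℝ) : ℂ) *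
        TbG g L d m₂ (s * a) b else 0) else 0) := by
    intro b s
    rw [swap hX (fun m₂ a => (if P (s * a) b then (muE (s * a) : ℂ) * (if IsCoprime m₁ m₂ then
        conj (ws w X (d * m₂)) * (((nm (d * m₂) : ℝ) ^ ((1 : ℝ) / 6) : ℝ) : ℂ) *
        TbG g L d m₂ (s * a) b else 0) else 0))]
    refine Finset.sum_congr rfl fun a _ => ?_
    by_cases hP : P (s * a) b
    · simp only [if_pos hP]
      unfold InG
      rw [Finset.mul_sum]
      refine Finset.sum_congr rfl fun m _ => ?_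
      rw [mul_ite, mul_zero]
    · simp only [if_neg hP]
      symm
      exact Finset.sum_eq_zero fun m _ => by split_ifs <;> rfl
  simp only [e1]
  -- the divisors of `d m₂`
  have e3 : ∀ b : Eis, ∀ m₂ ∈ S X, (∑ s ∈ dvs d, ∑ a ∈ dvs m₂, (if P (s * a) b then
        (muE (s * a) : ℂ) * (if IsCoprime m₁ m₂ then
        conj (ws w X (d * m₂)) * (((nm (d * m₂) : ℝ) ^ ((1 : ℝ) / 6) : ℝ) : ℂ) *
        TbG g L d m₂ (s * a) b else 0) else 0)) =
      ∑ a ∈ dvs (d * m₂), (if P a b then (muE a : ℂ) * (if IsCoprime m₁ m₂ then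
        conj (ws w X (d * m₂)) * (((nm (d * m₂) : ℝ) ^ ((1 : ℝ) / 6) : ℝ) : ℂ) *
        TbG g L d m₂ a b else 0) else 0) := by
    intro b m₂ hm₂
    by_cases hws : ws w X (d * m₂) = 0
    · rw [hws]
      simp
    · have hdm : d * m₂ ∈ S X := by
        by_contra hn
        exact hws (ws_of_not_mem hn)
      have hdm' := (mem_S hX).1 hdm
      have hco : IsCoprime d m₂ := (squarefree_mul_iff.mp hdm'.2.2).1.isCoprime
      rw [TP320.sum_dvs_mul hd ((mem_S hX).1 hm₂).2.1 hco (fun a => (if P a b then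
        (muE a : ℂ) * (if IsCoprime m₁ m₂ then
        conj (ws w X (d * m₂)) * (((nm (d * m₂) : ℝ) ^ ((1 : ℝ) / 6) : ℝ) : ℂ) *
        TbG g L d m₂ a b else 0) else 0))]
  have e4 : ∀ b : Eis, (∑ s ∈ dvs d, ∑ m₂ ∈ S X, ∑ a ∈ dvs m₂, (if P (s * a) b then
        (muE (s * a) : ℂ) * (if IsCoprime m₁ m₂ then
        conj (ws w X (d * m₂)) * (((nm (d * m₂) : ℝ) ^ ((1 : ℝ) / 6) : ℝ) : ℂ) *
        TbG g L d m₂ (s * a) b else 0) else 0)) =
      ∑ m₂ ∈ S X, ∑ a ∈ dvs (d * m₂), (if P a b then (muE a : ℂ) * (if IsCoprime m₁ m₂ then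
        conj (ws w X (d * m₂)) * (((nm (d * m₂) : ℝ) ^ ((1 : ℝ) / 6) : ℝ) : ℂ) *
        TbG g L d m₂ a b else 0) else 0) := by
    intro b
    rw [Finset.sum_comm]
    exact Finset.sum_congr rfl fun m₂ hm₂ => e3 b m₂ hm₂
  simp only [e4]
  rw [Finset.mul_sum]
  have e2 : ∀ b ∈ dvs m₁, ws w X (d * m₁) * ((n6 (d * m₁) : ℝ) : ℂ) *
      ((muE b : ℂ) * ∑ m₂ ∈ S X, ∑ a ∈ dvs (d * m₂), (if P a b then (muE a : ℂ) *
        (if IsCoprime m₁ m₂ then
        conj (ws w X (d * m₂)) * (((nm (d * m₂) : ℝ) ^ ((1 : ℝ) / 6) : ℝ) : ℂ) *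
        TbG g L d m₂ a b else 0) else 0)) =
      ∑ m₂ ∈ S X, (ws w X (d * m₁) * ((n6 (d * m₁) : ℝ) : ℂ) *
      ((muE b : ℂ) * ∑ a ∈ dvs (d * m₂), (if P a b then (muE a : ℂ) *
        (if IsCoprime m₁ m₂ then
        conj (ws w X (d * m₂)) * (((nm (d * m₂) : ℝ) ^ ((1 : ℝ) / 6) : ℝ) : ℂ) *
        TbG g L d m₂ a b else 0) else 0))) := by
    intro b _
    rw [Finset.mul_sum, Finset.mul_sum]
  rw [Finset.sum_congr rfl e2, Finset.sum_comm]
  refine Finset.sum_congr rfl fun m₂ _ => ?_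
  by_cases hco : IsCoprime m₁ m₂
  · simp only [if_pos hco]
    rw [Finset.mul_sum]
    refine Finset.sum_congr rfl fun b _ => ?_
    rw [← Finset.sum_filter, Finset.mul_sum, Finset.mul_sum, Finset.mul_sum]
    refine Finset.sum_congr rfl fun a _ => ?_
    push_cast
    ring
  · simp only [if_neg hco]
    symm
    refine Finset.sum_eq_zero fun b _ => ?_
    have : (∑ a ∈ dvs (d * m₂), if P a b then (muE a : ℂ) * 0 else 0) = 0 :=
      Finset.sum_eq_zero fun a _ => by split_ifs <;> simp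
    rw [this, mul_zero, mul_zero]

set_option maxHeartbeats 1000000 in
/-- **the direct part at `r = g`** -/
theorem dirG {ε : ℝ} (hε : 0 < ε) : ∃ C : ℝ, 0 < C ∧ ∀ X L W : ℝ, 1 ≤ X → 1 ≤ L → 0 ≤ W →
    ∀ g : Eis, IsPrim g → Squarefree g → ∀ w : Eis → ℂ, (∀ n, ‖w n‖ ≤ W) →
    (∀ n, w n ≠ 0 → IsCoprime n g) → ∀ d ∈ S X, ∀ P : Eis → Eis → Prop,
    (∀ a b, P a b → ((X / nm d) ^ ((1 : ℝ) / 2) ≤ (nm a : ℝ) * nm b ∨
      L ≤ (nm a : ℝ) ^ 2 * nm b)) →
    ‖AG w X L g d P‖ ≤ C * (X * L * nm g) ^ ε *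
      (nm d * (W ^ 2 * (X / nm d) * (X / nm d + L))) := by
  classical
  set η : ℝ := min (ε / 9) 1 with hη
  have hη0 : 0 < η := lt_min (by positivity) one_pos
  have hη1 : η ≤ 1 := min_le_right _ _
  have hηε : 9 * η ≤ ε := by
    have := min_le_left (ε / 9) 1
    rw [← hη] at this
    linarith
  obtain ⟨C, hC, h⟩ := innG_bound hη0 hη1
  obtain ⟨Cτ, hCτ, hτ⟩ := tau_le_rpow (ε := η) hη0
  obtain ⟨K, hK, hLL⟩ := LS448.LL_le (ε := η) hη0
  have hCτ0 : 0 < Cτ := by linarith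
  refine ⟨C * Cτ ^ 2 * K ^ 2, by positivity, fun X L W hX hL hW g hg hsg w hwW hwg d hd P hP => ?_⟩
  have hX0 : 0 ≤ X := by linarith
  have hXp : 0 < X := by linarith
  have hLp : 0 < L := by linarith
  have hd' := (mem_S hX0).1 hd
  have pd : (1 : ℝ) ≤ nm d := by exact_mod_cast nm_pos.2 hd'.2.1.ne_zero
  have pg : (1 : ℝ) ≤ nm g := by exact_mod_cast nm_pos.2 hg.ne_zero
  set N : ℝ := X / nm d with hN
  have hN0 : 0 ≤ N := by positivity
  have hsumX : ∑ a ∈ S X, 1 / (nm a : ℝ) ≤ K * X ^ η := by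
    have h5 := X6b792.sum_inv_S_le hX0
    simp only [Real.rpow_neg_one] at h5
    simp only [one_div]
    exact h5.trans (hLL X hX)
  have hτb : ∀ b : Eis, IsPrim b → (nm b : ℝ) ≤ X → (tau b : ℝ) ≤ Cτ * X ^ η := by
    intro b hb hbX
    refine (hτ b hb.ne_zero).trans (mul_le_mul_of_nonneg_left ?_ hCτ0.le)
    exact Real.rpow_le_rpow (Nat.cast_nonneg _) hbX hη0.le
  set D : ℝ := nm d * (N * (N + L)) with hD
  have hD0 : 0 ≤ D := by positivity
  set E : ℝ := (X ^ 5 * L * nm g) ^ η with hE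
  have hE0 : 0 ≤ E := by positivity
  -- one row
  have row : ∀ m₁ ∈ S X, ‖ws w X (d * m₁) * ((n6 (d * m₁) : ℝ) : ℂ) *
      ∑ b ∈ dvs m₁, (muE b : ℂ) * ∑ s ∈ dvs d, ∑ a ∈ S X,
        (if P (s * a) b then (muE (s * a) : ℂ) * InG w X g L d m₁ s a b else 0)‖ ≤
      C * Cτ ^ 2 * K * E * X ^ (3 * η) * W ^ 2 * D * (1 / (nm m₁ : ℝ)) := by
    intro m₁ hm
    have hm' := (mem_S hX0).1 hm
    have pm : (1 : ℝ) ≤ nm m₁ := by exact_mod_cast nm_pos.2 hm'.2.1.ne_zero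
    have hR0 : 0 ≤ C * Cτ ^ 2 * K * E * X ^ (3 * η) * W ^ 2 * D * (1 / (nm m₁ : ℝ)) := by
      positivity
    by_cases hws : ws w X (d * m₁) = 0
    · rw [hws, zero_mul, zero_mul, norm_zero]
      exact hR0
    have hdm : d * m₁ ∈ S X := by
      by_contra hn
      exact hws (ws_of_not_mem hn)
    have hcg : IsCoprime (d * m₁) g := by
      apply hwg
      intro h0
      apply hws
      unfold ws
      rw [if_pos hdm, h0]
    rw [norm_mul, norm_mul, Complex.norm_real, Real.norm_of_nonneg (n6_nonneg _)]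
    have h1 : ‖∑ b ∈ dvs m₁, (muE b : ℂ) * ∑ s ∈ dvs d, ∑ a ∈ S X, (if P (s * a) b then
        (muE (s * a) : ℂ) * InG w X g L d m₁ s a b else 0)‖ ≤
        ∑ b ∈ dvs m₁, ∑ s ∈ dvs d, ∑ a ∈ S X,
          (if P (s * a) b then ‖InG w X g L d m₁ s a b‖ else 0) := by
      refine (norm_sum_le _ _).trans (Finset.sum_le_sum fun b _ => ?_)
      rw [norm_mul]
      refine (mul_le_of_le_one_left (norm_nonneg _) (norm_muE_le b)).trans ?_
      refine (norm_sum_le _ _).trans (Finset.sum_le_sum fun s _ => ?_)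
      refine (norm_sum_le _ _).trans (Finset.sum_le_sum fun a _ => ?_)
      split_ifs
      · rw [norm_mul]
        exact mul_le_of_le_one_left (norm_nonneg _) (norm_muE_le _)
      · rw [norm_zero]
    have h2 : ∀ b ∈ dvs m₁, ∀ s ∈ dvs d, ∀ a ∈ S X, n6 (d * m₁) *
        (if P (s * a) b then ‖InG w X g L d m₁ s a b‖ else 0) ≤
        C * E * W * (D * (1 / (nm m₁ : ℝ))) * (1 / (nm a : ℝ)) := by
      intro b hb s hs a ha
      have ha' := (mem_S hX0).1 ha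
      obtain ⟨hsp, e, hde⟩ := (mem_dvs hd'.2.1.ne_zero).1 hs
      have hep : IsPrim e := (prim_mul_iff hsp).1 (hde ▸ hd'.2.1)
      split_ifs with hPab
      · have hk := hP _ _ hPab
        have h3 := h X L W hX hL hW w hwW g hg hsg hwg s e m₁ b a hsp hep hm'.2.1
          (hde ▸ hdm) (hde ▸ hcg) hb ha'.2.1 (by rw [← hde]; exact hk)
        rw [← hde] at h3
        refine h3.trans (le_of_eq ?_)
        rw [hD, hE]; ring
      · rw [mul_zero]; positivity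
    have h3 : n6 (d * m₁) * (∑ b ∈ dvs m₁, ∑ s ∈ dvs d, ∑ a ∈ S X,
        (if P (s * a) b then ‖InG w X g L d m₁ s a b‖ else 0)) ≤
        (tau m₁ : ℝ) * ((tau d : ℝ) * (C * E * W * (D * (1 / (nm m₁ : ℝ))) *
          ∑ a ∈ S X, 1 / (nm a : ℝ))) := by
      rw [Finset.mul_sum]
      have hb1 : ∀ b ∈ dvs m₁, n6 (d * m₁) * (∑ s ∈ dvs d, ∑ a ∈ S X,
          (if P (s * a) b then ‖InG w X g L d m₁ s a b‖ else 0)) ≤
          (tau d : ℝ) * (C * E * W * (D * (1 / (nm m₁ : ℝ))) *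
          ∑ a ∈ S X, 1 / (nm a : ℝ)) := by
        intro b hb
        rw [Finset.mul_sum]
        have hs1 : ∀ s ∈ dvs d, n6 (d * m₁) * (∑ a ∈ S X,
            (if P (s * a) b then ‖InG w X g L d m₁ s a b‖ else 0)) ≤
            C * E * W * (D * (1 / (nm m₁ : ℝ))) * ∑ a ∈ S X, 1 / (nm a : ℝ) := by
          intro s hs
          rw [Finset.mul_sum, Finset.mul_sum]
          exact Finset.sum_le_sum fun a ha => h2 b hb s hs a ha
        refine (Finset.sum_le_sum hs1).trans (le_of_eq ?_)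
        rw [Finset.sum_const, nsmul_eq_mul]
        rfl
      refine (Finset.sum_le_sum hb1).trans (le_of_eq ?_)
      rw [Finset.sum_const, nsmul_eq_mul]
      rfl
    have hτm := hτb m₁ hm'.2.1 hm'.1
    have hτd := hτb d hd'.2.1 hd'.1
    calc ‖ws w X (d * m₁)‖ * n6 (d * m₁) *
          ‖∑ b ∈ dvs m₁, (muE b : ℂ) * ∑ s ∈ dvs d, ∑ a ∈ S X, (if P (s * a) b then
            (muE (s * a) : ℂ) * InG w X g L d m₁ s a b else 0)‖
        ≤ W * n6 (d * m₁) * ∑ b ∈ dvs m₁, ∑ s ∈ dvs d, ∑ a ∈ S X,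
          (if P (s * a) b then ‖InG w X g L d m₁ s a b‖ else 0) := by
          refine mul_le_mul (mul_le_mul_of_nonneg_right (norm_ws_le hW hwW _) (n6_nonneg _)) h1
            (norm_nonneg _) (mul_nonneg hW (n6_nonneg _))
      _ = W * (n6 (d * m₁) * (∑ b ∈ dvs m₁, ∑ s ∈ dvs d, ∑ a ∈ S X,
          (if P (s * a) b then ‖InG w X g L d m₁ s a b‖ else 0))) := by ring
      _ ≤ W * ((tau m₁ : ℝ) * ((tau d : ℝ) * (C * E * W * (D * (1 / (nm m₁ : ℝ))) *
          ∑ a ∈ S X, 1 / (nm a : ℝ)))) := mul_le_mul_of_nonneg_left h3 hW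
      _ ≤ W * ((Cτ * X ^ η) * ((Cτ * X ^ η) * (C * E * W * (D * (1 / (nm m₁ : ℝ))) *
          (K * X ^ η)))) := by gcongr
      _ = C * Cτ ^ 2 * K * E * (X ^ η * X ^ η * X ^ η) * W ^ 2 * D *
          (1 / (nm m₁ : ℝ)) := by ring
      _ = _ := by
          rw [← Real.rpow_add hXp, ← Real.rpow_add hXp]
          congr 5
          ring
  -- all rows
  unfold AG
  have e1 := fun m₁ : Eis => rowG_eq w hX0 L g hd'.2.1 m₁ P
  simp only [e1]
  calc ‖∑ m₁ ∈ S X, ws w X (d * m₁) * ((n6 (d * m₁) : ℝ) : ℂ) *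
        ∑ b ∈ dvs m₁, (muE b : ℂ) * ∑ s ∈ dvs d, ∑ a ∈ S X,
          (if P (s * a) b then (muE (s * a) : ℂ) * InG w X g L d m₁ s a b else 0)‖
      ≤ ∑ m₁ ∈ S X, C * Cτ ^ 2 * K * E * X ^ (3 * η) * W ^ 2 * D * (1 / (nm m₁ : ℝ)) :=
        (norm_sum_le _ _).trans (Finset.sum_le_sum row)
    _ = C * Cτ ^ 2 * K * E * X ^ (3 * η) * W ^ 2 * D * ∑ m₁ ∈ S X, 1 / (nm m₁ : ℝ) := by
        rw [Finset.mul_sum]
    _ ≤ C * Cτ ^ 2 * K * E * X ^ (3 * η) * W ^ 2 * D * (K * X ^ η) :=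
        mul_le_mul_of_nonneg_left hsumX (by positivity)
    _ = C * Cτ ^ 2 * K ^ 2 * (E * (X ^ (3 * η) * X ^ η)) * (W ^ 2 * D) := by ring
    _ ≤ C * Cτ ^ 2 * K ^ 2 * (X * L * nm g) ^ ε * (W ^ 2 * D) := by
        have h1 : E * (X ^ (3 * η) * X ^ η) ≤ (X * L * nm g) ^ ε := by
          have hM1 : 1 ≤ X * L * nm g :=
            one_le_mul_of_one_le_of_one_le (one_le_mul_of_one_le_of_one_le hX hL) pg
          have e2 : X ^ (3 * η) * X ^ η = (X ^ 4) ^ η := by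
            rw [← Real.rpow_add hXp, ← Real.rpow_natCast, ← Real.rpow_mul hX0]
            congr 1
            push_cast
            ring
          rw [e2, hE, ← Real.mul_rpow (by positivity) (by positivity)]
          have h3 : X ^ 5 * L * nm g * X ^ 4 ≤ (X * L * nm g) ^ 9 := by
            have a1 : (1 : ℝ) ≤ L ^ 8 := one_le_pow₀ hL
            have a2 : (1 : ℝ) ≤ (nm g : ℝ) ^ 8 := one_le_pow₀ pg
            have a3 : (1 : ℝ) ≤ L ^ 8 * (nm g : ℝ) ^ 8 := one_le_mul_of_one_le_of_one_le a1 a2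
            calc X ^ 5 * L * nm g * X ^ 4 = X ^ 9 * L * nm g * 1 := by ring
              _ ≤ X ^ 9 * L * nm g * (L ^ 8 * (nm g : ℝ) ^ 8) :=
                  mul_le_mul_of_nonneg_left a3 (by positivity)
              _ = _ := by ring
          calc (X ^ 5 * L * nm g * X ^ 4) ^ η ≤ ((X * L * nm g) ^ 9) ^ η :=
                Real.rpow_le_rpow (by positivity) h3 hη0.le
            _ = (X * L * nm g) ^ (9 * η) := by
                rw [← Real.rpow_natCast, ← Real.rpow_mul (by positivity)]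
                congr 1
            _ ≤ _ := Real.rpow_le_rpow_of_exponent_le hM1 hηε
        gcongr
    _ = _ := by rw [hD]; ring

end Crest.Agent.R017.X6H502
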