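import Crest.Agent.R017.X6H0_545
import Crest.Agent.R017.X6E4_502

/-!
# Row 17, exceptional class, X6 (E), the algebra of the dual part (helper502)

* `dualLe : X6545.DualLe`
-/

set_option autoImplicit false

noncomputable section

open Finset
open scoped ComplexConjugate

namespace Crest.Agent.R017.X6K502

open Crest.Agent.R012 Crest.Agent.R012.Eis Crest.Agent.R012.Gauss880
open Crest.Agent.R012.LS2 Crest.Agent.R012.Div277
open Crest.Agent.R017.PA842 (Supp)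
open Crest.Agent.R017.PX764 (th n6 Gh Cross cD)
open Crest.Agent.R017.X6D502 Crest.Agent.R017.X6E502 Crest.Agent.R017.X6545
open Crest.Agent.R017.X6F848 (OmB')

/-! ### rows -/

open Classical in
/-- the sum over `m₂ = a m` -/
def InF (w : Eis → ℂ) (X : ℝ) (F : Eis → Eis → Eis → Eis → ℂ) (d m₁ a b : Eis) : ℂ :=
  ∑ m ∈ S X, if a * m ∈ S X then (if IsCoprime m₁ (a * m) then
      conj (ws w X (d * (a * m))) *
        (((nm (a * m) : ℝ) ^ (-(1 : ℝ) / 2) * (nm (a * m) : ℝ) ^ ((1 : ℝ) / 6) : ℝ) : ℂ) *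
        F m₁ (a * m) a b else 0) else 0

open Classical in
/-- the sum over `m₂` and `a ∣ m₂` for fixed `m₁` -/
lemma rowF_eq (w : Eis → ℂ) {X : ℝ} (hX : 0 ≤ X) (F : Eis → Eis → Eis → Eis → ℂ) (d m₁ : Eis)
    (P : Eis → Eis → Prop) :
    (∑ m₂ ∈ S X, if IsCoprime m₁ m₂ then
    ws w X (d * m₁) * conj (ws w X (d * m₂)) *
      (((nm m₁ : ℝ) ^ (-(1 : ℝ) / 2) * (nm m₂ : ℝ) ^ (-(1 : ℝ) / 2) : ℝ) : ℂ) *
      ((n6 m₁ * (nm m₂ : ℝ) ^ ((1 : ℝ) / 6) : ℝ) : ℂ) *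
      ∑ b ∈ dvs m₁, ∑ a ∈ (dvs m₂).filter (fun a => P a b), (muE a : ℂ) * (muE b : ℂ) *
        F m₁ m₂ a b
    else 0) =
    ws w X (d * m₁) * (((nm m₁ : ℝ) ^ (-(1 : ℝ) / 2) * n6 m₁ : ℝ) : ℂ) *
      ∑ b ∈ dvs m₁, (muE b : ℂ) * ∑ a ∈ S X, if P a b then (muE a : ℂ) * InF w X F d m₁ a b
        else 0 := by
  have e1 : ∀ b : Eis, (∑ a ∈ S X, if P a b then (muE a : ℂ) * InF w X F d m₁ a b else 0) =
      ∑ m₂ ∈ S X, ∑ a ∈ dvs m₂, (if P a b then (muE a : ℂ) * (if IsCoprime m₁ m₂ then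
        conj (ws w X (d * m₂)) *
        (((nm m₂ : ℝ) ^ (-(1 : ℝ) / 2) * (nm m₂ : ℝ) ^ ((1 : ℝ) / 6) : ℝ) : ℂ) *
        F m₁ m₂ a b else 0) else 0) := by
    intro b
    rw [swap hX (fun m₂ a => (if P a b then (muE a : ℂ) * (if IsCoprime m₁ m₂ then
        conj (ws w X (d * m₂)) *
        (((nm m₂ : ℝ) ^ (-(1 : ℝ) / 2) * (nm m₂ : ℝ) ^ ((1 : ℝ) / 6) : ℝ) : ℂ) *
        F m₁ m₂ a b else 0) else 0))]
    refine Finset.sum_congr rfl fun a _ => ?_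
    by_cases hP : P a b
    · simp only [if_pos hP]
      unfold InF
      rw [Finset.mul_sum]
      refine Finset.sum_congr rfl fun m _ => ?_
      rw [mul_ite, mul_zero]
    · simp only [if_neg hP]
      symm
      exact Finset.sum_eq_zero fun m _ => by split_ifs <;> rfl
  simp only [e1]
  rw [Finset.mul_sum]
  have e2 : ∀ b ∈ dvs m₁, ws w X (d * m₁) * (((nm m₁ : ℝ) ^ (-(1 : ℝ) / 2) * n6 m₁ : ℝ) : ℂ) *
      ((muE b : ℂ) * ∑ m₂ ∈ S X, ∑ a ∈ dvs m₂, (if P a b then (muE a : ℂ) *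
        (if IsCoprime m₁ m₂ then conj (ws w X (d * m₂)) *
        (((nm m₂ : ℝ) ^ (-(1 : ℝ) / 2) * (nm m₂ : ℝ) ^ ((1 : ℝ) / 6) : ℝ) : ℂ) *
        F m₁ m₂ a b else 0) else 0)) =
      ∑ m₂ ∈ S X, (ws w X (d * m₁) * (((nm m₁ : ℝ) ^ (-(1 : ℝ) / 2) * n6 m₁ : ℝ) : ℂ) *
      ((muE b : ℂ) * ∑ a ∈ dvs m₂, (if P a b then (muE a : ℂ) *
        (if IsCoprime m₁ m₂ then conj (ws w X (d * m₂)) *
        (((nm m₂ : ℝ) ^ (-(1 : ℝ) / 2) * (nm m₂ : ℝ) ^ ((1 : ℝ) / 6) : ℝ) : ℂ) *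
        F m₁ m₂ a b else 0) else 0))) := by
    intro b _
    rw [Finset.mul_sum, Finset.mul_sum]
  rw [Finset.sum_congr rfl e2, Finset.sum_comm]
  refine Finset.sum_congr rfl fun m₂ _ => ?_
  by_cases hco : IsCoprime m₁ m₂
  · simp only [if_pos hco]
    rw [Finset.mul_sum]
    refine Finset.sum_congr rfl fun b _ => ?_
    rw [← Finset.sum_filter, Finset.mul_sum, Finset.mul_sum, Finset.mul_sum]
    refine Finset.sum_congr rfl fun a _ => ?_
    push_cast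
    ring
  · simp only [if_neg hco]
    symm
    refine Finset.sum_eq_zero fun b _ => ?_
    have : (∑ a ∈ dvs m₂, if P a b then (muE a : ℂ) * 0 else 0) = 0 :=
      Finset.sum_eq_zero fun a _ => by split_ifs <;> simp
    rw [this, mul_zero, mul_zero]

/-! ### the weight -/

lemma min_one_mul_le {s u : ℝ} (hs : 1 ≤ s) : min 1 (s * u) ≤ s * min 1 u := by
  rcases le_total 1 u with h | h
  · rw [min_eq_left h, mul_one]
    exact (min_le_left _ _).trans hs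
  · rw [min_eq_right h]
    exact min_le_right _ _

lemma Gw_dil {D E x s : ℝ} (hD : 0 ≤ D) (hx : 0 < x) (hs : 1 ≤ s) :
    Gw D E x ≤ s ^ ((8 : ℝ) / 3) * Gw D E (s * x) := by
  have hs0 : 0 < s := by linarith
  have e1 : x = (s * x) / s := by field_simp
  have hsx : 0 < s * x := by positivity
  conv_lhs => rw [e1, Gw_scale hsx.le hs0]
  unfold Gw
  have a1 : min 1 ((D * s / (s * x)) ^ ((1 : ℝ) / 3)) ≤
      s ^ ((1 : ℝ) / 3) * min 1 ((D / (s * x)) ^ ((1 : ℝ) / 3)) := by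
    have e2 : (D * s / (s * x)) ^ ((1 : ℝ) / 3) =
        s ^ ((1 : ℝ) / 3) * (D / (s * x)) ^ ((1 : ℝ) / 3) := by
      rw [← Real.mul_rpow hs0.le (by positivity)]
      congr 1
      ring
    rw [e2]
    exact min_one_mul_le (Real.one_le_rpow hs (by norm_num))
  have a2 : min 1 ((E * s / (s * x)) ^ 2) ≤ s ^ 2 * min 1 ((E / (s * x)) ^ 2) := by
    have e2 : (E * s / (s * x)) ^ 2 = s ^ 2 * (E / (s * x)) ^ 2 := by ring
    rw [e2]
    exact min_one_mul_le (one_le_pow₀ hs)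
  have b1 : 0 ≤ min 1 ((E * s / (s * x)) ^ 2) := le_min zero_le_one (by positivity)
  have b2 : 0 ≤ min 1 ((D / (s * x)) ^ ((1 : ℝ) / 3)) := le_min zero_le_one (by positivity)
  calc s ^ ((1 : ℝ) / 3) * ((s * x) ^ (-(1 : ℝ) / 3) *
        (min 1 ((D * s / (s * x)) ^ ((1 : ℝ) / 3)) * min 1 ((E * s / (s * x)) ^ 2)))
      ≤ s ^ ((1 : ℝ) / 3) * ((s * x) ^ (-(1 : ℝ) / 3) *
        ((s ^ ((1 : ℝ) / 3) * min 1 ((D / (s * x)) ^ ((1 : ℝ) / 3))) *
        (s ^ 2 * min 1 ((E / (s * x)) ^ 2)))) := by gcongr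
    _ = (s ^ ((1 : ℝ) / 3) * s ^ ((1 : ℝ) / 3) * s ^ 2) * ((s * x) ^ (-(1 : ℝ) / 3) *
        (min 1 ((D / (s * x)) ^ ((1 : ℝ) / 3)) * min 1 ((E / (s * x)) ^ 2))) := by ring
    _ = _ := by
        congr 1
        rw [← Real.rpow_natCast s 2, ← Real.rpow_add hs0, ← Real.rpow_add hs0]
        norm_num

open Classical in
lemma summ_Gw {D E : ℝ} (hD : 0 ≤ D) {X : ℝ} (hX : 0 ≤ X) {b : Eis} (hb : b ≠ 0) (c : Eis → ℂ) :
    Summable (fun l : Eis => if l = 0 then 0 else Gw D E (nm l) *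
      ‖∑ m ∈ S X, c m * th (l * m * b)‖) := by
  have hs : Summable fun l : Eis => E ^ 2 * (nm l : ℝ) ^ (-((7 : ℝ) / 3)) * ∑ m ∈ S X, ‖c m‖ :=
    ((LatSum413.summable_nm_rpow (by norm_num)).mul_left _).mul_right _
  have hc0 : 0 ≤ ∑ m ∈ S X, ‖c m‖ := Finset.sum_nonneg fun _ _ => norm_nonneg _
  refine Summable.of_nonneg_of_le (fun l => ?_) (fun l => ?_) hs
  · split_ifs
    · exact le_rfl
    · exact mul_nonneg (Gw_nonneg hD (Nat.cast_nonneg _)) (norm_nonneg _)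
  · split_ifs with hl
    · positivity
    · have h1 : (0 : ℝ) < nm l := by exact_mod_cast nm_pos.2 hl
      refine mul_le_mul ?_ ?_ (norm_nonneg _) (by positivity)
      · have := Gw_le (E := E) hD h1
        rwa [show -(7 : ℝ) / 3 = -((7 : ℝ) / 3) by ring] at this
      · refine (norm_sum_le _ _).trans (Finset.sum_le_sum fun m hm => ?_)
        have hm' := (mem_S hX).1 hm
        rw [norm_mul]
        exact mul_le_of_le_one_right (norm_nonneg _)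
          (norm_th_le_one (mul_ne_zero (mul_ne_zero hl hm'.2.1.ne_zero) hb))

open Classical in
/-- the sum over `x` is pulled out and `x ↦ v x` -/
lemma pullF {D E K0 : ℝ} (hD : 0 ≤ D) (hK0 : 0 ≤ K0) {X : ℝ} (hX : 0 ≤ X) {v b : Eis}
    (hv : v ≠ 0) (hb : b ≠ 0) (c f : Eis → ℂ) (hf0 : f 0 = 0)
    (hf : ∀ x, x ≠ 0 → ‖f x‖ ≤ K0 * Gw D E (nm x)) :
    ‖∑ m ∈ S X, c m * ∑' x : Eis, f x * th (v * (m * b) * x)‖ ≤
      K0 * (nm v : ℝ) ^ ((8 : ℝ) / 3) * ∑' l : Eis, if l = 0 then 0 else Gw D E (nm l) *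
        ‖∑ m ∈ S X, c m * th (l * m * b)‖ := by
  have hv1 : (1 : ℝ) ≤ nm v := by exact_mod_cast nm_pos.2 hv
  have hsm : ∀ m ∈ S X, Summable (fun x : Eis => c m * (f x * th (v * (m * b) * x))) := by
    intro m hm
    have hm' := (mem_S hX).1 hm
    refine Summable.mul_left _ ?_
    refine Summable.of_norm_bounded (g := fun x : Eis => K0 * (E ^ 2 *
      (nm x : ℝ) ^ (-((7 : ℝ) / 3)))) (((LatSum413.summable_nm_rpow (by norm_num)).mul_left
        _).mul_left _) (fun x => ?_)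
    by_cases hx : x = 0
    · rw [hx, hf0, zero_mul, norm_zero]; positivity
    · have h1 : (0 : ℝ) < nm x := by exact_mod_cast nm_pos.2 hx
      rw [norm_mul]
      have h2 := norm_th_le_one (h := v * (m * b) * x)
        (mul_ne_zero (mul_ne_zero hv (mul_ne_zero hm'.2.1.ne_zero hb)) hx)
      have h3 := Gw_le (E := E) hD h1
      rw [show -(7 : ℝ) / 3 = -((7 : ℝ) / 3) by ring] at h3
      calc ‖f x‖ * ‖th (v * (m * b) * x)‖ ≤ ‖f x‖ * 1 :=
            mul_le_mul_of_nonneg_left h2 (norm_nonneg _)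
        _ = ‖f x‖ := mul_one _
        _ ≤ K0 * Gw D E (nm x) := hf x hx
        _ ≤ _ := mul_le_mul_of_nonneg_left h3 hK0
  have e1 : ∑ m ∈ S X, c m * ∑' x : Eis, f x * th (v * (m * b) * x) =
      ∑' x : Eis, f x * ∑ m ∈ S X, c m * th (v * x * m * b) := by
    have e2 : ∀ m ∈ S X, c m * ∑' x : Eis, f x * th (v * (m * b) * x) =
        ∑' x : Eis, c m * (f x * th (v * (m * b) * x)) := fun m _ => tsum_mul_left.symm
    rw [Finset.sum_congr rfl e2, ← Summable.tsum_finsetSum hsm]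
    refine tsum_congr fun x => ?_
    rw [Finset.mul_sum]
    refine Finset.sum_congr rfl fun m _ => ?_
    rw [show v * (m * b) * x = v * x * m * b by ring]
    ring
  rw [e1]
  set G : Eis → ℝ := fun l => if l = 0 then 0 else Gw D E (nm l) *
        ‖∑ m ∈ S X, c m * th (l * m * b)‖ with hG
  have hGs : Summable G := summ_Gw hD hX hb c
  have hG0 : ∀ l, 0 ≤ G l := by
    intro l; rw [hG]; simp only; split_ifs
    · exact le_rfl
    · exact mul_nonneg (Gw_nonneg hD (Nat.cast_nonneg _)) (norm_nonneg _)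
  have hinj : Function.Injective (fun x : Eis => v * x) := fun a b hab => mul_left_cancel₀ hv hab
  set K : ℝ := K0 * (nm v : ℝ) ^ ((8 : ℝ) / 3) with hK
  have hK' : 0 ≤ K := by positivity
  have hle : ∀ x : Eis, ‖f x * ∑ m ∈ S X, c m * th (v * x * m * b)‖ ≤ K * G (v * x) := by
    intro x
    by_cases hx : x = 0
    · rw [hx, hf0, zero_mul, norm_zero]
      exact mul_nonneg hK' (hG0 _)
    · have h1 : (0 : ℝ) < nm x := by exact_mod_cast nm_pos.2 hx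
      rw [norm_mul, hG]
      simp only
      rw [if_neg (mul_ne_zero hv hx)]
      have h2 : Gw D E (nm x) ≤ (nm v : ℝ) ^ ((8 : ℝ) / 3) * Gw D E (nm (v * x)) := by
        have := Gw_dil (E := E) hD h1 hv1
        rw [nm_mul]
        push_cast
        exact this
      calc ‖f x‖ * ‖∑ m ∈ S X, c m * th (v * x * m * b)‖
          ≤ (K0 * ((nm v : ℝ) ^ ((8 : ℝ) / 3) * Gw D E (nm (v * x)))) *
            ‖∑ m ∈ S X, c m * th (v * x * m * b)‖ := by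
            refine mul_le_mul_of_nonneg_right ((hf x hx).trans ?_) (norm_nonneg _)
            exact mul_le_mul_of_nonneg_left h2 hK0
        _ = _ := by rw [hK]; ring
  have hs1 : Summable (fun x => K * G (v * x)) := (hGs.comp_injective hinj).mul_left _
  have hs2 := Summable.of_nonneg_of_le (fun _ => norm_nonneg _) hle hs1
  refine (norm_tsum_le_tsum_norm hs2).trans ?_
  refine (hs2.tsum_le_tsum hle hs1).trans ?_
  rw [tsum_mul_left]
  exact mul_le_mul_of_nonneg_left (tsum_comp_le_tsum_of_inj hGs hG0 hinj) hK'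

/-! ### the inner sum for `Du` -/

lemma c1_pos : 0 < c1 := by unfold c1; positivity

lemma c1_le : c1 ≤ 1 := by
  unfold c1
  rw [div_le_one (by positivity)]
  nlinarith [Real.pi_gt_three]

/-- the prefactor -/
def Qf (Z : ℝ) (m₁ a b : Eis) : ℝ :=
  (c1 / Z) ^ ((1 : ℝ) / 3) * (nm m₁ : ℝ) ^ ((1 : ℝ) / 3) * (nm a : ℝ) ^ (-(2 : ℝ) / 3) *
    (nm b : ℝ) ^ (-(1 : ℝ) / 3)

lemma Qf_eq {Z : ℝ} (hZ : 0 < Z) {m₁ a b n : Eis} (hm₁ : m₁ ≠ 0) (ha : a ≠ 0) (hb : b ≠ 0)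
    (hn : n ≠ 0) : (nm n : ℝ) ^ (-(1 : ℝ) / 2) * (nm n : ℝ) ^ ((1 : ℝ) / 6) *
      (Amm Z m₁ n / ((nm a : ℝ) ^ 2 * nm b)) ^ ((1 : ℝ) / 3) = Qf Z m₁ a b := by
  have h1 : (0 : ℝ) < nm m₁ := by exact_mod_cast nm_pos.2 hm₁
  have h2 : (0 : ℝ) < nm a := by exact_mod_cast nm_pos.2 ha
  have h3 : (0 : ℝ) < nm b := by exact_mod_cast nm_pos.2 hb
  have h4 : (0 : ℝ) < nm n := by exact_mod_cast nm_pos.2 hn
  have hc := c1_pos
  have e1 : Amm Z m₁ n / ((nm a : ℝ) ^ 2 * nm b) =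
      (c1 / Z) * (nm m₁ : ℝ) * ((nm a : ℝ) ^ (-(2 : ℝ))) * ((nm b : ℝ) ^ (-(1 : ℝ))) * nm n := by
    unfold Amm c1
    rw [Real.rpow_neg h2.le, Real.rpow_neg h3.le, Real.rpow_one, Real.rpow_two]
    field_simp
  rw [e1, Real.mul_rpow (by positivity) h4.le, Real.mul_rpow (by positivity) (by positivity),
    Real.mul_rpow (by positivity) (by positivity), Real.mul_rpow (by positivity) h1.le,
    ← Real.rpow_mul h2.le, ← Real.rpow_mul h3.le]
  have e2 : (nm n : ℝ) ^ (-(1 : ℝ) / 2) * (nm n : ℝ) ^ ((1 : ℝ) / 6) *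
      (nm n : ℝ) ^ ((1 : ℝ) / 3) = 1 := by
    rw [← Real.rpow_add h4, ← Real.rpow_add h4]
    norm_num
  unfold Qf
  have e3 : (-(2 : ℝ)) * (1 / 3) = -(2 : ℝ) / 3 := by ring
  have e4 : (-(1 : ℝ)) * (1 / 3) = -(1 : ℝ) / 3 := by ring
  rw [e3, e4]
  linear_combination ((c1 / Z) ^ ((1 : ℝ) / 3) * (nm m₁ : ℝ) ^ ((1 : ℝ) / 3) *
    (nm a : ℝ) ^ (-(2 : ℝ) / 3) * (nm b : ℝ) ^ (-(1 : ℝ) / 3)) * e2

lemma Dz_eq {Z : ℝ} (hZ : 0 < Z) {m₁ a b m : Eis} (hm₁ : m₁ ≠ 0) (ha : a ≠ 0) (hb : b ≠ 0)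
    (hm : m ≠ 0) (y : ℝ) : (nm (m * b) : ℝ) /
      (Amm Z m₁ (a * m) / ((nm a : ℝ) ^ 2 * nm b) * y) = Dz Z m₁ a b / y := by
  have h1 : (nm m₁ : ℝ) ≠ 0 := by exact_mod_cast (nm_pos.2 hm₁).ne'
  have h2 : (nm a : ℝ) ≠ 0 := by exact_mod_cast (nm_pos.2 ha).ne'
  have h3 : (nm b : ℝ) ≠ 0 := by exact_mod_cast (nm_pos.2 hb).ne'
  have h4 : (nm m : ℝ) ≠ 0 := by exact_mod_cast (nm_pos.2 hm).ne'
  rw [← div_div]
  congr 1
  unfold Amm Dz c1
  rw [nm_mul, nm_mul]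
  push_cast
  have hpi := Real.pi_ne_zero
  field_simp

open Classical in
/-- the dual weight -/
def fD {J : ℕ} (δ : Fin J → Eis) (Ω : ℝ → Fin J → ℝ → ℂ) (N Z : ℝ) (m₁ a b : Eis) (j : Fin J)
    (x : Eis) : ℂ :=
  if IsPrim x ∧ X6C180.CF x then
    sy (δ j) x * (((nm x : ℝ) ^ (-(1 : ℝ) / 3) : ℝ) : ℂ) *
      Ω (Amx N Z m₁ a b) j (Dz Z m₁ a b / nm x) else 0

set_option maxHeartbeats 1000000 in
open Classical in
lemma inF_Du {J : ℕ} (v δ : Fin J → Eis) (Ω : ℝ → Fin J → ℝ → ℂ) (N : ℝ) {X Z : ℝ} (hX : 0 ≤ X)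
    (hZ : 0 < Z) (w : Eis → ℂ) {d m₁ a b : Eis} (hd : IsPrim d) (hm₁ : IsPrim m₁) (ha : IsPrim a)
    (hb : IsPrim b) :
    InF w X (Du v δ Ω N Z) d m₁ a b = ((Qf Z m₁ a b : ℝ) : ℂ) * ∑ j, sy (δ j) b *
      ∑ m ∈ S X, cc w X d m₁ a (δ j) m * ∑' x : Eis, fD δ Ω N Z m₁ a b j x *
        th (v j * (m * b) * x) := by
  have e0 : (∑ j, sy (δ j) b * ∑ m ∈ S X, cc w X d m₁ a (δ j) m * ∑' x : Eis,
      fD δ Ω N Z m₁ a b j x * th (v j * (m * b) * x)) =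
      ∑ m ∈ S X, ∑ j, sy (δ j) b * (cc w X d m₁ a (δ j) m * ∑' x : Eis,
      fD δ Ω N Z m₁ a b j x * th (v j * (m * b) * x)) := by
    rw [Finset.sum_comm]
    refine Finset.sum_congr rfl fun j _ => ?_
    rw [Finset.mul_sum]
  rw [e0, Finset.mul_sum]
  unfold InF
  refine Finset.sum_congr rfl fun m hm => ?_
  have hm' := (mem_S hX).1 hm
  by_cases h2 : IsCoprime m₁ (a * m)
  · by_cases h1 : a * m ∈ S X
    · rw [if_pos h1, if_pos h2]
      have hQ := Qf_eq hZ hm₁.ne_zero ha.ne_zero hb.ne_zero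
        (mul_ne_zero ha.ne_zero hm'.2.1.ne_zero)
      have ed : a * m / a = m := mul_div_cancel_left₀ _ ha.ne_zero
      unfold Du
      rw [ed]
      have e1 : conj (ws w X (d * (a * m))) *
          (((nm (a * m) : ℝ) ^ (-(1 : ℝ) / 2) * (nm (a * m) : ℝ) ^ ((1 : ℝ) / 6) : ℝ) : ℂ) *
          ((((Amm Z m₁ (a * m) / ((nm a : ℝ) ^ 2 * nm b)) ^ ((1 : ℝ) / 3) : ℝ) : ℂ) *
          ∑ j, sy (δ j) (m * b) * ∑' x : Eis, (if IsPrim x ∧ X6C180.CF x then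
            sy (δ j) x * (((nm x : ℝ) ^ (-(1 : ℝ) / 3) : ℝ) : ℂ) * th (v j * (m * b) * x) *
            Ω (Amx N Z m₁ a b) j ((nm (m * b) : ℝ) /
              (Amm Z m₁ (a * m) / ((nm a : ℝ) ^ 2 * nm b) * nm x)) else 0)) =
          ((Qf Z m₁ a b : ℝ) : ℂ) * (conj (ws w X (d * (a * m))) *
          ∑ j, sy (δ j) (m * b) * ∑' x : Eis, (if IsPrim x ∧ X6C180.CF x then
            sy (δ j) x * (((nm x : ℝ) ^ (-(1 : ℝ) / 3) : ℝ) : ℂ) * th (v j * (m * b) * x) *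
            Ω (Amx N Z m₁ a b) j ((nm (m * b) : ℝ) /
              (Amm Z m₁ (a * m) / ((nm a : ℝ) ^ 2 * nm b) * nm x)) else 0)) := by
        rw [← hQ]
        push_cast
        ring
      rw [e1, Finset.mul_sum]
      congr 1
      refine Finset.sum_congr rfl fun j _ => ?_
      have e2 : cc w X d m₁ a (δ j) m = conj (ws w X (d * (a * m))) * sy (δ j) m := by
        unfold cc
        rw [if_pos h2]
      have e3 : sy (δ j) (m * b) = sy (δ j) m * sy (δ j) b := syG.mul_right _ _ _ hm'.2.1 hb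
      rw [e2, e3]
      have e4 : (∑' x : Eis, (if IsPrim x ∧ X6C180.CF x then
            sy (δ j) x * (((nm x : ℝ) ^ (-(1 : ℝ) / 3) : ℝ) : ℂ) * th (v j * (m * b) * x) *
            Ω (Amx N Z m₁ a b) j ((nm (m * b) : ℝ) /
              (Amm Z m₁ (a * m) / ((nm a : ℝ) ^ 2 * nm b) * nm x)) else 0)) =
          ∑' x : Eis, fD δ Ω N Z m₁ a b j x * th (v j * (m * b) * x) := by
        refine tsum_congr fun x => ?_
        unfold fD
        split_ifs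
        · rw [Dz_eq hZ hm₁.ne_zero ha.ne_zero hb.ne_zero hm'.2.1.ne_zero]
          ring
        · rw [zero_mul]
      rw [e4]
      ring
    · rw [if_neg h1]
      symm
      have hws : ws w X (d * (a * m)) = 0 := ws_of_not_mem fun h => h1 (mem_of_mul hX hd h)
      have e2 : ∀ j, cc w X d m₁ a (δ j) m = 0 := by
        intro j
        unfold cc
        rw [if_pos h2, hws]
        simp
      simp [e2]
  · have e2 : ∀ j, cc w X d m₁ a (δ j) m = 0 := by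
      intro j
      unfold cc
      rw [if_neg h2]
    rw [if_neg h2]
    simp [e2]

lemma SU_ne {v : Eis} (h : SU v) : v ≠ 0 := by
  obtain ⟨k, hk⟩ := h
  rintro rfl
  exact pow_ne_zero k lam_ne_zero (zero_dvd_iff.1 hk)

set_option maxHeartbeats 1000000 in
open Classical in
/-- the inner bound -/
lemma inF_le {J : ℕ} {v δ : Fin J → Eis} (hvd : ∀ j, SU (v j) ∧ SU (δ j)) {C1 : ℝ} (hC1 : 0 ≤ C1)
    {Ω : ℝ → Fin J → ℝ → ℂ} (hΩ : ∀ Am : ℝ, 1 ≤ Am → ∀ j, OmB' Am C1 2 (Ω Am j)) {X Z : ℝ}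
    (hX : 1 ≤ X) (hZ : 1 ≤ Z) (w : Eis → ℂ) {d m₁ a b : Eis} (hd : IsPrim d) (hm₁ : IsPrim m₁)
    (ha : IsPrim a) (hb : IsPrim b) (hm₁X : (nm m₁ : ℝ) ≤ X) :
    ‖InF w X (Du v δ Ω (X / nm d) Z) d m₁ a b‖ ≤
      (16 * C1 * (1 + Real.log X) ^ 4 * (∑ j, (nm (v j) : ℝ) ^ ((8 : ℝ) / 3))) * (Qf Z m₁ a b *
      ∑ j, ∑' l : Eis, if l = 0 then 0 else
          Gw (Dz Z m₁ a b) (Amx (X / nm d) Z m₁ a b * Dz Z m₁ a b) (nm l) *
            ‖∑ m ∈ S X, cc w X d m₁ a (δ j) m * th (l * m * b)‖) := by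
  have hX0 : 0 ≤ X := by linarith
  have hZ0 : 0 < Z := by linarith
  have hc := c1_pos
  have pd : (1 : ℝ) ≤ nm d := by exact_mod_cast nm_pos.2 hd.ne_zero
  have pa : (1 : ℝ) ≤ nm a := by exact_mod_cast nm_pos.2 ha.ne_zero
  have pb : (1 : ℝ) ≤ nm b := by exact_mod_cast nm_pos.2 hb.ne_zero
  have pm : (1 : ℝ) ≤ nm m₁ := by exact_mod_cast nm_pos.2 hm₁.ne_zero
  have hlX := Real.log_nonneg hX
  rw [inF_Du v δ Ω (X / nm d) hX0 hZ0 w hd hm₁ ha hb]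
  have hQ0 : 0 ≤ Qf Z m₁ a b := by unfold Qf; positivity
  set Am : ℝ := Amx (X / nm d) Z m₁ a b with hAm
  have hAm1 : 1 ≤ Am := le_max_left _ _
  set D : ℝ := Dz Z m₁ a b with hD
  have hD0 : 0 < D := by rw [hD]; unfold Dz; positivity
  have hAmX : Am ≤ X ^ 2 := by
    rw [hAm]
    unfold Amx
    refine max_le (one_le_pow₀ hX) ?_
    refine (div_le_self (by positivity) ?_).trans ?_
    · exact one_le_mul_of_one_le_of_one_le (one_le_mul_of_one_le_of_one_le hZ (one_le_pow₀ pa)) pb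
    · have h1 : X / nm d ≤ X := div_le_self hX0 pd
      have h2 : c1 * nm m₁ ≤ 1 * X := mul_le_mul c1_le hm₁X (by positivity) zero_le_one
      calc c1 * nm m₁ * (X / nm d) ≤ (1 * X) * X := mul_le_mul h2 h1 (by positivity) (by positivity)
        _ = _ := by ring
  have hlog : (1 + Real.log Am) ^ 4 ≤ 16 * (1 + Real.log X) ^ 4 := by
    have h1 : Real.log Am ≤ 2 * Real.log X := by
      have := Real.log_le_log (by linarith) hAmX
      rwa [Real.log_pow] at this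
    have h2 : 0 ≤ Real.log Am := Real.log_nonneg hAm1
    have h3 : 1 + Real.log Am ≤ 2 * (1 + Real.log X) := by linarith
    calc (1 + Real.log Am) ^ 4 ≤ (2 * (1 + Real.log X)) ^ 4 :=
          pow_le_pow_left₀ (by linarith) h3 4
      _ = _ := by ring
  set T : Fin J → ℝ := fun j => ∑' l : Eis, if l = 0 then 0 else Gw D (Am * D) (nm l) *
            ‖∑ m ∈ S X, cc w X d m₁ a (δ j) m * th (l * m * b)‖ with hT
  have hT0 : ∀ j, 0 ≤ T j := by
    intro j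
    rw [hT]
    refine tsum_nonneg fun l => ?_
    split_ifs
    · exact le_rfl
    · exact mul_nonneg (Gw_nonneg hD0.le (Nat.cast_nonneg _)) (norm_nonneg _)
  set V : ℝ := ∑ j, (nm (v j) : ℝ) ^ ((8 : ℝ) / 3) with hV
  have hV1 : ∀ j, (nm (v j) : ℝ) ^ ((8 : ℝ) / 3) ≤ V := fun j =>
    Finset.single_le_sum (f := fun j => (nm (v j) : ℝ) ^ ((8 : ℝ) / 3))
      (fun i _ => by positivity) (Finset.mem_univ j)
  have hV0 : 0 ≤ V := Finset.sum_nonneg fun i _ => by positivity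
  have hj : ∀ j, ‖sy (δ j) b * ∑ m ∈ S X, cc w X d m₁ a (δ j) m * ∑' x : Eis,
      fD δ Ω (X / nm d) Z m₁ a b j x * th (v j * (m * b) * x)‖ ≤
      (16 * C1 * (1 + Real.log X) ^ 4 * V) * T j := by
    intro j
    rw [norm_mul]
    refine (mul_le_of_le_one_left (norm_nonneg _) (CM106.norm_sy_le' hb)).trans ?_
    have hp := pullF (D := D) (E := Am * D) (K0 := C1 * (1 + Real.log Am) ^ 4) hD0.le
      (by
        have : 0 ≤ Real.log Am := Real.log_nonneg hAm1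
        positivity) hX0 (SU_ne (hvd j).1) hb.ne_zero
      (cc w X d m₁ a (δ j)) (fD δ Ω (X / nm d) Z m₁ a b j) (by
        unfold fD
        rw [if_neg]
        rintro ⟨h, _⟩
        exact h.ne_zero rfl) (fun x hx => by
        have h1 : (0 : ℝ) < nm x := by exact_mod_cast nm_pos.2 hx
        unfold fD
        have hlA : 0 ≤ Real.log Am := Real.log_nonneg hAm1
        split_ifs with hpx
        · rw [norm_mul, norm_mul, Complex.norm_real, Real.norm_of_nonneg (by positivity)]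
          have h2 := CM106.norm_sy_le' (k := δ j) hpx.1
          have h3 := hΩ Am hAm1 j (D / nm x) (by positivity)
          unfold Gw
          have e1 : (Am * (D / nm x)) ^ 2 = (Am * D / nm x) ^ 2 := by
            congr 1; ring
          rw [e1] at h3
          calc ‖sy (δ j) x‖ * (nm x : ℝ) ^ (-(1 : ℝ) / 3) * ‖Ω Am j (D / nm x)‖
              ≤ 1 * (nm x : ℝ) ^ (-(1 : ℝ) / 3) * (C1 * (1 + Real.log Am) ^ 4 *
                (min 1 ((D / nm x) ^ ((1 : ℝ) / 3)) * min 1 ((Am * D / nm x) ^ 2))) := by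
                gcongr
            _ = _ := by ring
        · rw [norm_zero]
          exact mul_nonneg (by positivity) (Gw_nonneg hD0.le h1.le))
    refine hp.trans ?_
    have h4 : C1 * (1 + Real.log Am) ^ 4 * (nm (v j) : ℝ) ^ ((8 : ℝ) / 3) ≤
        16 * C1 * (1 + Real.log X) ^ 4 * V := by
      have hlA : 0 ≤ Real.log Am := Real.log_nonneg hAm1
      calc C1 * (1 + Real.log Am) ^ 4 * (nm (v j) : ℝ) ^ ((8 : ℝ) / 3)
          ≤ C1 * (16 * (1 + Real.log X) ^ 4) * V := by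
            have := hV1 j
            gcongr
        _ = _ := by ring
    exact mul_le_mul_of_nonneg_right h4 (hT0 j)
  rw [norm_mul, Complex.norm_real, Real.norm_of_nonneg hQ0]
  calc Qf Z m₁ a b * ‖∑ j, sy (δ j) b * ∑ m ∈ S X, cc w X d m₁ a (δ j) m * ∑' x : Eis,
        fD δ Ω (X / nm d) Z m₁ a b j x * th (v j * (m * b) * x)‖
      ≤ Qf Z m₁ a b * ∑ j, (16 * C1 * (1 + Real.log X) ^ 4 * V) * T j :=
        mul_le_mul_of_nonneg_left ((norm_sum_le _ _).trans (Finset.sum_le_sum fun j _ => hj j)) hQ0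
    _ = _ := by rw [← Finset.mul_sum]; ring

lemma pre_eq {Z : ℝ} (hZ : 0 < Z) {m₁ a b : Eis} (hm₁ : m₁ ≠ 0) :
    ((nm m₁ : ℝ) ^ (-(1 : ℝ) / 2) * n6 m₁) * Qf Z m₁ a b = c1 ^ ((1 : ℝ) / 3) *
      (Z ^ (-(1 : ℝ) / 3) * ((nm m₁ : ℝ) ^ (-(1 : ℝ) / 3) * (nm b : ℝ) ^ (-(1 : ℝ) / 3) *
        (nm a : ℝ) ^ (-(2 : ℝ) / 3))) := by
  have h1 : (0 : ℝ) < nm m₁ := by exact_mod_cast nm_pos.2 hm₁
  have e1 : (nm m₁ : ℝ) ^ (-(1 : ℝ) / 2) * n6 m₁ * (nm m₁ : ℝ) ^ ((1 : ℝ) / 3) =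
      (nm m₁ : ℝ) ^ (-(1 : ℝ) / 3) := by
    unfold n6
    rw [← Real.rpow_add h1, ← Real.rpow_add h1]
    norm_num
  have e2 : (c1 / Z) ^ ((1 : ℝ) / 3) = c1 ^ ((1 : ℝ) / 3) * Z ^ (-(1 : ℝ) / 3) := by
    rw [Real.div_rpow c1_pos.le hZ.le, show (-(1 : ℝ) / 3) = -(1 / 3) by ring,
      Real.rpow_neg hZ.le]
    ring
  unfold Qf
  rw [e2]
  linear_combination (c1 ^ ((1 : ℝ) / 3) * Z ^ (-(1 : ℝ) / 3) * (nm a : ℝ) ^ (-(2 : ℝ) / 3) *
    (nm b : ℝ) ^ (-(1 : ℝ) / 3)) * e1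

set_option maxHeartbeats 1000000 in
/-- **the algebra of the dual part** -/
theorem dualLe : X6545.DualLe := by
  classical
  intro J v δ hvd C1 Ω hC1 hΩ
  set V : ℝ := ∑ j, (nm (v j) : ℝ) ^ ((8 : ℝ) / 3) with hV
  have hV0 : 0 ≤ V := Finset.sum_nonneg fun i _ => by positivity
  refine ⟨16 * C1 * V, by positivity, fun X Z W hX hZ hW w hw hwW d hd => ?_⟩
  have hX0 : 0 ≤ X := by linarith
  have hZ0 : 0 < Z := by linarith
  have hd' := (mem_S hX0).1 hd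
  have pd : (1 : ℝ) ≤ nm d := by exact_mod_cast nm_pos.2 hd'.2.1.ne_zero
  have hlX := Real.log_nonneg hX
  have hc := c1_pos
  set P : Eis → Eis → Prop := fun a b => (nm a : ℝ) * nm b ≤ kap X Z d with hP
  set F := Du v δ Ω (X / nm d) Z with hF
  set K : ℝ := 16 * C1 * (1 + Real.log X) ^ 4 * V with hK
  have hK0 : 0 ≤ K := by positivity
  set T : Fin J → Eis → Eis → Eis → ℝ := fun j m₁ a b => ∑' l : Eis, if l = 0 then 0 else
          Gw (Dz Z m₁ a b) (Amx (X / nm d) Z m₁ a b * Dz Z m₁ a b) (nm l) *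
            ‖∑ m ∈ S X, cc w X d m₁ a (δ j) m * th (l * m * b)‖ with hT
  have hT0 : ∀ j m₁ a b, 0 ≤ T j m₁ a b := by
    intro j m₁ a b
    rw [hT]
    refine tsum_nonneg fun l => ?_
    split_ifs
    · exact le_rfl
    · refine mul_nonneg (Gw_nonneg ?_ (Nat.cast_nonneg _)) (norm_nonneg _)
      unfold Dz; positivity
  -- one row
  have row : ∀ m₁ ∈ S X, ‖ws w X (d * m₁) *
      (((nm m₁ : ℝ) ^ (-(1 : ℝ) / 2) * n6 m₁ : ℝ) : ℂ) *
      ∑ b ∈ dvs m₁, (muE b : ℂ) * ∑ a ∈ S X, (if P a b then (muE a : ℂ) * InF w X F d m₁ a b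
        else 0)‖ ≤ if (nm m₁ : ℝ) ≤ X / nm d then K * W * (Z ^ (-(1 : ℝ) / 3) *
          ∑ b ∈ dvs m₁, ∑ a ∈ (S X).filter (fun a => P a b), (nm m₁ : ℝ) ^ (-(1 : ℝ) / 3) *
            (nm b : ℝ) ^ (-(1 : ℝ) / 3) * (nm a : ℝ) ^ (-(2 : ℝ) / 3) * ∑ j, T j m₁ a b)
        else 0 := by
    intro m₁ hm
    have hm' := (mem_S hX0).1 hm
    have hS0 : 0 ≤ ∑ b ∈ dvs m₁, ∑ a ∈ (S X).filter (fun a => P a b),
        (nm m₁ : ℝ) ^ (-(1 : ℝ) / 3) *
            (nm b : ℝ) ^ (-(1 : ℝ) / 3) * (nm a : ℝ) ^ (-(2 : ℝ) / 3) * ∑ j, T j m₁ a b := by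
      refine Finset.sum_nonneg fun b _ => Finset.sum_nonneg fun a _ => ?_
      exact mul_nonneg (by positivity) (Finset.sum_nonneg fun j _ => hT0 _ _ _ _)
    by_cases hws : ws w X (d * m₁) = 0
    · rw [hws, zero_mul, zero_mul, norm_zero]
      split_ifs
      · positivity
      · exact le_rfl
    have hdm : d * m₁ ∈ S X := by
      by_contra hn
      exact hws (ws_of_not_mem hn)
    have hmN : (nm m₁ : ℝ) ≤ X / nm d := by
      have h1 := ((mem_S hX0).1 hdm).1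
      rw [le_div_iff₀ (by linarith)]
      refine le_trans (le_of_eq ?_) h1
      rw [nm_mul]; push_cast; ring
    rw [if_pos hmN]
    have hq0 : 0 ≤ (nm m₁ : ℝ) ^ (-(1 : ℝ) / 2) * n6 m₁ :=
      mul_nonneg (by positivity) (n6_nonneg _)
    rw [norm_mul, norm_mul, Complex.norm_real, Real.norm_of_nonneg hq0]
    have h1 : ‖∑ b ∈ dvs m₁, (muE b : ℂ) * ∑ a ∈ S X, (if P a b then
        (muE a : ℂ) * InF w X F d m₁ a b else 0)‖ ≤
        ∑ b ∈ dvs m₁, ∑ a ∈ (S X).filter (fun a => P a b), K * (Qf Z m₁ a b *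
          ∑ j, T j m₁ a b) := by
      refine (norm_sum_le _ _).trans (Finset.sum_le_sum fun b hb => ?_)
      obtain ⟨hbp, hbd⟩ := (mem_dvs hm'.2.1.ne_zero).1 hb
      rw [norm_mul]
      refine (mul_le_of_le_one_left (norm_nonneg _) (norm_muE_le b)).trans ?_
      rw [← Finset.sum_filter]
      refine (norm_sum_le _ _).trans (Finset.sum_le_sum fun a ha => ?_)
      have ha' := (mem_S hX0).1 (Finset.mem_filter.1 ha).1
      rw [norm_mul]
      refine (mul_le_of_le_one_left (norm_nonneg _) (norm_muE_le a)).trans ?_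
      exact inF_le hvd hC1 hΩ hX hZ w hd'.2.1 hm'.2.1 ha'.2.1 hbp hm'.1
    calc ‖ws w X (d * m₁)‖ * ((nm m₁ : ℝ) ^ (-(1 : ℝ) / 2) * n6 m₁) *
          ‖∑ b ∈ dvs m₁, (muE b : ℂ) * ∑ a ∈ S X, (if P a b then
            (muE a : ℂ) * InF w X F d m₁ a b else 0)‖
        ≤ W * ((nm m₁ : ℝ) ^ (-(1 : ℝ) / 2) * n6 m₁) *
          ∑ b ∈ dvs m₁, ∑ a ∈ (S X).filter (fun a => P a b), K * (Qf Z m₁ a b *
          ∑ j, T j m₁ a b) := by
          refine mul_le_mul (mul_le_mul_of_nonneg_right (norm_ws_le hW hwW _) hq0) h1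
            (norm_nonneg _) (mul_nonneg hW hq0)
      _ = ∑ b ∈ dvs m₁, ∑ a ∈ (S X).filter (fun a => P a b), c1 ^ ((1 : ℝ) / 3) * (K * W *
          (Z ^ (-(1 : ℝ) / 3) * ((nm m₁ : ℝ) ^ (-(1 : ℝ) / 3) *
            (nm b : ℝ) ^ (-(1 : ℝ) / 3) * (nm a : ℝ) ^ (-(2 : ℝ) / 3) *
            ∑ j, T j m₁ a b))) := by
          rw [Finset.mul_sum]
          refine Finset.sum_congr rfl fun b _ => ?_
          rw [Finset.mul_sum]
          refine Finset.sum_congr rfl fun a _ => ?_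
          have e1 := pre_eq (a := a) (b := b) hZ0 hm'.2.1.ne_zero
          linear_combination (W * K * ∑ j, T j m₁ a b) * e1
      _ ≤ ∑ b ∈ dvs m₁, ∑ a ∈ (S X).filter (fun a => P a b), (K * W *
          (Z ^ (-(1 : ℝ) / 3) * ((nm m₁ : ℝ) ^ (-(1 : ℝ) / 3) *
            (nm b : ℝ) ^ (-(1 : ℝ) / 3) * (nm a : ℝ) ^ (-(2 : ℝ) / 3) *
            ∑ j, T j m₁ a b))) := by
          refine Finset.sum_le_sum fun b _ => Finset.sum_le_sum fun a _ => ?_
          have hTs : 0 ≤ ∑ j, T j m₁ a b := Finset.sum_nonneg fun j _ => hT0 _ _ _ _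
          refine mul_le_of_le_one_left (by positivity) ?_
          exact Real.rpow_le_one hc.le c1_le (by norm_num)
      _ = _ := by
          rw [Finset.mul_sum, Finset.mul_sum]
          refine Finset.sum_congr rfl fun b _ => ?_
          rw [Finset.mul_sum, Finset.mul_sum]
  unfold AB
  have e1 := fun m₁ : Eis => rowF_eq w hX0 F d m₁ P
  simp only [e1]
  refine (norm_sum_le _ _).trans ((Finset.sum_le_sum row).trans (le_of_eq ?_))
  rw [← Finset.sum_filter]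
  unfold CoreSum
  rw [Finset.mul_sum]
  have e2 : ∀ m₁ ∈ (S X).filter (fun m => (nm m : ℝ) ≤ X / nm d),
      K * W * (Z ^ (-(1 : ℝ) / 3) *
          ∑ b ∈ dvs m₁, ∑ a ∈ (S X).filter (fun a => P a b), (nm m₁ : ℝ) ^ (-(1 : ℝ) / 3) *
            (nm b : ℝ) ^ (-(1 : ℝ) / 3) * (nm a : ℝ) ^ (-(2 : ℝ) / 3) * ∑ j, T j m₁ a b) =
      ∑ j, K * W * (Z ^ (-(1 : ℝ) / 3) *
          ∑ b ∈ dvs m₁, ∑ a ∈ (S X).filter (fun a => P a b), (nm m₁ : ℝ) ^ (-(1 : ℝ) / 3) *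
            (nm b : ℝ) ^ (-(1 : ℝ) / 3) * (nm a : ℝ) ^ (-(2 : ℝ) / 3) * T j m₁ a b) := by
    intro m₁ _
    rw [← Finset.mul_sum, ← Finset.mul_sum]
    congr 2
    rw [Finset.sum_comm]
    refine Finset.sum_congr rfl fun b _ => ?_
    rw [Finset.sum_comm]
    refine Finset.sum_congr rfl fun a _ => ?_
    rw [Finset.mul_sum]
  rw [Finset.sum_congr rfl e2, Finset.sum_comm]
  refine Finset.sum_congr rfl fun j _ => ?_
  rw [← Finset.mul_sum, ← Finset.mul_sum, hK]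
  ring

end Crest.Agent.R017.X6K502
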