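import Crest.Agent.R017.X6H1_502
import Crest.Agent.R017.X6QDefs_848

/-!
# Row 17, exceptional class, X6 at `r = g` (helper502): the direct part in 848's literal form
-/

set_option autoImplicit false

noncomputable section

open scoped ComplexConjugate

namespace Crest.Agent.R017.X6H502

open Crest.Agent.R012 Crest.Agent.R012.Eis Crest.Agent.R012.Gauss880
open Crest.Agent.R012.LS2 Crest.Agent.R012.Div277

lemma AG_eq (w : Eis → ℂ) (X L : ℝ) (g d : Eis) (P : Eis → Eis → Prop) :
    AG w X L g d P = X6Q848.ABG w X d P (fun _ m₂ a b => X6Q848.TabG g L d m₂ a b) := rfl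

/-- **the direct part at `r = g`** -/
theorem dirG' : X6Q848.DirG := by
  intro ε hε
  obtain ⟨C, hC, h⟩ := dirG hε
  refine ⟨C, hC.le, fun X L W hX hL hW g hg hsg w _ hwg hwW d hd P hP => ?_⟩
  have hX0 : 0 ≤ X := by linarith
  have hd' := (mem_S hX0).1 hd
  have pd : (0 : ℝ) < nm d := by exact_mod_cast nm_pos.2 hd'.2.1.ne_zero
  have h1 := h X L W hX hL hW g hg hsg w hwW (fun n hn => (hwg n hn).symm) d hd P hP
  rw [AG_eq] at h1
  refine h1.trans (le_of_eq ?_)
  have e1 : (nm d : ℝ) * (W ^ 2 * (X / nm d) * (X / nm d + L)) = W ^ 2 * X * (X / nm d + L) := by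
    field_simp
  rw [e1]
  congr 3
  ring

end Crest.Agent.R017.X6H502
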