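import Crest.Agent.R017.X6GI_180
import Crest.Agent.R017.X6H2_502
import Crest.Agent.R017.X6H1_502

/-!
# Row 17, exceptional class, X6 at `r = g` (helper502): algebra and separation of the dual part

* `sep` : the dual weight is separated (`Mel (1/3)` for `nm x ≤ E`, `Mel 3` for `nm x > E`)
* `dualLeG : X6G180.DualLeG`
-/

set_option autoImplicit false

noncomputable section

open Complex MeasureTheory Finset
open scoped ComplexConjugate

namespace Crest.Agent.R017.X6L502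

open Crest.Agent.R012 Crest.Agent.R012.Eis Crest.Agent.R012.Gauss880
open Crest.Agent.R012.LS2 Crest.Agent.R012.Div277
open Crest.Agent.R012.Weight600 (osc norm_osc osc_add_right continuous_osc_left)
open Crest.Agent.R017.PA842 (Supp)
open Crest.Agent.R017.PX764 (th n6 Gh)
open Crest.Agent.R017.PX6 (CrossT CopG)
open Crest.Agent.R017.X6545 (SU Gw TT Gw_nonneg Gw_le)
open Crest.Agent.R017.X6F848 (OmB')
open Crest.Agent.R017.X6W180 (Mel)
open Crest.Agent.R017.X6D502 Crest.Agent.R017.X6E502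
open Crest.Agent.R017.X6G180

/-! ### the weights -/

/-- small `x` -/
lemma wt0 {A X E n : ℝ} (hA : 0 < A) (hX : 0 < X) (hE : 0 < E) (hn : 1 ≤ n) (hnE : n ≤ E) :
    A ^ ((1 : ℝ) / 3) * (n ^ (-(1 : ℝ) / 3) * (E / (A * X * n)) ^ ((1 : ℝ) / 3)) ≤
      X ^ (-((1 : ℝ) / 3)) * (E ^ ((1 : ℝ) / 3) * Gw 1 E n) := by
  have hn0 : 0 < n := by linarith
  have e1 : E / (A * X * n) = E * A⁻¹ * X⁻¹ * n⁻¹ := by field_simp
  have e2 : Gw 1 E n = n ^ (-(1 : ℝ) / 3) * n ^ (-(1 : ℝ) / 3) := by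
    unfold Gw
    have a1 : min 1 ((1 / n) ^ ((1 : ℝ) / 3)) = n ^ (-(1 : ℝ) / 3) := by
      rw [min_eq_right (Real.rpow_le_one (by positivity) (by rw [div_le_one hn0]; exact hn)
        (by norm_num)), one_div, Real.inv_rpow hn0.le, ← Real.rpow_neg hn0.le]
      congr 1; ring
    have a2 : min 1 ((E / n) ^ 2) = 1 :=
      min_eq_left (one_le_pow₀ (by rwa [one_le_div hn0]))
    rw [a1, a2, mul_one]
  rw [e1, e2, Real.mul_rpow (by positivity) (by positivity),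
    Real.mul_rpow (by positivity) (by positivity), Real.mul_rpow hE.le (by positivity),
    Real.inv_rpow hA.le, Real.inv_rpow hX.le, Real.inv_rpow hn0.le, Real.rpow_neg hX.le]
  have e3 : (n ^ ((1 : ℝ) / 3))⁻¹ = n ^ (-(1 : ℝ) / 3) := by
    rw [← Real.rpow_neg hn0.le]; congr 1; ring
  rw [e3]
  have hA3 : A ^ ((1 : ℝ) / 3) ≠ 0 := (Real.rpow_pos_of_pos hA _).ne'
  apply le_of_eq
  field_simp

/-- large `x` -/
lemma wt1 {A X E n : ℝ} (hA : 0 < A) (hX : 0 < X) (hE : 0 < E) (hn : 1 ≤ n) (hnE : E ≤ n) :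
    A ^ ((1 : ℝ) / 3) * (n ^ (-(1 : ℝ) / 3) * (A ^ ((8 : ℝ) / 3) * (E / (A * X * n)) ^ (3 : ℝ))) ≤
      X ^ (-(3 : ℝ)) * (E ^ ((1 : ℝ) / 3) * Gw 1 E n) := by
  have hn0 : 0 < n := by linarith
  have e1 : (E / (A * X * n)) ^ (3 : ℝ) = A ^ (-(3 : ℝ)) * X ^ (-(3 : ℝ)) * (E / n) ^ (3 : ℝ) := by
    have : E / (A * X * n) = A⁻¹ * X⁻¹ * (E / n) := by field_simp
    rw [this, Real.mul_rpow (by positivity) (by positivity),
      Real.mul_rpow (by positivity) (by positivity), Real.inv_rpow hA.le, Real.inv_rpow hX.le,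
      Real.rpow_neg hA.le, Real.rpow_neg hX.le]
  have hEn : 0 < E / n := by positivity
  have hEn1 : E / n ≤ 1 := by rwa [div_le_one hn0]
  have e2 : Gw 1 E n = n ^ (-(1 : ℝ) / 3) * (n ^ (-(1 : ℝ) / 3) * (E / n) ^ (2 : ℝ)) := by
    unfold Gw
    have a1 : min 1 ((1 / n) ^ ((1 : ℝ) / 3)) = n ^ (-(1 : ℝ) / 3) := by
      rw [min_eq_right (Real.rpow_le_one (by positivity) (by rw [div_le_one hn0]; exact hn)
        (by norm_num)), one_div, Real.inv_rpow hn0.le, ← Real.rpow_neg hn0.le]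
      congr 1; ring
    have a2 : min 1 ((E / n) ^ 2) = (E / n) ^ (2 : ℝ) := by
      rw [min_eq_right (pow_le_one₀ hEn.le hEn1), Real.rpow_two]
    rw [a1, a2]
  have e3 : A ^ ((1 : ℝ) / 3) * (A ^ ((8 : ℝ) / 3) * A ^ (-(3 : ℝ))) = 1 := by
    rw [← Real.rpow_add hA, ← Real.rpow_add hA]
    norm_num
  have e4 : (E / n) ^ (3 : ℝ) ≤ (E / n) ^ ((1 : ℝ) / 3) * (E / n) ^ (2 : ℝ) := by
    rw [← Real.rpow_add hEn]
    exact Real.rpow_le_rpow_of_exponent_ge hEn hEn1 (by norm_num)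
  have e5 : (E / n) ^ ((1 : ℝ) / 3) = E ^ ((1 : ℝ) / 3) * n ^ (-(1 : ℝ) / 3) := by
    rw [div_eq_mul_inv, Real.mul_rpow hE.le (by positivity), Real.inv_rpow hn0.le,
      ← Real.rpow_neg hn0.le]
    congr 2; ring
  rw [e1, e2]
  calc A ^ ((1 : ℝ) / 3) * (n ^ (-(1 : ℝ) / 3) * (A ^ ((8 : ℝ) / 3) *
        (A ^ (-(3 : ℝ)) * X ^ (-(3 : ℝ)) * (E / n) ^ (3 : ℝ))))
      = (A ^ ((1 : ℝ) / 3) * (A ^ ((8 : ℝ) / 3) * A ^ (-(3 : ℝ)))) *
        (X ^ (-(3 : ℝ)) * (n ^ (-(1 : ℝ) / 3) * (E / n) ^ (3 : ℝ))) := by ring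
    _ = X ^ (-(3 : ℝ)) * (n ^ (-(1 : ℝ) / 3) * (E / n) ^ (3 : ℝ)) := by rw [e3, one_mul]
    _ ≤ X ^ (-(3 : ℝ)) * (n ^ (-(1 : ℝ) / 3) *
        ((E / n) ^ ((1 : ℝ) / 3) * (E / n) ^ (2 : ℝ))) := by
        have h1 : 0 ≤ X ^ (-(3 : ℝ)) := by positivity
        have h2 : 0 ≤ n ^ (-(1 : ℝ) / 3) := by positivity
        exact mul_le_mul_of_nonneg_left (mul_le_mul_of_nonneg_left e4 h2) h1
    _ = _ := by rw [e5]; ring

/-! ### one value of `x` -/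

/-- the complex power -/
lemma cpow_split {q : ℝ} (hq : 0 < q) (σ t : ℝ) :
    ((q : ℝ) : ℂ) ^ (((1 / 6 + σ : ℝ) : ℂ) + (t : ℂ) * I) =
      ((q ^ ((1 : ℝ) / 6) : ℝ) : ℂ) * ((q ^ σ : ℝ) : ℂ) * osc t (Real.log q) := by
  have hq' : (q : ℂ) ≠ 0 := by exact_mod_cast hq.ne'
  rw [Complex.cpow_add _ _ hq', ← Complex.ofReal_cpow hq.le, Real.rpow_add hq]
  congr 1
  · push_cast; ring
  · unfold Weight600.osc
    rw [Complex.cpow_def_of_ne_zero hq', ← Complex.ofReal_log hq.le]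
    congr 1
    push_cast
    ring

set_option maxHeartbeats 1000000 in
/-- one value of `x`, one abscissa -/
lemma one_x {s : ℝ} {A0 : ℕ} {K : ℝ} {Om : ℝ → ℂ} (hM : Mel s A0 K Om)
    {X : ℝ} (hX : 0 ≤ X) {v B x : Eis} {D ρ : ℝ} (hD : 0 < D) (hρ : 0 < ρ) (c : Eis → ℂ) (φ : ℂ) :
    ‖∑ m ∈ S X, c m * (((D * nm m) ^ ((1 : ℝ) / 6) : ℝ) : ℂ) *
      (φ * th (v * x * m * B) * Om (D * nm m * ρ))‖ₑ ≤
    ∫⁻ t : ℝ, ENNReal.ofReal (‖φ‖ * (K * ((1 + |t|) ^ A0)⁻¹ * ρ ^ s) *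
      ‖∑ m ∈ S X, c m * ((D * nm m : ℝ) : ℂ) ^ (((1 / 6 + s : ℝ) : ℂ) + (t : ℂ) * I) *
        th (v * x * m * B)‖) := by
  obtain ⟨kk, hkc, hki, hkb, hkO⟩ := hM
  have hint : ∀ a : ℝ, Integrable (fun t : ℝ => kk t * osc t a) := by
    intro a
    have h1 : Integrable (fun t : ℝ => osc t a * kk t) :=
      hki.bdd_mul (c := 1) (continuous_osc_left a).aestronglyMeasurable
        (Filter.Eventually.of_forall fun t => (norm_osc t a).le)
    refine h1.congr (Filter.Eventually.of_forall fun t => ?_)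
    simp only
    ring
  have hy : ∀ m ∈ S X, 0 < D * nm m * ρ ∧ 0 < D * (nm m : ℝ) := by
    intro m hm
    have h1 : (0 : ℝ) < nm m := by exact_mod_cast nm_pos.2 ((mem_S hX).1 hm).2.1.ne_zero
    exact ⟨by positivity, by positivity⟩
  have e1 : ∑ m ∈ S X, c m * (((D * nm m) ^ ((1 : ℝ) / 6) : ℝ) : ℂ) *
      (φ * th (v * x * m * B) * Om (D * nm m * ρ)) =
      ∫ t : ℝ, ∑ m ∈ S X, (c m * (((D * nm m) ^ ((1 : ℝ) / 6) : ℝ) : ℂ) *
        (φ * th (v * x * m * B) * (((D * nm m * ρ) ^ s : ℝ) : ℂ))) *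
          (kk t * osc t (Real.log (D * nm m * ρ))) := by
    rw [integral_finsetSum]
    · refine Finset.sum_congr rfl fun m hm => ?_
      rw [integral_const_mul, hkO _ (hy m hm).1]
      ring
    · intro m _
      exact (hint _).const_mul _
  rw [e1]
  refine (enorm_integral_le_lintegral_enorm _).trans (lintegral_mono fun t => ?_)
  rw [← ofReal_norm]
  refine ENNReal.ofReal_le_ofReal ?_
  have e2 : (∑ m ∈ S X, (c m * (((D * nm m) ^ ((1 : ℝ) / 6) : ℝ) : ℂ) *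
        (φ * th (v * x * m * B) * (((D * nm m * ρ) ^ s : ℝ) : ℂ))) *
          (kk t * osc t (Real.log (D * nm m * ρ)))) =
      (φ * (kk t * (((ρ ^ s : ℝ) : ℂ) * osc t (Real.log ρ)))) *
        ∑ m ∈ S X, c m * ((D * nm m : ℝ) : ℂ) ^ (((1 / 6 + s : ℝ) : ℂ) + (t : ℂ) * I) *
        th (v * x * m * B) := by
    rw [Finset.mul_sum]
    refine Finset.sum_congr rfl fun m hm => ?_
    obtain ⟨h1, h2⟩ := hy m hm
    rw [cpow_split h2 s t, Real.mul_rpow h2.le hρ.le, Real.log_mul h2.ne' hρ.ne', osc_add_right]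
    push_cast
    ring
  rw [e2, norm_mul, norm_mul, norm_mul, norm_mul, norm_osc, Complex.norm_real,
    Real.norm_of_nonneg (by positivity)]
  refine mul_le_mul_of_nonneg_right ?_ (norm_nonneg _)
  refine mul_le_mul_of_nonneg_left ?_ (norm_nonneg _)
  rw [mul_one]
  have h3 : ‖kk t‖ ≤ K * ((1 + |t|) ^ A0)⁻¹ := by
    have h4 : 0 < (1 + |t|) ^ A0 := by positivity
    rw [← div_eq_mul_inv, le_div_iff₀ h4]
    exact hkb t
  exact mul_le_mul_of_nonneg_right h3 (by positivity)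

/-- the integrand -/
def Gi (A0 : ℕ) (X : ℝ) (v B : Eis) (D E : ℝ) (c : Eis → ℂ) (i : Fin 2) (t : ℝ) (x : Eis) :
    ENNReal :=
  open Classical in
  ENNReal.ofReal (((1 + |t|) ^ A0)⁻¹ * X ^ (-(sg i))) * (ENNReal.ofReal (E ^ ((1 : ℝ) / 3)) *
    if x = 0 then 0 else ENNReal.ofReal (Gw 1 E (nm x) *
      ‖∑ m ∈ S X, c m * ((D * nm m : ℝ) : ℂ) ^ (((1 / 6 + sg i : ℝ) : ℂ) + (t : ℂ) * I) *
        th (v * x * m * B)‖))

lemma meas_Gi (A0 : ℕ) {X : ℝ} (hX : 0 ≤ X) (v B : Eis) {D : ℝ} (hD : 0 < D) (E : ℝ) (c : Eis → ℂ)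
    (i : Fin 2) (x : Eis) : Measurable fun t : ℝ => Gi A0 X v B D E c i t x := by
  classical
  unfold Gi
  by_cases hx : x = 0
  · simp only [if_pos hx]
    simp
  simp only [if_neg hx]
  have h1 : Continuous fun t : ℝ => ∑ m ∈ S X,
      c m * ((D * nm m : ℝ) : ℂ) ^ (((1 / 6 + sg i : ℝ) : ℂ) + (t : ℂ) * I) *
        th (v * x * m * B) := by
    refine continuous_finsetSum _ fun m hm => ?_
    have h2 : (0 : ℝ) < nm m := by exact_mod_cast nm_pos.2 ((mem_S hX).1 hm).2.1.ne_zero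
    have h3 : ((D * nm m : ℝ) : ℂ) ≠ 0 := by
      have : 0 < D * (nm m : ℝ) := by positivity
      exact_mod_cast this.ne'
    have h4 : Continuous fun t : ℝ => ((1 / 6 + sg i : ℝ) : ℂ) + (t : ℂ) * I := by fun_prop
    exact (continuous_const.mul (h4.const_cpow (Or.inl h3))).mul continuous_const
  have h5 : Continuous fun t : ℝ => ((1 + |t|) ^ A0)⁻¹ * X ^ (-(sg i)) := by
    refine Continuous.mul (Continuous.inv₀ (by fun_prop) fun t => ?_) continuous_const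
    positivity
  exact (h5.measurable.ennreal_ofReal).mul
    (((continuous_const.mul h1.norm).measurable.ennreal_ofReal).const_mul _)

set_option maxHeartbeats 1000000 in
/-- one value of `x` -/
lemma one_xG {A0 : ℕ} {C1 : ℝ} (hC1 : 0 ≤ C1) {Am : ℝ} (hAm : 1 ≤ Am) {Om : ℝ → ℂ}
    (hM1 : Mel (1 / 3) A0 (C1 * (1 + Real.log Am) ^ 4) Om)
    (hM3 : Mel 3 A0 (C1 * (1 + Real.log Am) ^ 4 * Am ^ ((8 : ℝ) / 3)) Om)
    {X : ℝ} (hX : 1 ≤ X) {v B : Eis} (hB : B ≠ 0) {D E : ℝ} (hD : 0 < D)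
    (hE : E = nm B * X / D) (c : Eis → ℂ) {x : Eis} (hx : x ≠ 0) {φ : ℂ}
    (hφ : ‖φ‖ ≤ (nm x : ℝ) ^ (-(1 : ℝ) / 3)) :
    ENNReal.ofReal (Am ^ ((1 : ℝ) / 3)) *
      ‖∑ m ∈ S X, c m * (((D * nm m) ^ ((1 : ℝ) / 6) : ℝ) : ℂ) *
        (φ * th (v * x * m * B) * Om ((nm m * nm B : ℝ) / (Am * nm x)))‖ₑ ≤
    ENNReal.ofReal (C1 * (1 + Real.log Am) ^ 4) * ∑ i : Fin 2, ∫⁻ t : ℝ, Gi A0 X v B D E c i t x := by
  classical
  have hX0 : 0 < X := by linarith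
  have hAm0 : 0 < Am := by linarith
  have hl := Real.log_nonneg hAm
  have hn : (1 : ℝ) ≤ nm x := by exact_mod_cast nm_pos.2 hx
  have hn0 : (0 : ℝ) < nm x := by linarith
  have hBn : (0 : ℝ) < nm B := by exact_mod_cast nm_pos.2 hB
  have hE0 : 0 < E := by rw [hE]; positivity
  set K : ℝ := C1 * (1 + Real.log Am) ^ 4 with hK
  have hK0 : 0 ≤ K := by positivity
  set ρ : ℝ := E / (Am * X * nm x) with hρ
  have hρ0 : 0 < ρ := by positivity
  have hρe : ∀ m : Eis, (nm m * nm B : ℝ) / (Am * nm x) = D * nm m * ρ := by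
    intro m
    rw [hρ, hE]
    field_simp
  simp only [hρe]
  set Sx : Fin 2 → ℝ → ℂ := fun i t =>
    ∑ m ∈ S X, c m * ((D * nm m : ℝ) : ℂ) ^ (((1 / 6 + sg i : ℝ) : ℂ) + (t : ℂ) * I) *
        th (v * x * m * B) with hSx
  have hG : ∀ i t, Gi A0 X v B D E c i t x = ENNReal.ofReal (((1 + |t|) ^ A0)⁻¹ *
      (X ^ (-(sg i)) * (E ^ ((1 : ℝ) / 3) * Gw 1 E (nm x))) * ‖Sx i t‖) := by
    intro i t
    unfold Gi
    rw [if_neg hx, ← ENNReal.ofReal_mul (by positivity), ← ENNReal.ofReal_mul (by positivity)]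
    congr 1
    simp only [hSx]
    ring
  -- the choice of the abscissa
  obtain ⟨i, K', hK', hM, hw⟩ : ∃ (i : Fin 2) (K' : ℝ), 0 ≤ K' ∧ Mel (sg i) A0 K' Om ∧
      Am ^ ((1 : ℝ) / 3) * ((nm x : ℝ) ^ (-(1 : ℝ) / 3) * (K' * ρ ^ (sg i))) ≤
        K * (X ^ (-(sg i)) * (E ^ ((1 : ℝ) / 3) * Gw 1 E (nm x))) := by
    rcases le_total (nm x : ℝ) E with h | h
    · refine ⟨0, K, hK0, by simpa [sg] using hM1, ?_⟩
      have h1 := wt0 hAm0 hX0 hE0 hn h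
      have h2 : sg 0 = 1 / 3 := by simp [sg]
      rw [h2]
      calc Am ^ ((1 : ℝ) / 3) * ((nm x : ℝ) ^ (-(1 : ℝ) / 3) * (K * ρ ^ ((1 : ℝ) / 3)))
          = K * (Am ^ ((1 : ℝ) / 3) * ((nm x : ℝ) ^ (-(1 : ℝ) / 3) * ρ ^ ((1 : ℝ) / 3))) := by ring
        _ ≤ _ := mul_le_mul_of_nonneg_left h1 hK0
    · refine ⟨1, K * Am ^ ((8 : ℝ) / 3), by positivity, by simpa [sg] using hM3, ?_⟩
      have h1 := wt1 hAm0 hX0 hE0 hn h
      have h2 : sg 1 = 3 := by simp [sg]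
      rw [h2]
      calc Am ^ ((1 : ℝ) / 3) * ((nm x : ℝ) ^ (-(1 : ℝ) / 3) *
            (K * Am ^ ((8 : ℝ) / 3) * ρ ^ (3 : ℝ)))
          = K * (Am ^ ((1 : ℝ) / 3) * ((nm x : ℝ) ^ (-(1 : ℝ) / 3) *
            (Am ^ ((8 : ℝ) / 3) * ρ ^ (3 : ℝ)))) := by ring
        _ ≤ _ := mul_le_mul_of_nonneg_left h1 hK0
  have h1 := one_x (X := X) (v := v) (B := B) (x := x) hM hX0.le hD hρ0 c φ
  have h2 : ENNReal.ofReal (Am ^ ((1 : ℝ) / 3)) *
      ‖∑ m ∈ S X, c m * (((D * nm m) ^ ((1 : ℝ) / 6) : ℝ) : ℂ) *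
        (φ * th (v * x * m * B) * Om (D * nm m * ρ))‖ₑ ≤
      ∫⁻ t : ℝ, ENNReal.ofReal K * Gi A0 X v B D E c i t x := by
    refine (mul_le_mul_right h1 _).trans ?_
    rw [← lintegral_const_mul' _ _ ENNReal.ofReal_ne_top]
    refine lintegral_mono fun t => ?_
    rw [hG, ← ENNReal.ofReal_mul (by positivity), ← ENNReal.ofReal_mul hK0]
    refine ENNReal.ofReal_le_ofReal ?_
    have h3 : Am ^ ((1 : ℝ) / 3) * (‖φ‖ * (K' * ((1 + |t|) ^ A0)⁻¹ * ρ ^ (sg i))) ≤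
        ((1 + |t|) ^ A0)⁻¹ * (K * (X ^ (-(sg i)) * (E ^ ((1 : ℝ) / 3) * Gw 1 E (nm x)))) := by
      calc Am ^ ((1 : ℝ) / 3) * (‖φ‖ * (K' * ((1 + |t|) ^ A0)⁻¹ * ρ ^ (sg i)))
          ≤ Am ^ ((1 : ℝ) / 3) * ((nm x : ℝ) ^ (-(1 : ℝ) / 3) *
            (K' * ((1 + |t|) ^ A0)⁻¹ * ρ ^ (sg i))) := by gcongr
        _ = ((1 + |t|) ^ A0)⁻¹ * (Am ^ ((1 : ℝ) / 3) * ((nm x : ℝ) ^ (-(1 : ℝ) / 3) *
            (K' * ρ ^ (sg i)))) := by ring
        _ ≤ _ := mul_le_mul_of_nonneg_left hw (by positivity)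
    calc Am ^ ((1 : ℝ) / 3) * (‖φ‖ * (K' * ((1 + |t|) ^ A0)⁻¹ * ρ ^ (sg i)) * ‖Sx i t‖)
        = Am ^ ((1 : ℝ) / 3) * (‖φ‖ * (K' * ((1 + |t|) ^ A0)⁻¹ * ρ ^ (sg i))) * ‖Sx i t‖ := by ring
      _ ≤ ((1 + |t|) ^ A0)⁻¹ * (K * (X ^ (-(sg i)) * (E ^ ((1 : ℝ) / 3) * Gw 1 E (nm x)))) *
          ‖Sx i t‖ := mul_le_mul_of_nonneg_right h3 (norm_nonneg _)
      _ = _ := by ring
  refine h2.trans ?_
  rw [lintegral_const_mul' _ _ ENNReal.ofReal_ne_top]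
  refine mul_le_mul_right ?_ _
  exact Finset.single_le_sum (f := fun i => ∫⁻ t : ℝ, Gi A0 X v B D E c i t x)
    (fun _ _ => zero_le) (Finset.mem_univ i)

set_option maxHeartbeats 1000000 in
/-- **the separation** -/
lemma sep {A0 : ℕ} {C1 : ℝ} (hC1 : 0 ≤ C1) {Am : ℝ} (hAm : 1 ≤ Am) {Om : ℝ → ℂ}
    (hO : OmB' Am C1 2 Om) (hM1 : Mel (1 / 3) A0 (C1 * (1 + Real.log Am) ^ 4) Om)
    (hM3 : Mel 3 A0 (C1 * (1 + Real.log Am) ^ 4 * Am ^ ((8 : ℝ) / 3)) Om)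
    {X : ℝ} (hX : 1 ≤ X) {v B : Eis} (hv : v ≠ 0) (hB : B ≠ 0) {D E : ℝ} (hD : 0 < D)
    (hE : E = nm B * X / D) (c φ : Eis → ℂ) (hφ0 : φ 0 = 0)
    (hφ : ∀ x, x ≠ 0 → ‖φ x‖ ≤ (nm x : ℝ) ^ (-(1 : ℝ) / 3)) :
    ENNReal.ofReal (Am ^ ((1 : ℝ) / 3)) *
      ‖∑ m ∈ S X, c m * (((D * nm m) ^ ((1 : ℝ) / 6) : ℝ) : ℂ) *
        ∑' x : Eis, φ x * th (v * x * m * B) * Om ((nm m * nm B : ℝ) / (Am * nm x))‖ₑ ≤
    ENNReal.ofReal (C1 * (1 + Real.log Am) ^ 4) *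
      ∑ i : Fin 2, ∫⁻ t : ℝ, ∑' x : Eis, Gi A0 X v B D E c i t x := by
  classical
  have hX0 : 0 ≤ X := by linarith
  have hAm0 : 0 < Am := by linarith
  have hl := Real.log_nonneg hAm
  have hBn : (0 : ℝ) < nm B := by exact_mod_cast nm_pos.2 hB
  set K : ℝ := C1 * (1 + Real.log Am) ^ 4 with hK
  have hK0 : 0 ≤ K := by positivity
  -- summability
  have hsm : ∀ m ∈ S X, Summable (fun x : Eis => c m * (((D * nm m) ^ ((1 : ℝ) / 6) : ℝ) : ℂ) *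
      (φ x * th (v * x * m * B) * Om ((nm m * nm B : ℝ) / (Am * nm x)))) := by
    intro m hm
    have hm' := (mem_S hX0).1 hm
    have hmn : (0 : ℝ) < nm m := by exact_mod_cast nm_pos.2 hm'.2.1.ne_zero
    refine Summable.mul_left _ ?_
    refine Summable.of_norm_bounded (g := fun x : Eis => K * ((nm m * nm B : ℝ)) ^ 2 *
      (nm x : ℝ) ^ (-((7 : ℝ) / 3))) ((LatSum413.summable_nm_rpow (by norm_num)).mul_left _)
      (fun x => ?_)
    by_cases hx : x = 0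
    · rw [hx, hφ0, zero_mul, zero_mul, norm_zero]; positivity
    · have h1 : (0 : ℝ) < nm x := by exact_mod_cast nm_pos.2 hx
      rw [norm_mul, norm_mul]
      have h2 := norm_th_le_one (h := v * x * m * B)
        (mul_ne_zero (mul_ne_zero (mul_ne_zero hv hx) hm'.2.1.ne_zero) hB)
      have h3 := hO ((nm m * nm B : ℝ) / (Am * nm x)) (by positivity)
      have h4 : min 1 (((nm m * nm B : ℝ) / (Am * nm x)) ^ ((1 : ℝ) / 3)) *
          min 1 ((Am * ((nm m * nm B : ℝ) / (Am * nm x))) ^ 2) ≤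
          1 * ((nm m * nm B : ℝ) / nm x) ^ 2 := by
        refine mul_le_mul (min_le_left _ _) ((min_le_right _ _).trans (le_of_eq ?_))
          (le_min zero_le_one (by positivity)) zero_le_one
        congr 1
        field_simp
      have h5 : ‖Om ((nm m * nm B : ℝ) / (Am * nm x))‖ ≤ K * ((nm m * nm B : ℝ) / nm x) ^ 2 := by
        refine h3.trans ?_
        have := mul_le_mul_of_nonneg_left h4 hK0
        rwa [one_mul] at this
      calc ‖φ x‖ * ‖th (v * x * m * B)‖ * ‖Om ((nm m * nm B : ℝ) / (Am * nm x))‖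
          ≤ (nm x : ℝ) ^ (-(1 : ℝ) / 3) * 1 * (K * ((nm m * nm B : ℝ) / nm x) ^ 2) := by
            have := hφ x hx
            gcongr
        _ = K * ((nm m * nm B : ℝ)) ^ 2 * ((nm x : ℝ) ^ (-(1 : ℝ) / 3) *
            (nm x : ℝ) ^ (-(2 : ℝ))) := by
            rw [div_pow, Real.rpow_neg h1.le 2, Real.rpow_two]; ring
        _ = _ := by
            rw [← Real.rpow_add h1]
            norm_num
  have e1 : ∑ m ∈ S X, c m * (((D * nm m) ^ ((1 : ℝ) / 6) : ℝ) : ℂ) *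
        ∑' x : Eis, φ x * th (v * x * m * B) * Om ((nm m * nm B : ℝ) / (Am * nm x)) =
      ∑' x : Eis, ∑ m ∈ S X, c m * (((D * nm m) ^ ((1 : ℝ) / 6) : ℝ) : ℂ) *
        (φ x * th (v * x * m * B) * Om ((nm m * nm B : ℝ) / (Am * nm x))) := by
    rw [Summable.tsum_finsetSum hsm]
    exact Finset.sum_congr rfl fun m _ => tsum_mul_left.symm
  rw [e1]
  refine (mul_le_mul_right enorm_tsum_le_tsum_enorm _).trans ?_
  rw [← ENNReal.tsum_mul_left]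
  have h1 : ∀ x : Eis, ENNReal.ofReal (Am ^ ((1 : ℝ) / 3)) *
      ‖∑ m ∈ S X, c m * (((D * nm m) ^ ((1 : ℝ) / 6) : ℝ) : ℂ) *
        (φ x * th (v * x * m * B) * Om ((nm m * nm B : ℝ) / (Am * nm x)))‖ₑ ≤
      ENNReal.ofReal K * ∑ i : Fin 2, ∫⁻ t : ℝ, Gi A0 X v B D E c i t x := by
    intro x
    by_cases hx : x = 0
    · have : (∑ m ∈ S X, c m * (((D * nm m) ^ ((1 : ℝ) / 6) : ℝ) : ℂ) *
        (φ x * th (v * x * m * B) * Om ((nm m * nm B : ℝ) / (Am * nm x)))) = 0 := by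
        refine Finset.sum_eq_zero fun m _ => ?_
        rw [hx, hφ0, zero_mul, zero_mul, mul_zero]
      rw [this, enorm_zero, mul_zero]
      exact zero_le
    · exact one_xG hC1 hAm hM1 hM3 hX hB hD hE c hx (hφ x hx)
  refine (ENNReal.tsum_le_tsum h1).trans (le_of_eq ?_)
  rw [ENNReal.tsum_mul_left]
  congr 1
  rw [Summable.tsum_finsetSum (fun _ _ => ENNReal.summable)]
  refine Finset.sum_congr rfl fun i _ => ?_
  rw [lintegral_tsum fun x => (meas_Gi A0 hX0 v B hD E c i x).aemeasurable]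

/-! ### rows -/

open Classical in
/-- the sum over `m₂ = a m`, the divisor is `s a` -/
def InF2 (w : Eis → ℂ) (X : ℝ) (F : Eis → Eis → Eis → Eis → ℂ) (d m₁ s a b : Eis) : ℂ :=
  ∑ m ∈ S X, if a * m ∈ S X then (if IsCoprime m₁ (a * m) then
      conj (ws w X (d * (a * m))) * (((nm (d * (a * m)) : ℝ) ^ ((1 : ℝ) / 6) : ℝ) : ℂ) *
        F m₁ (a * m) (s * a) b else 0) else 0

open Classical in
/-- the sum over `m₂` and `a ∣ d m₂` for fixed `m₁` -/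
lemma rowF2_eq (w : Eis → ℂ) {X : ℝ} (hX : 0 ≤ X) (F : Eis → Eis → Eis → Eis → ℂ) {d : Eis}
    (hd : IsPrim d) (m₁ : Eis) (P : Eis → Eis → Prop) :
    (∑ m₂ ∈ S X, if IsCoprime m₁ m₂ then
    ws w X (d * m₁) * conj (ws w X (d * m₂)) *
      ((n6 (d * m₁) * (nm (d * m₂) : ℝ) ^ ((1 : ℝ) / 6) : ℝ) : ℂ) *
      ∑ b ∈ dvs m₁, ∑ a ∈ (dvs (d * m₂)).filter (fun a => P a b), (muE a : ℂ) * (muE b : ℂ) *
        F m₁ m₂ a b
    else 0) =
    ws w X (d * m₁) * ((n6 (d * m₁) : ℝ) : ℂ) *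
      ∑ b ∈ dvs m₁, (muE b : ℂ) * ∑ s ∈ dvs d, ∑ a ∈ S X,
        if P (s * a) b then (muE (s * a) : ℂ) * InF2 w X F d m₁ s a b else 0 := by
  have e1 : ∀ b s : Eis, (∑ a ∈ S X, if P (s * a) b then
        (muE (s * a) : ℂ) * InF2 w X F d m₁ s a b else 0) =
      ∑ m₂ ∈ S X, ∑ a ∈ dvs m₂, (if P (s * a) b then (muE (s * a) : ℂ) * (if IsCoprime m₁ m₂ then
        conj (ws w X (d * m₂)) * (((nm (d * m₂) : ℝ) ^ ((1 : ℝ) / 6) : ℝ) : ℂ) *
        F m₁ m₂ (s * a) b else 0) else 0) := by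
    intro b s
    rw [swap hX (fun m₂ a => (if P (s * a) b then (muE (s * a) : ℂ) * (if IsCoprime m₁ m₂ then
        conj (ws w X (d * m₂)) * (((nm (d * m₂) : ℝ) ^ ((1 : ℝ) / 6) : ℝ) : ℂ) *
        F m₁ m₂ (s * a) b else 0) else 0))]
    refine Finset.sum_congr rfl fun a _ => ?_
    by_cases hP : P (s * a) b
    · simp only [if_pos hP]
      unfold InF2
      rw [Finset.mul_sum]
      refine Finset.sum_congr rfl fun m _ => ?_
      rw [mul_ite, mul_zero]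
    · simp only [if_neg hP]
      symm
      exact Finset.sum_eq_zero fun m _ => by split_ifs <;> rfl
  simp only [e1]
  -- the divisors of `d m₂`
  have e3 : ∀ b : Eis, ∀ m₂ ∈ S X, (∑ s ∈ dvs d, ∑ a ∈ dvs m₂, (if P (s * a) b then
        (muE (s * a) : ℂ) * (if IsCoprime m₁ m₂ then
        conj (ws w X (d * m₂)) * (((nm (d * m₂) : ℝ) ^ ((1 : ℝ) / 6) : ℝ) : ℂ) *
        F m₁ m₂ (s * a) b else 0) else 0)) =
      ∑ a ∈ dvs (d * m₂), (if P a b then (muE a : ℂ) * (if IsCoprime m₁ m₂ then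
        conj (ws w X (d * m₂)) * (((nm (d * m₂) : ℝ) ^ ((1 : ℝ) / 6) : ℝ) : ℂ) *
        F m₁ m₂ a b else 0) else 0) := by
    intro b m₂ hm₂
    by_cases hws : ws w X (d * m₂) = 0
    · rw [hws]
      simp
    · have hdm : d * m₂ ∈ S X := by
        by_contra hn
        exact hws (ws_of_not_mem hn)
      have hdm' := (mem_S hX).1 hdm
      have hco : IsCoprime d m₂ := (squarefree_mul_iff.mp hdm'.2.2).1.isCoprime
      rw [TP320.sum_dvs_mul hd ((mem_S hX).1 hm₂).2.1 hco (fun a => (if P a b then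
        (muE a : ℂ) * (if IsCoprime m₁ m₂ then
        conj (ws w X (d * m₂)) * (((nm (d * m₂) : ℝ) ^ ((1 : ℝ) / 6) : ℝ) : ℂ) *
        F m₁ m₂ a b else 0) else 0))]
  have e4 : ∀ b : Eis, (∑ s ∈ dvs d, ∑ m₂ ∈ S X, ∑ a ∈ dvs m₂, (if P (s * a) b then
        (muE (s * a) : ℂ) * (if IsCoprime m₁ m₂ then
        conj (ws w X (d * m₂)) * (((nm (d * m₂) : ℝ) ^ ((1 : ℝ) / 6) : ℝ) : ℂ) *
        F m₁ m₂ (s * a) b else 0) else 0)) =
      ∑ m₂ ∈ S X, ∑ a ∈ dvs (d * m₂), (if P a b then (muE a : ℂ) * (if IsCoprime m₁ m₂ then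
        conj (ws w X (d * m₂)) * (((nm (d * m₂) : ℝ) ^ ((1 : ℝ) / 6) : ℝ) : ℂ) *
        F m₁ m₂ a b else 0) else 0) := by
    intro b
    rw [Finset.sum_comm]
    exact Finset.sum_congr rfl fun m₂ hm₂ => e3 b m₂ hm₂
  simp only [e4]
  rw [Finset.mul_sum]
  have e2 : ∀ b ∈ dvs m₁, ws w X (d * m₁) * ((n6 (d * m₁) : ℝ) : ℂ) *
      ((muE b : ℂ) * ∑ m₂ ∈ S X, ∑ a ∈ dvs (d * m₂), (if P a b then (muE a : ℂ) *
        (if IsCoprime m₁ m₂ then
        conj (ws w X (d * m₂)) * (((nm (d * m₂) : ℝ) ^ ((1 : ℝ) / 6) : ℝ) : ℂ) *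
        F m₁ m₂ a b else 0) else 0)) =
      ∑ m₂ ∈ S X, (ws w X (d * m₁) * ((n6 (d * m₁) : ℝ) : ℂ) *
      ((muE b : ℂ) * ∑ a ∈ dvs (d * m₂), (if P a b then (muE a : ℂ) *
        (if IsCoprime m₁ m₂ then
        conj (ws w X (d * m₂)) * (((nm (d * m₂) : ℝ) ^ ((1 : ℝ) / 6) : ℝ) : ℂ) *
        F m₁ m₂ a b else 0) else 0))) := by
    intro b _
    rw [Finset.mul_sum, Finset.mul_sum]
  rw [Finset.sum_congr rfl e2, Finset.sum_comm]
  refine Finset.sum_congr rfl fun m₂ _ => ?_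
  by_cases hco : IsCoprime m₁ m₂
  · simp only [if_pos hco]
    rw [Finset.mul_sum]
    refine Finset.sum_congr rfl fun b _ => ?_
    rw [← Finset.sum_filter, Finset.mul_sum, Finset.mul_sum, Finset.mul_sum]
    refine Finset.sum_congr rfl fun a _ => ?_
    push_cast
    ring
  · simp only [if_neg hco]
    symm
    refine Finset.sum_eq_zero fun b _ => ?_
    have : (∑ a ∈ dvs (d * m₂), if P a b then (muE a : ℂ) * 0 else 0) = 0 :=
      Finset.sum_eq_zero fun a _ => by split_ifs <;> simp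
    rw [this, mul_zero, mul_zero]

/-! ### the inner sum -/

open Classical in
/-- the coefficients without the complex power -/
def c0 (w : Eis → ℂ) (X : ℝ) (d m₁ a δj m : Eis) : ℂ :=
  if IsCoprime m₁ (a * m) then conj (ws w X (d * (a * m))) * sy δj m else 0

open Classical in
/-- the sum over `x` -/
def CoreT (w : Eis → ℂ) (X : ℝ) (d r v δj : Eis) (s : ℂ) (m₁ a b : Eis) : ENNReal :=
  ∑' x : Eis, if x = 0 then 0 else ENNReal.ofReal (Gw 1 (EG X d r a b) (nm x) *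
    ‖∑ m ∈ S X, cG w X d m₁ a δj s m * th (v * x * m * (r * b))‖)

lemma tsum_Gi (A0 : ℕ) (w : Eis → ℂ) (X : ℝ) (d r v δj m₁ a b : Eis) (i : Fin 2) (t : ℝ) :
    ∑' x : Eis, Gi A0 X v (r * b) ((nm d : ℝ) * nm a) (EG X d r a b) (c0 w X d m₁ a δj) i t x =
    ENNReal.ofReal (((1 + |t|) ^ A0)⁻¹ * X ^ (-(sg i))) *
      (ENNReal.ofReal ((EG X d r a b) ^ ((1 : ℝ) / 3)) *
        CoreT w X d r v δj (((1 / 6 + sg i : ℝ) : ℂ) + (t : ℂ) * I) m₁ a b) := by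
  classical
  unfold CoreT
  rw [← ENNReal.tsum_mul_left, ← ENNReal.tsum_mul_left]
  refine tsum_congr fun x => ?_
  unfold Gi
  have e1 : ∀ m : Eis, c0 w X d m₁ a δj m * (((nm d : ℝ) * nm a * nm m : ℝ) : ℂ) ^
      (((1 / 6 + sg i : ℝ) : ℂ) + (t : ℂ) * I) * th (v * x * m * (r * b)) =
      cG w X d m₁ a δj (((1 / 6 + sg i : ℝ) : ℂ) + (t : ℂ) * I) m * th (v * x * m * (r * b)) := by
    intro m
    have e2 : (((nm d : ℝ) * nm a * nm m : ℝ) : ℂ) = (nm (d * (a * m)) : ℂ) := by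
      rw [nm_mul, nm_mul]; push_cast; ring
    unfold c0 cG
    rw [e2]
    split_ifs
    · ring
    · ring
  simp only [e1]

set_option maxHeartbeats 1000000 in
open Classical in
/-- the inner sum for `DuG` -/
lemma inF2_DuG {J : ℕ} (v δ : Fin J → Eis) (Ω : ℝ → Fin J → ℝ → ℂ) {X L : ℝ} (hX : 0 ≤ X)
    (w : Eis → ℂ) {g s e m₁ a b : Eis} (hg : IsPrim g) (hs : IsPrim s) (he : IsPrim e)
    (ha : IsPrim a) (hb : IsPrim b) :
    InF2 w X (DuG v δ Ω g L (s * e)) (s * e) m₁ s a b =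
      ∑ j, sy (δ j) (g * e * b) * ((((L / ((nm (s * a) : ℝ) ^ 2 * nm b)) ^ ((1 : ℝ) / 3) : ℝ) : ℂ) *
        ∑ m ∈ S X, c0 w X (s * e) m₁ a (δ j) m *
          ((((nm (s * e) : ℝ) * nm a * nm m) ^ ((1 : ℝ) / 6) : ℝ) : ℂ) *
          ∑' x : Eis, (if IsPrim x ∧ X6C180.CF x then sy (δ j) x *
            (((nm x : ℝ) ^ (-(1 : ℝ) / 3) : ℝ) : ℂ) else 0) * th (v j * x * m * (g * e * b)) *
            Ω (L / ((nm (s * a) : ℝ) ^ 2 * nm b)) j
              ((nm m * nm (g * e * b) : ℝ) / (L / ((nm (s * a) : ℝ) ^ 2 * nm b) * nm x))) := by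
  set Am : ℝ := L / ((nm (s * a) : ℝ) ^ 2 * nm b) with hAm
  have e0 : (∑ j, sy (δ j) (g * e * b) * (((Am ^ ((1 : ℝ) / 3) : ℝ) : ℂ) *
        ∑ m ∈ S X, c0 w X (s * e) m₁ a (δ j) m *
          ((((nm (s * e) : ℝ) * nm a * nm m) ^ ((1 : ℝ) / 6) : ℝ) : ℂ) *
          ∑' x : Eis, (if IsPrim x ∧ X6C180.CF x then sy (δ j) x *
            (((nm x : ℝ) ^ (-(1 : ℝ) / 3) : ℝ) : ℂ) else 0) * th (v j * x * m * (g * e * b)) *
            Ω Am j ((nm m * nm (g * e * b) : ℝ) / (Am * nm x)))) =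
      ∑ m ∈ S X, ∑ j, sy (δ j) (g * e * b) * (((Am ^ ((1 : ℝ) / 3) : ℝ) : ℂ) *
        (c0 w X (s * e) m₁ a (δ j) m *
          ((((nm (s * e) : ℝ) * nm a * nm m) ^ ((1 : ℝ) / 6) : ℝ) : ℂ) *
          ∑' x : Eis, (if IsPrim x ∧ X6C180.CF x then sy (δ j) x *
            (((nm x : ℝ) ^ (-(1 : ℝ) / 3) : ℝ) : ℂ) else 0) * th (v j * x * m * (g * e * b)) *
            Ω Am j ((nm m * nm (g * e * b) : ℝ) / (Am * nm x)))) := by
    rw [Finset.sum_comm]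
    refine Finset.sum_congr rfl fun j _ => ?_
    rw [Finset.mul_sum, Finset.mul_sum]
  rw [e0]
  unfold InF2
  refine Finset.sum_congr rfl fun m hm => ?_
  have hm' := (mem_S hX).1 hm
  by_cases h2 : IsCoprime m₁ (a * m)
  · by_cases h1 : a * m ∈ S X
    · rw [if_pos h1, if_pos h2]
      have ed : s * e * (a * m) / (s * a) = e * m := by
        rw [show s * e * (a * m) = (s * a) * (e * m) by ring,
          mul_div_cancel_left₀ _ (mul_ne_zero hs.ne_zero ha.ne_zero)]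
      have en : (nm (s * e * (a * m)) : ℝ) = (nm (s * e) : ℝ) * nm a * nm m := by
        rw [nm_mul (s * e), nm_mul a]; push_cast; ring
      have eu : g * (e * m * b) = m * (g * e * b) := by ring
      have en2 : (nm (m * (g * e * b)) : ℝ) = nm m * nm (g * e * b) := by
        rw [nm_mul m]; push_cast; ring
      unfold DuG
      rw [ed, en, eu, en2, ← hAm, Finset.mul_sum, Finset.mul_sum]
      refine Finset.sum_congr rfl fun j _ => ?_
      have e2 : c0 w X (s * e) m₁ a (δ j) m = conj (ws w X (s * e * (a * m))) * sy (δ j) m := by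
        unfold c0
        rw [if_pos h2]
      have e3 : sy (δ j) (m * (g * e * b)) = sy (δ j) m * sy (δ j) (g * e * b) :=
        syG.mul_right _ _ _ hm'.2.1 ((hg.mul he).mul hb)
      rw [e2, e3]
      have e4 : (∑' x : Eis, (if IsPrim x ∧ X6C180.CF x then
            sy (δ j) x * (((nm x : ℝ) ^ (-(1 : ℝ) / 3) : ℝ) : ℂ) *
            th (v j * (m * (g * e * b)) * x) *
            Ω Am j ((nm m * nm (g * e * b) : ℝ) / (Am * nm x)) else 0)) =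
          ∑' x : Eis, (if IsPrim x ∧ X6C180.CF x then sy (δ j) x *
            (((nm x : ℝ) ^ (-(1 : ℝ) / 3) : ℝ) : ℂ) else 0) * th (v j * x * m * (g * e * b)) *
            Ω Am j ((nm m * nm (g * e * b) : ℝ) / (Am * nm x)) := by
        refine tsum_congr fun x => ?_
        split_ifs
        · rw [show v j * (m * (g * e * b)) * x = v j * x * m * (g * e * b) by ring]
        · rw [zero_mul, zero_mul]
      rw [e4]
      ring
    · rw [if_neg h1]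
      symm
      have hws : ws w X (s * e * (a * m)) = 0 :=
        ws_of_not_mem fun h => h1 (X6545.mem_of_mul hX (hs.mul he) h)
      have e2 : ∀ j, c0 w X (s * e) m₁ a (δ j) m = 0 := by
        intro j
        unfold c0
        rw [if_pos h2, hws]
        simp
      simp [e2]
  · have e2 : ∀ j, c0 w X (s * e) m₁ a (δ j) m = 0 := by
      intro j
      unfold c0
      rw [if_neg h2]
    rw [if_neg h2]
    simp [e2]

set_option maxHeartbeats 1000000 in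
open Classical in
/-- the inner bound -/
lemma inF2_le {J : ℕ} {v δ : Fin J → Eis} (hvd : ∀ j, SU (v j) ∧ SU (δ j)) {A0 : ℕ} {C1 : ℝ}
    {Ω : ℝ → Fin J → ℝ → ℂ} (hC1 : 0 ≤ C1) (hΩ : ∀ Am : ℝ, 1 ≤ Am → ∀ j, OmB' Am C1 2 (Ω Am j))
    (hM1 : ∀ Am : ℝ, 1 ≤ Am → ∀ j, Mel (1 / 3) A0 (C1 * (1 + Real.log Am) ^ 4) (Ω Am j))
    (hM3 : ∀ Am : ℝ, 1 ≤ Am → ∀ j,
      Mel 3 A0 (C1 * (1 + Real.log Am) ^ 4 * Am ^ ((8 : ℝ) / 3)) (Ω Am j))
    {X L : ℝ} (hX : 1 ≤ X) (hL : 1 ≤ L) (w : Eis → ℂ) {g s e m₁ a b : Eis} (hg : IsPrim g)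
    (hs : IsPrim s) (he : IsPrim e) (ha : IsPrim a) (hb : IsPrim b)
    (hcut : (nm (s * a) : ℝ) ^ 2 * nm b ≤ L) :
    ‖InF2 w X (DuG v δ Ω g L (s * e)) (s * e) m₁ s a b‖ₑ ≤
      ENNReal.ofReal (C1 * (1 + Real.log L) ^ 4) * ∑ j, ∑ i : Fin 2, ∫⁻ t : ℝ,
        ENNReal.ofReal (((1 + |t|) ^ A0)⁻¹ * X ^ (-(sg i))) *
        (ENNReal.ofReal ((EG X (s * e) (g * e) a b) ^ ((1 : ℝ) / 3)) *
          CoreT w X (s * e) (g * e) (v j) (δ j) (((1 / 6 + sg i : ℝ) : ℂ) + (t : ℂ) * I)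
            m₁ a b) := by
  have hX0 : 0 ≤ X := by linarith
  have hL0 : 0 < L := by linarith
  rw [inF2_DuG v δ Ω hX0 w hg hs he ha hb]
  set Am : ℝ := L / ((nm (s * a) : ℝ) ^ 2 * nm b) with hAm
  have psa : (1 : ℝ) ≤ nm (s * a) := by exact_mod_cast nm_pos.2 (hs.mul ha).ne_zero
  have pb : (1 : ℝ) ≤ nm b := by exact_mod_cast nm_pos.2 hb.ne_zero
  have pse : (0 : ℝ) < nm (s * e) := by exact_mod_cast nm_pos.2 (hs.mul he).ne_zero
  have pa : (0 : ℝ) < nm a := by exact_mod_cast nm_pos.2 ha.ne_zero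
  have h1 : (1 : ℝ) ≤ (nm (s * a) : ℝ) ^ 2 * nm b :=
    one_le_mul_of_one_le_of_one_le (one_le_pow₀ psa) pb
  have hAm1 : 1 ≤ Am := by
    rw [hAm, one_le_div (by linarith)]
    exact hcut
  have hAmL : Am ≤ L := div_le_self hL0.le h1
  have hlA := Real.log_nonneg hAm1
  have hlL := Real.log_le_log (by linarith) hAmL
  have hK : C1 * (1 + Real.log Am) ^ 4 ≤ C1 * (1 + Real.log L) ^ 4 := by gcongr
  refine (enorm_sum_le _ _).trans ?_
  rw [Finset.mul_sum]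
  refine Finset.sum_le_sum fun j _ => ?_
  rw [enorm_mul]
  have h2 : ‖sy (δ j) (g * e * b)‖ₑ ≤ 1 := by
    rw [← ofReal_norm]
    have := CM106.norm_sy_le' (k := δ j) ((hg.mul he).mul hb)
    exact (ENNReal.ofReal_le_ofReal this).trans (by simp)
  refine (mul_le_of_le_one_left zero_le h2).trans ?_
  rw [enorm_mul]
  have h3 : ‖(((Am ^ ((1 : ℝ) / 3) : ℝ) : ℂ))‖ₑ = ENNReal.ofReal (Am ^ ((1 : ℝ) / 3)) := by
    rw [← ofReal_norm, Complex.norm_real, Real.norm_of_nonneg (by positivity)]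
  rw [h3]
  have hE : EG X (s * e) (g * e) a b =
      nm (g * e * b) * X / ((nm (s * e) : ℝ) * nm a) := by
    unfold EG
    rw [nm_mul (g * e) b]
    push_cast
    field_simp
  have h4 := sep (v := v j) (φ := fun x => if IsPrim x ∧ X6C180.CF x then sy (δ j) x *
            (((nm x : ℝ) ^ (-(1 : ℝ) / 3) : ℝ) : ℂ) else 0) hC1 hAm1 (hΩ Am hAm1 j)
    (hM1 Am hAm1 j) (hM3 Am hAm1 j) hX (X6K502.SU_ne (hvd j).1)
    ((hg.mul he).mul hb).ne_zero (mul_pos pse pa) hE (c0 w X (s * e) m₁ a (δ j)) (by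
      rw [if_neg]
      rintro ⟨h, _⟩
      exact h.ne_zero rfl) (by
      intro x hx
      split_ifs with hpx
      · rw [norm_mul, Complex.norm_real, Real.norm_of_nonneg (by positivity)]
        exact mul_le_of_le_one_left (by positivity) (CM106.norm_sy_le' hpx.1)
      · rw [norm_zero]; positivity)
  refine h4.trans ?_
  refine mul_le_mul' (ENNReal.ofReal_le_ofReal hK) (le_of_eq ?_)
  refine Finset.sum_congr rfl fun i _ => ?_
  refine lintegral_congr fun t => ?_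
  exact tsum_Gi A0 w X (s * e) (g * e) (v j) (δ j) m₁ a b i t

/-! ### the sum -/

lemma sum_lint_le {ι : Type*} (s : Finset ι) (f : ι → ℝ → ENNReal) :
    ∑ i ∈ s, ∫⁻ t, f i t ≤ ∫⁻ t, ∑ i ∈ s, f i t := by
  classical
  induction s using Finset.induction_on with
  | empty => simp
  | insert i s hi ih =>
    rw [Finset.sum_insert hi]
    simp only [Finset.sum_insert hi]
    exact (add_le_add le_rfl ih).trans (le_lintegral_add _ _)

set_option maxHeartbeats 1000000 in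
open Classical in
/-- one row -/
lemma row_le {J : ℕ} {v δ : Fin J → Eis} (hvd : ∀ j, SU (v j) ∧ SU (δ j)) {A0 : ℕ} {C1 : ℝ}
    {Ω : ℝ → Fin J → ℝ → ℂ} (hC1 : 0 ≤ C1) (hΩ : ∀ Am : ℝ, 1 ≤ Am → ∀ j, OmB' Am C1 2 (Ω Am j))
    (hM1 : ∀ Am : ℝ, 1 ≤ Am → ∀ j, Mel (1 / 3) A0 (C1 * (1 + Real.log Am) ^ 4) (Ω Am j))
    (hM3 : ∀ Am : ℝ, 1 ≤ Am → ∀ j,
      Mel 3 A0 (C1 * (1 + Real.log Am) ^ 4 * Am ^ ((8 : ℝ) / 3)) (Ω Am j))
    {X L W : ℝ} (hX : 1 ≤ X) (hL : 1 ≤ L) (hW : 0 ≤ W) {w : Eis → ℂ} {g : Eis} (hg : IsPrim g)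
    (hwg : CopG g w) (hwW : ∀ n, ‖w n‖ ≤ W) {d m₁ : Eis} (hd : d ∈ S X) (hm₁ : m₁ ∈ S X)
    (P : Eis → Eis → Prop) (hPP : ∀ a b, P a b → (nm a : ℝ) * nm b ≤ (X / nm d) ^ ((1 : ℝ) / 2) ∧
      (nm a : ℝ) ^ 2 * nm b ≤ L) :
    ‖ws w X (d * m₁) * ((n6 (d * m₁) : ℝ) : ℂ) *
      ∑ b ∈ dvs m₁, (muE b : ℂ) * ∑ s ∈ dvs d, ∑ a ∈ S X,
        if P (s * a) b then
          (muE (s * a) : ℂ) * InF2 w X (DuG v δ Ω g L d) d m₁ s a b else 0‖ₑ ≤
      ENNReal.ofReal (C1 * (1 + Real.log L) ^ 4 * W) * ∑ e ∈ dvs d, ∑ j, ∑ i : Fin 2, ∫⁻ t : ℝ,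
        ENNReal.ofReal (((1 + |t|) ^ A0)⁻¹ * X ^ (-(sg i))) *
        (if (nm m₁ : ℝ) ≤ X / nm d ∧ IsCoprime (g * (d / e)) m₁ then
          ∑ b ∈ dvs m₁, ∑ a ∈ (S X).filter (fun a => (nm a : ℝ) * nm b ≤ (X / nm d) ^ ((1 : ℝ) / 2)),
            ENNReal.ofReal ((nm (d * m₁) : ℝ) ^ (-(1 : ℝ) / 6) *
              (EG X d (g * (d / e)) a b) ^ ((1 : ℝ) / 3)) *
            CoreT w X d (g * (d / e)) (v j) (δ j) (((1 / 6 + sg i : ℝ) : ℂ) + (t : ℂ) * I)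
              m₁ a b else 0) := by
  have hX0 : 0 ≤ X := by linarith
  have hL0 : 0 < L := by linarith
  have hd' := (mem_S hX0).1 hd
  have hm' := (mem_S hX0).1 hm₁
  have pd : (1 : ℝ) ≤ nm d := by exact_mod_cast nm_pos.2 hd'.2.1.ne_zero
  have hlL := Real.log_nonneg hL
  by_cases hws : ws w X (d * m₁) = 0
  · rw [hws, zero_mul, zero_mul, enorm_zero]
    exact zero_le
  have hdm : d * m₁ ∈ S X := by
    by_contra hn
    exact hws (ws_of_not_mem hn)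
  have hdm' := (mem_S hX0).1 hdm
  have hcg : IsCoprime g (d * m₁) := by
    apply hwg
    intro h0
    apply hws
    unfold ws
    rw [if_pos hdm, h0]
  have hcdm : IsCoprime d m₁ := (squarefree_mul_iff.mp hdm'.2.2).1.isCoprime
  have hmN : (nm m₁ : ℝ) ≤ X / nm d := by
    rw [le_div_iff₀ (by linarith)]
    refine le_trans (le_of_eq ?_) hdm'.1
    rw [nm_mul]; push_cast; ring
  set KL : ℝ := C1 * (1 + Real.log L) ^ 4 with hKL
  have hKL0 : 0 ≤ KL := by positivity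
  set q : ENNReal := ENNReal.ofReal ((nm (d * m₁) : ℝ) ^ (-(1 : ℝ) / 6)) with hq
  have hqt : q ≠ ⊤ := ENNReal.ofReal_ne_top
  -- one triple
  have hsab : ∀ b ∈ dvs m₁, ∀ s ∈ dvs d, ∀ a ∈ S X,
      ‖(if P (s * a) b then
          (muE (s * a) : ℂ) * InF2 w X (DuG v δ Ω g L d) d m₁ s a b else 0)‖ₑ ≤
      if (nm a : ℝ) * nm b ≤ (X / nm d) ^ ((1 : ℝ) / 2) then
        ENNReal.ofReal KL * ∑ j, ∑ i : Fin 2, ∫⁻ t : ℝ,
        ENNReal.ofReal (((1 + |t|) ^ A0)⁻¹ * X ^ (-(sg i))) *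
        (ENNReal.ofReal ((EG X d (g * (d / s)) a b) ^ ((1 : ℝ) / 3)) *
          CoreT w X d (g * (d / s)) (v j) (δ j) (((1 / 6 + sg i : ℝ) : ℂ) + (t : ℂ) * I)
            m₁ a b) else 0 := by
    intro b hb s hs a ha
    have ha' := (mem_S hX0).1 ha
    obtain ⟨hbp, hbd⟩ := (mem_dvs hm'.2.1.ne_zero).1 hb
    obtain ⟨hsp, e, hde⟩ := (mem_dvs hd'.2.1.ne_zero).1 hs
    have hep : IsPrim e := (prim_mul_iff hsp).1 (hde ▸ hd'.2.1)
    by_cases hP : P (s * a) b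
    swap
    · rw [if_neg hP, enorm_zero]
      exact zero_le
    rw [if_pos hP]
    obtain ⟨hP1, hP2⟩ := hPP _ _ hP
    have ps : (1 : ℝ) ≤ nm s := by exact_mod_cast nm_pos.2 hsp.ne_zero
    have hcut : (nm a : ℝ) * nm b ≤ (X / nm d) ^ ((1 : ℝ) / 2) := by
      refine le_trans ?_ hP1
      rw [nm_mul]
      push_cast
      have : (nm a : ℝ) ≤ nm s * nm a := le_mul_of_one_le_left (by positivity) ps
      gcongr
    rw [if_pos hcut, enorm_mul]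
    have h2 : ‖(muE (s * a) : ℂ)‖ₑ ≤ 1 := by
      rw [← ofReal_norm]
      exact (ENNReal.ofReal_le_ofReal (norm_muE_le _)).trans (by simp)
    refine (mul_le_of_le_one_left zero_le h2).trans ?_
    have hds : d / s = e := by
      rw [hde, mul_div_cancel_left₀ _ hsp.ne_zero]
    rw [hds]
    have h3 := inF2_le (m₁ := m₁) hvd hC1 hΩ hM1 hM3 hX hL w hg hsp hep ha'.2.1 hbp hP2
    rw [← hde] at h3
    exact h3
  -- the sum over `b`, `s`, `a`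
  have hsum : ‖∑ b ∈ dvs m₁, (muE b : ℂ) * ∑ s ∈ dvs d, ∑ a ∈ S X,
        if P (s * a) b then
          (muE (s * a) : ℂ) * InF2 w X (DuG v δ Ω g L d) d m₁ s a b else 0‖ₑ ≤
      ∑ b ∈ dvs m₁, ∑ s ∈ dvs d, ∑ a ∈ (S X).filter
        (fun a => (nm a : ℝ) * nm b ≤ (X / nm d) ^ ((1 : ℝ) / 2)),
        ENNReal.ofReal KL * ∑ j, ∑ i : Fin 2, ∫⁻ t : ℝ,
        ENNReal.ofReal (((1 + |t|) ^ A0)⁻¹ * X ^ (-(sg i))) *
        (ENNReal.ofReal ((EG X d (g * (d / s)) a b) ^ ((1 : ℝ) / 3)) *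
          CoreT w X d (g * (d / s)) (v j) (δ j) (((1 / 6 + sg i : ℝ) : ℂ) + (t : ℂ) * I)
            m₁ a b) := by
    refine (enorm_sum_le _ _).trans (Finset.sum_le_sum fun b hb => ?_)
    rw [enorm_mul]
    have h2 : ‖(muE b : ℂ)‖ₑ ≤ 1 := by
      rw [← ofReal_norm]
      exact (ENNReal.ofReal_le_ofReal (norm_muE_le _)).trans (by simp)
    refine (mul_le_of_le_one_left zero_le h2).trans ?_
    refine (enorm_sum_le _ _).trans (Finset.sum_le_sum fun s hs => ?_)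
    refine (enorm_sum_le _ _).trans ?_
    rw [Finset.sum_filter]
    exact Finset.sum_le_sum fun a ha => hsab b hb s hs a ha
  have hpre : ‖ws w X (d * m₁) * ((n6 (d * m₁) : ℝ) : ℂ)‖ₑ ≤ ENNReal.ofReal W * q := by
    rw [enorm_mul, hq]
    refine mul_le_mul' ?_ ?_
    · rw [← ofReal_norm]
      exact ENNReal.ofReal_le_ofReal (norm_ws_le hW hwW _)
    · rw [← ofReal_norm, Complex.norm_real, Real.norm_of_nonneg (n6_nonneg _)]
      exact le_rfl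
  rw [enorm_mul]
  refine (mul_le_mul' hpre hsum).trans ?_
  -- rearrangement
  set Y : Eis → Fin J → Fin 2 → Eis → Eis → ℝ → ENNReal := fun s j i b a t =>
    ENNReal.ofReal (((1 + |t|) ^ A0)⁻¹ * X ^ (-(sg i))) *
        (ENNReal.ofReal ((EG X d (g * (d / s)) a b) ^ ((1 : ℝ) / 3)) *
          CoreT w X d (g * (d / s)) (v j) (δ j) (((1 / 6 + sg i : ℝ) : ℂ) + (t : ℂ) * I)
            m₁ a b) with hY
  have e1 : ENNReal.ofReal W * q * (∑ b ∈ dvs m₁, ∑ s ∈ dvs d, ∑ a ∈ (S X).filter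
        (fun a => (nm a : ℝ) * nm b ≤ (X / nm d) ^ ((1 : ℝ) / 2)),
        ENNReal.ofReal KL * ∑ j, ∑ i : Fin 2, ∫⁻ t : ℝ, Y s j i b a t) =
      ENNReal.ofReal (KL * W) * ∑ s ∈ dvs d, ∑ j, ∑ i : Fin 2, ∑ b ∈ dvs m₁,
        ∑ a ∈ (S X).filter (fun a => (nm a : ℝ) * nm b ≤ (X / nm d) ^ ((1 : ℝ) / 2)),
        ∫⁻ t : ℝ, q * Y s j i b a t := by
    have e2 : ∀ s j i b a, ∫⁻ t : ℝ, q * Y s j i b a t = q * ∫⁻ t : ℝ, Y s j i b a t :=
      fun s j i b a => lintegral_const_mul' _ _ hqt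
    simp only [e2]
    have e3 : ∀ b ∈ dvs m₁, (∑ s ∈ dvs d, ∑ a ∈ (S X).filter
        (fun a => (nm a : ℝ) * nm b ≤ (X / nm d) ^ ((1 : ℝ) / 2)),
        ENNReal.ofReal KL * ∑ j, ∑ i : Fin 2, ∫⁻ t : ℝ, Y s j i b a t) =
        ENNReal.ofReal KL * ∑ s ∈ dvs d, ∑ j, ∑ i : Fin 2, ∑ a ∈ (S X).filter
        (fun a => (nm a : ℝ) * nm b ≤ (X / nm d) ^ ((1 : ℝ) / 2)), ∫⁻ t : ℝ, Y s j i b a t := by
      intro b _
      rw [Finset.mul_sum]
      refine Finset.sum_congr rfl fun s _ => ?_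
      rw [← Finset.mul_sum]
      congr 1
      rw [Finset.sum_comm]
      refine Finset.sum_congr rfl fun j _ => ?_
      rw [Finset.sum_comm]
    rw [Finset.sum_congr rfl e3, ← Finset.mul_sum, ENNReal.ofReal_mul hKL0]
    have e4 : (∑ b ∈ dvs m₁, ∑ s ∈ dvs d, ∑ j, ∑ i : Fin 2, ∑ a ∈ (S X).filter
        (fun a => (nm a : ℝ) * nm b ≤ (X / nm d) ^ ((1 : ℝ) / 2)), ∫⁻ t : ℝ, Y s j i b a t) =
        ∑ s ∈ dvs d, ∑ j, ∑ i : Fin 2, ∑ b ∈ dvs m₁, ∑ a ∈ (S X).filter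
        (fun a => (nm a : ℝ) * nm b ≤ (X / nm d) ^ ((1 : ℝ) / 2)), ∫⁻ t : ℝ, Y s j i b a t := by
      rw [Finset.sum_comm]
      refine Finset.sum_congr rfl fun s _ => ?_
      rw [Finset.sum_comm]
      refine Finset.sum_congr rfl fun j _ => ?_
      rw [Finset.sum_comm]
    rw [e4]
    simp only [Finset.mul_sum]
    refine Finset.sum_congr rfl fun s _ => Finset.sum_congr rfl fun j _ =>
      Finset.sum_congr rfl fun i _ => Finset.sum_congr rfl fun b _ =>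
      Finset.sum_congr rfl fun a _ => ?_
    ring
  rw [e1]
  refine mul_le_mul_right ?_ _
  refine Finset.sum_le_sum fun s hs => Finset.sum_le_sum fun j _ => Finset.sum_le_sum fun i _ => ?_
  obtain ⟨hsp, e, hde⟩ := (mem_dvs hd'.2.1.ne_zero).1 hs
  have hds : d / s = e := by
    rw [hde, mul_div_cancel_left₀ _ hsp.ne_zero]
  have hcop : IsCoprime (g * (d / s)) m₁ := by
    refine IsCoprime.mul_left hcg.of_mul_right_right ?_
    refine hcdm.of_isCoprime_of_dvd_left ?_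
    rw [hds, hde]
    exact dvd_mul_left _ _
  simp only [if_pos (And.intro hmN hcop)]
  refine le_trans (Finset.sum_le_sum fun b _ => sum_lint_le _ _) ?_
  refine (sum_lint_le _ _).trans (lintegral_mono fun t => ?_)
  rw [Finset.mul_sum]
  refine le_of_eq (Finset.sum_congr rfl fun b _ => ?_)
  rw [Finset.mul_sum]
  refine Finset.sum_congr rfl fun a _ => ?_
  rw [ENNReal.ofReal_mul (p := (nm (d * m₁) : ℝ) ^ (-(1 : ℝ) / 6)) (by positivity)]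
  simp only [hY]
  ring

set_option maxHeartbeats 1000000 in
/-- **algebra and separation of the dual part at `r = g`** -/
theorem dualLeG : DualLeG := by
  classical
  intro J v δ hvd A0 C1 Ω _ hC1 hΩ hM1 hM3 X L W hX hL hW g hg _ w _ hwg hwW d hd
  have hX0 : 0 ≤ X := by linarith
  have hd' := (mem_S hX0).1 hd
  rw [ofReal_norm]
  obtain ⟨P, hPdef⟩ : ∃ P : Eis → Eis → Prop, P = fun a b => ¬ X6Q848.PK X L d a b := ⟨_, rfl⟩
  have hPP : ∀ a b, P a b → (nm a : ℝ) * nm b ≤ (X / nm d) ^ ((1 : ℝ) / 2) ∧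
      (nm a : ℝ) ^ 2 * nm b ≤ L := by
    intro a b h
    rw [hPdef] at h
    unfold X6Q848.PK at h
    push Not at h
    exact h
  rw [← hPdef]
  have e1 : X6Q848.ABG w X d P (DuG v δ Ω g L d) =
      ∑ m₁ ∈ S X, ws w X (d * m₁) * ((n6 (d * m₁) : ℝ) : ℂ) *
      ∑ b ∈ dvs m₁, (muE b : ℂ) * ∑ s ∈ dvs d, ∑ a ∈ S X,
        if P (s * a) b then
          (muE (s * a) : ℂ) * InF2 w X (DuG v δ Ω g L d) d m₁ s a b else 0 :=
    Finset.sum_congr rfl fun m₁ _ => rowF2_eq w hX0 (DuG v δ Ω g L d) hd'.2.1 m₁ P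
  rw [e1]
  refine (enorm_sum_le _ _).trans ?_
  refine (Finset.sum_le_sum fun m₁ hm₁ =>
    row_le hvd hC1 hΩ hM1 hM3 hX hL hW hg hwg hwW hd hm₁ P hPP).trans ?_
  rw [← Finset.mul_sum]
  refine mul_le_mul_right ?_ _
  rw [Finset.sum_comm]
  refine Finset.sum_le_sum fun e _ => ?_
  rw [Finset.sum_comm]
  refine Finset.sum_le_sum fun j _ => ?_
  rw [Finset.sum_comm]
  refine Finset.sum_le_sum fun i _ => ?_
  refine (sum_lint_le _ _).trans (lintegral_mono fun t => ?_)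
  rw [← Finset.mul_sum]
  refine mul_le_mul_right (le_of_eq ?_) _
  rw [← Finset.sum_filter]
  rfl

end Crest.Agent.R017.X6L502
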