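import Crest.Agent.R017.X6G1_545

/-!
# Row 17, exceptional class, X6 (E) (helper545): the final form of the cross lemma
-/

set_option autoImplicit false

noncomputable section

open scoped ComplexConjugate

namespace Crest.Agent.R017.X6545

open Crest.Agent.R012 Crest.Agent.R012.Eis Crest.Agent.R012.Gauss880
open Crest.Agent.R012.LS2
open Crest.Agent.R017.PA842 (Supp)
open Crest.Agent.R017.PX764 (th n6 Gh Cross cD)

/-- **X6** (final form): a loss `nm q ^ κ` is allowed in the second moments (`HSk`), `κ = κ(ε) > 0` -/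
def X6K : Prop := ∀ ε : ℝ, 0 < ε → ∃ κ : ℝ, 0 < κ ∧ ∃ C : ℝ, 0 ≤ C ∧ ∀ X Z W B : ℝ, 1 ≤ X →
  1 ≤ Z → 0 ≤ W → 0 ≤ B → ∀ w : Eis → ℂ, Supp w X → (∀ n, ‖w n‖ ≤ W) → ∀ d ∈ S X,
    HSk w X Z d B κ →
    Z * ‖Cross X Z w d‖ ≤
      C * (X * Z) ^ ε * ((W ^ 2 + W * Real.sqrt B) * (X / nm d * (Z + X / nm d)))

end Crest.Agent.R017.X6545
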