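import Crest.Agent.R017.X6P3_848
import Crest.Agent.R012.LatW_413

/-!
# Row 17, exceptional class, X6, polar cancellation, part 4 (helper848)

`polarP : PolarP`.
-/

set_option autoImplicit false

noncomputable section

open scoped ComplexConjugate

namespace Crest.Agent.R017.X6P848

open Crest.Agent.R012 hiding crs
open Crest.Agent.R012.Eis Crest.Agent.R012.Gauss880
open Crest.Agent.R012.LS2 Crest.Agent.R012.Div277 Crest.Agent.R012.Mob705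
open Crest.Agent.R017.PX764
open Crest.Agent.R017.PA842 (Supp)
open Crest.Agent.R017.P3all283 (c0 ft3 summable_ft3 isCoprime_three_mul norm_th_le P3all_three)
open Crest.Agent.R017.X6545 Crest.Agent.R017.X6A848

lemma Amm_le {Z : ℝ} (hZ : 0 < Z) (m₁ m₂ : Eis) : Amm Z m₁ m₂ ≤ (nm m₁ : ℝ) * nm m₂ / Z := by
  unfold Amm
  have h1 : (0 : ℝ) ≤ (nm m₁ : ℝ) * nm m₂ := by positivity
  have h2 : (3 : ℝ) ≤ 4 * Real.pi ^ 2 := by nlinarith [Real.pi_gt_three]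
  have h3 : (0 : ℝ) < 4 * Real.pi ^ 2 := by positivity
  rw [show 3 * ((nm m₁ : ℝ) * nm m₂) / (4 * Real.pi ^ 2 * Z) =
    (3 / (4 * Real.pi ^ 2)) * ((nm m₁ : ℝ) * nm m₂ / Z) by field_simp]
  calc (3 / (4 * Real.pi ^ 2)) * ((nm m₁ : ℝ) * nm m₂ / Z)
      ≤ 1 * ((nm m₁ : ℝ) * nm m₂ / Z) := by
        refine mul_le_mul_of_nonneg_right ?_ (by positivity)
        rw [div_le_one h3]; exact h2
    _ = _ := one_mul _

/-- the pair bound with the weights -/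
lemma pair_bd {δ Ct C₀ : ℝ} {k : ℕ} (hδ : 0 < δ) (hC₀ : 0 ≤ C₀) (hCt : 1 ≤ Ct)
    (hτ : ∀ n : Eis, n ≠ 0 → (tau n : ℝ) ≤ Ct * (nm n : ℝ) ^ (δ / (k + 1)))
    (hP : ∀ (A : ℝ) (b : Eis), 0 < A → IsPrim b → Summable (ft3 3 A b) ∧
      |∑' l, ft3 3 A b l - (3 : ℝ) ^ ((4 : ℝ) / 3) * c0 * PE b * A ^ ((2 : ℝ) / 3)| ≤
        C₀ * (tau b : ℝ) ^ k * A ^ ((1 : ℝ) / 3) * (1 + Real.log (1 + A)))
    {Z N E : ℝ} (hZ : 1 ≤ Z) (hE : 0 ≤ E) {m₁ m₂ : Eis}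
    (h1 : IsPrim m₁) (s1 : Squarefree m₁) (h2 : IsPrim m₂) (s2 : Squarefree m₂)
    (h1N : (nm m₁ : ℝ) ≤ N) (h2N : (nm m₂ : ℝ) ≤ N)
    (hc : IsCoprime m₁ m₂) (Du : Eis → Eis → ℂ)
    (hDu : ∀ b ∈ dvs m₁, ∀ a ∈ dvs m₂, (nm a : ℝ) * nm b ≤ N * Z ^ (-(1 : ℝ) / 2) →
      ‖Tab Z m₁ m₂ a b - (Mab Z m₁ m₂ a b : ℂ) - Du a b‖ ≤
        E * (nm ((m₂ / a) * b) : ℝ) ^ (-(1 : ℝ) / 3))
    [∀ a b : Eis, Decidable (N * Z ^ (-(1 : ℝ) / 2) < (nm a : ℝ) * nm b)]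
    [∀ a b : Eis, Decidable ((nm a : ℝ) * nm b ≤ N * Z ^ (-(1 : ℝ) / 2))] :
    Z * (((nm m₁ : ℝ) ^ (-(1 : ℝ) / 2) * (nm m₂ : ℝ) ^ (-(1 : ℝ) / 2)) *
      ‖crs 3 (Amm Z m₁ m₂) m₁ m₂ -
        ((n6 m₁ * (nm m₂ : ℝ) ^ ((1 : ℝ) / 6) : ℝ) : ℂ) *
          (∑ b ∈ dvs m₁, ∑ a ∈ (dvs m₂).filter
            (fun a => N * Z ^ (-(1 : ℝ) / 2) < (nm a : ℝ) * nm b),
            (muE a : ℂ) * (muE b : ℂ) * Tab Z m₁ m₂ a b) -
        ((n6 m₁ * (nm m₂ : ℝ) ^ ((1 : ℝ) / 6) : ℝ) : ℂ) *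
          (∑ b ∈ dvs m₁, ∑ a ∈ (dvs m₂).filter
            (fun a => (nm a : ℝ) * nm b ≤ N * Z ^ (-(1 : ℝ) / 2)),
            (muE a : ℂ) * (muE b : ℂ) * Du a b)‖) ≤
      (nm m₁ : ℝ) ^ (-(1 + δ)) * (nm m₂ : ℝ) ^ (-(1 + δ)) *
        ((Ct ^ 2 * (1 + pC * KK) + (pC * C₀) * Ct ^ k * (2 + 2 / δ)) * (1 + E) *
        N ^ (5 * δ) * (N * (Z + N))) := by
  have p1 : (1 : ℝ) ≤ nm m₁ := by exact_mod_cast nm_pos.2 h1.ne_zero
  have p2 : (1 : ℝ) ≤ nm m₂ := by exact_mod_cast nm_pos.2 h2.ne_zero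
  have hN : 1 ≤ N := p1.trans h1N
  have hN0 : 0 < N := by linarith
  have hZ0 : 0 < Z := by linarith
  have hκ : 0 < N * Z ^ (-(1 : ℝ) / 2) := by positivity
  have pA := Amm_pos hZ0 h1.ne_zero h2.ne_zero
  have hbr := bracket_le hP hZ0 hκ hE h1 s1 h2 s2 hc Du hDu
  have hpC := pC_pos
  have hKK := KK_pos
  have hk : (0 : ℝ) < (k : ℝ) + 1 := by positivity
  -- divisor bounds
  have t0 : ∀ m : Eis, m ≠ 0 → (nm m : ℝ) ≤ N ^ 2 → (tau m : ℝ) ≤ Ct * N ^ (2 * (δ / (k + 1))) := by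
    intro m hm hmN
    refine (hτ m hm).trans (mul_le_mul_of_nonneg_left ?_ (by linarith))
    calc (nm m : ℝ) ^ (δ / (k + 1)) ≤ (N ^ 2) ^ (δ / (k + 1)) :=
          Real.rpow_le_rpow (Nat.cast_nonneg _) hmN (by positivity)
      _ = _ := by rw [← Real.rpow_natCast, ← Real.rpow_mul hN0.le]; norm_num
  have hN12 : (nm (m₁ * m₂) : ℝ) ≤ N ^ 2 := by
    rw [nm_mul]; push_cast
    rw [pow_two]
    exact mul_le_mul h1N h2N (by linarith) hN0.le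
  have t12 : (tau (m₁ * m₂) : ℝ) ^ k ≤ Ct ^ k * N ^ (2 * δ) := by
    calc (tau (m₁ * m₂) : ℝ) ^ k ≤ (Ct * N ^ (2 * (δ / (k + 1)))) ^ k :=
          pow_le_pow_left₀ (Nat.cast_nonneg _) (t0 _ (mul_ne_zero h1.ne_zero h2.ne_zero) hN12) k
      _ = Ct ^ k * N ^ (2 * (δ / (k + 1)) * k) := by
          rw [mul_pow, ← Real.rpow_natCast (N ^ _), ← Real.rpow_mul hN0.le]
      _ ≤ Ct ^ k * N ^ (2 * δ) := by
          refine mul_le_mul_of_nonneg_left ?_ (by positivity)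
          apply Real.rpow_le_rpow_of_exponent_le hN
          have : δ / (k + 1) * k ≤ δ := by
            rw [div_mul_eq_mul_div, div_le_iff₀ hk]
            nlinarith
          linarith
  have hδk : δ / (k + 1) ≤ δ := by
    apply div_le_self hδ.le
    have : (0 : ℝ) ≤ k := Nat.cast_nonneg _
    linarith
  have t1' : ∀ m : Eis, m ≠ 0 → (nm m : ℝ) ≤ N → (tau m : ℝ) ≤ Ct * N ^ δ := by
    intro m hm hmN
    refine (hτ m hm).trans (mul_le_mul_of_nonneg_left ?_ (by linarith))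
    calc (nm m : ℝ) ^ (δ / (k + 1)) ≤ N ^ (δ / (k + 1)) :=
          Real.rpow_le_rpow (Nat.cast_nonneg _) hmN (by positivity)
      _ ≤ N ^ δ := Real.rpow_le_rpow_of_exponent_le hN hδk
  have t11 : (tau m₁ : ℝ) * tau m₂ ≤ Ct ^ 2 * N ^ (2 * δ) := by
    calc (tau m₁ : ℝ) * tau m₂ ≤ (Ct * N ^ δ) * (Ct * N ^ δ) :=
          mul_le_mul (t1' _ h1.ne_zero h1N) (t1' _ h2.ne_zero h2N) (Nat.cast_nonneg _)
            (by positivity)
      _ = Ct ^ 2 * N ^ (2 * δ) := by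
          rw [show 2 * δ = δ + δ by ring, Real.rpow_add hN0]; ring
  have h := pair_real (a₁ := nm m₁) (a₂ := nm m₂) (N := N) (Z := Z) (δ := δ) (E := E)
    (P := pC * KK) (Q := pC * C₀) (t₁ := (tau m₁ : ℝ) * tau m₂) (t₂ := (tau (m₁ * m₂) : ℝ) ^ k) hδ
    p1 p2 h1N h2N hZ hE (by positivity) (by positivity) (A := Amm Z m₁ m₂) pA.le
    (Amm_le hZ0 m₁ m₂) (T₁ := Ct ^ 2) (T₂ := Ct ^ k) (by positivity) (by positivity)
    (by positivity) (by positivity) t11 t12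
  refine le_trans ?_ h
  refine mul_le_mul_of_nonneg_left (mul_le_mul_of_nonneg_left ?_ (by positivity)) hZ0.le
  have e0 : (nm m₁ : ℝ) ^ (-(1 : ℝ) / 6) * (nm m₂ : ℝ) ^ (-(1 : ℝ) / 6) *
      ((tau m₁ : ℝ) * tau m₂ * (E * (N * Z ^ (-(1 : ℝ) / 2)) ^ ((1 : ℝ) / 3) +
          pC * KK * Amm Z m₁ m₂ ^ ((2 : ℝ) / 3) / (N * Z ^ (-(1 : ℝ) / 2))) +
        pC * C₀ * (tau (m₁ * m₂) : ℝ) ^ k * Amm Z m₁ m₂ ^ ((1 : ℝ) / 3) *
          (1 + Real.log (1 + Amm Z m₁ m₂))) =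
      n6 m₁ * n6 m₂ * (tau m₁ * tau m₂ * (E * (N * Z ^ (-(1 : ℝ) / 2)) ^ ((1 : ℝ) / 3) +
          pC * KK * (Amm Z m₁ m₂) ^ ((2 : ℝ) / 3) / (N * Z ^ (-(1 : ℝ) / 2))) +
        pC * (C₀ * (tau (m₁ * m₂) : ℝ) ^ k * (Amm Z m₁ m₂) ^ ((1 : ℝ) / 3) *
          (1 + Real.log (1 + Amm Z m₁ m₂)))) := by
    unfold n6
    ring
  rw [e0]
  exact hbr

/-- **the polar cancellation** -/
theorem polarP : PolarP := by
  classical
  intro ε hε
  obtain ⟨C₀, k, hC₀, hP⟩ := P3all_three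
  set δ := ε / 5 with hδdef
  have hδ : 0 < δ := by positivity
  have hk : (0 : ℝ) < (k : ℝ) + 1 := by positivity
  obtain ⟨Ct, hCt, hτ⟩ := tau_le_rpow (ε := δ / (k + 1)) (by positivity)
  have hsum := LatSum413.summable_nm_rpow (s := 1 + δ) (by linarith)
  set Sd : ℝ := ∑' z : Eis, (nm z : ℝ) ^ (-(1 + δ)) with hSd
  have hSd0 : 0 ≤ Sd := tsum_nonneg fun z => by positivity
  have hpC := pC_pos
  have hKK := KK_pos
  set C' : ℝ := Ct ^ 2 * (1 + pC * KK) + (pC * C₀) * Ct ^ k * (2 + 2 / δ) with hC'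
  have hC'0 : 0 ≤ C' := by positivity
  refine ⟨C' * Sd ^ 2, by positivity, ?_⟩
  intro X Z W E hX hZ hW hE w hw hwW d hd Du hDu
  have hX0 : (0 : ℝ) ≤ X := by linarith
  have hZ0 : (0 : ℝ) < Z := by linarith
  rw [mem_S hX0] at hd
  have hdn : (1 : ℝ) ≤ nm d := by exact_mod_cast nm_pos.2 hd.2.1.ne_zero
  have hdn0 : (0 : ℝ) < nm d := by linarith
  set N : ℝ := X / nm d with hN
  have hN1 : 1 ≤ N := by rw [hN, le_div_iff₀ hdn0]; linarith [hd.1]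
  have hN0 : 0 < N := by linarith
  have hNX : N ≤ X := div_le_self hX0 hdn
  -- the pairs
  have hV : 0 ≤ C' * (1 + E) * N ^ (5 * δ) * (N * (Z + N)) := by positivity
  have hws : ∀ m : Eis, ‖ws w X (d * m)‖ ≤ W := by
    intro m
    unfold ws
    split_ifs
    · exact hwW _
    · rw [norm_zero]; exact hW
  have hpair : ∀ m₁ ∈ S X, ∀ m₂ ∈ S X,
      Z * ‖(if IsCoprime m₁ m₂ then
        ws w X (d * m₁) * conj (ws w X (d * m₂)) *
          (((nm m₁ : ℝ) ^ (-(1 : ℝ) / 2) * (nm m₂ : ℝ) ^ (-(1 : ℝ) / 2) : ℝ) : ℂ) *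
          crs 3 (3 * (nm m₁ * nm m₂) / (4 * Real.pi ^ 2 * Z)) m₁ m₂ else 0) -
        (if IsCoprime m₁ m₂ then
          ws w X (d * m₁) * conj (ws w X (d * m₂)) *
            (((nm m₁ : ℝ) ^ (-(1 : ℝ) / 2) * (nm m₂ : ℝ) ^ (-(1 : ℝ) / 2) : ℝ) : ℂ) *
            ((n6 m₁ * (nm m₂ : ℝ) ^ ((1 : ℝ) / 6) : ℝ) : ℂ) *
            ∑ b ∈ dvs m₁, ∑ a ∈ (dvs m₂).filter (fun a => kap X Z d < (nm a : ℝ) * nm b),
              (muE a : ℂ) * (muE b : ℂ) * Tab Z m₁ m₂ a b else 0) -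
        (if IsCoprime m₁ m₂ then
          ws w X (d * m₁) * conj (ws w X (d * m₂)) *
            (((nm m₁ : ℝ) ^ (-(1 : ℝ) / 2) * (nm m₂ : ℝ) ^ (-(1 : ℝ) / 2) : ℝ) : ℂ) *
            ((n6 m₁ * (nm m₂ : ℝ) ^ ((1 : ℝ) / 6) : ℝ) : ℂ) *
            ∑ b ∈ dvs m₁, ∑ a ∈ (dvs m₂).filter (fun a => (nm a : ℝ) * nm b ≤ kap X Z d),
              (muE a : ℂ) * (muE b : ℂ) * Du m₁ m₂ a b else 0)‖ ≤
      W ^ 2 * ((nm m₁ : ℝ) ^ (-(1 + δ)) * (nm m₂ : ℝ) ^ (-(1 + δ)) *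
        (C' * (1 + E) * N ^ (5 * δ) * (N * (Z + N)))) := by
    intro m₁ hm₁ m₂ hm₂
    have hRHS : 0 ≤ W ^ 2 * ((nm m₁ : ℝ) ^ (-(1 + δ)) * (nm m₂ : ℝ) ^ (-(1 + δ)) *
        (C' * (1 + E) * N ^ (5 * δ) * (N * (Z + N)))) := by positivity
    by_cases hc : IsCoprime m₁ m₂
    · rw [if_pos hc, if_pos hc, if_pos hc]
      by_cases hs1 : d * m₁ ∈ S X
      · by_cases hs2 : d * m₂ ∈ S X
        · have hm₁' := hm₁
          have hm₂' := hm₂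
          rw [mem_S hX0] at hm₁' hm₂' hs1 hs2
          have h1N : (nm m₁ : ℝ) ≤ N := by
            rw [hN, le_div_iff₀ hdn0]
            have := hs1.1
            rw [nm_mul] at this
            push_cast at this
            linarith
          have h2N : (nm m₂ : ℝ) ≤ N := by
            rw [hN, le_div_iff₀ hdn0]
            have := hs2.1
            rw [nm_mul] at this
            push_cast at this
            linarith
          have h := pair_bd hδ hC₀ hCt hτ hP hZ hE hm₁'.2.1 hm₁'.2.2 hm₂'.2.1 hm₂'.2.2 h1N h2N hc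
            (Du m₁ m₂) (fun b hb a ha hab => hDu m₁ hm₁ m₂ hm₂ hc h1N h2N b hb a ha hab)
          have efac : ∀ u v x c A B D : ℂ, u * v * x * A - u * v * x * c * B - u * v * x * c * D =
              u * v * x * (A - c * B - c * D) := fun u v x c A B D => by ring
          rw [efac, norm_mul, norm_mul, norm_mul]
          have n1 : ‖(((nm m₁ : ℝ) ^ (-(1 : ℝ) / 2) * (nm m₂ : ℝ) ^ (-(1 : ℝ) / 2) : ℝ) : ℂ)‖ =
              (nm m₁ : ℝ) ^ (-(1 : ℝ) / 2) * (nm m₂ : ℝ) ^ (-(1 : ℝ) / 2) := by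
            rw [Complex.norm_real, Real.norm_of_nonneg (by positivity)]
          rw [n1]
          have n2 : ‖ws w X (d * m₁)‖ * ‖conj (ws w X (d * m₂))‖ ≤ W ^ 2 := by
            rw [RCLike.norm_conj, pow_two]
            exact mul_le_mul (hws m₁) (hws m₂) (norm_nonneg _) hW
          have e3 : ∀ z u x y : ℝ, z * (u * x * y) = u * (z * (x * y)) := fun z u x y => by ring
          rw [e3]
          refine mul_le_mul n2 ?_ (by positivity) (by positivity)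
          exact h
        · have h0 : ws w X (d * m₂) = 0 := by unfold ws; rw [if_neg hs2]
          rw [h0]
          simpa using hRHS
      · have h0 : ws w X (d * m₁) = 0 := by unfold ws; rw [if_neg hs1]
        rw [h0]
        simpa using hRHS
    · rw [if_neg hc, if_neg hc, if_neg hc]
      simpa using hRHS
  -- summation
  have key : Z * ‖Cross X Z w d - AB w X d (fun a b => kap X Z d < (nm a : ℝ) * nm b) (Tab Z) -
        AB w X d (fun a b => (nm a : ℝ) * nm b ≤ kap X Z d) Du‖ ≤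
      ∑ m₁ ∈ S X, ∑ m₂ ∈ S X, W ^ 2 * ((nm m₁ : ℝ) ^ (-(1 + δ)) * (nm m₂ : ℝ) ^ (-(1 + δ)) *
        (C' * (1 + E) * N ^ (5 * δ) * (N * (Z + N)))) := by
    unfold Cross AB
    rw [← Finset.sum_sub_distrib, ← Finset.sum_sub_distrib]
    refine (mul_le_mul_of_nonneg_left (norm_sum_le _ _) hZ0.le).trans ?_
    rw [Finset.mul_sum]
    refine Finset.sum_le_sum fun m₁ hm₁ => ?_
    rw [← Finset.sum_sub_distrib, ← Finset.sum_sub_distrib]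
    refine (mul_le_mul_of_nonneg_left (norm_sum_le _ _) hZ0.le).trans ?_
    rw [Finset.mul_sum]
    refine Finset.sum_le_sum fun m₂ hm₂ => ?_
    have := hpair m₁ hm₁ m₂ hm₂
    convert this using 6
  refine key.trans ?_
  have hS : ∑ m ∈ S X, (nm m : ℝ) ^ (-(1 + δ)) ≤ Sd :=
    hsum.sum_le_tsum _ (fun z _ => by positivity)
  have hS0 : 0 ≤ ∑ m ∈ S X, (nm m : ℝ) ^ (-(1 + δ)) := Finset.sum_nonneg fun z _ => by positivity
  have e1 : ∑ m₁ ∈ S X, ∑ m₂ ∈ S X, W ^ 2 * ((nm m₁ : ℝ) ^ (-(1 + δ)) *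
        (nm m₂ : ℝ) ^ (-(1 + δ)) * (C' * (1 + E) * N ^ (5 * δ) * (N * (Z + N)))) =
      ((∑ m ∈ S X, (nm m : ℝ) ^ (-(1 + δ))) * (∑ m ∈ S X, (nm m : ℝ) ^ (-(1 + δ)))) *
        (W ^ 2 * (C' * (1 + E) * N ^ (5 * δ) * (N * (Z + N)))) := by
    rw [Finset.sum_mul_sum, Finset.sum_mul]
    refine Finset.sum_congr rfl fun m₁ _ => ?_
    rw [Finset.sum_mul]
    refine Finset.sum_congr rfl fun m₂ _ => ?_
    ring
  rw [e1]
  have hNε : N ^ (5 * δ) ≤ (X * Z) ^ ε := by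
    have e2 : 5 * δ = ε := by rw [hδdef]; ring
    rw [e2]
    apply Real.rpow_le_rpow hN0.le _ hε.le
    nlinarith
  calc ((∑ m ∈ S X, (nm m : ℝ) ^ (-(1 + δ))) * (∑ m ∈ S X, (nm m : ℝ) ^ (-(1 + δ)))) *
        (W ^ 2 * (C' * (1 + E) * N ^ (5 * δ) * (N * (Z + N))))
      ≤ (Sd * Sd) * (W ^ 2 * (C' * (1 + E) * (X * Z) ^ ε * (N * (Z + N)))) := by
        refine mul_le_mul (mul_le_mul hS hS hS0 hSd0) ?_ (by positivity) (by positivity)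
        gcongr
    _ = C' * Sd ^ 2 * (1 + E) * (X * Z) ^ ε * (W ^ 2 * N * (Z + N)) := by ring

end Crest.Agent.R017.X6P848
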