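import Crest.Agent.R017.X6G7_545
import Crest.Agent.R017.X6K0_545
import Crest.Agent.R017.X6F6_848
import Crest.Agent.R017.X6P4_848
import Crest.Agent.R017.X6E4_502

/-!
# Row 17, exceptional class, X6 (E) (helper545): the final assembly
-/

set_option autoImplicit false

noncomputable section

open scoped ComplexConjugate

namespace Crest.Agent.R017.X6545

open Crest.Agent.R012 Crest.Agent.R012.Eis Crest.Agent.R012.Gauss880
open Crest.Agent.R012.LS2 Crest.Agent.R012.Div277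
open Crest.Agent.R017.PA842 (Supp)
open Crest.Agent.R017.PX764 (th n6 Gh Cross cD)
open Crest.Agent.R017.P3all283 (c0)
open Crest.Agent.R017.X6F848 (OmB')

lemma T_scale (F : Eis → ℂ) (A c : ℝ) (u : Eis) :
    X6A848.T F (fun x => ((Real.exp (-x / A) : ℝ) : ℂ)) 1 u c =
      X6A848.T F (fun x => ((Real.exp (-x / (A / c)) : ℝ) : ℂ)) 1 u 1 := by
  unfold X6A848.T
  refine tsum_congr fun l => ?_
  have e : -(c * (nm l : ℝ)) / A = -(1 * (nm l : ℝ)) / (A / c) := by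
    rw [one_mul, div_div_eq_mul_div]
    congr 1; ring
  beta_reduce
  rw [e]

lemma log_pow_le {s : ℝ} (hs : 0 < s) : ∃ C : ℝ, 0 ≤ C ∧ ∀ X : ℝ, 1 ≤ X →
    (1 + Real.log X) ^ 4 ≤ C * X ^ s := by
  refine ⟨(1 + 4 / s) ^ 4, by positivity, fun X hX => ?_⟩
  have h0 : 0 ≤ Real.log X := Real.log_nonneg hX
  have h1 : Real.log X ≤ X ^ (s / 4) / (s / 4) := Real.log_le_rpow_div (by linarith) (by positivity)
  have h2 : 1 ≤ X ^ (s / 4) := Real.one_le_rpow hX (by positivity)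
  have h3 : 1 + Real.log X ≤ (1 + 4 / s) * X ^ (s / 4) := by
    have e : X ^ (s / 4) / (s / 4) = 4 / s * X ^ (s / 4) := by field_simp
    rw [e] at h1
    linarith
  calc (1 + Real.log X) ^ 4 ≤ ((1 + 4 / s) * X ^ (s / 4)) ^ 4 := by gcongr
    _ = (1 + 4 / s) ^ 4 * X ^ s := by
        rw [mul_pow, ← Real.rpow_natCast (X ^ (s / 4)), ← Real.rpow_mul (by linarith)]
        congr 2
        push_cast; ring

lemma c1_le_one : c1 ≤ 1 := by
  unfold c1
  rw [div_le_one (by positivity)]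
  nlinarith [Real.pi_gt_three]

lemma Amm_eq (Z : ℝ) (m₁ m₂ : Eis) : Amm Z m₁ m₂ = c1 * nm m₁ * nm m₂ / Z := by
  unfold Amm c1
  have := Real.pi_pos
  by_cases hZ : Z = 0
  · rw [hZ]; simp
  · field_simp

lemma Amx_le {N Z X : ℝ} (hX : 1 ≤ X) (hZ : 1 ≤ Z) (hN : 0 ≤ N) (hNX : N ≤ X) {m₁ a b : Eis}
    (hm : (nm m₁ : ℝ) ≤ X) (ha : a ≠ 0) (hb : b ≠ 0) : Amx N Z m₁ a b ≤ X ^ 2 := by
  unfold Amx
  refine max_le (one_le_pow₀ hX) ?_
  have h1 := nm1 ha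
  have h2 := nm1 hb
  have hden : 1 ≤ Z * (nm a : ℝ) ^ 2 * nm b := by
    have := one_le_pow₀ h1 (n := 2)
    nlinarith [mul_le_mul hZ this zero_le_one (by linarith : (0:ℝ) ≤ Z)]
  have hc := c1_pos
  calc c1 * nm m₁ * N / (Z * (nm a : ℝ) ^ 2 * nm b) ≤ c1 * nm m₁ * N :=
        div_le_self (by positivity) hden
    _ ≤ 1 * X * X := by
        gcongr
        exact c1_le_one
    _ = X ^ 2 := by ring

lemma CoreSum_nonneg {X Z : ℝ} (_hX : 0 ≤ X) (hZ : 0 ≤ Z) (w : Eis → ℂ) (d δj : Eis) :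
    0 ≤ CoreSum w X Z d δj := by
  classical
  unfold CoreSum
  refine mul_nonneg (by positivity) (Finset.sum_nonneg fun m₁ _ => Finset.sum_nonneg fun b _ =>
    Finset.sum_nonneg fun a _ => mul_nonneg (by positivity) (tsum_nonneg fun l => ?_))
  split_ifs
  · exact le_rfl
  · exact mul_nonneg (Gw_nonneg (Dz_nonneg hZ _ _ _) (Nat.cast_nonneg _)) (norm_nonneg _)

set_option maxHeartbeats 1600000 in
/-- **X6** from the algebra -/
theorem x6K_of (hDL : DualLe) : X6K := by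
  classical
  intro ε hε
  obtain ⟨J, v, δ, hvδ, hM⟩ := X6F848.F1X3'
  obtain ⟨C1, hC1, hΩ0⟩ := hM 2
  choose Ω' hΩ1 hΩ2 using hΩ0
  set Ω : ℝ → Fin J → ℝ → ℂ := fun Am => if h : 1 ≤ Am then Ω' Am h else fun _ _ => 0 with hΩ
  have hΩb : ∀ Am : ℝ, 1 ≤ Am → ∀ j, OmB' Am C1 2 (Ω Am j) := by
    intro Am hAm j
    rw [hΩ]
    simp only [dif_pos hAm]
    exact hΩ1 Am hAm j
  obtain ⟨C2, hC2, hdual⟩ := hDL J v δ hvδ C1 Ω hC1 hΩb
  obtain ⟨κ, hκ, C3, hC3, hcore⟩ := coreP (ε / 2) (by positivity)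
  obtain ⟨C4, hC4, hpol⟩ := X6P848.polarP (ε / 2) (by positivity)
  obtain ⟨C5, hC5, hdir⟩ := X6E502.dirP (ε / 2) (by positivity)
  obtain ⟨C6, hC6, hlog⟩ := log_pow_le (s := ε / 2) (by positivity)
  refine ⟨κ, hκ, C4 * (1 + C1 * 16 * C6) + C5 + C2 * C6 * J * C3, by positivity, ?_⟩
  intro X Z W B hX hZ hW hB w hw hwW d hd hHS
  have hX0 : 0 ≤ X := by linarith
  obtain ⟨hdX, hdp, _⟩ := (mem_S hX0).1 hd
  have hd1 := nm1 hdp.ne_zero
  set N : ℝ := X / nm d with hN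
  have hN0 : 0 ≤ N := by positivity
  have hNX : N ≤ X := div_le_self hX0 hd1
  have hXZ : 1 ≤ X * Z := by nlinarith
  have hL0 : 0 ≤ Real.log X := Real.log_nonneg hX
  set E : ℝ := C1 * (1 + 2 * Real.log X) ^ 4 with hE
  have hE0 : 0 ≤ E := by positivity
  -- the hypothesis of the polar part
  have hDu : ∀ m₁ ∈ S X, ∀ m₂ ∈ S X, IsCoprime m₁ m₂ → (nm m₁ : ℝ) ≤ N → (nm m₂ : ℝ) ≤ N →
      ∀ b ∈ dvs m₁, ∀ a ∈ dvs m₂, (nm a : ℝ) * nm b ≤ kap X Z d →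
      ‖Tab Z m₁ m₂ a b - (Mab Z m₁ m₂ a b : ℂ) - Du v δ Ω N Z m₁ m₂ a b‖ ≤
        E * (nm ((m₂ / a) * b) : ℝ) ^ (-(1 : ℝ) / 3) := by
    intro m₁ hm₁ m₂ hm₂ hcop hm₁N hm₂N b hb a ha _
    obtain ⟨hm₁X, hm₁p, hm₁s⟩ := (mem_S hX0).1 hm₁
    obtain ⟨hm₂X, hm₂p, hm₂s⟩ := (mem_S hX0).1 hm₂
    obtain ⟨hbp, hbd⟩ := (mem_dvs hm₁p.ne_zero).1 hb
    obtain ⟨hap, t, hat⟩ := (mem_dvs hm₂p.ne_zero).1 ha
    have et : m₂ / a = t := by rw [hat, mul_div_cancel_left₀ _ hap.ne_zero]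
    have htp : IsPrim t := IsPrim.of_mul_left (hat ▸ hm₂p) hap
    have hup : IsPrim ((m₂ / a) * b) := by rw [et]; exact htp.mul hbp
    have hcop' : IsCoprime t b :=
      (hcop.of_isCoprime_of_dvd_left hbd).symm.of_isCoprime_of_dvd_left
        (Dvd.intro_left a hat.symm)
    have hus : Squarefree ((m₂ / a) * b) := by
      rw [et, squarefree_mul_iff]
      exact ⟨hcop'.isRelPrime, hm₂s.squarefree_of_dvd (Dvd.intro_left a hat.symm),
        hm₁s.squarefree_of_dvd hbd⟩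
    have ha1 := nm1 hap.ne_zero
    have hb1 := nm1 hbp.ne_zero
    have hm₁1 := nm1 hm₁p.ne_zero
    have hm₂1 := nm1 hm₂p.ne_zero
    have hc := c1_pos
    have hcc : 0 < (nm a : ℝ) ^ 2 * nm b := by positivity
    have hA0 : 0 < Amm Z m₁ m₂ / ((nm a : ℝ) ^ 2 * nm b) := by
      rw [Amm_eq]; positivity
    have hAm1 : 1 ≤ Amx N Z m₁ a b := le_max_left _ _
    have hAA : Amm Z m₁ m₂ / ((nm a : ℝ) ^ 2 * nm b) ≤ Amx N Z m₁ a b := by
      refine le_trans ?_ (le_max_right _ _)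
      rw [Amm_eq, div_div, ← mul_assoc Z]
      gcongr
    have hF := hΩ2 (Amx N Z m₁ a b) hAm1 (Amm Z m₁ m₂ / ((nm a : ℝ) ^ 2 * nm b)) ((m₂ / a) * b)
      hA0 hAA hup hus
    have e1 : Tab Z m₁ m₂ a b = X6A848.T (fun x => th (3 * x)) (fun x => ((Real.exp (-x /
        (Amm Z m₁ m₂ / ((nm a : ℝ) ^ 2 * nm b))) : ℝ) : ℂ)) 1 ((m₂ / a) * b) 1 := by
      unfold Tab
      exact T_scale _ _ _ _
    have e2 : Ω' (Amx N Z m₁ a b) hAm1 = Ω (Amx N Z m₁ a b) := by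
      rw [hΩ]
      simp only [dif_pos hAm1]
    rw [e2] at hF
    have hu0 : 0 ≤ (nm ((m₂ / a) * b) : ℝ) ^ (-(1 : ℝ) / 3) := by positivity
    have hlogA : 0 ≤ Real.log (Amx N Z m₁ a b) := Real.log_nonneg hAm1
    have hlogA2 : Real.log (Amx N Z m₁ a b) ≤ 2 * Real.log X := by
      have h1 := Real.log_le_log (by linarith)
        (Amx_le (b := b) hX hZ hN0 hNX hm₁X hap.ne_zero hbp.ne_zero)
      rw [Real.log_pow] at h1
      exact_mod_cast h1
    have hr : (Amm Z m₁ m₂ / ((nm a : ℝ) ^ 2 * nm b) / Amx N Z m₁ a b) ^ ((2 : ℝ) / 3) ≤ 1 := by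
      refine Real.rpow_le_one (by positivity) ?_ (by norm_num)
      rw [div_le_one (by linarith)]
      exact hAA
    have hr0 : 0 ≤ (Amm Z m₁ m₂ / ((nm a : ℝ) ^ 2 * nm b) / Amx N Z m₁ a b) ^ ((2 : ℝ) / 3) := by
      positivity
    rw [e1]
    refine le_trans (le_of_eq ?_) (hF.trans ?_)
    · rfl
    · calc C1 * (1 + Real.log (Amx N Z m₁ a b)) ^ 4 *
            (Amm Z m₁ m₂ / ((nm a : ℝ) ^ 2 * nm b) / Amx N Z m₁ a b) ^ ((2 : ℝ) / 3) *
            (nm ((m₂ / a) * b) : ℝ) ^ (-(1 : ℝ) / 3)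
          ≤ C1 * (1 + 2 * Real.log X) ^ 4 * 1 * (nm ((m₂ / a) * b) : ℝ) ^ (-(1 : ℝ) / 3) := by
            gcongr
        _ = _ := by rw [hE, mul_one]
  have p1 := hpol X Z W E hX hZ hW hE0 w hw hwW d hd (Du v δ Ω N Z) hDu
  have p2 := hdir X Z W hX hZ hW w hw hwW d hd
  have p3 := hdual X Z W hX hZ hW w hw hwW d hd
  have p4 : ∀ j, Z * CoreSum w X Z d (δ j) ≤
      C3 * (X * Z) ^ (ε / 2) * (Real.sqrt (B + W ^ 2) * (N * (Z + N))) := fun j =>
    hcore X Z W B hX hZ hW hB w hw hwW d hd hHS (δ j) (hvδ j).2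
  -- sizes
  set R : ℝ := N * (Z + N) with hR
  have hR0 : 0 ≤ R := by positivity
  set P : ℝ := (X * Z) ^ (ε / 2) with hP
  have hP1 : 1 ≤ P := Real.one_le_rpow hXZ (by positivity)
  have hPP : P * P = (X * Z) ^ ε := by
    rw [hP, ← Real.rpow_add (by positivity)]; congr 1; ring
  have hl1 : (1 + Real.log X) ^ 4 ≤ C6 * P := by
    refine (hlog X hX).trans ?_
    rw [hP]
    gcongr
    nlinarith
  have hl2 : (1 + 2 * Real.log X) ^ 4 ≤ 16 * (C6 * P) := by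
    calc (1 + 2 * Real.log X) ^ 4 ≤ (2 * (1 + Real.log X)) ^ 4 := by gcongr; linarith
      _ = 16 * (1 + Real.log X) ^ 4 := by ring
      _ ≤ _ := by gcongr
  have hEP : 1 + E ≤ (1 + C1 * 16 * C6) * P := by
    have : E ≤ C1 * (16 * (C6 * P)) := by rw [hE]; gcongr
    nlinarith
  have hsq : Real.sqrt (B + W ^ 2) ≤ Real.sqrt B + W := by
    rw [Real.sqrt_le_left (by positivity)]
    have := Real.sq_sqrt hB
    nlinarith [mul_nonneg (Real.sqrt_nonneg B) hW]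
  have hsB := Real.sqrt_nonneg B
  -- the three parts
  have q1 : Z * ‖Cross X Z w d - AB w X d (fun a b => kap X Z d < (nm a : ℝ) * nm b) (Tab Z) -
        AB w X d (fun a b => (nm a : ℝ) * nm b ≤ kap X Z d) (Du v δ Ω N Z)‖ ≤
      C4 * (1 + C1 * 16 * C6) * (X * Z) ^ ε * ((W ^ 2 + W * Real.sqrt B) * R) := by
    refine p1.trans ?_
    rw [← hN]
    calc C4 * (1 + E) * P * (W ^ 2 * N * (Z + N))
        ≤ C4 * ((1 + C1 * 16 * C6) * P) * P * ((W ^ 2 + W * Real.sqrt B) * R) := by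
          have h1 : W ^ 2 * N * (Z + N) ≤ (W ^ 2 + W * Real.sqrt B) * R := by
            rw [hR, mul_assoc]
            refine mul_le_mul_of_nonneg_right ?_ hR0
            nlinarith [mul_nonneg hW hsB]
          gcongr
      _ = _ := by rw [← hPP]; ring
  have q2 : Z * ‖AB w X d (fun a b => kap X Z d < (nm a : ℝ) * nm b) (Tab Z)‖ ≤
      C5 * (X * Z) ^ ε * ((W ^ 2 + W * Real.sqrt B) * R) := by
    refine p2.trans ?_
    rw [← hN]
    calc C5 * P * (W ^ 2 * N * (Z + N)) ≤ C5 * (P * P) * ((W ^ 2 + W * Real.sqrt B) * R) := by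
          have h1 : W ^ 2 * N * (Z + N) ≤ (W ^ 2 + W * Real.sqrt B) * R := by
            rw [hR, mul_assoc]
            refine mul_le_mul_of_nonneg_right ?_ hR0
            nlinarith [mul_nonneg hW hsB]
          have h2 : P ≤ P * P := by nlinarith
          gcongr
      _ = _ := by rw [hPP]
  have q3 : Z * ‖AB w X d (fun a b => (nm a : ℝ) * nm b ≤ kap X Z d) (Du v δ Ω N Z)‖ ≤
      C2 * C6 * J * C3 * (X * Z) ^ ε * ((W ^ 2 + W * Real.sqrt B) * R) := by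
    have h1 : Z * ‖AB w X d (fun a b => (nm a : ℝ) * nm b ≤ kap X Z d) (Du v δ Ω N Z)‖ ≤
        Z * (C2 * (1 + Real.log X) ^ 4 * W * ∑ j, CoreSum w X Z d (δ j)) :=
      mul_le_mul_of_nonneg_left p3 (by linarith)
    have h2 : Z * (C2 * (1 + Real.log X) ^ 4 * W * ∑ j, CoreSum w X Z d (δ j)) =
        C2 * (1 + Real.log X) ^ 4 * W * ∑ j, Z * CoreSum w X Z d (δ j) := by
      rw [← Finset.mul_sum]; ring
    have h3 : ∑ j, Z * CoreSum w X Z d (δ j) ≤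
        J * (C3 * P * (Real.sqrt (B + W ^ 2) * R)) := by
      refine (Finset.sum_le_sum fun j _ => p4 j).trans (le_of_eq ?_)
      rw [Finset.sum_const, Finset.card_univ, Fintype.card_fin, nsmul_eq_mul]
    rw [h2] at h1
    refine h1.trans ?_
    calc C2 * (1 + Real.log X) ^ 4 * W * ∑ j, Z * CoreSum w X Z d (δ j)
        ≤ C2 * (C6 * P) * W * (J * (C3 * P * ((Real.sqrt B + W) * R))) := by
          refine mul_le_mul (by gcongr) (h3.trans (by gcongr)) ?_ (by positivity)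
          exact Finset.sum_nonneg fun j _ => mul_nonneg (by linarith) (CoreSum_nonneg hX0 (by linarith) _ _ _)
      _ = _ := by rw [← hPP]; ring
  have htri : ‖Cross X Z w d‖ ≤
      ‖Cross X Z w d - AB w X d (fun a b => kap X Z d < (nm a : ℝ) * nm b) (Tab Z) -
        AB w X d (fun a b => (nm a : ℝ) * nm b ≤ kap X Z d) (Du v δ Ω N Z)‖ +
      ‖AB w X d (fun a b => kap X Z d < (nm a : ℝ) * nm b) (Tab Z)‖ +
      ‖AB w X d (fun a b => (nm a : ℝ) * nm b ≤ kap X Z d) (Du v δ Ω N Z)‖ := by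
    calc ‖Cross X Z w d‖ = ‖(Cross X Z w d - AB w X d (fun a b => kap X Z d < (nm a : ℝ) * nm b)
          (Tab Z) - AB w X d (fun a b => (nm a : ℝ) * nm b ≤ kap X Z d) (Du v δ Ω N Z)) +
          AB w X d (fun a b => kap X Z d < (nm a : ℝ) * nm b) (Tab Z) +
          AB w X d (fun a b => (nm a : ℝ) * nm b ≤ kap X Z d) (Du v δ Ω N Z)‖ := by
            congr 1; ring
      _ ≤ _ := norm_add₃_le
  have hZ0 : 0 ≤ Z := by linarith
  have := mul_le_mul_of_nonneg_left htri hZ0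
  linarith

end Crest.Agent.R017.X6545
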