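import Crest.Agent.R017.X6K1_545
import Crest.Agent.R017.X6H2_502

/-!
# Row 17, exceptional class (helper545): **the cross lemma, `r = 3`**
-/

set_option autoImplicit false

namespace Crest.Agent.R017.X6545

/-- **X6** -/
theorem x6K : X6K := x6K_of X6K502.dualLe

end Crest.Agent.R017.X6545
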