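import Crest.Agent.R017.X6Asm_545

/-!
# Row 17, exceptional class, X6, polar cancellation, part 1 (helper848)

* `crs_eq` : for `m₁, m₂` squarefree primary coprime,
  `crs 3 A m₁ m₂ = n6 m₁ N(m₂)^(1/6) ∑_{b ∣ m₁} ∑_{a ∣ m₂} μ(a) μ(b) T(..) - pC n6 m₁ n6 m₂ ∑ ft3`
* `sum_main` : `∑ μ(a) μ(b) Mab = pC K N(m₂)^(-1/3) A^(2/3) PE(m₁) PE(m₂)`
-/

set_option autoImplicit false

noncomputable section

open scoped ComplexConjugate

namespace Crest.Agent.R017.X6P848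

open Crest.Agent.R012 hiding crs
open Crest.Agent.R012.Eis Crest.Agent.R012.Gauss880
open Crest.Agent.R012.LS2 Crest.Agent.R012.Div277 Crest.Agent.R012.Mob705
open Crest.Agent.R017.PX764
open Crest.Agent.R017.P3all283 (c0 ft3 summable_ft3 isCoprime_three_mul norm_th_le)
open Crest.Agent.R017.X6545 Crest.Agent.R017.X6A848

/-- the exponential test function -/
def ep (A : ℝ) (x : ℝ) : ℂ := ((Real.exp (-x / A) : ℝ) : ℂ)

lemma norm_ep (A x : ℝ) : ‖ep A x‖ = Real.exp (-x / A) := by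
  unfold ep
  rw [Complex.norm_real, Real.norm_of_nonneg (Real.exp_pos _).le]

lemma summable_e {A : ℝ} (hA : 0 < A) : Summable (fun l : Eis => Real.exp (-(nm l : ℝ) / A)) :=
  P3all283.summable_exp hA

lemma norm_th_bd (h : Eis) : ‖th h‖ ≤ 1 + ‖th 0‖ := by
  by_cases hh : h = 0
  · rw [hh]; linarith
  · have := norm_th_le hh
    linarith [norm_nonneg (th 0)]

lemma Sb_ep {A : ℝ} (hA : 0 < A) (r : Eis) : Sb (fun x => th (r * x)) (ep A) 1 := by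
  intro c hc u
  refine Summable.of_nonneg_of_le (fun _ => norm_nonneg _) (fun l => ?_)
    ((summable_e hA).mul_left (1 + ‖th 0‖))
  rw [norm_mul, norm_ep]
  refine mul_le_mul (norm_th_bd _) (Real.exp_le_exp.2 ?_) (Real.exp_pos _).le
    (by linarith [norm_nonneg (th 0)])
  apply div_le_div_of_nonneg_right _ hA.le
  have : (0 : ℝ) ≤ nm l := Nat.cast_nonneg _
  nlinarith

/-- `T_mn` over divisors -/
theorem T_dvs {A : ℝ} (hA : 0 < A) {m₁ m₂ : Eis} (h1 : IsPrim m₁) (s1 : Squarefree m₁)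
    (h2 : IsPrim m₂) (s2 : Squarefree m₂) (hc : IsCoprime m₁ m₂) :
    T (fun x => th (3 * x)) (ep A) (m₂ * m₁) m₂ 1 =
      ∑ b ∈ dvs m₁, ∑ a ∈ dvs m₂, (muE a : ℂ) * (muE b : ℂ) *
        T (fun x => th (3 * x)) (ep A) 1 ((m₂ / a) * b) ((nm a : ℝ) ^ 2 * nm b) := by
  classical
  have hd : Disjoint (pp m₂) (pp m₁) := by
    rw [Finset.disjoint_left]
    intro p hp2 hp1
    exact (isPP_of_mem_pp hp1).prime.not_isUnit
      (hc.isUnit_of_dvd' (dvd_of_mem_pp hp1) (dvd_of_mem_pp hp2))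
  have e2 : pr (pp m₂) = m₂ := pr_pp' h2 s2
  have e1 : pr (pp m₁) = m₁ := pr_pp' h1 s1
  have hr : IsCoprime (pr (pp m₂)) (3 : Eis) := by
    rw [e2]
    have := (isCoprime_three_mul (b := m₂) (l := 1) h2).2 isCoprime_one_left
    rw [mul_one] at this
    exact this.symm
  have h := T_mn (Sb_ep hA 3) (isPS_pp m₂) (isPS_pp m₁) hd hr
  rw [e1, e2] at h
  rw [h]
  -- inner sums as divisor sums
  have k1 : ∀ A' : Finset Eis, ∑ B ∈ (pp m₁).powerset, (-1 : ℂ) ^ A'.card * (-1 : ℂ) ^ B.card *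
        T (fun x => th (3 * x)) (ep A) 1 (pr (pp m₂ \ A') * pr B) (nm (pr A') ^ 2 * nm (pr B)) =
      ∑ b ∈ dvs m₁, (muE b : ℂ) * ((-1 : ℂ) ^ A'.card *
        T (fun x => th (3 * x)) (ep A) 1 (pr (pp m₂ \ A') * b) (nm (pr A') ^ 2 * nm b)) := by
    intro A'
    rw [sum_dvs_muE h1.ne_zero]
    refine Finset.sum_congr rfl fun B _ => ?_
    unfold pr
    ring
  rw [Finset.sum_congr rfl fun A' _ => k1 A', Finset.sum_comm]
  refine Finset.sum_congr rfl fun b _ => ?_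
  have k2 : ∀ a : Eis, (muE a : ℂ) * (muE b : ℂ) *
        T (fun x => th (3 * x)) (ep A) 1 ((m₂ / a) * b) ((nm a : ℝ) ^ 2 * nm b) =
      (muE a : ℂ) * ((muE b : ℂ) *
        T (fun x => th (3 * x)) (ep A) 1 ((m₂ / a) * b) ((nm a : ℝ) ^ 2 * nm b)) := fun a => by
    ring
  rw [Finset.sum_congr rfl fun a _ => k2 a, sum_dvs_muE h2.ne_zero]
  refine Finset.sum_congr rfl fun A' hA' => ?_
  rw [Finset.mem_powerset] at hA'
  have k3 : m₂ / (∏ p ∈ A', p) = pr (pp m₂ \ A') := by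
    have h0 : (∏ p ∈ A', p) ≠ 0 := ((isPS_pp m₂).mono hA').ne_zero
    have h5 : m₂ = (∏ p ∈ A', p) * pr (pp m₂ \ A') := by
      conv_lhs => rw [← e2, ← Finset.union_sdiff_of_subset hA', pr_union Finset.disjoint_sdiff]
      rfl
    conv_lhs => rw [h5]
    exact mul_div_cancel_left₀ _ h0
  rw [k3]
  unfold pr
  ring

/-- **the cross sum, explicitly** -/
theorem crs_eq {A : ℝ} (hA : 0 < A) {m₁ m₂ : Eis} (h1 : IsPrim m₁) (s1 : Squarefree m₁)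
    (h2 : IsPrim m₂) (s2 : Squarefree m₂) (hc : IsCoprime m₁ m₂) :
    crs 3 A m₁ m₂ = ((n6 m₁ * (nm m₂ : ℝ) ^ ((1 : ℝ) / 6) : ℝ) : ℂ) *
        (∑ b ∈ dvs m₁, ∑ a ∈ dvs m₂, (muE a : ℂ) * (muE b : ℂ) *
          T (fun x => th (3 * x)) (ep A) 1 ((m₂ / a) * b) ((nm a : ℝ) ^ 2 * nm b)) -
      ((pC * (n6 m₁ * n6 m₂) * ∑' l, ft3 3 A (m₁ * m₂) l : ℝ) : ℂ) := by
  classical
  rw [← T_dvs hA h1 s1 h2 s2 hc]
  have h12 : IsPrim (m₁ * m₂) := h1.mul h2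
  have hS := Sb_ep hA 3 1 le_rfl m₂
  have hS1 : Summable fun l : Eis => if l ≠ 0 ∧ IsCoprime l (m₂ * m₁) then
      th (3 * (l * m₂)) * ep A (1 * nm l) else 0 := by
    refine Summable.of_norm_bounded hS fun l => ?_
    split_ifs
    · exact le_rfl
    · rw [norm_zero]; exact norm_nonneg _
  have hS2 : Summable (ft3 3 A (m₁ * m₂)) := summable_ft3 (by decide) hA _
  have hS3 : Summable (fun l : Eis => ((pC * (n6 m₁ * n6 m₂) * ft3 3 A (m₁ * m₂) l : ℝ) : ℂ)) :=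
    Complex.ofRealCLM.summable (hS2.mul_left (pC * (n6 m₁ * n6 m₂)))
  have e0 : ((pC * (n6 m₁ * n6 m₂) * ∑' l, ft3 3 A (m₁ * m₂) l : ℝ) : ℂ) =
      ∑' l, ((pC * (n6 m₁ * n6 m₂) * ft3 3 A (m₁ * m₂) l : ℝ) : ℂ) := by
    rw [← tsum_mul_left, Complex.ofReal_tsum]
  rw [e0]
  unfold T crs
  rw [← tsum_mul_left, ← (hS1.mul_left _).tsum_sub hS3]
  refine tsum_congr fun l => ?_
  by_cases hl : l = 0
  · subst hl
    unfold ft3
    simp
  · rw [if_neg hl]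
    have e3 : IsCoprime m₁ (3 * l) ↔ IsCoprime l m₁ := by
      rw [isCoprime_comm, isCoprime_three_mul h1]
    have e4 : IsCoprime (3 * l) m₂ ↔ IsCoprime l m₂ := isCoprime_three_mul h2
    have eexp : ep A (1 * nm l) = ((Real.exp (-(nm l : ℝ) / A) : ℝ) : ℂ) := by
      unfold ep; rw [one_mul]
    by_cases hc1 : IsCoprime l m₁
    · have emd1 : md (3 * l) m₁ = n6 m₁ := by
        unfold md; rw [if_pos ⟨s1, e3.2 hc1⟩]
      by_cases hc2 : IsCoprime l m₂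
      · have emd2 : md (3 * l) m₂ = n6 m₂ := by
          unfold md; rw [if_pos ⟨s2, (e4.2 hc2).symm⟩]
        have hcop : IsCoprime l (m₂ * m₁) := hc2.mul_right hc1
        have hcop' : IsCoprime l (m₁ * m₂) := hc1.mul_right hc2
        have eG := th_conj_Gh h2 s2 (e4.2 hc2)
        have eft : ft3 3 A (m₁ * m₂) l = ‖th (3 * l)‖ ^ 2 * Real.exp (-(nm l : ℝ) / A) := by
          unfold ft3; rw [if_pos ⟨hl, hcop'⟩]
        rw [if_pos ⟨hl, hcop⟩, emd1, eft, eexp]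
        unfold Dk
        rw [emd2]
        have e5 : th (3 * l) * conj (th (3 * l)) = ((‖th (3 * l)‖ ^ 2 : ℝ) : ℂ) := by
          rw [Complex.mul_conj, Complex.normSq_eq_norm_sq]
        have e6 : (3 : Eis) * (l * m₂) = 3 * l * m₂ := by ring
        rw [e6]
        simp only [map_sub, map_mul, Complex.conj_ofReal]
        push_cast
        push_cast at e5 eG
        linear_combination ((n6 m₁ : ℂ) * Complex.exp (-(nm l : ℂ) / A)) * eG -
          ((pC : ℂ) * (n6 m₂ : ℂ) * (n6 m₁ : ℂ) * Complex.exp (-(nm l : ℂ) / A)) * e5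
      · have hcop : ¬ IsCoprime l (m₂ * m₁) := fun h => hc2 h.of_mul_right_left
        have hcop' : ¬ IsCoprime l (m₁ * m₂) := fun h => hc2 h.of_mul_right_right
        have emd2 : md (3 * l) m₂ = 0 := by
          unfold md; rw [if_neg fun h => hc2 (e4.1 h.2.symm)]
        have eG : Gh (3 * l) m₂ = 0 := Gh_zero h2 fun h => hc2 (e4.1 h)
        have eft : ft3 3 A (m₁ * m₂) l = 0 := by
          unfold ft3; rw [if_neg fun h => hcop' h.2]
        rw [if_neg fun h => hcop h.2, eft]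
        unfold Dk
        rw [emd2, eG]
        simp
    · have hcop : ¬ IsCoprime l (m₂ * m₁) := fun h => hc1 h.of_mul_right_right
      have hcop' : ¬ IsCoprime l (m₁ * m₂) := fun h => hc1 h.of_mul_right_left
      have emd1 : md (3 * l) m₁ = 0 := by
        unfold md; rw [if_neg fun h => hc1 (e3.1 h.2)]
      have eft : ft3 3 A (m₁ * m₂) l = 0 := by
        unfold ft3; rw [if_neg fun h => hcop' h.2]
      rw [if_neg fun h => hcop h.2, eft, emd1]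
      simp

/-! ### the main terms -/

/-- the constant of the main term -/
def KK : ℝ := (3 : ℝ) ^ ((4 : ℝ) / 3) * c0

lemma KK_pos : 0 < KK := mul_pos (by positivity) P3all283.c0_pos

lemma PE_mul {a b : Eis} (ha : a ≠ 0) (hb : b ≠ 0) (hc : IsCoprime a b) :
    PE (a * b) = PE a * PE b := by
  classical
  unfold PE
  rw [pp_mul ha hb, Finset.prod_union (pp_disjoint hc)]

lemma Amm_pos {Z : ℝ} (hZ : 0 < Z) {m₁ m₂ : Eis} (h1 : m₁ ≠ 0) (h2 : m₂ ≠ 0) : 0 < Amm Z m₁ m₂ := by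
  have e1 : (0 : ℝ) < nm m₁ := by exact_mod_cast nm_pos.2 h1
  have e2 : (0 : ℝ) < nm m₂ := by exact_mod_cast nm_pos.2 h2
  unfold Amm
  positivity

lemma nm_div {a m : Eis} (ha : a ≠ 0) (h : a ∣ m) : (nm (m / a) : ℝ) = (nm m : ℝ) / nm a := by
  obtain ⟨t, rfl⟩ := h
  have h0 : (nm a : ℝ) ≠ 0 := by exact_mod_cast (nm_pos.2 ha).ne'
  rw [mul_div_cancel_left₀ _ ha, nm_mul]
  push_cast
  field_simp

lemma Mab_eq {Z : ℝ} (hZ : 0 < Z) {m₁ m₂ a b : Eis} (h1 : m₁ ≠ 0) (h2 : m₂ ≠ 0)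
    (ha : a ∈ dvs m₂) (hb : b ∈ dvs m₁) :
    Mab Z m₁ m₂ a b = pC * KK * (nm m₂ : ℝ) ^ (-(1 : ℝ) / 3) * (Amm Z m₁ m₂) ^ ((2 : ℝ) / 3) *
      ((1 / (nm a : ℝ)) * (1 / (nm b : ℝ))) := by
  have ha' := (mem_dvs h2).1 ha
  have hb' := (mem_dvs h1).1 hb
  have pa : (0 : ℝ) < nm a := by exact_mod_cast nm_pos.2 ha'.1.ne_zero
  have pb : (0 : ℝ) < nm b := by exact_mod_cast nm_pos.2 hb'.1.ne_zero
  have p2 : (0 : ℝ) < nm m₂ := by exact_mod_cast nm_pos.2 h2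
  have pA := Amm_pos hZ h1 h2
  unfold Mab
  rw [nm_mul]
  push_cast
  rw [nm_div ha'.1.ne_zero ha'.2, Real.mul_rpow (by positivity) pb.le,
    Real.div_rpow p2.le pa.le, Real.div_rpow pA.le (by positivity),
    Real.mul_rpow (by positivity) pb.le]
  have e1 : ((nm a : ℝ) ^ 2) ^ ((2 : ℝ) / 3) = (nm a : ℝ) ^ ((4 : ℝ) / 3) := by
    rw [← Real.rpow_natCast, ← Real.rpow_mul pa.le]
    norm_num
  rw [e1]
  have e2 : (nm a : ℝ) ^ ((4 : ℝ) / 3) = (nm a : ℝ) * (nm a : ℝ) ^ ((1 : ℝ) / 3) := by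
    rw [show ((4 : ℝ) / 3) = 1 + 1 / 3 by norm_num, Real.rpow_add pa, Real.rpow_one]
  have e3 : (nm b : ℝ) ^ (-(1 : ℝ) / 3) = (nm b : ℝ)⁻¹ * (nm b : ℝ) ^ ((2 : ℝ) / 3) := by
    rw [← Real.rpow_neg_one, ← Real.rpow_add pb]
    norm_num
  have e4 : (nm a : ℝ) ^ (-(1 : ℝ) / 3) = ((nm a : ℝ) ^ ((1 : ℝ) / 3))⁻¹ := by
    rw [neg_div, Real.rpow_neg pa.le]
  rw [e2, e3, e4]
  have q1 : (nm a : ℝ) ^ ((1 : ℝ) / 3) ≠ 0 := by positivity
  have q2 : (nm b : ℝ) ^ ((2 : ℝ) / 3) ≠ 0 := by positivity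
  unfold KK
  field_simp

lemma sum_main {Z : ℝ} (hZ : 0 < Z) {m₁ m₂ : Eis} (h1 : IsPrim m₁) (h2 : IsPrim m₂)
    (hc : IsCoprime m₁ m₂) :
    ∑ b ∈ dvs m₁, ∑ a ∈ dvs m₂, (muE a : ℂ) * (muE b : ℂ) * (Mab Z m₁ m₂ a b : ℂ) =
      ((pC * KK * (nm m₂ : ℝ) ^ (-(1 : ℝ) / 3) * (Amm Z m₁ m₂) ^ ((2 : ℝ) / 3) * PE (m₁ * m₂) : ℝ) :
        ℂ) := by
  rw [PE_mul h1.ne_zero h2.ne_zero hc, PE_eq_sum h1.ne_zero, PE_eq_sum h2.ne_zero,
    Finset.sum_mul_sum, Finset.mul_sum]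
  push_cast
  refine Finset.sum_congr rfl fun b hb => ?_
  rw [Finset.mul_sum]
  refine Finset.sum_congr rfl fun a ha => ?_
  rw [Mab_eq hZ h1.ne_zero h2.ne_zero ha hb]
  push_cast
  ring

end Crest.Agent.R017.X6P848
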