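import Crest.Agent.R017.X6P1_848

/-!
# Row 17, exceptional class, X6, polar cancellation, part 2 (helper848)

`bracket_le` : the error of one pair `(m₁, m₂)`.
-/

set_option autoImplicit false

noncomputable section

open scoped ComplexConjugate

namespace Crest.Agent.R017.X6P848

open Crest.Agent.R012 hiding crs
open Crest.Agent.R012.Eis Crest.Agent.R012.Gauss880
open Crest.Agent.R012.LS2 Crest.Agent.R012.Div277 Crest.Agent.R012.Mob705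
open Crest.Agent.R017.PX764
open Crest.Agent.R017.P3all283 (c0 ft3 summable_ft3 isCoprime_three_mul norm_th_le)
open Crest.Agent.R017.X6545 Crest.Agent.R017.X6A848

lemma Tab_eq (Z : ℝ) (m₁ m₂ a b : Eis) : Tab Z m₁ m₂ a b =
    T (fun x => th (3 * x)) (ep (Amm Z m₁ m₂)) 1 ((m₂ / a) * b) ((nm a : ℝ) ^ 2 * nm b) := rfl

lemma norm_mu_mul (a b : Eis) (x : ℂ) : ‖(muE a : ℂ) * (muE b : ℂ) * x‖ ≤ ‖x‖ := by
  rw [norm_mul, norm_mul]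
  have h1 := norm_muE_le a
  have h2 := norm_muE_le b
  have h3 : ‖(muE a : ℂ)‖ * ‖(muE b : ℂ)‖ ≤ 1 := mul_le_one₀ h1 (norm_nonneg _) h2
  calc _ ≤ 1 * ‖x‖ := mul_le_mul_of_nonneg_right h3 (norm_nonneg _)
    _ = _ := one_mul _

/-- a double divisor sum with a uniform bound -/
lemma dsum_le {m₁ m₂ : Eis} (Q : Eis → Eis → Prop) [∀ a b, Decidable (Q a b)]
    (f : Eis → Eis → ℂ) {B : ℝ} (hB : 0 ≤ B)
    (h : ∀ b ∈ dvs m₁, ∀ a ∈ dvs m₂, Q a b → ‖f a b‖ ≤ B) :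
    ‖∑ b ∈ dvs m₁, ∑ a ∈ (dvs m₂).filter (fun a => Q a b), (muE a : ℂ) * (muE b : ℂ) * f a b‖ ≤
      tau m₁ * tau m₂ * B := by
  refine (norm_sum_le _ _).trans ?_
  have h1 : ∀ b ∈ dvs m₁,
      ‖∑ a ∈ (dvs m₂).filter (fun a => Q a b), (muE a : ℂ) * (muE b : ℂ) * f a b‖ ≤
        tau m₂ * B := by
    intro b hb
    refine (norm_sum_le _ _).trans ?_
    calc ∑ a ∈ (dvs m₂).filter (fun a => Q a b), ‖(muE a : ℂ) * (muE b : ℂ) * f a b‖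
        ≤ ∑ _a ∈ (dvs m₂).filter (fun a => Q a b), B := Finset.sum_le_sum fun a ha => by
          rw [Finset.mem_filter] at ha
          exact (norm_mu_mul a b _).trans (h b hb a ha.1 ha.2)
      _ ≤ ∑ _a ∈ dvs m₂, B :=
          Finset.sum_le_sum_of_subset_of_nonneg (Finset.filter_subset _ _) fun _ _ _ => hB
      _ = tau m₂ * B := by rw [Finset.sum_const, nsmul_eq_mul]; rfl
  refine (Finset.sum_le_sum h1).trans ?_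
  rw [Finset.sum_const, nsmul_eq_mul]
  unfold tau
  rw [mul_assoc]

lemma n6_nm {m : Eis} (hm : m ≠ 0) :
    (nm m : ℝ) ^ ((1 : ℝ) / 6) * (nm m : ℝ) ^ (-(1 : ℝ) / 3) = n6 m := by
  have p : (0 : ℝ) < nm m := by exact_mod_cast nm_pos.2 hm
  unfold n6
  rw [← Real.rpow_add p]
  norm_num

/-- **one pair** -/
theorem bracket_le {C₀ : ℝ} {k : ℕ}
    (hP : ∀ (A : ℝ) (b : Eis), 0 < A → IsPrim b → Summable (ft3 3 A b) ∧
      |∑' l, ft3 3 A b l - (3 : ℝ) ^ ((4 : ℝ) / 3) * c0 * PE b * A ^ ((2 : ℝ) / 3)| ≤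
        C₀ * (tau b : ℝ) ^ k * A ^ ((1 : ℝ) / 3) * (1 + Real.log (1 + A)))
    {Z κ E : ℝ} (hZ : 0 < Z) (hκ : 0 < κ) (hE : 0 ≤ E) {m₁ m₂ : Eis}
    (h1 : IsPrim m₁) (s1 : Squarefree m₁) (h2 : IsPrim m₂) (s2 : Squarefree m₂)
    (hc : IsCoprime m₁ m₂) (Du : Eis → Eis → ℂ)
    (hDu : ∀ b ∈ dvs m₁, ∀ a ∈ dvs m₂, (nm a : ℝ) * nm b ≤ κ →
      ‖Tab Z m₁ m₂ a b - (Mab Z m₁ m₂ a b : ℂ) - Du a b‖ ≤
        E * (nm ((m₂ / a) * b) : ℝ) ^ (-(1 : ℝ) / 3))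
    [∀ a b : Eis, Decidable (κ < (nm a : ℝ) * nm b)]
    [∀ a b : Eis, Decidable ((nm a : ℝ) * nm b ≤ κ)] :
    ‖crs 3 (Amm Z m₁ m₂) m₁ m₂ -
        ((n6 m₁ * (nm m₂ : ℝ) ^ ((1 : ℝ) / 6) : ℝ) : ℂ) *
          (∑ b ∈ dvs m₁, ∑ a ∈ (dvs m₂).filter (fun a => κ < (nm a : ℝ) * nm b),
            (muE a : ℂ) * (muE b : ℂ) * Tab Z m₁ m₂ a b) -
        ((n6 m₁ * (nm m₂ : ℝ) ^ ((1 : ℝ) / 6) : ℝ) : ℂ) *
          (∑ b ∈ dvs m₁, ∑ a ∈ (dvs m₂).filter (fun a => (nm a : ℝ) * nm b ≤ κ),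
            (muE a : ℂ) * (muE b : ℂ) * Du a b)‖ ≤
      n6 m₁ * n6 m₂ * (tau m₁ * tau m₂ * (E * κ ^ ((1 : ℝ) / 3) +
          pC * KK * (Amm Z m₁ m₂) ^ ((2 : ℝ) / 3) / κ) +
        pC * (C₀ * (tau (m₁ * m₂) : ℝ) ^ k * (Amm Z m₁ m₂) ^ ((1 : ℝ) / 3) *
          (1 + Real.log (1 + Amm Z m₁ m₂)))) := by
  have p1 : (0 : ℝ) < nm m₁ := by exact_mod_cast nm_pos.2 h1.ne_zero
  have p2 : (0 : ℝ) < nm m₂ := by exact_mod_cast nm_pos.2 h2.ne_zero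
  have q1 := n6_pos h1.ne_zero
  have q2 := n6_pos h2.ne_zero
  have pA := Amm_pos hZ h1.ne_zero h2.ne_zero
  set A := Amm Z m₁ m₂ with hA
  set c : ℝ := n6 m₁ * (nm m₂ : ℝ) ^ ((1 : ℝ) / 6) with hcdef
  have hc0 : 0 ≤ c := by positivity
  -- splitting
  have hsplit : ∀ f : Eis → Eis → ℂ, ∑ b ∈ dvs m₁, ∑ a ∈ dvs m₂, (muE a : ℂ) * (muE b : ℂ) * f a b =
      (∑ b ∈ dvs m₁, ∑ a ∈ (dvs m₂).filter (fun a => κ < (nm a : ℝ) * nm b),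
        (muE a : ℂ) * (muE b : ℂ) * f a b) +
      ∑ b ∈ dvs m₁, ∑ a ∈ (dvs m₂).filter (fun a => (nm a : ℝ) * nm b ≤ κ),
        (muE a : ℂ) * (muE b : ℂ) * f a b := by
    intro f
    rw [← Finset.sum_add_distrib]
    refine Finset.sum_congr rfl fun b _ => ?_
    rw [← Finset.sum_filter_add_sum_filter_not (dvs m₂) (fun a => κ < (nm a : ℝ) * nm b)]
    congr 1
    refine Finset.sum_congr ?_ fun _ _ => rfl
    ext a
    simp only [Finset.mem_filter, not_lt]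
  have ecrs := crs_eq pA h1 s1 h2 s2 hc
  have eT := hsplit (fun a b => Tab Z m₁ m₂ a b)
  have eM := hsplit (fun a b => ((Mab Z m₁ m₂ a b : ℝ) : ℂ))
  have emain := sum_main hZ h1 h2 hc
  have h12 : IsPrim (m₁ * m₂) := h1.mul h2
  have hft := (hP A (m₁ * m₂) pA h12).2
  -- the three errors
  have b3 := dsum_le (m₁ := m₁) (m₂ := m₂) (fun a b => (nm a : ℝ) * nm b ≤ κ)
    (fun a b => Tab Z m₁ m₂ a b - (Mab Z m₁ m₂ a b : ℂ) - Du a b)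
    (B := E * (κ ^ ((1 : ℝ) / 3) * (nm m₂ : ℝ) ^ (-(1 : ℝ) / 3))) (by positivity) (by
      intro b hb a ha hab
      refine (hDu b hb a ha hab).trans ?_
      refine mul_le_mul_of_nonneg_left ?_ hE
      have ha' := (mem_dvs h2.ne_zero).1 ha
      have hb' := (mem_dvs h1.ne_zero).1 hb
      have pa : (1 : ℝ) ≤ nm a := by exact_mod_cast nm_pos.2 ha'.1.ne_zero
      have pb : (1 : ℝ) ≤ nm b := by exact_mod_cast nm_pos.2 hb'.1.ne_zero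
      rw [nm_mul]
      push_cast
      rw [nm_div ha'.1.ne_zero ha'.2]
      have e1 : (nm m₂ : ℝ) / nm a * nm b = ((nm a : ℝ) / nm b)⁻¹ * nm m₂ := by
        field_simp
      rw [e1, Real.mul_rpow (by positivity) p2.le]
      refine mul_le_mul_of_nonneg_right ?_ (by positivity)
      rw [neg_div, Real.rpow_neg (by positivity), Real.inv_rpow (by positivity), inv_inv]
      apply Real.rpow_le_rpow (by positivity) _ (by norm_num)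
      refine le_trans ?_ hab
      rw [div_le_iff₀ (by positivity)]
      calc (nm a : ℝ) = nm a * 1 * 1 := by ring
        _ ≤ nm a * nm b * nm b := by gcongr)
  have b2 := dsum_le (m₁ := m₁) (m₂ := m₂) (fun a b => κ < (nm a : ℝ) * nm b)
    (fun a b => ((Mab Z m₁ m₂ a b : ℝ) : ℂ))
    (B := pC * KK * A ^ ((2 : ℝ) / 3) / κ * (nm m₂ : ℝ) ^ (-(1 : ℝ) / 3))
    (by have := pC_pos; have := KK_pos; positivity) (by
      intro b hb a ha hab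
      have ha' := (mem_dvs h2.ne_zero).1 ha
      have hb' := (mem_dvs h1.ne_zero).1 hb
      have pa : (0 : ℝ) < nm a := by exact_mod_cast nm_pos.2 ha'.1.ne_zero
      have pb : (0 : ℝ) < nm b := by exact_mod_cast nm_pos.2 hb'.1.ne_zero
      have w1 := pC_pos
      have w2 := KK_pos
      rw [Complex.norm_real, Mab_eq hZ h1.ne_zero h2.ne_zero ha hb, Real.norm_of_nonneg
        (by positivity)]
      have e1 : (1 / (nm a : ℝ)) * (1 / (nm b : ℝ)) ≤ 1 / κ := by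
        rw [one_div_mul_one_div]
        exact one_div_le_one_div_of_le hκ hab.le
      calc pC * KK * (nm m₂ : ℝ) ^ (-(1 : ℝ) / 3) * (Amm Z m₁ m₂) ^ ((2 : ℝ) / 3) *
            ((1 / (nm a : ℝ)) * (1 / (nm b : ℝ)))
          ≤ pC * KK * (nm m₂ : ℝ) ^ (-(1 : ℝ) / 3) * (Amm Z m₁ m₂) ^ ((2 : ℝ) / 3) * (1 / κ) :=
            mul_le_mul_of_nonneg_left e1 (by positivity)
        _ = _ := by rw [← hA]; ring)
  have e6 := n6_nm h2.ne_zero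
  -- the identity
  set T3 := ∑ b ∈ dvs m₁, ∑ a ∈ (dvs m₂).filter (fun a => (nm a : ℝ) * nm b ≤ κ),
    (muE a : ℂ) * (muE b : ℂ) * (Tab Z m₁ m₂ a b - (Mab Z m₁ m₂ a b : ℂ) - Du a b) with hT3
  set T2 := ∑ b ∈ dvs m₁, ∑ a ∈ (dvs m₂).filter (fun a => κ < (nm a : ℝ) * nm b),
    (muE a : ℂ) * (muE b : ℂ) * ((Mab Z m₁ m₂ a b : ℝ) : ℂ) with hT2
  have hT3' : T3 = (∑ b ∈ dvs m₁, ∑ a ∈ (dvs m₂).filter (fun a => (nm a : ℝ) * nm b ≤ κ),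
      (muE a : ℂ) * (muE b : ℂ) * Tab Z m₁ m₂ a b) -
      (∑ b ∈ dvs m₁, ∑ a ∈ (dvs m₂).filter (fun a => (nm a : ℝ) * nm b ≤ κ),
      (muE a : ℂ) * (muE b : ℂ) * ((Mab Z m₁ m₂ a b : ℝ) : ℂ)) -
      ∑ b ∈ dvs m₁, ∑ a ∈ (dvs m₂).filter (fun a => (nm a : ℝ) * nm b ≤ κ),
      (muE a : ℂ) * (muE b : ℂ) * Du a b := by
    rw [hT3, ← Finset.sum_sub_distrib, ← Finset.sum_sub_distrib]
    refine Finset.sum_congr rfl fun b _ => ?_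
    rw [← Finset.sum_sub_distrib, ← Finset.sum_sub_distrib]
    refine Finset.sum_congr rfl fun a _ => ?_
    ring
  have key : crs 3 A m₁ m₂ - (c : ℂ) *
          (∑ b ∈ dvs m₁, ∑ a ∈ (dvs m₂).filter (fun a => κ < (nm a : ℝ) * nm b),
            (muE a : ℂ) * (muE b : ℂ) * Tab Z m₁ m₂ a b) - (c : ℂ) *
          (∑ b ∈ dvs m₁, ∑ a ∈ (dvs m₂).filter (fun a => (nm a : ℝ) * nm b ≤ κ),
            (muE a : ℂ) * (muE b : ℂ) * Du a b) =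
      (c : ℂ) * T3 - (c : ℂ) * T2 - ((pC * (n6 m₁ * n6 m₂) * (∑' l, ft3 3 A (m₁ * m₂) l -
        (3 : ℝ) ^ ((4 : ℝ) / 3) * c0 * PE (m₁ * m₂) * A ^ ((2 : ℝ) / 3)) : ℝ) : ℂ) := by
    have e7 : (c : ℂ) * ((pC * KK * (nm m₂ : ℝ) ^ (-(1 : ℝ) / 3) * A ^ ((2 : ℝ) / 3) *
        PE (m₁ * m₂) : ℝ) : ℂ) = ((pC * (n6 m₁ * n6 m₂) *
        ((3 : ℝ) ^ ((4 : ℝ) / 3) * c0 * PE (m₁ * m₂) * A ^ ((2 : ℝ) / 3)) : ℝ) : ℂ) := by
      rw [← Complex.ofReal_mul, ← e6, hcdef]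
      unfold KK
      congr 1
      ring
    rw [emain] at eM
    rw [ecrs, hT3']
    have eT' : ∑ b ∈ dvs m₁, ∑ a ∈ dvs m₂, (muE a : ℂ) * (muE b : ℂ) *
        T (fun x => th (3 * x)) (ep A) 1 ((m₂ / a) * b) ((nm a : ℝ) ^ 2 * nm b) =
        ∑ b ∈ dvs m₁, ∑ a ∈ dvs m₂, (muE a : ℂ) * (muE b : ℂ) * Tab Z m₁ m₂ a b := rfl
    rw [eT', eT]
    have e8 : ((pC * (n6 m₁ * n6 m₂) * (∑' l, ft3 3 A (m₁ * m₂) l -
        (3 : ℝ) ^ ((4 : ℝ) / 3) * c0 * PE (m₁ * m₂) * A ^ ((2 : ℝ) / 3)) : ℝ) : ℂ) =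
        ((pC * (n6 m₁ * n6 m₂) * ∑' l, ft3 3 A (m₁ * m₂) l : ℝ) : ℂ) -
        ((pC * (n6 m₁ * n6 m₂) *
        ((3 : ℝ) ^ ((4 : ℝ) / 3) * c0 * PE (m₁ * m₂) * A ^ ((2 : ℝ) / 3)) : ℝ) : ℂ) := by
      push_cast; ring
    rw [e8, ← e7]
    linear_combination (-(c : ℂ)) * eM
  rw [key]
  have n1 : ‖(c : ℂ)‖ = c := by rw [Complex.norm_real, Real.norm_of_nonneg hc0]
  have n2 : ‖((pC * (n6 m₁ * n6 m₂) * (∑' l, ft3 3 A (m₁ * m₂) l -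
        (3 : ℝ) ^ ((4 : ℝ) / 3) * c0 * PE (m₁ * m₂) * A ^ ((2 : ℝ) / 3)) : ℝ) : ℂ)‖ ≤
      n6 m₁ * n6 m₂ * (pC * (C₀ * (tau (m₁ * m₂) : ℝ) ^ k * A ^ ((1 : ℝ) / 3) *
          (1 + Real.log (1 + A)))) := by
    have w1 := pC_pos
    rw [Complex.norm_real, Real.norm_eq_abs, abs_mul, abs_of_nonneg (by positivity)]
    calc pC * (n6 m₁ * n6 m₂) * |∑' l, ft3 3 A (m₁ * m₂) l -
          (3 : ℝ) ^ ((4 : ℝ) / 3) * c0 * PE (m₁ * m₂) * A ^ ((2 : ℝ) / 3)|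
        ≤ pC * (n6 m₁ * n6 m₂) * (C₀ * (tau (m₁ * m₂) : ℝ) ^ k * A ^ ((1 : ℝ) / 3) *
          (1 + Real.log (1 + A))) := mul_le_mul_of_nonneg_left hft (by positivity)
      _ = _ := by ring
  have m3 : ‖(c : ℂ) * T3‖ ≤ n6 m₁ * n6 m₂ * (tau m₁ * tau m₂ * (E * κ ^ ((1 : ℝ) / 3))) := by
    rw [norm_mul, n1]
    calc c * ‖T3‖ ≤ c * (tau m₁ * tau m₂ *
          (E * (κ ^ ((1 : ℝ) / 3) * (nm m₂ : ℝ) ^ (-(1 : ℝ) / 3)))) :=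
          mul_le_mul_of_nonneg_left b3 hc0
      _ = _ := by rw [← e6, hcdef]; ring
  have m2 : ‖(c : ℂ) * T2‖ ≤ n6 m₁ * n6 m₂ * (tau m₁ * tau m₂ *
      (pC * KK * A ^ ((2 : ℝ) / 3) / κ)) := by
    rw [norm_mul, n1]
    calc c * ‖T2‖ ≤ c * (tau m₁ * tau m₂ *
          (pC * KK * A ^ ((2 : ℝ) / 3) / κ * (nm m₂ : ℝ) ^ (-(1 : ℝ) / 3))) :=
          mul_le_mul_of_nonneg_left b2 hc0
      _ = _ := by rw [← e6, hcdef]; ring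
  calc _ ≤ ‖(c : ℂ) * T3‖ + ‖(c : ℂ) * T2‖ + ‖((pC * (n6 m₁ * n6 m₂) *
        (∑' l, ft3 3 A (m₁ * m₂) l -
        (3 : ℝ) ^ ((4 : ℝ) / 3) * c0 * PE (m₁ * m₂) * A ^ ((2 : ℝ) / 3)) : ℝ) : ℂ)‖ :=
        (norm_sub_le _ _).trans (add_le_add (norm_sub_le _ _) le_rfl)
    _ ≤ _ := add_le_add (add_le_add m3 m2) n2
    _ = _ := by ring

end Crest.Agent.R017.X6P848
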