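import Crest.Agent.R017.X6P2_848

/-!
# Row 17, exceptional class, X6, polar cancellation, part 3 (helper848)

`pair_real` : the real inequality for one pair.
-/

set_option autoImplicit false

noncomputable section

namespace Crest.Agent.R017.X6P848

lemma M_le {M N δ σ : ℝ} (hM : 1 ≤ M) (hN : 1 ≤ N) (hMN : M ≤ N ^ 2) (hσ : 0 ≤ 1 + δ - σ) :
    M ^ (-σ) ≤ M ^ (-(1 + δ)) * N ^ (2 * (1 + δ - σ)) := by
  have hM0 : 0 < M := by linarith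
  have hN0 : 0 < N := by linarith
  have e1 : M ^ (-σ) = M ^ (-(1 + δ)) * M ^ (1 + δ - σ) := by
    rw [← Real.rpow_add hM0]; congr 1; ring
  rw [e1]
  refine mul_le_mul_of_nonneg_left ?_ (by positivity)
  calc M ^ (1 + δ - σ) ≤ (N ^ 2) ^ (1 + δ - σ) := Real.rpow_le_rpow hM0.le hMN hσ
    _ = N ^ (2 * (1 + δ - σ)) := by
        rw [← Real.rpow_natCast, ← Real.rpow_mul hN0.le]; norm_num

lemma pr_i {M N Z δ : ℝ} (hδ : 0 < δ) (hM : 1 ≤ M) (hN : 1 ≤ N) (hZ : 1 ≤ Z) (hMN : M ≤ N ^ 2) :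
    Z * (M ^ (-((2 : ℝ) / 3)) * (N * Z ^ (-(1 : ℝ) / 2)) ^ ((1 : ℝ) / 3)) ≤
      M ^ (-(1 + δ)) * N ^ (2 * δ) * (N * Z) := by
  have hM0 : 0 < M := by linarith
  have hN0 : 0 < N := by linarith
  have hZ0 : 0 < Z := by linarith
  have h1 := M_le (δ := δ) (σ := 2 / 3) hM hN hMN (by linarith)
  have e1 : N ^ (2 * (1 + δ - 2 / 3)) = N ^ (2 * δ) * N ^ ((2 : ℝ) / 3) := by
    rw [← Real.rpow_add hN0]; congr 1; ring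
  have h2 : (N * Z ^ (-(1 : ℝ) / 2)) ^ ((1 : ℝ) / 3) ≤ N ^ ((1 : ℝ) / 3) := by
    apply Real.rpow_le_rpow (by positivity) _ (by norm_num)
    have : Z ^ (-(1 : ℝ) / 2) ≤ 1 := Real.rpow_le_one_of_one_le_of_nonpos hZ (by norm_num)
    nlinarith
  have e2 : N ^ ((2 : ℝ) / 3) * N ^ ((1 : ℝ) / 3) = N := by
    rw [← Real.rpow_add hN0]; norm_num
  rw [e1] at h1
  calc Z * (M ^ (-((2 : ℝ) / 3)) * (N * Z ^ (-(1 : ℝ) / 2)) ^ ((1 : ℝ) / 3))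
      ≤ Z * ((M ^ (-(1 + δ)) * (N ^ (2 * δ) * N ^ ((2 : ℝ) / 3))) * N ^ ((1 : ℝ) / 3)) := by
        gcongr
    _ = M ^ (-(1 + δ)) * N ^ (2 * δ) * ((N ^ ((2 : ℝ) / 3) * N ^ ((1 : ℝ) / 3)) * Z) := by ring
    _ = _ := by rw [e2]

lemma pr_ii {M N Z δ : ℝ} (hδ : 0 < δ) (hM : 1 ≤ M) (hN : 1 ≤ N) (hZ : 1 ≤ Z) (hMN : M ≤ N ^ 2) :
    Z * (M ^ (-((2 : ℝ) / 3)) * ((M / Z) ^ ((2 : ℝ) / 3) / (N * Z ^ (-(1 : ℝ) / 2)))) ≤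
      M ^ (-(1 + δ)) * N ^ (2 * δ) * (N * Z) := by
  have hM0 : 0 < M := by linarith
  have hN0 : 0 < N := by linarith
  have hZ0 : 0 < Z := by linarith
  have h1 := M_le (δ := δ) (σ := 0) hM hN hMN (by linarith)
  rw [neg_zero, Real.rpow_zero, sub_zero] at h1
  have e1 : N ^ (2 * (1 + δ)) = N ^ (2 * δ) * (N * N) := by
    have : N * N = N ^ (2 : ℝ) := by rw [Real.rpow_two]; ring
    rw [this, ← Real.rpow_add hN0]; congr 1; ring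
  rw [e1] at h1
  have e2 : M ^ (-((2 : ℝ) / 3)) * ((M / Z) ^ ((2 : ℝ) / 3) / (N * Z ^ (-(1 : ℝ) / 2))) =
      Z ^ (-(1 : ℝ) / 6) / N := by
    rw [Real.div_rpow hM0.le hZ0.le, Real.rpow_neg hM0.le]
    have e3 : Z ^ (-(1 : ℝ) / 6) = (Z ^ ((2 : ℝ) / 3))⁻¹ * (Z ^ (-(1 : ℝ) / 2))⁻¹ := by
      rw [← Real.rpow_neg hZ0.le, ← Real.rpow_neg hZ0.le, ← Real.rpow_add hZ0]; norm_num
    rw [e3]
    have q1 : M ^ ((2 : ℝ) / 3) ≠ 0 := by positivity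
    have q2 : Z ^ ((2 : ℝ) / 3) ≠ 0 := by positivity
    have q3 : Z ^ (-(1 : ℝ) / 2) ≠ 0 := by positivity
    field_simp
  rw [e2]
  have h3 : Z ^ (-(1 : ℝ) / 6) ≤ 1 := Real.rpow_le_one_of_one_le_of_nonpos hZ (by norm_num)
  calc Z * (Z ^ (-(1 : ℝ) / 6) / N) ≤ Z * (1 / N) := by gcongr
    _ = 1 * (Z / N) := by ring
    _ ≤ (M ^ (-(1 + δ)) * (N ^ (2 * δ) * (N * N))) * (Z / N) :=
        mul_le_mul_of_nonneg_right h1 (by positivity)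
    _ = _ := by field_simp

lemma pr_iii {M N Z δ : ℝ} (hδ : 0 < δ) (hM : 1 ≤ M) (hN : 1 ≤ N) (hZ : 1 ≤ Z) (hMN : M ≤ N ^ 2) :
    Z * (M ^ (-((2 : ℝ) / 3)) * (M / Z) ^ ((1 : ℝ) / 3)) ≤
      M ^ (-(1 + δ)) * N ^ (2 * δ) * (N * (Z + N)) := by
  have hM0 : 0 < M := by linarith
  have hN0 : 0 < N := by linarith
  have hZ0 : 0 < Z := by linarith
  have h1 := M_le (δ := δ) (σ := 1 / 3) hM hN hMN (by linarith)
  have e1 : N ^ (2 * (1 + δ - 1 / 3)) = N ^ (2 * δ) * (N * N ^ ((1 : ℝ) / 3)) := by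
    have : N * N ^ ((1 : ℝ) / 3) = N ^ ((4 : ℝ) / 3) := by
      nth_rw 1 [← Real.rpow_one N]
      rw [← Real.rpow_add hN0]; norm_num
    rw [this, ← Real.rpow_add hN0]; congr 1; ring
  rw [e1] at h1
  have e2 : Z * (M ^ (-((2 : ℝ) / 3)) * (M / Z) ^ ((1 : ℝ) / 3)) =
      M ^ (-((1 : ℝ) / 3)) * Z ^ ((2 : ℝ) / 3) := by
    rw [Real.div_rpow hM0.le hZ0.le]
    have e3 : M ^ (-((1 : ℝ) / 3)) = M ^ (-((2 : ℝ) / 3)) * M ^ ((1 : ℝ) / 3) := by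
      rw [← Real.rpow_add hM0]; norm_num
    have e4 : Z = Z ^ ((2 : ℝ) / 3) * Z ^ ((1 : ℝ) / 3) := by
      rw [← Real.rpow_add hZ0]; norm_num
    rw [e3]
    nth_rw 1 [e4]
    have q2 : Z ^ ((1 : ℝ) / 3) ≠ 0 := by positivity
    field_simp
  rw [e2]
  have h4 : N ^ ((1 : ℝ) / 3) * Z ^ ((2 : ℝ) / 3) ≤ Z + N := by
    have hs : 0 < Z + N := by linarith
    calc N ^ ((1 : ℝ) / 3) * Z ^ ((2 : ℝ) / 3)
        ≤ (Z + N) ^ ((1 : ℝ) / 3) * (Z + N) ^ ((2 : ℝ) / 3) := by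
          apply mul_le_mul (Real.rpow_le_rpow hN0.le (by linarith) (by norm_num))
            (Real.rpow_le_rpow hZ0.le (by linarith) (by norm_num)) (by positivity) (by positivity)
      _ = Z + N := by rw [← Real.rpow_add hs]; norm_num
  calc M ^ (-((1 : ℝ) / 3)) * Z ^ ((2 : ℝ) / 3)
      ≤ (M ^ (-(1 + δ)) * (N ^ (2 * δ) * (N * N ^ ((1 : ℝ) / 3)))) * Z ^ ((2 : ℝ) / 3) := by
        gcongr
    _ = M ^ (-(1 + δ)) * N ^ (2 * δ) * (N * (N ^ ((1 : ℝ) / 3) * Z ^ ((2 : ℝ) / 3))) := by ring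
    _ ≤ _ := by gcongr

lemma log_le {A N δ : ℝ} (hδ : 0 < δ) (hN : 1 ≤ N) (hA : 0 ≤ A) (hAN : A ≤ N ^ 2) :
    1 + Real.log (1 + A) ≤ (2 + 2 / δ) * N ^ δ := by
  have hN0 : 0 < N := by linarith
  have h1 : Real.log (1 + A) ≤ Real.log (2 * N ^ 2) := by
    apply Real.log_le_log (by linarith)
    nlinarith
  have h2 : Real.log (2 * N ^ 2) = Real.log 2 + 2 * Real.log N := by
    rw [Real.log_mul (by norm_num) (by positivity), Real.log_pow]; norm_num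
  have h3 : Real.log 2 ≤ 1 := by
    have := Real.log_two_lt_d9; linarith
  have h4 : Real.log N ≤ N ^ δ / δ := Real.log_le_rpow_div hN0.le hδ
  have h5 : 1 ≤ N ^ δ := Real.one_le_rpow hN hδ.le
  have e : (2 + 2 / δ) * N ^ δ = 2 * N ^ δ + 2 * (N ^ δ / δ) := by ring
  rw [e]
  linarith

lemma core_abs {Z m U n2 n3 n1 S V E P Q t₁ t₂ T₁ T₂ D k3 kA b2 b3 A2 A3 L : ℝ} (hZ : 0 ≤ Z)
    (hm : 0 ≤ m) (hU : 0 ≤ U) (hn2 : 0 ≤ n2) (hn1 : 0 ≤ n1) (h23 : n2 ≤ n3) (h21 : n2 * n1 ≤ n3)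
    (hSV : S ≤ V) (hV : 0 ≤ V) (hE : 0 ≤ E) (hP : 0 ≤ P) (hQ : 0 ≤ Q) (hT1 : 0 ≤ T₁)
    (hT2 : 0 ≤ T₂) (ht10 : 0 ≤ t₁) (ht20 : 0 ≤ t₂) (ht1 : t₁ ≤ T₁ * n2) (ht2 : t₂ ≤ T₂ * n2)
    (hD : 0 ≤ D) (hk3 : 0 ≤ k3) (hkA : 0 < kA) (hA2 : 0 ≤ A2) (hA3 : 0 ≤ A3) (hA2b : A2 ≤ b2)
    (hA3b : A3 ≤ b3) (hL0 : 0 ≤ L) (hL : L ≤ D * n1)
    (i1 : Z * (m * k3) ≤ U * S) (i2 : Z * (m * (b2 / kA)) ≤ U * S) (i3 : Z * (m * b3) ≤ U * V) :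
    Z * (m * (t₁ * (E * k3 + P * A2 / kA) + Q * t₂ * A3 * L)) ≤
      ((T₁ * (1 + P) + Q * T₂ * D) * (1 + E)) * ((U * n3) * V) := by
  have hn3 : 0 ≤ n3 := hn2.trans h23
  have hUV : 0 ≤ U * V := mul_nonneg hU hV
  have hUSV : U * S ≤ U * V := mul_le_mul_of_nonneg_left hSV hU
  have ht1' : t₁ ≤ T₁ * n3 := ht1.trans (mul_le_mul_of_nonneg_left h23 hT1)
  have j1 : Z * (m * (t₁ * (E * k3))) ≤ (T₁ * E) * (U * n3) * V := by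
    calc Z * (m * (t₁ * (E * k3))) = (t₁ * E) * (Z * (m * k3)) := by ring
      _ ≤ (t₁ * E) * (U * V) := mul_le_mul_of_nonneg_left (i1.trans hUSV) (mul_nonneg ht10 hE)
      _ ≤ (T₁ * n3 * E) * (U * V) :=
          mul_le_mul_of_nonneg_right (mul_le_mul_of_nonneg_right ht1' hE) hUV
      _ = _ := by ring
  have j2 : Z * (m * (t₁ * (P * A2 / kA))) ≤ (T₁ * P) * (U * n3) * V := by
    have h1 : Z * (m * (A2 / kA)) ≤ U * V := by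
      refine le_trans ?_ (i2.trans hUSV)
      exact mul_le_mul_of_nonneg_left (mul_le_mul_of_nonneg_left
        (div_le_div_of_nonneg_right hA2b hkA.le) hm) hZ
    calc Z * (m * (t₁ * (P * A2 / kA))) = (t₁ * P) * (Z * (m * (A2 / kA))) := by ring
      _ ≤ (t₁ * P) * (U * V) := mul_le_mul_of_nonneg_left h1 (mul_nonneg ht10 hP)
      _ ≤ (T₁ * n3 * P) * (U * V) :=
          mul_le_mul_of_nonneg_right (mul_le_mul_of_nonneg_right ht1' hP) hUV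
      _ = _ := by ring
  have j3 : Z * (m * (Q * t₂ * A3 * L)) ≤ (Q * T₂ * D) * (U * n3) * V := by
    have h1 : Z * (m * A3) ≤ U * V := by
      refine le_trans ?_ i3
      exact mul_le_mul_of_nonneg_left (mul_le_mul_of_nonneg_left hA3b hm) hZ
    have h2 : t₂ * L ≤ T₂ * D * n3 := by
      calc t₂ * L ≤ (T₂ * n2) * (D * n1) := mul_le_mul ht2 hL hL0 (mul_nonneg hT2 hn2)
        _ = T₂ * D * (n2 * n1) := by ring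
        _ ≤ _ := mul_le_mul_of_nonneg_left h21 (mul_nonneg hT2 hD)
    calc Z * (m * (Q * t₂ * A3 * L)) = (Q * (t₂ * L)) * (Z * (m * A3)) := by ring
      _ ≤ (Q * (t₂ * L)) * (U * V) :=
          mul_le_mul_of_nonneg_left h1 (mul_nonneg hQ (mul_nonneg ht20 hL0))
      _ ≤ (Q * (T₂ * D * n3)) * (U * V) :=
          mul_le_mul_of_nonneg_right (mul_le_mul_of_nonneg_left h2 hQ) hUV
      _ = _ := by ring
  have hW : 0 ≤ (U * n3) * V := mul_nonneg (mul_nonneg hU hn3) hV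
  calc Z * (m * (t₁ * (E * k3 + P * A2 / kA) + Q * t₂ * A3 * L))
      = Z * (m * (t₁ * (E * k3))) + Z * (m * (t₁ * (P * A2 / kA))) +
        Z * (m * (Q * t₂ * A3 * L)) := by ring
    _ ≤ (T₁ * E) * (U * n3) * V + (T₁ * P) * (U * n3) * V + (Q * T₂ * D) * (U * n3) * V :=
        add_le_add (add_le_add j1 j2) j3
    _ = (T₁ * E + T₁ * P + Q * T₂ * D) * ((U * n3) * V) := by ring
    _ ≤ _ := by
        refine mul_le_mul_of_nonneg_right ?_ hW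
        have k1 : 0 ≤ T₁ * P * E := mul_nonneg (mul_nonneg hT1 hP) hE
        have k2 : 0 ≤ Q * T₂ * D * E := mul_nonneg (mul_nonneg (mul_nonneg hQ hT2) hD) hE
        have k3 : (T₁ * (1 + P) + Q * T₂ * D) * (1 + E) = (T₁ * E + T₁ * P + Q * T₂ * D) +
          (T₁ + T₁ * P * E + Q * T₂ * D * E) := by ring
        rw [k3]
        linarith

/-- **one pair, real inequality** -/
lemma pair_real {a₁ a₂ N Z δ E P Q t₁ t₂ : ℝ} (hδ : 0 < δ) (h1 : 1 ≤ a₁) (h2 : 1 ≤ a₂)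
    (h1N : a₁ ≤ N) (h2N : a₂ ≤ N) (hZ : 1 ≤ Z) (hE : 0 ≤ E) (hP : 0 ≤ P) (hQ : 0 ≤ Q)
    {A : ℝ} (hA0 : 0 ≤ A) (hA : A ≤ a₁ * a₂ / Z) {T₁ T₂ : ℝ} (hT1 : 0 ≤ T₁) (hT2 : 0 ≤ T₂)
    (ht10 : 0 ≤ t₁) (ht20 : 0 ≤ t₂)
    (ht1 : t₁ ≤ T₁ * N ^ (2 * δ)) (ht2 : t₂ ≤ T₂ * N ^ (2 * δ)) :
    Z * (a₁ ^ (-(1 : ℝ) / 2) * a₂ ^ (-(1 : ℝ) / 2) * (a₁ ^ (-(1 : ℝ) / 6) * a₂ ^ (-(1 : ℝ) / 6) *
      (t₁ * (E * (N * Z ^ (-(1 : ℝ) / 2)) ^ ((1 : ℝ) / 3) +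
          P * A ^ ((2 : ℝ) / 3) / (N * Z ^ (-(1 : ℝ) / 2))) +
        Q * t₂ * A ^ ((1 : ℝ) / 3) * (1 + Real.log (1 + A))))) ≤
      a₁ ^ (-(1 + δ)) * a₂ ^ (-(1 + δ)) * ((T₁ * (1 + P) + Q * T₂ * (2 + 2 / δ)) * (1 + E) *
        N ^ (5 * δ) * (N * (Z + N))) := by
  have hN : 1 ≤ N := h1.trans h1N
  have ha1 : 0 < a₁ := by linarith
  have ha2 : 0 < a₂ := by linarith
  have hN0 : 0 < N := by linarith
  have hZ0 : 0 < Z := by linarith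
  have hM1 : 1 ≤ a₁ * a₂ := by nlinarith
  have hM0 : 0 < a₁ * a₂ := by linarith
  have hMN : a₁ * a₂ ≤ N ^ 2 := by
    rw [pow_two]; exact mul_le_mul h1N h2N ha2.le hN0.le
  have eM1 : a₁ ^ (-(1 : ℝ) / 2) * a₂ ^ (-(1 : ℝ) / 2) = (a₁ * a₂) ^ (-(1 : ℝ) / 2) := by
    rw [Real.mul_rpow ha1.le ha2.le]
  have eM2 : a₁ ^ (-(1 : ℝ) / 6) * a₂ ^ (-(1 : ℝ) / 6) = (a₁ * a₂) ^ (-(1 : ℝ) / 6) := by
    rw [Real.mul_rpow ha1.le ha2.le]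
  have eM3 : a₁ ^ (-(1 + δ)) * a₂ ^ (-(1 + δ)) = (a₁ * a₂) ^ (-(1 + δ)) := by
    rw [Real.mul_rpow ha1.le ha2.le]
  have eM4 : (a₁ * a₂) ^ (-(1 : ℝ) / 2) * (a₁ * a₂) ^ (-(1 : ℝ) / 6) =
      (a₁ * a₂) ^ (-((2 : ℝ) / 3)) := by
    rw [← Real.rpow_add hM0]; norm_num
  rw [eM1, eM2, eM3, ← mul_assoc ((a₁ * a₂) ^ (-(1 : ℝ) / 2)), eM4]
  have hAN : A ≤ N ^ 2 := by
    refine hA.trans ?_
    rw [div_le_iff₀ hZ0]
    nlinarith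
  have hlog := log_le hδ hN hA0 hAN
  have hlog0 : 0 ≤ 1 + Real.log (1 + A) := by
    have := Real.log_nonneg (show (1 : ℝ) ≤ 1 + A by linarith); linarith
  have h := core_abs (Z := Z) (m := (a₁ * a₂) ^ (-((2 : ℝ) / 3)))
    (U := (a₁ * a₂) ^ (-(1 + δ)) * N ^ (2 * δ)) (n2 := N ^ (2 * δ)) (n3 := N ^ (3 * δ))
    (n1 := N ^ δ) (S := N * Z) (V := N * (Z + N)) (E := E) (P := P) (Q := Q) (t₁ := t₁) (t₂ := t₂)
    (T₁ := T₁) (T₂ := T₂) (D := 2 + 2 / δ) (k3 := (N * Z ^ (-(1 : ℝ) / 2)) ^ ((1 : ℝ) / 3))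
    (kA := N * Z ^ (-(1 : ℝ) / 2)) (b2 := (a₁ * a₂ / Z) ^ ((2 : ℝ) / 3))
    (b3 := (a₁ * a₂ / Z) ^ ((1 : ℝ) / 3)) (A2 := A ^ ((2 : ℝ) / 3)) (A3 := A ^ ((1 : ℝ) / 3))
    (L := 1 + Real.log (1 + A)) hZ0.le (by positivity) (by positivity) (by positivity)
    (by positivity) (Real.rpow_le_rpow_of_exponent_le hN (by linarith))
    (by rw [← Real.rpow_add hN0]; apply le_of_eq; congr 1; ring)
    (by nlinarith) (by positivity) hE hP hQ hT1 hT2 ht10 ht20 ht1 ht2 (by positivity)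
    (by positivity) (by positivity) (by positivity) (by positivity)
    (Real.rpow_le_rpow hA0 hA (by norm_num)) (Real.rpow_le_rpow hA0 hA (by norm_num)) hlog0 hlog
    (pr_i hδ hM1 hN hZ hMN) (pr_ii hδ hM1 hN hZ hMN) (pr_iii hδ hM1 hN hZ hMN)
  refine h.trans (le_of_eq ?_)
  have h35 : (a₁ * a₂) ^ (-(1 + δ)) * N ^ (2 * δ) * N ^ (3 * δ) =
      (a₁ * a₂) ^ (-(1 + δ)) * N ^ (5 * δ) := by
    rw [mul_assoc, ← Real.rpow_add hN0]; congr 2; ring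
  rw [h35]
  ring

end Crest.Agent.R017.X6P848
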