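import Crest.Agent.R017.X6P3_848
import Crest.Agent.R017.X6QDefs_848

/-!
# Row 17, exceptional class, X6 at `r = g`, polar cancellation, part 1 (helper848)

* `T_dvsR` : `T_mn` over divisors for every `r` prime to `m₂`
* `crs_eqG` : `crs g L (d m₁) (d m₂)` explicitly
* `sum_mainG` : the main terms
-/

set_option autoImplicit false

noncomputable section

open scoped ComplexConjugate

namespace Crest.Agent.R017.X6Q848

open Crest.Agent.R012 hiding crs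
open Crest.Agent.R012.Eis Crest.Agent.R012.Gauss880
open Crest.Agent.R012.LS2 Crest.Agent.R012.Div277 Crest.Agent.R012.Mob705
open Crest.Agent.R017.PX764
open Crest.Agent.R017.P3all283 (c0 ft3 summable_ft3 norm_th_le)
open Crest.Agent.R017.X6A848 Crest.Agent.R017.X6P848

/-- `T_mn` over divisors -/
theorem T_dvsR {A : ℝ} (hA : 0 < A) {r m₁ m₂ : Eis} (h1 : IsPrim m₁) (s1 : Squarefree m₁)
    (h2 : IsPrim m₂) (s2 : Squarefree m₂) (hc : IsCoprime m₁ m₂) (hr : IsCoprime m₂ r) :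
    T (fun x => th (r * x)) (ep A) (m₂ * m₁) m₂ 1 =
      ∑ b ∈ dvs m₁, ∑ a ∈ dvs m₂, (muE a : ℂ) * (muE b : ℂ) *
        T (fun x => th (r * x)) (ep A) 1 ((m₂ / a) * b) ((nm a : ℝ) ^ 2 * nm b) := by
  classical
  have hd : Disjoint (pp m₂) (pp m₁) := by
    rw [Finset.disjoint_left]
    intro p hp2 hp1
    exact (isPP_of_mem_pp hp1).prime.not_isUnit
      (hc.isUnit_of_dvd' (dvd_of_mem_pp hp1) (dvd_of_mem_pp hp2))
  have e2 : pr (pp m₂) = m₂ := pr_pp' h2 s2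
  have e1 : pr (pp m₁) = m₁ := pr_pp' h1 s1
  have hr' : IsCoprime (pr (pp m₂)) r := by rw [e2]; exact hr
  have h := T_mn (Sb_ep hA r) (isPS_pp m₂) (isPS_pp m₁) hd hr'
  rw [e1, e2] at h
  rw [h]
  have k1 : ∀ A' : Finset Eis, ∑ B ∈ (pp m₁).powerset, (-1 : ℂ) ^ A'.card * (-1 : ℂ) ^ B.card *
        T (fun x => th (r * x)) (ep A) 1 (pr (pp m₂ \ A') * pr B) (nm (pr A') ^ 2 * nm (pr B)) =
      ∑ b ∈ dvs m₁, (muE b : ℂ) * ((-1 : ℂ) ^ A'.card *
        T (fun x => th (r * x)) (ep A) 1 (pr (pp m₂ \ A') * b) (nm (pr A') ^ 2 * nm b)) := by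
    intro A'
    rw [sum_dvs_muE h1.ne_zero]
    refine Finset.sum_congr rfl fun B _ => ?_
    unfold pr
    ring
  rw [Finset.sum_congr rfl fun A' _ => k1 A', Finset.sum_comm]
  refine Finset.sum_congr rfl fun b _ => ?_
  have k2 : ∀ a : Eis, (muE a : ℂ) * (muE b : ℂ) *
        T (fun x => th (r * x)) (ep A) 1 ((m₂ / a) * b) ((nm a : ℝ) ^ 2 * nm b) =
      (muE a : ℂ) * ((muE b : ℂ) *
        T (fun x => th (r * x)) (ep A) 1 ((m₂ / a) * b) ((nm a : ℝ) ^ 2 * nm b)) := fun a => by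
    ring
  rw [Finset.sum_congr rfl fun a _ => k2 a, sum_dvs_muE h2.ne_zero]
  refine Finset.sum_congr rfl fun A' hA' => ?_
  rw [Finset.mem_powerset] at hA'
  have k3 : m₂ / (∏ p ∈ A', p) = pr (pp m₂ \ A') := by
    have h0 : (∏ p ∈ A', p) ≠ 0 := ((isPS_pp m₂).mono hA').ne_zero
    have h5 : m₂ = (∏ p ∈ A', p) * pr (pp m₂ \ A') := by
      conv_lhs => rw [← e2, ← Finset.union_sdiff_of_subset hA', pr_union Finset.disjoint_sdiff]
      rfl
    conv_lhs => rw [h5]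
    exact mul_div_cancel_left₀ _ h0
  rw [k3]
  unfold pr
  ring

lemma TabG_eq (g : Eis) (L : ℝ) (d m₂ a b : Eis) : TabG g L d m₂ a b =
    T (fun x => th (g * x)) (ep L) 1 (((d * m₂) / a) * b) ((nm a : ℝ) ^ 2 * nm b) := rfl

/-- **the cross sum at `r = g`, explicitly** -/
theorem crs_eqG {L : ℝ} (hL : 0 < L) {g d m₁ m₂ : Eis} (hg0 : g ≠ 0) (hd : IsPrim d)
    (h1 : IsPrim m₁) (s1 : Squarefree (d * m₁)) (h2 : IsPrim m₂) (s2 : Squarefree (d * m₂))
    (hc : IsCoprime m₁ m₂) (g1 : IsCoprime (d * m₁) g) (g2 : IsCoprime (d * m₂) g) :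
    crs g L (d * m₁) (d * m₂) = ((n6 (d * m₁) * (nm (d * m₂) : ℝ) ^ ((1 : ℝ) / 6) : ℝ) : ℂ) *
        (∑ b ∈ dvs m₁, ∑ a ∈ dvs (d * m₂), (muE a : ℂ) * (muE b : ℂ) * TabG g L d m₂ a b) -
      ((pC * (n6 (d * m₁) * n6 (d * m₂)) * ∑' l, ft3 g L (d * (m₁ * m₂)) l : ℝ) : ℂ) := by
  classical
  have hcd : IsCoprime m₁ (d * m₂) := by
    have h3 : IsCoprime d m₁ := by
      by_contra h4
      exact not_sqf_of_not_coprime hd.ne_zero h4 s1
    exact h3.symm.mul_right hc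
  have hM2 : IsPrim (d * m₂) := hd.mul h2
  have hM1 : IsPrim (d * m₁) := hd.mul h1
  simp only [TabG_eq]
  rw [← T_dvsR hL h1 s1.of_mul_right hM2 s2 hcd g2]
  have hS := Sb_ep hL g 1 le_rfl (d * m₂)
  have hS1 : Summable fun l : Eis => if l ≠ 0 ∧ IsCoprime l (d * m₂ * m₁) then
      th (g * (l * (d * m₂))) * ep L (1 * nm l) else 0 := by
    refine Summable.of_norm_bounded hS fun l => ?_
    split_ifs
    · exact le_rfl
    · rw [norm_zero]; exact norm_nonneg _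
  have hS2 : Summable (ft3 g L (d * (m₁ * m₂))) := summable_ft3 hg0 hL _
  have hS3 : Summable (fun l : Eis =>
      ((pC * (n6 (d * m₁) * n6 (d * m₂)) * ft3 g L (d * (m₁ * m₂)) l : ℝ) : ℂ)) :=
    Complex.ofRealCLM.summable (hS2.mul_left (pC * (n6 (d * m₁) * n6 (d * m₂))))
  have e0 : ((pC * (n6 (d * m₁) * n6 (d * m₂)) * ∑' l, ft3 g L (d * (m₁ * m₂)) l : ℝ) : ℂ) =
      ∑' l, ((pC * (n6 (d * m₁) * n6 (d * m₂)) * ft3 g L (d * (m₁ * m₂)) l : ℝ) : ℂ) := by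
    rw [← tsum_mul_left, Complex.ofReal_tsum]
  rw [e0]
  unfold T crs
  rw [← tsum_mul_left, ← (hS1.mul_left _).tsum_sub hS3]
  refine tsum_congr fun l => ?_
  by_cases hl : l = 0
  · subst hl
    unfold ft3
    simp
  · rw [if_neg hl]
    have e3 : IsCoprime (d * m₁) (g * l) ↔ IsCoprime l (d * m₁) := by
      rw [IsCoprime.mul_right_iff]
      exact ⟨fun h => h.2.symm, fun h => ⟨g1, h.symm⟩⟩
    have e4 : IsCoprime (g * l) (d * m₂) ↔ IsCoprime l (d * m₂) := by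
      rw [IsCoprime.mul_left_iff]
      exact ⟨fun h => h.2, fun h => ⟨g2.symm, h⟩⟩
    have eexp : ep L (1 * nm l) = ((Real.exp (-(nm l : ℝ) / L) : ℝ) : ℂ) := by
      unfold ep; rw [one_mul]
    by_cases hc1 : IsCoprime l (d * m₁)
    · have emd1 : md (g * l) (d * m₁) = n6 (d * m₁) := by
        unfold md; rw [if_pos ⟨s1, e3.2 hc1⟩]
      by_cases hc2 : IsCoprime l (d * m₂)
      · have emd2 : md (g * l) (d * m₂) = n6 (d * m₂) := by
          unfold md; rw [if_pos ⟨s2, (e4.2 hc2).symm⟩]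
        have hcop : IsCoprime l (d * m₂ * m₁) := hc2.mul_right hc1.of_mul_right_right
        have hcop' : IsCoprime l (d * (m₁ * m₂)) :=
          hc1.of_mul_right_left.mul_right (hc1.of_mul_right_right.mul_right hc2.of_mul_right_right)
        have eG := th_conj_Gh hM2 s2 (e4.2 hc2)
        have eft : ft3 g L (d * (m₁ * m₂)) l =
            ‖th (g * l)‖ ^ 2 * Real.exp (-(nm l : ℝ) / L) := by
          unfold ft3; rw [if_pos ⟨hl, hcop'⟩]
        rw [if_pos ⟨hl, hcop⟩, emd1, eft, eexp]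
        unfold Dk
        rw [emd2]
        have e5 : th (g * l) * conj (th (g * l)) = ((‖th (g * l)‖ ^ 2 : ℝ) : ℂ) := by
          rw [Complex.mul_conj, Complex.normSq_eq_norm_sq]
        have e6 : g * (l * (d * m₂)) = g * l * (d * m₂) := by ring
        rw [e6]
        simp only [map_sub, map_mul, Complex.conj_ofReal]
        push_cast
        push_cast at e5 eG
        linear_combination ((n6 (d * m₁) : ℂ) * Complex.exp (-(nm l : ℂ) / L)) * eG -
          ((pC : ℂ) * (n6 (d * m₂) : ℂ) * (n6 (d * m₁) : ℂ) * Complex.exp (-(nm l : ℂ) / L)) * e5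
      · have hcop : ¬ IsCoprime l (d * m₂ * m₁) := fun h => hc2 h.of_mul_right_left
        have hcop' : ¬ IsCoprime l (d * (m₁ * m₂)) := fun h =>
          hc2 (h.of_mul_right_left.mul_right h.of_mul_right_right.of_mul_right_right)
        have emd2 : md (g * l) (d * m₂) = 0 := by
          unfold md; rw [if_neg fun h => hc2 (e4.1 h.2.symm)]
        have eG : Gh (g * l) (d * m₂) = 0 := Gh_zero hM2 fun h => hc2 (e4.1 h)
        have eft : ft3 g L (d * (m₁ * m₂)) l = 0 := by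
          unfold ft3; rw [if_neg fun h => hcop' h.2]
        rw [if_neg fun h => hcop h.2, eft]
        unfold Dk
        rw [emd2, eG]
        simp
    · have hcop : ¬ IsCoprime l (d * m₂ * m₁) := fun h =>
        hc1 (h.of_mul_right_left.of_mul_right_left.mul_right h.of_mul_right_right)
      have hcop' : ¬ IsCoprime l (d * (m₁ * m₂)) := fun h =>
        hc1 (h.of_mul_right_left.mul_right h.of_mul_right_right.of_mul_right_left)
      have emd1 : md (g * l) (d * m₁) = 0 := by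
        unfold md; rw [if_neg fun h => hc1 (e3.1 h.2)]
      have eft : ft3 g L (d * (m₁ * m₂)) l = 0 := by
        unfold ft3; rw [if_neg fun h => hcop' h.2]
      rw [if_neg fun h => hcop h.2, eft, emd1]
      simp

/-! ### the main terms -/

lemma MabG_eq {g : Eis} {L : ℝ} (hL : 0 < L) {d m₁ m₂ a b : Eis} (hg : g ≠ 0) (h1 : m₁ ≠ 0)
    (h2 : d * m₂ ≠ 0) (ha : a ∈ dvs (d * m₂)) (hb : b ∈ dvs m₁) :
    MabG g L d m₂ a b = pC * (3 * c0) * ((nm g : ℝ) ^ (-(1 : ℝ) / 3) *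
      (nm (d * m₂) : ℝ) ^ (-(1 : ℝ) / 3)) * L ^ ((2 : ℝ) / 3) *
      ((1 / (nm a : ℝ)) * (1 / (nm b : ℝ))) := by
  have ha' := (mem_dvs h2).1 ha
  have hb' := (mem_dvs h1).1 hb
  have pa : (0 : ℝ) < nm a := by exact_mod_cast nm_pos.2 ha'.1.ne_zero
  have pb : (0 : ℝ) < nm b := by exact_mod_cast nm_pos.2 hb'.1.ne_zero
  have p2 : (0 : ℝ) < nm (d * m₂) := by exact_mod_cast nm_pos.2 h2
  have pg : (0 : ℝ) < nm g := by exact_mod_cast nm_pos.2 hg
  unfold MabG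
  have e0 : (nm (g * (((d * m₂) / a) * b)) : ℝ) = nm g * ((nm (d * m₂) : ℝ) / nm a * nm b) := by
    rw [nm_mul, nm_mul]
    push_cast
    rw [nm_div ha'.1.ne_zero ha'.2]
  rw [e0, Real.mul_rpow pg.le (by positivity), Real.mul_rpow (by positivity) pb.le,
    Real.div_rpow p2.le pa.le, Real.div_rpow hL.le (by positivity),
    Real.mul_rpow (by positivity) pb.le]
  have e1 : ((nm a : ℝ) ^ 2) ^ ((2 : ℝ) / 3) = (nm a : ℝ) ^ ((4 : ℝ) / 3) := by
    rw [← Real.rpow_natCast, ← Real.rpow_mul pa.le]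
    norm_num
  rw [e1]
  have e2 : (nm a : ℝ) ^ ((4 : ℝ) / 3) = (nm a : ℝ) * (nm a : ℝ) ^ ((1 : ℝ) / 3) := by
    rw [show ((4 : ℝ) / 3) = 1 + 1 / 3 by norm_num, Real.rpow_add pa, Real.rpow_one]
  have e3 : (nm b : ℝ) ^ (-(1 : ℝ) / 3) = (nm b : ℝ)⁻¹ * (nm b : ℝ) ^ ((2 : ℝ) / 3) := by
    rw [← Real.rpow_neg_one, ← Real.rpow_add pb]
    norm_num
  have e4 : (nm a : ℝ) ^ (-(1 : ℝ) / 3) = ((nm a : ℝ) ^ ((1 : ℝ) / 3))⁻¹ := by
    rw [neg_div, Real.rpow_neg pa.le]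
  rw [e2, e3, e4]
  have q1 : (nm a : ℝ) ^ ((1 : ℝ) / 3) ≠ 0 := by positivity
  have q2 : (nm b : ℝ) ^ ((2 : ℝ) / 3) ≠ 0 := by positivity
  field_simp

lemma sum_mainG {g : Eis} {L : ℝ} (hL : 0 < L) {d m₁ m₂ : Eis} (hg : g ≠ 0) (h1 : IsPrim m₁)
    (h2 : IsPrim (d * m₂)) (hc : IsCoprime m₁ (d * m₂)) :
    ∑ b ∈ dvs m₁, ∑ a ∈ dvs (d * m₂), (muE a : ℂ) * (muE b : ℂ) * (MabG g L d m₂ a b : ℂ) =
      ((pC * (3 * c0) * ((nm g : ℝ) ^ (-(1 : ℝ) / 3) * (nm (d * m₂) : ℝ) ^ (-(1 : ℝ) / 3)) *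
        L ^ ((2 : ℝ) / 3) * PE (d * (m₁ * m₂)) : ℝ) : ℂ) := by
  have e : d * (m₁ * m₂) = m₁ * (d * m₂) := by ring
  rw [e, PE_mul h1.ne_zero h2.ne_zero hc, PE_eq_sum h1.ne_zero, PE_eq_sum h2.ne_zero,
    Finset.sum_mul_sum, Finset.mul_sum]
  push_cast
  refine Finset.sum_congr rfl fun b hb => ?_
  rw [Finset.mul_sum]
  refine Finset.sum_congr rfl fun a ha => ?_
  rw [MabG_eq hL hg h1.ne_zero h2.ne_zero ha hb]
  push_cast
  ring

end Crest.Agent.R017.X6Q848
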