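import Crest.Agent.R017.X6Q1_848
import Crest.Agent.R017.X6P2_848

/-!
# Row 17, exceptional class, X6 at `r = g`, polar cancellation, part 2 (helper848)

`bracket_leG` : the error of one pair `(m₁, m₂)`.
-/

set_option autoImplicit false

noncomputable section

open scoped ComplexConjugate

namespace Crest.Agent.R017.X6Q848

open Crest.Agent.R012 hiding crs
open Crest.Agent.R012.Eis Crest.Agent.R012.Gauss880
open Crest.Agent.R012.LS2 Crest.Agent.R012.Div277 Crest.Agent.R012.Mob705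
open Crest.Agent.R017.PX764
open Crest.Agent.R017.P3all283 (c0 ft3 summable_ft3 norm_th_le c0_pos)
open Crest.Agent.R017.X6A848 Crest.Agent.R017.X6P848

lemma n6_sq {g : Eis} (hg : g ≠ 0) : n6 g ^ 2 = (nm g : ℝ) ^ (-(1 : ℝ) / 3) := by
  have p : (0 : ℝ) < nm g := by exact_mod_cast nm_pos.2 hg
  unfold n6
  rw [pow_two, ← Real.rpow_add p]
  norm_num

/-- **one pair** -/
theorem bracket_leG {C₀ : ℝ} {k : ℕ}
    (hP3 : ∀ g : Eis, IsPrim g → Squarefree g →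
      ∀ (A : ℝ) (b : Eis), 0 < A → IsPrim b → IsCoprime g b →
      |∑' l, ft3 g A b l - n6 g ^ 2 * (3 * c0 * PE b * A ^ ((2 : ℝ) / 3))| ≤
        C₀ * tau g * (tau (b * g) : ℝ) ^ k * (A ^ ((1 : ℝ) / 3) * (1 + Real.log (1 + A))))
    {L K E β : ℝ} (hL : 0 < L) (hK : 0 < K) (hE : 0 ≤ E) (hβ : 0 ≤ β) {g d m₁ m₂ : Eis}
    (hg : IsPrim g) (sg : Squarefree g) (hd : IsPrim d)
    (h1 : IsPrim m₁) (s1 : Squarefree (d * m₁)) (h2 : IsPrim m₂) (s2 : Squarefree (d * m₂))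
    (hc : IsCoprime m₁ m₂) (g1 : IsCoprime g (d * m₁)) (g2 : IsCoprime g (d * m₂))
    (P : Eis → Eis → Prop) [∀ a b, Decidable (P a b)] [∀ a b, Decidable (¬ P a b)]
    (hP : ∀ a b : Eis, IsPrim a → IsPrim b → P a b → (1 / (nm a : ℝ)) * (1 / (nm b : ℝ)) ≤ β)
    (hnP : ∀ a b : Eis, ¬ P a b → (nm a : ℝ) * nm b ≤ K)
    (Du : Eis → Eis → ℂ)
    (hDu : ∀ b ∈ dvs m₁, ∀ a ∈ dvs (d * m₂), ¬ P a b →
      ‖TabG g L d m₂ a b - (MabG g L d m₂ a b : ℂ) - Du a b‖ ≤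
        E * (nm (g * (((d * m₂) / a) * b)) : ℝ) ^ (-(1 : ℝ) / 3)) :
    ‖crs g L (d * m₁) (d * m₂) -
        ((n6 (d * m₁) * (nm (d * m₂) : ℝ) ^ ((1 : ℝ) / 6) : ℝ) : ℂ) *
          (∑ b ∈ dvs m₁, ∑ a ∈ (dvs (d * m₂)).filter (fun a => P a b),
            (muE a : ℂ) * (muE b : ℂ) * TabG g L d m₂ a b) -
        ((n6 (d * m₁) * (nm (d * m₂) : ℝ) ^ ((1 : ℝ) / 6) : ℝ) : ℂ) *
          (∑ b ∈ dvs m₁, ∑ a ∈ (dvs (d * m₂)).filter (fun a => ¬ P a b),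
            (muE a : ℂ) * (muE b : ℂ) * Du a b)‖ ≤
      n6 (d * m₁) * n6 (d * m₂) * (tau m₁ * tau (d * m₂) * (E * K ^ ((1 : ℝ) / 3) +
          pC * (3 * c0) * (L ^ ((2 : ℝ) / 3) * β)) +
        pC * (C₀ * tau g * (tau (d * (m₁ * m₂) * g) : ℝ) ^ k *
          (L ^ ((1 : ℝ) / 3) * (1 + Real.log (1 + L))))) := by
  have hM1 : IsPrim (d * m₁) := hd.mul h1
  have hM2 : IsPrim (d * m₂) := hd.mul h2
  have hcd : IsCoprime m₁ (d * m₂) := by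
    have h3 : IsCoprime d m₁ := by
      by_contra h4
      exact not_sqf_of_not_coprime hd.ne_zero h4 s1
    exact h3.symm.mul_right hc
  have hg0 : g ≠ 0 := hg.ne_zero
  have pg : (1 : ℝ) ≤ nm g := by exact_mod_cast nm_pos.2 hg0
  have p2 : (0 : ℝ) < nm (d * m₂) := by exact_mod_cast nm_pos.2 hM2.ne_zero
  have q1 := n6_pos hM1.ne_zero
  have q2 := n6_pos hM2.ne_zero
  have w1 := pC_pos
  have w2 := c0_pos
  set c : ℝ := n6 (d * m₁) * (nm (d * m₂) : ℝ) ^ ((1 : ℝ) / 6) with hcdef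
  have hc0 : 0 ≤ c := by positivity
  have hsplit : ∀ f : Eis → Eis → ℂ,
      ∑ b ∈ dvs m₁, ∑ a ∈ dvs (d * m₂), (muE a : ℂ) * (muE b : ℂ) * f a b =
      (∑ b ∈ dvs m₁, ∑ a ∈ (dvs (d * m₂)).filter (fun a => P a b),
        (muE a : ℂ) * (muE b : ℂ) * f a b) +
      ∑ b ∈ dvs m₁, ∑ a ∈ (dvs (d * m₂)).filter (fun a => ¬ P a b),
        (muE a : ℂ) * (muE b : ℂ) * f a b := by
    intro f
    rw [← Finset.sum_add_distrib]
    refine Finset.sum_congr rfl fun b _ => ?_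
    rw [← Finset.sum_filter_add_sum_filter_not (dvs (d * m₂)) (fun a => P a b)]
  have ecrs := crs_eqG hL hg0 hd h1 s1 h2 s2 hc g1.symm g2.symm
  have eT := hsplit (fun a b => TabG g L d m₂ a b)
  have eM := hsplit (fun a b => ((MabG g L d m₂ a b : ℝ) : ℂ))
  have emain := sum_mainG hL hg0 h1 hM2 hcd
  have h12 : IsPrim (d * (m₁ * m₂)) := hd.mul (h1.mul h2)
  have hg12 : IsCoprime g (d * (m₁ * m₂)) :=
    g1.of_mul_right_left.mul_right (g1.of_mul_right_right.mul_right g2.of_mul_right_right)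
  have hft := hP3 g hg sg L (d * (m₁ * m₂)) hL h12 hg12
  have hgm : (nm g : ℝ) ^ (-(1 : ℝ) / 3) ≤ 1 :=
    Real.rpow_le_one_of_one_le_of_nonpos pg (by norm_num)
  have hgm0 : 0 < (nm g : ℝ) ^ (-(1 : ℝ) / 3) := by positivity
  have b3 := dsum_le (m₁ := m₁) (m₂ := d * m₂) (fun a b => ¬ P a b)
    (fun a b => TabG g L d m₂ a b - (MabG g L d m₂ a b : ℂ) - Du a b)
    (B := E * (K ^ ((1 : ℝ) / 3) * (nm (d * m₂) : ℝ) ^ (-(1 : ℝ) / 3))) (by positivity) (by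
      intro b hb a ha hab
      refine (hDu b hb a ha hab).trans ?_
      refine mul_le_mul_of_nonneg_left ?_ hE
      have ha' := (mem_dvs hM2.ne_zero).1 ha
      have hb' := (mem_dvs h1.ne_zero).1 hb
      have pa : (1 : ℝ) ≤ nm a := by exact_mod_cast nm_pos.2 ha'.1.ne_zero
      have pb : (1 : ℝ) ≤ nm b := by exact_mod_cast nm_pos.2 hb'.1.ne_zero
      have e0 : (nm (g * (((d * m₂) / a) * b)) : ℝ) =
          nm g * (((nm a : ℝ) / nm b)⁻¹ * nm (d * m₂)) := by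
        rw [nm_mul, nm_mul]
        push_cast
        rw [nm_div ha'.1.ne_zero ha'.2]
        field_simp
      rw [e0, Real.mul_rpow (by positivity) (by positivity), Real.mul_rpow (by positivity) p2.le]
      calc (nm g : ℝ) ^ (-(1 : ℝ) / 3) * ((((nm a : ℝ) / nm b)⁻¹) ^ (-(1 : ℝ) / 3) *
            (nm (d * m₂) : ℝ) ^ (-(1 : ℝ) / 3))
          ≤ 1 * ((((nm a : ℝ) / nm b)⁻¹) ^ (-(1 : ℝ) / 3) *
            (nm (d * m₂) : ℝ) ^ (-(1 : ℝ) / 3)) :=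
            mul_le_mul_of_nonneg_right hgm (by positivity)
        _ = (((nm a : ℝ) / nm b)⁻¹) ^ (-(1 : ℝ) / 3) *
            (nm (d * m₂) : ℝ) ^ (-(1 : ℝ) / 3) := one_mul _
        _ ≤ _ := by
            refine mul_le_mul_of_nonneg_right ?_ (by positivity)
            rw [neg_div, Real.rpow_neg (by positivity), Real.inv_rpow (by positivity), inv_inv]
            apply Real.rpow_le_rpow (by positivity) _ (by norm_num)
            refine le_trans ?_ (hnP a b hab)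
            rw [div_le_iff₀ (by positivity)]
            calc (nm a : ℝ) = nm a * 1 * 1 := by ring
              _ ≤ nm a * nm b * nm b := by gcongr)
  have b2 := dsum_le (m₁ := m₁) (m₂ := d * m₂) (fun a b => P a b)
    (fun a b => ((MabG g L d m₂ a b : ℝ) : ℂ))
    (B := pC * (3 * c0) * (L ^ ((2 : ℝ) / 3) * β) * (nm (d * m₂) : ℝ) ^ (-(1 : ℝ) / 3))
    (by positivity) (by
      intro b hb a ha hab
      have ha' := (mem_dvs hM2.ne_zero).1 ha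
      have hb' := (mem_dvs h1.ne_zero).1 hb
      have pa : (0 : ℝ) < nm a := by exact_mod_cast nm_pos.2 ha'.1.ne_zero
      have pb : (0 : ℝ) < nm b := by exact_mod_cast nm_pos.2 hb'.1.ne_zero
      rw [Complex.norm_real, MabG_eq hL hg0 h1.ne_zero hM2.ne_zero ha hb, Real.norm_of_nonneg
        (by positivity)]
      have e1 := hP a b ha'.1 hb'.1 hab
      calc pC * (3 * c0) * ((nm g : ℝ) ^ (-(1 : ℝ) / 3) *
            (nm (d * m₂) : ℝ) ^ (-(1 : ℝ) / 3)) * L ^ ((2 : ℝ) / 3) *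
            ((1 / (nm a : ℝ)) * (1 / (nm b : ℝ)))
          ≤ pC * (3 * c0) * (1 * (nm (d * m₂) : ℝ) ^ (-(1 : ℝ) / 3)) * L ^ ((2 : ℝ) / 3) * β := by
            gcongr
        _ = _ := by ring)
  have e6 := n6_nm hM2.ne_zero
  set T3 := ∑ b ∈ dvs m₁, ∑ a ∈ (dvs (d * m₂)).filter (fun a => ¬ P a b),
    (muE a : ℂ) * (muE b : ℂ) * (TabG g L d m₂ a b - (MabG g L d m₂ a b : ℂ) - Du a b) with hT3
  set T2 := ∑ b ∈ dvs m₁, ∑ a ∈ (dvs (d * m₂)).filter (fun a => P a b),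
    (muE a : ℂ) * (muE b : ℂ) * ((MabG g L d m₂ a b : ℝ) : ℂ) with hT2
  have hT3' : T3 = (∑ b ∈ dvs m₁, ∑ a ∈ (dvs (d * m₂)).filter (fun a => ¬ P a b),
      (muE a : ℂ) * (muE b : ℂ) * TabG g L d m₂ a b) -
      (∑ b ∈ dvs m₁, ∑ a ∈ (dvs (d * m₂)).filter (fun a => ¬ P a b),
      (muE a : ℂ) * (muE b : ℂ) * ((MabG g L d m₂ a b : ℝ) : ℂ)) -
      ∑ b ∈ dvs m₁, ∑ a ∈ (dvs (d * m₂)).filter (fun a => ¬ P a b),
      (muE a : ℂ) * (muE b : ℂ) * Du a b := by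
    rw [hT3, ← Finset.sum_sub_distrib, ← Finset.sum_sub_distrib]
    refine Finset.sum_congr rfl fun b _ => ?_
    rw [← Finset.sum_sub_distrib, ← Finset.sum_sub_distrib]
    refine Finset.sum_congr rfl fun a _ => ?_
    ring
  have key : crs g L (d * m₁) (d * m₂) - (c : ℂ) *
          (∑ b ∈ dvs m₁, ∑ a ∈ (dvs (d * m₂)).filter (fun a => P a b),
            (muE a : ℂ) * (muE b : ℂ) * TabG g L d m₂ a b) - (c : ℂ) *
          (∑ b ∈ dvs m₁, ∑ a ∈ (dvs (d * m₂)).filter (fun a => ¬ P a b),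
            (muE a : ℂ) * (muE b : ℂ) * Du a b) =
      (c : ℂ) * T3 - (c : ℂ) * T2 - ((pC * (n6 (d * m₁) * n6 (d * m₂)) *
        (∑' l, ft3 g L (d * (m₁ * m₂)) l -
        n6 g ^ 2 * (3 * c0 * PE (d * (m₁ * m₂)) * L ^ ((2 : ℝ) / 3))) : ℝ) : ℂ) := by
    have e7 : (c : ℂ) * ((pC * (3 * c0) * ((nm g : ℝ) ^ (-(1 : ℝ) / 3) *
        (nm (d * m₂) : ℝ) ^ (-(1 : ℝ) / 3)) * L ^ ((2 : ℝ) / 3) * PE (d * (m₁ * m₂)) : ℝ) : ℂ) =
        ((pC * (n6 (d * m₁) * n6 (d * m₂)) *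
        (n6 g ^ 2 * (3 * c0 * PE (d * (m₁ * m₂)) * L ^ ((2 : ℝ) / 3))) : ℝ) : ℂ) := by
      rw [← Complex.ofReal_mul, ← e6, hcdef, n6_sq hg0]
      congr 1
      ring
    rw [emain] at eM
    rw [ecrs, hT3', eT]
    have e8 : ((pC * (n6 (d * m₁) * n6 (d * m₂)) * (∑' l, ft3 g L (d * (m₁ * m₂)) l -
        n6 g ^ 2 * (3 * c0 * PE (d * (m₁ * m₂)) * L ^ ((2 : ℝ) / 3))) : ℝ) : ℂ) =
        ((pC * (n6 (d * m₁) * n6 (d * m₂)) * ∑' l, ft3 g L (d * (m₁ * m₂)) l : ℝ) : ℂ) -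
        ((pC * (n6 (d * m₁) * n6 (d * m₂)) *
        (n6 g ^ 2 * (3 * c0 * PE (d * (m₁ * m₂)) * L ^ ((2 : ℝ) / 3))) : ℝ) : ℂ) := by
      push_cast; ring
    rw [e8, ← e7]
    linear_combination (-(c : ℂ)) * eM
  rw [key]
  have n1 : ‖(c : ℂ)‖ = c := by rw [Complex.norm_real, Real.norm_of_nonneg hc0]
  have n2 : ‖((pC * (n6 (d * m₁) * n6 (d * m₂)) * (∑' l, ft3 g L (d * (m₁ * m₂)) l -
        n6 g ^ 2 * (3 * c0 * PE (d * (m₁ * m₂)) * L ^ ((2 : ℝ) / 3))) : ℝ) : ℂ)‖ ≤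
      n6 (d * m₁) * n6 (d * m₂) * (pC * (C₀ * tau g * (tau (d * (m₁ * m₂) * g) : ℝ) ^ k *
          (L ^ ((1 : ℝ) / 3) * (1 + Real.log (1 + L))))) := by
    rw [Complex.norm_real, Real.norm_eq_abs, abs_mul, abs_of_nonneg (by positivity)]
    calc pC * (n6 (d * m₁) * n6 (d * m₂)) * |∑' l, ft3 g L (d * (m₁ * m₂)) l -
          n6 g ^ 2 * (3 * c0 * PE (d * (m₁ * m₂)) * L ^ ((2 : ℝ) / 3))|
        ≤ pC * (n6 (d * m₁) * n6 (d * m₂)) * (C₀ * tau g * (tau (d * (m₁ * m₂) * g) : ℝ) ^ k *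
          (L ^ ((1 : ℝ) / 3) * (1 + Real.log (1 + L)))) :=
          mul_le_mul_of_nonneg_left hft (by positivity)
      _ = _ := by ring
  have m3 : ‖(c : ℂ) * T3‖ ≤ n6 (d * m₁) * n6 (d * m₂) *
      (tau m₁ * tau (d * m₂) * (E * K ^ ((1 : ℝ) / 3))) := by
    rw [norm_mul, n1]
    calc c * ‖T3‖ ≤ c * (tau m₁ * tau (d * m₂) *
          (E * (K ^ ((1 : ℝ) / 3) * (nm (d * m₂) : ℝ) ^ (-(1 : ℝ) / 3)))) :=
          mul_le_mul_of_nonneg_left b3 hc0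
      _ = _ := by rw [← e6, hcdef]; ring
  have m2 : ‖(c : ℂ) * T2‖ ≤ n6 (d * m₁) * n6 (d * m₂) * (tau m₁ * tau (d * m₂) *
      (pC * (3 * c0) * (L ^ ((2 : ℝ) / 3) * β))) := by
    rw [norm_mul, n1]
    calc c * ‖T2‖ ≤ c * (tau m₁ * tau (d * m₂) *
          (pC * (3 * c0) * (L ^ ((2 : ℝ) / 3) * β) * (nm (d * m₂) : ℝ) ^ (-(1 : ℝ) / 3))) :=
          mul_le_mul_of_nonneg_left b2 hc0
      _ = _ := by rw [← e6, hcdef]; ring
  calc _ ≤ ‖(c : ℂ) * T3‖ + ‖(c : ℂ) * T2‖ + ‖((pC * (n6 (d * m₁) * n6 (d * m₂)) *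
        (∑' l, ft3 g L (d * (m₁ * m₂)) l -
        n6 g ^ 2 * (3 * c0 * PE (d * (m₁ * m₂)) * L ^ ((2 : ℝ) / 3))) : ℝ) : ℂ)‖ :=
        (norm_sub_le _ _).trans (add_le_add (norm_sub_le _ _) le_rfl)
    _ ≤ _ := add_le_add (add_le_add m3 m2) n2
    _ = _ := by ring

end Crest.Agent.R017.X6Q848
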