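import Crest.Agent.R017.X6Q2_848
import Crest.Agent.R012.LatW_413

/-!
# Row 17, exceptional class, X6 at `r = g`, polar cancellation, part 3 (helper848)

`polarG : PolarG`.
-/

set_option autoImplicit false

noncomputable section

open scoped ComplexConjugate

namespace Crest.Agent.R017.X6Q848

open Crest.Agent.R012 hiding crs
open Crest.Agent.R012.Eis Crest.Agent.R012.Gauss880
open Crest.Agent.R012.LS2 Crest.Agent.R012.Div277 Crest.Agent.R012.Mob705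
open Crest.Agent.R017.PX764
open Crest.Agent.R017.PA842 (Supp)
open Crest.Agent.R017.PX6 (CrossT CopG P3all_g)
open Crest.Agent.R017.P3all283 (c0 ft3 summable_ft3 norm_th_le c0_pos)
open Crest.Agent.R017.X6A848 Crest.Agent.R017.X6P848

lemma rpow_le_sum {N L s t : ℝ} (hN : 1 ≤ N) (hL : 1 ≤ L) (hs : 0 ≤ s) (ht : 0 ≤ t)
    (hst : s + t ≤ 1) : N ^ s * L ^ t ≤ N + L := by
  have hS : 1 ≤ N + L := by linarith
  calc N ^ s * L ^ t ≤ (N + L) ^ s * (N + L) ^ t :=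
        mul_le_mul (Real.rpow_le_rpow (by linarith) (by linarith) hs)
          (Real.rpow_le_rpow (by linarith) (by linarith) ht) (by positivity) (by positivity)
    _ = (N + L) ^ (s + t) := by rw [← Real.rpow_add (by linarith)]
    _ ≤ (N + L) ^ (1 : ℝ) := Real.rpow_le_rpow_of_exponent_le hS hst
    _ = _ := Real.rpow_one _

lemma M6_le {M N L δ R s t : ℝ} (hδ : 0 < δ) (hM : 1 ≤ M) (hN : 1 ≤ N) (hL : 1 ≤ L)
    (hMN : M ≤ N ^ 2) (hs : 0 ≤ s) (ht : 0 ≤ t) (hst : s + t ≤ 1) (hR : R = N ^ (s - 2 / 3) * L ^ t) :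
    M ^ (-(1 : ℝ) / 6) * R ≤ M ^ (-(1 + δ)) * N ^ (2 * δ) * (N * (N + L)) := by
  have hN0 : 0 < N := by linarith
  have hM0 : 0 < M := by linarith
  have h1 := M_le (δ := δ) (σ := 1 / 6) hM hN hMN (by linarith)
  have e0 : M ^ (-(1 : ℝ) / 6) = M ^ (-((1 : ℝ) / 6)) := by norm_num
  rw [e0, hR]
  have e1 : N ^ (2 * (1 + δ - 1 / 6)) * N ^ (s - 2 / 3) = N ^ (2 * δ) * (N * N ^ s) := by
    have : N * N ^ s = N ^ (1 + s) := by rw [Real.rpow_add hN0, Real.rpow_one]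
    rw [this, ← Real.rpow_add hN0, ← Real.rpow_add hN0]; congr 1; ring
  calc M ^ (-((1 : ℝ) / 6)) * (N ^ (s - 2 / 3) * L ^ t)
      ≤ (M ^ (-(1 + δ)) * N ^ (2 * (1 + δ - 1 / 6))) * (N ^ (s - 2 / 3) * L ^ t) :=
        mul_le_mul_of_nonneg_right h1 (by positivity)
    _ = M ^ (-(1 + δ)) * (N ^ (2 * (1 + δ - 1 / 6)) * N ^ (s - 2 / 3)) * L ^ t := by ring
    _ = M ^ (-(1 + δ)) * N ^ (2 * δ) * (N * (N ^ s * L ^ t)) := by rw [e1]; ring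
    _ ≤ _ := by
        have := rpow_le_sum hN hL hs ht hst
        gcongr

lemma core_absG {m V k3 E P Q t₁ t₂ T₁ T₂ D y2 y1 y3 B A3 Lg : ℝ}
    (hV : 0 ≤ V) (hE : 0 ≤ E) (hP : 0 ≤ P) (hQ : 0 ≤ Q)
    (hT1 : 0 ≤ T₁) (hT2 : 0 ≤ T₂) (ht10 : 0 ≤ t₁) (ht20 : 0 ≤ t₂) (ht1 : t₁ ≤ T₁ * y2)
    (ht2 : t₂ ≤ T₂ * y2) (hy2 : 0 ≤ y2) (hD : 0 ≤ D) (h23 : y2 ≤ y3) (h21 : y2 * y1 ≤ y3)
    (hL0 : 0 ≤ Lg) (hL : Lg ≤ D * y1)
    (i1 : m * k3 ≤ V) (i2 : m * B ≤ 2 * V) (i3 : m * A3 ≤ V) :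
    m * (t₁ * (E * k3 + P * B) + Q * t₂ * (A3 * Lg)) ≤
      ((T₁ * (1 + 2 * P) + Q * T₂ * D) * (1 + E)) * (y3 * V) := by
  have hy3 : 0 ≤ y3 := hy2.trans h23
  have ht1' : t₁ ≤ T₁ * y3 := ht1.trans (mul_le_mul_of_nonneg_left h23 hT1)
  have j1 : t₁ * E * (m * k3) ≤ T₁ * E * (y3 * V) := by
    calc t₁ * E * (m * k3) ≤ t₁ * E * V := mul_le_mul_of_nonneg_left i1 (mul_nonneg ht10 hE)
      _ ≤ (T₁ * y3) * E * V :=
          mul_le_mul_of_nonneg_right (mul_le_mul_of_nonneg_right ht1' hE) hV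
      _ = _ := by ring
  have j2 : t₁ * P * (m * B) ≤ 2 * T₁ * P * (y3 * V) := by
    calc t₁ * P * (m * B) ≤ t₁ * P * (2 * V) := mul_le_mul_of_nonneg_left i2 (mul_nonneg ht10 hP)
      _ ≤ (T₁ * y3) * P * (2 * V) :=
          mul_le_mul_of_nonneg_right (mul_le_mul_of_nonneg_right ht1' hP) (by linarith)
      _ = _ := by ring
  have j3 : Q * (t₂ * Lg) * (m * A3) ≤ Q * T₂ * D * (y3 * V) := by
    have h2 : t₂ * Lg ≤ T₂ * D * y3 := by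
      calc t₂ * Lg ≤ (T₂ * y2) * (D * y1) := mul_le_mul ht2 hL hL0 (mul_nonneg hT2 hy2)
        _ = T₂ * D * (y2 * y1) := by ring
        _ ≤ _ := mul_le_mul_of_nonneg_left h21 (mul_nonneg hT2 hD)
    calc Q * (t₂ * Lg) * (m * A3) ≤ Q * (t₂ * Lg) * V :=
          mul_le_mul_of_nonneg_left i3 (mul_nonneg hQ (mul_nonneg ht20 hL0))
      _ ≤ Q * (T₂ * D * y3) * V :=
          mul_le_mul_of_nonneg_right (mul_le_mul_of_nonneg_left h2 hQ) hV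
      _ = _ := by ring
  have hW : 0 ≤ y3 * V := mul_nonneg hy3 hV
  calc m * (t₁ * (E * k3 + P * B) + Q * t₂ * (A3 * Lg))
      = t₁ * E * (m * k3) + t₁ * P * (m * B) + Q * (t₂ * Lg) * (m * A3) := by ring
    _ ≤ T₁ * E * (y3 * V) + 2 * T₁ * P * (y3 * V) + Q * T₂ * D * (y3 * V) :=
        add_le_add (add_le_add j1 j2) j3
    _ = (T₁ * E + 2 * T₁ * P + Q * T₂ * D) * (y3 * V) := by ring
    _ ≤ _ := by
        refine mul_le_mul_of_nonneg_right ?_ hW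
        have k1 : 0 ≤ T₁ * P * E := mul_nonneg (mul_nonneg hT1 hP) hE
        have k2 : 0 ≤ Q * T₂ * D * E := mul_nonneg (mul_nonneg (mul_nonneg hQ hT2) hD) hE
        have k3 : (T₁ * (1 + 2 * P) + Q * T₂ * D) * (1 + E) =
          (T₁ * E + 2 * T₁ * P + Q * T₂ * D) + (T₁ + 2 * (T₁ * P * E) + Q * T₂ * D * E) := by ring
        rw [k3]
        linarith

/-- **one pair, real inequality** -/
lemma pair_realG {a₁ a₂ N L Y δ E P Q t₁ t₂ β : ℝ} (hδ : 0 < δ) (h1 : 1 ≤ a₁) (h2 : 1 ≤ a₂)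
    (h1N : a₁ ≤ N) (h2N : a₂ ≤ N) (hL : 1 ≤ L) (hNY : N ≤ Y) (hLY : L ≤ Y)
    (hE : 0 ≤ E) (hP : 0 ≤ P) (hQ : 0 ≤ Q) {T₁ T₂ : ℝ} (hT1 : 0 ≤ T₁) (hT2 : 0 ≤ T₂)
    (ht10 : 0 ≤ t₁) (ht20 : 0 ≤ t₂)
    (hβ : L ^ ((2 : ℝ) / 3) * β ≤ L ^ ((2 : ℝ) / 3) * N ^ (-((1 : ℝ) / 2)) + L ^ ((1 : ℝ) / 6))
    (ht1 : t₁ ≤ T₁ * Y ^ (2 * δ)) (ht2 : t₂ ≤ T₂ * Y ^ (2 * δ)) :
    a₁ ^ (-(1 : ℝ) / 6) * a₂ ^ (-(1 : ℝ) / 6) *
      (t₁ * (E * (N ^ ((1 : ℝ) / 2)) ^ ((1 : ℝ) / 3) + P * (L ^ ((2 : ℝ) / 3) * β)) +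
        Q * t₂ * (L ^ ((1 : ℝ) / 3) * (1 + Real.log (1 + L)))) ≤
      a₁ ^ (-(1 + δ)) * a₂ ^ (-(1 + δ)) * ((T₁ * (1 + 2 * P) + Q * T₂ * (2 + 2 / δ)) * (1 + E) *
        Y ^ (5 * δ) * (N * (N + L))) := by
  have hN : 1 ≤ N := h1.trans h1N
  have ha1 : 0 < a₁ := by linarith
  have ha2 : 0 < a₂ := by linarith
  have hN0 : 0 < N := by linarith
  have hY : 1 ≤ Y := hN.trans hNY
  have hY0 : 0 < Y := by linarith
  have hL0 : 0 < L := by linarith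
  have hM1 : 1 ≤ a₁ * a₂ := by nlinarith
  have hM0 : 0 < a₁ * a₂ := by linarith
  have hMN : a₁ * a₂ ≤ N ^ 2 := by
    rw [pow_two]; exact mul_le_mul h1N h2N ha2.le hN0.le
  have eM2 : a₁ ^ (-(1 : ℝ) / 6) * a₂ ^ (-(1 : ℝ) / 6) = (a₁ * a₂) ^ (-(1 : ℝ) / 6) := by
    rw [Real.mul_rpow ha1.le ha2.le]
  have eM3 : a₁ ^ (-(1 + δ)) * a₂ ^ (-(1 + δ)) = (a₁ * a₂) ^ (-(1 + δ)) := by
    rw [Real.mul_rpow ha1.le ha2.le]
  rw [eM2, eM3]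
  have hlog := log_le (A := L) (N := Y) hδ hY hL0.le (by nlinarith)
  have hlog0 : 0 ≤ 1 + Real.log (1 + L) := by
    have := Real.log_nonneg (show (1 : ℝ) ≤ 1 + L by linarith); linarith
  set V : ℝ := (a₁ * a₂) ^ (-(1 + δ)) * N ^ (2 * δ) * (N * (N + L)) with hV
  have hV0 : 0 ≤ V := by positivity
  have i1 : (a₁ * a₂) ^ (-(1 : ℝ) / 6) * (N ^ ((1 : ℝ) / 2)) ^ ((1 : ℝ) / 3) ≤ V := by
    refine M6_le (s := 5 / 6) (t := 0) hδ hM1 hN hL hMN (by norm_num) le_rfl (by norm_num) ?_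
    rw [← Real.rpow_mul hN0.le, Real.rpow_zero, mul_one]
    norm_num
  have i3 : (a₁ * a₂) ^ (-(1 : ℝ) / 6) * L ^ ((1 : ℝ) / 3) ≤ V := by
    refine M6_le (s := 2 / 3) (t := 1 / 3) hδ hM1 hN hL hMN (by norm_num) (by norm_num)
      (by norm_num) ?_
    rw [sub_self, Real.rpow_zero, one_mul]
  have i2a : (a₁ * a₂) ^ (-(1 : ℝ) / 6) * (L ^ ((2 : ℝ) / 3) * N ^ (-((1 : ℝ) / 2))) ≤ V := by
    refine M6_le (s := 1 / 6) (t := 2 / 3) hδ hM1 hN hL hMN (by norm_num) (by norm_num)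
      (by norm_num) ?_
    rw [mul_comm]
    norm_num
  have i2b : (a₁ * a₂) ^ (-(1 : ℝ) / 6) * L ^ ((1 : ℝ) / 6) ≤ V := by
    refine M6_le (s := 2 / 3) (t := 1 / 6) hδ hM1 hN hL hMN (by norm_num) (by norm_num)
      (by norm_num) ?_
    rw [sub_self, Real.rpow_zero, one_mul]
  have i2 : (a₁ * a₂) ^ (-(1 : ℝ) / 6) * (L ^ ((2 : ℝ) / 3) * β) ≤ 2 * V := by
    calc (a₁ * a₂) ^ (-(1 : ℝ) / 6) * (L ^ ((2 : ℝ) / 3) * β)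
        ≤ (a₁ * a₂) ^ (-(1 : ℝ) / 6) *
          (L ^ ((2 : ℝ) / 3) * N ^ (-((1 : ℝ) / 2)) + L ^ ((1 : ℝ) / 6)) :=
          mul_le_mul_of_nonneg_left hβ (by positivity)
      _ = (a₁ * a₂) ^ (-(1 : ℝ) / 6) * (L ^ ((2 : ℝ) / 3) * N ^ (-((1 : ℝ) / 2))) +
          (a₁ * a₂) ^ (-(1 : ℝ) / 6) * L ^ ((1 : ℝ) / 6) := by ring
      _ ≤ V + V := add_le_add i2a i2b
      _ = _ := by ring
  have h := core_absG (m := (a₁ * a₂) ^ (-(1 : ℝ) / 6)) (V := V)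
    (k3 := (N ^ ((1 : ℝ) / 2)) ^ ((1 : ℝ) / 3)) (E := E) (P := P) (Q := Q) (t₁ := t₁) (t₂ := t₂)
    (T₁ := T₁) (T₂ := T₂) (D := 2 + 2 / δ) (y2 := Y ^ (2 * δ)) (y1 := Y ^ δ) (y3 := Y ^ (3 * δ))
    (B := L ^ ((2 : ℝ) / 3) * β) (A3 := L ^ ((1 : ℝ) / 3)) (Lg := 1 + Real.log (1 + L))
    hV0 hE hP hQ hT1 hT2 ht10 ht20 ht1 ht2 (by positivity) (by positivity)
    (Real.rpow_le_rpow_of_exponent_le hY (by linarith))
    (by rw [← Real.rpow_add hY0]; apply le_of_eq; congr 1; ring) hlog0 hlog i1 i2 i3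
  refine h.trans ?_
  have h2N' : N ^ (2 * δ) ≤ Y ^ (2 * δ) := Real.rpow_le_rpow hN0.le hNY (by positivity)
  have hVY : Y ^ (3 * δ) * V ≤ (a₁ * a₂) ^ (-(1 + δ)) * (Y ^ (5 * δ) * (N * (N + L))) := by
    have e5 : Y ^ (5 * δ) = Y ^ (3 * δ) * Y ^ (2 * δ) := by
      rw [← Real.rpow_add hY0]; congr 1; ring
    rw [hV, e5]
    calc Y ^ (3 * δ) * ((a₁ * a₂) ^ (-(1 + δ)) * N ^ (2 * δ) * (N * (N + L)))
        ≤ Y ^ (3 * δ) * ((a₁ * a₂) ^ (-(1 + δ)) * Y ^ (2 * δ) * (N * (N + L))) := by gcongr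
      _ = _ := by ring
  have hC : 0 ≤ (T₁ * (1 + 2 * P) + Q * T₂ * (2 + 2 / δ)) * (1 + E) := by positivity
  calc (T₁ * (1 + 2 * P) + Q * T₂ * (2 + 2 / δ)) * (1 + E) * (Y ^ (3 * δ) * V)
      ≤ (T₁ * (1 + 2 * P) + Q * T₂ * (2 + 2 / δ)) * (1 + E) *
        ((a₁ * a₂) ^ (-(1 + δ)) * (Y ^ (5 * δ) * (N * (N + L)))) :=
        mul_le_mul_of_nonneg_left hVY hC
    _ = _ := by ring

end Crest.Agent.R017.X6Q848
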