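import Crest.Agent.R017.X6Q3_848

/-!
# Row 17, exceptional class, X6 at `r = g`, polar cancellation, part 4 (helper848)

`polarG : PolarG`.
-/

set_option autoImplicit false

noncomputable section

open scoped ComplexConjugate

namespace Crest.Agent.R017.X6Q848

open Crest.Agent.R012 hiding crs
open Crest.Agent.R012.Eis Crest.Agent.R012.Gauss880
open Crest.Agent.R012.LS2 Crest.Agent.R012.Div277 Crest.Agent.R012.Mob705
open Crest.Agent.R017.PX764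
open Crest.Agent.R017.PA842 (Supp)
open Crest.Agent.R017.PX6 (CrossT CopG P3all_g)
open Crest.Agent.R017.P3all283 (c0 ft3 summable_ft3 norm_th_le c0_pos)
open Crest.Agent.R017.X6A848 Crest.Agent.R017.X6P848

lemma n6_mul_le {d m : Eis} (hd : d ≠ 0) : n6 (d * m) ≤ (nm m : ℝ) ^ (-(1 : ℝ) / 6) := by
  rw [n6_mul]
  have h1 := n6_le_one hd
  have h2 : 0 ≤ n6 m := by unfold n6; positivity
  calc n6 d * n6 m ≤ 1 * n6 m := mul_le_mul_of_nonneg_right h1 h2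
    _ = _ := one_mul _

/-- the pair bound with the weights -/
lemma pair_bdG {δ Ct C₀ : ℝ} {k : ℕ} (hδ : 0 < δ) (hC₀ : 0 ≤ C₀) (hCt : 1 ≤ Ct)
    (hτ : ∀ n : Eis, n ≠ 0 → (tau n : ℝ) ≤ Ct * (nm n : ℝ) ^ (δ / (k + 1)))
    (hP3 : ∀ g : Eis, IsPrim g → Squarefree g →
      ∀ (A : ℝ) (b : Eis), 0 < A → IsPrim b → IsCoprime g b →
      |∑' l, ft3 g A b l - n6 g ^ 2 * (3 * c0 * PE b * A ^ ((2 : ℝ) / 3))| ≤
        C₀ * tau g * (tau (b * g) : ℝ) ^ k * (A ^ ((1 : ℝ) / 3) * (1 + Real.log (1 + A))))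
    {L N Y E : ℝ} (hL : 1 ≤ L) (hE : 0 ≤ E) (hLY : L ≤ Y) (hNY : N ≤ Y) {g d m₁ m₂ : Eis}
    (hg : IsPrim g) (sg : Squarefree g) (hd : IsPrim d)
    (h1 : IsPrim m₁) (s1 : Squarefree (d * m₁)) (h2 : IsPrim m₂) (s2 : Squarefree (d * m₂))
    (h1N : (nm m₁ : ℝ) ≤ N) (h2N : (nm m₂ : ℝ) ≤ N) (hdY : (nm (d * m₂) : ℝ) ≤ Y)
    (hgY : (nm g : ℝ) ≤ Y) (hdg : (nm (d * (m₁ * m₂) * g) : ℝ) ≤ Y ^ 2)
    (hc : IsCoprime m₁ m₂) (g1 : IsCoprime g (d * m₁)) (g2 : IsCoprime g (d * m₂))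
    (P : Eis → Eis → Prop) [∀ a b, Decidable (P a b)] [∀ a b, Decidable (¬ P a b)]
    (hP : ∀ a b : Eis, P a b → N ^ ((1 : ℝ) / 2) ≤ (nm a : ℝ) * nm b ∨ L ≤ (nm a : ℝ) ^ 2 * nm b)
    (hnP : ∀ a b : Eis, ¬ P a b → (nm a : ℝ) * nm b ≤ N ^ ((1 : ℝ) / 2))
    (Du : Eis → Eis → ℂ)
    (hDu : ∀ b ∈ dvs m₁, ∀ a ∈ dvs (d * m₂), ¬ P a b →
      ‖TabG g L d m₂ a b - (MabG g L d m₂ a b : ℂ) - Du a b‖ ≤
        E * (nm (g * (((d * m₂) / a) * b)) : ℝ) ^ (-(1 : ℝ) / 3)) :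
    ‖crs g L (d * m₁) (d * m₂) -
        ((n6 (d * m₁) * (nm (d * m₂) : ℝ) ^ ((1 : ℝ) / 6) : ℝ) : ℂ) *
          (∑ b ∈ dvs m₁, ∑ a ∈ (dvs (d * m₂)).filter (fun a => P a b),
            (muE a : ℂ) * (muE b : ℂ) * TabG g L d m₂ a b) -
        ((n6 (d * m₁) * (nm (d * m₂) : ℝ) ^ ((1 : ℝ) / 6) : ℝ) : ℂ) *
          (∑ b ∈ dvs m₁, ∑ a ∈ (dvs (d * m₂)).filter (fun a => ¬ P a b),
            (muE a : ℂ) * (muE b : ℂ) * Du a b)‖ ≤
      (nm m₁ : ℝ) ^ (-(1 + δ)) * (nm m₂ : ℝ) ^ (-(1 + δ)) *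
        ((Ct ^ 2 * (1 + 2 * (pC * (3 * c0))) + (pC * C₀) * Ct ^ (k + 1) * (2 + 2 / δ)) * (1 + E) *
        Y ^ (5 * δ) * (N * (N + L))) := by
  have p1 : (1 : ℝ) ≤ nm m₁ := by exact_mod_cast nm_pos.2 h1.ne_zero
  have p2 : (1 : ℝ) ≤ nm m₂ := by exact_mod_cast nm_pos.2 h2.ne_zero
  have hN : 1 ≤ N := p1.trans h1N
  have hN0 : 0 < N := by linarith
  have hL0 : 0 < L := by linarith
  have hY : 1 ≤ Y := hN.trans hNY
  have hY0 : 0 < Y := by linarith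
  have hpC := pC_pos
  have hc0 := c0_pos
  have hk : (0 : ℝ) < (k : ℝ) + 1 := by positivity
  have hM1 : IsPrim (d * m₁) := hd.mul h1
  have hM2 : IsPrim (d * m₂) := hd.mul h2
  -- the cut
  have hβ : ∀ a b : Eis, IsPrim a → IsPrim b → P a b →
      (1 / (nm a : ℝ)) * (1 / (nm b : ℝ)) ≤ N ^ (-((1 : ℝ) / 2)) + L ^ (-((1 : ℝ) / 2)) := by
    intro a b ha hb hab
    have pa : (1 : ℝ) ≤ nm a := by exact_mod_cast nm_pos.2 ha.ne_zero
    have pb : (1 : ℝ) ≤ nm b := by exact_mod_cast nm_pos.2 hb.ne_zero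
    have q1 : 0 < N ^ (-((1 : ℝ) / 2)) := by positivity
    have q2 : 0 < L ^ (-((1 : ℝ) / 2)) := by positivity
    rw [one_div_mul_one_div]
    rcases hP a b hab with h | h
    · have : 1 / ((nm a : ℝ) * nm b) ≤ N ^ (-((1 : ℝ) / 2)) := by
        rw [Real.rpow_neg hN0.le, ← one_div]
        exact one_div_le_one_div_of_le (by positivity) h
      linarith
    · have h3 : L ^ ((1 : ℝ) / 2) ≤ (nm a : ℝ) * nm b := by
        have h4 : L ≤ ((nm a : ℝ) * nm b) ^ 2 := by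
          refine h.trans ?_
          calc (nm a : ℝ) ^ 2 * nm b = (nm a : ℝ) ^ 2 * (nm b * 1) := by ring
            _ ≤ (nm a : ℝ) ^ 2 * (nm b * nm b) := by gcongr
            _ = _ := by ring
        calc L ^ ((1 : ℝ) / 2) ≤ (((nm a : ℝ) * nm b) ^ 2) ^ ((1 : ℝ) / 2) :=
              Real.rpow_le_rpow hL0.le h4 (by norm_num)
          _ = (nm a : ℝ) * nm b := by
              rw [← Real.rpow_natCast, ← Real.rpow_mul (by positivity)]
              norm_num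
      have : 1 / ((nm a : ℝ) * nm b) ≤ L ^ (-((1 : ℝ) / 2)) := by
        rw [Real.rpow_neg hL0.le, ← one_div]
        exact one_div_le_one_div_of_le (by positivity) h3
      linarith
  have hbr := bracket_leG hP3 (L := L) (K := N ^ ((1 : ℝ) / 2))
    (β := N ^ (-((1 : ℝ) / 2)) + L ^ (-((1 : ℝ) / 2))) hL0 (by positivity) hE (by positivity)
    hg sg hd h1 s1 h2 s2 hc g1 g2 P hβ hnP Du hDu
  refine hbr.trans ?_
  -- divisor bounds
  have t0 : ∀ m : Eis, m ≠ 0 → (nm m : ℝ) ≤ Y → (tau m : ℝ) ≤ Ct * Y ^ (δ / (k + 1)) := by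
    intro m hm hmY
    refine (hτ m hm).trans (mul_le_mul_of_nonneg_left ?_ (by linarith))
    exact Real.rpow_le_rpow (Nat.cast_nonneg _) hmY (by positivity)
  have hδk : δ / (k + 1) ≤ δ := by
    apply div_le_self hδ.le
    have : (0 : ℝ) ≤ k := Nat.cast_nonneg _
    linarith
  have t0' : ∀ m : Eis, m ≠ 0 → (nm m : ℝ) ≤ Y → (tau m : ℝ) ≤ Ct * Y ^ δ := by
    intro m hm hmY
    refine (t0 m hm hmY).trans (mul_le_mul_of_nonneg_left ?_ (by linarith))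
    exact Real.rpow_le_rpow_of_exponent_le hY hδk
  have t11 : (tau m₁ : ℝ) * tau (d * m₂) ≤ Ct ^ 2 * Y ^ (2 * δ) := by
    calc (tau m₁ : ℝ) * tau (d * m₂) ≤ (Ct * Y ^ δ) * (Ct * Y ^ δ) :=
          mul_le_mul (t0' _ h1.ne_zero (h1N.trans hNY)) (t0' _ hM2.ne_zero hdY)
            (Nat.cast_nonneg _) (by positivity)
      _ = Ct ^ 2 * Y ^ (2 * δ) := by
          rw [show 2 * δ = δ + δ by ring, Real.rpow_add hY0]; ring
  have hne : d * (m₁ * m₂) * g ≠ 0 :=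
    mul_ne_zero (mul_ne_zero hd.ne_zero (mul_ne_zero h1.ne_zero h2.ne_zero)) hg.ne_zero
  have tk : (tau (d * (m₁ * m₂) * g) : ℝ) ≤ Ct * Y ^ (2 * (δ / (k + 1))) := by
    refine (hτ _ hne).trans (mul_le_mul_of_nonneg_left ?_ (by linarith))
    calc (nm (d * (m₁ * m₂) * g) : ℝ) ^ (δ / (k + 1)) ≤ (Y ^ 2) ^ (δ / (k + 1)) :=
          Real.rpow_le_rpow (Nat.cast_nonneg _) hdg (by positivity)
      _ = _ := by rw [← Real.rpow_natCast, ← Real.rpow_mul hY0.le]; norm_num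
  have t12 : (tau g : ℝ) * (tau (d * (m₁ * m₂) * g) : ℝ) ^ k ≤ Ct ^ (k + 1) * Y ^ (2 * δ) := by
    calc (tau g : ℝ) * (tau (d * (m₁ * m₂) * g) : ℝ) ^ k
        ≤ (Ct * Y ^ (δ / (k + 1))) * (Ct * Y ^ (2 * (δ / (k + 1)))) ^ k :=
          mul_le_mul (t0 g hg.ne_zero hgY) (pow_le_pow_left₀ (Nat.cast_nonneg _) tk k)
            (by positivity) (by positivity)
      _ = Ct ^ (k + 1) * Y ^ (δ / (k + 1) + 2 * (δ / (k + 1)) * k) := by
          rw [mul_pow, ← Real.rpow_natCast (Y ^ (2 * (δ / (k + 1)))), ← Real.rpow_mul hY0.le,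
            Real.rpow_add hY0]
          ring
      _ ≤ Ct ^ (k + 1) * Y ^ (2 * δ) := by
          refine mul_le_mul_of_nonneg_left ?_ (by positivity)
          apply Real.rpow_le_rpow_of_exponent_le hY
          have e1 : δ / (k + 1) + 2 * (δ / (k + 1)) * k = δ * ((2 * k + 1) / (k + 1)) := by ring
          have e2 : (2 * (k : ℝ) + 1) / (k + 1) ≤ 2 := by
            rw [div_le_iff₀ hk]; linarith
          rw [e1]
          nlinarith
  have hβ' : L ^ ((2 : ℝ) / 3) * (N ^ (-((1 : ℝ) / 2)) + L ^ (-((1 : ℝ) / 2))) ≤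
      L ^ ((2 : ℝ) / 3) * N ^ (-((1 : ℝ) / 2)) + L ^ ((1 : ℝ) / 6) := by
    rw [mul_add, ← Real.rpow_add hL0]
    norm_num
  have h := pair_realG (a₁ := nm m₁) (a₂ := nm m₂) (N := N) (L := L) (Y := Y) (δ := δ) (E := E)
    (P := pC * (3 * c0)) (Q := pC * C₀) (t₁ := (tau m₁ : ℝ) * tau (d * m₂))
    (t₂ := (tau g : ℝ) * (tau (d * (m₁ * m₂) * g) : ℝ) ^ k)
    (β := N ^ (-((1 : ℝ) / 2)) + L ^ (-((1 : ℝ) / 2))) hδ
    p1 p2 h1N h2N hL hNY hLY hE (by positivity) (by positivity) (T₁ := Ct ^ 2)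
    (T₂ := Ct ^ (k + 1)) (by positivity) (by positivity)
    (by positivity) (by positivity) hβ' t11 t12
  refine le_trans ?_ h
  have hlog0 : 0 ≤ 1 + Real.log (1 + L) := by
    have := Real.log_nonneg (show (1 : ℝ) ≤ 1 + L by linarith); linarith
  have z1 : 0 ≤ n6 (d * m₁) := (n6_pos hM1.ne_zero).le
  have z2 : 0 ≤ n6 (d * m₂) := (n6_pos hM2.ne_zero).le
  have z3 : n6 (d * m₁) * n6 (d * m₂) ≤
      (nm m₁ : ℝ) ^ (-(1 : ℝ) / 6) * (nm m₂ : ℝ) ^ (-(1 : ℝ) / 6) :=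
    mul_le_mul (n6_mul_le hd.ne_zero) (n6_mul_le hd.ne_zero) z2 (by positivity)
  have e9 : (tau m₁ : ℝ) * tau (d * m₂) * (E * (N ^ ((1 : ℝ) / 2)) ^ ((1 : ℝ) / 3) +
          pC * (3 * c0) * (L ^ ((2 : ℝ) / 3) * (N ^ (-((1 : ℝ) / 2)) + L ^ (-((1 : ℝ) / 2))))) +
        pC * (C₀ * tau g * (tau (d * (m₁ * m₂) * g) : ℝ) ^ k *
          (L ^ ((1 : ℝ) / 3) * (1 + Real.log (1 + L)))) =
      (tau m₁ : ℝ) * tau (d * m₂) * (E * (N ^ ((1 : ℝ) / 2)) ^ ((1 : ℝ) / 3) +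
          pC * (3 * c0) * (L ^ ((2 : ℝ) / 3) * (N ^ (-((1 : ℝ) / 2)) + L ^ (-((1 : ℝ) / 2))))) +
        pC * C₀ * ((tau g : ℝ) * (tau (d * (m₁ * m₂) * g) : ℝ) ^ k) *
          (L ^ ((1 : ℝ) / 3) * (1 + Real.log (1 + L))) := by ring
  rw [e9]
  refine mul_le_mul_of_nonneg_right z3 ?_
  positivity

/-- **the polar cancellation at `r = g`** -/
theorem polarG : PolarG := by
  classical
  intro ε hε
  obtain ⟨C₀, k, hC₀, hP3⟩ := P3all_g
  set δ := ε / 5 with hδdef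
  have hδ : 0 < δ := by positivity
  obtain ⟨Ct, hCt, hτ⟩ := tau_le_rpow (ε := δ / (k + 1)) (by positivity)
  have hsum := LatSum413.summable_nm_rpow (s := 1 + δ) (by linarith)
  set Sd : ℝ := ∑' z : Eis, (nm z : ℝ) ^ (-(1 + δ)) with hSd
  have hSd0 : 0 ≤ Sd := tsum_nonneg fun z => by positivity
  have hpC := pC_pos
  have hc0 := c0_pos
  set C' : ℝ := Ct ^ 2 * (1 + 2 * (pC * (3 * c0))) + (pC * C₀) * Ct ^ (k + 1) * (2 + 2 / δ) with hC'
  have hC'0 : 0 ≤ C' := by positivity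
  refine ⟨C' * Sd ^ 2, by positivity, ?_⟩
  intro X L W E hX hL hW hE g hg sg w hw hcop hwW d hd P hP hnP Du hDu
  have hX0 : (0 : ℝ) ≤ X := by linarith
  have hL0 : (0 : ℝ) < L := by linarith
  rw [mem_S hX0] at hd
  have hdn : (1 : ℝ) ≤ nm d := by exact_mod_cast nm_pos.2 hd.2.1.ne_zero
  have hgn : (1 : ℝ) ≤ nm g := by exact_mod_cast nm_pos.2 hg.ne_zero
  have hdn0 : (0 : ℝ) < nm d := by linarith
  set N : ℝ := X / nm d with hN
  have hN1 : 1 ≤ N := by rw [hN, le_div_iff₀ hdn0]; linarith [hd.1]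
  have hN0 : 0 < N := by linarith
  have hNX : N ≤ X := div_le_self hX0 hdn
  set Y : ℝ := nm g * X * L with hYdef
  have hgX : 1 ≤ (nm g : ℝ) * X := one_le_mul_of_one_le_of_one_le hgn hX
  have hXY : X ≤ Y := by
    rw [hYdef]
    calc X = 1 * X * 1 := by ring
      _ ≤ nm g * X * L := by gcongr
  have hLY : L ≤ Y := by
    rw [hYdef]
    calc L = 1 * L := by ring
      _ ≤ nm g * X * L := by gcongr
  have hgY : (nm g : ℝ) ≤ Y := by
    rw [hYdef]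
    calc (nm g : ℝ) = nm g * 1 * 1 := by ring
      _ ≤ nm g * X * L := by gcongr
  have hNY : N ≤ Y := hNX.trans hXY
  have hY : 1 ≤ Y := hN1.trans hNY
  have hY0 : 0 < Y := by linarith
  have hV : 0 ≤ C' * (1 + E) * Y ^ (5 * δ) * (N * (N + L)) := by positivity
  have hws : ∀ m : Eis, ‖ws w X (d * m)‖ ≤ W := by
    intro m
    unfold ws
    split_ifs
    · exact hwW _
    · rw [norm_zero]; exact hW
  have hpair : ∀ m₁ ∈ S X, ∀ m₂ ∈ S X,
      ‖(if IsCoprime m₁ m₂ then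
        ws w X (d * m₁) * conj (ws w X (d * m₂)) * crs g L (d * m₁) (d * m₂) else 0) -
        (if IsCoprime m₁ m₂ then
          ws w X (d * m₁) * conj (ws w X (d * m₂)) *
            ((n6 (d * m₁) * (nm (d * m₂) : ℝ) ^ ((1 : ℝ) / 6) : ℝ) : ℂ) *
            ∑ b ∈ dvs m₁, ∑ a ∈ (dvs (d * m₂)).filter (fun a => P a b),
              (muE a : ℂ) * (muE b : ℂ) * TabG g L d m₂ a b else 0) -
        (if IsCoprime m₁ m₂ then
          ws w X (d * m₁) * conj (ws w X (d * m₂)) *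
            ((n6 (d * m₁) * (nm (d * m₂) : ℝ) ^ ((1 : ℝ) / 6) : ℝ) : ℂ) *
            ∑ b ∈ dvs m₁, ∑ a ∈ (dvs (d * m₂)).filter (fun a => ¬ P a b),
              (muE a : ℂ) * (muE b : ℂ) * Du m₁ m₂ a b else 0)‖ ≤
      W ^ 2 * ((nm m₁ : ℝ) ^ (-(1 + δ)) * (nm m₂ : ℝ) ^ (-(1 + δ)) *
        (C' * (1 + E) * Y ^ (5 * δ) * (N * (N + L)))) := by
    intro m₁ hm₁ m₂ hm₂
    have hRHS : 0 ≤ W ^ 2 * ((nm m₁ : ℝ) ^ (-(1 + δ)) * (nm m₂ : ℝ) ^ (-(1 + δ)) *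
        (C' * (1 + E) * Y ^ (5 * δ) * (N * (N + L)))) := by positivity
    by_cases hc : IsCoprime m₁ m₂
    · rw [if_pos hc, if_pos hc, if_pos hc]
      by_cases hs1 : ws w X (d * m₁) = 0
      · rw [hs1]
        simpa using hRHS
      by_cases hs2 : ws w X (d * m₂) = 0
      · rw [hs2]
        simpa using hRHS
      have hS1 : d * m₁ ∈ S X := by
        by_contra h; exact hs1 (by unfold ws; rw [if_neg h])
      have hS2 : d * m₂ ∈ S X := by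
        by_contra h; exact hs2 (by unfold ws; rw [if_neg h])
      have hw1 : w (d * m₁) ≠ 0 := by
        intro h; exact hs1 (by unfold ws; rw [if_pos hS1, h])
      have hw2 : w (d * m₂) ≠ 0 := by
        intro h; exact hs2 (by unfold ws; rw [if_pos hS2, h])
      have g1 := hcop _ hw1
      have g2 := hcop _ hw2
      have hm₁' := hm₁
      have hm₂' := hm₂
      rw [mem_S hX0] at hm₁' hm₂' hS1 hS2
      have h1N : (nm m₁ : ℝ) ≤ N := by
        rw [hN, le_div_iff₀ hdn0]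
        have := hS1.1
        rw [nm_mul] at this
        push_cast at this
        linarith
      have h2N : (nm m₂ : ℝ) ≤ N := by
        rw [hN, le_div_iff₀ hdn0]
        have := hS2.1
        rw [nm_mul] at this
        push_cast at this
        linarith
      have hdg : (nm (d * (m₁ * m₂) * g) : ℝ) ≤ Y ^ 2 := by
        have e1 : (nm (d * (m₁ * m₂) * g) : ℝ) = (nm (d * m₁) : ℝ) * (nm m₂ * nm g) := by
          rw [nm_mul, nm_mul, nm_mul, nm_mul]; push_cast; ring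
        rw [e1, pow_two]
        have h3 : (nm m₂ : ℝ) * nm g ≤ Y := by
          calc (nm m₂ : ℝ) * nm g ≤ X * nm g := by
                refine mul_le_mul_of_nonneg_right (h2N.trans hNX) (by linarith)
            _ = nm g * X * 1 := by ring
            _ ≤ nm g * X * L := by gcongr
        exact mul_le_mul (hS1.1.trans hXY) h3 (by positivity) hY0.le
      have h := pair_bdG hδ hC₀ hCt hτ hP3 hL hE hLY hNY hg sg hd.2.1 hm₁'.2.1 hS1.2.2 hm₂'.2.1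
        hS2.2.2 h1N h2N (hS2.1.trans hXY) hgY hdg hc g1 g2 P hP hnP (Du m₁ m₂)
        (fun b hb a ha hab => hDu m₁ hm₁ m₂ hm₂ hc h1N h2N hS1.2.2 hS2.2.2 g1 g2 b hb a ha hab)
      have efac : ∀ u v c A B D : ℂ, u * v * A - u * v * c * B - u * v * c * D =
          u * v * (A - c * B - c * D) := fun u v c A B D => by ring
      rw [efac, norm_mul, norm_mul]
      have n2 : ‖ws w X (d * m₁)‖ * ‖conj (ws w X (d * m₂))‖ ≤ W ^ 2 := by
        rw [RCLike.norm_conj, pow_two]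
        exact mul_le_mul (hws m₁) (hws m₂) (norm_nonneg _) hW
      exact mul_le_mul n2 h (norm_nonneg _) (by positivity)
    · rw [if_neg hc, if_neg hc, if_neg hc]
      simpa using hRHS
  -- summation
  have key : ‖CrossT X L g w d - ABG w X d P (fun _ m₂ a b => TabG g L d m₂ a b) -
        ABG w X d (fun a b => ¬ P a b) Du‖ ≤
      ∑ m₁ ∈ S X, ∑ m₂ ∈ S X, W ^ 2 * ((nm m₁ : ℝ) ^ (-(1 + δ)) * (nm m₂ : ℝ) ^ (-(1 + δ)) *
        (C' * (1 + E) * Y ^ (5 * δ) * (N * (N + L)))) := by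
    unfold CrossT ABG
    rw [← Finset.sum_sub_distrib, ← Finset.sum_sub_distrib]
    refine (norm_sum_le _ _).trans (Finset.sum_le_sum fun m₁ hm₁ => ?_)
    rw [← Finset.sum_sub_distrib, ← Finset.sum_sub_distrib]
    refine (norm_sum_le _ _).trans (Finset.sum_le_sum fun m₂ hm₂ => ?_)
    have h9 := hpair m₁ hm₁ m₂ hm₂
    refine le_trans (le_of_eq ?_) h9
    congr 4
    refine Finset.sum_congr rfl fun b _ => Finset.sum_congr ?_ fun _ _ => rfl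
    ext a
    simp only [Finset.mem_filter]
  refine key.trans ?_
  have hS : ∑ m ∈ S X, (nm m : ℝ) ^ (-(1 + δ)) ≤ Sd :=
    hsum.sum_le_tsum _ (fun z _ => by positivity)
  have hS0 : 0 ≤ ∑ m ∈ S X, (nm m : ℝ) ^ (-(1 + δ)) := Finset.sum_nonneg fun z _ => by positivity
  have e1 : ∑ m₁ ∈ S X, ∑ m₂ ∈ S X, W ^ 2 * ((nm m₁ : ℝ) ^ (-(1 + δ)) *
        (nm m₂ : ℝ) ^ (-(1 + δ)) * (C' * (1 + E) * Y ^ (5 * δ) * (N * (N + L)))) =
      ((∑ m ∈ S X, (nm m : ℝ) ^ (-(1 + δ))) * (∑ m ∈ S X, (nm m : ℝ) ^ (-(1 + δ)))) *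
        (W ^ 2 * (C' * (1 + E) * Y ^ (5 * δ) * (N * (N + L)))) := by
    rw [Finset.sum_mul_sum, Finset.sum_mul]
    refine Finset.sum_congr rfl fun m₁ _ => ?_
    rw [Finset.sum_mul]
    refine Finset.sum_congr rfl fun m₂ _ => ?_
    ring
  rw [e1]
  have e2 : 5 * δ = ε := by rw [hδdef]; ring
  rw [e2]
  calc ((∑ m ∈ S X, (nm m : ℝ) ^ (-(1 + δ))) * (∑ m ∈ S X, (nm m : ℝ) ^ (-(1 + δ)))) *
        (W ^ 2 * (C' * (1 + E) * Y ^ ε * (N * (N + L))))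
      ≤ (Sd * Sd) * (W ^ 2 * (C' * (1 + E) * Y ^ ε * (N * (N + L)))) := by
        refine mul_le_mul_of_nonneg_right (mul_le_mul hS hS hS0 hSd0) (by positivity)
    _ = C' * Sd ^ 2 * (1 + E) * Y ^ ε * (W ^ 2 * N * (N + L)) := by ring

end Crest.Agent.R017.X6Q848
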