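import Crest.Agent.R017.X6GI_180
import Crest.Agent.R017.X6Q4_848

/-!
# Row 17, exceptional class, X6 at `r = g`, dual part: assembly (helper848)

`dualG2_of : DualLeG → CorePG → DualG2`.
-/

set_option autoImplicit false

noncomputable section

open Complex MeasureTheory
open scoped ComplexConjugate

namespace Crest.Agent.R017.X6R848

open Crest.Agent.R012 Crest.Agent.R012.Eis Crest.Agent.R012.Gauss880
open Crest.Agent.R012.LS2 Crest.Agent.R012.Div277
open Crest.Agent.R017.PA842 (Supp)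
open Crest.Agent.R017.PX764 (th n6 Gh)
open Crest.Agent.R017.PX6 (CrossT CopG)
open Crest.Agent.R017.P3all283 (c0)
open Crest.Agent.R017.X6545 (SU Gw TT)
open Crest.Agent.R017.X6F848 (OmB')
open Crest.Agent.R017.X6W180 (Mel F1XS F1XS1)
open Crest.Agent.R017.X6G180

/-- `TabG` as a sum at the frequency `g u` -/
lemma TabG_T {g : Eis} {L : ℝ} {d m₂ a b : Eis} (hL : 0 < L) (ha : a ≠ 0) (hb : b ≠ 0) :
    X6Q848.TabG g L d m₂ a b = X6A848.T (fun x => th (1 * x))
      (fun x => ((Real.exp (-x / (L / ((nm a : ℝ) ^ 2 * nm b))) : ℝ) : ℂ)) 1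
      (g * (((d * m₂) / a) * b)) 1 := by
  have pa : (0 : ℝ) < nm a := by exact_mod_cast nm_pos.2 ha
  have pb : (0 : ℝ) < nm b := by exact_mod_cast nm_pos.2 hb
  unfold X6Q848.TabG X6A848.T
  refine tsum_congr fun l => ?_
  split_ifs with h
  · have e1 : g * (l * (d * m₂ / a * b)) = 1 * (l * (g * (d * m₂ / a * b))) := by ring
    have e2 : -((nm a : ℝ) ^ 2 * nm b * nm l) / L = -(1 * (nm l : ℝ)) / (L / ((nm a : ℝ) ^ 2 * nm b)) := by
      field_simp
    simp only [e1, e2]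
  · rfl

lemma sq_of_cop {a b : Eis} (h : IsCoprime a b) (ha : Squarefree a) (hb : Squarefree b) :
    Squarefree (a * b) := (PX764.sqf_mul h).2 ⟨ha, hb⟩

/-- the frequency is primary and squarefree -/
lemma u_good {g d m₁ m₂ a b : Eis} (hg : IsPrim g) (sg : Squarefree g) (hd : IsPrim d)
    (h1 : IsPrim m₁) (h2 : IsPrim m₂) (hc : IsCoprime m₁ m₂) (s1 : Squarefree (d * m₁))
    (s2 : Squarefree (d * m₂)) (g1 : IsCoprime g (d * m₁)) (g2 : IsCoprime g (d * m₂))
    (hb : b ∈ dvs m₁) (ha : a ∈ dvs (d * m₂)) :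
    IsPrim (g * (((d * m₂) / a) * b)) ∧ Squarefree (g * (((d * m₂) / a) * b)) := by
  have hM2 : IsPrim (d * m₂) := hd.mul h2
  obtain ⟨pa, t, ht⟩ := (mem_dvs hM2.ne_zero).1 ha
  obtain ⟨pb, s, hs⟩ := (mem_dvs h1.ne_zero).1 hb
  have e1 : d * m₂ / a = t := by rw [ht, mul_div_cancel_left₀ _ pa.ne_zero]
  have pt : IsPrim t := IsPrim.of_mul_left (ht ▸ hM2) pa
  have st : Squarefree t := by rw [ht] at s2; exact s2.of_mul_right
  have sb : Squarefree b := by
    have := s1.of_mul_right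
    rw [hs] at this
    exact this.of_mul_left
  have hdm1 : IsCoprime d m₁ := by
    by_contra h4
    exact PX764.not_sqf_of_not_coprime hd.ne_zero h4 s1
  have hcd : IsCoprime (d * m₂) m₁ := hdm1.mul_left hc.symm
  have htb : IsCoprime t b := by
    rw [ht, hs] at hcd
    exact hcd.of_mul_left_right.of_mul_right_left
  have hgt : IsCoprime g t := by rw [ht] at g2; exact g2.of_mul_right_right
  have hgb : IsCoprime g b := by
    have := g1.of_mul_right_right
    rw [hs] at this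
    exact this.of_mul_right_left
  rw [e1]
  exact ⟨hg.mul (pt.mul pb), sq_of_cop (hgt.mul_right hgb) sg (sq_of_cop htb st sb)⟩

lemma lint_two : ∃ cI : ℝ, 0 ≤ cI ∧
    ∫⁻ t : ℝ, ENNReal.ofReal (((1 + |t|) ^ 2)⁻¹) = ENNReal.ofReal cI := by
  have h : Integrable (fun t : ℝ => ((1 + |t|) ^ 2)⁻¹) := by
    have h1 : Integrable (fun t : ℝ => (1 + ‖t‖) ^ (-(2 : ℝ))) :=
      integrable_one_add_norm (by simp)
    refine h1.congr (Filter.Eventually.of_forall fun t => ?_)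
    beta_reduce
    rw [Real.rpow_neg (by positivity), Real.norm_eq_abs]
    norm_num
  refine ⟨∫ t : ℝ, ((1 + |t|) ^ 2)⁻¹, integral_nonneg fun t => by positivity, ?_⟩
  exact (ofReal_integral_eq_lintegral_ofReal h (Filter.Eventually.of_forall fun t => by
    positivity)).symm

set_option maxHeartbeats 1600000 in
/-- **dual part from the algebra and the core** -/
theorem dualG2_of (h1 : DualLeG) (h2 : CorePG) : DualG2 := by
  classical
  intro ε Ak hε
  obtain ⟨J, v, δ, hSU, hF⟩ := F1XS1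
  obtain ⟨C₁, hC₁, hΩ⟩ := hF 2 (Ak + 2) (1 / 3) (by norm_num) le_rfl
  choose Ωc hΩ1 hΩ2 hΩ3 hΩ4 using hΩ
  set Ω : ℝ → Fin J → ℝ → ℂ := fun Am => if h : 1 ≤ Am then Ωc Am h else fun _ _ => 0 with hΩdef
  have eΩ : ∀ Am (h : 1 ≤ Am), Ω Am = Ωc Am h := fun Am h => by rw [hΩdef]; exact dif_pos h
  set η := ε / 2 with hη
  have hη0 : 0 < η := by positivity
  obtain ⟨κ, hκ, hcore⟩ := h2 η Ak hη0
  have hcj : ∀ j : Fin J, ∃ C : ℝ, 0 ≤ C ∧ ∀ X W B : ℝ, 1 ≤ X → 0 ≤ W → 0 ≤ B → ∀ g : Eis,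
      IsPrim g → Squarefree g → ∀ w : Eis → ℂ, Supp w X → CopG g w → (∀ n, ‖w n‖ ≤ W) →
      ∀ d ∈ S X, HSG2 Ak κ w X d (g * d) B → ∀ e ∈ dvs d, ∀ σ t : ℝ, 0 ≤ σ → σ ≤ 3 →
      CoreSumG w X d (g * (d / e)) (v j) (δ j) (((1 / 6 + σ : ℝ) : ℂ) + (t : ℂ) * I) ≤
        ENNReal.ofReal (C * (nm g * X) ^ η * X ^ σ * (1 + |t|) ^ Ak *
          (Real.sqrt (B + W ^ 2) * ((X / nm d) * (nm g * X)))) :=
    fun j => hcore (v j) (δ j) (hSU j).1 (hSU j).2
  choose Cj hCj0 hCj using hcj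
  obtain ⟨cI, hcI0, hcI⟩ := lint_two
  obtain ⟨Ct, hCt, hτ⟩ := tau_le_rpow (ε := η) hη0
  set CL : ℝ := (100 * (1 + ((4 : ℕ) : ℝ) / η)) ^ 4 with hCL
  have hCL0 : 0 ≤ CL := by positivity
  set CS : ℝ := ∑ j, Cj j with hCS
  have hCS0 : 0 ≤ CS := Finset.sum_nonneg fun j _ => hCj0 j
  set Cb : ℝ := C₁ * CL * Ct * (CS * (2 * cI)) with hCb
  have hCb0 : 0 ≤ Cb := by positivity
  refine ⟨κ, C₁ + Cb, hκ, by positivity, ?_⟩
  intro X L W B hX hL hW hB g hg sg' w hw hcop hwW d hd hHS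
  have hX0 : (0 : ℝ) ≤ X := by linarith
  have hXp : (0 : ℝ) < X := by linarith
  have hL0 : (0 : ℝ) < L := by linarith
  have hlogL : 0 ≤ Real.log L := Real.log_nonneg hL
  have hd' := (mem_S hX0).1 hd
  refine ⟨DuG v δ Ω g L d, ?_, ?_⟩
  · intro m₁ hm₁ m₂ hm₂ hc hn1 hn2 s1 s2 g1 g2 b hb a ha hPK
    rw [mem_S hX0] at hm₁ hm₂
    have hM2 : IsPrim (d * m₂) := hd'.2.1.mul hm₂.2.1
    have pa := ((mem_dvs hM2.ne_zero).1 ha).1
    have pb := ((mem_dvs hm₁.2.1.ne_zero).1 hb).1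
    have na : (1 : ℝ) ≤ nm a := by exact_mod_cast nm_pos.2 pa.ne_zero
    have nb : (1 : ℝ) ≤ nm b := by exact_mod_cast nm_pos.2 pb.ne_zero
    have hc1 : (1 : ℝ) ≤ (nm a : ℝ) ^ 2 * nm b :=
      one_le_mul_of_one_le_of_one_le (one_le_pow₀ na) nb
    have hc0 : (0 : ℝ) < (nm a : ℝ) ^ 2 * nm b := by linarith
    unfold X6Q848.PK at hPK
    push Not at hPK
    have hA1 : 1 ≤ L / ((nm a : ℝ) ^ 2 * nm b) := by
      rw [le_div_iff₀ hc0]; linarith [hPK.2]
    have hAL : L / ((nm a : ℝ) ^ 2 * nm b) ≤ L := div_le_self hL0.le hc1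
    obtain ⟨hup, hus⟩ := u_good hg sg' hd'.2.1 hm₁.2.1 hm₂.2.1 hc s1 s2 g1 g2 hb ha
    have key := hΩ4 (L / ((nm a : ℝ) ^ 2 * nm b)) hA1 (L / ((nm a : ℝ) ^ 2 * nm b))
      (g * (((d * m₂) / a) * b)) (by linarith) le_rfl hup hus
    rw [TabG_T hL0 pa.ne_zero pb.ne_zero]
    have e3 : X6Q848.MabG g L d m₂ a b = pC * (3 * c0) *
        (nm (g * (((d * m₂) / a) * b)) : ℝ) ^ (-(1 : ℝ) / 3) *
        (L / ((nm a : ℝ) ^ 2 * nm b)) ^ ((2 : ℝ) / 3) := rfl
    rw [e3]
    unfold DuG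
    rw [eΩ _ hA1]
    refine key.trans ?_
    have hAne : L / ((nm a : ℝ) ^ 2 * nm b) ≠ 0 := by linarith
    rw [div_self hAne, Real.one_rpow, mul_one]
    refine mul_le_mul_of_nonneg_right ?_ (by positivity)
    have hl1 : Real.log (L / ((nm a : ℝ) ^ 2 * nm b)) ≤ Real.log L :=
      Real.log_le_log (by linarith) hAL
    have hl0 : 0 ≤ Real.log (L / ((nm a : ℝ) ^ 2 * nm b)) := Real.log_nonneg hA1
    calc C₁ * (1 + Real.log (L / ((nm a : ℝ) ^ 2 * nm b))) ^ 4
        ≤ C₁ * (1 + Real.log L) ^ 4 := by gcongr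
      _ ≤ (C₁ + Cb) * (1 + Real.log L) ^ 4 := by gcongr; linarith
  · have hm := h1 J v δ hSU (Ak + 2) C₁ Ω (by omega) hC₁
      (fun Am hAm j => by rw [eΩ Am hAm]; exact hΩ1 Am hAm j)
      (fun Am hAm j => by rw [eΩ Am hAm]; exact hΩ2 Am hAm j)
      (fun Am hAm j => by rw [eΩ Am hAm]; exact hΩ3 Am hAm j)
      X L W hX hL hW g hg sg' w hw hcop hwW d hd
    have hdn : (1 : ℝ) ≤ nm d := by exact_mod_cast nm_pos.2 hd'.2.1.ne_zero
    have hgn : (1 : ℝ) ≤ nm g := by exact_mod_cast nm_pos.2 hg.ne_zero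
    have hgX : (0 : ℝ) < nm g * X := by positivity
    set R : ℝ := Real.sqrt (B + W ^ 2) * ((X / nm d) * (nm g * X)) with hR
    have hR0 : 0 ≤ R := by positivity
    -- one integral
    have hint : ∀ e ∈ dvs d, ∀ (j : Fin J) (i : Fin 2),
        ∫⁻ t : ℝ, ENNReal.ofReal (((1 + |t|) ^ (Ak + 2))⁻¹ * X ^ (-(sg i))) *
          CoreSumG w X d (g * (d / e)) (v j) (δ j) (((1 / 6 + sg i : ℝ) : ℂ) + (t : ℂ) * I) ≤
        ENNReal.ofReal (Cj j * (nm g * X) ^ η * R * cI) := by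
      intro e he j i
      have hs0 : 0 ≤ sg i := by unfold sg; split_ifs <;> norm_num
      have hs3 : sg i ≤ 3 := by unfold sg; split_ifs <;> norm_num
      have hpt : ∀ t : ℝ, ENNReal.ofReal (((1 + |t|) ^ (Ak + 2))⁻¹ * X ^ (-(sg i))) *
          CoreSumG w X d (g * (d / e)) (v j) (δ j) (((1 / 6 + sg i : ℝ) : ℂ) + (t : ℂ) * I) ≤
          ENNReal.ofReal (Cj j * (nm g * X) ^ η * R) * ENNReal.ofReal (((1 + |t|) ^ 2)⁻¹) := by
        intro t
        have hc := hCj j X W B hX hW hB g hg sg' w hw hcop hwW d hd hHS e he (sg i) t hs0 hs3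
        refine (mul_le_mul_right hc _).trans ?_
        rw [← ENNReal.ofReal_mul (by positivity), ← ENNReal.ofReal_mul (by
          have := hCj0 j; positivity)]
        apply ENNReal.ofReal_le_ofReal
        apply le_of_eq
        have hXs : X ^ (-(sg i)) * X ^ (sg i) = 1 := by
          rw [← Real.rpow_add hXp]; simp
        have ht : (0 : ℝ) < 1 + |t| := by positivity
        have hpow : ((1 + |t|) ^ (Ak + 2))⁻¹ * (1 + |t|) ^ Ak = ((1 + |t|) ^ 2)⁻¹ := by
          rw [pow_add]; field_simp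
        calc ((1 + |t|) ^ (Ak + 2))⁻¹ * X ^ (-(sg i)) *
              (Cj j * (nm g * X) ^ η * X ^ (sg i) * (1 + |t|) ^ Ak *
                (Real.sqrt (B + W ^ 2) * ((X / nm d) * (nm g * X))))
            = (((1 + |t|) ^ (Ak + 2))⁻¹ * (1 + |t|) ^ Ak) * (X ^ (-(sg i)) * X ^ (sg i)) *
              (Cj j * (nm g * X) ^ η * R) := by rw [hR]; ring
          _ = Cj j * (nm g * X) ^ η * R * ((1 + |t|) ^ 2)⁻¹ := by rw [hXs, hpow]; ring
      refine (lintegral_mono hpt).trans ?_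
      rw [lintegral_const_mul' _ _ ENNReal.ofReal_ne_top, hcI, ← ENNReal.ofReal_mul (by
        have := hCj0 j; positivity)]
    -- all integrals
    have hall : ∑ e ∈ dvs d, ∑ j, ∑ i : Fin 2, ∫⁻ t : ℝ,
            ENNReal.ofReal (((1 + |t|) ^ (Ak + 2))⁻¹ * X ^ (-(sg i))) *
              CoreSumG w X d (g * (d / e)) (v j) (δ j) (((1 / 6 + sg i : ℝ) : ℂ) + (t : ℂ) * I) ≤
        ENNReal.ofReal (tau d * (CS * (2 * cI)) * (nm g * X) ^ η * R) := by
      calc _ ≤ ∑ _e ∈ dvs d, ∑ j, ∑ _i : Fin 2, ENNReal.ofReal (Cj j * (nm g * X) ^ η * R * cI) :=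
            Finset.sum_le_sum fun e he => Finset.sum_le_sum fun j _ =>
              Finset.sum_le_sum fun i _ => hint e he j i
        _ = _ := by
            rw [Finset.sum_const, nsmul_eq_mul]
            have e4 : ∀ j : Fin J, ∑ _i : Fin 2, ENNReal.ofReal (Cj j * (nm g * X) ^ η * R * cI) =
                ENNReal.ofReal (2 * (Cj j * (nm g * X) ^ η * R * cI)) := by
              intro j
              rw [Finset.sum_const, Finset.card_univ, Fintype.card_fin, nsmul_eq_mul,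
                ENNReal.ofReal_mul (p := 2) (by norm_num)]
              norm_num
            rw [Finset.sum_congr rfl fun j _ => e4 j, ← ENNReal.ofReal_sum_of_nonneg (fun j _ => by
              have := hCj0 j; positivity)]
            have e5 : ((dvs d).card : ENNReal) = ENNReal.ofReal (tau d : ℝ) := by
              unfold tau; rw [ENNReal.ofReal_natCast]
            rw [e5, ← ENNReal.ofReal_mul (Nat.cast_nonneg _)]
            congr 1
            rw [← Finset.mul_sum, ← Finset.sum_mul, ← Finset.sum_mul, ← Finset.sum_mul]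
            ring
    have hfin : ENNReal.ofReal ‖X6Q848.ABG w X d (fun a b => ¬ X6Q848.PK X L d a b)
        (DuG v δ Ω g L d)‖ ≤ ENNReal.ofReal (C₁ * (1 + Real.log L) ^ 4 * W *
          (tau d * (CS * (2 * cI)) * (nm g * X) ^ η * R)) := by
      refine hm.trans ?_
      rw [ENNReal.ofReal_mul (p := C₁ * (1 + Real.log L) ^ 4 * W) (by positivity)]
      exact mul_le_mul_right hall _
    have hreal := (ENNReal.ofReal_le_ofReal_iff (by positivity)).1 hfin
    refine hreal.trans ?_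
    -- real arithmetic
    have hτd : (tau d : ℝ) ≤ Ct * X ^ η := by
      refine (hτ d hd'.2.1.ne_zero).trans (mul_le_mul_of_nonneg_left ?_ (by linarith))
      exact Real.rpow_le_rpow (Nat.cast_nonneg _) hd'.1 hη0.le
    have hlog4 : (1 + Real.log L) ^ 4 ≤ CL * L ^ η := by
      refine le_trans ?_ (poly_log_le 4 hL hη0)
      have : (1 + Real.log L) ≤ 100 * (1 + Real.log L) := by linarith
      exact pow_le_pow_left₀ (by linarith) this 4
    have hsqrt : W * Real.sqrt (B + W ^ 2) ≤ W ^ 2 + W * Real.sqrt B := by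
      have h3 : Real.sqrt (B + W ^ 2) ≤ Real.sqrt B + W := by
        refine Real.sqrt_le_iff.2 ⟨by positivity, ?_⟩
        nlinarith [Real.sq_sqrt hB, Real.sqrt_nonneg B]
      calc W * Real.sqrt (B + W ^ 2) ≤ W * (Real.sqrt B + W) := mul_le_mul_of_nonneg_left h3 hW
        _ = _ := by ring
    have hpow3 : X ^ η * (nm g * X) ^ η * L ^ η ≤ (nm g * X * L) ^ ε := by
      have a1 : X ^ η ≤ (nm g * X * L) ^ η := by
        apply Real.rpow_le_rpow hX0 _ hη0.le
        calc X = 1 * X * 1 := by ring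
          _ ≤ nm g * X * L := by gcongr
      have a2 : (nm g * X) ^ η * L ^ η = (nm g * X * L) ^ η := by
        rw [Real.mul_rpow hgX.le hL0.le]
      have a3 : (nm g * X * L) ^ ε = (nm g * X * L) ^ η * (nm g * X * L) ^ η := by
        rw [← Real.rpow_add (by positivity)]; congr 1; rw [hη]; ring
      rw [a3, mul_assoc, a2]
      exact mul_le_mul_of_nonneg_right a1 (by positivity)
    have hV : 0 ≤ (X / nm d) * (nm g * X) := by positivity
    calc C₁ * (1 + Real.log L) ^ 4 * W * (tau d * (CS * (2 * cI)) * (nm g * X) ^ η * R)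
        ≤ C₁ * (CL * L ^ η) * W * ((Ct * X ^ η) * (CS * (2 * cI)) * (nm g * X) ^ η * R) := by
          gcongr
      _ = Cb * (X ^ η * (nm g * X) ^ η * L ^ η) *
          ((W * Real.sqrt (B + W ^ 2)) * ((X / nm d) * (nm g * X))) := by rw [hR, hCb]; ring
      _ ≤ Cb * (nm g * X * L) ^ ε * ((W ^ 2 + W * Real.sqrt B) * ((X / nm d) * (nm g * X))) := by
          gcongr
      _ ≤ (C₁ + Cb) * (nm g * X * L) ^ ε *
          ((W ^ 2 + W * Real.sqrt B) * ((X / nm d) * (nm g * X))) := by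
          gcongr
          linarith

end Crest.Agent.R017.X6R848
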