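import Crest.Agent.R017.X6R_848
import Crest.Agent.R017.X6H3_502

/-!
# Row 17, exceptional class, X6 at `r = g`: the final cross lemma (helper848)

* `XG` : the bound for `CrossT X L g w d` under `HSG2 Ak κ w X d (g d) B`
* `xG_of : DualG2 → XG`, `XG2`, `xG2_of : DualG2 → XG2` (the weaker form used by 792)
-/

set_option autoImplicit false

noncomputable section

open Complex MeasureTheory
open scoped ComplexConjugate

namespace Crest.Agent.R017.X6S848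

open Crest.Agent.R012 Crest.Agent.R012.Eis Crest.Agent.R012.Gauss880
open Crest.Agent.R012.LS2 Crest.Agent.R012.Div277
open Crest.Agent.R017.PA842 (Supp)
open Crest.Agent.R017.PX6 (CrossT CopG)
open Crest.Agent.R017.X6G180 (HSG2 DualG2 DualLeG CorePG)

/-- **the cross lemma at `r = g`** -/
def XG : Prop := ∀ (ε : ℝ) (Ak : ℕ), 0 < ε → ∃ (κ C : ℝ), 0 < κ ∧ 0 ≤ C ∧ ∀ X L W B : ℝ, 1 ≤ X →
  1 ≤ L → 0 ≤ W → 0 ≤ B → ∀ g : Eis, IsPrim g → Squarefree g → ∀ w : Eis → ℂ, Supp w X → CopG g w →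
  (∀ n, ‖w n‖ ≤ W) → ∀ d ∈ S X, HSG2 Ak κ w X d (g * d) B →
  ‖CrossT X L g w d‖ ≤ C * (nm g * X * L) ^ ε *
    ((W ^ 2 + W * Real.sqrt B) * ((X / nm d) * (nm g * X)) + W ^ 2 * X * (X / nm d + L))

/-- the weaker form -/
def XG2 : Prop := ∀ (ε : ℝ) (Ak : ℕ), 0 < ε → ∃ (κ C : ℝ), 0 < κ ∧ 0 ≤ C ∧ ∀ X L W B : ℝ, 1 ≤ X →
  1 ≤ L → 0 ≤ W → 0 ≤ B → ∀ g : Eis, IsPrim g → Squarefree g → ∀ w : Eis → ℂ, Supp w X → CopG g w →
  (∀ n, ‖w n‖ ≤ W) → ∀ d ∈ S X, HSG2 Ak κ w X d (g * d) B →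
  ‖CrossT X L g w d‖ ≤ C * (nm g * X * L) ^ ε *
    ((W ^ 2 + W * Real.sqrt B) * (X * (nm g * X + L)))

/-- **the cross lemma from the dual part** -/
theorem xG_of (h : DualG2) : XG := by
  intro ε Ak hε
  set η := ε / 2 with hη
  have hη0 : 0 < η := by positivity
  obtain ⟨C₁, hC₁, h1⟩ := X6Q848.polarG η hη0
  obtain ⟨C₂, hC₂, h2⟩ := X6H502.dirG' η hη0
  obtain ⟨κ, C₃, hκ, hC₃, h3⟩ := h η Ak hη0
  set CL : ℝ := (100 * (1 + ((4 : ℕ) : ℝ) / η)) ^ 4 with hCL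
  have hCL0 : 0 ≤ CL := by positivity
  refine ⟨κ, C₁ * (1 + C₃ * CL) + C₂ + C₃, hκ, by positivity, ?_⟩
  intro X L W B hX hL hW hB g hg sg w hw hcop hwW d hd hHS
  have hX0 : (0 : ℝ) ≤ X := by linarith
  have hXp : (0 : ℝ) < X := by linarith
  have hL0 : (0 : ℝ) < L := by linarith
  have hlogL : 0 ≤ Real.log L := Real.log_nonneg hL
  have hd' := (mem_S hX0).1 hd
  have hdn : (1 : ℝ) ≤ nm d := by exact_mod_cast nm_pos.2 hd'.2.1.ne_zero
  have hgn : (1 : ℝ) ≤ nm g := by exact_mod_cast nm_pos.2 hg.ne_zero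
  obtain ⟨Du, hDu, hAB⟩ := h3 X L W B hX hL hW hB g hg sg w hw hcop hwW d hd hHS
  have hE : 0 ≤ C₃ * (1 + Real.log L) ^ 4 := by positivity
  have hP1 : ∀ a b : Eis, X6Q848.PK X L d a b →
      (X / nm d) ^ ((1 : ℝ) / 2) ≤ (nm a : ℝ) * nm b ∨ L ≤ (nm a : ℝ) ^ 2 * nm b := by
    intro a b hab
    rcases hab with hab | hab
    · exact Or.inl hab.le
    · exact Or.inr hab.le
  have hP2 : ∀ a b : Eis, ¬ X6Q848.PK X L d a b →
      (nm a : ℝ) * nm b ≤ (X / nm d) ^ ((1 : ℝ) / 2) := by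
    intro a b hab
    unfold X6Q848.PK at hab
    push Not at hab
    exact hab.1
  have k1 := h1 X L W _ hX hL hW hE g hg sg w hw hcop hwW d hd (X6Q848.PK X L d) hP1 hP2 Du hDu
  have k2 := h2 X L W hX hL hW g hg sg w hw hcop hwW d hd (X6Q848.PK X L d) hP1
  -- the powers
  set Q : ℝ := nm g * X * L with hQ
  have hLQ : L ≤ Q := by
    calc L = 1 * 1 * L := by ring
      _ ≤ nm g * X * L := by gcongr
  have hQ1 : 1 ≤ Q := hL.trans hLQ
  have hQ0 : (0 : ℝ) < Q := by linarith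
  have hQη : Q ^ η ≤ Q ^ ε := Real.rpow_le_rpow_of_exponent_le hQ1 (by rw [hη]; linarith)
  have hQ2 : Q ^ ε = Q ^ η * Q ^ η := by
    rw [← Real.rpow_add hQ0]; congr 1; rw [hη]; ring
  have hQη1 : 1 ≤ Q ^ η := Real.one_le_rpow hQ1 hη0.le
  have hlog4 : (1 + Real.log L) ^ 4 ≤ CL * Q ^ η := by
    refine le_trans ?_ ((poly_log_le 4 hL hη0).trans (mul_le_mul_of_nonneg_left
      (Real.rpow_le_rpow hL0.le hLQ hη0.le) hCL0))
    have : (1 + Real.log L) ≤ 100 * (1 + Real.log L) := by linarith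
    exact pow_le_pow_left₀ (by linarith) this 4
  have hE1 : 1 + C₃ * (1 + Real.log L) ^ 4 ≤ (1 + C₃ * CL) * Q ^ η := by
    calc 1 + C₃ * (1 + Real.log L) ^ 4 ≤ Q ^ η + C₃ * (CL * Q ^ η) := by gcongr
      _ = _ := by ring
  set V₁ : ℝ := W ^ 2 * X * (X / nm d + L) with hV₁
  set V₂ : ℝ := (W ^ 2 + W * Real.sqrt B) * ((X / nm d) * (nm g * X)) with hV₂
  have hV₁0 : 0 ≤ V₁ := by positivity
  have hV₂0 : 0 ≤ V₂ := by positivity
  have hXd : X / nm d ≤ X := div_le_self hX0 hdn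
  have b1 : C₁ * (1 + C₃ * (1 + Real.log L) ^ 4) * Q ^ η * (W ^ 2 * (X / nm d) * (X / nm d + L)) ≤
      C₁ * (1 + C₃ * CL) * Q ^ ε * V₁ := by
    calc C₁ * (1 + C₃ * (1 + Real.log L) ^ 4) * Q ^ η * (W ^ 2 * (X / nm d) * (X / nm d + L))
        ≤ C₁ * ((1 + C₃ * CL) * Q ^ η) * Q ^ η * (W ^ 2 * X * (X / nm d + L)) := by gcongr
      _ = _ := by rw [hQ2, hV₁]; ring
  have b2 : C₂ * Q ^ η * V₁ ≤ C₂ * Q ^ ε * V₁ := by gcongr
  have b3 : C₃ * Q ^ η * V₂ ≤ C₃ * Q ^ ε * V₂ := by gcongr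
  set A := X6Q848.ABG w X d (X6Q848.PK X L d) (fun _ m₂ a b => X6Q848.TabG g L d m₂ a b) with hA
  set D := X6Q848.ABG w X d (fun a b => ¬ X6Q848.PK X L d a b) Du with hD
  have tri : ‖CrossT X L g w d‖ ≤ ‖CrossT X L g w d - A - D‖ + ‖A‖ + ‖D‖ := by
    have e1 : CrossT X L g w d = (CrossT X L g w d - A - D) + A + D := by ring
    calc ‖CrossT X L g w d‖ = ‖(CrossT X L g w d - A - D) + A + D‖ := by rw [← e1]
      _ ≤ _ := norm_add₃_le
  have hQε : 0 ≤ Q ^ ε := by positivity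
  calc ‖CrossT X L g w d‖ ≤ ‖CrossT X L g w d - A - D‖ + ‖A‖ + ‖D‖ := tri
    _ ≤ C₁ * (1 + C₃ * CL) * Q ^ ε * V₁ + C₂ * Q ^ ε * V₁ + C₃ * Q ^ ε * V₂ :=
        add_le_add (add_le_add (k1.trans b1) (k2.trans b2)) (hAB.trans b3)
    _ ≤ (C₁ * (1 + C₃ * CL) + C₂ + C₃) * Q ^ ε * (V₂ + V₁) := by
        have hc1 : 0 ≤ C₁ * (1 + C₃ * CL) := by positivity
        have x1 : 0 ≤ (C₁ * (1 + C₃ * CL) + C₂) * (Q ^ ε * V₂) := by positivity
        have x2 : 0 ≤ C₃ * (Q ^ ε * V₁) := by positivity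
        linarith

/-- **the weaker form** -/
theorem xG2_of (h : DualG2) : XG2 := by
  intro ε Ak hε
  obtain ⟨κ, C, hκ, hC, h1⟩ := xG_of h ε Ak hε
  refine ⟨κ, 2 * C, hκ, by positivity, ?_⟩
  intro X L W B hX hL hW hB g hg sg w hw hcop hwW d hd hHS
  refine (h1 X L W B hX hL hW hB g hg sg w hw hcop hwW d hd hHS).trans ?_
  have hX0 : (0 : ℝ) ≤ X := by linarith
  have hd' := (mem_S hX0).1 hd
  have hdn : (1 : ℝ) ≤ nm d := by exact_mod_cast nm_pos.2 hd'.2.1.ne_zero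
  have hgn : (1 : ℝ) ≤ nm g := by exact_mod_cast nm_pos.2 hg.ne_zero
  have hXd : X / nm d ≤ X := div_le_self hX0 hdn
  have hs : 0 ≤ W * Real.sqrt B := by positivity
  have e1 : (W ^ 2 + W * Real.sqrt B) * ((X / nm d) * (nm g * X)) ≤
      (W ^ 2 + W * Real.sqrt B) * (X * (nm g * X + L)) := by
    have : (nm g : ℝ) * X ≤ nm g * X + L := by linarith
    gcongr
  have e2 : W ^ 2 * X * (X / nm d + L) ≤ (W ^ 2 + W * Real.sqrt B) * (X * (nm g * X + L)) := by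
    have i1 : X / nm d + L ≤ nm g * X + L := by
      have : X ≤ nm g * X := le_mul_of_one_le_left hX0 hgn
      linarith
    calc W ^ 2 * X * (X / nm d + L) ≤ W ^ 2 * X * (nm g * X + L) := by gcongr
      _ = W ^ 2 * (X * (nm g * X + L)) := by ring
      _ ≤ _ := by
          apply mul_le_mul_of_nonneg_right _ (by positivity)
          linarith
  calc C * (nm g * X * L) ^ ε *
      ((W ^ 2 + W * Real.sqrt B) * ((X / nm d) * (nm g * X)) + W ^ 2 * X * (X / nm d + L))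
      ≤ C * (nm g * X * L) ^ ε * ((W ^ 2 + W * Real.sqrt B) * (X * (nm g * X + L)) +
          (W ^ 2 + W * Real.sqrt B) * (X * (nm g * X + L))) := by
        gcongr
    _ = _ := by ring

/-- from the algebra and the core -/
theorem xG_of' (h1 : DualLeG) (h2 : CorePG) : XG := xG_of (X6R848.dualG2_of h1 h2)

theorem xG2_of' (h1 : DualLeG) (h2 : CorePG) : XG2 := xG2_of (X6R848.dualG2_of h1 h2)

end Crest.Agent.R017.X6S848
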