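import Crest.Agent.R017.X6S_848
import Crest.Agent.R017.X6H4_502
import Crest.Agent.R017.X6GM_180

/-!
# Row 17, exceptional class: the cross lemma of (P'_ex), unconditional (helper180)
-/

set_option autoImplicit false

noncomputable section

namespace Crest.Agent.R017.X6G180

/-- **the dual part** -/
theorem dualG2 : DualG2 := X6R848.dualG2_of X6L502.dualLeG corePG

/-- **the cross lemma at `r = g`** -/
theorem xG : X6S848.XG := X6S848.xG_of' X6L502.dualLeG corePG

/-- **the cross lemma at `r = g`**, 792's form -/
theorem xG2 : X6S848.XG2 := X6S848.xG2_of' X6L502.dualLeG corePG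

end Crest.Agent.R017.X6G180
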