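import Crest.Agent.R017.X6S_848
import Crest.Agent.R017.X6GM_180
import Crest.Agent.R017.X6H4_502

/-!
# Row 17, exceptional class: the cross lemma at `r = g`, unconditional (helper502; parts by 180, 848, 545)
-/

set_option autoImplicit false

namespace Crest.Agent.R017.X6T502

/-- **the cross lemma at `r = g`** -/
theorem xG : X6S848.XG := X6S848.xG_of' X6L502.dualLeG X6G180.corePG

/-- **the cross lemma at `r = g`**, 792's form -/
theorem xG2 : X6S848.XG2 := X6S848.xG2_of' X6L502.dualLeG X6G180.corePG

end Crest.Agent.R017.X6T502
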