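import Crest.Agent.R017.X6S_848
import Crest.Agent.R017.X6H4_502
import Crest.Agent.R017.X6GM_180

/-!
# Row 17, exceptional class, X6 at `r = g`: the cross lemma, unconditional (helper848)
-/

set_option autoImplicit false

namespace Crest.Agent.R017.X6S848

/-- **the cross lemma at `r = g`** -/
theorem xG : XG := xG_of' X6L502.dualLeG X6G180.corePG

/-- the weaker form -/
theorem xG2 : XG2 := xG2_of' X6L502.dualLeG X6G180.corePG

end Crest.Agent.R017.X6S848
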