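import Crest.Agent.R017.X6C8_180
import Crest.Agent.R017.E1c_146

/-!
# Row 17 (helper180): smooth separation of translation covariant functionals

`Op L` : `L` is linear on test functions, `L (F (· - h)) x = e^{h/3} L F (x - h)`, bounded by
`C S min 1 (e^{M x})`.  Then `x ↦ L F x` is smooth and (`Op.sep`)
`L F (x₀ - u) = ∫ kk t e^{i t u} dt` for `|u| ≤ R` with `|kk t| ≤ C S min 1 (e^{M x₀}) (1+|t|)^(-A)`.
-/

set_option autoImplicit false
set_option linter.unusedVariables false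

noncomputable section

open Complex MeasureTheory Set Filter Topology

namespace Crest.Agent.R017.X6W180

open Crest.Agent.R012.Weight600 (osc)
open Crest.Agent.R017.X6545 (TF Bd)
open Crest.Agent.R017.E1c146 (kernel_of_bounds iteratedDeriv_seq)

/-- test functions supported in `[-3/2,3/2]` -/
structure TF1 (F : ℝ → ℂ) : Prop where
  smooth : ContDiff ℝ ((⊤ : ℕ∞) : WithTop ℕ∞) F
  supp : ∀ y : ℝ, 3 / 2 < |y| → F y = 0

lemma tf1_tf {F : ℝ → ℂ} (h : TF1 F) : TF F := ⟨h.smooth, fun y hy => h.supp y (by linarith)⟩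

/-- the class of functionals -/
structure Op (L : (ℝ → ℂ) → ℝ → ℂ) : Prop where
  add : ∀ F G : ℝ → ℂ, TF F → TF G → ∀ x, L (fun y => F y + G y) x = L F x + L G x
  smul : ∀ (a : ℂ) (F : ℝ → ℂ), TF F → ∀ x, L (fun y => a * F y) x = a * L F x
  tr : ∀ (F : ℝ → ℂ) (h : ℝ), TF F → TF (fun y => F (y - h)) → ∀ x,
    L (fun y => F (y - h)) x = ((Real.exp (h / 3) : ℝ) : ℂ) * L F (x - h)
  bd : ∀ M : ℕ, ∃ (k : ℕ) (C : ℝ), 0 ≤ C ∧ ∀ (F : ℝ → ℂ) (S : ℝ), TF F → Bd F k S → ∀ x,
    ‖L F x‖ ≤ C * S * min 1 (Real.exp (M * x))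

lemma hasDeriv_iter {F : ℝ → ℂ} (hF : ContDiff ℝ ((⊤ : ℕ∞) : WithTop ℕ∞) F) (n : ℕ) (y : ℝ) :
    HasDerivAt (iteratedDeriv n F) (iteratedDeriv (n + 1) F y) y := by
  rw [iteratedDeriv_succ]
  have h1 : ContDiff ℝ ((n + 1 : ℕ) : WithTop ℕ∞) F := hF.of_le (by exact_mod_cast le_top)
  have := (contDiff_nat_iff_iteratedDeriv.mp h1).2 n (by omega)
  exact (this y).hasDerivAt

lemma tf1_deriv {F : ℝ → ℂ} (h : TF1 F) : TF1 (deriv F) where
  smooth := (contDiff_infty_iff_deriv.mp h.smooth).2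
  supp := by
    intro y hy
    have h0 : F =ᶠ[𝓝 y] fun _ => 0 := by
      have : {z : ℝ | 3 / 2 < |z|} ∈ 𝓝 y := (isOpen_lt continuous_const continuous_abs).mem_nhds hy
      filter_upwards [this] with z hz using h.supp z hz
    rw [h0.deriv_eq]
    simp

lemma iter_deriv (F : ℝ → ℂ) (n : ℕ) : iteratedDeriv n (deriv F) = iteratedDeriv (n + 1) F := by
  rw [iteratedDeriv_succ']

lemma iter_supp {F : ℝ → ℂ} (h : TF1 F) (n : ℕ) : ∀ y : ℝ, 3 / 2 < |y| → iteratedDeriv n F y = 0 := by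
  induction n generalizing F with
  | zero => simpa using h.supp
  | succ n ih =>
    rw [← iter_deriv]
    exact ih (tf1_deriv h)

/-- the operator `F ↦ F/3 + F'` -/
def DF (F : ℝ → ℂ) (y : ℝ) : ℂ := (1 / 3 : ℂ) * F y + deriv F y

lemma tf1_DF {F : ℝ → ℂ} (h : TF1 F) : TF1 (DF F) where
  smooth := (contDiff_const.mul h.smooth).add (tf1_deriv h).smooth
  supp := fun y hy => by unfold DF; rw [h.supp y hy, (tf1_deriv h).supp y hy]; simp

lemma norm_third : ‖(1 / 3 : ℂ)‖ = 1 / 3 := by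
  rw [show (1 / 3 : ℂ) = ((1 / 3 : ℝ) : ℂ) by push_cast; ring, Complex.norm_real,
    Real.norm_of_nonneg (by norm_num)]

lemma bd_DF {F : ℝ → ℂ} (h : TF1 F) {k : ℕ} {S : ℝ} (hB : Bd F (k + 1) S) :
    Bd (DF F) k (2 * S) := by
  intro i hi y
  have hseq := iteratedDeriv_seq (g := fun n y => (1 / 3 : ℂ) * iteratedDeriv n F y +
    iteratedDeriv (n + 1) F y) (fun n u => ((hasDeriv_iter h.smooth n u).const_mul _).add
      (hasDeriv_iter h.smooth (n + 1) u)) i
  have e0 : (fun y => (1 / 3 : ℂ) * iteratedDeriv 0 F y + iteratedDeriv (0 + 1) F y) =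
      DF F := by
    funext y
    unfold DF
    rw [iteratedDeriv_zero, zero_add, iteratedDeriv_one]
  rw [e0] at hseq
  rw [hseq]
  simp only
  have h1 := hB i (by omega) y
  have h2 := hB (i + 1) (by omega) y
  have hS : 0 ≤ S := (norm_nonneg _).trans h1
  refine (norm_add_le _ _).trans ?_
  rw [norm_mul, norm_third]
  linarith

lemma bd_mono {F : ℝ → ℂ} {k k' : ℕ} {S : ℝ} (h : Bd F k S) (hk : k' ≤ k) : Bd F k' S :=
  fun i hi y => h i (hi.trans hk) y

/-! ### Taylor -/

lemma taylor2 {G G' G'' : ℝ → ℂ} (h1 : ∀ y, HasDerivAt G (G' y) y)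
    (h2 : ∀ y, HasDerivAt G' (G'' y) y) {S : ℝ} (hS : ∀ y, ‖G'' y‖ ≤ S) (y h : ℝ) :
    ‖G (y - h) - G y + (h : ℂ) * G' y‖ ≤ S * h ^ 2 := by
  have hS0 : 0 ≤ S := (norm_nonneg _).trans (hS 0)
  have k1 : ∀ z, ‖G' z - G' y‖ ≤ S * |z - y| := by
    intro z
    have := Convex.norm_image_sub_le_of_norm_hasDerivWithin_le (f := G') (f' := G'')
      (s := (Set.univ : Set ℝ)) (C := S) (fun x _ => (h2 x).hasDerivWithinAt)
      (fun x _ => hS x) convex_univ (Set.mem_univ y) (Set.mem_univ z)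
    rwa [Real.norm_eq_abs] at this
  set f : ℝ → ℂ := fun z => G z - (z : ℂ) * G' y with hf
  have hd : ∀ z, HasDerivAt f (G' z - G' y) z := by
    intro z
    have h3 : HasDerivAt (fun z : ℝ => (z : ℂ) * G' y) (1 * G' y) z :=
      (Complex.ofRealCLM.hasDerivAt (x := z)).mul_const (G' y)
    rw [one_mul] at h3
    exact (h1 z).sub h3
  have := Convex.norm_image_sub_le_of_norm_hasDerivWithin_le (f := f) (f' := fun z => G' z - G' y)
    (s := Metric.closedBall y |h|) (C := S * |h|) (fun x _ => (hd x).hasDerivWithinAt)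
    (fun x hx => (k1 x).trans (by
      have : |x - y| ≤ |h| := by rwa [Metric.mem_closedBall, Real.dist_eq] at hx
      gcongr)) (convex_closedBall y |h|) (Metric.mem_closedBall_self (abs_nonneg h))
    (show y - h ∈ Metric.closedBall y |h| by
      rw [Metric.mem_closedBall, Real.dist_eq]
      rw [show y - h - y = -h by ring, abs_neg])
  have e1 : f (y - h) - f y = G (y - h) - G y + (h : ℂ) * G' y := by
    rw [hf]; simp only; push_cast; ring
  rw [e1] at this
  refine this.trans (le_of_eq ?_)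
  rw [Real.norm_eq_abs, show y - h - y = -h by ring, abs_neg, mul_assoc, ← sq, sq_abs]

section op

variable {L : (ℝ → ℂ) → ℝ → ℂ}

lemma tf1_shift {F : ℝ → ℂ} (h : TF1 F) {r : ℝ} (hr : |r| ≤ 1 / 2) : TF (fun y => F (y - r)) where
  smooth := h.smooth.comp (contDiff_id.sub contDiff_const)
  supp := fun y hy => h.supp _ (by
    have h1 : |y| ≤ |y - r| + |r| := by
      have := abs_add_le (y - r) r
      simpa using this
    linarith)

/-- the second order remainder -/
def Rm (F : ℝ → ℂ) (h : ℝ) (y : ℝ) : ℂ := F (y - h) + ((-1 : ℂ) * F y + (h : ℂ) * deriv F y)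

lemma tf1_comb {F : ℝ → ℂ} (hF : TF1 F) (h : ℝ) :
    TF (fun y => (-1 : ℂ) * F y + (h : ℂ) * deriv F y) where
  smooth := (contDiff_const.mul hF.smooth).add (contDiff_const.mul (tf1_deriv hF).smooth)
  supp := fun y hy => by
    rw [(tf1_tf hF).supp y hy, (tf1_tf (tf1_deriv hF)).supp y hy]; simp

lemma TF_mul {F : ℝ → ℂ} (hF : TF F) (a : ℂ) : TF (fun y => a * F y) where
  smooth := contDiff_const.mul hF.smooth
  supp := fun y hy => by rw [hF.supp y hy]; simp

lemma TF_add {F G : ℝ → ℂ} (hF : TF F) (hG : TF G) : TF (fun y => F y + G y) where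
  smooth := hF.smooth.add hG.smooth
  supp := fun y hy => by rw [hF.supp y hy, hG.supp y hy]; simp

lemma Bd_Rm {F : ℝ → ℂ} (hF : TF1 F) {k : ℕ} {S : ℝ} (hB : Bd F (k + 2) S) (h : ℝ) :
    Bd (Rm F h) k (S * h ^ 2) := by
  intro i hi y
  have hseq := iteratedDeriv_seq (g := fun n y => iteratedDeriv n F (y - h) +
    ((-1 : ℂ) * iteratedDeriv n F y + (h : ℂ) * iteratedDeriv (n + 1) F y)) (fun n u => by
      have h1 : HasDerivAt (fun y => iteratedDeriv n F (y - h))
          (iteratedDeriv (n + 1) F (u - h)) u := by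
        have := (hasDeriv_iter hF.smooth n (u - h)).comp_sub_const u h
        exact this
      exact h1.add (((hasDeriv_iter hF.smooth n u).const_mul _).add
        ((hasDeriv_iter hF.smooth (n + 1) u).const_mul _))) i
  have e0 : (fun y => iteratedDeriv 0 F (y - h) +
      ((-1 : ℂ) * iteratedDeriv 0 F y + (h : ℂ) * iteratedDeriv (0 + 1) F y)) = Rm F h := by
    funext y
    unfold Rm
    rw [iteratedDeriv_zero, zero_add, iteratedDeriv_one]
  rw [e0] at hseq
  rw [hseq]
  have := taylor2 (hasDeriv_iter hF.smooth i) (hasDeriv_iter hF.smooth (i + 1)) (S := S)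
    (fun y => hB (i + 1 + 1) (by omega) y) y h
  refine le_trans (le_of_eq ?_) this
  congr 1
  ring

lemma Op.deriv_aux (hL : Op L) {F : ℝ → ℂ} (hF : TF1 F) {k : ℕ} {C S : ℝ} (hC : 0 ≤ C)
    (hb : ∀ (F : ℝ → ℂ) (S : ℝ), TF F → Bd F k S → ∀ x, ‖L F x‖ ≤ C * S)
    (hB : Bd F (k + 2) S) (x : ℝ) {h : ℝ} (hh : |h| ≤ 1 / 2) :
    ‖L (fun y => F (y - h)) x - L F x + (h : ℂ) * L (deriv F) x‖ ≤ C * S * h ^ 2 := by
  have h1 := hL.add (fun y => F (y - h)) (fun y => (-1 : ℂ) * F y + (h : ℂ) * deriv F y)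
    (tf1_shift hF hh) (tf1_comb hF h) x
  have h2 := hL.add (fun y => (-1 : ℂ) * F y) (fun y => (h : ℂ) * deriv F y)
    (TF_mul (tf1_tf hF) _) (TF_mul (tf1_tf (tf1_deriv hF)) _) x
  rw [hL.smul _ _ (tf1_tf hF), hL.smul _ _ (tf1_tf (tf1_deriv hF))] at h2
  have h3 := hb (Rm F h) (S * h ^ 2) (TF_add (tf1_shift hF hh) (tf1_comb hF h)) (Bd_Rm hF hB h) x
  have h4 : L (Rm F h) x = L (fun y => F (y - h)) x - L F x + (h : ℂ) * L (deriv F) x := by
    have : Rm F h = fun y => F (y - h) + ((-1 : ℂ) * F y + (h : ℂ) * deriv F y) := rfl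
    rw [this, h1, h2]
    ring
  rw [← h4]
  refine h3.trans (le_of_eq ?_)
  ring

/-- every test function has finite bounds -/
lemma exists_Bd {F : ℝ → ℂ} (hF : TF1 F) (k : ℕ) : ∃ S : ℝ, 0 ≤ S ∧ Bd F k S := by
  have h1 : ∀ i : ℕ, ∃ S : ℝ, ∀ y, ‖iteratedDeriv i F y‖ ≤ S := by
    intro i
    have hc : Continuous (iteratedDeriv i F) := by
      have := hF.smooth.continuous_iteratedDeriv i (by exact_mod_cast le_top)
      exact this
    have hs : HasCompactSupport (iteratedDeriv i F) := by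
      refine HasCompactSupport.intro (isCompact_Icc (a := (-3 / 2 : ℝ)) (b := 3 / 2)) fun y hy => ?_
      exact iter_supp hF i y (by
          rw [Set.mem_Icc, not_and_or, not_le, not_le] at hy
          rcases hy with hy | hy
          · rw [abs_of_neg (by linarith)]; linarith
          · rw [abs_of_pos (by linarith)]; exact hy)
    exact hs.exists_bound_of_continuous hc
  choose S hS using h1
  refine ⟨∑ i ∈ Finset.range (k + 1), |S i|, Finset.sum_nonneg fun i _ => abs_nonneg _,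
    fun i hi y => ?_⟩
  refine (hS i y).trans ((le_abs_self _).trans ?_)
  exact Finset.single_le_sum (f := fun i => |S i|) (fun i _ => abs_nonneg _)
    (Finset.mem_range.mpr (by omega))

/-- **the derivative.** -/
theorem Op.hasDerivAt (hL : Op L) {F : ℝ → ℂ} (hF : TF1 F) (x : ℝ) :
    HasDerivAt (L F) (L (DF F) x) x := by
  obtain ⟨k, C, hC0, hC⟩ := hL.bd 0
  have hb : ∀ (F : ℝ → ℂ) (S : ℝ), TF F → Bd F k S → ∀ x, ‖L F x‖ ≤ C * S := by
    intro F S hF hB x
    have hS : 0 ≤ S := (norm_nonneg _).trans (hB 0 (Nat.zero_le _) 0)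
    refine (hC F S hF hB x).trans ?_
    have : min 1 (Real.exp ((0 : ℕ) * x)) ≤ 1 := min_le_left _ _
    have h0 : 0 ≤ C * S := by positivity
    nlinarith
  obtain ⟨S, hS0, hB⟩ := exists_Bd hF (k + 2)
  -- derivative of `h ↦ L (τ_h F) x` at `0`
  have h1 : HasDerivAt (fun h : ℝ => L (fun y => F (y - h)) x) (-L (deriv F) x) 0 := by
    rw [hasDerivAt_iff_isLittleO]
    have h2 : (fun h : ℝ => L (fun y => F (y - h)) x - L (fun y => F (y - 0)) x -
        (h - 0) • (-L (deriv F) x)) =O[𝓝 0] fun h : ℝ => h ^ 2 := by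
      refine Asymptotics.IsBigO.of_bound (C * S) ?_
      have hnb : Metric.closedBall (0 : ℝ) (1 / 2) ∈ 𝓝 (0 : ℝ) := Metric.closedBall_mem_nhds 0 (by norm_num)
      filter_upwards [hnb] with h hh
      rw [mem_closedBall_zero_iff, Real.norm_eq_abs] at hh
      have h3 := hL.deriv_aux hF hC0 hb hB x hh
      simp only [sub_zero]
      rw [Real.norm_of_nonneg (sq_nonneg h)]
      refine le_trans (le_of_eq ?_) h3
      congr 1
      rw [Complex.real_smul]
      ring
    refine h2.trans_isLittleO ?_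
    have h4 : (fun h : ℝ => h ^ 2) =o[𝓝 0] fun h : ℝ => h := by
      simpa using Asymptotics.isLittleO_pow_id (𝕜 := ℝ) (n := 2) (by norm_num)
    simpa using h4
  have h5 : HasDerivAt (fun h : ℝ => ((Real.exp (-h / 3) : ℝ) : ℂ)) (-(1 / 3) : ℂ) 0 := by
    have h6 : HasDerivAt (fun h : ℝ => Real.exp (-h / 3)) (Real.exp (-0 / 3) * (-1 / 3)) 0 := by
      have h7 : HasDerivAt (fun h : ℝ => -h / 3) (-1 / 3) 0 := by
        have := ((hasDerivAt_id (0 : ℝ)).neg).div_const 3
        simpa using this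
      exact h7.exp
    have h8 := h6.ofReal_comp
    have e : ((Real.exp (-0 / 3) * (-1 / 3) : ℝ) : ℂ) = (-(1 / 3) : ℂ) := by
      rw [neg_zero, zero_div, Real.exp_zero]
      push_cast; ring
    rw [e] at h8
    exact h8
  have h9 := h5.mul h1
  have h10 : HasDerivAt (fun h : ℝ => L F (x - h)) (-L (DF F) x) 0 := by
    have hev : (fun h : ℝ => L F (x - h)) =ᶠ[𝓝 0]
        ((fun h : ℝ => ((Real.exp (-h / 3) : ℝ) : ℂ)) * fun h : ℝ => L (fun y => F (y - h)) x) := by
      have hnb : Metric.closedBall (0 : ℝ) (1 / 2) ∈ 𝓝 (0 : ℝ) := Metric.closedBall_mem_nhds 0 (by norm_num)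
      filter_upwards [hnb] with h hh
      rw [mem_closedBall_zero_iff, Real.norm_eq_abs] at hh
      rw [Pi.mul_apply, hL.tr F h (tf1_tf hF) (tf1_shift hF hh), ← mul_assoc, ← Complex.ofReal_mul,
        ← Real.exp_add]
      rw [show -h / 3 + h / 3 = 0 by ring, Real.exp_zero, Complex.ofReal_one, one_mul]
    refine HasDerivAt.congr_of_eventuallyEq ?_ hev
    have h11 : L (DF F) x = (1 / 3 : ℂ) * L F x + L (deriv F) x := by
      have e1 : DF F = fun y => (1 / 3 : ℂ) * F y + deriv F y := rfl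
      rw [e1, hL.add (fun y => (1 / 3 : ℂ) * F y) (deriv F) (TF_mul (tf1_tf hF) _) (tf1_tf (tf1_deriv hF)),
        hL.smul _ _ (tf1_tf hF)]
    have h12 : -L (DF F) x = -(1 / 3 : ℂ) * L (fun y => F (y - 0)) x +
        ((Real.exp (-0 / 3) : ℝ) : ℂ) * -L (deriv F) x := by
      rw [h11, neg_zero, zero_div, Real.exp_zero, Complex.ofReal_one]
      simp only [sub_zero]
      ring
    rw [h12]
    exact h9
  -- substitute `h = x - z`
  have h12 : HasDerivAt (fun z : ℝ => x - z) (-1) x := by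
    have := (hasDerivAt_id x).const_sub x
    simpa using this
  have h13 : HasDerivAt (fun h : ℝ => L F (x - h)) (-L (DF F) x) ((fun z : ℝ => x - z) x) := by
    simpa using h10
  have h14 := HasDerivAt.scomp x h13 h12
  have e2 : ((fun h : ℝ => L F (x - h)) ∘ fun z : ℝ => x - z) = L F := by
    funext z; simp
  rw [e2] at h14
  simpa using h14

lemma tf1_iter {F : ℝ → ℂ} (hF : TF1 F) (n : ℕ) : TF1 (DF^[n] F) := by
  induction n with
  | zero => exact hF
  | succ n ih =>
    rw [Function.iterate_succ_apply']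
    exact tf1_DF ih

lemma bd_iter {F : ℝ → ℂ} (hF : TF1 F) {k : ℕ} {S : ℝ} (n : ℕ) (hB : Bd F (k + n) S) :
    Bd (DF^[n] F) k (2 ^ n * S) := by
  induction n generalizing k with
  | zero => simpa using hB
  | succ n ih =>
    rw [Function.iterate_succ_apply']
    have h1 := ih (k := k + 1) (by rwa [show k + 1 + n = k + (n + 1) by ring])
    have := bd_DF (tf1_iter hF n) h1
    rwa [← mul_assoc, ← pow_succ'] at this

/-- **smooth separation.** -/
theorem Op.sep (hL : Op L) {R : ℝ} (hR : 0 ≤ R) (A M : ℕ) : ∃ (k : ℕ) (C : ℝ), 0 ≤ C ∧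
    ∀ (F : ℝ → ℂ) (S : ℝ), TF1 F → Bd F k S → ∀ x0 : ℝ, ∃ kk : ℝ → ℂ, Continuous kk ∧
      Integrable kk ∧ (∀ t, ‖kk t‖ * (1 + |t|) ^ A ≤ C * S * min 1 (Real.exp (M * x0))) ∧
      ∀ u, |u| ≤ R → L F (x0 - u) = ∫ t, kk t * osc t u := by
  obtain ⟨D, hD, h⟩ := kernel_of_bounds R hR A
  obtain ⟨k, C, hC0, hC⟩ := hL.bd M
  refine ⟨k + A, D * (C * 2 ^ A * Real.exp (M * (R + 1))), by positivity,
    fun F S hF hB x0 => ?_⟩
  have hS : 0 ≤ S := (norm_nonneg _).trans (hB 0 (Nat.zero_le _) 0)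
  have hm : 0 ≤ min 1 (Real.exp (M * x0)) := le_min zero_le_one (Real.exp_pos _).le
  obtain ⟨kk, hk1, hk2, hk3, hk4⟩ := h
    (fun n u => (-1 : ℂ) ^ n * L (DF^[n] F) (x0 - u))
    (C * 2 ^ A * Real.exp (M * (R + 1)) * S * min 1 (Real.exp (M * x0))) (by positivity)
    (fun n u => by
      have h1 := hL.hasDerivAt (tf1_iter hF n) (x0 - u)
      have h12 : HasDerivAt (fun z : ℝ => x0 - z) (-1) u := by
        have := (hasDerivAt_id u).const_sub x0
        simpa using this
      have h2 := (HasDerivAt.scomp u h1 h12).const_mul ((-1 : ℂ) ^ n)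
      rw [← Function.iterate_succ_apply' DF n F] at h2
      have e3 : (-1 : ℂ) ^ (n + 1) * L (DF^[n + 1] F) (x0 - u) =
          (-1 : ℂ) ^ n * (-1 : ℝ) • L (DF^[n.succ] F) (x0 - u) := by
        rw [pow_succ, Complex.real_smul]
        push_cast
        ring
      rw [e3]
      exact h2)
    (fun n hn u hu => by
      rw [norm_mul, norm_pow, norm_neg, norm_one, one_pow, one_mul]
      have hB' : Bd (DF^[n] F) k (2 ^ n * S) := bd_iter hF n (bd_mono hB (by omega))
      refine (hC _ _ (tf1_tf (tf1_iter hF n)) hB' _).trans ?_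
      have h2n : (2 : ℝ) ^ n ≤ 2 ^ A := pow_le_pow_right₀ (by norm_num) hn
      have h3 : min 1 (Real.exp (M * (x0 - u))) ≤
          Real.exp (M * (R + 1)) * min 1 (Real.exp (M * x0)) := by
        have h4 : Real.exp (M * (x0 - u)) ≤ Real.exp (M * (R + 1)) * Real.exp (M * x0) := by
          rw [← Real.exp_add]
          apply Real.exp_le_exp.mpr
          have h5 := (abs_le.mp hu).1
          have h6 : (0 : ℝ) ≤ M := Nat.cast_nonneg M
          nlinarith
        have h7 : 1 ≤ Real.exp (M * (R + 1)) := by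
          exact Real.one_le_exp (by positivity)
        rcases le_total 1 (Real.exp (M * x0)) with h8 | h8
        · rw [min_eq_left h8, mul_one]
          exact (min_le_left _ _).trans h7
        · rw [min_eq_right h8]
          exact (min_le_right _ _).trans h4
      have h9 : 0 ≤ min 1 (Real.exp (M * (x0 - u))) := le_min zero_le_one (Real.exp_pos _).le
      calc C * (2 ^ n * S) * min 1 (Real.exp (M * (x0 - u)))
          ≤ C * (2 ^ A * S) * (Real.exp (M * (R + 1)) * min 1 (Real.exp (M * x0))) := by gcongr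
        _ = _ := by ring)
  refine ⟨kk, hk1, hk2, fun t => (hk3 t).trans (le_of_eq (by ring)), fun u hu => ?_⟩
  rw [← hk4 u hu]
  simp

end op

end Crest.Agent.R017.X6W180
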