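import Crest.Agent.R017.X6b2_792
import Crest.Agent.R017.HP2_842

/-!
# Row 17, exceptional class (helper792): the windows for convolutions

* `tsum_split` : a convolution is the product of the convolutions over `I` and over `Iᶜ`
* `TG_cv_eq_TG2` : the same on the Gauss side (bilinear form)
* `TG_cv_th` : the first moment with the weight `th` for a convolution, any split `I`
* `TG_sqc_th` : the same for `m ↦ [(m, q) = 1] n6 m (sqc q₀ (cv f)) (g m)`
-/

set_option autoImplicit false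
set_option linter.unusedSectionVars false

noncomputable section

open Complex
open scoped ComplexConjugate

namespace Crest.Agent.R017.X6b792

open Crest.Agent.R012 Crest.Agent.R012.Eis Crest.Agent.R012.LS2 Crest.Agent.R012.Gauss880
open Crest.Agent.R012.Div277 (tau dvs mem_dvs tau_le_rpow)
open Crest.Agent.R017.CM106
open Crest.Agent.R017.PX764 (th n6 n6_pos n6_le_one n6_mul n6_one)
open Crest.Agent.R017.HP842

variable {ι : Type*} [Fintype ι] [DecidableEq ι]

/-- the unit sequence -/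
def one1 (m : Eis) : ℂ := by
  classical exact if m = 1 then 1 else 0

lemma one1_one : one1 1 = 1 := by unfold one1; rw [if_pos rfl]

lemma one1_ne {m : Eis} (h : one1 m ≠ 0) : m = 1 := by
  by_contra hm
  apply h
  unfold one1
  rw [if_neg hm]

/-- restriction of a family to `I` -/
def rI (I : Finset ι) (h : ι → Eis → ℂ) (i : ι) : Eis → ℂ := if i ∈ I then h i else one1

lemma rI_mem {I : Finset ι} {h : ι → Eis → ℂ} {i : ι} (hi : i ∈ I) : rI I h i = h i := if_pos hi

lemma rI_not {I : Finset ι} {h : ι → Eis → ℂ} {i : ι} (hi : i ∉ I) : rI I h i = one1 := if_neg hi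

lemma FS_one1 : FS one1 where
  fin := (Set.finite_singleton (1 : Eis)).subset fun m hm => one1_ne hm
  prim m hm := by rw [one1_ne hm]; exact isPrim_one

lemma FS_rI {h : ι → Eis → ℂ} (hf : ∀ i, FS (h i)) (I : Finset ι) (i : ι) : FS (rI I h i) := by
  by_cases hi : i ∈ I
  · rw [rI_mem hi]; exact hf i
  · rw [rI_not hi]; exact FS_one1

/-- **split of a convolution** -/
theorem tsum_split {h : ι → Eis → ℂ} (hf : ∀ i, FS (h i)) (I : Finset ι) (F : Eis → ℂ) :
    ∑' n : Eis, cv h n * F n =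
      ∑' b : Eis, cv (rI I h) b * ∑' m : Eis, cv (rI Iᶜ h) m * F (b * m) := by
  classical
  obtain ⟨X1, hX1⟩ := exists_Bd hf
  obtain ⟨X2, hX2⟩ := exists_Bd (FS_rI hf I)
  obtain ⟨X3, hX3⟩ := exists_Bd (FS_rI hf Iᶜ)
  set X : ℕ := max X1 (max X2 (max X3 1)) with hX
  have h1 : Bd X h := hX1.mono (le_max_left _ _)
  have h2 : Bd X (rI I h) := hX2.mono ((le_max_left _ _).trans (le_max_right _ _))
  have h3 : Bd X (rI Iᶜ h) := hX3.mono
    ((le_max_left _ _).trans ((le_max_right _ _).trans (le_max_right _ _)))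
  have hX1' : 1 ≤ X := (le_max_right _ _).trans ((le_max_right _ _).trans (le_max_right _ _))
  rw [sum_cv h1, sum_cv h2]
  have e1 : ∀ b : Eis, ∑' m : Eis, cv (rI Iᶜ h) m * F (b * m) =
      ∑ y ∈ Fintype.piFinset (fun _ : ι => primBall X), (∏ i, rI Iᶜ h i (y i)) *
        F (b * ∏ i, y i) := fun b => sum_cv h3 (fun m => F (b * m))
  simp_rw [e1, Finset.mul_sum]
  set A := Fintype.piFinset (fun _ : ι => primBall X) with hA
  rw [← Finset.sum_product' A A (fun x y => (∏ i, rI I h i (x i)) *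
    ((∏ i, rI Iᶜ h i (y i)) * F ((∏ i, x i) * ∏ i, y i)))]
  have hmA : ∀ x, x ∈ A ↔ ∀ i, nm (x i) ≤ X ∧ IsPrim (x i) := by
    intro x
    rw [hA, Fintype.mem_piFinset]
    exact forall_congr' fun i => mem_primBall
  have hone : nm (1 : Eis) ≤ X ∧ IsPrim (1 : Eis) := ⟨by rw [nm_one]; exact hX1', isPrim_one⟩
  refine Finset.sum_of_injOn
    (fun z => ((fun i => if i ∈ I then z i else 1), (fun i => if i ∈ I then 1 else z i)))
    ?_ ?_ ?_ ?_
  · intro z _ z' _ hzz
    funext i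
    have ha := congrFun (congrArg Prod.fst hzz) i
    have hb := congrFun (congrArg Prod.snd hzz) i
    by_cases hi : i ∈ I
    · simpa [hi] using ha
    · simpa [hi] using hb
  · intro z hz
    have hz' := (hmA z).1 (Finset.mem_coe.1 hz)
    rw [Finset.mem_coe, Finset.mem_product, hmA, hmA]
    refine ⟨fun i => ?_, fun i => ?_⟩
    · by_cases hi : i ∈ I
      · simpa [hi] using hz' i
      · simpa [hi] using hone
    · by_cases hi : i ∈ I
      · simpa [hi] using hone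
      · simpa [hi] using hz' i
  · rintro ⟨x, y⟩ hp hn
    rw [Finset.mem_product, hmA, hmA] at hp
    by_contra hne
    apply hn
    have hx : ∀ i, rI I h i (x i) ≠ 0 := by
      intro i h0
      apply hne
      change (∏ i, rI I h i (x i)) * _ = 0
      rw [Finset.prod_eq_zero (Finset.mem_univ i) h0, zero_mul]
    have hy : ∀ i, rI Iᶜ h i (y i) ≠ 0 := by
      intro i h0
      apply hne
      have h00 : ∏ i, rI Iᶜ h i (y i) = 0 := Finset.prod_eq_zero (Finset.mem_univ i) h0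
      change (∏ i, rI I h i (x i)) * ((∏ i, rI Iᶜ h i (y i)) * _) = 0
      rw [h00, zero_mul, mul_zero]
    refine ⟨fun i => if i ∈ I then x i else y i, ?_, ?_⟩
    · rw [Finset.mem_coe, hmA]
      intro i
      by_cases hi : i ∈ I
      · simpa [hi] using hp.1 i
      · simpa [hi] using hp.2 i
    · refine Prod.ext (funext fun i => ?_) (funext fun i => ?_)
      · by_cases hi : i ∈ I
        · simp [hi]
        · have := hx i
          rw [rI_not hi] at this
          simp [hi, one1_ne this]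
      · by_cases hi : i ∈ I
        · have := hy i
          rw [rI_not (by simpa using hi)] at this
          simp [hi, one1_ne this]
        · simp [hi]
  · intro z _
    have e2 : ∏ i, h i (z i) = (∏ i, rI I h i (if i ∈ I then z i else 1)) *
        ∏ i, rI Iᶜ h i (if i ∈ I then 1 else z i) := by
      rw [← Finset.prod_mul_distrib]
      refine Finset.prod_congr rfl fun i _ => ?_
      by_cases hi : i ∈ I
      · rw [if_pos hi, if_pos hi, rI_mem hi, rI_not (by simpa using hi), one1_one, mul_one]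
      · rw [if_neg hi, if_neg hi, rI_not hi, rI_mem (by simpa using hi), one1_one, one_mul]
    have e3 : ∏ i, z i = (∏ i, (if i ∈ I then z i else 1)) * ∏ i, (if i ∈ I then 1 else z i) := by
      rw [← Finset.prod_mul_distrib]
      refine Finset.prod_congr rfl fun i _ => ?_
      by_cases hi : i ∈ I
      · rw [if_pos hi, if_pos hi, mul_one]
      · rw [if_neg hi, if_neg hi, one_mul]
    change (∏ i, h i (z i)) * F (∏ i, z i) = _
    rw [e2, ← e3]
    ring

/-! ### support and size of convolutions -/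

lemma Sp_cv {Z : ι → ℝ} (_hZ : ∀ i, 0 ≤ Z i) {h : ι → Eis → ℂ} (hs : ∀ i, Sp (Z i) (h i)) :
    Sp (∏ i, Z i) (cv h) := by
  intro b hb
  have hp : IsPrim b := by
    by_contra hn; exact hb (cv_not_prim hn)
  refine ⟨hp, ?_⟩
  unfold cv at hb
  obtain ⟨x, hx, hx0⟩ := Finset.exists_ne_zero_of_sum_ne_zero hb
  rw [mem_Tu] at hx
  have h1 : ∀ i, (nm (x i) : ℝ) ≤ Z i := by
    intro i
    refine (hs i _ ?_).2
    intro h0
    exact hx0 (Finset.prod_eq_zero (Finset.mem_univ i) h0)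
  rw [← hx.2]
  have e : ∀ s : Finset ι, (nm (∏ i ∈ s, x i) : ℝ) = ∏ i ∈ s, (nm (x i) : ℝ) := by
    intro s
    induction s using Finset.induction_on with
    | empty => simp [nm_one]
    | insert a s ha ih =>
      rw [Finset.prod_insert ha, Finset.prod_insert ha, nm_mul, Nat.cast_mul, ih]
  rw [e]
  exact Finset.prod_le_prod (fun i _ => Nat.cast_nonneg _) fun i _ => h1 i

lemma n6_prod (x : ι → Eis) (s : Finset ι) : n6 (∏ i ∈ s, x i) = ∏ i ∈ s, n6 (x i) := by
  induction s using Finset.induction_on with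
  | empty => simp [n6_one]
  | insert a s ha ih => rw [Finset.prod_insert ha, Finset.prod_insert ha, n6_mul, ih]

lemma norm_cv_le {W : ι → ℝ} {h : ι → Eis → ℂ}
    (hw : ∀ i m, IsPrim m → ‖h i m‖ ≤ W i * n6 m) (b : Eis) :
    ‖cv h b‖ ≤ (tau b : ℝ) ^ Fintype.card ι * (∏ i, W i) * n6 b := by
  classical
  have hW : ∀ i, 0 ≤ W i := by
    intro i
    have := hw i 1 isPrim_one
    rw [n6_one, mul_one] at this
    exact (norm_nonneg _).trans this
  have hn6 : 0 ≤ n6 b := by unfold n6; positivity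
  have hWp : 0 ≤ ∏ i, W i := Finset.prod_nonneg fun i _ => hW i
  unfold cv
  refine (norm_sum_le _ _).trans ?_
  have h1 : ∀ x ∈ Tu ι b, ‖∏ i, h i (x i)‖ ≤ (∏ i, W i) * n6 b := by
    intro x hx
    rw [mem_Tu] at hx
    rw [norm_prod]
    calc ∏ i, ‖h i (x i)‖ ≤ ∏ i, (W i * n6 (x i)) :=
          Finset.prod_le_prod (fun i _ => norm_nonneg _) fun i _ => hw i _ (hx.1 i)
      _ = (∏ i, W i) * n6 b := by
          rw [Finset.prod_mul_distrib, ← n6_prod x Finset.univ, hx.2]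
  refine (Finset.sum_le_sum h1).trans ?_
  rw [Finset.sum_const, nsmul_eq_mul, mul_assoc]
  refine mul_le_mul_of_nonneg_right ?_ (by positivity)
  exact_mod_cast card_Tu_le b

/-- `L²` norm of a convolution -/
theorem sq_cv_le (k : ℕ) {ε : ℝ} (hε : 0 < ε) : ∃ C : ℝ, 0 < C ∧ ∀ (B : ℝ), 1 ≤ B →
    ∀ (β : Eis → ℂ) (W : ℝ), 0 ≤ W → (∀ b, ‖β b‖ ≤ (tau b : ℝ) ^ k * W * n6 b) →
    Real.sqrt (∑ b ∈ S B, ‖β b‖ ^ 2) ≤ C * B ^ ε * W * B ^ ((1 : ℝ) / 3) := by
  obtain ⟨C, hC1, hC⟩ := tau_le_rpow (ε := ε / (2 * (k + 1))) (by positivity)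
  obtain ⟨K, hK, hLL⟩ := LS448.LL_le (ε := ε) hε
  have hC0 : 0 < C := by linarith
  refine ⟨C ^ k * Real.sqrt K, by positivity, fun B hB β W hW h => ?_⟩
  have hB0 : 0 < B := by linarith
  set U : ℝ := C ^ k * B ^ (ε / 2) with hU
  have hU0 : 0 ≤ U := by positivity
  have h1 : ∀ b ∈ S B, ‖β b‖ ^ 2 ≤ (U * W) ^ 2 * n6 b ^ 2 := by
    intro b hb
    have hb' := (mem_S hB0.le).1 hb
    have hn6 := (n6_pos hb'.2.1.ne_zero).le
    have h2 : (tau b : ℝ) ^ k ≤ U := by
      have h3 : (tau b : ℝ) ≤ C * B ^ (ε / (2 * (k + 1))) := by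
        refine (hC b hb'.2.1.ne_zero).trans ?_
        refine mul_le_mul_of_nonneg_left ?_ hC0.le
        exact Real.rpow_le_rpow (Nat.cast_nonneg _) hb'.1 (by positivity)
      calc (tau b : ℝ) ^ k ≤ (C * B ^ (ε / (2 * (k + 1)))) ^ k :=
            pow_le_pow_left₀ (Nat.cast_nonneg _) h3 k
        _ = C ^ k * B ^ (ε / (2 * (k + 1)) * k) := by
            rw [mul_pow, ← Real.rpow_natCast, ← Real.rpow_natCast, ← Real.rpow_mul hB0.le]
        _ ≤ C ^ k * B ^ (ε / 2) := by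
            refine mul_le_mul_of_nonneg_left ?_ (by positivity)
            refine Real.rpow_le_rpow_of_exponent_le hB ?_
            rw [div_mul_eq_mul_div, div_le_div_iff₀ (by positivity) (by norm_num)]
            have : (0 : ℝ) ≤ k := Nat.cast_nonneg k
            nlinarith
    calc ‖β b‖ ^ 2 ≤ ((tau b : ℝ) ^ k * W * n6 b) ^ 2 :=
          pow_le_pow_left₀ (norm_nonneg _) (h b) 2
      _ ≤ (U * W * n6 b) ^ 2 := by
          refine pow_le_pow_left₀ (by positivity) ?_ 2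
          gcongr
      _ = _ := by ring
  have h4 : ∑ b ∈ S B, ‖β b‖ ^ 2 ≤ (U * W) ^ 2 * (B ^ ((2 : ℝ) / 3) * (K * B ^ ε)) := by
    refine (Finset.sum_le_sum h1).trans ?_
    rw [← Finset.mul_sum]
    refine mul_le_mul_of_nonneg_left ?_ (by positivity)
    exact (sum_third_le hB0.le).trans (mul_le_mul_of_nonneg_left (hLL B hB) (by positivity))
  refine (Real.sqrt_le_sqrt h4).trans (le_of_eq ?_)
  rw [Real.sqrt_mul (by positivity), Real.sqrt_mul (by positivity), Real.sqrt_sq (by positivity),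
    Real.sqrt_mul hK.le]
  have e1 : Real.sqrt (B ^ ((2 : ℝ) / 3)) = B ^ ((1 : ℝ) / 3) := by
    rw [Real.sqrt_eq_rpow, ← Real.rpow_mul hB0.le]; norm_num
  have e2 : Real.sqrt (B ^ ε) = B ^ (ε / 2) := by
    rw [Real.sqrt_eq_rpow, ← Real.rpow_mul hB0.le]; congr 1; ring
  have e3 : B ^ ε = B ^ (ε / 2) * B ^ (ε / 2) := by
    rw [← Real.rpow_add hB0]; congr 1; ring
  rw [e1, e2, e3, hU]; ring

/-! ### the Gauss side -/

/-- a convolution on the Gauss side as a bilinear form -/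
theorem TG_cv_eq_TG2 {h : ι → Eis → ℂ} (hf : ∀ i, FS (h i)) (I : Finset ι) {B : ℝ} (hB : 0 ≤ B)
    (hs : Sp B (cv (rI I h))) (l : Eis) :
    TG (cv h) l = TG2 (S B) (cv (rI I h)) (cv (rI Iᶜ h)) l := by
  classical
  unfold TG
  rw [tsum_split hf I (fun n => G n * conj (sy l n))]
  unfold TG2
  refine tsum_eq_sum fun b hb => ?_
  by_cases h0 : cv (rI I h) b = 0
  · rw [h0, zero_mul]
  · obtain ⟨hp, hn⟩ := hs b h0
    have hsq : ¬ Squarefree b := fun hsq => hb ((mem_S hB).2 ⟨hn, hp, hsq⟩)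
    have : ∑' m : Eis, cv (rI Iᶜ h) m * (G (b * m) * conj (sy l (b * m))) = 0 := by
      rw [← tsum_zero]
      refine tsum_congr fun m => ?_
      by_cases hm : cv (rI Iᶜ h) m = 0
      · rw [hm, zero_mul]
      · have hmp : IsPrim m := by
          by_contra hn; exact hm (cv_not_prim hn)
        rw [G_eq_zero syG (hp.mul hmp) (fun hs => hsq (hs.of_mul_left))]
        ring
    rw [this, mul_zero]

/-- **the first moment with the weight `th` for a convolution**, any split `I` -/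
theorem TG_cv_th (ι : Type*) [Fintype ι] [DecidableEq ι] {ε : ℝ} (hε : 0 < ε) :
    ∃ C : ℝ, 0 < C ∧ ∀ (L : ℝ) (Y W : ι → ℝ),
    1 ≤ L → (∀ i, 1 ≤ Y i) → ∀ h : ι → Eis → ℂ, (∀ i, Sp (Y i) (h i)) →
    (∀ i m, IsPrim m → ‖h i m‖ ≤ W i * n6 m) → ∀ (I : Finset ι) (q : Eis),
    ∑ x ∈ bl L, ‖th x‖ * ‖TG (cv h) (q * x)‖ ≤
      C * (L * ∏ i, Y i) ^ ε * (∏ i, W i) * (L ^ ((1 : ℝ) / 3) * ((∏ i, Y i) ^ ((1 : ℝ) / 3) *
        Real.sqrt (L * (∏ i ∈ I, Y i) + (∏ i ∈ Iᶜ, Y i) +
          (L * ∏ i, Y i) ^ ((2 : ℝ) / 3)))) := by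
  classical
  obtain ⟨C1, hC1, h1⟩ := X6b_th (ε := ε / 3) (by positivity)
  obtain ⟨C2, hC2, h2⟩ := sq_cv_le (Fintype.card ι) (ε := ε / 3) (by positivity)
  refine ⟨C1 * (C2 * C2), by positivity, fun L Y W hL hY h hs hw I q => ?_⟩
  have hW : ∀ i, 0 ≤ W i := by
    intro i
    have := hw i 1 isPrim_one
    rw [n6_one, mul_one] at this
    exact (norm_nonneg _).trans this
  have hY0 : ∀ i, 0 ≤ Y i := fun i => by linarith [hY i]
  have key : ∀ J : Finset ι, Sp (∏ i ∈ J, Y i) (cv (rI J h)) ∧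
      ∀ b, ‖cv (rI J h) b‖ ≤ (tau b : ℝ) ^ Fintype.card ι * (∏ i ∈ J, W i) * n6 b := by
    intro J
    have e1 : ∏ i ∈ J, Y i = ∏ i, (if i ∈ J then Y i else 1) := by
      rw [Finset.prod_ite_mem, Finset.univ_inter]
    have e2 : ∏ i ∈ J, W i = ∏ i, (if i ∈ J then W i else 1) := by
      rw [Finset.prod_ite_mem, Finset.univ_inter]
    rw [e1, e2]
    refine ⟨Sp_cv (fun i => ?_) fun i => ?_, fun b => norm_cv_le (fun i m hm => ?_) b⟩
    · split_ifs
      · exact hY0 i
      · exact zero_le_one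
    · by_cases hi : i ∈ J
      · rw [rI_mem hi, if_pos hi]; exact hs i
      · rw [rI_not hi, if_neg hi]
        intro m hm
        rw [one1_ne hm]
        exact ⟨isPrim_one, by rw [nm_one]; norm_num⟩
    · by_cases hi : i ∈ J
      · rw [rI_mem hi, if_pos hi]; exact hw i m hm
      · rw [rI_not hi, if_neg hi, one_mul]
        by_cases h0 : one1 m = 0
        · rw [h0, norm_zero]; exact (n6_pos hm.ne_zero).le
        · rw [one1_ne h0, one1_one, norm_one, n6_one]
  have prod_ge : ∀ J : Finset ι, 1 ≤ ∏ i ∈ J, Y i := fun J => by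
    calc (1 : ℝ) = ∏ i ∈ J, (1 : ℝ) := by simp
      _ ≤ ∏ i ∈ J, Y i := Finset.prod_le_prod (fun _ _ => zero_le_one) fun i _ => hY i
  set B : ℝ := ∏ i ∈ I, Y i with hBd
  set A : ℝ := ∏ i ∈ Iᶜ, Y i with hAd
  have hB : 1 ≤ B := prod_ge I
  have hA : 1 ≤ A := prod_ge Iᶜ
  have hBA : B * A = ∏ i, Y i := by rw [hBd, hAd, Finset.prod_mul_prod_compl]
  have hVV : (∏ i ∈ I, W i) * (∏ i ∈ Iᶜ, W i) = ∏ i, W i := by rw [Finset.prod_mul_prod_compl]
  have hV1 : 0 ≤ ∏ i ∈ I, W i := Finset.prod_nonneg fun i _ => hW i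
  have hV2 : 0 ≤ ∏ i ∈ Iᶜ, W i := Finset.prod_nonneg fun i _ => hW i
  have hFS : ∀ i, FS (h i) := fun i => (hs i).FS
  have hSB : ∀ b ∈ S B, IsPrim b ∧ (nm b : ℝ) ≤ B := by
    intro b hb
    have := (mem_S (by linarith)).1 hb
    exact ⟨this.2.1, this.1⟩
  have e : ∀ x, TG (cv h) (q * x) = TG2 (S B) (cv (rI I h)) (cv (rI Iᶜ h)) (q * x) := fun x =>
    TG_cv_eq_TG2 hFS I (by linarith) (key I).1 _
  simp only [e]
  refine (h1 L B A hL hB hA (S B) (cv (rI I h)) (cv (rI Iᶜ h)) hSB (key Iᶜ).1 q).trans ?_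
  have n1 := h2 B hB (cv (rI I h)) (∏ i ∈ I, W i) hV1 (key I).2
  have n2 := h2 A hA (cv (rI Iᶜ h)) (∏ i ∈ Iᶜ, W i) hV2 (key Iᶜ).2
  have hLBA : L * B * A = L * ∏ i, Y i := by rw [mul_assoc, hBA]
  set P : ℝ := L * ∏ i, Y i with hP
  have hP1 : 1 ≤ P := by
    rw [← hLBA]
    exact one_le_mul_of_one_le_of_one_le (one_le_mul_of_one_le_of_one_le hL hB) hA
  have hP0 : 0 < P := by linarith
  have hB0 : 0 < B := by linarith
  have hA0 : 0 < A := by linarith
  have hBP : B ≤ P := by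
    rw [← hLBA]
    calc B ≤ L * B := le_mul_of_one_le_left hB0.le hL
      _ ≤ L * B * A := le_mul_of_one_le_right (by positivity) hA
  have hAP : A ≤ P := by
    rw [← hLBA]
    exact le_mul_of_one_le_left hA0.le (one_le_mul_of_one_le_of_one_le hL hB)
  rw [hLBA]
  set Q : ℝ := Real.sqrt (L * B + A + P ^ ((2 : ℝ) / 3)) with hQ
  have hQ0 : 0 ≤ Q := Real.sqrt_nonneg _
  calc C1 * P ^ (ε / 3) * (L ^ ((1 : ℝ) / 3) * (Q * (Real.sqrt (∑ b ∈ S B, ‖cv (rI I h) b‖ ^ 2) *
        Real.sqrt (∑ m ∈ S A, ‖cv (rI Iᶜ h) m‖ ^ 2))))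
      ≤ C1 * P ^ (ε / 3) * (L ^ ((1 : ℝ) / 3) * (Q *
        ((C2 * B ^ (ε / 3) * (∏ i ∈ I, W i) * B ^ ((1 : ℝ) / 3)) *
          (C2 * A ^ (ε / 3) * (∏ i ∈ Iᶜ, W i) * A ^ ((1 : ℝ) / 3))))) := by
        gcongr
    _ ≤ C1 * P ^ (ε / 3) * (L ^ ((1 : ℝ) / 3) * (Q *
        ((C2 * P ^ (ε / 3) * (∏ i ∈ I, W i) * B ^ ((1 : ℝ) / 3)) *
          (C2 * P ^ (ε / 3) * (∏ i ∈ Iᶜ, W i) * A ^ ((1 : ℝ) / 3))))) := by
        gcongr
    _ = C1 * (C2 * C2) * (P ^ (ε / 3) * P ^ (ε / 3) * P ^ (ε / 3)) *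
          ((∏ i ∈ I, W i) * (∏ i ∈ Iᶜ, W i)) * (L ^ ((1 : ℝ) / 3) *
          ((B ^ ((1 : ℝ) / 3) * A ^ ((1 : ℝ) / 3)) * Q)) := by ring
    _ = _ := by
        rw [hVV, ← Real.mul_rpow hB0.le hA0.le, hBA, ← Real.rpow_add hP0, ← Real.rpow_add hP0]
        congr 4
        ring

/-! ### multiplicative weights -/

/-- multiplicative on tuples of primary elements -/
def Mulp (F : Eis → ℂ) : Prop := F 1 = 1 ∧ ∀ a b, IsPrim a → IsPrim b → F (a * b) = F a * F b

lemma Mulp.prod {F : Eis → ℂ} (hF : Mulp F) {x : ι → Eis} (hx : ∀ i, IsPrim (x i))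
    (s : Finset ι) : F (∏ i ∈ s, x i) = ∏ i ∈ s, F (x i) := by
  induction s using Finset.induction_on with
  | empty => simp [hF.1]
  | insert a s ha ih =>
    rw [Finset.prod_insert ha, Finset.prod_insert ha, hF.2 _ _ (hx a) (isPrim_prod hx), ih]

lemma cv_weight {F : Eis → ℂ} (hF : Mulp F) (f : ι → Eis → ℂ) (b : Eis) :
    cv (fun i m => f i m * F m) b = cv f b * F b := by
  unfold cv
  rw [Finset.sum_mul]
  refine Finset.sum_congr rfl fun x hx => ?_
  rw [mem_Tu] at hx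
  rw [Finset.prod_mul_distrib, ← hF.prod hx.1 Finset.univ, hx.2]

/-- `[(m, q) = 1]` -/
def ic (q m : Eis) : ℂ := by
  classical exact if IsCoprime m q then 1 else 0

lemma mulp_ic (q : Eis) : Mulp (ic q) := by
  classical
  refine ⟨?_, fun a b _ _ => ?_⟩
  · unfold ic; rw [if_pos isCoprime_one_left]
  · unfold ic
    by_cases ha : IsCoprime a q
    · by_cases hb : IsCoprime b q
      · rw [if_pos (ha.mul_left hb), if_pos ha, if_pos hb, mul_one]
      · rw [if_neg (fun h => hb h.of_mul_left_right), if_neg hb, mul_zero]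
    · rw [if_neg (fun h => ha h.of_mul_left_left), if_neg ha, zero_mul]

lemma norm_ic_le (q m : Eis) : ‖ic q m‖ ≤ 1 := by
  classical
  unfold ic
  split_ifs <;> simp

lemma mulp_n6 : Mulp (fun m => (n6 m : ℂ)) :=
  ⟨by simp [n6_one], fun a b _ _ => by
    change ((n6 (a * b) : ℝ) : ℂ) = (n6 a : ℂ) * (n6 b : ℂ)
    rw [n6_mul]; push_cast; rfl⟩

lemma Mulp.mul {F F' : Eis → ℂ} (h : Mulp F) (h' : Mulp F') : Mulp (fun m => F m * F' m) :=
  ⟨by simp [h.1, h'.1], fun a b ha hb => by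
    change F (a * b) * F' (a * b) = _
    rw [h.2 a b ha hb, h'.2 a b ha hb]; ring⟩

/-- the sequence of the cross lemma -/
def wseq (q0 g q : Eis) (f : ι → Eis → ℂ) (m : Eis) : ℂ :=
  sqc q0 (cv f) (g * m) * (ic q m * (n6 m : ℂ))

/-- its pieces -/
def wpc (Q : Eis) (f : ι → Eis → ℂ) (y : ι → Eis) (i : ι) (m : Eis) : ℂ :=
  sub (f i) (y i) m * (ic Q m * (n6 m : ℂ))

lemma wseq_eq {f : ι → Eis → ℂ} {q0 g q : Eis} (hg : IsPrim g) (hgs : Squarefree g)
    (hgq : IsCoprime g q0) {m : Eis} (hm : IsPrim m) (hms : Squarefree m) :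
    wseq q0 g q f m = ∑ y ∈ Tu ι g, cv (wpc (q * (q0 * g)) f y) m := by
  classical
  have e1 : ∀ y, cv (wpc (q * (q0 * g)) f y) m =
      cv (fun i => sub (f i) (y i)) m * (ic (q * (q0 * g)) m * (n6 m : ℂ)) := fun y =>
    cv_weight ((mulp_ic _).mul mulp_n6) _ _
  simp_rw [e1]
  rw [← Finset.sum_mul]
  unfold wseq sqc
  by_cases hc : IsCoprime g m
  · rw [← cv_mul f hg hm hc]
    have h2 : Th q0 (g * m) * ic q m = ic (q * (q0 * g)) m := by
      unfold Th ic
      by_cases h3 : IsCoprime m q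
      · by_cases h4 : IsCoprime m q0
        · rw [if_pos ⟨squarefree_mul_iff.2 ⟨hc.isRelPrime, hgs, hms⟩, hgq.mul_left h4⟩, if_pos h3,
            if_pos (h3.mul_right (h4.mul_right hc.symm)), mul_one]
        · rw [if_neg (fun h => h4 h.2.of_mul_left_right), zero_mul,
            if_neg (fun h => h4 h.of_mul_right_right.of_mul_right_left)]
      · rw [if_neg h3, mul_zero, if_neg (fun h => h3 h.of_mul_right_left)]
    rw [← h2]; ring
  · have h5 : Th q0 (g * m) = 0 := by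
      unfold Th
      rw [if_neg]
      rintro ⟨hs, -⟩
      exact PX764.not_sqf_of_not_coprime hg.ne_zero hc hs
    have h6 : ic (q * (q0 * g)) m = 0 := by
      unfold ic
      rw [if_neg (fun h => hc h.of_mul_right_right.of_mul_right_right.symm)]
    rw [h5, h6]; ring

lemma wseq_zero {f : ι → Eis → ℂ} {q0 g q : Eis} (hgs : ¬ (Squarefree g ∧ IsCoprime g q0))
    (m : Eis) : wseq q0 g q f m = 0 := by
  classical
  unfold wseq sqc Th
  rw [if_neg]
  · ring
  · rintro ⟨h1, h2⟩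
    exact hgs ⟨h1.of_mul_left, h2.of_mul_left_left⟩

/-- **the windows for the sequences of the cross lemma** -/
theorem TG_wseq_th (ι : Type*) [Fintype ι] [DecidableEq ι] {ε : ℝ} (hε : 0 < ε) :
    ∃ C : ℝ, 0 < C ∧ ∀ (L M : ℝ) (Y W : ι → ℝ), 1 ≤ L → 0 ≤ M → (∀ i, 1 ≤ Y i) →
    ∀ f : ι → Eis → ℂ, (∀ i, Sp (Y i) (f i)) → (∀ i m, ‖f i m‖ ≤ W i) →
    ∀ g : Eis, IsPrim g →
    (∀ y ∈ Tu ι g, (∀ i, (nm (y i) : ℝ) ≤ Y i) → ∃ I : Finset ι,
      L * (∏ i ∈ I, Y i / nm (y i)) + (∏ i ∈ Iᶜ, Y i / nm (y i)) ≤ M) →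
    ∀ q0 q q' : Eis, ∑ x ∈ bl L, ‖th x‖ * ‖TG (wseq q0 g q f) (q' * x)‖ ≤
      C * (L * ∏ i, Y i) ^ ε * (∏ i, W i) * (L ^ ((1 : ℝ) / 3) *
        (((∏ i, Y i) / nm g) ^ ((1 : ℝ) / 3) *
        Real.sqrt (M + (L * ((∏ i, Y i) / nm g)) ^ ((2 : ℝ) / 3)))) := by
  classical
  obtain ⟨C1, hC1, h1⟩ := TG_cv_th ι (ε := ε / 2) (by positivity)
  obtain ⟨C2, hC2, hτ⟩ := tau_le_rpow (ε := ε / (2 * (Fintype.card ι + 1))) (by positivity)
  have hC20 : 0 < C2 := by linarith
  refine ⟨C2 ^ Fintype.card ι * C1, by positivity,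
    fun L M Y W hL hM hY f hs hw g hg hI q0 q q' => ?_⟩
  have hW : ∀ i, 0 ≤ W i := fun i => (norm_nonneg _).trans (hw i 1)
  have hWp : 0 ≤ ∏ i, W i := Finset.prod_nonneg fun i _ => hW i
  have hY0 : ∀ i, 0 < Y i := fun i => by linarith [hY i]
  have hYp : 1 ≤ ∏ i, Y i := by
    calc (1 : ℝ) = ∏ _i : ι, (1 : ℝ) := by simp
      _ ≤ ∏ i, Y i := Finset.prod_le_prod (fun _ _ => zero_le_one) fun i _ => hY i
  have hP1 : 1 ≤ L * ∏ i, Y i := one_le_mul_of_one_le_of_one_le hL hYp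
  have hg1 : (1 : ℝ) ≤ nm g := by exact_mod_cast nm_pos.mpr hg.ne_zero
  set N' : ℝ := (∏ i, Y i) / nm g with hN'
  have hN0 : 0 ≤ N' := by positivity
  set R : ℝ := L ^ ((1 : ℝ) / 3) * (N' ^ ((1 : ℝ) / 3) *
        Real.sqrt (M + (L * N') ^ ((2 : ℝ) / 3))) with hR
  have hR0 : 0 ≤ R := by positivity
  by_cases hgq : Squarefree g ∧ IsCoprime g q0
  swap
  · have : ∀ x, TG (wseq q0 g q f) x = 0 := by
      intro x
      unfold TG
      rw [← tsum_zero]
      refine tsum_congr fun m => ?_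
      rw [wseq_zero hgq, zero_mul]
    simp only [this, norm_zero, mul_zero, Finset.sum_const_zero]
    positivity
  obtain ⟨hgs, hgc⟩ := hgq
  by_cases hgY : (nm g : ℝ) ≤ ∏ i, Y i
  swap
  · have : ∀ x, TG (wseq q0 g q f) x = 0 := by
      intro x
      unfold TG
      rw [← tsum_zero]
      refine tsum_congr fun m => ?_
      have h0 : wseq q0 g q f m * (G m * conj (sy x m)) = 0 := by
        by_cases hc0 : cv f (g * m) = 0
        · unfold wseq sqc; rw [hc0]; ring
        · exfalso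
          have h3 := (Sp_cv (fun i => (hY0 i).le) hs) _ hc0
          have hm0 : m ≠ 0 := by
            rintro rfl
            exact h3.1.ne_zero (mul_zero g)
          have hm1 : (1 : ℝ) ≤ nm m := by exact_mod_cast nm_pos.mpr hm0
          have h4 := h3.2
          rw [nm_mul, Nat.cast_mul] at h4
          have h5 : (nm g : ℝ) ≤ nm g * nm m := le_mul_of_one_le_right (by linarith) hm1
          exact hgY (h5.trans h4)
      exact h0
    simp only [this, norm_zero, mul_zero, Finset.sum_const_zero]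
    positivity
  -- pieces
  have hpiece : ∀ y ∈ Tu ι g, ∑ x ∈ bl L, ‖th x‖ * ‖TG (cv (wpc (q * (q0 * g)) f y)) (q' * x)‖ ≤
      C1 * (L * ∏ i, Y i) ^ (ε / 2) * (∏ i, W i) * R := by
    intro y hy
    have hy' := mem_Tu.1 hy
    by_cases hyY : ∀ i, (nm (y i) : ℝ) ≤ Y i
    · obtain ⟨I, hIM⟩ := hI y hy hyY
      have hy1 : ∀ i, (1 : ℝ) ≤ nm (y i) := fun i => by
        exact_mod_cast nm_pos.mpr (hy'.1 i).ne_zero
      have hZ : ∀ i, 1 ≤ Y i / nm (y i) := fun i => by
        rw [le_div_iff₀ (by linarith [hy1 i])]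
        linarith [hyY i]
      have hSp : ∀ i, Sp (Y i / nm (y i)) (wpc (q * (q0 * g)) f y i) := by
        intro i m hm
        have h2 : f i (y i * m) ≠ 0 := left_ne_zero_of_mul hm
        obtain ⟨h3, h4⟩ := hs i _ h2
        refine ⟨h3.of_mul_left (hy'.1 i), ?_⟩
        rw [le_div_iff₀ (by linarith [hy1 i])]
        rw [nm_mul, Nat.cast_mul] at h4
        linarith
      have hno : ∀ i m, IsPrim m → ‖wpc (q * (q0 * g)) f y i m‖ ≤ W i * n6 m := by
        intro i m hm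
        unfold wpc
        rw [norm_mul, norm_mul, Complex.norm_real, Real.norm_of_nonneg (n6_pos hm.ne_zero).le]
        calc _ ≤ W i * (1 * n6 m) := by
              refine mul_le_mul (hw i _) ?_ (by
                have := (n6_pos hm.ne_zero).le
                positivity) (hW i)
              exact mul_le_mul_of_nonneg_right (norm_ic_le _ _) (n6_pos hm.ne_zero).le
          _ = _ := by ring
      have h5 := h1 L (fun i => Y i / nm (y i)) W hL hZ _ hSp hno I q'
      have e1 : ∏ i, Y i / nm (y i) = N' := by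
        rw [Finset.prod_div_distrib, hN']
        congr 1
        have : ∀ s : Finset ι, (nm (∏ i ∈ s, y i) : ℝ) = ∏ i ∈ s, (nm (y i) : ℝ) := by
          intro s
          induction s using Finset.induction_on with
          | empty => simp [nm_one]
          | insert a s ha ih =>
            rw [Finset.prod_insert ha, Finset.prod_insert ha, nm_mul, Nat.cast_mul, ih]
        rw [← this, hy'.2]
      rw [e1] at h5
      refine h5.trans ?_
      have hN1 : 1 ≤ N' := by
        rw [hN', le_div_iff₀ (by linarith)]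
        linarith
      have hNY : N' ≤ ∏ i, Y i := div_le_self (by linarith) hg1
      have e2 : (L * N') ^ (ε / 2) ≤ (L * ∏ i, Y i) ^ (ε / 2) :=
        Real.rpow_le_rpow (by positivity) (by gcongr) (by positivity)
      rw [hR]
      gcongr
    · push Not at hyY
      obtain ⟨i, hi⟩ := hyY
      have h0 : ∀ m, IsPrim m → wpc (q * (q0 * g)) f y i m = 0 := by
        intro m hm
        have h2 : f i (y i * m) = 0 := by
          by_contra hne
          have h4 := (hs i _ hne).2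
          rw [nm_mul, Nat.cast_mul] at h4
          have hm1 : (1 : ℝ) ≤ nm m := by exact_mod_cast nm_pos.mpr hm.ne_zero
          have h5 : (nm (y i) : ℝ) ≤ nm (y i) * nm m :=
            le_mul_of_one_le_right (Nat.cast_nonneg _) hm1
          linarith
        unfold wpc sub
        rw [h2, zero_mul]
      have h3 : ∀ x, TG (cv (wpc (q * (q0 * g)) f y)) x = 0 := by
        intro x
        unfold TG
        rw [← tsum_zero]
        refine tsum_congr fun m => ?_
        have : cv (wpc (q * (q0 * g)) f y) m = 0 := by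
          unfold cv
          refine Finset.sum_eq_zero fun z hz => ?_
          exact Finset.prod_eq_zero (Finset.mem_univ i) (h0 _ ((mem_Tu.1 hz).1 i))
        rw [this, zero_mul]
      simp only [h3, norm_zero, mul_zero, Finset.sum_const_zero]
      positivity
  have hFSw : ∀ y ∈ Tu ι g, FS (cv (wpc (q * (q0 * g)) f y)) := by
    intro y hy
    refine FS_cv fun i => ?_
    have h2 : FS (sub (f i) (y i)) := (hs i).FS.sub ((mem_Tu.1 hy).1 i)
    exact ⟨h2.fin.subset fun m hm => left_ne_zero_of_mul hm,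
      fun m hm => h2.prim m (left_ne_zero_of_mul hm)⟩
  have hsum : ∀ x, TG (wseq q0 g q f) x = ∑ y ∈ Tu ι g, TG (cv (wpc (q * (q0 * g)) f y)) x := by
    intro x
    unfold TG
    rw [← Summable.tsum_finsetSum fun y hy => (hFSw y hy).summable _]
    refine tsum_congr fun m => ?_
    rw [← Finset.sum_mul]
    by_cases hm : IsPrim m
    · by_cases hms : Squarefree m
      · rw [wseq_eq hg hgs hgc hm hms]
      · rw [G_eq_zero syG hm hms]; ring
    · have h2 : wseq q0 g q f m = 0 := by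
        unfold wseq sqc
        rw [cv_not_prim (fun h => hm (h.of_mul_left hg))]; ring
      rw [h2, Finset.sum_eq_zero fun y _ => cv_not_prim hm]
  have hcard : ((Tu ι g).card : ℝ) ≤ C2 ^ Fintype.card ι * (L * ∏ i, Y i) ^ (ε / 2) := by
    have h2 : ((Tu ι g).card : ℝ) ≤ (tau g : ℝ) ^ Fintype.card ι := by
      exact_mod_cast card_Tu_le g
    have hgP : (nm g : ℝ) ≤ L * ∏ i, Y i := hgY.trans (le_mul_of_one_le_left (by linarith) hL)
    have h3 : (tau g : ℝ) ≤ C2 * (L * ∏ i, Y i) ^ (ε / (2 * (Fintype.card ι + 1))) :=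
      (hτ g hg.ne_zero).trans (mul_le_mul_of_nonneg_left
        (Real.rpow_le_rpow (Nat.cast_nonneg _) hgP (by positivity)) hC20.le)
    refine h2.trans ((pow_le_pow_left₀ (Nat.cast_nonneg _) h3 _).trans ?_)
    rw [mul_pow]
    refine mul_le_mul_of_nonneg_left ?_ (by positivity)
    rw [← Real.rpow_natCast, ← Real.rpow_mul (by positivity)]
    refine Real.rpow_le_rpow_of_exponent_le hP1 ?_
    rw [div_mul_eq_mul_div, div_le_div_iff₀ (by positivity) (by norm_num)]
    have : (0 : ℝ) ≤ (Fintype.card ι : ℝ) := Nat.cast_nonneg _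
    nlinarith
  calc ∑ x ∈ bl L, ‖th x‖ * ‖TG (wseq q0 g q f) (q' * x)‖
      ≤ ∑ x ∈ bl L, ∑ y ∈ Tu ι g, ‖th x‖ * ‖TG (cv (wpc (q * (q0 * g)) f y)) (q' * x)‖ := by
        refine Finset.sum_le_sum fun x _ => ?_
        rw [hsum, ← Finset.mul_sum]
        exact mul_le_mul_of_nonneg_left (norm_sum_le _ _) (norm_nonneg _)
    _ = ∑ y ∈ Tu ι g, ∑ x ∈ bl L, ‖th x‖ * ‖TG (cv (wpc (q * (q0 * g)) f y)) (q' * x)‖ :=
        Finset.sum_comm
    _ ≤ ∑ y ∈ Tu ι g, C1 * (L * ∏ i, Y i) ^ (ε / 2) * (∏ i, W i) * R :=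
        Finset.sum_le_sum hpiece
    _ = ((Tu ι g).card : ℝ) * (C1 * (L * ∏ i, Y i) ^ (ε / 2) * (∏ i, W i) * R) := by
        rw [Finset.sum_const, nsmul_eq_mul]
    _ ≤ (C2 ^ Fintype.card ι * (L * ∏ i, Y i) ^ (ε / 2)) *
          (C1 * (L * ∏ i, Y i) ^ (ε / 2) * (∏ i, W i) * R) := by
        refine mul_le_mul_of_nonneg_right hcard (by positivity)
    _ = _ := by
        have : (L * ∏ i, Y i) ^ ε = (L * ∏ i, Y i) ^ (ε / 2) * (L * ∏ i, Y i) ^ (ε / 2) := by
          rw [← Real.rpow_add (by linarith)]; congr 1; ring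
        rw [this]; ring

end Crest.Agent.R017.X6b792
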