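import Crest.Agent.R017.X6b3_792
import Crest.Agent.R017.X6Defs_545

/-!
# Row 17, exceptional class (helper792): `HS` for convolutions

* `TG_cv_sq`, `TG_wseq_sq` : second moments over squarefree frequencies
* `window` : `0 ≤ a i ≤ 2 P / 3 + δ`, `P ≤ 3 ∑ a` : there is `J` with `P/3 ≤ ∑_J a ≤ 2P/3 + δ`
* `HS_of_small` : `HS` for every squarefree convolution all of whose pieces have length
  `≤ D Z ^ (2/3)`. No other window condition is needed.
-/

set_option autoImplicit false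
set_option linter.unusedSectionVars false

noncomputable section

open Complex
open scoped ComplexConjugate

namespace Crest.Agent.R017.X6b792

open Crest.Agent.R012 Crest.Agent.R012.Eis Crest.Agent.R012.LS2 Crest.Agent.R012.Gauss880
open Crest.Agent.R012.Div277 (tau dvs mem_dvs tau_le_rpow)
open Crest.Agent.R017.CM106
open Crest.Agent.R017.PX764 (th n6 Gh n6_pos n6_le_one n6_mul n6_one)
open Crest.Agent.R017.HP842
open Crest.Agent.R017.X6545 (HS TT SU)

variable {ι : Type*} [Fintype ι] [DecidableEq ι]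

/-- second moment of a convolution over squarefree frequencies, any split `I` -/
theorem TG_cv_sq (ι : Type*) [Fintype ι] [DecidableEq ι] {ε : ℝ} (hε : 0 < ε) :
    ∃ C : ℝ, 0 < C ∧ ∀ (L : ℝ) (Y W : ι → ℝ),
    1 ≤ L → (∀ i, 1 ≤ Y i) → ∀ h : ι → Eis → ℂ, (∀ i, Sp (Y i) (h i)) →
    (∀ i m, IsPrim m → ‖h i m‖ ≤ W i * n6 m) → ∀ (I : Finset ι) (q : Eis),
    ∑ x ∈ S L, ‖TG (cv h) (q * x)‖ ^ 2 ≤
      C * (L * ∏ i, Y i) ^ ε * (∏ i, W i) ^ 2 * ((∏ i, Y i) ^ ((2 : ℝ) / 3) *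
        (L * (∏ i ∈ I, Y i) + (∏ i ∈ Iᶜ, Y i) + (L * ∏ i, Y i) ^ ((2 : ℝ) / 3))) := by
  classical
  obtain ⟨C1, hC1, h1⟩ := TG2_hb (ε := ε / 3) (by positivity)
  obtain ⟨C2, hC2, h2⟩ := sq_cv_le (Fintype.card ι) (ε := ε / 6) (by positivity)
  refine ⟨C1 * (C2 * C2) ^ 2, by positivity, fun L Y W hL hY h hs hw I q => ?_⟩
  have hW : ∀ i, 0 ≤ W i := by
    intro i
    have := hw i 1 isPrim_one
    rw [n6_one, mul_one] at this
    exact (norm_nonneg _).trans this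
  have hY0 : ∀ i, 0 ≤ Y i := fun i => by linarith [hY i]
  have key : ∀ J : Finset ι, Sp (∏ i ∈ J, Y i) (cv (rI J h)) ∧
      ∀ b, ‖cv (rI J h) b‖ ≤ (tau b : ℝ) ^ Fintype.card ι * (∏ i ∈ J, W i) * n6 b := by
    intro J
    have e1 : ∏ i ∈ J, Y i = ∏ i, (if i ∈ J then Y i else 1) := by
      rw [Finset.prod_ite_mem, Finset.univ_inter]
    have e2 : ∏ i ∈ J, W i = ∏ i, (if i ∈ J then W i else 1) := by
      rw [Finset.prod_ite_mem, Finset.univ_inter]
    rw [e1, e2]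
    refine ⟨Sp_cv (fun i => ?_) fun i => ?_, fun b => norm_cv_le (fun i m hm => ?_) b⟩
    · split_ifs
      · exact hY0 i
      · exact zero_le_one
    · by_cases hi : i ∈ J
      · rw [rI_mem hi, if_pos hi]; exact hs i
      · rw [rI_not hi, if_neg hi]
        intro m hm
        rw [one1_ne hm]
        exact ⟨isPrim_one, by rw [nm_one]; norm_num⟩
    · by_cases hi : i ∈ J
      · rw [rI_mem hi, if_pos hi]; exact hw i m hm
      · rw [rI_not hi, if_neg hi, one_mul]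
        by_cases h0 : one1 m = 0
        · rw [h0, norm_zero]; exact (n6_pos hm.ne_zero).le
        · rw [one1_ne h0, one1_one, norm_one, n6_one]
  have prod_ge : ∀ J : Finset ι, 1 ≤ ∏ i ∈ J, Y i := fun J => by
    calc (1 : ℝ) = ∏ i ∈ J, (1 : ℝ) := by simp
      _ ≤ ∏ i ∈ J, Y i := Finset.prod_le_prod (fun _ _ => zero_le_one) fun i _ => hY i
  set B : ℝ := ∏ i ∈ I, Y i with hBd
  set A : ℝ := ∏ i ∈ Iᶜ, Y i with hAd
  have hB : 1 ≤ B := prod_ge I
  have hA : 1 ≤ A := prod_ge Iᶜ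
  have hBA : B * A = ∏ i, Y i := by rw [hBd, hAd, Finset.prod_mul_prod_compl]
  have hVV : (∏ i ∈ I, W i) * (∏ i ∈ Iᶜ, W i) = ∏ i, W i := by rw [Finset.prod_mul_prod_compl]
  have hV1 : 0 ≤ ∏ i ∈ I, W i := Finset.prod_nonneg fun i _ => hW i
  have hV2 : 0 ≤ ∏ i ∈ Iᶜ, W i := Finset.prod_nonneg fun i _ => hW i
  have hFS : ∀ i, FS (h i) := fun i => (hs i).FS
  have hSB : ∀ b ∈ S B, IsPrim b ∧ (nm b : ℝ) ≤ B := by
    intro b hb
    have := (mem_S (by linarith)).1 hb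
    exact ⟨this.2.1, this.1⟩
  have e : ∀ x, TG (cv h) (q * x) = TG2 (S B) (cv (rI I h)) (cv (rI Iᶜ h)) (q * x) := fun x =>
    TG_cv_eq_TG2 hFS I (by linarith) (key I).1 _
  simp only [e]
  refine (h1 L B A hL hB hA (S B) (cv (rI I h)) (cv (rI Iᶜ h)) hSB (key Iᶜ).1 q).trans ?_
  have n1 := h2 B hB (cv (rI I h)) (∏ i ∈ I, W i) hV1 (key I).2
  have n2 := h2 A hA (cv (rI Iᶜ h)) (∏ i ∈ Iᶜ, W i) hV2 (key Iᶜ).2
  have hLBA : L * B * A = L * ∏ i, Y i := by rw [mul_assoc, hBA]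
  set P : ℝ := L * ∏ i, Y i with hP
  have hP1 : 1 ≤ P := by
    rw [← hLBA]
    exact one_le_mul_of_one_le_of_one_le (one_le_mul_of_one_le_of_one_le hL hB) hA
  have hP0 : 0 < P := by linarith
  have hB0 : 0 < B := by linarith
  have hA0 : 0 < A := by linarith
  have hBP : B ≤ P := by
    rw [← hLBA]
    calc B ≤ L * B := le_mul_of_one_le_left hB0.le hL
      _ ≤ L * B * A := le_mul_of_one_le_right (by positivity) hA
  have hAP : A ≤ P := by
    rw [← hLBA]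
    exact le_mul_of_one_le_left hA0.le (one_le_mul_of_one_le_of_one_le hL hB)
  rw [hLBA]
  set Q : ℝ := L * B + A + P ^ ((2 : ℝ) / 3) with hQ
  have hQ0 : 0 ≤ Q := by positivity
  have m1 : (∑ b ∈ S B, ‖cv (rI I h) b‖ ^ 2) ≤
      (C2 * P ^ (ε / 6) * (∏ i ∈ I, W i) * B ^ ((1 : ℝ) / 3)) ^ 2 := by
    rw [← Real.sqrt_le_left (by positivity)]
    refine n1.trans ?_
    gcongr
  have m2 : (∑ b ∈ S A, ‖cv (rI Iᶜ h) b‖ ^ 2) ≤
      (C2 * P ^ (ε / 6) * (∏ i ∈ Iᶜ, W i) * A ^ ((1 : ℝ) / 3)) ^ 2 := by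
    rw [← Real.sqrt_le_left (by positivity)]
    refine n2.trans ?_
    gcongr
  have e23 : (B ^ ((1 : ℝ) / 3) * A ^ ((1 : ℝ) / 3)) ^ 2 = (∏ i, Y i) ^ ((2 : ℝ) / 3) := by
    rw [← Real.mul_rpow hB0.le hA0.le, hBA, ← Real.rpow_natCast, ← Real.rpow_mul
      (by rw [← hBA]; positivity)]
    norm_num
  have eP : P ^ (ε / 3) * ((P ^ (ε / 6)) ^ 2 * (P ^ (ε / 6)) ^ 2) = P ^ ε := by
    rw [← Real.rpow_natCast, ← Real.rpow_mul hP0.le, ← Real.rpow_add hP0, ← Real.rpow_add hP0]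
    congr 1
    push_cast
    ring
  calc C1 * P ^ (ε / 3) * Q * ((∑ b ∈ S B, ‖cv (rI I h) b‖ ^ 2) *
        ∑ m ∈ S A, ‖cv (rI Iᶜ h) m‖ ^ 2)
      ≤ C1 * P ^ (ε / 3) * Q *
        ((C2 * P ^ (ε / 6) * (∏ i ∈ I, W i) * B ^ ((1 : ℝ) / 3)) ^ 2 *
          (C2 * P ^ (ε / 6) * (∏ i ∈ Iᶜ, W i) * A ^ ((1 : ℝ) / 3)) ^ 2) := by
        refine mul_le_mul_of_nonneg_left ?_ (by positivity)
        exact mul_le_mul m1 m2 (Finset.sum_nonneg fun _ _ => by positivity) (by positivity)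
    _ = C1 * (C2 * C2) ^ 2 * (P ^ (ε / 3) * ((P ^ (ε / 6)) ^ 2 * (P ^ (ε / 6)) ^ 2)) *
          ((∏ i ∈ I, W i) * (∏ i ∈ Iᶜ, W i)) ^ 2 *
          ((B ^ ((1 : ℝ) / 3) * A ^ ((1 : ℝ) / 3)) ^ 2 * Q) := by ring
    _ = _ := by rw [hVV, e23, eP]

/-- **second moments of the sequences of the cross lemma** -/
theorem TG_wseq_sq (ι : Type*) [Fintype ι] [DecidableEq ι] {ε : ℝ} (hε : 0 < ε) :
    ∃ C : ℝ, 0 < C ∧ ∀ (L M : ℝ) (Y W : ι → ℝ), 1 ≤ L → 0 ≤ M → (∀ i, 1 ≤ Y i) →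
    ∀ f : ι → Eis → ℂ, (∀ i, Sp (Y i) (f i)) → (∀ i m, ‖f i m‖ ≤ W i) →
    ∀ g : Eis, IsPrim g →
    (∀ y ∈ Tu ι g, (∀ i, (nm (y i) : ℝ) ≤ Y i) → ∃ I : Finset ι,
      L * (∏ i ∈ I, Y i / nm (y i)) + (∏ i ∈ Iᶜ, Y i / nm (y i)) ≤ M) →
    ∀ q0 q q' : Eis, ∑ x ∈ S L, ‖TG (wseq q0 g q f) (q' * x)‖ ^ 2 ≤
      C * (L * ∏ i, Y i) ^ ε * (∏ i, W i) ^ 2 *
        (((∏ i, Y i) / nm g) ^ ((2 : ℝ) / 3) *
        (M + (L * ((∏ i, Y i) / nm g)) ^ ((2 : ℝ) / 3))) := by
  classical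
  obtain ⟨C1, hC1, h1⟩ := TG_cv_sq ι (ε := ε / 2) (by positivity)
  obtain ⟨C2, hC2, hτ⟩ := tau_le_rpow (ε := ε / (4 * (Fintype.card ι + 1))) (by positivity)
  have hC20 : 0 < C2 := by linarith
  refine ⟨(C2 ^ Fintype.card ι) ^ 2 * C1, by positivity,
    fun L M Y W hL hM hY f hs hw g hg hI q0 q q' => ?_⟩
  have hW : ∀ i, 0 ≤ W i := fun i => (norm_nonneg _).trans (hw i 1)
  have hWp : 0 ≤ ∏ i, W i := Finset.prod_nonneg fun i _ => hW i
  have hY0 : ∀ i, 0 < Y i := fun i => by linarith [hY i]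
  have hYp : 1 ≤ ∏ i, Y i := by
    calc (1 : ℝ) = ∏ _i : ι, (1 : ℝ) := by simp
      _ ≤ ∏ i, Y i := Finset.prod_le_prod (fun _ _ => zero_le_one) fun i _ => hY i
  have hP1 : 1 ≤ L * ∏ i, Y i := one_le_mul_of_one_le_of_one_le hL hYp
  have hg1 : (1 : ℝ) ≤ nm g := by exact_mod_cast nm_pos.mpr hg.ne_zero
  set N' : ℝ := (∏ i, Y i) / nm g with hN'
  have hN0 : 0 ≤ N' := by positivity
  set R : ℝ := N' ^ ((2 : ℝ) / 3) * (M + (L * N') ^ ((2 : ℝ) / 3)) with hR
  have hR0 : 0 ≤ R := by positivity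
  by_cases hgq : Squarefree g ∧ IsCoprime g q0
  swap
  · have : ∀ x, TG (wseq q0 g q f) x = 0 := by
      intro x
      unfold TG
      rw [← tsum_zero]
      refine tsum_congr fun m => ?_
      rw [wseq_zero hgq, zero_mul]
    simp only [this, norm_zero, ne_eq, OfNat.ofNat_ne_zero, not_false_eq_true, zero_pow,
      Finset.sum_const_zero]
    positivity
  obtain ⟨hgs, hgc⟩ := hgq
  by_cases hgY : (nm g : ℝ) ≤ ∏ i, Y i
  swap
  · have : ∀ x, TG (wseq q0 g q f) x = 0 := by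
      intro x
      unfold TG
      rw [← tsum_zero]
      refine tsum_congr fun m => ?_
      have h0 : wseq q0 g q f m * (G m * conj (sy x m)) = 0 := by
        by_cases hc0 : cv f (g * m) = 0
        · unfold wseq sqc; rw [hc0]; ring
        · exfalso
          have h3 := (Sp_cv (fun i => (hY0 i).le) hs) _ hc0
          have hm0 : m ≠ 0 := by
            rintro rfl
            exact h3.1.ne_zero (mul_zero g)
          have hm1 : (1 : ℝ) ≤ nm m := by exact_mod_cast nm_pos.mpr hm0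
          have h4 := h3.2
          rw [nm_mul, Nat.cast_mul] at h4
          have h5 : (nm g : ℝ) ≤ nm g * nm m := le_mul_of_one_le_right (by linarith) hm1
          exact hgY (h5.trans h4)
      exact h0
    simp only [this, norm_zero, ne_eq, OfNat.ofNat_ne_zero, not_false_eq_true, zero_pow,
      Finset.sum_const_zero]
    positivity
  -- pieces
  have hpiece : ∀ y ∈ Tu ι g, ∑ x ∈ S L, ‖TG (cv (wpc (q * (q0 * g)) f y)) (q' * x)‖ ^ 2 ≤
      C1 * (L * ∏ i, Y i) ^ (ε / 2) * (∏ i, W i) ^ 2 * R := by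
    intro y hy
    have hy' := mem_Tu.1 hy
    by_cases hyY : ∀ i, (nm (y i) : ℝ) ≤ Y i
    · obtain ⟨I, hIM⟩ := hI y hy hyY
      have hy1 : ∀ i, (1 : ℝ) ≤ nm (y i) := fun i => by
        exact_mod_cast nm_pos.mpr (hy'.1 i).ne_zero
      have hZ : ∀ i, 1 ≤ Y i / nm (y i) := fun i => by
        rw [le_div_iff₀ (by linarith [hy1 i])]
        linarith [hyY i]
      have hSp : ∀ i, Sp (Y i / nm (y i)) (wpc (q * (q0 * g)) f y i) := by
        intro i m hm
        have h2 : f i (y i * m) ≠ 0 := left_ne_zero_of_mul hm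
        obtain ⟨h3, h4⟩ := hs i _ h2
        refine ⟨h3.of_mul_left (hy'.1 i), ?_⟩
        rw [le_div_iff₀ (by linarith [hy1 i])]
        rw [nm_mul, Nat.cast_mul] at h4
        linarith
      have hno : ∀ i m, IsPrim m → ‖wpc (q * (q0 * g)) f y i m‖ ≤ W i * n6 m := by
        intro i m hm
        unfold wpc
        rw [norm_mul, norm_mul, Complex.norm_real, Real.norm_of_nonneg (n6_pos hm.ne_zero).le]
        calc _ ≤ W i * (1 * n6 m) := by
              refine mul_le_mul (hw i _) ?_ (by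
                have := (n6_pos hm.ne_zero).le
                positivity) (hW i)
              exact mul_le_mul_of_nonneg_right (norm_ic_le _ _) (n6_pos hm.ne_zero).le
          _ = _ := by ring
      have h5 := h1 L (fun i => Y i / nm (y i)) W hL hZ _ hSp hno I q'
      have e1 : ∏ i, Y i / nm (y i) = N' := by
        rw [Finset.prod_div_distrib, hN']
        congr 1
        have : ∀ s : Finset ι, (nm (∏ i ∈ s, y i) : ℝ) = ∏ i ∈ s, (nm (y i) : ℝ) := by
          intro s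
          induction s using Finset.induction_on with
          | empty => simp [nm_one]
          | insert a s ha ih =>
            rw [Finset.prod_insert ha, Finset.prod_insert ha, nm_mul, Nat.cast_mul, ih]
        rw [← this, hy'.2]
      rw [e1] at h5
      refine h5.trans ?_
      have hN1 : 1 ≤ N' := by
        rw [hN', le_div_iff₀ (by linarith)]
        linarith
      have hNY : N' ≤ ∏ i, Y i := div_le_self (by linarith) hg1
      have e2 : (L * N') ^ (ε / 2) ≤ (L * ∏ i, Y i) ^ (ε / 2) :=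
        Real.rpow_le_rpow (by positivity) (by gcongr) (by positivity)
      have hq1 : 0 ≤ ∏ i ∈ I, Y i / (nm (y i) : ℝ) :=
        Finset.prod_nonneg fun i _ => by linarith [hZ i]
      have hq2 : 0 ≤ ∏ i ∈ Iᶜ, Y i / (nm (y i) : ℝ) :=
        Finset.prod_nonneg fun i _ => by linarith [hZ i]
      rw [hR]
      gcongr
    · push Not at hyY
      obtain ⟨i, hi⟩ := hyY
      have h0 : ∀ m, IsPrim m → wpc (q * (q0 * g)) f y i m = 0 := by
        intro m hm
        have h2 : f i (y i * m) = 0 := by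
          by_contra hne
          have h4 := (hs i _ hne).2
          rw [nm_mul, Nat.cast_mul] at h4
          have hm1 : (1 : ℝ) ≤ nm m := by exact_mod_cast nm_pos.mpr hm.ne_zero
          have h5 : (nm (y i) : ℝ) ≤ nm (y i) * nm m :=
            le_mul_of_one_le_right (Nat.cast_nonneg _) hm1
          linarith
        unfold wpc sub
        rw [h2, zero_mul]
      have h3 : ∀ x, TG (cv (wpc (q * (q0 * g)) f y)) x = 0 := by
        intro x
        unfold TG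
        rw [← tsum_zero]
        refine tsum_congr fun m => ?_
        have : cv (wpc (q * (q0 * g)) f y) m = 0 := by
          unfold cv
          refine Finset.sum_eq_zero fun z hz => ?_
          exact Finset.prod_eq_zero (Finset.mem_univ i) (h0 _ ((mem_Tu.1 hz).1 i))
        rw [this, zero_mul]
      simp only [h3, norm_zero, ne_eq, OfNat.ofNat_ne_zero, not_false_eq_true, zero_pow,
        Finset.sum_const_zero]
      positivity
  have hFSw : ∀ y ∈ Tu ι g, FS (cv (wpc (q * (q0 * g)) f y)) := by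
    intro y hy
    refine FS_cv fun i => ?_
    have h2 : FS (sub (f i) (y i)) := (hs i).FS.sub ((mem_Tu.1 hy).1 i)
    exact ⟨h2.fin.subset fun m hm => left_ne_zero_of_mul hm,
      fun m hm => h2.prim m (left_ne_zero_of_mul hm)⟩
  have hsum : ∀ x, TG (wseq q0 g q f) x = ∑ y ∈ Tu ι g, TG (cv (wpc (q * (q0 * g)) f y)) x := by
    intro x
    unfold TG
    rw [← Summable.tsum_finsetSum fun y hy => (hFSw y hy).summable _]
    refine tsum_congr fun m => ?_
    rw [← Finset.sum_mul]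
    by_cases hm : IsPrim m
    · by_cases hms : Squarefree m
      · rw [wseq_eq hg hgs hgc hm hms]
      · rw [G_eq_zero syG hm hms]; ring
    · have h2 : wseq q0 g q f m = 0 := by
        unfold wseq sqc
        rw [cv_not_prim (fun h => hm (h.of_mul_left hg))]; ring
      rw [h2, Finset.sum_eq_zero fun y _ => cv_not_prim hm]
  have hcard : ((Tu ι g).card : ℝ) ≤ C2 ^ Fintype.card ι * (L * ∏ i, Y i) ^ (ε / 4) := by
    have h2 : ((Tu ι g).card : ℝ) ≤ (tau g : ℝ) ^ Fintype.card ι := by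
      exact_mod_cast card_Tu_le g
    have hgP : (nm g : ℝ) ≤ L * ∏ i, Y i := hgY.trans (le_mul_of_one_le_left (by linarith) hL)
    have h3 : (tau g : ℝ) ≤ C2 * (L * ∏ i, Y i) ^ (ε / (4 * (Fintype.card ι + 1))) :=
      (hτ g hg.ne_zero).trans (mul_le_mul_of_nonneg_left
        (Real.rpow_le_rpow (Nat.cast_nonneg _) hgP (by positivity)) hC20.le)
    refine h2.trans ((pow_le_pow_left₀ (Nat.cast_nonneg _) h3 _).trans ?_)
    rw [mul_pow]
    refine mul_le_mul_of_nonneg_left ?_ (by positivity)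
    rw [← Real.rpow_natCast, ← Real.rpow_mul (by positivity)]
    refine Real.rpow_le_rpow_of_exponent_le hP1 ?_
    rw [div_mul_eq_mul_div, div_le_div_iff₀ (by positivity) (by norm_num)]
    have : (0 : ℝ) ≤ (Fintype.card ι : ℝ) := Nat.cast_nonneg _
    nlinarith
  have hcs : ∀ x, ‖TG (wseq q0 g q f) (q' * x)‖ ^ 2 ≤ ((Tu ι g).card : ℝ) *
      ∑ y ∈ Tu ι g, ‖TG (cv (wpc (q * (q0 * g)) f y)) (q' * x)‖ ^ 2 := by
    intro x
    rw [hsum]
    have h6 := cauchy (Tu ι g) (fun _ => (1 : ℂ))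
      (fun y => TG (cv (wpc (q * (q0 * g)) f y)) (q' * x))
    simpa using h6
  calc ∑ x ∈ S L, ‖TG (wseq q0 g q f) (q' * x)‖ ^ 2
      ≤ ∑ x ∈ S L, ((Tu ι g).card : ℝ) *
          ∑ y ∈ Tu ι g, ‖TG (cv (wpc (q * (q0 * g)) f y)) (q' * x)‖ ^ 2 :=
        Finset.sum_le_sum fun x _ => hcs x
    _ = ((Tu ι g).card : ℝ) *
          ∑ y ∈ Tu ι g, ∑ x ∈ S L, ‖TG (cv (wpc (q * (q0 * g)) f y)) (q' * x)‖ ^ 2 := by
        rw [← Finset.mul_sum, Finset.sum_comm]
    _ ≤ ((Tu ι g).card : ℝ) *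
          ∑ y ∈ Tu ι g, C1 * (L * ∏ i, Y i) ^ (ε / 2) * (∏ i, W i) ^ 2 * R :=
        mul_le_mul_of_nonneg_left (Finset.sum_le_sum hpiece) (Nat.cast_nonneg _)
    _ = ((Tu ι g).card : ℝ) ^ 2 * (C1 * (L * ∏ i, Y i) ^ (ε / 2) * (∏ i, W i) ^ 2 * R) := by
        rw [Finset.sum_const, nsmul_eq_mul]; ring
    _ ≤ (C2 ^ Fintype.card ι * (L * ∏ i, Y i) ^ (ε / 4)) ^ 2 *
          (C1 * (L * ∏ i, Y i) ^ (ε / 2) * (∏ i, W i) ^ 2 * R) := by
        refine mul_le_mul_of_nonneg_right ?_ (by positivity)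
        exact pow_le_pow_left₀ (Nat.cast_nonneg _) hcard 2
    _ = _ := by
        have : (L * ∏ i, Y i) ^ ε = ((L * ∏ i, Y i) ^ (ε / 4)) ^ 2 *
            (L * ∏ i, Y i) ^ (ε / 2) := by
          rw [← Real.rpow_natCast, ← Real.rpow_mul (by positivity), ← Real.rpow_add (by linarith)]
          congr 1; push_cast; ring
        rw [this]; ring

/-! ### the window always exists -/

/-- **the window**: greedy choice -/
theorem window (a : ι → ℝ) (ha : ∀ i, 0 ≤ a i) {P δ : ℝ} (hP0 : 0 ≤ P) (hδ : 0 ≤ δ)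
    (hP : P ≤ 3 * ∑ i, a i) (hs : ∀ i, a i ≤ 2 * P / 3 + δ) :
    ∃ J : Finset ι, P / 3 ≤ ∑ i ∈ J, a i ∧ ∑ i ∈ J, a i ≤ 2 * P / 3 + δ := by
  classical
  set F : Finset (Finset ι) := Finset.univ.filter (fun J => ∑ i ∈ J, a i ≤ 2 * P / 3 + δ) with hF
  have hne : F.Nonempty := ⟨∅, by rw [hF, Finset.mem_filter]; refine ⟨Finset.mem_univ _, ?_⟩
                                  rw [Finset.sum_empty]; positivity⟩
  obtain ⟨J, hJ, hmax⟩ := Finset.exists_max_image F (fun J => ∑ i ∈ J, a i) hne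
  have hJ' := (Finset.mem_filter.1 hJ).2
  refine ⟨J, ?_, hJ'⟩
  by_contra hlt
  push Not at hlt
  have hsum : ∑ i ∈ J, a i < ∑ i, a i := by linarith
  obtain ⟨i, hi, hai⟩ : ∃ i, i ∉ J ∧ 0 < a i := by
    by_contra hcon
    push Not at hcon
    have : ∑ i, a i = ∑ i ∈ J, a i := by
      symm
      refine Finset.sum_subset (Finset.subset_univ _) fun i _ hi => ?_
      exact le_antisymm (hcon i hi) (ha i)
    linarith
  have h1 : insert i J ∉ F := by
    intro h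
    have := hmax _ h
    rw [Finset.sum_insert hi] at this
    linarith
  have h2 : 2 * P / 3 + δ < a i + ∑ j ∈ J, a j := by
    rw [hF, Finset.mem_filter] at h1
    push Not at h1
    have := h1 (Finset.mem_univ _)
    rwa [Finset.sum_insert hi] at this
  have h3 : ({i} : Finset ι) ∈ F := by
    rw [hF, Finset.mem_filter]
    exact ⟨Finset.mem_univ _, by rw [Finset.sum_singleton]; exact hs i⟩
  have h4 := hmax _ h3
  rw [Finset.sum_singleton] at h4
  linarith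

/-- multiplicative form: `N'' = ∏ b`, `N'' ≤ N'`, `L ≤ N' ^ 2` -/
theorem window_mul (b : ι → ℝ) (hb : ∀ i, 1 ≤ b i) {L N' D : ℝ} (hL : 1 ≤ L) (hN : 1 ≤ N')
    (hD : 1 ≤ D) (hbN : ∏ i, b i ≤ N') (hLN : L ≤ N' ^ (2 : ℕ))
    (hs : ∀ i, b i ≤ D * (L * N') ^ ((2 : ℝ) / 3)) :
    ∃ I : Finset ι, L * (∏ i ∈ I, b i) ≤ (L * N') ^ ((2 : ℝ) / 3) ∧
      (∏ i ∈ Iᶜ, b i) ≤ D * (L * N') ^ ((2 : ℝ) / 3) := by
  classical
  have hb0 : ∀ i, 0 < b i := fun i => by linarith [hb i]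
  have hLN0 : 0 < L * N' := by positivity
  have hLN1 : 1 ≤ L * N' := one_le_mul_of_one_le_of_one_le hL hN
  set P : ℝ := Real.log (L * N') with hP
  have hP0 : 0 ≤ P := Real.log_nonneg hLN1
  have hlogprod : ∀ J : Finset ι, ∏ i ∈ J, b i = Real.exp (∑ i ∈ J, Real.log (b i)) := by
    intro J
    rw [Real.exp_sum]
    exact Finset.prod_congr rfl fun i _ => (Real.exp_log (hb0 i)).symm
  have e23 : (L * N') ^ ((2 : ℝ) / 3) = Real.exp (2 * P / 3) := by
    rw [Real.rpow_def_of_pos hLN0, hP]; congr 1; ring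
  by_cases hc : P ≤ 3 * ∑ i, Real.log (b i)
  · obtain ⟨J, h1, h2⟩ := window (fun i => Real.log (b i)) (fun i => Real.log_nonneg (hb i))
      (δ := Real.log D) hP0 (Real.log_nonneg hD) hc (fun i => by
        rw [← Real.log_exp (2 * P / 3), ← e23, ← Real.log_mul (by positivity) (by positivity),
          mul_comm]
        exact Real.log_le_log (hb0 i) (hs i))
    refine ⟨Jᶜ, ?_, ?_⟩
    · have h3 : (∏ i ∈ Jᶜ, b i) * ∏ i ∈ J, b i = ∏ i, b i := by
        rw [mul_comm, Finset.prod_mul_prod_compl]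
      have h4 : Real.exp (P / 3) ≤ ∏ i ∈ J, b i := by
        rw [hlogprod]; exact Real.exp_le_exp.2 h1
      have h5 : 0 < ∏ i ∈ Jᶜ, b i := Finset.prod_pos fun i _ => hb0 i
      have h6 : L * (∏ i ∈ Jᶜ, b i) * Real.exp (P / 3) ≤ L * N' := by
        calc L * (∏ i ∈ Jᶜ, b i) * Real.exp (P / 3)
            ≤ L * (∏ i ∈ Jᶜ, b i) * ∏ i ∈ J, b i := by gcongr
          _ = L * ∏ i, b i := by rw [mul_assoc, h3]
          _ ≤ L * N' := by gcongr
      have h7 : L * N' = Real.exp (2 * P / 3) * Real.exp (P / 3) := by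
        rw [← Real.exp_add, hP]
        rw [show 2 * Real.log (L * N') / 3 + Real.log (L * N') / 3 = Real.log (L * N') by ring,
          Real.exp_log hLN0]
      rw [h7] at h6
      rw [e23]
      exact le_of_mul_le_mul_right h6 (Real.exp_pos _)
    · rw [compl_compl, hlogprod, e23]
      calc Real.exp (∑ i ∈ J, Real.log (b i)) ≤ Real.exp (2 * P / 3 + Real.log D) :=
            Real.exp_le_exp.2 h2
        _ = D * Real.exp (2 * P / 3) := by
            rw [Real.exp_add, Real.exp_log (by linarith)]; ring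
  · push Not at hc
    refine ⟨∅, ?_, ?_⟩
    · rw [Finset.prod_empty, mul_one]
      -- L ≤ (L N')^(2/3)
      have h1 : L ^ ((1 : ℝ) / 3) ≤ N' ^ ((2 : ℝ) / 3) := by
        calc L ^ ((1 : ℝ) / 3) ≤ (N' ^ (2 : ℕ)) ^ ((1 : ℝ) / 3) :=
              Real.rpow_le_rpow (by linarith) hLN (by norm_num)
          _ = N' ^ ((2 : ℝ) / 3) := by
              rw [← Real.rpow_natCast, ← Real.rpow_mul (by linarith)]; norm_num
      calc L = L ^ ((2 : ℝ) / 3) * L ^ ((1 : ℝ) / 3) := by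
            rw [← Real.rpow_add (by linarith)]; norm_num
        _ ≤ L ^ ((2 : ℝ) / 3) * N' ^ ((2 : ℝ) / 3) := by gcongr
        _ = (L * N') ^ ((2 : ℝ) / 3) := by rw [Real.mul_rpow (by linarith) (by linarith)]
    · rw [Finset.compl_empty, hlogprod]
      have h1 : Real.exp (∑ i, Real.log (b i)) ≤ Real.exp (2 * P / 3) :=
        Real.exp_le_exp.2 (by linarith)
      rw [← e23] at h1
      exact h1.trans (le_mul_of_one_le_left (by positivity) hD)

/-! ### the interface -/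

/-- `TT` is a Gauss side sum -/
lemma TT_eq {Y : ι → ℝ} (hY : ∀ i, 0 ≤ Y i) {f : ι → Eis → ℂ} (hs : ∀ i, Sp (Y i) (f i))
    {X : ℝ} (hX : ∏ i, Y i ≤ X) (q0 : Eis) {d δ : Eis} (hd : IsPrim d) (hδ : IsPrim δ)
    (q x : Eis) : TT (sqc q0 (cv f)) X d δ q x = TG (wseq q0 (d * δ) q f) x := by
  classical
  have hX0 : 0 ≤ X := (Finset.prod_nonneg fun i _ => hY i).trans hX
  have hg : IsPrim (d * δ) := hd.mul hδ
  unfold TT TG
  symm
  have e : ∀ m, (if IsCoprime m q then sqc q0 (cv f) (d * δ * m) * (n6 m : ℂ) * Gh x m else 0) =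
      wseq q0 (d * δ) q f m * (G m * conj (sy x m)) := by
    intro m
    unfold wseq ic Gh
    split_ifs <;> ring
  rw [Finset.sum_congr rfl fun m _ => e m]
  refine tsum_eq_sum fun m hm => ?_
  by_contra hne
  have h1 : wseq q0 (d * δ) q f m ≠ 0 := left_ne_zero_of_mul hne
  have h2 : sqc q0 (cv f) (d * δ * m) ≠ 0 := left_ne_zero_of_mul h1
  have h3 : Th q0 (d * δ * m) ≠ 0 := left_ne_zero_of_mul h2
  have h4 : cv f (d * δ * m) ≠ 0 := right_ne_zero_of_mul h2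
  have h5 : Squarefree (d * δ * m) := by
    unfold Th at h3
    by_contra hh
    rw [if_neg (fun h => hh h.1)] at h3
    exact h3 rfl
  obtain ⟨h6, h7⟩ := Sp_cv hY hs _ h4
  apply hm
  have hmp : IsPrim m := h6.of_mul_left hg
  refine (mem_S hX0).2 ⟨?_, hmp, h5.of_mul_right⟩
  rw [nm_mul, Nat.cast_mul] at h7
  have h8 : (1 : ℝ) ≤ nm (d * δ) := by exact_mod_cast nm_pos.mpr hg.ne_zero
  have h9 : (nm m : ℝ) ≤ nm (d * δ) * nm m := le_mul_of_one_le_left (Nat.cast_nonneg _) h8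
  linarith

/-- **`HS` for convolutions with pieces of length `≤ D Z^(2/3)`** -/
theorem HS_of_small (ι : Type*) [Fintype ι] [DecidableEq ι] {ε : ℝ} (hε : 0 < ε) :
    ∃ C : ℝ, 0 < C ∧ ∀ (X Z D : ℝ) (Y W : ι → ℝ), 1 ≤ X → 1 ≤ Z → 1 ≤ D → (∀ i, 1 ≤ Y i) →
    ∏ i, Y i ≤ X → (∀ i, Y i ≤ D * Z ^ ((2 : ℝ) / 3)) →
    ∀ f : ι → Eis → ℂ, (∀ i, Sp (Y i) (f i)) → (∀ i m, ‖f i m‖ ≤ W i) →
    ∀ q0 d : Eis, IsPrim d → HS (sqc q0 (cv f)) X Z d (C * X ^ ε * (D * (∏ i, W i) ^ 2)) := by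
  classical
  obtain ⟨C, hC, h⟩ := TG_wseq_sq ι (ε := ε / 2) (by positivity)
  refine ⟨3 * C, by positivity, fun X Z D Y W hX hZ hD hY hYX hYZ f hs hw q0 d hd => ?_⟩
  intro δ q v hδ _ _ L hL hZL hLL
  have hδ' := (mem_S (by linarith)).1 hδ
  have hg : IsPrim (d * δ) := hd.mul hδ'.2.1
  have hW : ∀ i, 0 ≤ W i := fun i => (norm_nonneg _).trans (hw i 1)
  have hY0 : ∀ i, 0 < Y i := fun i => by linarith [hY i]
  have hYp : 1 ≤ ∏ i, Y i := by
    calc (1 : ℝ) = ∏ _i : ι, (1 : ℝ) := by simp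
      _ ≤ ∏ i, Y i := Finset.prod_le_prod (fun _ _ => zero_le_one) fun i _ => hY i
  set N' : ℝ := X / nm d / nm δ with hN'
  have hNg : N' = X / nm (d * δ) := by rw [hN', nm_mul]; push_cast; rw [div_div]
  have hN1 : 1 ≤ N' := by nlinarith
  have hLN : L ≤ N' ^ (2 : ℕ) := by nlinarith
  have hg1 : (1 : ℝ) ≤ nm (d * δ) := by exact_mod_cast nm_pos.mpr hg.ne_zero
  have hNX : N' ≤ X := by rw [hNg]; exact div_le_self (by linarith) hg1
  set U : ℝ := (L * N') ^ ((2 : ℝ) / 3) with hU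
  have hU0 : 0 ≤ U := by positivity
  have hM : 0 ≤ 2 * D * U := by positivity
  have hI : ∀ y ∈ Tu ι (d * δ), (∀ i, (nm (y i) : ℝ) ≤ Y i) → ∃ I : Finset ι,
      L * (∏ i ∈ I, Y i / nm (y i)) + (∏ i ∈ Iᶜ, Y i / nm (y i)) ≤ 2 * D * U := by
    intro y hy hyY
    have hy' := mem_Tu.1 hy
    have hy1 : ∀ i, (1 : ℝ) ≤ nm (y i) := fun i => by
      exact_mod_cast nm_pos.mpr (hy'.1 i).ne_zero
    have hb : ∀ i, 1 ≤ Y i / nm (y i) := fun i => by
      rw [le_div_iff₀ (by linarith [hy1 i])]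
      linarith [hyY i]
    have e1 : ∏ i, Y i / nm (y i) = (∏ i, Y i) / nm (d * δ) := by
      rw [Finset.prod_div_distrib]
      congr 1
      have : ∀ s : Finset ι, (nm (∏ i ∈ s, y i) : ℝ) = ∏ i ∈ s, (nm (y i) : ℝ) := by
        intro s
        induction s using Finset.induction_on with
        | empty => simp [nm_one]
        | insert a s ha ih =>
          rw [Finset.prod_insert ha, Finset.prod_insert ha, nm_mul, Nat.cast_mul, ih]
      rw [← this, hy'.2]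
    have hbN : ∏ i, Y i / nm (y i) ≤ N' := by
      rw [e1, hNg]
      gcongr
    obtain ⟨I, h1, h2⟩ := window_mul (fun i => Y i / nm (y i)) hb hL hN1 hD hbN hLN (fun i => by
      calc Y i / nm (y i) ≤ Y i := div_le_self (hY0 i).le (hy1 i)
        _ ≤ D * Z ^ ((2 : ℝ) / 3) := hYZ i
        _ ≤ D * (L * N') ^ ((2 : ℝ) / 3) := by gcongr)
    refine ⟨I, ?_⟩
    have h3 : U ≤ D * U := le_mul_of_one_le_left hU0 hD
    linarith
  have e : ∀ x, TT (sqc q0 (cv f)) X d δ q (v * x) = TG (wseq q0 (d * δ) q f) (v * x) := fun x =>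
    TT_eq (fun i => (hY0 i).le) hs hYX q0 hd hδ'.2.1 q _
  simp only [e]
  refine (h L (2 * D * U) Y W hL hM hY f hs hw (d * δ) hg hI q0 q v).trans ?_
  set N'' : ℝ := (∏ i, Y i) / nm (d * δ) with hN''
  have hN''0 : 0 ≤ N'' := by positivity
  have hNN : N'' ≤ N' := by rw [hN'', hNg]; gcongr
  have e1 : (L * N'') ^ ((2 : ℝ) / 3) ≤ U := by
    rw [hU]; exact Real.rpow_le_rpow (by positivity) (by gcongr) (by norm_num)
  have e2 : N'' ^ ((2 : ℝ) / 3) ≤ N' ^ ((2 : ℝ) / 3) :=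
    Real.rpow_le_rpow hN''0 hNN (by norm_num)
  have e3 : (L * ∏ i, Y i) ^ (ε / 2) ≤ X ^ ε := by
    have hLX : L ≤ X := by nlinarith
    calc (L * ∏ i, Y i) ^ (ε / 2) ≤ (X * X) ^ (ε / 2) :=
          Real.rpow_le_rpow (by positivity) (by gcongr) (by positivity)
      _ = X ^ ε := by
          rw [Real.mul_rpow (by linarith) (by linarith), ← Real.rpow_add (by linarith)]
          congr 1; ring
  have hWp : 0 ≤ ∏ i, W i := Finset.prod_nonneg fun i _ => hW i
  calc C * (L * ∏ i, Y i) ^ (ε / 2) * (∏ i, W i) ^ 2 * (N'' ^ ((2 : ℝ) / 3) *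
        (2 * D * U + (L * N'') ^ ((2 : ℝ) / 3)))
      ≤ C * X ^ ε * (∏ i, W i) ^ 2 * (N' ^ ((2 : ℝ) / 3) * (2 * D * U + D * U)) := by
        have h3 : U ≤ D * U := le_mul_of_one_le_left hU0 hD
        gcongr
        exact e1.trans h3
    _ = 3 * C * X ^ ε * (D * (∏ i, W i) ^ 2) * (N' ^ ((2 : ℝ) / 3) * U) := by ring
    _ = _ := by
        have h5 : N' ^ ((2 : ℝ) / 3) * U = N' ^ ((4 : ℝ) / 3) * L ^ ((2 : ℝ) / 3) := by
          rw [hU, Real.mul_rpow (by linarith) (by linarith)]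
          have : N' ^ ((4 : ℝ) / 3) = N' ^ ((2 : ℝ) / 3) * N' ^ ((2 : ℝ) / 3) := by
            rw [← Real.rpow_add (by linarith)]; norm_num
          rw [this]; ring
        rw [h5]; ring

end Crest.Agent.R017.X6b792
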