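import Crest.Agent.R017.X6b2_792

/-!
# Row 17, exceptional class (helper792): the whole side (no split), in 502's form

* `X6b_one` : `∑ l ∈ bl L, ‖th l‖ ‖∑ m ∈ S N, α m conj (Gh (l f) m)‖
    ≤ C (L N)^ε L^(1/3) (L + N + (L N)^(2/3))^(1/2) ‖α‖`
-/

set_option autoImplicit false

noncomputable section

open Complex
open scoped ComplexConjugate

namespace Crest.Agent.R017.X6b792

open Crest.Agent.R012 Crest.Agent.R012.Eis Crest.Agent.R012.LS2 Crest.Agent.R012.Gauss880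
open Crest.Agent.R017.CM106
open Crest.Agent.R017.PX764 (th n6 Gh)

lemma G_one : G (1 : Eis) = 1 := by
  have h := PX764.Gh_one 1
  unfold Gh at h
  rw [Sym645.sy_one_right, map_one, mul_one] at h
  exact h

/-- no split -/
lemma TG2_one {A : ℝ} {α : Eis → ℂ} (h : Sp A α) (l : Eis) :
    TG2 {1} (fun _ => 1) α l = TG α l := by
  rw [TG2_split (fun b hb => by rw [Finset.mem_singleton.1 hb]; exact isPrim_one) h.FS,
    Finset.sum_singleton, G_one, Sym645.sy_one_right]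
  simp

/-- **the whole side** -/
theorem X6b_one {ε : ℝ} (hε : 0 < ε) : ∃ C : ℝ, 0 < C ∧ ∀ L N : ℝ, 1 ≤ L → 1 ≤ N →
    ∀ (α : Eis → ℂ) (f : Eis),
      ∑ l ∈ bl L, ‖th l‖ * ‖∑ m ∈ S N, α m * conj (Gh (l * f) m)‖ ≤
        C * (L * N) ^ ε * (L ^ ((1 : ℝ) / 3) * (Real.sqrt (L + N + (L * N) ^ ((2 : ℝ) / 3)) *
          Real.sqrt (∑ m ∈ S N, ‖α m‖ ^ 2))) := by
  classical
  obtain ⟨C, hC, h⟩ := X6b_th hε
  refine ⟨C, hC, fun L N hL hN α f => ?_⟩
  set β : Eis → ℂ := fun m => if m ∈ S N then conj (α m) else 0 with hβ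
  have hSp : Sp N β := by
    intro m hm
    by_cases h0 : m ∈ S N
    · have := (mem_S (by linarith)).1 h0
      exact ⟨this.2.1, this.1⟩
    · exfalso; apply hm; rw [hβ]; simp [h0]
  have h1 := h L 1 N hL le_rfl hN {1} (fun _ => 1) β
    (fun b hb => by rw [Finset.mem_singleton.1 hb]; exact ⟨isPrim_one, by rw [nm_one]; norm_num⟩)
    hSp f
  have e : ∀ l, ‖∑ m ∈ S N, α m * conj (Gh (l * f) m)‖ =
      ‖TG2 {1} (fun _ => 1) β (f * l)‖ := by
    intro l
    rw [TG2_one hSp, TG_eq_sum (by linarith) hSp, ← RCLike.norm_conj, map_sum]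
    congr 1
    refine Finset.sum_congr rfl fun m hm => ?_
    rw [hβ]
    simp only [if_pos hm, map_mul, Complex.conj_conj, Gh, mul_comm f l]
  have e2 : ∑ m ∈ S N, ‖β m‖ ^ 2 = ∑ m ∈ S N, ‖α m‖ ^ 2 := by
    refine Finset.sum_congr rfl fun m hm => ?_
    rw [hβ]
    simp only [if_pos hm, RCLike.norm_conj]
  simp only [e]
  refine h1.trans (le_of_eq ?_)
  rw [e2, Finset.sum_singleton, norm_one, one_pow, Real.sqrt_one, mul_one, one_mul]

end Crest.Agent.R017.X6b792
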