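import Crest.Agent.R017.X6b4_792
import Crest.Agent.R017.PX9_764

/-!
# Row 17, exceptional class (helper792): `HS` with multiplicative weights; the cross part of `iterEx`

* `HS_gen` : `HS` for `m ↦ sqc q₀ (cv f) (g m) F m`, `F` multiplicative, `‖F‖ ≤ 1`
* `CRX_le` : from `X6Stmt`, `Z ∑_g CRX (X / nm g) Z (X^ε) (sub (sqc q (cv f)) g)
    ≤ C (X Z)^ε' D^(1/2) (∏ W)² X (X + Z)`
* `PE_cv` : (P_ex) for squarefree convolutions
-/

set_option autoImplicit false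
set_option linter.unusedSectionVars false

noncomputable section

open Complex
open scoped ComplexConjugate

namespace Crest.Agent.R017.X6b792

open Crest.Agent.R012 Crest.Agent.R012.Eis Crest.Agent.R012.LS2 Crest.Agent.R012.Gauss880
open Crest.Agent.R012.Div277 (tau dvs mem_dvs tau_le_rpow)
open Crest.Agent.R017.CM106
open Crest.Agent.R017.PX764 (th n6 Gh n6_pos n6_le_one n6_mul n6_one)
open Crest.Agent.R017.HP842
open Crest.Agent.R017.X6545 (HS TT SU X6Stmt)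

variable {ι : Type*} [Fintype ι] [DecidableEq ι]

/-- the sequence of the cross lemma, with a weight -/
def wseqF (q0 g q : Eis) (f : ι → Eis → ℂ) (F : Eis → ℂ) (m : Eis) : ℂ :=
  sqc q0 (cv f) (g * m) * (ic q m * (n6 m : ℂ) * F m)

/-- its pieces -/
def wpcF (Q : Eis) (f : ι → Eis → ℂ) (F : Eis → ℂ) (y : ι → Eis) (i : ι) (m : Eis) : ℂ :=
  sub (f i) (y i) m * (ic Q m * (n6 m : ℂ) * F m)

lemma wseqF_eq_mul (q0 g q : Eis) (f : ι → Eis → ℂ) (F : Eis → ℂ) (m : Eis) :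
    wseqF q0 g q f F m = wseq q0 g q f m * F m := by
  unfold wseqF wseq; ring

lemma wseqF_zero {f : ι → Eis → ℂ} {F : Eis → ℂ} {q0 g q : Eis}
    (hgs : ¬ (Squarefree g ∧ IsCoprime g q0)) (m : Eis) : wseqF q0 g q f F m = 0 := by
  rw [wseqF_eq_mul, wseq_zero hgs, zero_mul]

lemma wseqF_eq {f : ι → Eis → ℂ} {F : Eis → ℂ} (hF : Mulp F) {q0 g q : Eis} (hg : IsPrim g)
    (hgs : Squarefree g) (hgq : IsCoprime g q0) {m : Eis} (hm : IsPrim m) (hms : Squarefree m) :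
    wseqF q0 g q f F m = ∑ y ∈ Tu ι g, cv (wpcF (q * (q0 * g)) f F y) m := by
  rw [wseqF_eq_mul, wseq_eq hg hgs hgq hm hms, Finset.sum_mul]
  refine Finset.sum_congr rfl fun y _ => ?_
  rw [← cv_weight hF]
  congr 1
  funext i m
  unfold wpc wpcF
  ring

/-- reduction to the pieces `y` -/
theorem wseqF_red (ι : Type*) [Fintype ι] [DecidableEq ι] {ε : ℝ} (hε : 0 < ε) :
    ∃ C : ℝ, 0 < C ∧ ∀ (L R : ℝ) (Y : ι → ℝ), 1 ≤ L → 0 ≤ R → (∀ i, 1 ≤ Y i) →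
    ∀ f : ι → Eis → ℂ, (∀ i, Sp (Y i) (f i)) →
    ∀ g : Eis, IsPrim g → ∀ F : Eis → ℂ, Mulp F → ∀ q0 q q' : Eis,
    (∀ y ∈ Tu ι g, (∀ i, (nm (y i) : ℝ) ≤ Y i) →
      ∑ x ∈ S L, ‖TG (cv (wpcF (q * (q0 * g)) f F y)) (q' * x)‖ ^ 2 ≤ R) →
    ∑ x ∈ S L, ‖TG (wseqF q0 g q f F) (q' * x)‖ ^ 2 ≤ C * (L * ∏ i, Y i) ^ ε * R := by
  classical
  obtain ⟨C2, hC2, hτ⟩ := tau_le_rpow (ε := ε / (2 * (Fintype.card ι + 1))) (by positivity)
  have hC20 : 0 < C2 := by linarith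
  refine ⟨(C2 ^ Fintype.card ι) ^ 2, by positivity,
    fun L R Y hL hR hY f hs g hg F hF q0 q q' hI => ?_⟩
  have hY0 : ∀ i, 0 < Y i := fun i => by linarith [hY i]
  have hYp : 1 ≤ ∏ i, Y i := by
    calc (1 : ℝ) = ∏ _i : ι, (1 : ℝ) := by simp
      _ ≤ ∏ i, Y i := Finset.prod_le_prod (fun _ _ => zero_le_one) fun i _ => hY i
  have hP1 : 1 ≤ L * ∏ i, Y i := one_le_mul_of_one_le_of_one_le hL hYp
  have hg1 : (1 : ℝ) ≤ nm g := by exact_mod_cast nm_pos.mpr hg.ne_zero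
  by_cases hgq : Squarefree g ∧ IsCoprime g q0
  swap
  · have : ∀ x, TG (wseqF q0 g q f F) x = 0 := by
      intro x
      unfold TG
      rw [← tsum_zero]
      refine tsum_congr fun m => ?_
      rw [wseqF_zero hgq, zero_mul]
    simp only [this, norm_zero, ne_eq, OfNat.ofNat_ne_zero, not_false_eq_true, zero_pow,
      Finset.sum_const_zero]
    positivity
  obtain ⟨hgs, hgc⟩ := hgq
  by_cases hgY : (nm g : ℝ) ≤ ∏ i, Y i
  swap
  · have : ∀ x, TG (wseqF q0 g q f F) x = 0 := by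
      intro x
      unfold TG
      rw [← tsum_zero]
      refine tsum_congr fun m => ?_
      by_cases hc0 : cv f (g * m) = 0
      · unfold wseqF sqc; rw [hc0]; ring
      · exfalso
        have h3 := (Sp_cv (fun i => (hY0 i).le) hs) _ hc0
        have hm0 : m ≠ 0 := by
          rintro rfl
          exact h3.1.ne_zero (mul_zero g)
        have hm1 : (1 : ℝ) ≤ nm m := by exact_mod_cast nm_pos.mpr hm0
        have h4 := h3.2
        rw [nm_mul, Nat.cast_mul] at h4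
        have h5 : (nm g : ℝ) ≤ nm g * nm m := le_mul_of_one_le_right (by linarith) hm1
        exact hgY (h5.trans h4)
    simp only [this, norm_zero, ne_eq, OfNat.ofNat_ne_zero, not_false_eq_true, zero_pow,
      Finset.sum_const_zero]
    positivity
  have hpiece : ∀ y ∈ Tu ι g, ∑ x ∈ S L, ‖TG (cv (wpcF (q * (q0 * g)) f F y)) (q' * x)‖ ^ 2 ≤
      R := by
    intro y hy
    have hy' := mem_Tu.1 hy
    by_cases hyY : ∀ i, (nm (y i) : ℝ) ≤ Y i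
    · exact hI y hy hyY
    · push Not at hyY
      obtain ⟨i, hi⟩ := hyY
      have h0 : ∀ m, IsPrim m → wpcF (q * (q0 * g)) f F y i m = 0 := by
        intro m hm
        have h2 : f i (y i * m) = 0 := by
          by_contra hne
          have h4 := (hs i _ hne).2
          rw [nm_mul, Nat.cast_mul] at h4
          have hm1 : (1 : ℝ) ≤ nm m := by exact_mod_cast nm_pos.mpr hm.ne_zero
          have h5 : (nm (y i) : ℝ) ≤ nm (y i) * nm m :=
            le_mul_of_one_le_right (Nat.cast_nonneg _) hm1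
          linarith
        unfold wpcF sub
        rw [h2, zero_mul]
      have h3 : ∀ x, TG (cv (wpcF (q * (q0 * g)) f F y)) x = 0 := by
        intro x
        unfold TG
        rw [← tsum_zero]
        refine tsum_congr fun m => ?_
        have : cv (wpcF (q * (q0 * g)) f F y) m = 0 := by
          unfold cv
          refine Finset.sum_eq_zero fun z hz => ?_
          exact Finset.prod_eq_zero (Finset.mem_univ i) (h0 _ ((mem_Tu.1 hz).1 i))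
        rw [this, zero_mul]
      simp only [h3, norm_zero, ne_eq, OfNat.ofNat_ne_zero, not_false_eq_true, zero_pow,
        Finset.sum_const_zero]
      exact hR
  have hFSw : ∀ y ∈ Tu ι g, FS (cv (wpcF (q * (q0 * g)) f F y)) := by
    intro y hy
    refine FS_cv fun i => ?_
    have h2 : FS (sub (f i) (y i)) := (hs i).FS.sub ((mem_Tu.1 hy).1 i)
    exact ⟨h2.fin.subset fun m hm => left_ne_zero_of_mul hm,
      fun m hm => h2.prim m (left_ne_zero_of_mul hm)⟩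
  have hsum : ∀ x, TG (wseqF q0 g q f F) x =
      ∑ y ∈ Tu ι g, TG (cv (wpcF (q * (q0 * g)) f F y)) x := by
    intro x
    unfold TG
    rw [← Summable.tsum_finsetSum fun y hy => (hFSw y hy).summable _]
    refine tsum_congr fun m => ?_
    rw [← Finset.sum_mul]
    by_cases hm : IsPrim m
    · by_cases hms : Squarefree m
      · rw [wseqF_eq hF hg hgs hgc hm hms]
      · rw [G_eq_zero syG hm hms]; ring
    · have h2 : wseqF q0 g q f F m = 0 := by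
        unfold wseqF sqc
        rw [cv_not_prim (fun h => hm (h.of_mul_left hg))]; ring
      rw [h2, Finset.sum_eq_zero fun y _ => cv_not_prim hm]
  have hcard : ((Tu ι g).card : ℝ) ≤ C2 ^ Fintype.card ι * (L * ∏ i, Y i) ^ (ε / 2) := by
    have h2 : ((Tu ι g).card : ℝ) ≤ (tau g : ℝ) ^ Fintype.card ι := by
      exact_mod_cast card_Tu_le g
    have hgP : (nm g : ℝ) ≤ L * ∏ i, Y i := hgY.trans (le_mul_of_one_le_left (by linarith) hL)
    have h3 : (tau g : ℝ) ≤ C2 * (L * ∏ i, Y i) ^ (ε / (2 * (Fintype.card ι + 1))) :=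
      (hτ g hg.ne_zero).trans (mul_le_mul_of_nonneg_left
        (Real.rpow_le_rpow (Nat.cast_nonneg _) hgP (by positivity)) hC20.le)
    refine h2.trans ((pow_le_pow_left₀ (Nat.cast_nonneg _) h3 _).trans ?_)
    rw [mul_pow]
    refine mul_le_mul_of_nonneg_left ?_ (by positivity)
    rw [← Real.rpow_natCast, ← Real.rpow_mul (by positivity)]
    refine Real.rpow_le_rpow_of_exponent_le hP1 ?_
    rw [div_mul_eq_mul_div, div_le_div_iff₀ (by positivity) (by norm_num)]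
    have : (0 : ℝ) ≤ (Fintype.card ι : ℝ) := Nat.cast_nonneg _
    nlinarith
  have hcs : ∀ x, ‖TG (wseqF q0 g q f F) (q' * x)‖ ^ 2 ≤ ((Tu ι g).card : ℝ) *
      ∑ y ∈ Tu ι g, ‖TG (cv (wpcF (q * (q0 * g)) f F y)) (q' * x)‖ ^ 2 := by
    intro x
    rw [hsum]
    have h6 := cauchy (Tu ι g) (fun _ => (1 : ℂ))
      (fun y => TG (cv (wpcF (q * (q0 * g)) f F y)) (q' * x))
    simpa using h6
  calc ∑ x ∈ S L, ‖TG (wseqF q0 g q f F) (q' * x)‖ ^ 2
      ≤ ∑ x ∈ S L, ((Tu ι g).card : ℝ) *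
          ∑ y ∈ Tu ι g, ‖TG (cv (wpcF (q * (q0 * g)) f F y)) (q' * x)‖ ^ 2 :=
        Finset.sum_le_sum fun x _ => hcs x
    _ = ((Tu ι g).card : ℝ) *
          ∑ y ∈ Tu ι g, ∑ x ∈ S L, ‖TG (cv (wpcF (q * (q0 * g)) f F y)) (q' * x)‖ ^ 2 := by
        rw [← Finset.mul_sum, Finset.sum_comm]
    _ ≤ ((Tu ι g).card : ℝ) * ∑ y ∈ Tu ι g, R :=
        mul_le_mul_of_nonneg_left (Finset.sum_le_sum hpiece) (Nat.cast_nonneg _)
    _ = ((Tu ι g).card : ℝ) ^ 2 * R := by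
        rw [Finset.sum_const, nsmul_eq_mul]; ring
    _ ≤ (C2 ^ Fintype.card ι * (L * ∏ i, Y i) ^ (ε / 2)) ^ 2 * R := by
        refine mul_le_mul_of_nonneg_right ?_ hR
        exact pow_le_pow_left₀ (Nat.cast_nonneg _) hcard 2
    _ = _ := by
        have : (L * ∏ i, Y i) ^ ε = ((L * ∏ i, Y i) ^ (ε / 2)) ^ 2 := by
          rw [← Real.rpow_natCast, ← Real.rpow_mul (by positivity)]
          congr 1; push_cast; ring
        rw [this]; ring

/-- **the window case of a piece** -/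
theorem wpcF_sq (ι : Type*) [Fintype ι] [DecidableEq ι] {ε : ℝ} (hε : 0 < ε) :
    ∃ C : ℝ, 0 < C ∧ ∀ (L M : ℝ) (Y W : ι → ℝ), 1 ≤ L →
    ∀ f : ι → Eis → ℂ, (∀ i, Sp (Y i) (f i)) → (∀ i m, ‖f i m‖ ≤ W i) →
    ∀ F : Eis → ℂ, (∀ m, IsPrim m → ‖F m‖ ≤ 1) →
    ∀ y : ι → Eis, (∀ i, IsPrim (y i)) → (∀ i, (nm (y i) : ℝ) ≤ Y i) →
    ∀ I : Finset ι, L * (∏ i ∈ I, Y i / nm (y i)) + (∏ i ∈ Iᶜ, Y i / nm (y i)) ≤ M →
    ∀ Q q' : Eis, ∑ x ∈ S L, ‖TG (cv (wpcF Q f F y)) (q' * x)‖ ^ 2 ≤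
      C * (L * ∏ i, Y i) ^ ε * (∏ i, W i) ^ 2 *
        ((∏ i, Y i / nm (y i)) ^ ((2 : ℝ) / 3) *
        (M + (L * ∏ i, Y i / nm (y i)) ^ ((2 : ℝ) / 3))) := by
  classical
  obtain ⟨C1, hC1, h1⟩ := TG_cv_sq ι (ε := ε) hε
  refine ⟨C1, hC1, fun L M Y W hL f hs hw F hF1 y hyp hyY I hIM Q q' => ?_⟩
  have hW : ∀ i, 0 ≤ W i := fun i => (norm_nonneg _).trans (hw i 1)
  have hWp : 0 ≤ ∏ i, W i := Finset.prod_nonneg fun i _ => hW i
  have hy1 : ∀ i, (1 : ℝ) ≤ nm (y i) := fun i => by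
    exact_mod_cast nm_pos.mpr (hyp i).ne_zero
  have hZ : ∀ i, 1 ≤ Y i / nm (y i) := fun i => by
    rw [le_div_iff₀ (by linarith [hy1 i])]
    linarith [hyY i]
  have hSp : ∀ i, Sp (Y i / nm (y i)) (wpcF Q f F y i) := by
    intro i m hm
    have h2 : f i (y i * m) ≠ 0 := left_ne_zero_of_mul hm
    obtain ⟨h3, h4⟩ := hs i _ h2
    refine ⟨h3.of_mul_left (hyp i), ?_⟩
    rw [le_div_iff₀ (by linarith [hy1 i])]
    rw [nm_mul, Nat.cast_mul] at h4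
    linarith
  have hno : ∀ i m, IsPrim m → ‖wpcF Q f F y i m‖ ≤ W i * n6 m := by
    intro i m hm
    unfold wpcF
    rw [norm_mul, norm_mul, norm_mul, Complex.norm_real,
      Real.norm_of_nonneg (n6_pos hm.ne_zero).le]
    calc _ ≤ W i * (1 * n6 m * 1) := by
          refine mul_le_mul (hw i _) ?_ (by
            have := (n6_pos hm.ne_zero).le
            positivity) (hW i)
          refine mul_le_mul ?_ (hF1 m hm) (norm_nonneg _) (by
            have := (n6_pos hm.ne_zero).le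
            positivity)
          exact mul_le_mul_of_nonneg_right (norm_ic_le _ _) (n6_pos hm.ne_zero).le
      _ = _ := by ring
  have h5 := h1 L (fun i => Y i / nm (y i)) W hL hZ _ hSp hno I q'
  refine h5.trans ?_
  have hq1 : 0 ≤ ∏ i ∈ I, Y i / (nm (y i) : ℝ) :=
    Finset.prod_nonneg fun i _ => by linarith [hZ i]
  have hq2 : 0 ≤ ∏ i ∈ Iᶜ, Y i / (nm (y i) : ℝ) :=
    Finset.prod_nonneg fun i _ => by linarith [hZ i]
  have hq3 : 0 ≤ ∏ i, Y i / (nm (y i) : ℝ) :=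
    Finset.prod_nonneg fun i _ => by linarith [hZ i]
  have hYn : ∏ i, Y i / (nm (y i) : ℝ) ≤ ∏ i, Y i :=
    Finset.prod_le_prod (fun i _ => by linarith [hZ i]) fun i _ =>
      div_le_self (by linarith [hy1 i, hyY i]) (hy1 i)
  have hYnn : 0 ≤ ∏ i, Y i := hq3.trans hYn
  have e2 : (L * ∏ i, Y i / (nm (y i) : ℝ)) ^ ε ≤ (L * ∏ i, Y i) ^ ε :=
    Real.rpow_le_rpow (by positivity) (by gcongr) hε.le
  gcongr

/-! ### the interface -/

lemma nm_prod (x : ι → Eis) (s : Finset ι) :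
    (nm (∏ i ∈ s, x i) : ℝ) = ∏ i ∈ s, (nm (x i) : ℝ) := by
  induction s using Finset.induction_on with
  | empty => simp [nm_one]
  | insert a s ha ih => rw [Finset.prod_insert ha, Finset.prod_insert ha, nm_mul, Nat.cast_mul, ih]

/-- the sequences of the interface -/
def wg (q0 g : Eis) (f : ι → Eis → ℂ) (F : Eis → ℂ) (m : Eis) : ℂ :=
  sqc q0 (cv f) (g * m) * F m

/-- `TT` is a Gauss side sum -/
lemma TT_eqF {Y : ι → ℝ} (hY : ∀ i, 0 ≤ Y i) {f : ι → Eis → ℂ} (hs : ∀ i, Sp (Y i) (f i))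
    {X : ℝ} {g : Eis} (hg : IsPrim g) (hX : ∏ i, Y i ≤ X * nm g) {F : Eis → ℂ} (hF : Mulp F)
    (q0 : Eis) {d δ : Eis} (hd : IsPrim d) (hδ : IsPrim δ)
    (q x : Eis) : TT (wg q0 g f F) X d δ q x =
      F (d * δ) * TG (wseqF q0 (g * (d * δ)) q f F) x := by
  classical
  have hYp : 0 ≤ ∏ i, Y i := Finset.prod_nonneg fun i _ => hY i
  have hg0 : (0 : ℝ) < nm g := by exact_mod_cast nm_pos.mpr hg.ne_zero
  have hX0 : 0 ≤ X := by
    by_contra h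
    push Not at h
    have : X * nm g < 0 := mul_neg_of_neg_of_pos h hg0
    linarith
  have hdd : IsPrim (d * δ) := hd.mul hδ
  have hG : IsPrim (g * (d * δ)) := hg.mul hdd
  unfold TT TG
  have e : ∀ m ∈ S X, (if IsCoprime m q then wg q0 g f F (d * δ * m) * (n6 m : ℂ) * Gh x m
      else 0) = F (d * δ) * (wseqF q0 (g * (d * δ)) q f F m * (G m * conj (sy x m))) := by
    intro m hm
    have hmp : IsPrim m := ((mem_S hX0).1 hm).2.1
    have h1 : wg q0 g f F (d * δ * m) = sqc q0 (cv f) (g * (d * δ) * m) * (F (d * δ) * F m) := by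
      unfold wg
      rw [hF.2 _ _ hdd hmp, show g * (d * δ * m) = g * (d * δ) * m by ring]
    rw [h1]
    unfold wseqF ic Gh
    split_ifs <;> ring
  rw [Finset.sum_congr rfl e, ← Finset.mul_sum]
  congr 1
  symm
  refine tsum_eq_sum fun m hm => ?_
  by_contra hne
  have h1 : wseqF q0 (g * (d * δ)) q f F m ≠ 0 := left_ne_zero_of_mul hne
  have h2 : sqc q0 (cv f) (g * (d * δ) * m) ≠ 0 := left_ne_zero_of_mul h1
  have h3 : Th q0 (g * (d * δ) * m) ≠ 0 := left_ne_zero_of_mul h2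
  have h4 : cv f (g * (d * δ) * m) ≠ 0 := right_ne_zero_of_mul h2
  have h5 : Squarefree (g * (d * δ) * m) := by
    unfold Th at h3
    by_contra hh
    rw [if_neg (fun h => hh h.1)] at h3
    exact h3 rfl
  obtain ⟨h6, h7⟩ := Sp_cv hY hs _ h4
  apply hm
  have hmp : IsPrim m := h6.of_mul_left hG
  refine (mem_S hX0).2 ⟨?_, hmp, h5.of_mul_right⟩
  rw [nm_mul, nm_mul, Nat.cast_mul, Nat.cast_mul] at h7
  have h8 : (1 : ℝ) ≤ nm (d * δ) := by exact_mod_cast nm_pos.mpr hdd.ne_zero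
  have h9 : (nm g : ℝ) * nm m ≤ nm g * nm (d * δ) * nm m := by
    have : (nm g : ℝ) * nm m * 1 ≤ nm g * nm m * nm (d * δ) :=
      mul_le_mul_of_nonneg_left h8 (by positivity)
    linarith
  have h10 : (nm g : ℝ) * nm m ≤ nm g * X := by linarith
  exact le_of_mul_le_mul_left h10 hg0

/-- **`HS` for weighted convolutions: the case distinction.** Either every shortened piece is
`≤ D (L N')^(2/3)` (window), or the bound for this `y` is an input (dominating lump). -/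
theorem HS_split (ι : Type*) [Fintype ι] [DecidableEq ι] {ε : ℝ} (hε : 0 < ε) :
    ∃ C : ℝ, 0 < C ∧ ∀ (X0 X Z D B0 : ℝ) (Y W : ι → ℝ), 1 ≤ X → X ≤ X0 → 1 ≤ Z → 1 ≤ D →
    0 ≤ B0 → (∀ i, 1 ≤ Y i) → ∏ i, Y i ≤ X0 →
    ∀ f : ι → Eis → ℂ, (∀ i, Sp (Y i) (f i)) → (∀ i m, ‖f i m‖ ≤ W i) →
    ∀ g : Eis, IsPrim g → ∏ i, Y i ≤ X * nm g →
    ∀ F : Eis → ℂ, Mulp F → (∀ m, IsPrim m → ‖F m‖ ≤ 1) →
    ∀ q0 d : Eis, IsPrim d →
    (∀ δ q v : Eis, δ ∈ S X → q ≠ 0 → SU v → ∀ L : ℝ, 1 ≤ L → Z ≤ L * (X / nm d / nm δ) →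
      L * L ≤ X / nm d / nm δ → ∀ y ∈ Tu ι (g * (d * δ)), (∀ i, (nm (y i) : ℝ) ≤ Y i) →
      (∃ i, D * (L * (X / nm d / nm δ)) ^ ((2 : ℝ) / 3) < Y i / nm (y i)) →
      ∑ x ∈ S L, ‖TG (cv (wpcF (q * (q0 * (g * (d * δ)))) f F y)) (v * x)‖ ^ 2 ≤
        B0 * (X / nm d / nm δ) ^ ((4 : ℝ) / 3) * L ^ ((2 : ℝ) / 3)) →
    HS (wg q0 g f F) X Z d (C * X0 ^ ε * (D * (∏ i, W i) ^ 2 + B0)) := by
  classical
  obtain ⟨C, hC, h⟩ := wpcF_sq ι (ε := ε / 4) (by positivity)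
  obtain ⟨C', hC', h'⟩ := wseqF_red ι (ε := ε / 4) (by positivity)
  refine ⟨(3 * C + 1) * C', by positivity, fun X0 X Z D B0 Y W hX hXX0 hZ hD hB0 hY hYX0 f hs hw
    g hg hYX F hF hF1 q0 d hd hlump => ?_⟩
  intro δ q v hδ hq hv L hL hZL hLL
  have hδ' := (mem_S (by linarith)).1 hδ
  have hdd : IsPrim (d * δ) := hd.mul hδ'.2.1
  have hG : IsPrim (g * (d * δ)) := hg.mul hdd
  have hW : ∀ i, 0 ≤ W i := fun i => (norm_nonneg _).trans (hw i 1)
  have hWp : 0 ≤ ∏ i, W i := Finset.prod_nonneg fun i _ => hW i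
  have hY0 : ∀ i, 0 < Y i := fun i => by linarith [hY i]
  have hYp : 1 ≤ ∏ i, Y i := by
    calc (1 : ℝ) = ∏ _i : ι, (1 : ℝ) := by simp
      _ ≤ ∏ i, Y i := Finset.prod_le_prod (fun _ _ => zero_le_one) fun i _ => hY i
  have hlump' := hlump δ q v hδ hq hv L hL hZL hLL
  set N' : ℝ := X / nm d / nm δ with hN'
  have hNg : N' = X / nm (d * δ) := by rw [hN', nm_mul]; push_cast; rw [div_div]
  have hN1 : 1 ≤ N' := by nlinarith
  have hLN : L ≤ N' ^ (2 : ℕ) := by nlinarith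
  have hdd1 : (1 : ℝ) ≤ nm (d * δ) := by exact_mod_cast nm_pos.mpr hdd.ne_zero
  have hg1 : (1 : ℝ) ≤ nm g := by exact_mod_cast nm_pos.mpr hg.ne_zero
  have hNX : N' ≤ X := by rw [hNg]; exact div_le_self (by linarith) hdd1
  have hX01 : 1 ≤ X0 := hX.trans hXX0
  set U : ℝ := (L * N') ^ ((2 : ℝ) / 3) with hU
  have hU0 : 0 ≤ U := by positivity
  have hnm : (nm (g * (d * δ)) : ℝ) = nm g * nm (d * δ) := by rw [nm_mul]; push_cast; rfl
  have hNN : (∏ i, Y i) / nm (g * (d * δ)) ≤ N' := by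
    rw [hnm, hNg, div_le_div_iff₀ (by positivity) (by positivity)]
    calc (∏ i, Y i) * (nm (d * δ) : ℝ) ≤ (X * nm g) * nm (d * δ) := by gcongr
      _ = _ := by ring
  have e3 : (L * ∏ i, Y i) ^ (ε / 4) ≤ X0 ^ (ε / 2) := by
    have hLX : L ≤ X0 := by nlinarith
    calc (L * ∏ i, Y i) ^ (ε / 4) ≤ (X0 * X0) ^ (ε / 4) :=
          Real.rpow_le_rpow (by positivity) (by gcongr) (by positivity)
      _ = X0 ^ (ε / 2) := by
          rw [Real.mul_rpow (by linarith) (by linarith), ← Real.rpow_add (by linarith)]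
          congr 1; ring
  have hXe : 1 ≤ X0 ^ (ε / 2) := Real.one_le_rpow hX01 (by positivity)
  have hNU : N' ^ ((2 : ℝ) / 3) * U = N' ^ ((4 : ℝ) / 3) * L ^ ((2 : ℝ) / 3) := by
    rw [hU, Real.mul_rpow (by linarith) (by linarith)]
    have : N' ^ ((4 : ℝ) / 3) = N' ^ ((2 : ℝ) / 3) * N' ^ ((2 : ℝ) / 3) := by
      rw [← Real.rpow_add (by linarith)]; norm_num
    rw [this]; ring
  set R : ℝ := ((3 * C + 1) * X0 ^ (ε / 2) * (D * (∏ i, W i) ^ 2 + B0)) *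
    (N' ^ ((4 : ℝ) / 3) * L ^ ((2 : ℝ) / 3)) with hR
  have hR0 : 0 ≤ R := by positivity
  have hpiece : ∀ y ∈ Tu ι (g * (d * δ)), (∀ i, (nm (y i) : ℝ) ≤ Y i) →
      ∑ x ∈ S L, ‖TG (cv (wpcF (q * (q0 * (g * (d * δ)))) f F y)) (v * x)‖ ^ 2 ≤ R := by
    intro y hy hyY
    have hy' := mem_Tu.1 hy
    by_cases hcase : ∃ i, D * U < Y i / nm (y i)
    · refine (hlump' y hy hyY hcase).trans ?_
      rw [hR, mul_assoc]
      refine mul_le_mul_of_nonneg_right ?_ (by positivity)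
      have h1 : B0 ≤ D * (∏ i, W i) ^ 2 + B0 := by
        have : 0 ≤ D * (∏ i, W i) ^ 2 := by positivity
        linarith
      calc B0 ≤ D * (∏ i, W i) ^ 2 + B0 := h1
        _ ≤ ((3 * C + 1) * X0 ^ (ε / 2)) * (D * (∏ i, W i) ^ 2 + B0) :=
            le_mul_of_one_le_left (by positivity)
              (one_le_mul_of_one_le_of_one_le (by linarith) hXe)
    · push Not at hcase
      have hy1 : ∀ i, (1 : ℝ) ≤ nm (y i) := fun i => by
        exact_mod_cast nm_pos.mpr (hy'.1 i).ne_zero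
      have hb : ∀ i, 1 ≤ Y i / nm (y i) := fun i => by
        rw [le_div_iff₀ (by linarith [hy1 i])]
        linarith [hyY i]
      have e1 : ∏ i, Y i / nm (y i) = (∏ i, Y i) / nm (g * (d * δ)) := by
        rw [Finset.prod_div_distrib, ← nm_prod, hy'.2]
      have hbN : ∏ i, Y i / nm (y i) ≤ N' := by rw [e1]; exact hNN
      obtain ⟨I, h1, h2⟩ := window_mul (fun i => Y i / nm (y i)) hb hL hN1 hD hbN hLN hcase
      have h3 : U ≤ D * U := le_mul_of_one_le_left hU0 hD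
      have hM : L * (∏ i ∈ I, Y i / nm (y i)) + (∏ i ∈ Iᶜ, Y i / nm (y i)) ≤ 2 * D * U := by
        have h1' : L * (∏ i ∈ I, Y i / nm (y i)) ≤ U := h1
        have h2' : (∏ i ∈ Iᶜ, Y i / nm (y i)) ≤ D * U := h2
        linarith
      refine (h L (2 * D * U) Y W hL f hs hw F hF1 y hy'.1 hyY I hM _ v).trans ?_
      have hb0 : 0 ≤ ∏ i, Y i / (nm (y i) : ℝ) :=
        Finset.prod_nonneg fun i _ => by linarith [hb i]
      have e4 : (L * ∏ i, Y i / (nm (y i) : ℝ)) ^ ((2 : ℝ) / 3) ≤ U := by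
        rw [hU]; exact Real.rpow_le_rpow (by positivity) (by gcongr) (by norm_num)
      have e5 : (∏ i, Y i / (nm (y i) : ℝ)) ^ ((2 : ℝ) / 3) ≤ N' ^ ((2 : ℝ) / 3) :=
        Real.rpow_le_rpow hb0 hbN (by norm_num)
      calc C * (L * ∏ i, Y i) ^ (ε / 4) * (∏ i, W i) ^ 2 *
            ((∏ i, Y i / (nm (y i) : ℝ)) ^ ((2 : ℝ) / 3) *
              (2 * D * U + (L * ∏ i, Y i / (nm (y i) : ℝ)) ^ ((2 : ℝ) / 3)))
          ≤ C * X0 ^ (ε / 2) * (∏ i, W i) ^ 2 * (N' ^ ((2 : ℝ) / 3) * (2 * D * U + D * U)) := by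
            gcongr
            exact e4.trans h3
        _ = (3 * C * X0 ^ (ε / 2) * (D * (∏ i, W i) ^ 2)) * (N' ^ ((2 : ℝ) / 3) * U) := by ring
        _ = (3 * C * X0 ^ (ε / 2) * (D * (∏ i, W i) ^ 2)) *
              (N' ^ ((4 : ℝ) / 3) * L ^ ((2 : ℝ) / 3)) := by rw [hNU]
        _ ≤ R := by
            rw [hR]
            have h6 : D * (∏ i, W i) ^ 2 ≤ D * (∏ i, W i) ^ 2 + B0 := by linarith
            gcongr
            linarith
  have e : ∀ x, ‖TT (wg q0 g f F) X d δ q (v * x)‖ ^ 2 ≤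
      ‖TG (wseqF q0 (g * (d * δ)) q f F) (v * x)‖ ^ 2 := by
    intro x
    rw [TT_eqF (fun i => (hY0 i).le) hs hg hYX hF q0 hd hδ'.2.1 q _, norm_mul]
    refine pow_le_pow_left₀ (by positivity) ?_ 2
    exact mul_le_of_le_one_left (norm_nonneg _) (hF1 _ hdd)
  refine (Finset.sum_le_sum fun x _ => e x).trans ?_
  refine (h' L R Y hL hR0 hY f hs (g * (d * δ)) hG F hF q0 q v hpiece).trans ?_
  calc C' * (L * ∏ i, Y i) ^ (ε / 4) * R ≤ C' * X0 ^ (ε / 2) * R := by gcongr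
    _ = (3 * C + 1) * C' * (X0 ^ (ε / 2) * X0 ^ (ε / 2)) * (D * (∏ i, W i) ^ 2 + B0) *
          N' ^ ((4 : ℝ) / 3) * L ^ ((2 : ℝ) / 3) := by rw [hR]; ring
    _ = _ := by
        rw [← Real.rpow_add (by linarith)]
        congr 4
        congr 1
        ring

/-- **`HS` for weighted convolutions with pieces of length `≤ D Z^(2/3)`** -/
theorem HS_gen (ι : Type*) [Fintype ι] [DecidableEq ι] {ε : ℝ} (hε : 0 < ε) :
    ∃ C : ℝ, 0 < C ∧ ∀ (X0 X Z D : ℝ) (Y W : ι → ℝ), 1 ≤ X → X ≤ X0 → 1 ≤ Z → 1 ≤ D →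
    (∀ i, 1 ≤ Y i) → ∏ i, Y i ≤ X0 → (∀ i, Y i ≤ D * Z ^ ((2 : ℝ) / 3)) →
    ∀ f : ι → Eis → ℂ, (∀ i, Sp (Y i) (f i)) → (∀ i m, ‖f i m‖ ≤ W i) →
    ∀ g : Eis, IsPrim g → ∏ i, Y i ≤ X * nm g →
    ∀ F : Eis → ℂ, Mulp F → (∀ m, IsPrim m → ‖F m‖ ≤ 1) →
    ∀ q0 d : Eis, IsPrim d → HS (wg q0 g f F) X Z d (C * X0 ^ ε * (D * (∏ i, W i) ^ 2)) := by
  classical
  obtain ⟨C, hC, h⟩ := HS_split ι hε
  refine ⟨C, hC, fun X0 X Z D Y W hX hXX0 hZ hD hY hYX0 hYZ f hs hw g hg hYX F hF hF1 q0 d hd =>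
    ?_⟩
  have := h X0 X Z D 0 Y W hX hXX0 hZ hD le_rfl hY hYX0 f hs hw g hg hYX F hF hF1 q0 d hd ?_
  · rw [add_zero] at this; exact this
  · intro δ q v hδ _ _ L hL hZL hLL y hy hyY hex
    exfalso
    obtain ⟨i, hi⟩ := hex
    have hy1 : (1 : ℝ) ≤ nm (y i) := by
      exact_mod_cast nm_pos.mpr ((mem_Tu.1 hy).1 i).ne_zero
    have h1 : Y i / nm (y i) ≤ Y i := div_le_self (by linarith [hY i]) hy1
    have h2 : Y i ≤ D * (L * (X / nm d / nm δ)) ^ ((2 : ℝ) / 3) := by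
      refine (hYZ i).trans ?_
      gcongr
    linarith

/-! ### the cross part of the iterated (P_ex) -/

lemma norm_cv_le1 {W : ι → ℝ} {f : ι → Eis → ℂ} (hw : ∀ i m, ‖f i m‖ ≤ W i) (b : Eis) :
    ‖cv f b‖ ≤ (tau b : ℝ) ^ Fintype.card ι * ∏ i, W i := by
  classical
  have hW : ∀ i, 0 ≤ W i := fun i => (norm_nonneg _).trans (hw i 1)
  have hWp : 0 ≤ ∏ i, W i := Finset.prod_nonneg fun i _ => hW i
  unfold cv
  refine (norm_sum_le _ _).trans ?_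
  have h1 : ∀ x ∈ Tu ι b, ‖∏ i, f i (x i)‖ ≤ ∏ i, W i := by
    intro x _
    rw [norm_prod]
    exact Finset.prod_le_prod (fun i _ => norm_nonneg _) fun i _ => hw i _
  refine (Finset.sum_le_sum h1).trans ?_
  rw [Finset.sum_const, nsmul_eq_mul]
  refine mul_le_mul_of_nonneg_right ?_ hWp
  exact_mod_cast card_Tu_le b

lemma norm_Th_le (q n : Eis) : ‖Th q n‖ ≤ 1 := by
  classical
  unfold Th
  split_ifs <;> simp

/-- `sqc q (cv f)` is supported on `S X` -/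
lemma supp_sqc {Y : ι → ℝ} (hY : ∀ i, 0 ≤ Y i) {f : ι → Eis → ℂ} (hs : ∀ i, Sp (Y i) (f i))
    {X : ℝ} (hX : ∏ i, Y i ≤ X) (q : Eis) : PA842.Supp (sqc q (cv f)) X := by
  classical
  intro n hn
  have hX0 : 0 ≤ X := (Finset.prod_nonneg fun i _ => hY i).trans hX
  have h3 : Th q n ≠ 0 := left_ne_zero_of_mul hn
  have h4 : cv f n ≠ 0 := right_ne_zero_of_mul hn
  have h5 : Squarefree n := by
    unfold Th at h3
    by_contra hh
    rw [if_neg (fun h => hh h.1)] at h3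
    exact h3 rfl
  obtain ⟨h6, h7⟩ := Sp_cv hY hs _ h4
  exact (mem_S hX0).2 ⟨h7.trans hX, h6, h5⟩

lemma sum_inv_S_le' {X K ε : ℝ} (hX : 1 ≤ X) (hK : ∀ X : ℝ, 1 ≤ X → LS448.LL X ≤ K * X ^ ε) :
    ∑ g ∈ S X, (nm g : ℝ)⁻¹ ≤ K * X ^ ε := by
  refine le_trans (le_of_eq ?_) ((sum_inv_S_le (by linarith)).trans (hK X hX))
  exact Finset.sum_congr rfl fun g _ => by rw [Real.rpow_neg_one]

set_option maxHeartbeats 1600000 in
/-- **the cross part of the iterated (P_ex)** -/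
theorem CRX_le (hX6 : X6Stmt) (ι : Type*) [Fintype ι] [DecidableEq ι] {ε : ℝ} (hε : 0 < ε) :
    ∃ C : ℝ, 0 < C ∧ ∀ (X Z D T : ℝ) (Y W : ι → ℝ), 1 ≤ X → 1 ≤ Z → 1 ≤ D →
    (∀ i, 1 ≤ Y i) → ∏ i, Y i ≤ X → (∀ i, Y i ≤ D * Z ^ ((2 : ℝ) / 3)) →
    ∀ f : ι → Eis → ℂ, (∀ i, Sp (Y i) (f i)) → (∀ i m, ‖f i m‖ ≤ W i) →
    ∀ q : Eis, Z * ∑ g ∈ S X, PX764.CRX (X / nm g) Z T (PA842.sub (sqc q (cv f)) g) ≤
      C * (X * Z) ^ ε * (Real.sqrt D * (∏ i, W i) ^ 2 * (X * (X + Z))) := by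
  classical
  obtain ⟨C6, hC6, h6⟩ := hX6 (ε / 4) (by positivity)
  obtain ⟨CH, hCH, hH⟩ := HS_gen ι (ε := ε / 4) (by positivity)
  obtain ⟨K, hK, hLL⟩ := LS448.LL_le (ε := ε / 8) (by positivity)
  obtain ⟨C2, hC2, hτ⟩ := tau_le_rpow (ε := ε / (8 * (Fintype.card ι + 1))) (by positivity)
  have hC20 : 0 < C2 := by linarith
  set k : ℕ := Fintype.card ι with hk
  refine ⟨(C6 + 1) * ((C2 ^ k) ^ 2 + C2 ^ k * Real.sqrt CH) * (K * K), by positivity,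
    fun X Z D T Y W hX hZ hD hY hYX hYZ f hs hw q => ?_⟩
  have hW : ∀ i, 0 ≤ W i := fun i => (norm_nonneg _).trans (hw i 1)
  have hWp : 0 ≤ ∏ i, W i := Finset.prod_nonneg fun i _ => hW i
  have hY0 : ∀ i, 0 < Y i := fun i => by linarith [hY i]
  have hX0 : 0 < X := by linarith
  have hZ0 : 0 < Z := by linarith
  have hsD : 1 ≤ Real.sqrt D := Real.one_le_sqrt.2 hD
  set w : Eis → ℂ := sqc q (cv f) with hwd
  have hSupp := supp_sqc (fun i => (hY0 i).le) hs hYX q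
  set V : ℝ := C2 ^ k * X ^ (ε / 8) * ∏ i, W i with hV
  have hV0 : 0 ≤ V := by positivity
  have hwV : ∀ n, ‖w n‖ ≤ V := by
    intro n
    by_cases h0 : w n = 0
    · rw [h0, norm_zero]; exact hV0
    · have hn := (mem_S hX0.le).1 (hSupp n h0)
      rw [hwd]
      unfold sqc
      rw [norm_mul]
      have h1 : (tau n : ℝ) ≤ C2 * X ^ (ε / (8 * (k + 1))) :=
        (hτ n hn.2.1.ne_zero).trans (mul_le_mul_of_nonneg_left
          (Real.rpow_le_rpow (Nat.cast_nonneg _) hn.1 (by positivity)) hC20.le)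
      have h2 : (tau n : ℝ) ^ k ≤ C2 ^ k * X ^ (ε / 8) := by
        refine (pow_le_pow_left₀ (Nat.cast_nonneg _) h1 _).trans ?_
        rw [mul_pow]
        refine mul_le_mul_of_nonneg_left ?_ (by positivity)
        rw [← Real.rpow_natCast, ← Real.rpow_mul hX0.le]
        refine Real.rpow_le_rpow_of_exponent_le hX ?_
        rw [div_mul_eq_mul_div, div_le_div_iff₀ (by positivity) (by norm_num)]
        have : (0 : ℝ) ≤ (k : ℝ) := Nat.cast_nonneg _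
        nlinarith
      calc ‖Th q n‖ * ‖cv f n‖ ≤ 1 * ((tau n : ℝ) ^ k * ∏ i, W i) :=
            mul_le_mul (norm_Th_le q n) (norm_cv_le1 hw n) (norm_nonneg _) zero_le_one
        _ = (tau n : ℝ) ^ k * ∏ i, W i := one_mul _
        _ ≤ (C2 ^ k * X ^ (ε / 8)) * ∏ i, W i := mul_le_mul_of_nonneg_right h2 hWp
  set B : ℝ := CH * X ^ (ε / 4) * (D * (∏ i, W i) ^ 2) with hB
  have hB0 : 0 ≤ B := by positivity
  have hsB : Real.sqrt B = Real.sqrt CH * X ^ (ε / 8) * (Real.sqrt D * ∏ i, W i) := by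
    rw [hB, Real.sqrt_mul (by positivity), Real.sqrt_mul hCH.le, Real.sqrt_mul (by linarith),
      Real.sqrt_sq hWp]
    congr 2
    rw [Real.sqrt_eq_rpow, ← Real.rpow_mul hX0.le]
    congr 1; ring
  -- one cross term
  have one : ∀ g ∈ S X, ∀ d ∈ S (X / nm g),
      Z * ‖PX764.Cross (X / nm g) Z (PA842.sub w g) d‖ ≤
        C6 * (X * Z) ^ (ε / 4) * ((V ^ 2 + V * Real.sqrt B) * (X + Z)) *
          (X * ((nm g : ℝ)⁻¹ * (nm d : ℝ)⁻¹)) := by
    intro g hg d hd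
    have hg' := (mem_S hX0.le).1 hg
    have hg0 : (0 : ℝ) < nm g := by exact_mod_cast nm_pos.mpr hg'.2.1.ne_zero
    have hg1 : (1 : ℝ) ≤ nm g := by exact_mod_cast nm_pos.mpr hg'.2.1.ne_zero
    have hXg : 1 ≤ X / nm g := by rw [le_div_iff₀ hg0]; linarith [hg'.1]
    have hXgX : X / nm g ≤ X := div_le_self hX0.le hg1
    have hd' := (mem_S (by linarith)).1 hd
    have hd0 : (0 : ℝ) < nm d := by exact_mod_cast nm_pos.mpr hd'.2.1.ne_zero
    have hd1 : (1 : ℝ) ≤ nm d := by exact_mod_cast nm_pos.mpr hd'.2.1.ne_zero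
    have hsupp' : PA842.Supp (PA842.sub w g) (X / nm g) := by
      intro m hm
      have h1 : w (g * m) ≠ 0 := hm
      have h2 := (mem_S hX0.le).1 (hSupp _ h1)
      refine (mem_S (by linarith)).2 ⟨?_, h2.2.1.of_mul_left hg'.2.1, h2.2.2.of_mul_right⟩
      rw [le_div_iff₀ hg0]
      have h3 := h2.1
      rw [nm_mul, Nat.cast_mul] at h3
      linarith
    have hHS := hH X (X / nm g) Z D Y W hXg hXgX hZ hD hY hYX hYZ f hs hw g hg'.2.1
      (by rw [div_mul_cancel₀ _ hg0.ne']; exact hYX) (fun _ => 1) ⟨rfl, fun _ _ _ _ => by simp⟩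
      (fun _ _ => by simp) q d hd'.2.1
    have hwg : wg q g f (fun _ => 1) = PA842.sub w g := by
      funext m
      unfold wg PA842.sub
      rw [mul_one]
    rw [hwg] at hHS
    have h1 := h6 (X / nm g) Z V B hXg hZ hV0 hB0 (PA842.sub w g) hsupp'
      (fun n => hwV _) d hd hHS
    refine h1.trans ?_
    set N : ℝ := X / nm g / nm d with hN
    have hN0 : 0 ≤ N := by positivity
    have hNX : N ≤ X := (div_le_self (by positivity) hd1).trans hXgX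
    have hNe : N = X * ((nm g : ℝ)⁻¹ * (nm d : ℝ)⁻¹) := by
      rw [hN]; field_simp
    have hsB0 : 0 ≤ Real.sqrt B := Real.sqrt_nonneg _
    have e1 : (X / nm g * Z) ^ (ε / 4) ≤ (X * Z) ^ (ε / 4) :=
      Real.rpow_le_rpow (by positivity) (by gcongr) (by positivity)
    have e2 : V ^ 2 * N * (Z + N) + V * Real.sqrt B * (Z * N) ≤
        (V ^ 2 + V * Real.sqrt B) * (X + Z) * N := by
      have h3 : V ^ 2 * N * (Z + N) ≤ V ^ 2 * N * (Z + X) := by gcongr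
      have h4 : V * Real.sqrt B * (Z * N) ≤ V * Real.sqrt B * ((X + Z) * N) := by
        gcongr
        linarith
      linarith
    rw [← hNe]
    calc C6 * (X / nm g * Z) ^ (ε / 4) * (V ^ 2 * N * (Z + N) + V * Real.sqrt B * (Z * N))
        ≤ C6 * (X * Z) ^ (ε / 4) * ((V ^ 2 + V * Real.sqrt B) * (X + Z) * N) := by
          gcongr
      _ = _ := by ring
  have hkey : Z * ∑ g ∈ S X, PX764.CRX (X / nm g) Z T (PA842.sub w g) ≤
      ∑ g ∈ S X, ∑ d ∈ S X, C6 * (X * Z) ^ (ε / 4) * ((V ^ 2 + V * Real.sqrt B) * (X + Z)) *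
          (X * ((nm g : ℝ)⁻¹ * (nm d : ℝ)⁻¹)) := by
    rw [Finset.mul_sum]
    refine Finset.sum_le_sum fun g hg => ?_
    have hg' := (mem_S hX0.le).1 hg
    have hg0 : (0 : ℝ) < nm g := by exact_mod_cast nm_pos.mpr hg'.2.1.ne_zero
    have hg1 : (1 : ℝ) ≤ nm g := by exact_mod_cast nm_pos.mpr hg'.2.1.ne_zero
    have hXg : 1 ≤ X / nm g := by rw [le_div_iff₀ hg0]; linarith [hg'.1]
    have hXgX : X / nm g ≤ X := div_le_self hX0.le hg1
    unfold PX764.CRX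
    rw [Finset.mul_sum]
    refine (Finset.sum_le_sum fun d hd => one g hg d (Finset.mem_filter.1 hd).1).trans ?_
    refine Finset.sum_le_sum_of_subset_of_nonneg ?_ fun d _ _ => by positivity
    intro d hd
    have hd' := (mem_S (by linarith)).1 (Finset.mem_filter.1 hd).1
    exact (mem_S hX0.le).2 ⟨hd'.1.trans hXgX, hd'.2⟩
  refine hkey.trans ?_
  have hsum : ∑ g ∈ S X, ∑ d ∈ S X, C6 * (X * Z) ^ (ε / 4) *
        ((V ^ 2 + V * Real.sqrt B) * (X + Z)) * (X * ((nm g : ℝ)⁻¹ * (nm d : ℝ)⁻¹)) =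
      C6 * (X * Z) ^ (ε / 4) * ((V ^ 2 + V * Real.sqrt B) * (X + Z)) * X *
        ((∑ g ∈ S X, (nm g : ℝ)⁻¹) * ∑ d ∈ S X, (nm d : ℝ)⁻¹) := by
    rw [Finset.sum_mul_sum, Finset.mul_sum]
    refine Finset.sum_congr rfl fun g _ => ?_
    rw [Finset.mul_sum]
    refine Finset.sum_congr rfl fun d _ => ?_
    ring
  rw [hsum]
  have hS := sum_inv_S_le' hX hLL
  have hS0 : 0 ≤ ∑ g ∈ S X, (nm g : ℝ)⁻¹ := Finset.sum_nonneg fun _ _ => by positivity
  have hXZ1 : 1 ≤ X * Z := one_le_mul_of_one_le_of_one_le hX hZ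
  have hXXZ : X ≤ X * Z := le_mul_of_one_le_right hX0.le hZ
  have hVV : V ^ 2 + V * Real.sqrt B ≤ ((C2 ^ k) ^ 2 + C2 ^ k * Real.sqrt CH) * X ^ (ε / 4) *
      (Real.sqrt D * (∏ i, W i) ^ 2) := by
    have e1 : X ^ (ε / 4) = X ^ (ε / 8) * X ^ (ε / 8) := by
      rw [← Real.rpow_add hX0]; congr 1; ring
    rw [hsB, hV, e1]
    have h3 : (C2 ^ k * X ^ (ε / 8) * ∏ i, W i) ^ 2 ≤
        (C2 ^ k * X ^ (ε / 8) * ∏ i, W i) ^ 2 * Real.sqrt D :=
      le_mul_of_one_le_right (by positivity) hsD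
    calc _ ≤ (C2 ^ k * X ^ (ε / 8) * ∏ i, W i) ^ 2 * Real.sqrt D +
          C2 ^ k * X ^ (ε / 8) * (∏ i, W i) *
            (Real.sqrt CH * X ^ (ε / 8) * (Real.sqrt D * ∏ i, W i)) := by linarith
      _ = _ := by ring
  have hC6' : C6 ≤ C6 + 1 := by linarith
  have hX8 : X ^ (ε / 8) ≤ (X * Z) ^ (ε / 8) :=
    Real.rpow_le_rpow hX0.le hXXZ (by positivity)
  have hX4 : X ^ (ε / 4) ≤ (X * Z) ^ (ε / 4) :=
    Real.rpow_le_rpow hX0.le hXXZ (by positivity)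
  have hpow : (X * Z) ^ (ε / 4) * (X * Z) ^ (ε / 4) * ((X * Z) ^ (ε / 8) * (X * Z) ^ (ε / 8)) ≤
      (X * Z) ^ ε := by
    have hp : 0 < X * Z := by positivity
    rw [← Real.rpow_add hp, ← Real.rpow_add hp, ← Real.rpow_add hp]
    exact Real.rpow_le_rpow_of_exponent_le hXZ1 (by linarith)
  calc C6 * (X * Z) ^ (ε / 4) * ((V ^ 2 + V * Real.sqrt B) * (X + Z)) * X *
        ((∑ g ∈ S X, (nm g : ℝ)⁻¹) * ∑ d ∈ S X, (nm d : ℝ)⁻¹)
      ≤ (C6 + 1) * (X * Z) ^ (ε / 4) * ((((C2 ^ k) ^ 2 + C2 ^ k * Real.sqrt CH) *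
          (X * Z) ^ (ε / 4) * (Real.sqrt D * (∏ i, W i) ^ 2)) * (X + Z)) * X *
        ((K * (X * Z) ^ (ε / 8)) * (K * (X * Z) ^ (ε / 8))) := by
        have h5 : V ^ 2 + V * Real.sqrt B ≤ ((C2 ^ k) ^ 2 + C2 ^ k * Real.sqrt CH) *
            (X * Z) ^ (ε / 4) * (Real.sqrt D * (∏ i, W i) ^ 2) := by
          refine hVV.trans ?_
          gcongr
        have h6 : ∑ g ∈ S X, (nm g : ℝ)⁻¹ ≤ K * (X * Z) ^ (ε / 8) :=
          hS.trans (by gcongr)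
        have hsB0 : 0 ≤ Real.sqrt B := Real.sqrt_nonneg _
        gcongr
    _ = ((C6 + 1) * ((C2 ^ k) ^ 2 + C2 ^ k * Real.sqrt CH) * (K * K)) *
          ((X * Z) ^ (ε / 4) * (X * Z) ^ (ε / 4) * ((X * Z) ^ (ε / 8) * (X * Z) ^ (ε / 8))) *
          (Real.sqrt D * (∏ i, W i) ^ 2 * (X * (X + Z))) := by ring
    _ ≤ _ := by gcongr

set_option maxHeartbeats 1600000 in
/-- **(P_ex) for squarefree convolutions**, all pieces `≤ D Z^(2/3)` -/
theorem PE_cv (hX6 : X6Stmt) (ι : Type*) [Fintype ι] [DecidableEq ι] {σ ε : ℝ} (hσ : 0 < σ)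
    (hσ1 : σ ≤ 1 / 2) (hε : 0 < ε) {M : ℕ} (hM : 1 ≤ M) :
    ∃ C : ℝ, 0 < C ∧ ∀ (X Z D : ℝ) (Y W : ι → ℝ), 1 ≤ X → 1 ≤ Z → 1 ≤ D →
    (∀ i, 1 ≤ Y i) → ∏ i, Y i ≤ X → (∀ i, Y i ≤ D * Z ^ ((2 : ℝ) / 3)) →
    ∀ f : ι → Eis → ℂ, (∀ i, Sp (Y i) (f i)) → (∀ i m, ‖f i m‖ ≤ W i) →
    ∀ q : Eis, PX764.Vnc X Z (sqc q (cv f)) ≤ C * (X * Z) ^ (4 * ε) *
      (Real.sqrt D * (∏ i, W i) ^ 2 * (X * (X + Z)) + X ^ (3 * σ) * ∑ g ∈ S X,
        PX764.DDR M σ (X / nm g) Z (X ^ ε) ε (PA842.sub (sqc q (cv f)) g)) := by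
  classical
  obtain ⟨C1, hC1, h1⟩ := PX764.iterEx hσ hσ1 hε hM
  obtain ⟨C2, hC2, h2⟩ := CRX_le hX6 ι hε
  obtain ⟨K, hK, hLL⟩ := LS448.LL_le (ε := ε) hε
  obtain ⟨C3, hC3, hτ⟩ := tau_le_rpow (ε := ε / (2 * (Fintype.card ι + 1))) (by positivity)
  have hC30 : 0 < C3 := by linarith
  have hC10 : 0 < C1 := by linarith
  set k : ℕ := Fintype.card ι with hk
  refine ⟨C1 * ((C3 ^ k) ^ 2 * K + 1 + C2), by positivity,
    fun X Z D Y W hX hZ hD hY hYX hYZ f hs hw q => ?_⟩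
  have hW : ∀ i, 0 ≤ W i := fun i => (norm_nonneg _).trans (hw i 1)
  have hWp : 0 ≤ ∏ i, W i := Finset.prod_nonneg fun i _ => hW i
  have hY0 : ∀ i, 0 < Y i := fun i => by linarith [hY i]
  have hX0 : 0 < X := by linarith
  have hZ0 : 0 < Z := by linarith
  have hsD : 1 ≤ Real.sqrt D := Real.one_le_sqrt.2 hD
  set w : Eis → ℂ := sqc q (cv f) with hwd
  have hSupp := supp_sqc (fun i => (hY0 i).le) hs hYX q
  have hXZ1 : 1 ≤ X * Z := one_le_mul_of_one_le_of_one_le hX hZ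
  have hXXZ : X ≤ X * Z := le_mul_of_one_le_right hX0.le hZ
  have hXZ0 : 0 < X * Z := by positivity
  have hsq : ∑ h ∈ S X, ‖w h‖ ^ 2 ≤
      ((C3 ^ k) ^ 2 * K) * (X * Z) ^ (2 * ε) * ((∏ i, W i) ^ 2 * X) := by
    have h3 : ∀ n ∈ S X, ‖w n‖ ^ 2 ≤ ((C3 ^ k) * X ^ (ε / 2) * ∏ i, W i) ^ 2 := by
      intro n hn
      have hn' := (mem_S hX0.le).1 hn
      refine pow_le_pow_left₀ (norm_nonneg _) ?_ 2
      rw [hwd]
      unfold sqc
      rw [norm_mul]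
      have h1 : (tau n : ℝ) ≤ C3 * X ^ (ε / (2 * (k + 1))) :=
        (hτ n hn'.2.1.ne_zero).trans (mul_le_mul_of_nonneg_left
          (Real.rpow_le_rpow (Nat.cast_nonneg _) hn'.1 (by positivity)) hC30.le)
      have h2 : (tau n : ℝ) ^ k ≤ C3 ^ k * X ^ (ε / 2) := by
        refine (pow_le_pow_left₀ (Nat.cast_nonneg _) h1 _).trans ?_
        rw [mul_pow]
        refine mul_le_mul_of_nonneg_left ?_ (by positivity)
        rw [← Real.rpow_natCast, ← Real.rpow_mul hX0.le]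
        refine Real.rpow_le_rpow_of_exponent_le hX ?_
        rw [div_mul_eq_mul_div, div_le_div_iff₀ (by positivity) (by norm_num)]
        have : (0 : ℝ) ≤ (k : ℝ) := Nat.cast_nonneg _
        nlinarith
      calc ‖Th q n‖ * ‖cv f n‖ ≤ 1 * ((tau n : ℝ) ^ k * ∏ i, W i) :=
            mul_le_mul (norm_Th_le q n) (norm_cv_le1 hw n) (norm_nonneg _) zero_le_one
        _ = (tau n : ℝ) ^ k * ∏ i, W i := one_mul _
        _ ≤ (C3 ^ k * X ^ (ε / 2)) * ∏ i, W i := mul_le_mul_of_nonneg_right h2 hWp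
    have hcard : ((S X).card : ℝ) ≤ X * (K * X ^ ε) := by
      have h5 : S X ⊆ LS448.nz X := by
        intro a ha
        have ha' := (mem_S hX0.le).1 ha
        rw [LS448.mem_nz]
        exact ⟨ha'.2.1.ne_zero, ha'.1⟩
      calc ((S X).card : ℝ) ≤ ((LS448.nz X).card : ℝ) := by exact_mod_cast Finset.card_le_card h5
        _ ≤ X * LS448.LL X := LS448.card_nz_le X
        _ ≤ X * (K * X ^ ε) := by gcongr; exact hLL X hX
    refine (Finset.sum_le_sum h3).trans ?_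
    rw [Finset.sum_const, nsmul_eq_mul]
    calc ((S X).card : ℝ) * (C3 ^ k * X ^ (ε / 2) * ∏ i, W i) ^ 2
        ≤ (X * (K * X ^ ε)) * (C3 ^ k * X ^ (ε / 2) * ∏ i, W i) ^ 2 := by gcongr
      _ = ((C3 ^ k) ^ 2 * K) * (X ^ ε * (X ^ (ε / 2)) ^ 2) * ((∏ i, W i) ^ 2 * X) := by ring
      _ = ((C3 ^ k) ^ 2 * K) * X ^ (2 * ε) * ((∏ i, W i) ^ 2 * X) := by
          rw [← Real.rpow_natCast (X ^ (ε / 2)), ← Real.rpow_mul hX0.le, ← Real.rpow_add hX0]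
          congr 3
          push_cast
          ring
      _ ≤ _ := by gcongr
  have hcr := h2 X Z D (X ^ ε) Y W hX hZ hD hY hYX hYZ f hs hw q
  have hmain := h1 X Z hX hZ w hSupp
  have hDD : 0 ≤ ∑ g ∈ S X, PX764.DDR M σ (X / nm g) Z (X ^ ε) ε (PA842.sub w g) :=
    Finset.sum_nonneg fun g _ => PX764.DDR_nonneg _ _ _ hZ0.le _ _ _
  set DDs : ℝ := ∑ g ∈ S X, PX764.DDR M σ (X / nm g) Z (X ^ ε) ε (PA842.sub w g) with hDDs
  set Q : ℝ := Real.sqrt D * (∏ i, W i) ^ 2 * (X * (X + Z)) with hQ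
  have hQ0 : 0 ≤ Q := by positivity
  have hX3 : 0 ≤ X ^ (3 * σ) := by positivity
  have e1 : X ^ ε ≤ (X * Z) ^ ε := Real.rpow_le_rpow hX0.le hXXZ hε.le
  have e4 : (X * Z) ^ (4 * ε) = (X * Z) ^ ε * (X * Z) ^ (3 * ε) := by
    rw [← Real.rpow_add hXZ0]; congr 1; ring
  have e3 : (X * Z) ^ (3 * ε) = (X * Z) ^ ε * (X * Z) ^ (2 * ε) := by
    rw [← Real.rpow_add hXZ0]; congr 1; ring
  have p1 : 1 ≤ (X * Z) ^ ε := Real.one_le_rpow hXZ1 hε.le
  have p2 : 1 ≤ (X * Z) ^ (2 * ε) := Real.one_le_rpow hXZ1 (by positivity)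
  have t1 : (X * Z) ^ ε * (X + Z) * ∑ h ∈ S X, ‖w h‖ ^ 2 ≤
      ((C3 ^ k) ^ 2 * K) * (X * Z) ^ (3 * ε) * Q := by
    have h3 : (∏ i, W i) ^ 2 * X * (X + Z) ≤ Q := by
      rw [hQ]
      have : 0 ≤ (∏ i, W i) ^ 2 * X * (X + Z) := by positivity
      calc (∏ i, W i) ^ 2 * X * (X + Z) ≤ Real.sqrt D * ((∏ i, W i) ^ 2 * X * (X + Z)) :=
            le_mul_of_one_le_left this hsD
        _ = _ := by ring
    calc (X * Z) ^ ε * (X + Z) * ∑ h ∈ S X, ‖w h‖ ^ 2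
        ≤ (X * Z) ^ ε * (X + Z) *
          (((C3 ^ k) ^ 2 * K) * (X * Z) ^ (2 * ε) * ((∏ i, W i) ^ 2 * X)) := by gcongr
      _ = ((C3 ^ k) ^ 2 * K) * ((X * Z) ^ ε * (X * Z) ^ (2 * ε)) *
            ((∏ i, W i) ^ 2 * X * (X + Z)) := by ring
      _ ≤ ((C3 ^ k) ^ 2 * K) * ((X * Z) ^ ε * (X * Z) ^ (2 * ε)) * Q := by gcongr
      _ = _ := by rw [← e3]
  have t3 : Z * ∑ g ∈ S X, PX764.CRX (X / nm g) Z (X ^ ε) (PA842.sub w g) ≤
      C2 * (X * Z) ^ (3 * ε) * Q := by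
    refine hcr.trans ?_
    have : (X * Z) ^ ε ≤ (X * Z) ^ (3 * ε) :=
      Real.rpow_le_rpow_of_exponent_le hXZ1 (by linarith)
    gcongr
  clear_value DDs Q w
  have t2 : X ^ (3 * σ) * DDs ≤ (X * Z) ^ (3 * ε) * (X ^ (3 * σ) * DDs) :=
    le_mul_of_one_le_left (mul_nonneg hX3 hDD) (Real.one_le_rpow hXZ1 (by positivity))
  have hP3 : 0 ≤ (X * Z) ^ (3 * ε) := by positivity
  calc PX764.Vnc X Z w ≤ C1 * X ^ ε * ((X * Z) ^ ε * (X + Z) * ∑ h ∈ S X, ‖w h‖ ^ 2 +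
        X ^ (3 * σ) * DDs +
        Z * ∑ g ∈ S X, PX764.CRX (X / nm g) Z (X ^ ε) (PA842.sub w g)) := hmain
    _ ≤ C1 * (X * Z) ^ ε * (((C3 ^ k) ^ 2 * K) * (X * Z) ^ (3 * ε) * Q +
        (X * Z) ^ (3 * ε) * (X ^ (3 * σ) * DDs) + C2 * (X * Z) ^ (3 * ε) * Q) := by
        have hCR : 0 ≤ Z * ∑ g ∈ S X, PX764.CRX (X / nm g) Z (X ^ ε) (PA842.sub w g) :=
          mul_nonneg hZ0.le (Finset.sum_nonneg fun g _ => PX764.CRX_nonneg _ _ _ _)
        have hA : 0 ≤ (X * Z) ^ ε * (X + Z) * ∑ h ∈ S X, ‖w h‖ ^ 2 :=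
          mul_nonneg (by positivity) (Finset.sum_nonneg fun _ _ => by positivity)
        have hB : 0 ≤ X ^ (3 * σ) * DDs := mul_nonneg hX3 hDD
        gcongr
    _ ≤ C1 * (X * Z) ^ ε * (((C3 ^ k) ^ 2 * K + 1 + C2) * ((X * Z) ^ (3 * ε) *
          (Q + X ^ (3 * σ) * DDs))) := by
        refine mul_le_mul_of_nonneg_left ?_ (by positivity)
        have a1 : 0 ≤ (X * Z) ^ (3 * ε) * Q := by positivity
        have a2 : 0 ≤ (X * Z) ^ (3 * ε) * (X ^ (3 * σ) * DDs) :=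
          mul_nonneg hP3 (mul_nonneg hX3 hDD)
        have a3 : 0 ≤ (C3 ^ k) ^ 2 * K := by positivity
        have a4 := mul_nonneg a3 a2
        have a5 := mul_nonneg hC2.le a2
        generalize (X * Z) ^ (3 * ε) = P3 at a1 a2 a4 a5 ⊢
        generalize X ^ (3 * σ) * DDs = T at a2 a4 a5 ⊢
        generalize (C3 ^ k) ^ 2 * K = c at a3 a4 ⊢
        have e : (c + 1 + C2) * (P3 * (Q + T)) - (c * P3 * Q + P3 * T + C2 * P3 * Q) =
            P3 * Q + c * (P3 * T) + C2 * (P3 * T) := by ring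
        linarith
    _ = _ := by rw [e4]; ring

end Crest.Agent.R017.X6b792
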