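import Crest.Agent.R017.X6c_792
import Crest.Agent.R017.X6GDefs_180
import Crest.Agent.R012.TIfA_645

/-!
# Row 17, exceptional class, X6: purely imaginary twists suffice (helper792)

* `HSk_of_it` : `HSk` for all twists `N^{iτ}` (polynomial dependence on `τ`) implies `HSk` for the twists
  `N^s`, `0 ≤ Re s ≤ 4`
-/

set_option autoImplicit false

noncomputable section

open MeasureTheory Complex Filter Topology
open scoped ComplexConjugate

namespace Crest.Agent.R017.X6b792

open Crest.Agent.R012 Crest.Agent.R012.Eis Crest.Agent.R012.Gauss880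
open Crest.Agent.R012.LS2
open Crest.Agent.R012.Weight600 (osc ker norm_osc)
open Crest.Agent.R017.PA842 (Supp)
open Crest.Agent.R017.PX764 (n6 Gh)
open Crest.Agent.R017.X6545 (TT SU HSk HSq)
open Crest.Agent.R017.X6G180 (twS)

lemma twS_split {w : Eis → ℂ} {X : ℝ} (hX : 1 ≤ X) (hw : Supp w X) (g : Eis) (τ t : ℝ) (n : Eis) :
    osc t (Real.log X) * twS g (((τ - t : ℝ) : ℂ) * I) w n =
      (w n * conj (sy g n) * osc τ (Real.log (nm n))) *
        osc t (Real.log X - Real.log (nm n)) := by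
  by_cases h : w n = 0
  · simp [twS, h]
  · have hn := (mem_S (by linarith)).1 (hw n h)
    have hn0 : (0 : ℝ) < nm n := by exact_mod_cast nm_pos.2 hn.2.1.ne_zero
    have h1 : ((nm n : ℂ)) ^ (((τ - t : ℝ) : ℂ) * I) = osc (τ - t) (Real.log (nm n)) := by
      have := Weight600.pw_eq_cpow hn0 (τ - t)
      rw [show ((nm n : ℕ) : ℂ) = (((nm n : ℕ) : ℝ) : ℂ) by norm_cast, ← this]
      rfl
    unfold twS
    rw [h1]
    have h2 : osc (τ - t) (Real.log (nm n)) = osc τ (Real.log (nm n)) *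
        osc t (-Real.log (nm n)) := by
      rw [sub_eq_add_neg, Weight600.osc_add_left, Weight600.osc_neg_left, Weight600.osc_neg_right]
    have h3 : osc t (Real.log X - Real.log (nm n)) = osc t (Real.log X) *
        osc t (-Real.log (nm n)) := by
      rw [sub_eq_add_neg, Weight600.osc_add_right]
    rw [h2, h3]
    ring

/-- the representation of the twist with a real part -/
lemma twS_int {w : Eis → ℂ} {X : ℝ} (hX : 1 ≤ X) (hw : Supp w X) (g : Eis) (s : ℂ) {K : ℝ → ℂ}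
    (hK : ∀ u : ℝ, 0 ≤ u → u ≤ Real.log X → ((Real.exp (-s.re * u) : ℝ) : ℂ) = ∫ t, K t * osc t u)
    (n : Eis) :
    twS g s w n = ((X ^ s.re : ℝ) : ℂ) *
      ∫ t, K t * (osc t (Real.log X) * twS g (((s.im - t : ℝ) : ℂ) * I) w n) := by
  have hX0 : 0 < X := by linarith
  by_cases h : w n = 0
  · simp [twS, h]
  · have hn := (mem_S (by linarith)).1 (hw n h)
    have hn0 : (0 : ℝ) < nm n := by exact_mod_cast nm_pos.2 hn.2.1.ne_zero
    have hn1 : (1 : ℝ) ≤ nm n := by exact_mod_cast nm_pos.2 hn.2.1.ne_zero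
    have e1 : ∀ t, K t * (osc t (Real.log X) * twS g (((s.im - t : ℝ) : ℂ) * I) w n) =
        (w n * conj (sy g n) * osc s.im (Real.log (nm n))) *
          (K t * osc t (Real.log X - Real.log (nm n))) := by
      intro t
      rw [twS_split hX hw]
      ring
    simp_rw [e1]
    rw [integral_const_mul, ← hK (Real.log X - Real.log (nm n))
      (by have := Real.log_le_log hn0 hn.1; linarith) (by have := Real.log_nonneg hn1; linarith)]
    have e2 : (nm n : ℂ) ^ s = (((nm n : ℝ) ^ s.re : ℝ) : ℂ) * osc s.im (Real.log (nm n)) := by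
      have h1 : (nm n : ℂ) = (((nm n : ℕ) : ℝ) : ℂ) := by norm_cast
      have h2 : (((nm n : ℕ) : ℝ) : ℂ) ≠ 0 := by exact_mod_cast hn0.ne'
      conv_lhs => rw [h1, ← Complex.re_add_im s, Complex.cpow_add _ _ h2]
      rw [← Complex.ofReal_cpow hn0.le, ← Weight600.pw_eq_cpow hn0]
      rfl
    have e3 : (X ^ s.re) * Real.exp (-s.re * (Real.log X - Real.log (nm n))) =
        (nm n : ℝ) ^ s.re := by
      rw [Real.rpow_def_of_pos hX0, Real.rpow_def_of_pos hn0, ← Real.exp_add]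
      congr 1
      ring
    unfold twS
    rw [e2, ← e3]
    push_cast
    ring

open Classical in
lemma TT_int {w : Eis → ℂ} {X : ℝ} (hX : 1 ≤ X) (hw : Supp w X) (g : Eis) (s : ℂ) {K : ℝ → ℂ}
    (hKi : Integrable K)
    (hK : ∀ u : ℝ, 0 ≤ u → u ≤ Real.log X → ((Real.exp (-s.re * u) : ℝ) : ℂ) = ∫ t, K t * osc t u)
    (d δ q x : Eis) :
    TT (twS g s w) X d δ q x = ∫ t, ((X ^ s.re : ℝ) : ℂ) * (K t *
      (osc t (Real.log X) * TT (twS g (((s.im - t : ℝ) : ℂ) * I) w) X d δ q x)) := by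
  have hi : ∀ n, Integrable (fun t => K t * (osc t (Real.log X) *
      twS g (((s.im - t : ℝ) : ℂ) * I) w n)) := by
    intro n
    have e1 : (fun t => K t * (osc t (Real.log X) * twS g (((s.im - t : ℝ) : ℂ) * I) w n)) =
        fun t => (w n * conj (sy g n) * osc s.im (Real.log (nm n))) *
          (K t * osc t (Real.log X - Real.log (nm n))) := by
      funext t
      rw [twS_split hX hw]
      ring
    rw [e1]
    exact (Weight600.integrable_mul_osc hKi _).const_mul _
  rw [integral_const_mul]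
  have e2 : ∀ t, K t * (osc t (Real.log X) *
      TT (twS g (((s.im - t : ℝ) : ℂ) * I) w) X d δ q x) =
      ∑ m ∈ S X, if IsCoprime m q then (K t * (osc t (Real.log X) *
        twS g (((s.im - t : ℝ) : ℂ) * I) w (d * δ * m))) * ((n6 m : ℂ) * Gh x m) else 0 := by
    intro t
    unfold TT
    rw [Finset.mul_sum, Finset.mul_sum]
    refine Finset.sum_congr rfl fun m _ => ?_
    split_ifs
    · ring
    · simp
  simp_rw [e2]
  rw [integral_finsetSum]
  · unfold TT
    rw [Finset.mul_sum]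
    refine Finset.sum_congr rfl fun m _ => ?_
    split_ifs
    · rw [integral_mul_const, twS_int hX hw g s hK]
      ring
    · simp
  · intro m _
    split_ifs
    · exact (hi _).mul_const _
    · exact integrable_zero _ _ _

open Classical in
/-- **the real part of the twist costs `(1 + log X)²` only** -/
theorem HSk_of_it (Ak : ℕ) : ∃ C : ℝ, 0 ≤ C ∧ ∀ (w : Eis → ℂ) (X Z B κ : ℝ) (d g : Eis), 1 ≤ X →
    0 ≤ B → Supp w X →
    (∀ τ : ℝ, HSk (twS g ((τ : ℂ) * I) w) X Z d (B * (1 + |τ|) ^ Ak) κ) →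
    ∀ s : ℂ, 0 ≤ s.re → s.re ≤ 4 →
      HSk (twS g s w) X Z d
        (C * (1 + Real.log X) ^ 2 * B * X ^ (2 * s.re) * (1 + |s.im|) ^ Ak) κ := by
  obtain ⟨D, hD, h⟩ := exp_sep (Ak + 2)
  refine ⟨(3 * D * Crest.Agent.R017.E2440.c2) ^ 2, by positivity,
    fun w X Z B κ d g hX hB hw hh s hs0 hs4 q hq δ v hδ hv L hL h1 h2 => ?_⟩
  have hX0 : 0 < X := by linarith
  have hlog : 0 ≤ Real.log X := Real.log_nonneg hX
  set J : ℕ := ⌈Real.log X⌉₊ with hJ
  have hJ1 : Real.log X ≤ J := Nat.le_ceil _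
  have hJ2 : (J : ℝ) + 2 ≤ 3 * (1 + Real.log X) := by
    have := Nat.ceil_lt_add_one hlog
    linarith
  obtain ⟨K, hKc, hKi, hKd, hK⟩ := h s.re hs0 hs4 J
  have hK' : ∀ u : ℝ, 0 ≤ u → u ≤ Real.log X →
      ((Real.exp (-s.re * u) : ℝ) : ℂ) = ∫ t, K t * osc t u := fun u h0 hu => hK u h0 (hu.trans hJ1)
  set N : ℝ := X / nm d / nm δ with hN
  have hN0 : 0 ≤ N := by positivity
  set M : ℝ := B * (nm q : ℝ) ^ κ * N ^ ((4 : ℝ) / 3) * L ^ ((2 : ℝ) / 3) with hM
  have hM0 : 0 ≤ M := by positivity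
  set R : ℝ := X ^ s.re * (D * (J + 2)) * Real.sqrt (M * (1 + |s.im|) ^ Ak) with hR
  have hR0 : 0 ≤ R := by positivity
  have hmain := TIf645.l2_integral (S L) (fun t x => ((X ^ s.re : ℝ) : ℂ) * (K t *
      (osc t (Real.log X) * TT (twS g (((s.im - t : ℝ) : ℂ) * I) w) X d δ q (v * x))))
    (fun t => R * ((1 + |t|) ^ 2)⁻¹) ?_ (Crest.Agent.R017.E2440.integrable_inv2.const_mul R) ?_
    (fun t => by positivity)
  · have e1 : ∀ x ∈ S L, ‖TT (twS g s w) X d δ q (v * x)‖ ^ 2 =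
        ‖∫ t, ((X ^ s.re : ℝ) : ℂ) * (K t * (osc t (Real.log X) *
          TT (twS g (((s.im - t : ℝ) : ℂ) * I) w) X d δ q (v * x)))‖ ^ 2 := by
      intro x _
      rw [← TT_int hX hw g s hKi hK']
    rw [Finset.sum_congr rfl e1]
    refine hmain.trans ?_
    rw [integral_const_mul]
    change (R * Crest.Agent.R017.E2440.c2) ^ 2 ≤ _
    have hc := Crest.Agent.R017.E2440.c2_nonneg
    have e2 : (R * Crest.Agent.R017.E2440.c2) ^ 2 =
        (D * (J + 2) * Crest.Agent.R017.E2440.c2) ^ 2 * (X ^ s.re) ^ 2 *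
          (M * (1 + |s.im|) ^ Ak) := by
      rw [hR, mul_pow, mul_pow, mul_pow, Real.sq_sqrt (by positivity)]
      ring
    have e3 : (X ^ s.re) ^ 2 = X ^ (2 * s.re) := by
      rw [← Real.rpow_natCast (X ^ s.re), ← Real.rpow_mul hX0.le]
      congr 1
      push_cast
      ring
    rw [e2, e3]
    have e4 : (D * (J + 2) * Crest.Agent.R017.E2440.c2) ^ 2 ≤
        (3 * D * Crest.Agent.R017.E2440.c2) ^ 2 * (1 + Real.log X) ^ 2 := by
      rw [← mul_pow]
      refine pow_le_pow_left₀ (by positivity) ?_ 2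
      calc D * (J + 2) * Crest.Agent.R017.E2440.c2 ≤
          D * (3 * (1 + Real.log X)) * Crest.Agent.R017.E2440.c2 := by gcongr
        _ = _ := by ring
    calc (D * (J + 2) * Crest.Agent.R017.E2440.c2) ^ 2 * X ^ (2 * s.re) *
          (M * (1 + |s.im|) ^ Ak)
        ≤ ((3 * D * Crest.Agent.R017.E2440.c2) ^ 2 * (1 + Real.log X) ^ 2) * X ^ (2 * s.re) *
          (M * (1 + |s.im|) ^ Ak) := by gcongr
      _ = _ := by rw [hM]; ring
  · intro x _
    have e1 : (fun t => ((X ^ s.re : ℝ) : ℂ) * (K t * (osc t (Real.log X) *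
        TT (twS g (((s.im - t : ℝ) : ℂ) * I) w) X d δ q (v * x)))) = fun t =>
        ((X ^ s.re : ℝ) : ℂ) * ∑ m ∈ S X, if IsCoprime m q then
          ((w (d * δ * m) * conj (sy g (d * δ * m)) * osc s.im (Real.log (nm (d * δ * m)))) *
            ((n6 m : ℂ) * Gh (v * x) m)) *
              (K t * osc t (Real.log X - Real.log (nm (d * δ * m)))) else 0 := by
      funext t
      congr 1
      unfold TT
      rw [Finset.mul_sum, Finset.mul_sum]
      refine Finset.sum_congr rfl fun m _ => ?_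
      split_ifs
      · have := twS_split hX hw g s.im t (d * δ * m)
        calc K t * (osc t (Real.log X) * (twS g (((s.im - t : ℝ) : ℂ) * I) w (d * δ * m) *
              (n6 m : ℂ) * Gh (v * x) m)) =
            K t * ((osc t (Real.log X) * twS g (((s.im - t : ℝ) : ℂ) * I) w (d * δ * m)) *
              ((n6 m : ℂ) * Gh (v * x) m)) := by ring
          _ = _ := by rw [this]; ring
      · simp
    rw [e1]
    refine (integrable_finsetSum _ fun m _ => ?_).const_mul _
    split_ifs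
    · exact (Weight600.integrable_mul_osc hKi _).const_mul _
    · exact integrable_zero _ _ _
  · intro t
    have e1 : ∀ x ∈ S L, ‖((X ^ s.re : ℝ) : ℂ) * (K t * (osc t (Real.log X) *
        TT (twS g (((s.im - t : ℝ) : ℂ) * I) w) X d δ q (v * x)))‖ ^ 2 =
        (X ^ s.re * ‖K t‖) ^ 2 *
          ‖TT (twS g (((s.im - t : ℝ) : ℂ) * I) w) X d δ q (v * x)‖ ^ 2 := by
      intro x _
      rw [norm_mul, norm_mul, norm_mul, norm_osc, Complex.norm_real, Real.norm_eq_abs,
        abs_of_nonneg (by positivity)]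
      ring
    rw [Finset.sum_congr rfl e1, ← Finset.mul_sum]
    have h3 := hh (s.im - t) q hq δ v hδ hv L hL h1 h2
    have hKt : ‖K t‖ ≤ D * (J + 2) * ((1 + |t|) ^ (Ak + 2))⁻¹ := by
      rw [← div_eq_mul_inv, le_div_iff₀ (by positivity)]
      exact hKd t
    have h4 : (1 + |s.im - t|) ^ Ak ≤ (1 + |s.im|) ^ Ak * (1 + |t|) ^ Ak := by
      rw [← mul_pow]
      refine pow_le_pow_left₀ (by positivity) ?_ _
      have := abs_sub s.im t
      nlinarith [abs_nonneg s.im, abs_nonneg t, mul_nonneg (abs_nonneg s.im) (abs_nonneg t)]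
    have h5 : ∑ x ∈ S L, ‖TT (twS g (((s.im - t : ℝ) : ℂ) * I) w) X d δ q (v * x)‖ ^ 2 ≤
        M * ((1 + |s.im|) ^ Ak * (1 + |t|) ^ Ak) := by
      refine h3.trans ?_
      calc B * (1 + |s.im - t|) ^ Ak * (nm q : ℝ) ^ κ * N ^ ((4 : ℝ) / 3) * L ^ ((2 : ℝ) / 3) =
          M * (1 + |s.im - t|) ^ Ak := by rw [hM]; ring
        _ ≤ _ := mul_le_mul_of_nonneg_left h4 hM0
    have ht0 : (1 : ℝ) ≤ 1 + |t| := by linarith [abs_nonneg t]
    have h6 : (1 + |t|) ^ Ak ≤ ((1 + |t|) ^ Ak) ^ 2 := by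
      have : (1 : ℝ) ≤ (1 + |t|) ^ Ak := one_le_pow₀ ht0
      nlinarith
    calc (X ^ s.re * ‖K t‖) ^ 2 *
          ∑ x ∈ S L, ‖TT (twS g (((s.im - t : ℝ) : ℂ) * I) w) X d δ q (v * x)‖ ^ 2
        ≤ (X ^ s.re * (D * (J + 2) * ((1 + |t|) ^ (Ak + 2))⁻¹)) ^ 2 *
          (M * ((1 + |s.im|) ^ Ak * ((1 + |t|) ^ Ak) ^ 2)) := by
          refine mul_le_mul ?_ (h5.trans ?_) (Finset.sum_nonneg fun _ _ => by positivity)
            (by positivity)
          · gcongr
          · gcongr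
      _ = (R * ((1 + |t|) ^ 2)⁻¹) ^ 2 := by
          rw [hR, mul_pow, mul_pow, mul_pow, mul_pow, mul_pow, mul_pow,
            Real.sq_sqrt (by positivity), pow_add]
          field_simp

end Crest.Agent.R017.X6b792
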