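import Crest.Agent.R017.X6b6_792
import Crest.Agent.R017.GE4_241

/-!
# Row 17, exceptional class, X6: the cross terms of all levels, for arbitrary `w` (helper792)

* `CRX_of_bound`, `CRX_of_HS` : cross terms of the iterated (P_ex)
* `PE_of_HS` : the iterated (P_ex) with its cross terms bounded
* `KCr_of_bound` : cross terms of the iterated (P'_ex)
-/

set_option autoImplicit false

noncomputable section

open scoped ComplexConjugate

namespace Crest.Agent.R017.X6b792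

open Crest.Agent.R012 Crest.Agent.R012.Eis Crest.Agent.R012.Gauss880
open Crest.Agent.R012.LS2 Crest.Agent.R012.Div277
open Crest.Agent.R017.PA842 (Supp supp_sub)
open Crest.Agent.R017.X6545 (HS X6Stmt)
open Crest.Agent.R017.PX6 (CrossT KKT)
open Crest.Agent.R017.GE241 (KCr)

/-- `∑_{g ∈ S X} ∑_{d ∈ S (X/g)} X/(g d)` -/
lemma sum_two_le {ε K : ℝ} (hLL : ∀ X : ℝ, 1 ≤ X → LS448.LL X ≤ K * X ^ ε) {X : ℝ} (hX : 1 ≤ X) :
    ∑ g ∈ S X, ∑ d ∈ S (X / nm g), X / nm g / nm d ≤ X * ((K * X ^ ε) * (K * X ^ ε)) := by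
  have hX0 : 0 < X := by linarith
  have hS := sum_inv_S_le' hX hLL
  have hS0 : 0 ≤ ∑ g ∈ S X, (nm g : ℝ)⁻¹ := Finset.sum_nonneg fun _ _ => by positivity
  have h1 : ∀ g ∈ S X, ∑ d ∈ S (X / nm g), X / nm g / nm d ≤
      ∑ d ∈ S X, X * ((nm g : ℝ)⁻¹ * (nm d : ℝ)⁻¹) := by
    intro g hg
    have hg' := (mem_S hX0.le).1 hg
    have hg1 : (1 : ℝ) ≤ nm g := by exact_mod_cast nm_pos.mpr hg'.2.1.ne_zero
    have hXgX : X / nm g ≤ X := div_le_self hX0.le hg1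
    have h2 : ∑ d ∈ S (X / nm g), X / nm g / nm d =
        ∑ d ∈ S (X / nm g), X * ((nm g : ℝ)⁻¹ * (nm d : ℝ)⁻¹) :=
      Finset.sum_congr rfl fun d _ => by rw [div_eq_mul_inv, div_eq_mul_inv]; ring
    rw [h2]
    refine Finset.sum_le_sum_of_subset_of_nonneg ?_ fun d _ _ => by positivity
    intro d hd
    have hd' := (mem_S (by positivity)).1 hd
    exact (mem_S hX0.le).2 ⟨hd'.1.trans hXgX, hd'.2⟩
  refine (Finset.sum_le_sum h1).trans ?_
  have h3 : ∑ g ∈ S X, ∑ d ∈ S X, X * ((nm g : ℝ)⁻¹ * (nm d : ℝ)⁻¹) =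
      X * ((∑ g ∈ S X, (nm g : ℝ)⁻¹) * ∑ d ∈ S X, (nm d : ℝ)⁻¹) := by
    rw [Finset.sum_mul_sum, Finset.mul_sum]
    refine Finset.sum_congr rfl fun g _ => ?_
    rw [Finset.mul_sum]
  rw [h3]
  have hKX : 0 ≤ K * X ^ ε := hS0.trans hS
  gcongr

/-- cross terms of (P_ex), all levels -/
theorem CRX_of_bound {ε : ℝ} (hε : 0 < ε) : ∃ C : ℝ, 0 < C ∧ ∀ (X Z T A : ℝ) (w : Eis → ℂ),
    1 ≤ X → 1 ≤ Z → 0 ≤ A →
    (∀ g ∈ S X, ∀ d ∈ S (X / nm g), (nm d : ℝ) ≤ T →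
      Z * ‖PX764.Cross (X / nm g) Z (PA842.sub w g) d‖ ≤ A * (X / nm g / nm d * (X + Z))) →
    Z * ∑ g ∈ S X, PX764.CRX (X / nm g) Z T (PA842.sub w g) ≤
      C * X ^ ε * (A * (X * (X + Z))) := by
  obtain ⟨K, hK, hLL⟩ := LS448.LL_le (ε := ε / 2) (by positivity)
  refine ⟨K * K, by positivity, fun X Z T A w hX hZ hA h => ?_⟩
  have hX0 : 0 < X := by linarith
  have h1 : Z * ∑ g ∈ S X, PX764.CRX (X / nm g) Z T (PA842.sub w g) ≤
      ∑ g ∈ S X, ∑ d ∈ S (X / nm g), A * (X + Z) * (X / nm g / nm d) := by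
    rw [Finset.mul_sum]
    refine Finset.sum_le_sum fun g hg => ?_
    unfold PX764.CRX
    rw [Finset.mul_sum]
    refine (Finset.sum_le_sum (g := fun d => A * (X + Z) * (X / nm g / nm d)) fun d hd => ?_).trans
      (Finset.sum_le_sum_of_subset_of_nonneg (Finset.filter_subset _ _) fun d _ _ => by positivity)
    have hd' := Finset.mem_filter.1 hd
    refine (h g hg d hd'.1 hd'.2).trans (le_of_eq ?_)
    ring
  refine h1.trans ?_
  have h2 : ∑ g ∈ S X, ∑ d ∈ S (X / nm g), A * (X + Z) * (X / nm g / nm d) =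
      A * (X + Z) * ∑ g ∈ S X, ∑ d ∈ S (X / nm g), X / nm g / nm d := by
    rw [Finset.mul_sum]
    exact Finset.sum_congr rfl fun g _ => by rw [Finset.mul_sum]
  rw [h2]
  refine (mul_le_mul_of_nonneg_left (sum_two_le hLL hX) (by positivity)).trans (le_of_eq ?_)
  have e : X ^ ε = X ^ (ε / 2) * X ^ (ε / 2) := by
    rw [← Real.rpow_add hX0]; congr 1; ring
  rw [e]
  ring

/-- **(P_ex) cross terms from the second moments** -/
theorem CRX_of_HS (hX6 : X6Stmt) {ε : ℝ} (hε : 0 < ε) : ∃ C : ℝ, 0 < C ∧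
    ∀ (X Z T V B : ℝ) (w : Eis → ℂ), 1 ≤ X → 1 ≤ Z → 0 ≤ V → 0 ≤ B → Supp w X → (∀ n, ‖w n‖ ≤ V) →
    (∀ g ∈ S X, ∀ d ∈ S (X / nm g), (nm d : ℝ) ≤ T → HS (PA842.sub w g) (X / nm g) Z d B) →
    Z * ∑ g ∈ S X, PX764.CRX (X / nm g) Z T (PA842.sub w g) ≤
      C * (X * Z) ^ ε * ((V ^ 2 + V * Real.sqrt B) * (X * (X + Z))) := by
  obtain ⟨C1, hC1, h1⟩ := CRX_of_bound (ε := ε / 2) (by positivity)
  obtain ⟨C6, hC6, h6⟩ := hX6 (ε / 2) (by positivity)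
  refine ⟨C1 * (C6 + 1), by positivity, fun X Z T V B w hX hZ hV hB hw hwV h => ?_⟩
  have hX0 : 0 < X := by linarith
  have hsB0 : 0 ≤ Real.sqrt B := Real.sqrt_nonneg _
  have hXXZ : X ≤ X * Z := le_mul_of_one_le_right hX0.le hZ
  have hXZ0 : 0 < X * Z := by positivity
  refine (h1 X Z T (C6 * (X * Z) ^ (ε / 2) * (V ^ 2 + V * Real.sqrt B)) w hX hZ (by positivity)
    fun g hg d hd hdT => ?_).trans ?_
  · have hg' := (mem_S hX0.le).1 hg
    have hg0 : (0 : ℝ) < nm g := by exact_mod_cast nm_pos.mpr hg'.2.1.ne_zero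
    have hg1 : (1 : ℝ) ≤ nm g := by exact_mod_cast nm_pos.mpr hg'.2.1.ne_zero
    have hXg : 1 ≤ X / nm g := by rw [le_div_iff₀ hg0]; linarith [hg'.1]
    have hXgX : X / nm g ≤ X := div_le_self hX0.le hg1
    have hd' := (mem_S (by linarith)).1 hd
    have hd1 : (1 : ℝ) ≤ nm d := by exact_mod_cast nm_pos.mpr hd'.2.1.ne_zero
    have h2 := h6 (X / nm g) Z V B hXg hZ hV hB (PA842.sub w g) (supp_sub hX0.le hw hg'.2.1)
      (fun n => hwV _) d hd (h g hg d hd hdT)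
    refine h2.trans ?_
    set N : ℝ := X / nm g / nm d with hN
    have hN0 : 0 ≤ N := by positivity
    have hNX : N ≤ X := (div_le_self (by positivity) hd1).trans hXgX
    have e1 : (X / nm g * Z) ^ (ε / 2) ≤ (X * Z) ^ (ε / 2) :=
      Real.rpow_le_rpow (by positivity) (by gcongr) (by positivity)
    have e2 : V ^ 2 * N * (Z + N) + V * Real.sqrt B * (Z * N) ≤
        (V ^ 2 + V * Real.sqrt B) * (X + Z) * N := by
      have h3 : V ^ 2 * N * (Z + N) ≤ V ^ 2 * N * (Z + X) := by gcongr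
      have h4 : V * Real.sqrt B * (Z * N) ≤ V * Real.sqrt B * ((X + Z) * N) := by
        gcongr
        linarith
      linarith
    calc C6 * (X / nm g * Z) ^ (ε / 2) * (V ^ 2 * N * (Z + N) + V * Real.sqrt B * (Z * N))
        ≤ C6 * (X * Z) ^ (ε / 2) * ((V ^ 2 + V * Real.sqrt B) * (X + Z) * N) := by
          gcongr
      _ = _ := by ring
  · have e3 : X ^ (ε / 2) ≤ (X * Z) ^ (ε / 2) := Real.rpow_le_rpow hX0.le hXXZ (by positivity)
    have e4 : (X * Z) ^ ε = (X * Z) ^ (ε / 2) * (X * Z) ^ (ε / 2) := by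
      rw [← Real.rpow_add hXZ0]; congr 1; ring
    rw [e4]
    have hC6' : C6 ≤ C6 + 1 := by linarith
    have h0 : 0 ≤ V ^ 2 + V * Real.sqrt B := by positivity
    calc C1 * X ^ (ε / 2) * (C6 * (X * Z) ^ (ε / 2) * (V ^ 2 + V * Real.sqrt B) * (X * (X + Z)))
        ≤ C1 * (X * Z) ^ (ε / 2) *
          ((C6 + 1) * (X * Z) ^ (ε / 2) * (V ^ 2 + V * Real.sqrt B) * (X * (X + Z))) := by gcongr
      _ = _ := by ring

set_option maxHeartbeats 1600000 in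
/-- **the iterated (P_ex), cross terms bounded** -/
theorem PE_of_HS (hX6 : X6Stmt) {σ ε : ℝ} (hσ : 0 < σ) (hσ1 : σ ≤ 1 / 2) (hε : 0 < ε) {M : ℕ}
    (hM : 1 ≤ M) : ∃ C : ℝ, 0 < C ∧ ∀ (X Z V B : ℝ) (w : Eis → ℂ), 1 ≤ X → 1 ≤ Z → 0 ≤ V → 0 ≤ B →
    Supp w X → (∀ n, ‖w n‖ ≤ V) →
    (∀ g ∈ S X, ∀ d ∈ S (X / nm g), (nm d : ℝ) ≤ X ^ ε → HS (PA842.sub w g) (X / nm g) Z d B) →
    PX764.Vnc X Z w ≤ C * (X * Z) ^ (3 * ε) * ((V ^ 2 + V * Real.sqrt B) * (X * (X + Z)) +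
      X ^ (3 * σ) * ∑ g ∈ S X, PX764.DDR M σ (X / nm g) Z (X ^ ε) ε (PA842.sub w g)) := by
  obtain ⟨C1, hC1, h1⟩ := PX764.iterEx hσ hσ1 hε hM
  obtain ⟨C2, hC2, h2⟩ := CRX_of_HS hX6 hε
  obtain ⟨K, hK, hLL⟩ := LS448.LL_le (ε := ε) hε
  have hC10 : 0 < C1 := by linarith
  refine ⟨C1 * (K + 1 + C2), by positivity, fun X Z V B w hX hZ hV hB hw hwV h => ?_⟩
  have hX0 : 0 < X := by linarith
  have hZ0 : 0 < Z := by linarith
  have hXZ1 : 1 ≤ X * Z := one_le_mul_of_one_le_of_one_le hX hZ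
  have hXXZ : X ≤ X * Z := le_mul_of_one_le_right hX0.le hZ
  have hXZ0 : 0 < X * Z := by positivity
  have hmain := h1 X Z hX hZ w hw
  have hcr := h2 X Z (X ^ ε) V B w hX hZ hV hB hw hwV h
  have hDD : 0 ≤ ∑ g ∈ S X, PX764.DDR M σ (X / nm g) Z (X ^ ε) ε (PA842.sub w g) :=
    Finset.sum_nonneg fun g _ => PX764.DDR_nonneg _ _ _ hZ0.le _ _ _
  have hcr0 : 0 ≤ Z * ∑ g ∈ S X, PX764.CRX (X / nm g) Z (X ^ ε) (PA842.sub w g) :=
    mul_nonneg hZ0.le (Finset.sum_nonneg fun g _ => PX764.CRX_nonneg _ _ _ _)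
  have hsq : ∑ h ∈ S X, ‖w h‖ ^ 2 ≤ K * (X * Z) ^ ε * (V ^ 2 * X) := by
    have h3 : ∀ n ∈ S X, ‖w n‖ ^ 2 ≤ V ^ 2 := fun n _ => pow_le_pow_left₀ (norm_nonneg _) (hwV n) 2
    have hcard : ((S X).card : ℝ) ≤ X * (K * X ^ ε) := by
      have h5 : S X ⊆ LS448.nz X := by
        intro a ha
        have ha' := (mem_S hX0.le).1 ha
        rw [LS448.mem_nz]
        exact ⟨ha'.2.1.ne_zero, ha'.1⟩
      calc ((S X).card : ℝ) ≤ ((LS448.nz X).card : ℝ) := by exact_mod_cast Finset.card_le_card h5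
        _ ≤ X * LS448.LL X := LS448.card_nz_le X
        _ ≤ X * (K * X ^ ε) := by gcongr; exact hLL X hX
    refine (Finset.sum_le_sum h3).trans ?_
    rw [Finset.sum_const, nsmul_eq_mul]
    calc ((S X).card : ℝ) * V ^ 2 ≤ (X * (K * (X * Z) ^ ε)) * V ^ 2 := by
          refine mul_le_mul_of_nonneg_right (hcard.trans ?_) (by positivity)
          gcongr
      _ = _ := by ring
  set DDs : ℝ := ∑ g ∈ S X, PX764.DDR M σ (X / nm g) Z (X ^ ε) ε (PA842.sub w g) with hDDs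
  set Q : ℝ := (V ^ 2 + V * Real.sqrt B) * (X * (X + Z)) with hQ
  have hsB0 : 0 ≤ Real.sqrt B := Real.sqrt_nonneg _
  have hQ0 : 0 ≤ Q := by positivity
  have hX3 : 0 ≤ X ^ (3 * σ) := by positivity
  have e1 : X ^ ε ≤ (X * Z) ^ ε := Real.rpow_le_rpow hX0.le hXXZ hε.le
  have e3 : (X * Z) ^ (3 * ε) = (X * Z) ^ ε * ((X * Z) ^ ε * (X * Z) ^ ε) := by
    rw [← Real.rpow_add hXZ0, ← Real.rpow_add hXZ0]; congr 1; ring
  have p1 : 1 ≤ (X * Z) ^ ε := Real.one_le_rpow hXZ1 hε.le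
  set P : ℝ := (X * Z) ^ ε with hP
  have t1 : P * (X + Z) * ∑ h ∈ S X, ‖w h‖ ^ 2 ≤ K * (P * P * Q) := by
    have h3 : V ^ 2 * X * (X + Z) ≤ Q := by
      rw [hQ]
      have h4 : 0 ≤ V * Real.sqrt B * (X * (X + Z)) := by positivity
      nlinarith
    calc P * (X + Z) * ∑ h ∈ S X, ‖w h‖ ^ 2
        ≤ P * (X + Z) * (K * P * (V ^ 2 * X)) := by gcongr
      _ = K * (P * P * (V ^ 2 * X * (X + Z))) := by ring
      _ ≤ K * (P * P * Q) := by gcongr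
  have t3 : Z * ∑ g ∈ S X, PX764.CRX (X / nm g) Z (X ^ ε) (PA842.sub w g) ≤ C2 * (P * P * Q) := by
    refine hcr.trans ?_
    have h3 : P ≤ P * P := le_mul_of_one_le_left (by linarith) p1
    calc C2 * P * Q = C2 * (P * Q) := by ring
      _ ≤ C2 * (P * P * Q) := by gcongr
  clear_value DDs Q
  have hT0 : 0 ≤ X ^ (3 * σ) * DDs := mul_nonneg hX3 hDD
  have hPP : 1 ≤ P * P := one_le_mul_of_one_le_of_one_le p1 p1
  have t2 : X ^ (3 * σ) * DDs ≤ P * P * (X ^ (3 * σ) * DDs) := le_mul_of_one_le_left hT0 hPP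
  calc PX764.Vnc X Z w ≤ C1 * X ^ ε * (P * (X + Z) * ∑ h ∈ S X, ‖w h‖ ^ 2 +
        X ^ (3 * σ) * DDs +
        Z * ∑ g ∈ S X, PX764.CRX (X / nm g) Z (X ^ ε) (PA842.sub w g)) := hmain
    _ ≤ C1 * P * (K * (P * P * Q) + P * P * (X ^ (3 * σ) * DDs) + C2 * (P * P * Q)) := by
        have hA : 0 ≤ P * (X + Z) * ∑ h ∈ S X, ‖w h‖ ^ 2 :=
          mul_nonneg (by positivity) (Finset.sum_nonneg fun _ _ => by positivity)
        gcongr
    _ ≤ C1 * P * ((K + 1 + C2) * (P * P * (Q + X ^ (3 * σ) * DDs))) := by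
        refine mul_le_mul_of_nonneg_left ?_ (by positivity)
        have a2 : 0 ≤ P * P * (X ^ (3 * σ) * DDs) := mul_nonneg (by positivity) hT0
        have a1 : 0 ≤ P * P * Q := by positivity
        have a4 := mul_nonneg hK.le a2
        have a5 := mul_nonneg hC2.le a2
        generalize X ^ (3 * σ) * DDs = T at a2 a4 a5 ⊢
        have e : (K + 1 + C2) * (P * P * (Q + T)) - (K * (P * P * Q) + P * P * T +
            C2 * (P * P * Q)) = P * P * Q + K * (P * P * T) + C2 * (P * P * T) := by ring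
        linarith
    _ = _ := by rw [e3]; ring

/-- **cross terms of (P'_ex), all levels** -/
theorem KCr_of_bound {ε : ℝ} (hε : 0 < ε) : ∃ C : ℝ, 0 < C ∧ ∀ (X L Y A : ℝ) (w : Eis → ℂ),
    1 ≤ X → 0 ≤ L → 1 ≤ Y → 0 ≤ A →
    (∀ g ∈ S X, ∀ d ∈ S (X / nm g), (nm d : ℝ) ≤ Y →
      ‖CrossT (X / nm g) L g (PA842.sub w g) d‖ ≤ A * (X / nm g * (X + L))) →
    KCr X L Y w ≤ C * X ^ ε * Y ^ (1 + ε) * (A * (X * (X + L))) := by
  obtain ⟨K, hK, hLL⟩ := LS448.LL_le (ε := ε) hε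
  refine ⟨K * K, by positivity, fun X L Y A w hX hL hY hA h => ?_⟩
  have hX0 : 0 < X := by linarith
  have hY0 : 0 < Y := by linarith
  have hcard : ((S Y).card : ℝ) ≤ Y * (K * Y ^ ε) := by
    have h5 : S Y ⊆ LS448.nz Y := by
      intro a ha
      have ha' := (mem_S hY0.le).1 ha
      rw [LS448.mem_nz]
      exact ⟨ha'.2.1.ne_zero, ha'.1⟩
    calc ((S Y).card : ℝ) ≤ ((LS448.nz Y).card : ℝ) := by exact_mod_cast Finset.card_le_card h5
      _ ≤ Y * LS448.LL Y := LS448.card_nz_le Y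
      _ ≤ Y * (K * Y ^ ε) := by gcongr; exact hLL Y hY
  have h1 : KCr X L Y w ≤ ∑ g ∈ S X, (Y * (K * Y ^ ε)) * (A * (X * (X + L)) * (nm g : ℝ)⁻¹) := by
    unfold KCr
    refine Finset.sum_le_sum fun g hg => ?_
    have hg' := (mem_S hX0.le).1 hg
    have hg0 : (0 : ℝ) < nm g := by exact_mod_cast nm_pos.mpr hg'.2.1.ne_zero
    have hg1 : (1 : ℝ) ≤ nm g := by exact_mod_cast nm_pos.mpr hg'.2.1.ne_zero
    have hXg0 : 0 ≤ X / nm g := by positivity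
    have he : A * (X / nm g * (X + L)) = A * (X * (X + L)) * (nm g : ℝ)⁻¹ := by
      rw [div_eq_mul_inv]; ring
    rw [← he]
    unfold KKT
    refine (Finset.sum_le_card_nsmul _ _ (A * (X / nm g * (X + L))) fun d hd => ?_).trans ?_
    · have hd' := Finset.mem_filter.1 hd
      exact h g hg d hd'.1 hd'.2
    · rw [nsmul_eq_mul]
      refine mul_le_mul_of_nonneg_right (le_trans ?_ hcard) (by positivity)
      have hsub : (S (X / nm g)).filter (fun d => (nm d : ℝ) ≤ Y) ⊆ S Y := by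
        intro d hd
        have hd' := Finset.mem_filter.1 hd
        exact (mem_S hY0.le).2 ⟨hd'.2, ((mem_S hXg0).1 hd'.1).2⟩
      have hc := Finset.card_le_card hsub
      have hc2 : (((S (X / nm g)).filter (fun d => (nm d : ℝ) ≤ Y)).card : ℝ) ≤
          ((S Y).card : ℝ) := by exact_mod_cast hc
      convert hc2 using 2
  refine h1.trans ?_
  rw [← Finset.mul_sum, ← Finset.mul_sum]
  have hS := sum_inv_S_le' hX hLL
  have e1 : Y ^ (1 + ε) = Y * Y ^ ε := by rw [Real.rpow_add hY0, Real.rpow_one]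
  rw [e1]
  calc Y * (K * Y ^ ε) * (A * (X * (X + L)) * ∑ g ∈ S X, (nm g : ℝ)⁻¹)
      ≤ Y * (K * Y ^ ε) * (A * (X * (X + L)) * (K * X ^ ε)) := by gcongr
    _ = _ := by ring

end Crest.Agent.R017.X6b792
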