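import Crest.Agent.R017.X6b6_792
import Crest.Agent.R017.X6c2_792
import Crest.Agent.R017.X6GE_180

/-!
# Row 17, exceptional class, X6: `HSk` and `HSG2` for convolution sides (helper792)

* `split_one` : the case distinction window / dominating lump for one frequency prefix `q'`
* `TT_of_it` : real parts of `N^s` removed, arbitrary `w` and frequencies
* `LumpIn` : the only analytic input (dominating lump)
* `HSk_of_lump`, `HSG2_of_lump`
-/

set_option autoImplicit false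
set_option linter.unusedSectionVars false

noncomputable section

open MeasureTheory Complex Filter Topology
open scoped ComplexConjugate

namespace Crest.Agent.R017.X6b792

open Crest.Agent.R012 Crest.Agent.R012.Eis Crest.Agent.R012.LS2 Crest.Agent.R012.Gauss880
open Crest.Agent.R012.Div277 (tau dvs mem_dvs tau_le_rpow)
open Crest.Agent.R012.Weight600 (osc ker norm_osc)
open Crest.Agent.R017.CM106
open Crest.Agent.R017.PA842 (Supp supp_sub)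
open Crest.Agent.R017.PX764 (th n6 Gh n6_pos n6_le_one n6_mul n6_one)
open Crest.Agent.R017.HP842
open Crest.Agent.R017.X6545 (HS TT SU HSk HSq)
open Crest.Agent.R017.X6G180 (HSG2 twS)

variable {ι : Type*} [Fintype ι] [DecidableEq ι]

/-- **the case distinction for one frequency prefix** -/
theorem split_one (ι : Type*) [Fintype ι] [DecidableEq ι] {ε : ℝ} (hε : 0 < ε) :
    ∃ C : ℝ, 0 < C ∧ ∀ (X0 X D B0 : ℝ) (Y W : ι → ℝ), 1 ≤ X → X ≤ X0 → 1 ≤ D →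
    0 ≤ B0 → (∀ i, 1 ≤ Y i) → ∏ i, Y i ≤ X0 →
    ∀ f : ι → Eis → ℂ, (∀ i, Sp (Y i) (f i)) → (∀ i m, ‖f i m‖ ≤ W i) →
    ∀ g : Eis, IsPrim g → ∏ i, Y i ≤ X * nm g →
    ∀ F : Eis → ℂ, Mulp F → (∀ m, IsPrim m → ‖F m‖ ≤ 1) →
    ∀ q0 d : Eis, IsPrim d → ∀ δ ∈ S X, ∀ (q q' : Eis) (L : ℝ), 1 ≤ L →
      L * L ≤ X / nm d / nm δ →
      (Squarefree (g * (d * δ)) → ∀ y ∈ Tu ι (g * (d * δ)), (∀ i, (nm (y i) : ℝ) ≤ Y i) →
        (∃ i, D * (L * (X / nm d / nm δ)) ^ ((2 : ℝ) / 3) < Y i / nm (y i)) →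
        ∑ x ∈ S L, ‖TG (cv (wpcF (q * (q0 * (g * (d * δ)))) f F y)) (q' * x)‖ ^ 2 ≤
          B0 * (X / nm d / nm δ) ^ ((4 : ℝ) / 3) * L ^ ((2 : ℝ) / 3)) →
      ∑ x ∈ S L, ‖TT (wg q0 g f F) X d δ q (q' * x)‖ ^ 2 ≤
        (C * X0 ^ ε * (D * (∏ i, W i) ^ 2 + B0)) * (X / nm d / nm δ) ^ ((4 : ℝ) / 3) *
          L ^ ((2 : ℝ) / 3) := by
  classical
  obtain ⟨C, hC, h⟩ := wpcF_sq ι (ε := ε / 4) (by positivity)
  obtain ⟨C', hC', h'⟩ := wseqF_red ι (ε := ε / 4) (by positivity)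
  refine ⟨(3 * C + 1) * C', by positivity, fun X0 X D B0 Y W hX hXX0 hD hB0 hY hYX0 f hs hw
    g hg hYX F hF hF1 q0 d hd δ hδ q v L hL hLL hlump' => ?_⟩
  have hδ' := (mem_S (by linarith)).1 hδ
  have hdd : IsPrim (d * δ) := hd.mul hδ'.2.1
  have hG : IsPrim (g * (d * δ)) := hg.mul hdd
  have hW : ∀ i, 0 ≤ W i := fun i => (norm_nonneg _).trans (hw i 1)
  have hWp : 0 ≤ ∏ i, W i := Finset.prod_nonneg fun i _ => hW i
  have hY0 : ∀ i, 0 < Y i := fun i => by linarith [hY i]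
  have hYp : 1 ≤ ∏ i, Y i := by
    calc (1 : ℝ) = ∏ _i : ι, (1 : ℝ) := by simp
      _ ≤ ∏ i, Y i := Finset.prod_le_prod (fun _ _ => zero_le_one) fun i _ => hY i
  set N' : ℝ := X / nm d / nm δ with hN'
  have hNg : N' = X / nm (d * δ) := by rw [hN', nm_mul]; push_cast; rw [div_div]
  have hN1 : 1 ≤ N' := by nlinarith
  have hLN : L ≤ N' ^ (2 : ℕ) := by nlinarith
  have hdd1 : (1 : ℝ) ≤ nm (d * δ) := by exact_mod_cast nm_pos.mpr hdd.ne_zero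
  have hg1 : (1 : ℝ) ≤ nm g := by exact_mod_cast nm_pos.mpr hg.ne_zero
  have hNX : N' ≤ X := by rw [hNg]; exact div_le_self (by linarith) hdd1
  have hX01 : 1 ≤ X0 := hX.trans hXX0
  set U : ℝ := (L * N') ^ ((2 : ℝ) / 3) with hU
  have hU0 : 0 ≤ U := by positivity
  have hnm : (nm (g * (d * δ)) : ℝ) = nm g * nm (d * δ) := by rw [nm_mul]; push_cast; rfl
  have hNN : (∏ i, Y i) / nm (g * (d * δ)) ≤ N' := by
    rw [hnm, hNg, div_le_div_iff₀ (by positivity) (by positivity)]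
    calc (∏ i, Y i) * (nm (d * δ) : ℝ) ≤ (X * nm g) * nm (d * δ) := by gcongr
      _ = _ := by ring
  have e3 : (L * ∏ i, Y i) ^ (ε / 4) ≤ X0 ^ (ε / 2) := by
    have hLX : L ≤ X0 := by nlinarith
    calc (L * ∏ i, Y i) ^ (ε / 4) ≤ (X0 * X0) ^ (ε / 4) :=
          Real.rpow_le_rpow (by positivity) (by gcongr) (by positivity)
      _ = X0 ^ (ε / 2) := by
          rw [Real.mul_rpow (by linarith) (by linarith), ← Real.rpow_add (by linarith)]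
          congr 1; ring
  have hXe : 1 ≤ X0 ^ (ε / 2) := Real.one_le_rpow hX01 (by positivity)
  have hNU : N' ^ ((2 : ℝ) / 3) * U = N' ^ ((4 : ℝ) / 3) * L ^ ((2 : ℝ) / 3) := by
    rw [hU, Real.mul_rpow (by linarith) (by linarith)]
    have : N' ^ ((4 : ℝ) / 3) = N' ^ ((2 : ℝ) / 3) * N' ^ ((2 : ℝ) / 3) := by
      rw [← Real.rpow_add (by linarith)]; norm_num
    rw [this]; ring
  set R : ℝ := ((3 * C + 1) * X0 ^ (ε / 2) * (D * (∏ i, W i) ^ 2 + B0)) *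
    (N' ^ ((4 : ℝ) / 3) * L ^ ((2 : ℝ) / 3)) with hR
  have hR0 : 0 ≤ R := by positivity
  have hpiece : Squarefree (g * (d * δ)) →
      ∀ y ∈ Tu ι (g * (d * δ)), (∀ i, (nm (y i) : ℝ) ≤ Y i) →
      ∑ x ∈ S L, ‖TG (cv (wpcF (q * (q0 * (g * (d * δ)))) f F y)) (v * x)‖ ^ 2 ≤ R := by
    intro hsq y hy hyY
    have hy' := mem_Tu.1 hy
    by_cases hcase : ∃ i, D * U < Y i / nm (y i)
    · refine (hlump' hsq y hy hyY hcase).trans ?_
      rw [hR, mul_assoc]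
      refine mul_le_mul_of_nonneg_right ?_ (by positivity)
      have h1 : B0 ≤ D * (∏ i, W i) ^ 2 + B0 := by
        have : 0 ≤ D * (∏ i, W i) ^ 2 := by positivity
        linarith
      calc B0 ≤ D * (∏ i, W i) ^ 2 + B0 := h1
        _ ≤ ((3 * C + 1) * X0 ^ (ε / 2)) * (D * (∏ i, W i) ^ 2 + B0) :=
            le_mul_of_one_le_left (by positivity)
              (one_le_mul_of_one_le_of_one_le (by linarith) hXe)
    · push Not at hcase
      have hy1 : ∀ i, (1 : ℝ) ≤ nm (y i) := fun i => by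
        exact_mod_cast nm_pos.mpr (hy'.1 i).ne_zero
      have hb : ∀ i, 1 ≤ Y i / nm (y i) := fun i => by
        rw [le_div_iff₀ (by linarith [hy1 i])]
        linarith [hyY i]
      have e1 : ∏ i, Y i / nm (y i) = (∏ i, Y i) / nm (g * (d * δ)) := by
        rw [Finset.prod_div_distrib, ← nm_prod, hy'.2]
      have hbN : ∏ i, Y i / nm (y i) ≤ N' := by rw [e1]; exact hNN
      obtain ⟨I, h1, h2⟩ := window_mul (fun i => Y i / nm (y i)) hb hL hN1 hD hbN hLN hcase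
      have h3 : U ≤ D * U := le_mul_of_one_le_left hU0 hD
      have hM : L * (∏ i ∈ I, Y i / nm (y i)) + (∏ i ∈ Iᶜ, Y i / nm (y i)) ≤ 2 * D * U := by
        have h1' : L * (∏ i ∈ I, Y i / nm (y i)) ≤ U := h1
        have h2' : (∏ i ∈ Iᶜ, Y i / nm (y i)) ≤ D * U := h2
        linarith
      refine (h L (2 * D * U) Y W hL f hs hw F hF1 y hy'.1 hyY I hM _ v).trans ?_
      have hb0 : 0 ≤ ∏ i, Y i / (nm (y i) : ℝ) :=
        Finset.prod_nonneg fun i _ => by linarith [hb i]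
      have e4 : (L * ∏ i, Y i / (nm (y i) : ℝ)) ^ ((2 : ℝ) / 3) ≤ U := by
        rw [hU]; exact Real.rpow_le_rpow (by positivity) (by gcongr) (by norm_num)
      have e5 : (∏ i, Y i / (nm (y i) : ℝ)) ^ ((2 : ℝ) / 3) ≤ N' ^ ((2 : ℝ) / 3) :=
        Real.rpow_le_rpow hb0 hbN (by norm_num)
      calc C * (L * ∏ i, Y i) ^ (ε / 4) * (∏ i, W i) ^ 2 *
            ((∏ i, Y i / (nm (y i) : ℝ)) ^ ((2 : ℝ) / 3) *
              (2 * D * U + (L * ∏ i, Y i / (nm (y i) : ℝ)) ^ ((2 : ℝ) / 3)))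
          ≤ C * X0 ^ (ε / 2) * (∏ i, W i) ^ 2 * (N' ^ ((2 : ℝ) / 3) * (2 * D * U + D * U)) := by
            gcongr
            exact e4.trans h3
        _ = (3 * C * X0 ^ (ε / 2) * (D * (∏ i, W i) ^ 2)) * (N' ^ ((2 : ℝ) / 3) * U) := by ring
        _ = (3 * C * X0 ^ (ε / 2) * (D * (∏ i, W i) ^ 2)) *
              (N' ^ ((4 : ℝ) / 3) * L ^ ((2 : ℝ) / 3)) := by rw [hNU]
        _ ≤ R := by
            rw [hR]
            have h6 : D * (∏ i, W i) ^ 2 ≤ D * (∏ i, W i) ^ 2 + B0 := by linarith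
            gcongr
            linarith
  have e : ∀ x, ‖TT (wg q0 g f F) X d δ q (v * x)‖ ^ 2 ≤
      ‖TG (wseqF q0 (g * (d * δ)) q f F) (v * x)‖ ^ 2 := by
    intro x
    rw [TT_eqF (fun i => (hY0 i).le) hs hg hYX hF q0 hd hδ'.2.1 q _, norm_mul]
    refine pow_le_pow_left₀ (by positivity) ?_ 2
    exact mul_le_of_le_one_left (norm_nonneg _) (hF1 _ hdd)
  refine (Finset.sum_le_sum fun x _ => e x).trans ?_
  by_cases hsq : Squarefree (g * (d * δ))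
  swap
  · have e0 : ∀ x, TG (wseqF q0 (g * (d * δ)) q f F) (v * x) = 0 := by
      intro x
      unfold TG
      rw [← tsum_zero]
      refine tsum_congr fun m => ?_
      rw [wseqF_zero (fun hc => hsq hc.1), zero_mul]
    simp only [e0, norm_zero, ne_eq, OfNat.ofNat_ne_zero, not_false_eq_true, zero_pow,
      Finset.sum_const_zero]
    positivity
  refine (h' L R Y hL hR0 hY f hs (g * (d * δ)) hG F hF q0 q v (hpiece hsq)).trans ?_
  calc C' * (L * ∏ i, Y i) ^ (ε / 4) * R ≤ C' * X0 ^ (ε / 2) * R := by gcongr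
    _ = (3 * C + 1) * C' * (X0 ^ (ε / 2) * X0 ^ (ε / 2)) * (D * (∏ i, W i) ^ 2 + B0) *
          N' ^ ((4 : ℝ) / 3) * L ^ ((2 : ℝ) / 3) := by rw [hR]; ring
    _ = _ := by
        rw [← Real.rpow_add (by linarith)]
        congr 4
        congr 1
        ring

/-! ### the real part of `s` -/

lemma sy_one_conj {X : ℝ} (hX : 0 ≤ X) {w : Eis → ℂ} (hw : Supp w X) (s : ℂ) (n : Eis) :
    twS 1 s w n = w n * (nm n : ℂ) ^ s := by
  unfold twS
  by_cases h : w n = 0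
  · rw [h]; simp
  · have hn := (mem_S hX).1 (hw n h)
    rw [sy_one_left syG hn.2.1]
    simp

open Classical in
/-- **the real part of the twist costs `(1 + log X)²` only** (arbitrary frequencies) -/
theorem TT_of_it (Ak : ℕ) : ∃ C : ℝ, 0 ≤ C ∧ ∀ (w : Eis → ℂ) (X M : ℝ) (d δ q v : Eis)
    (T : Finset Eis), 1 ≤ X → 0 ≤ M → Supp w X →
    (∀ τ : ℝ, ∑ x ∈ T, ‖TT (fun n => w n * (nm n : ℂ) ^ ((τ : ℂ) * I)) X d δ q (v * x)‖ ^ 2 ≤
      M * (1 + |τ|) ^ Ak) →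
    ∀ s : ℂ, 0 ≤ s.re → s.re ≤ 4 →
      ∑ x ∈ T, ‖TT (fun n => w n * (nm n : ℂ) ^ s) X d δ q (v * x)‖ ^ 2 ≤
        C * (1 + Real.log X) ^ 2 * X ^ (2 * s.re) * (1 + |s.im|) ^ Ak * M := by
  obtain ⟨D, hD, h⟩ := exp_sep (Ak + 2)
  refine ⟨(3 * D * Crest.Agent.R017.E2440.c2) ^ 2, by positivity,
    fun w X M d δ q v T hX hM0 hw hh s hs0 hs4 => ?_⟩
  have hX0 : 0 < X := by linarith
  have hlog : 0 ≤ Real.log X := Real.log_nonneg hX
  set J : ℕ := ⌈Real.log X⌉₊ with hJ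
  have hJ1 : Real.log X ≤ J := Nat.le_ceil _
  have hJ2 : (J : ℝ) + 2 ≤ 3 * (1 + Real.log X) := by
    have := Nat.ceil_lt_add_one hlog
    linarith
  obtain ⟨K, hKc, hKi, hKd, hK⟩ := h s.re hs0 hs4 J
  have hK' : ∀ u : ℝ, 0 ≤ u → u ≤ Real.log X →
      ((Real.exp (-s.re * u) : ℝ) : ℂ) = ∫ t, K t * osc t u := fun u h0 hu => hK u h0 (hu.trans hJ1)
  have hfs : ∀ s : ℂ, (fun n => w n * (nm n : ℂ) ^ s) = twS 1 s w := fun s =>
    funext fun n => (sy_one_conj hX0.le hw s n).symm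
  simp_rw [hfs] at hh ⊢
  set R : ℝ := X ^ s.re * (D * (J + 2)) * Real.sqrt (M * (1 + |s.im|) ^ Ak) with hR
  have hR0 : 0 ≤ R := by positivity
  have hmain := TIf645.l2_integral T (fun t x => ((X ^ s.re : ℝ) : ℂ) * (K t *
      (osc t (Real.log X) * TT (twS 1 (((s.im - t : ℝ) : ℂ) * I) w) X d δ q (v * x))))
    (fun t => R * ((1 + |t|) ^ 2)⁻¹) ?_ (Crest.Agent.R017.E2440.integrable_inv2.const_mul R) ?_
    (fun t => by positivity)
  · have e1 : ∀ x ∈ T, ‖TT (twS 1 s w) X d δ q (v * x)‖ ^ 2 =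
        ‖∫ t, ((X ^ s.re : ℝ) : ℂ) * (K t * (osc t (Real.log X) *
          TT (twS 1 (((s.im - t : ℝ) : ℂ) * I) w) X d δ q (v * x)))‖ ^ 2 := by
      intro x _
      rw [← TT_int hX hw 1 s hKi hK']
    rw [Finset.sum_congr rfl e1]
    refine hmain.trans ?_
    rw [integral_const_mul]
    change (R * Crest.Agent.R017.E2440.c2) ^ 2 ≤ _
    have hc := Crest.Agent.R017.E2440.c2_nonneg
    have e2 : (R * Crest.Agent.R017.E2440.c2) ^ 2 =
        (D * (J + 2) * Crest.Agent.R017.E2440.c2) ^ 2 * (X ^ s.re) ^ 2 *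
          (M * (1 + |s.im|) ^ Ak) := by
      rw [hR, mul_pow, mul_pow, mul_pow, Real.sq_sqrt (by positivity)]
      ring
    have e3 : (X ^ s.re) ^ 2 = X ^ (2 * s.re) := by
      rw [← Real.rpow_natCast (X ^ s.re), ← Real.rpow_mul hX0.le]
      congr 1
      push_cast
      ring
    rw [e2, e3]
    have e4 : (D * (J + 2) * Crest.Agent.R017.E2440.c2) ^ 2 ≤
        (3 * D * Crest.Agent.R017.E2440.c2) ^ 2 * (1 + Real.log X) ^ 2 := by
      rw [← mul_pow]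
      refine pow_le_pow_left₀ (by positivity) ?_ 2
      calc D * (J + 2) * Crest.Agent.R017.E2440.c2 ≤
          D * (3 * (1 + Real.log X)) * Crest.Agent.R017.E2440.c2 := by gcongr
        _ = _ := by ring
    calc (D * (J + 2) * Crest.Agent.R017.E2440.c2) ^ 2 * X ^ (2 * s.re) *
          (M * (1 + |s.im|) ^ Ak)
        ≤ ((3 * D * Crest.Agent.R017.E2440.c2) ^ 2 * (1 + Real.log X) ^ 2) * X ^ (2 * s.re) *
          (M * (1 + |s.im|) ^ Ak) := by gcongr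
      _ = _ := by ring
  · intro x _
    have e1 : (fun t => ((X ^ s.re : ℝ) : ℂ) * (K t * (osc t (Real.log X) *
        TT (twS 1 (((s.im - t : ℝ) : ℂ) * I) w) X d δ q (v * x)))) = fun t =>
        ((X ^ s.re : ℝ) : ℂ) * ∑ m ∈ S X, if IsCoprime m q then
          ((w (d * δ * m) * conj (sy 1 (d * δ * m)) * osc s.im (Real.log (nm (d * δ * m)))) *
            ((n6 m : ℂ) * Gh (v * x) m)) *
              (K t * osc t (Real.log X - Real.log (nm (d * δ * m)))) else 0 := by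
      funext t
      congr 1
      unfold TT
      rw [Finset.mul_sum, Finset.mul_sum]
      refine Finset.sum_congr rfl fun m _ => ?_
      split_ifs
      · have := twS_split hX hw 1 s.im t (d * δ * m)
        calc K t * (osc t (Real.log X) * (twS 1 (((s.im - t : ℝ) : ℂ) * I) w (d * δ * m) *
              (n6 m : ℂ) * Gh (v * x) m)) =
            K t * ((osc t (Real.log X) * twS 1 (((s.im - t : ℝ) : ℂ) * I) w (d * δ * m)) *
              ((n6 m : ℂ) * Gh (v * x) m)) := by ring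
          _ = _ := by rw [this]; ring
      · simp
    rw [e1]
    refine (integrable_finsetSum _ fun m _ => ?_).const_mul _
    split_ifs
    · exact (Weight600.integrable_mul_osc hKi _).const_mul _
    · exact integrable_zero _ _ _
  · intro t
    have e1 : ∀ x ∈ T, ‖((X ^ s.re : ℝ) : ℂ) * (K t * (osc t (Real.log X) *
        TT (twS 1 (((s.im - t : ℝ) : ℂ) * I) w) X d δ q (v * x)))‖ ^ 2 =
        (X ^ s.re * ‖K t‖) ^ 2 *
          ‖TT (twS 1 (((s.im - t : ℝ) : ℂ) * I) w) X d δ q (v * x)‖ ^ 2 := by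
      intro x _
      rw [norm_mul, norm_mul, norm_mul, norm_osc, Complex.norm_real, Real.norm_eq_abs,
        abs_of_nonneg (by positivity)]
      ring
    rw [Finset.sum_congr rfl e1, ← Finset.mul_sum]
    have h3 := hh (s.im - t)
    have hKt : ‖K t‖ ≤ D * (J + 2) * ((1 + |t|) ^ (Ak + 2))⁻¹ := by
      rw [← div_eq_mul_inv, le_div_iff₀ (by positivity)]
      exact hKd t
    have h4 : (1 + |s.im - t|) ^ Ak ≤ (1 + |s.im|) ^ Ak * (1 + |t|) ^ Ak := by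
      rw [← mul_pow]
      refine pow_le_pow_left₀ (by positivity) ?_ _
      have := abs_sub s.im t
      nlinarith [abs_nonneg s.im, abs_nonneg t, mul_nonneg (abs_nonneg s.im) (abs_nonneg t)]
    have h5 : ∑ x ∈ T, ‖TT (twS 1 (((s.im - t : ℝ) : ℂ) * I) w) X d δ q (v * x)‖ ^ 2 ≤
        M * ((1 + |s.im|) ^ Ak * (1 + |t|) ^ Ak) :=
      h3.trans (mul_le_mul_of_nonneg_left h4 hM0)
    have ht0 : (1 : ℝ) ≤ 1 + |t| := by linarith [abs_nonneg t]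
    have h6 : (1 + |t|) ^ Ak ≤ ((1 + |t|) ^ Ak) ^ 2 := by
      have : (1 : ℝ) ≤ (1 + |t|) ^ Ak := one_le_pow₀ ht0
      nlinarith
    calc (X ^ s.re * ‖K t‖) ^ 2 *
          ∑ x ∈ T, ‖TT (twS 1 (((s.im - t : ℝ) : ℂ) * I) w) X d δ q (v * x)‖ ^ 2
        ≤ (X ^ s.re * (D * (J + 2) * ((1 + |t|) ^ (Ak + 2))⁻¹)) ^ 2 *
          (M * ((1 + |s.im|) ^ Ak * ((1 + |t|) ^ Ak) ^ 2)) := by
          refine mul_le_mul ?_ (h5.trans ?_) (Finset.sum_nonneg fun _ _ => by positivity)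
            (by positivity)
          · gcongr
          · gcongr
      _ = (R * ((1 + |t|) ^ 2)⁻¹) ^ 2 := by
          rw [hR, mul_pow, mul_pow, mul_pow, mul_pow, mul_pow, mul_pow,
            Real.sq_sqrt (by positivity), pow_add]
          field_simp

/-! ### the interface for convolution sides -/

/-- imaginary powers of the norm -/
def nmt (τ : ℝ) (m : Eis) : ℂ := (nm m : ℂ) ^ ((τ : ℂ) * I)

lemma norm_nmt {m : Eis} (hm : m ≠ 0) (τ : ℝ) : ‖nmt τ m‖ = 1 := by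
  unfold nmt
  rw [X6G180.norm_nm_cpow hm]
  simp

lemma mulp_nmt (τ : ℝ) : Mulp (nmt τ) := by
  refine ⟨?_, fun a b ha hb => ?_⟩
  · unfold nmt; rw [nm_one]; simp
  · unfold nmt
    rw [nm_mul]
    push_cast
    exact Complex.natCast_mul_natCast_cpow _ _ _

/-- **the input**: one dominating lump, i.e. some shortened piece is longer than `D (L N')^(2/3)` -/
def LumpIn (A : ℕ) (κ B D X : ℝ) (g q0 d : Eis) (Y : ι → ℝ) (f : ι → Eis → ℂ) : Prop :=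
  ∀ δ ∈ S X, Squarefree (g * (d * δ)) → ∀ q v γ : Eis, q ≠ 0 → SU v → γ ∈ dvs (g * d) →
    ∀ (τ L : ℝ), 1 ≤ L → L * L ≤ X / nm d / nm δ →
    ∀ y ∈ Tu ι (g * (d * δ)), (∀ i, (nm (y i) : ℝ) ≤ Y i) →
    (∃ i, D * (L * (X / nm d / nm δ)) ^ ((2 : ℝ) / 3) < Y i / nm (y i)) →
    ∑ x ∈ S L, ‖TG (cv (wpcF (q * (q0 * (g * (d * δ)))) f (nmt τ) y)) (v * γ * x)‖ ^ 2 ≤
      (B * nm γ * (1 + |τ|) ^ A * (nm q : ℝ) ^ κ) * (X / nm d / nm δ) ^ ((4 : ℝ) / 3) *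
        L ^ ((2 : ℝ) / 3)

/-- **both second moments of a convolution side**, from the dominating lump input -/
theorem TT_of_lump (ι : Type*) [Fintype ι] [DecidableEq ι] {ε : ℝ} (hε : 0 < ε) (A : ℕ) :
    ∃ C : ℝ, 0 < C ∧ ∀ (X0 X D B κ : ℝ) (Y W : ι → ℝ), 1 ≤ X → X ≤ X0 → 1 ≤ D →
    0 ≤ B → 0 ≤ κ → (∀ i, 1 ≤ Y i) → ∏ i, Y i ≤ X0 →
    ∀ f : ι → Eis → ℂ, (∀ i, Sp (Y i) (f i)) → (∀ i m, ‖f i m‖ ≤ W i) →
    ∀ g : Eis, IsPrim g → ∏ i, Y i ≤ X * nm g → ∀ q0 d : Eis, IsPrim d →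
    LumpIn A κ B D X g q0 d Y f →
    ∀ δ ∈ S X, ∀ q v γ : Eis, q ≠ 0 → SU v → γ ∈ dvs (g * d) → ∀ (τ L : ℝ), 1 ≤ L →
      L * L ≤ X / nm d / nm δ →
      ∑ x ∈ S L, ‖TT (fun n => PA842.sub (sqc q0 (cv f)) g n * (nm n : ℂ) ^ ((τ : ℂ) * I))
        X d δ q (v * γ * x)‖ ^ 2 ≤
      (C * X0 ^ ε * (D * (∏ i, W i) ^ 2 + B)) * (nm γ * (1 + |τ|) ^ A * (nm q : ℝ) ^ κ) *
        ((X / nm d / nm δ) ^ ((4 : ℝ) / 3) * L ^ ((2 : ℝ) / 3)) := by
  obtain ⟨C, hC, h⟩ := split_one ι hε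
  refine ⟨C, hC, fun X0 X D B κ Y W hX hXX0 hD hB hκ hY hYX0 f hs hw g hg hYX q0 d hd hl δ hδ q
    v γ hq hv hγ τ L hL hLL => ?_⟩
  have hX0 : 0 < X := by linarith
  have hX00 : 0 < X0 := by linarith
  have hL0 : 0 < L := by linarith
  have hG : g * d ≠ 0 := mul_ne_zero hg.ne_zero hd.ne_zero
  have hγ1 : (1 : ℝ) ≤ nm γ := by
    have h1 := (mem_dvs hG).1 hγ
    exact_mod_cast nm_pos.mpr (show γ ≠ 0 from h1.1.ne_zero)
  have hq1 : (1 : ℝ) ≤ (nm q : ℝ) ^ κ :=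
    Real.one_le_rpow (by exact_mod_cast nm_pos.mpr hq) hκ
  have hτ1 : (1 : ℝ) ≤ (1 + |τ|) ^ A := one_le_pow₀ (by linarith [abs_nonneg τ])
  set P : ℝ := nm γ * (1 + |τ|) ^ A * (nm q : ℝ) ^ κ with hP
  have hP1 : 1 ≤ P := one_le_mul_of_one_le_of_one_le (one_le_mul_of_one_le_of_one_le hγ1 hτ1) hq1
  have h1 := h X0 X D (B * P) Y W hX hXX0 hD (by positivity) hY hYX0 f hs hw g hg hYX (nmt τ)
    (mulp_nmt τ) (fun m hm => (norm_nmt hm.ne_zero τ).le) q0 d hd δ hδ q (v * γ) L hL hLL ?_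
  · have e : wg q0 g f (nmt τ) =
        fun n => PA842.sub (sqc q0 (cv f)) g n * (nm n : ℂ) ^ ((τ : ℂ) * I) := rfl
    rw [e] at h1
    refine h1.trans ?_
    rw [mul_assoc]
    refine mul_le_mul_of_nonneg_right ?_ (by positivity)
    have h2 : D * (∏ i, W i) ^ 2 + B * P ≤ (D * (∏ i, W i) ^ 2 + B) * P := by
      have : D * (∏ i, W i) ^ 2 ≤ D * (∏ i, W i) ^ 2 * P :=
        le_mul_of_one_le_right (by positivity) hP1
      linarith
    calc C * X0 ^ ε * (D * (∏ i, W i) ^ 2 + B * P)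
        ≤ C * X0 ^ ε * ((D * (∏ i, W i) ^ 2 + B) * P) :=
          mul_le_mul_of_nonneg_left h2 (by positivity)
      _ = _ := by ring
  · intro hsq y hy hyY hex
    refine (hl δ hδ hsq q v γ hq hv hγ τ L hL hLL y hy hyY hex).trans (le_of_eq ?_)
    rw [hP]; ring

/-- **`HSk` for a convolution side** -/
theorem HSk_of_lump (ι : Type*) [Fintype ι] [DecidableEq ι] {ε : ℝ} (hε : 0 < ε) (A : ℕ) :
    ∃ C : ℝ, 0 < C ∧ ∀ (X0 X Z D B κ : ℝ) (Y W : ι → ℝ), 1 ≤ X → X ≤ X0 → 1 ≤ D →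
    0 ≤ B → 0 ≤ κ → (∀ i, 1 ≤ Y i) → ∏ i, Y i ≤ X0 →
    ∀ f : ι → Eis → ℂ, (∀ i, Sp (Y i) (f i)) → (∀ i m, ‖f i m‖ ≤ W i) →
    ∀ g : Eis, IsPrim g → ∏ i, Y i ≤ X * nm g → ∀ q0 d : Eis, IsPrim d →
    LumpIn A κ B D X g q0 d Y f →
    HSk (PA842.sub (sqc q0 (cv f)) g) X Z d (C * X0 ^ ε * (D * (∏ i, W i) ^ 2 + B)) κ := by
  obtain ⟨C, hC, h⟩ := TT_of_lump ι hε A
  refine ⟨C, hC, fun X0 X Z D B κ Y W hX hXX0 hD hB hκ hY hYX0 f hs hw g hg hYX q0 d hd hl q hq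
    δ v hδ hv L hL _ hLL => ?_⟩
  have h1 := h X0 X D B κ Y W hX hXX0 hD hB hκ hY hYX0 f hs hw g hg hYX q0 d hd hl δ hδ q v 1 hq
    hv ((mem_dvs (mul_ne_zero hg.ne_zero hd.ne_zero)).2 ⟨isPrim_one, one_dvd _⟩) 0 L hL hLL
  simp only [Complex.ofReal_zero, zero_mul, Complex.cpow_zero, mul_one, abs_zero, add_zero,
    one_pow, nm_one, Nat.cast_one, one_mul] at h1
  refine h1.trans (le_of_eq ?_)
  ring

/-- **`HSG2` for a convolution side** -/
theorem HSG2_of_lump (ι : Type*) [Fintype ι] [DecidableEq ι] {ε : ℝ} (hε : 0 < ε) (A : ℕ) :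
    ∃ C : ℝ, 0 < C ∧ ∀ (X0 X D B κ : ℝ) (Y W : ι → ℝ), 1 ≤ X → X ≤ X0 → 1 ≤ D →
    0 ≤ B → 0 ≤ κ → (∀ i, 1 ≤ Y i) → ∏ i, Y i ≤ X0 →
    ∀ f : ι → Eis → ℂ, (∀ i, Sp (Y i) (f i)) → (∀ i m, ‖f i m‖ ≤ W i) →
    ∀ g : Eis, IsPrim g → ∏ i, Y i ≤ X * nm g → ∀ q0 d : Eis, IsPrim d →
    LumpIn A κ B D X g q0 d Y f →
    HSG2 A κ (PA842.sub (sqc q0 (cv f)) g) X d (g * d)
      (C * X0 ^ ε * (D * (∏ i, W i) ^ 2 + B)) := by
  classical
  obtain ⟨C, hC, h⟩ := TT_of_lump ι (ε := ε / 2) (by positivity) A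
  obtain ⟨C1, hC1, h1⟩ := TT_of_it A
  have hlog : ∃ K : ℝ, 0 < K ∧ ∀ X : ℝ, 1 ≤ X → (1 + Real.log X) ^ 2 ≤ K * X ^ (ε / 2) := by
    refine ⟨(1 + 4 / ε) ^ 2, by positivity, fun X hX => ?_⟩
    have hX0 : 0 < X := by linarith
    have h2 : Real.log X ≤ X ^ (ε / 4) / (ε / 4) := Real.log_le_rpow_div hX0.le (by positivity)
    have h3 : (1 : ℝ) ≤ X ^ (ε / 4) := Real.one_le_rpow hX (by positivity)
    have h4 : 1 + Real.log X ≤ (1 + 4 / ε) * X ^ (ε / 4) := by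
      have e : X ^ (ε / 4) / (ε / 4) = 4 / ε * X ^ (ε / 4) := by field_simp
      rw [e] at h2
      linarith
    have h5 : X ^ (ε / 2) = (X ^ (ε / 4)) ^ 2 := by
      rw [← Real.rpow_natCast, ← Real.rpow_mul hX0.le]
      congr 1; push_cast; ring
    rw [h5, ← mul_pow]
    exact pow_le_pow_left₀ (by linarith [Real.log_nonneg hX]) h4 2
  obtain ⟨K, hK, hKX⟩ := hlog
  refine ⟨(C1 + 1) * K * C, by positivity, fun X0 X D B κ Y W hX hXX0 hD hB hκ hY hYX0 f hs hw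
    g hg hYX q0 d hd hl γ hγ s hs0 hs4 q hq δ v hδ hv L hL hLL => ?_⟩
  have hX0 : 0 < X := by linarith
  have hX00 : 0 < X0 := by linarith
  have hg0 : (0 : ℝ) < nm g := by exact_mod_cast nm_pos.mpr hg.ne_zero
  have hY0 : ∀ i, 0 < Y i := fun i => by linarith [hY i]
  have hW : ∀ i, 0 ≤ W i := fun i => (norm_nonneg _).trans (hw i 1)
  have hWp : 0 ≤ ∏ i, W i := Finset.prod_nonneg fun i _ => hW i
  have hSupp : Supp (PA842.sub (sqc q0 (cv f)) g) X := by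
    have h2 := supp_sub (by positivity) (supp_sqc (fun i => (hY0 i).le) hs hYX q0) hg
    rwa [mul_div_assoc, div_self hg0.ne', mul_one] at h2
  set N' : ℝ := X / nm d / nm δ with hN'
  have hN0 : 0 ≤ N' := by positivity
  set E : ℝ := (C * X0 ^ (ε / 2) * (D * (∏ i, W i) ^ 2 + B)) with hE
  have hE0 : 0 ≤ E := by positivity
  have h2 := h1 (PA842.sub (sqc q0 (cv f)) g) X
    (E * (nm γ * (nm q : ℝ) ^ κ) * (N' ^ ((4 : ℝ) / 3) * L ^ ((2 : ℝ) / 3))) d δ q (v * γ) (S L)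
    hX (by positivity) hSupp (fun τ => by
      have h3 := h X0 X D B κ Y W hX hXX0 hD hB hκ hY hYX0 f hs hw g hg hYX q0 d hd hl δ hδ q v γ
        hq hv hγ τ L hL hLL
      refine h3.trans (le_of_eq ?_)
      ring) s hs0 hs4
  refine h2.trans ?_
  have h5 : C1 * (1 + Real.log X) ^ 2 * E ≤
      (C1 + 1) * K * C * X0 ^ ε * (D * (∏ i, W i) ^ 2 + B) := by
    have e : X0 ^ ε = X0 ^ (ε / 2) * X0 ^ (ε / 2) := by
      rw [← Real.rpow_add hX00]; congr 1; ring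
    have h6 : (1 + Real.log X) ^ 2 ≤ K * X0 ^ (ε / 2) :=
      (hKX X hX).trans (mul_le_mul_of_nonneg_left
        (Real.rpow_le_rpow hX0.le hXX0 (by positivity)) hK.le)
    calc C1 * (1 + Real.log X) ^ 2 * E ≤ (C1 + 1) * (K * X0 ^ (ε / 2)) * E := by
          gcongr
          linarith
      _ = _ := by rw [hE, e]; ring
  calc C1 * (1 + Real.log X) ^ 2 * X ^ (2 * s.re) * (1 + |s.im|) ^ A *
        (E * (nm γ * (nm q : ℝ) ^ κ) * (N' ^ ((4 : ℝ) / 3) * L ^ ((2 : ℝ) / 3)))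
      = (C1 * (1 + Real.log X) ^ 2 * E) * (nm γ * X ^ (2 * s.re) * (1 + |s.im|) ^ A *
          (nm q : ℝ) ^ κ * (N' ^ ((4 : ℝ) / 3) * L ^ ((2 : ℝ) / 3))) := by ring
    _ ≤ ((C1 + 1) * K * C * X0 ^ ε * (D * (∏ i, W i) ^ 2 + B)) *
          (nm γ * X ^ (2 * s.re) * (1 + |s.im|) ^ A *
          (nm q : ℝ) ^ κ * (N' ^ ((4 : ℝ) / 3) * L ^ ((2 : ℝ) / 3))) :=
        mul_le_mul_of_nonneg_right h5 (by positivity)
    _ = _ := by ring

end Crest.Agent.R017.X6b792
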