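import Crest.Agent.R017.X6c3_792
import Crest.Agent.R017.X6c4_792
import Crest.Agent.R017.X6K2_545

/-!
# Row 17, exceptional class, X6: the cross terms of convolution sides (helper792)

* `CRX_of_HSk` (unconditional: `x6K` of helper545), `CRX_side` : cross terms of (P_ex)
* `XG2`, `KCr_of_HSG2`, `KCr_side` : cross terms of (P'_ex)
The only input left is `LumpIn`.
-/

set_option autoImplicit false
set_option linter.unusedSectionVars false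

noncomputable section

open scoped ComplexConjugate

namespace Crest.Agent.R017.X6b792

open Crest.Agent.R012 Crest.Agent.R012.Eis Crest.Agent.R012.Gauss880
open Crest.Agent.R012.LS2
open Crest.Agent.R012.Div277 (tau dvs mem_dvs tau_le_rpow)
open Crest.Agent.R017.PA842 (Supp supp_sub)
open Crest.Agent.R017.HP842
open Crest.Agent.R017.X6545 (HSk x6K)
open Crest.Agent.R017.X6G180 (HSG2)
open Crest.Agent.R017.PX6 (CrossT KKT CopG)
open Crest.Agent.R017.GE241 (KCr)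

variable {ι : Type*} [Fintype ι] [DecidableEq ι]

/-- **(P_ex) cross terms from the second moments** -/
theorem CRX_of_HSk {ε : ℝ} (hε : 0 < ε) : ∃ κ : ℝ, 0 < κ ∧ ∃ C : ℝ, 0 < C ∧
    ∀ (X Z T V B : ℝ) (w : Eis → ℂ), 1 ≤ X → 1 ≤ Z → 0 ≤ V → 0 ≤ B → Supp w X → (∀ n, ‖w n‖ ≤ V) →
    (∀ g ∈ S X, ∀ d ∈ S (X / nm g), (nm d : ℝ) ≤ T → HSk (PA842.sub w g) (X / nm g) Z d B κ) →
    Z * ∑ g ∈ S X, PX764.CRX (X / nm g) Z T (PA842.sub w g) ≤
      C * (X * Z) ^ ε * ((V ^ 2 + V * Real.sqrt B) * (X * (X + Z))) := by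
  obtain ⟨C1, hC1, h1⟩ := CRX_of_bound (ε := ε / 2) (by positivity)
  obtain ⟨κ, hκ, C6, hC6, h6⟩ := x6K (ε / 2) (by positivity)
  refine ⟨κ, hκ, C1 * (C6 + 1), by positivity, fun X Z T V B w hX hZ hV hB hw hwV h => ?_⟩
  have hX0 : 0 < X := by linarith
  have hsB0 : 0 ≤ Real.sqrt B := Real.sqrt_nonneg _
  have hXXZ : X ≤ X * Z := le_mul_of_one_le_right hX0.le hZ
  have hXZ0 : 0 < X * Z := by positivity
  refine (h1 X Z T (C6 * (X * Z) ^ (ε / 2) * (V ^ 2 + V * Real.sqrt B)) w hX hZ (by positivity)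
    fun g hg d hd hdT => ?_).trans ?_
  · have hg' := (mem_S hX0.le).1 hg
    have hg0 : (0 : ℝ) < nm g := by exact_mod_cast nm_pos.mpr hg'.2.1.ne_zero
    have hg1 : (1 : ℝ) ≤ nm g := by exact_mod_cast nm_pos.mpr hg'.2.1.ne_zero
    have hXg : 1 ≤ X / nm g := by rw [le_div_iff₀ hg0]; linarith [hg'.1]
    have hXgX : X / nm g ≤ X := div_le_self hX0.le hg1
    have hd' := (mem_S (by linarith)).1 hd
    have hd1 : (1 : ℝ) ≤ nm d := by exact_mod_cast nm_pos.mpr hd'.2.1.ne_zero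
    have h2 := h6 (X / nm g) Z V B hXg hZ hV hB (PA842.sub w g) (supp_sub hX0.le hw hg'.2.1)
      (fun n => hwV _) d hd (h g hg d hd hdT)
    refine h2.trans ?_
    set N : ℝ := X / nm g / nm d with hN
    have hN0 : 0 ≤ N := by positivity
    have hNX : N ≤ X := (div_le_self (by positivity) hd1).trans hXgX
    have e1 : (X / nm g * Z) ^ (ε / 2) ≤ (X * Z) ^ (ε / 2) :=
      Real.rpow_le_rpow (by positivity) (by gcongr) (by positivity)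
    calc C6 * (X / nm g * Z) ^ (ε / 2) * ((V ^ 2 + V * Real.sqrt B) * (N * (Z + N)))
        ≤ C6 * (X * Z) ^ (ε / 2) * ((V ^ 2 + V * Real.sqrt B) * (N * (Z + X))) := by
          gcongr
      _ = _ := by ring
  · have e3 : X ^ (ε / 2) ≤ (X * Z) ^ (ε / 2) := Real.rpow_le_rpow hX0.le hXXZ (by positivity)
    have e4 : (X * Z) ^ ε = (X * Z) ^ (ε / 2) * (X * Z) ^ (ε / 2) := by
      rw [← Real.rpow_add hXZ0]; congr 1; ring
    rw [e4]
    have hC6' : C6 ≤ C6 + 1 := by linarith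
    have h0 : 0 ≤ V ^ 2 + V * Real.sqrt B := by positivity
    calc C1 * X ^ (ε / 2) * (C6 * (X * Z) ^ (ε / 2) * (V ^ 2 + V * Real.sqrt B) * (X * (X + Z)))
        ≤ C1 * (X * Z) ^ (ε / 2) *
          ((C6 + 1) * (X * Z) ^ (ε / 2) * (V ^ 2 + V * Real.sqrt B) * (X * (X + Z))) := by gcongr
      _ = _ := by ring

/-- **the cross lemma of (P'_ex), consumed form** -/
def XG2 : Prop := ∀ (ε : ℝ) (Ak : ℕ), 0 < ε → ∃ (κ C : ℝ), 0 < κ ∧ 0 ≤ C ∧ ∀ X L W B : ℝ, 1 ≤ X →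
  1 ≤ L → 0 ≤ W → 0 ≤ B → ∀ g : Eis, IsPrim g → Squarefree g → ∀ w : Eis → ℂ, Supp w X → CopG g w →
  (∀ n, ‖w n‖ ≤ W) → ∀ d ∈ S X, HSG2 Ak κ w X d (g * d) B →
    ‖CrossT X L g w d‖ ≤ C * (nm g * X * L) ^ ε *
      ((W ^ 2 + W * Real.sqrt B) * (X * (nm g * X + L)))

lemma copG_sub' {w : Eis → ℂ} {X : ℝ} (hX : 0 ≤ X) (hw : Supp w X) {g : Eis} (hg : IsPrim g) :
    CopG g (PA842.sub w g) := by
  intro n hn
  have h1 : w (g * n) ≠ 0 := hn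
  exact Crest.Agent.R017.PX5.cop_of_sqf hg ((mem_S hX).1 (hw _ h1)).2.2

/-- **(P'_ex) cross terms from the second moments** -/
theorem KCr_of_HSG2 (hXG : XG2) {ε : ℝ} (hε : 0 < ε) (Ak : ℕ) : ∃ κ : ℝ, 0 < κ ∧ ∃ C : ℝ, 0 < C ∧
    ∀ (X L Y V B : ℝ) (w : Eis → ℂ), 1 ≤ X → 1 ≤ L → 1 ≤ Y → 0 ≤ V → 0 ≤ B → Supp w X →
    (∀ n, ‖w n‖ ≤ V) →
    (∀ g ∈ S X, ∀ d ∈ S (X / nm g), (nm d : ℝ) ≤ Y →
      HSG2 Ak κ (PA842.sub w g) (X / nm g) d (g * d) B) →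
    KCr X L Y w ≤ C * (X * L) ^ ε * Y ^ (1 + ε) *
      ((V ^ 2 + V * Real.sqrt B) * (X * (X + L))) := by
  obtain ⟨C1, hC1, h1⟩ := KCr_of_bound (ε := ε / 2) (by positivity)
  obtain ⟨κ, C6, hκ, hC6, h6⟩ := hXG (ε / 2) Ak (by positivity)
  refine ⟨κ, hκ, C1 * (C6 + 1), by positivity, fun X L Y V B w hX hL hY hV hB hw hwV h => ?_⟩
  have hX0 : 0 < X := by linarith
  have hL0 : 0 < L := by linarith
  have hY0 : 0 < Y := by linarith
  have hsB0 : 0 ≤ Real.sqrt B := Real.sqrt_nonneg _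
  have hXXL : X ≤ X * L := le_mul_of_one_le_right hX0.le hL
  have hXL0 : 0 < X * L := by positivity
  refine (h1 X L Y (C6 * (X * L) ^ (ε / 2) * (V ^ 2 + V * Real.sqrt B)) w hX hL0.le hY
    (by positivity) fun g hg d hd hdT => ?_).trans ?_
  · have hg' := (mem_S hX0.le).1 hg
    have hg0 : (0 : ℝ) < nm g := by exact_mod_cast nm_pos.mpr hg'.2.1.ne_zero
    have hg1 : (1 : ℝ) ≤ nm g := by exact_mod_cast nm_pos.mpr hg'.2.1.ne_zero
    have hXg : 1 ≤ X / nm g := by rw [le_div_iff₀ hg0]; linarith [hg'.1]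
    have h2 := h6 (X / nm g) L V B hXg hL hV hB g hg'.2.1 hg'.2.2 (PA842.sub w g)
      (supp_sub hX0.le hw hg'.2.1) (copG_sub' hX0.le hw hg'.2.1) (fun n => hwV _) d hd (h g hg d hd hdT)
    refine h2.trans (le_of_eq ?_)
    rw [mul_div_cancel₀ _ hg0.ne']
    ring
  · have e3 : X ^ (ε / 2) ≤ (X * L) ^ (ε / 2) := Real.rpow_le_rpow hX0.le hXXL (by positivity)
    have e4 : (X * L) ^ ε = (X * L) ^ (ε / 2) * (X * L) ^ (ε / 2) := by
      rw [← Real.rpow_add hXL0]; congr 1; ring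
    have e5 : Y ^ (1 + ε / 2) ≤ Y ^ (1 + ε) :=
      Real.rpow_le_rpow_of_exponent_le hY (by linarith)
    rw [e4]
    have h0 : 0 ≤ V ^ 2 + V * Real.sqrt B := by positivity
    calc C1 * X ^ (ε / 2) * Y ^ (1 + ε / 2) *
          (C6 * (X * L) ^ (ε / 2) * (V ^ 2 + V * Real.sqrt B) * (X * (X + L)))
        ≤ C1 * (X * L) ^ (ε / 2) * Y ^ (1 + ε) *
          ((C6 + 1) * (X * L) ^ (ε / 2) * (V ^ 2 + V * Real.sqrt B) * (X * (X + L))) := by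
          gcongr
          linarith
      _ = _ := by ring

/-! ### convolution sides -/

/-- a bound of the side -/
lemma norm_side_le (ι : Type*) [Fintype ι] [DecidableEq ι] {ε : ℝ} (hε : 0 < ε) :
    ∃ C : ℝ, 1 ≤ C ∧ ∀ (X : ℝ) (Y W : ι → ℝ), 1 ≤ X → (∀ i, 1 ≤ Y i) → ∏ i, Y i ≤ X →
    ∀ f : ι → Eis → ℂ, (∀ i, Sp (Y i) (f i)) → (∀ i m, ‖f i m‖ ≤ W i) → ∀ q n : Eis,
    ‖sqc q (cv f) n‖ ≤ C * X ^ ε * ∏ i, W i := by
  classical
  obtain ⟨C2, hC2, hτ⟩ := tau_le_rpow (ε := ε / (Fintype.card ι + 1)) (by positivity)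
  have hC20 : 0 < C2 := by linarith
  refine ⟨C2 ^ Fintype.card ι, one_le_pow₀ hC2, fun X Y W hX hY hYX f hs hw q n => ?_⟩
  set k : ℕ := Fintype.card ι with hk
  have hW : ∀ i, 0 ≤ W i := fun i => (norm_nonneg _).trans (hw i 1)
  have hWp : 0 ≤ ∏ i, W i := Finset.prod_nonneg fun i _ => hW i
  have hX0 : 0 < X := by linarith
  by_cases h0 : sqc q (cv f) n = 0
  · rw [h0, norm_zero]; positivity
  have hn := (mem_S hX0.le).1
    (supp_sqc (fun i => by linarith [hY i]) hs hYX q n h0)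
  unfold sqc
  rw [norm_mul]
  have h1 : (tau n : ℝ) ≤ C2 * X ^ (ε / (k + 1)) :=
    (hτ n hn.2.1.ne_zero).trans (mul_le_mul_of_nonneg_left
      (Real.rpow_le_rpow (Nat.cast_nonneg _) hn.1 (by positivity)) hC20.le)
  have h2 : (tau n : ℝ) ^ k ≤ C2 ^ k * X ^ ε := by
    refine (pow_le_pow_left₀ (Nat.cast_nonneg _) h1 _).trans ?_
    rw [mul_pow]
    refine mul_le_mul_of_nonneg_left ?_ (by positivity)
    rw [← Real.rpow_natCast, ← Real.rpow_mul hX0.le]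
    refine Real.rpow_le_rpow_of_exponent_le hX ?_
    rw [div_mul_eq_mul_div, div_le_iff₀ (by positivity)]
    have : (0 : ℝ) ≤ (k : ℝ) := Nat.cast_nonneg _
    nlinarith
  calc ‖Th q n‖ * ‖cv f n‖ ≤ 1 * ((tau n : ℝ) ^ k * ∏ i, W i) :=
        mul_le_mul (norm_Th_le q n) (norm_cv_le1 hw n) (norm_nonneg _) zero_le_one
    _ = (tau n : ℝ) ^ k * ∏ i, W i := one_mul _
    _ ≤ (C2 ^ k * X ^ ε) * ∏ i, W i := mul_le_mul_of_nonneg_right h2 hWp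

lemma vb_le {P a b W D B E : ℝ} (hP : 1 ≤ P) (ha : 0 < a) (hb : 0 < b) (hD : 1 ≤ D) (hB : 0 ≤ B)
    (hE : E = b * P * (D * W ^ 2 + B)) :
    (a * P * W) ^ 2 + (a * P * W) * Real.sqrt E ≤ (2 * a ^ 2 + b) * P ^ 2 * (D * W ^ 2 + B) := by
  have hE0 : 0 ≤ E := by rw [hE]; positivity
  have h1 : (a * P * W) * Real.sqrt E ≤ (a * P * W) ^ 2 + E := by
    have h2 := Real.sq_sqrt hE0
    nlinarith [sq_nonneg (a * P * W - Real.sqrt E), sq_nonneg (a * P * W), sq_nonneg (Real.sqrt E)]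
  have h3 : W ^ 2 ≤ D * W ^ 2 + B := by
    have : W ^ 2 ≤ D * W ^ 2 := le_mul_of_one_le_left (by positivity) hD
    linarith
  have h4 : E ≤ b * P ^ 2 * (D * W ^ 2 + B) := by
    rw [hE]
    have h5 : P ≤ P ^ 2 := by nlinarith
    gcongr
  have h6 : (a * P * W) ^ 2 ≤ a ^ 2 * P ^ 2 * (D * W ^ 2 + B) := by
    calc (a * P * W) ^ 2 = a ^ 2 * P ^ 2 * W ^ 2 := by ring
      _ ≤ _ := mul_le_mul_of_nonneg_left h3 (by positivity)
  nlinarith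

/-- **(P_ex) cross terms of a convolution side**; only `LumpIn` is left -/
theorem CRX_side (ι : Type*) [Fintype ι] [DecidableEq ι] {ε : ℝ} (hε : 0 < ε) (A : ℕ) :
    ∃ κ : ℝ, 0 < κ ∧ ∃ C : ℝ, 0 < C ∧ ∀ (X Z T D B : ℝ) (Y W : ι → ℝ), 1 ≤ X → 1 ≤ Z → 1 ≤ D →
    0 ≤ B → (∀ i, 1 ≤ Y i) → ∏ i, Y i ≤ X →
    ∀ f : ι → Eis → ℂ, (∀ i, Sp (Y i) (f i)) → (∀ i m, ‖f i m‖ ≤ W i) → ∀ q : Eis,
    (∀ g ∈ S X, ∀ d ∈ S (X / nm g), (nm d : ℝ) ≤ T → LumpIn A κ B D (X / nm g) g q d Y f) →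
    Z * ∑ g ∈ S X, PX764.CRX (X / nm g) Z T (PA842.sub (sqc q (cv f)) g) ≤
      C * (X * Z) ^ ε * ((D * (∏ i, W i) ^ 2 + B) * (X * (X + Z))) := by
  obtain ⟨κ, hκ, C1, hC1, h1⟩ := CRX_of_HSk (ε := ε / 2) (by positivity)
  obtain ⟨C2, hC2, h2⟩ := HSk_of_lump ι (ε := ε / 4) (by positivity) A
  obtain ⟨C3, hC3, h3⟩ := norm_side_le ι (ε := ε / 4) (by positivity)
  have hC30 : 0 < C3 := by linarith
  refine ⟨κ, hκ, C1 * (2 * C3 ^ 2 + C2), by positivity,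
    fun X Z T D B Y W hX hZ hD hB hY hYX f hs hw q hl => ?_⟩
  have hX0 : 0 < X := by linarith
  have hW : ∀ i, 0 ≤ W i := fun i => (norm_nonneg _).trans (hw i 1)
  have hWp : 0 ≤ ∏ i, W i := Finset.prod_nonneg fun i _ => hW i
  have hP : 1 ≤ X ^ (ε / 4) := Real.one_le_rpow hX (by positivity)
  have hXXZ : X ≤ X * Z := le_mul_of_one_le_right hX0.le hZ
  have hXZ0 : 0 < X * Z := by positivity
  set E : ℝ := C2 * X ^ (ε / 4) * (D * (∏ i, W i) ^ 2 + B) with hE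
  have hE0 : 0 ≤ E := by positivity
  have h4 := h1 X Z T (C3 * X ^ (ε / 4) * ∏ i, W i) E (sqc q (cv f)) hX hZ (by positivity) hE0
    (supp_sqc (fun i => by linarith [hY i]) hs hYX q) (h3 X Y W hX hY hYX f hs hw q) ?_
  · refine h4.trans ?_
    have h5 := vb_le (W := ∏ i, W i) hP hC30 hC2 hD hB hE
    have e2 : (X ^ (ε / 4)) ^ 2 ≤ (X * Z) ^ (ε / 2) := by
      rw [← Real.rpow_natCast, ← Real.rpow_mul hX0.le]
      calc X ^ (ε / 4 * (2 : ℕ)) = X ^ (ε / 2) := by congr 1; push_cast; ring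
        _ ≤ _ := Real.rpow_le_rpow hX0.le hXXZ (by positivity)
    have e4 : (X * Z) ^ ε = (X * Z) ^ (ε / 2) * (X * Z) ^ (ε / 2) := by
      rw [← Real.rpow_add hXZ0]; congr 1; ring
    have h6 : (C3 * X ^ (ε / 4) * ∏ i, W i) ^ 2 + (C3 * X ^ (ε / 4) * ∏ i, W i) * Real.sqrt E ≤
        (2 * C3 ^ 2 + C2) * (X * Z) ^ (ε / 2) * (D * (∏ i, W i) ^ 2 + B) :=
      h5.trans (by gcongr)
    rw [e4]
    calc C1 * (X * Z) ^ (ε / 2) * (((C3 * X ^ (ε / 4) * ∏ i, W i) ^ 2 +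
          (C3 * X ^ (ε / 4) * ∏ i, W i) * Real.sqrt E) * (X * (X + Z)))
        ≤ C1 * (X * Z) ^ (ε / 2) * (((2 * C3 ^ 2 + C2) * (X * Z) ^ (ε / 2) *
          (D * (∏ i, W i) ^ 2 + B)) * (X * (X + Z))) := by gcongr
      _ = _ := by ring
  · intro g hg d hd hdT
    have hg' := (mem_S hX0.le).1 hg
    have hg0 : (0 : ℝ) < nm g := by exact_mod_cast nm_pos.mpr hg'.2.1.ne_zero
    have hg1 : (1 : ℝ) ≤ nm g := by exact_mod_cast nm_pos.mpr hg'.2.1.ne_zero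
    have hXg : 1 ≤ X / nm g := by rw [le_div_iff₀ hg0]; linarith [hg'.1]
    have hXgX : X / nm g ≤ X := div_le_self hX0.le hg1
    have hd' := (mem_S (by linarith)).1 hd
    exact h2 X (X / nm g) Z D B κ Y W hXg hXgX hD hB hκ.le hY hYX f hs hw g hg'.2.1
      (by rw [div_mul_cancel₀ _ hg0.ne']; exact hYX) q d hd'.2.1 (hl g hg d hd hdT)

/-- **(P'_ex) cross terms of a convolution side**; only `XG2` and `LumpIn` are left -/
theorem KCr_side (hXG : XG2) (ι : Type*) [Fintype ι] [DecidableEq ι] {ε : ℝ} (hε : 0 < ε)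
    (A : ℕ) : ∃ κ : ℝ, 0 < κ ∧ ∃ C : ℝ, 0 < C ∧ ∀ (X L T D B : ℝ) (Y W : ι → ℝ), 1 ≤ X → 1 ≤ L →
    1 ≤ T → 1 ≤ D → 0 ≤ B → (∀ i, 1 ≤ Y i) → ∏ i, Y i ≤ X →
    ∀ f : ι → Eis → ℂ, (∀ i, Sp (Y i) (f i)) → (∀ i m, ‖f i m‖ ≤ W i) → ∀ q : Eis,
    (∀ g ∈ S X, ∀ d ∈ S (X / nm g), (nm d : ℝ) ≤ T → LumpIn A κ B D (X / nm g) g q d Y f) →
    KCr X L T (sqc q (cv f)) ≤
      C * (X * L) ^ ε * T ^ (1 + ε) * ((D * (∏ i, W i) ^ 2 + B) * (X * (X + L))) := by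
  obtain ⟨κ, hκ, C1, hC1, h1⟩ := KCr_of_HSG2 hXG (ε := ε / 2) (by positivity) A
  obtain ⟨C2, hC2, h2⟩ := HSG2_of_lump ι (ε := ε / 4) (by positivity) A
  obtain ⟨C3, hC3, h3⟩ := norm_side_le ι (ε := ε / 4) (by positivity)
  have hC30 : 0 < C3 := by linarith
  refine ⟨κ, hκ, C1 * (2 * C3 ^ 2 + C2), by positivity,
    fun X L T D B Y W hX hL hT hD hB hY hYX f hs hw q hl => ?_⟩
  have hX0 : 0 < X := by linarith
  have hL0 : 0 < L := by linarith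
  have hT0 : 0 < T := by linarith
  have hW : ∀ i, 0 ≤ W i := fun i => (norm_nonneg _).trans (hw i 1)
  have hWp : 0 ≤ ∏ i, W i := Finset.prod_nonneg fun i _ => hW i
  have hP : 1 ≤ X ^ (ε / 4) := Real.one_le_rpow hX (by positivity)
  have hXXL : X ≤ X * L := le_mul_of_one_le_right hX0.le hL
  have hXL0 : 0 < X * L := by positivity
  set E : ℝ := C2 * X ^ (ε / 4) * (D * (∏ i, W i) ^ 2 + B) with hE
  have hE0 : 0 ≤ E := by positivity
  have h4 := h1 X L T (C3 * X ^ (ε / 4) * ∏ i, W i) E (sqc q (cv f)) hX hL hT (by positivity) hE0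
    (supp_sqc (fun i => by linarith [hY i]) hs hYX q) (h3 X Y W hX hY hYX f hs hw q) ?_
  · refine h4.trans ?_
    have h5 := vb_le (W := ∏ i, W i) hP hC30 hC2 hD hB hE
    have e2 : (X ^ (ε / 4)) ^ 2 ≤ (X * L) ^ (ε / 2) := by
      rw [← Real.rpow_natCast, ← Real.rpow_mul hX0.le]
      calc X ^ (ε / 4 * (2 : ℕ)) = X ^ (ε / 2) := by congr 1; push_cast; ring
        _ ≤ _ := Real.rpow_le_rpow hX0.le hXXL (by positivity)
    have e4 : (X * L) ^ ε = (X * L) ^ (ε / 2) * (X * L) ^ (ε / 2) := by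
      rw [← Real.rpow_add hXL0]; congr 1; ring
    have e5 : T ^ (1 + ε / 2) ≤ T ^ (1 + ε) :=
      Real.rpow_le_rpow_of_exponent_le hT (by linarith)
    have h6 : (C3 * X ^ (ε / 4) * ∏ i, W i) ^ 2 + (C3 * X ^ (ε / 4) * ∏ i, W i) * Real.sqrt E ≤
        (2 * C3 ^ 2 + C2) * (X * L) ^ (ε / 2) * (D * (∏ i, W i) ^ 2 + B) :=
      h5.trans (by gcongr)
    rw [e4]
    have h7 : 0 ≤ (C3 * X ^ (ε / 4) * ∏ i, W i) ^ 2 +
        (C3 * X ^ (ε / 4) * ∏ i, W i) * Real.sqrt E := by positivity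
    calc C1 * (X * L) ^ (ε / 2) * T ^ (1 + ε / 2) * (((C3 * X ^ (ε / 4) * ∏ i, W i) ^ 2 +
          (C3 * X ^ (ε / 4) * ∏ i, W i) * Real.sqrt E) * (X * (X + L)))
        ≤ C1 * (X * L) ^ (ε / 2) * T ^ (1 + ε) * (((2 * C3 ^ 2 + C2) * (X * L) ^ (ε / 2) *
          (D * (∏ i, W i) ^ 2 + B)) * (X * (X + L))) := by gcongr
      _ = _ := by ring
  · intro g hg d hd hdT
    have hg' := (mem_S hX0.le).1 hg
    have hg0 : (0 : ℝ) < nm g := by exact_mod_cast nm_pos.mpr hg'.2.1.ne_zero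
    have hg1 : (1 : ℝ) ≤ nm g := by exact_mod_cast nm_pos.mpr hg'.2.1.ne_zero
    have hXg : 1 ≤ X / nm g := by rw [le_div_iff₀ hg0]; linarith [hg'.1]
    have hXgX : X / nm g ≤ X := div_le_self hX0.le hg1
    have hd' := (mem_S (by linarith)).1 hd
    exact h2 X (X / nm g) D B κ Y W hXg hXgX hD hB hκ.le hY hYX f hs hw g hg'.2.1
      (by rw [div_mul_cancel₀ _ hg0.ne']; exact hYX) q d hd'.2.1 (hl g hg d hd hdT)

end Crest.Agent.R017.X6b792
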