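import Crest.Agent.R017.E1c_146
import Crest.Agent.R017.E2h_440

/-!
# Row 17, exceptional class, X6: kernels for `e^{-σ u}`, `0 ≤ u ≤ J` (helper792)

* `kernel_of_cut` : 146's `kernel_of_bounds` for a given smooth cut-off `φ` with compact support
* `exp_sep` : for `0 ≤ σ ≤ 4`: `e^{-σ u} = ∫ K(t) e^{itu} dt` for all `0 ≤ u ≤ J`, with
  `|K(t)| (1+|t|)^A ≤ D (J + 2)`, `D` independent of `σ, J`
-/

set_option autoImplicit false

noncomputable section

open MeasureTheory Complex Set Filter Topology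
open scoped ContDiff

namespace Crest.Agent.R017.X6b792

open Crest.Agent.R012
open Crest.Agent.R012.Weight600 (osc ker norm_osc cutL)
open Crest.Agent.R017.E1c146 (iteratedDeriv_seq contDiff_seq)

/-- the kernel of `φ · g`, uniformly in `g` -/
theorem kernel_of_cut {φ : ℝ → ℝ} (hφs : ContDiff ℝ ∞ φ) (hφc : HasCompactSupport φ) {R : ℝ}
    (hR : 0 ≤ R) (hφt : ∀ u, R < |u| → u ∉ tsupport φ) (A : ℕ) : ∃ D : ℝ, 0 ≤ D ∧
    ∀ (g : ℕ → ℝ → ℂ) (M : ℝ), 0 ≤ M → (∀ n u, HasDerivAt (g n) (g (n + 1) u) u) →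
      (∀ n ≤ A, ∀ u, |u| ≤ R → ‖g n u‖ ≤ M) →
      ∃ k : ℝ → ℂ, Continuous k ∧ Integrable k ∧ (∀ t, ‖k t‖ * (1 + |t|) ^ A ≤ D * M) ∧
        ∀ u, (φ u : ℂ) * g 0 u = ∫ t, k t * osc t u := by
  have hex : ∀ n : ℕ, ∃ C : ℝ, ∀ u, ‖iteratedFDeriv ℝ n φ u‖ ≤ C := by
    intro n
    obtain ⟨C, hC⟩ := (hφc.iteratedFDeriv (𝕜 := ℝ) n).exists_bound_of_continuous
      (hφs.continuous_iteratedFDeriv (by exact_mod_cast le_top))
    exact ⟨C, hC⟩
  choose C hC using hex
  set Φ : ℝ := ∑ i ∈ Finset.range (A + 1), |C i| with hΦ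
  have hΦ0 : 0 ≤ Φ := Finset.sum_nonneg fun _ _ => abs_nonneg _
  have hCΦ : ∀ n ≤ A, ∀ u, ‖iteratedFDeriv ℝ n φ u‖ ≤ Φ := by
    intro n hn u
    refine (hC n u).trans ((le_abs_self _).trans ?_)
    exact Finset.single_le_sum (f := fun i => |C i|) (fun _ _ => abs_nonneg _)
      (Finset.mem_range.mpr (by omega))
  refine ⟨2 ^ A * (R * (2 ^ A * Φ) + R * (2 ^ A * Φ)), by positivity,
    fun g M hM hg hb => ?_⟩
  set h : ℝ → ℂ := fun u => φ u • g 0 u with hh
  have hgs : ContDiff ℝ ∞ (g 0) := contDiff_seq hg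
  have hhs : ContDiff ℝ ∞ h := hφs.smul hgs
  have hhc : HasCompactSupport h := hφc.smul_right
  have hts : tsupport h ⊆ tsupport φ := by
    refine closure_minimal (fun u hu => subset_tsupport _ fun h0 => hu ?_) isClosed_closure
    simp only [hh]
    rw [h0, zero_smul]
  have hbound : ∀ n ≤ A, ∀ u, ‖iteratedDeriv n h u‖ ≤
      (Icc (-R) R).indicator (fun _ => 2 ^ A * Φ * M) u := by
    intro n hn u
    rw [← norm_iteratedFDeriv_eq_norm_iteratedDeriv]
    by_cases hu : |u| ≤ R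
    · rw [Set.indicator_of_mem (by exact abs_le.mp hu)]
      refine (norm_iteratedFDeriv_smul_le (N := ∞) hφs hgs u (by exact_mod_cast le_top)).trans ?_
      have h1 : ∀ i ∈ Finset.range (n + 1), (n.choose i : ℝ) * ‖iteratedFDeriv ℝ i φ u‖ *
          ‖iteratedFDeriv ℝ (n - i) (g 0) u‖ ≤ (n.choose i : ℝ) * (Φ * M) := by
        intro i hi
        have hi' : i ≤ A := by
          have := Finset.mem_range.mp hi; omega
        rw [norm_iteratedFDeriv_eq_norm_iteratedDeriv (n := n - i), iteratedDeriv_seq hg, mul_assoc]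
        refine mul_le_mul_of_nonneg_left ?_ (Nat.cast_nonneg _)
        exact mul_le_mul (hCΦ i hi' u) (hb _ (by omega) u hu) (norm_nonneg _) hΦ0
      refine (Finset.sum_le_sum h1).trans ?_
      rw [← Finset.sum_mul]
      have h2 : ∑ i ∈ Finset.range (n + 1), (n.choose i : ℝ) = 2 ^ n := by
        exact_mod_cast Nat.sum_range_choose n
      rw [h2, mul_assoc]
      have h3 : (2 : ℝ) ^ n ≤ 2 ^ A := pow_le_pow_right₀ (by norm_num) hn
      exact mul_le_mul_of_nonneg_right h3 (by positivity)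
    · have hu' : R < |u| := not_le.mp hu
      have h1 : iteratedFDeriv ℝ n h u = 0 := by
        by_contra h0
        exact hφt u hu' (hts (support_iteratedFDeriv_subset n h0))
      rw [h1, norm_zero]
      exact Set.indicator_nonneg (fun _ _ => by positivity) u
  have hI : ∀ n ≤ A, Integrable (iteratedDeriv n h) ∧
      ∫ u, ‖iteratedDeriv n h u‖ ≤ 2 * R * (2 ^ A * Φ * M) := by
    intro n hn
    have hc : Continuous (iteratedDeriv n h) :=
      hhs.continuous_iteratedDeriv n (by exact_mod_cast le_top)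
    have hi : Integrable ((Icc (-R) R).indicator (fun _ : ℝ => 2 ^ A * Φ * M)) :=
      (integrable_indicator_iff measurableSet_Icc).mpr
        (integrableOn_const isCompact_Icc.measure_lt_top.ne)
    have hint : Integrable (iteratedDeriv n h) :=
      hi.mono' hc.aestronglyMeasurable (Eventually.of_forall fun u => hbound n hn u)
    refine ⟨hint, (integral_mono hint.norm hi fun u => hbound n hn u).trans (le_of_eq ?_)⟩
    rw [integral_indicator_const _ measurableSet_Icc, smul_eq_mul, Real.volume_real_Icc_of_le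
      (by linarith)]
    ring
  have hkn : ∀ n ≤ A, ∀ t, |t| ^ n * ‖ker h t‖ ≤ R * (2 ^ A * Φ) * M := by
    intro n hn t
    have hF := Real.fourier_iteratedDeriv (f := h) (N := (n : ℕ∞)) (n := n)
      (hhs.of_le (by exact_mod_cast le_top))
      (fun m hm => (hI m ((by exact_mod_cast hm : m ≤ n).trans hn)).1) le_rfl
    have h1 : ker (iteratedDeriv n h) t = (I * t) ^ n * ker h t := by
      rw [Weight600.ker_eq_fourier, Weight600.ker_eq_fourier, hF]
      have : (Real.pi : ℂ) ≠ 0 := by exact_mod_cast Real.pi_ne_zero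
      simp only [smul_eq_mul]
      have h2 : (2 * (Real.pi : ℂ) * I * ((t / (2 * Real.pi) : ℝ) : ℂ)) = I * t := by
        push_cast; field_simp
      rw [h2]; ring
    have h2 : |t| ^ n * ‖ker h t‖ = ‖ker (iteratedDeriv n h) t‖ := by
      rw [h1, norm_mul, norm_pow, norm_mul, Complex.norm_I, one_mul, Complex.norm_real,
        Real.norm_eq_abs]
    rw [h2]
    refine (Weight600.norm_ker_le _ t).trans ?_
    have h3 : (1 / (2 * Real.pi)) ≤ 1 / 2 := by
      have := Real.pi_gt_three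
      apply one_div_le_one_div_of_le (by norm_num)
      linarith
    calc (1 / (2 * Real.pi)) * ∫ u, ‖iteratedDeriv n h u‖ ≤
        1 / 2 * (2 * R * (2 ^ A * Φ * M)) := by
          refine mul_le_mul h3 (hI n hn).2 (integral_nonneg fun _ => norm_nonneg _) (by norm_num)
      _ = _ := by ring
  refine ⟨ker h, Weight600.continuous_ker (hhs.continuous.integrable_of_hasCompactSupport hhc),
    Weight600.ker_integrable hhs hhc, fun t => ?_, fun u => ?_⟩
  · have h0 := hkn 0 (Nat.zero_le _) t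
    rw [pow_zero, one_mul] at h0
    have hA := hkn A le_rfl t
    have h1 : (1 + |t|) ^ A ≤ 2 ^ A * (1 + |t| ^ A) := by
      rcases le_total |t| 1 with ht | ht
      · calc (1 + |t|) ^ A ≤ 2 ^ A := by gcongr; linarith
          _ ≤ 2 ^ A * (1 + |t| ^ A) := by
            have : 0 ≤ |t| ^ A := by positivity
            have h2 : (0 : ℝ) < 2 ^ A := by positivity
            nlinarith
      · calc (1 + |t|) ^ A ≤ (2 * |t|) ^ A := by gcongr; linarith
          _ = 2 ^ A * |t| ^ A := mul_pow _ _ _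
          _ ≤ 2 ^ A * (1 + |t| ^ A) := by
            have h2 : (0 : ℝ) < 2 ^ A := by positivity
            nlinarith
    calc ‖ker h t‖ * (1 + |t|) ^ A ≤ ‖ker h t‖ * (2 ^ A * (1 + |t| ^ A)) :=
          mul_le_mul_of_nonneg_left h1 (norm_nonneg _)
      _ = 2 ^ A * (‖ker h t‖ + |t| ^ A * ‖ker h t‖) := by ring
      _ ≤ 2 ^ A * (R * (2 ^ A * Φ) * M + R * (2 ^ A * Φ) * M) := by gcongr
      _ = _ := by ring
  · rw [Weight600.inversion_smooth hhs hhc u]
    simp only [hh]
    rw [Complex.real_smul]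

/-- the cut-off used -/
def psi (v : ℝ) : ℝ := cutL 0 1 1 v

lemma psi_not_mem {u : ℝ} (hu : 2 < |u|) : u ∉ tsupport psi := by
  intro h
  have h2 : tsupport psi ⊆ Icc (-1) 2 := by
    refine closure_minimal (fun v hv => ?_) isClosed_Icc
    have := Weight600.cutL_ne_zero (by norm_num : (0 : ℝ) < 1) (by norm_num : (0 : ℝ) ≤ 1) hv
    constructor <;> linarith [this.1, this.2]
  have h3 := h2 h
  have h4 : |u| ≤ 2 := abs_le.2 ⟨by linarith [h3.1], h3.2⟩
  linarith

lemma sum_psi {u : ℝ} {J : ℕ} (h0 : 0 ≤ u) (hJ : u ≤ J) :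
    ∑ j ∈ Finset.range (J + 2), psi (u + 1 - j) = 1 := by
  have h1 : ∀ j ∈ Finset.range (J + 2), psi (u + 1 - j) =
      cutL (-1 + (j : ℝ) * 1) (-1 + ((j : ℝ) + 1) * 1) 1 u := by
    intro j _
    unfold psi
    rw [← Weight600.cutL_translate 0 1 1 (-1 + (j : ℝ)) (u + 1 - j)]
    congr 1 <;> ring
  rw [Finset.sum_congr rfl h1, Weight600.sum_range_cutL (-1) 1 1 u (J + 2)]
  apply Weight600.cutL_eq_one (by norm_num)
  · linarith
  · push_cast; linarith

/-- **separation of `e^{-σ u}` on `[0, J]`** -/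
theorem exp_sep (A : ℕ) : ∃ D : ℝ, 0 ≤ D ∧ ∀ σ : ℝ, 0 ≤ σ → σ ≤ 4 → ∀ J : ℕ,
    ∃ K : ℝ → ℂ, Continuous K ∧ Integrable K ∧ (∀ t, ‖K t‖ * (1 + |t|) ^ A ≤ D * (J + 2)) ∧
      ∀ u : ℝ, 0 ≤ u → u ≤ J → ((Real.exp (-σ * u) : ℝ) : ℂ) = ∫ t, K t * osc t u := by
  have hs : ContDiff ℝ ∞ psi := Weight600.contDiff_cutL
  have hc : HasCompactSupport psi :=
    Weight600.hasCompactSupport_cutL (by norm_num) (by norm_num)
  obtain ⟨D, hD, h⟩ := kernel_of_cut hs hc (by norm_num : (0 : ℝ) ≤ 2) (fun u hu => psi_not_mem hu) A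
  refine ⟨Real.exp 4 * (D * (4 ^ A * Real.exp 8)), by positivity, fun σ hσ hσ4 J => ?_⟩
  set g : ℕ → ℝ → ℂ := fun n u => (((-σ) ^ n * Real.exp (-σ * u) : ℝ) : ℂ) with hg
  have hgd : ∀ n u, HasDerivAt (g n) (g (n + 1) u) u := by
    intro n u
    have h1 : HasDerivAt (fun u : ℝ => (-σ) ^ n * Real.exp (-σ * u))
        ((-σ) ^ n * (Real.exp (-σ * u) * (-σ * 1))) u :=
      (((hasDerivAt_id u).const_mul (-σ)).exp).const_mul _
    have h2 := h1.ofReal_comp
    convert h2 using 1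
    simp only [hg]
    congr 1
    ring
  have hgb : ∀ n ≤ A, ∀ u, |u| ≤ 2 → ‖g n u‖ ≤ 4 ^ A * Real.exp 8 := by
    intro n hn u hu
    simp only [hg]
    rw [Complex.norm_real, norm_mul, norm_pow, Real.norm_eq_abs, Real.norm_eq_abs, abs_neg,
      abs_of_nonneg hσ, abs_of_pos (Real.exp_pos _)]
    have h1 : σ ^ n ≤ 4 ^ A := by
      calc σ ^ n ≤ 4 ^ n := pow_le_pow_left₀ hσ hσ4 n
        _ ≤ 4 ^ A := pow_le_pow_right₀ (by norm_num) hn
    have h2 : Real.exp (-σ * u) ≤ Real.exp 8 := by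
      apply Real.exp_le_exp.2
      have := (abs_le.1 hu).1
      nlinarith
    exact mul_le_mul h1 h2 (Real.exp_pos _).le (by positivity)
  obtain ⟨k, hkc, hki, hkd, hk⟩ := h g _ (by positivity) hgd hgb
  set K : ℝ → ℂ := fun t => ∑ j ∈ Finset.range (J + 2),
    ((Real.exp (-σ * (j - 1)) : ℝ) : ℂ) * (k t * osc t (1 - j)) with hK
  have hKt : ∀ t, ‖K t‖ ≤ (J + 2) * (Real.exp 4 * ‖k t‖) := by
    intro t
    refine (norm_sum_le _ _).trans ?_
    have h1 : ∀ j ∈ Finset.range (J + 2), ‖((Real.exp (-σ * (j - 1)) : ℝ) : ℂ) *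
        (k t * osc t (1 - j))‖ ≤ Real.exp 4 * ‖k t‖ := by
      intro j _
      rw [norm_mul, norm_mul, norm_osc, mul_one, Complex.norm_real, Real.norm_eq_abs,
        abs_of_pos (Real.exp_pos _)]
      refine mul_le_mul_of_nonneg_right (Real.exp_le_exp.2 ?_) (norm_nonneg _)
      have : (0 : ℝ) ≤ j := Nat.cast_nonneg j
      nlinarith
    refine (Finset.sum_le_card_nsmul _ _ _ h1).trans (le_of_eq ?_)
    rw [Finset.card_range, nsmul_eq_mul]
    push_cast
    ring
  have hosc : ∀ y : ℝ, Continuous fun t => osc t y := Weight600.continuous_osc_left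
  have hint : ∀ y : ℝ, Integrable fun t => k t * osc t y := fun y =>
    Weight600.integrable_mul_osc hki y
  refine ⟨K, ?_, ?_, fun t => ?_, fun u h0 hu => ?_⟩
  · exact continuous_finset_sum _ fun j _ => continuous_const.mul (hkc.mul (hosc _))
  · exact integrable_finset_sum _ fun j _ => (hint _).const_mul _
  · have ht : 0 ≤ (1 + |t|) ^ A := by positivity
    calc ‖K t‖ * (1 + |t|) ^ A ≤ ((J + 2) * (Real.exp 4 * ‖k t‖)) * (1 + |t|) ^ A :=
          mul_le_mul_of_nonneg_right (hKt t) ht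
      _ = (J + 2) * Real.exp 4 * (‖k t‖ * (1 + |t|) ^ A) := by ring
      _ ≤ (J + 2) * Real.exp 4 * (D * (4 ^ A * Real.exp 8)) :=
          mul_le_mul_of_nonneg_left (hkd t) (by positivity)
      _ = _ := by ring
  · have h1 : ∀ t, K t * osc t u = ∑ j ∈ Finset.range (J + 2),
        ((Real.exp (-σ * (j - 1)) : ℝ) : ℂ) * (k t * osc t (u + 1 - j)) := by
      intro t
      simp only [hK]
      rw [Finset.sum_mul]
      refine Finset.sum_congr rfl fun j _ => ?_
      have : osc t (u + 1 - j) = osc t (1 - j) * osc t u := by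
        rw [← Weight600.osc_add_right]; congr 1; ring
      rw [this]; ring
    simp_rw [h1]
    rw [integral_finset_sum _ fun j _ => (hint _).const_mul _]
    have h2 : ∀ j ∈ Finset.range (J + 2), ∫ t, ((Real.exp (-σ * (j - 1)) : ℝ) : ℂ) *
        (k t * osc t (u + 1 - j)) = ((psi (u + 1 - j) : ℝ) : ℂ) * ((Real.exp (-σ * u) : ℝ) : ℂ) := by
      intro j _
      rw [integral_const_mul, ← hk (u + 1 - j)]
      simp only [hg, pow_zero, one_mul]
      have h3 : Real.exp (-σ * (j - 1)) * Real.exp (-σ * (u + 1 - j)) = Real.exp (-σ * u) := by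
        rw [← Real.exp_add]; congr 1; ring
      calc ((Real.exp (-σ * (j - 1)) : ℝ) : ℂ) *
            (((psi (u + 1 - j) : ℝ) : ℂ) * ((Real.exp (-σ * (u + 1 - j)) : ℝ) : ℂ)) =
          ((psi (u + 1 - j) : ℝ) : ℂ) *
            ((Real.exp (-σ * (j - 1)) * Real.exp (-σ * (u + 1 - j)) : ℝ) : ℂ) := by
            push_cast; ring
        _ = _ := by rw [h3]
    rw [Finset.sum_congr rfl h2, ← Finset.sum_mul, ← Complex.ofReal_sum, sum_psi h0 hu]
    simp

end Crest.Agent.R017.X6b792
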