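import Crest.Agent.R017.PE2_241
import Crest.Agent.R017.ExT3_764
import Crest.Agent.R017.DkB_848

/-!
# Row 17, exceptional class, the line `be` (helper320's plan, part (a)): the bias block (helper241)

* `dsB`, `DIB`   : the bias part of the dual sums
* `dsum_split`   : dual sums = dual sums with kernel `Dk` + bias part
* `DIM_x_le`     : the dual terms of `α - ζ β`
* `bias_w`       : the bias with the weight of the dual sums
-/

set_option autoImplicit false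

noncomputable section

open Complex MeasureTheory
open scoped ComplexConjugate

namespace Crest.Agent.R017.XB241

open Crest.Agent.R012 Crest.Agent.R012.Eis Crest.Agent.R012.LS2 Crest.Agent.R012.Gauss880
open Crest.Agent.R012.Div277 Crest.Agent.R012.CR2
open Crest.Agent.R012.Weight600 (osc norm_osc)
open Crest.Agent.R012.MelSep811 (dp)
open Crest.Agent.R017.PA842 (V Supp)
open Crest.Agent.R017.PM106 (DIM integrable_DIM integrable_dp_sqM)
open Crest.Agent.R017.CM106 (CS TG FS)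
open Crest.Agent.R017.TP320 hiding th
open Crest.Agent.R017.End699 Crest.Agent.R017.Two939 Crest.Agent.R017.TXC791
open Crest.Agent.R017.FE47 (PU)
open Crest.Agent.R017.HP842 (Th sqc UT Pc uv pc alL al)
open Crest.Agent.R017.PX764 (th md n6 Gh Dk pC_pos)
open Crest.Agent.R017.ExD791
open Crest.Agent.R017.ExT764 (Shf xA xA_eq rst rst_OK length_rst LP_rst LP_all exd_pc)
open Crest.Agent.R017.PE241 (dsK DIK integrable_DIK DIK_nonneg)

/-! ### the bias part of the dual sums -/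

/-- the bias part of the dual sum -/
def dsB (x : Eis → ℂ) (X : ℝ) (d e f l : Eis) (s : ℂ) : ℂ :=
  (pC : ℂ) * th (l * (e * sq3) ^ 2 * f) *
    ∑ k ∈ S X, x (d * f * k) * (md (l * (e * sq3) ^ 2 * f) k : ℂ) * (nm k : ℂ) ^ (s - 1 / 2)

/-- its dual term -/
def DIB (M : ℕ) (σ : ℝ) (x : Eis → ℂ) (X : ℝ) (d e f : Eis) (L : ℝ) : ℝ :=
  ∫ t : ℝ, ((1 + t ^ 2) ^ M)⁻¹ * ∑ l ∈ bl L, ‖dsB x X d e f l (σ + t * Complex.I)‖ ^ 2

/-- **the two kernels** -/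
lemma dsK_Gh (w : Eis → ℂ) (X : ℝ) (d e f l : Eis) (s : ℂ) :
    dsK Gh w X d e f l s = dsK Dk w X d e f l s + dsB w X d e f l s := by
  unfold PE241.dsK dsB
  rw [Finset.mul_sum, ← Finset.sum_add_distrib]
  refine Finset.sum_congr rfl fun k _ => ?_
  unfold PX764.Dk
  ring

lemma dsum_eq (w : Eis → ℂ) {X : ℝ} (hX : 0 ≤ X) (d e f l : Eis) (s : ℂ) :
    dsum w X d e f l s = dsK Gh w X d e f l s := by
  unfold CR2.dsum PE241.dsK
  refine Finset.sum_congr rfl fun k hk => ?_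
  have hkp := ((mem_S hX).1 hk).2.1
  unfold PX764.Gh
  rw [dual_char hkp]
  have : l * (e * sq3) ^ 2 * f = l * f * (e * sq3) ^ 2 := by ring
  rw [this]
  ring

/-- **the dual sums of a sequence** -/
lemma dsum_split (w : Eis → ℂ) {X : ℝ} (hX : 0 ≤ X) (d e f l : Eis) (s : ℂ) :
    dsum w X d e f l s = dsK Dk w X d e f l s + dsB w X d e f l s := by
  rw [dsum_eq w hX, dsK_Gh]

lemma dsK_lin (Kn : Eis → Eis → ℂ) {a b x : Eis → ℂ} {ζ : ℂ} (hx : ∀ n, x n = a n - ζ * b n)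
    (X : ℝ) (d e f l : Eis) (s : ℂ) :
    dsK Kn x X d e f l s = dsK Kn a X d e f l s - ζ * dsK Kn b X d e f l s := by
  unfold PE241.dsK
  rw [Finset.mul_sum, ← Finset.sum_sub_distrib]
  refine Finset.sum_congr rfl fun k _ => ?_
  rw [hx]
  ring

lemma dsB_eq (w : Eis → ℂ) (X : ℝ) (d e f l : Eis) (s : ℂ) :
    dsB w X d e f l s = (pC : ℂ) * th (l * (e * sq3) ^ 2 * f) *
      dp (S X) (fun k => w (d * f * k) * (md (l * (e * sq3) ^ 2 * f) k : ℂ)) s := rfl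

lemma integrable_DIB {M : ℕ} (hM : 1 ≤ M) (σ : ℝ) {X : ℝ} (hX : 0 ≤ X)
    (w : Eis → ℂ) (d e f : Eis) (L : ℝ) :
    Integrable (fun t : ℝ => ((1 + t ^ 2) ^ M)⁻¹ *
      ∑ l ∈ bl L, ‖dsB w X d e f l (σ + t * Complex.I)‖ ^ 2) := by
  have : (fun t : ℝ => ((1 + t ^ 2) ^ M)⁻¹ *
      ∑ l ∈ bl L, ‖dsB w X d e f l (σ + t * Complex.I)‖ ^ 2) =
      fun t : ℝ => ∑ l ∈ bl L, ‖(pC : ℂ) * th (l * (e * sq3) ^ 2 * f)‖ ^ 2 *
        (((1 + t ^ 2) ^ M)⁻¹ * ‖dp (S X) (fun k => w (d * f * k) *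
          (md (l * (e * sq3) ^ 2 * f) k : ℂ)) (σ + t * Complex.I)‖ ^ 2) := by
    funext t
    rw [Finset.mul_sum]
    refine Finset.sum_congr rfl fun l _ => ?_
    rw [dsB_eq, norm_mul, mul_pow]
    ring
  rw [this]
  refine integrable_finsetSum _ fun l _ => ?_
  exact (integrable_dp_sqM hM (S X) _ (fun k hk => ((mem_S hX).1 hk).2.1.ne_zero) σ).const_mul _

lemma DIB_nonneg (M : ℕ) (σ : ℝ) (w : Eis → ℂ) (X : ℝ) (d e f : Eis) (L : ℝ) :
    0 ≤ DIB M σ w X d e f L :=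
  integral_nonneg fun t => by positivity

/-- **the dual terms of `α - ζ β`** -/
theorem DIM_x_le {M : ℕ} (hM : 1 ≤ M) (σ : ℝ) {X : ℝ} (hX : 0 ≤ X) {a b x : Eis → ℂ} {ζ : ℂ}
    (hζ : ‖ζ‖ ≤ 1) (hx : ∀ n, x n = a n - ζ * b n) (d e f : Eis) (L : ℝ) :
    DIM M σ x X d e f L ≤ 3 * (DIK Dk M σ a X d e f L + DIK Dk M σ b X d e f L +
      DIB M σ x X d e f L) := by
  unfold PM106.DIM PE241.DIK DIB
  have hia := integrable_DIK Dk hM σ hX a d e f L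
  have hib := integrable_DIK Dk hM σ hX b d e f L
  have hix := integrable_DIB hM σ hX x d e f L
  set fa : ℝ → ℝ := fun t => ((1 + t ^ 2) ^ M)⁻¹ *
    ∑ l ∈ bl L, ‖dsK Dk a X d e f l (σ + t * Complex.I)‖ ^ 2 with hfa
  set fb : ℝ → ℝ := fun t => ((1 + t ^ 2) ^ M)⁻¹ *
    ∑ l ∈ bl L, ‖dsK Dk b X d e f l (σ + t * Complex.I)‖ ^ 2 with hfb
  set fx : ℝ → ℝ := fun t => ((1 + t ^ 2) ^ M)⁻¹ *
    ∑ l ∈ bl L, ‖dsB x X d e f l (σ + t * Complex.I)‖ ^ 2 with hfx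
  have e1 : 3 * ((∫ t, fa t) + (∫ t, fb t) + ∫ t, fx t) = ∫ t, 3 * (fa t + fb t + fx t) := by
    rw [integral_const_mul]
    congr 1
    rw [← integral_add hia hib]
    exact (integral_add (hia.add hib) hix).symm
  rw [e1]
  refine integral_mono (integrable_DIM hM σ hX x d e f L) (((hia.add hib).add hix).const_mul 3)
    (fun t => ?_)
  have h0 : 0 ≤ ((1 + t ^ 2) ^ M)⁻¹ := by positivity
  show ((1 + t ^ 2) ^ M)⁻¹ * ∑ l ∈ bl L, ‖dsum x X d e f l (σ + t * Complex.I)‖ ^ 2 ≤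
    3 * (fa t + fb t + fx t)
  simp only [hfa, hfb, hfx]
  rw [← mul_add, ← mul_add, mul_left_comm, ← Finset.sum_add_distrib, ← Finset.sum_add_distrib]
  refine mul_le_mul_of_nonneg_left ?_ h0
  rw [Finset.mul_sum]
  refine Finset.sum_le_sum fun l _ => ?_
  rw [dsum_split x hX, dsK_lin Dk hx]
  refine (RX241.sq3 _ _ _).trans ?_
  have := RX241.norm_zeta (z := dsK Dk b X d e f l (σ + t * Complex.I)) hζ
  linarith

/-! ### the bias with the weight of the dual sums -/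

lemma md_cpow {r k : Eis} (hk : IsPrim k) (hks : Squarefree k) (δ t : ℝ) :
    (md r k : ℂ) * (nm k : ℂ) ^ ((δ : ℂ) + t * Complex.I - 1 / 2) =
      osc t (Real.log (nm k)) * (ps (2 / 3 - δ) k * prin0 r k) := by
  have hn := one_le_nm' hk
  have hn0 : (0 : ℝ) < nm k := by linarith
  rw [← tw_cpow δ t k, tw_eq _ _ hk]
  unfold PX764.md PX764.n6 ps End699.prin0
  by_cases hc : IsCoprime k r
  · rw [if_pos ⟨hks, hc⟩, if_pos hc, mul_one]
    have e1 : (nm k : ℝ) ^ (-(1 : ℝ) / 6) * Real.exp (-(1 / 2 - δ) * Real.log (nm k)) =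
        (nm k : ℝ) ^ (-(2 / 3 - δ)) := by
      rw [Real.rpow_def_of_pos hn0, Real.rpow_def_of_pos hn0, ← Real.exp_add]
      congr 1
      ring
    rw [← e1]
    push_cast
    ring
  · rw [if_neg fun h => hc h.2, if_neg hc]
    simp

set_option maxHeartbeats 1000000 in
/-- **the bias with the weight of the dual sums** -/
theorem bias_w {h : ℝ → ℝ} {c : ℝ} (hpu : PU h c) (N : ℕ) {B : ℝ} (hB : 0 ≤ B) {δ : ℝ}
    (hδ : 0 ≤ δ) {ε : ℝ} (hε : 0 < ε) :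
    ∃ C : ℝ, 1 ≤ C ∧ ∀ (τ : Type) [Fintype τ] [DecidableEq τ], Fintype.card τ ≤ N →
      ∀ X : ℝ, 3 ≤ X → ∀ (s s' : τ → Pc) (i1 i2 : τ) (sh : ℝ), Shf s s' i1 i2 sh →
      (∀ i, (s i).OK) → (s i1).u = .one → (s i2).u = .one →
      ∑ i ∈ (Finset.univ.erase i1).erase i2, Real.log (s i).Y ≤ B * Real.log X →
      ∀ ρ1 ρ2 : Eis, ρ1 ≠ 0 → ρ2 ≠ 0 → (nm ρ1 : ℝ) ≤ X ^ B → (nm ρ2 : ℝ) ≤ X ^ B →
      (∀ b, IsPrim b → (s i1).ψ b = prin0 ρ1 b) → (∀ b, IsPrim b → (s i2).ψ b = prin0 ρ2 b) →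
      ∀ r : Eis, r ≠ 0 → (nm r : ℝ) ≤ X ^ B →
      ∀ d0 : ℝ, d0 ≤ Real.log (s i1).Y → d0 ≤ Real.log (s i2).Y → d0 ≤ Real.log (s i1).Y + sh →
      d0 ≤ Real.log (s i2).Y - sh → d0 ≤ B * Real.log X → ∀ (q g : Eis), q ≠ 0 →
      (nm q : ℝ) ≤ X ^ B → IsPrim g → (nm g : ℝ) ≤ X ^ B → ∀ Z : ℝ, 0 ≤ Z →
      Supp (xA h q s s' i1 i2 sh) Z → ∀ t : ℝ,
      ‖∑ k ∈ S Z, xA h q s s' i1 i2 sh (g * k) * (md r k : ℂ) *
          (nm k : ℂ) ^ ((δ : ℂ) + t * Complex.I - 1 / 2)‖ ≤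
        C * X ^ ε * ((1 + |(s i1).t + t|) * (1 + |(s i2).t + t|)) ^ 3 *
          ((Real.exp (∑ i, Real.log (s i).Y) / nm g) ^ (1 / 3 + δ) * Mg d0 g) := by
  classical
  obtain ⟨C, hC, hb⟩ := exd_pc hpu N (σ := 2 / 3 - δ) (by linarith) (B := 2 * B) (by linarith) hε
  refine ⟨C, hC, ?_⟩
  intro τ _ _ hcard X hX s s' i1 i2 sh hs hok hu1 hu2 hL ρ1 ρ2 hρ1 hρ2 hn1 hn2 hp1 hp2 r hr hrX d0
    hy1 hy2 hy3 hy4 hd0 q g hq hqX hg hgX Z hZ hsupp t
  have hX0 : 0 < X := by linarith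
  have hX1 : 1 ≤ X := by linarith
  have hlX : 0 ≤ Real.log X := Real.log_nonneg hX1
  have up : X ^ B ≤ X ^ (2 * B) := Real.rpow_le_rpow_of_exponent_le hX1 (by linarith)
  have hρ : ∀ d : Eis, (nm d : ℝ) ≤ X ^ B → (nm (d * r) : ℝ) ≤ X ^ (2 * B) := by
    intro d hd
    rw [nm_mul]
    push_cast
    have : X ^ (2 * B) = X ^ B * X ^ B := by rw [← Real.rpow_add hX0]; congr 1; ring
    rw [this]
    gcongr
  have hprin : ∀ (p : Pc) (d : Eis), (∀ b, IsPrim b → p.ψ b = prin0 d b) → ∀ b, IsPrim b →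
      p.ψ b * prin0 r b = prin0 (d * r) b := by
    intro p d hp b hb'
    rw [hp b hb', prin0_mul]
  have hcomm : ∀ x : ℝ, x ≤ B * Real.log X → x ≤ 2 * B * Real.log X := fun x hx =>
    hx.trans (mul_le_mul_of_nonneg_right (by linarith) hlX)
  have main := hb X hX (s i1) (s i2) (rst s i1 i2) (hok i1) (hok i2) (rst_OK hok) hu1 hu2
    (length_rst.trans hcard) (by rw [LP_rst]; exact hcomm _ hL) (prin0 r) (isChar_prin0 r)
    (ρ1 * r) (ρ2 * r) (mul_ne_zero hρ1 hr) (mul_ne_zero hρ2 hr) (hρ _ hn1) (hρ _ hn2)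
    (hprin _ _ hp1) (hprin _ _ hp2) sh d0 hy1 hy2 hy3 hy4 (hcomm _ hd0) q g hq (hqX.trans up) hg
    (hgX.trans up) t
  rw [← xA_eq h q hs, LP_all hs.ne] at main
  have e0 : ∑' n : Eis, xA h q s s' i1 i2 sh (g * n) *
      (osc t (Real.log (nm n)) * (ps (2 / 3 - δ) n * prin0 r n)) =
      ∑ n ∈ S Z, xA h q s s' i1 i2 sh (g * n) *
      (osc t (Real.log (nm n)) * (ps (2 / 3 - δ) n * prin0 r n)) := by
    apply tsum_eq_sum
    intro n hn
    have h0 : xA h q s s' i1 i2 sh (g * n) = 0 := by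
      by_contra h1
      apply hn
      have h2 := (mem_S hZ).1 (hsupp _ h1)
      have hnp : IsPrim n := IsPrim.of_mul_left h2.2.1 hg
      refine (mem_S hZ).2 ⟨?_, hnp, h2.2.2.squarefree_of_dvd (dvd_mul_left n g)⟩
      refine le_trans ?_ h2.1
      rw [nm_mul]
      push_cast
      have h3 := one_le_nm' hg
      have h4 := one_le_nm' hnp
      nlinarith
    rw [h0, zero_mul]
  rw [e0] at main
  have e1 : ∑ k ∈ S Z, xA h q s s' i1 i2 sh (g * k) * (md r k : ℂ) *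
      (nm k : ℂ) ^ ((δ : ℂ) + t * Complex.I - 1 / 2) =
      ∑ n ∈ S Z, xA h q s s' i1 i2 sh (g * n) *
      (osc t (Real.log (nm n)) * (ps (2 / 3 - δ) n * prin0 r n)) := by
    refine Finset.sum_congr rfl fun k hk => ?_
    obtain ⟨_, hkp, hks⟩ := (mem_S hZ).1 hk
    rw [mul_assoc, md_cpow hkp hks]
  rw [e1]
  refine main.trans (le_of_eq ?_)
  have : (1 : ℝ) - (2 / 3 - δ) = 1 / 3 + δ := by ring
  rw [this]

end Crest.Agent.R017.XB241
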