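import Crest.Agent.R017.XB_241

/-!
# Row 17, exceptional class, the line `be` (helper320's plan, part (a)): the bias block, part 2

* `bias_DD` : all dual bias terms of one step
-/

set_option autoImplicit false

noncomputable section

open Complex MeasureTheory
open scoped ComplexConjugate

namespace Crest.Agent.R017.XB241

open Crest.Agent.R012 Crest.Agent.R012.Eis Crest.Agent.R012.LS2 Crest.Agent.R012.Gauss880
open Crest.Agent.R012.Div277 Crest.Agent.R012.CR2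
open Crest.Agent.R012.Weight600 (osc norm_osc)
open Crest.Agent.R012.MelSep811 (dp)
open Crest.Agent.R017.PA842 (V Supp)
open Crest.Agent.R017.CM106 (CS TG FS)
open Crest.Agent.R017.TP320 hiding th
open Crest.Agent.R017.End699 Crest.Agent.R017.Two939 Crest.Agent.R017.TXC791
open Crest.Agent.R017.FE47 (PU)
open Crest.Agent.R017.HP842 (Th sqc UT Pc uv pc alL al)
open Crest.Agent.R017.PX764 (th md n6 Gh Dk pC_pos)
open Crest.Agent.R017.ExD791
open Crest.Agent.R017.ExT764 (Shf xA xA_eq rst rst_OK length_rst LP_rst LP_all exd_pc)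

/-- one dual bias term -/
lemma DIB_le {M : ℕ} (hM : 8 ≤ M) {σ : ℝ} {x : Eis → ℂ} {X : ℝ} (hX : 0 ≤ X) {d e f : Eis}
    {L Q T1 T2 : ℝ} (hQ : 0 ≤ Q)
    (h : ∀ l ∈ bl L, ∀ t : ℝ, ‖∑ k ∈ S X, x (d * f * k) * (md (l * (e * sq3) ^ 2 * f) k : ℂ) *
      (nm k : ℂ) ^ ((σ : ℂ) + t * Complex.I - 1 / 2)‖ ≤ Q * ((1 + |T1 + t|) * (1 + |T2 + t|)) ^ 3) :
    DIB M σ x X d e f L ≤ IM M 6 * ((pC ^ 2 * Q ^ 2 * ((1 + |T1|) * (1 + |T2|)) ^ 6) *
      ∑ l ∈ bl L, ‖th (l * (e * sq3) ^ 2 * f)‖ ^ 2) := by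
  have hM6 : (6 : ℝ) + 1 ≤ M := by
    have : (8 : ℝ) ≤ M := by exact_mod_cast hM
    linarith
  have hM1 : 1 ≤ M := by omega
  unfold DIB IM
  rw [← integral_mul_const]
  refine integral_mono (integrable_DIB hM1 σ hX x d e f L) ((integrable_IM hM6).mul_const _)
    (fun t => ?_)
  simp only
  rw [mul_assoc]
  refine mul_le_mul_of_nonneg_left ?_ (by positivity)
  rw [Finset.mul_sum, Finset.mul_sum]
  refine Finset.sum_le_sum fun l hl => ?_
  have h1 := h l hl t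
  have h2 : ‖dsB x X d e f l (σ + t * Complex.I)‖ ≤ pC * ‖th (l * (e * sq3) ^ 2 * f)‖ *
      (Q * ((1 + |T1 + t|) * (1 + |T2 + t|)) ^ 3) := by
    unfold dsB
    rw [norm_mul, norm_mul, Complex.norm_real, Real.norm_of_nonneg pC_pos.le]
    have := pC_pos
    gcongr
  have h3 : ((1 + |T1 + t|) * (1 + |T2 + t|)) ^ 6 ≤
      ((1 + |T1|) * (1 + |T2|)) ^ 6 * ((1 + |t|) ^ (6 : ℝ)) ^ 2 := by
    have e1 : (1 + |t|) ^ (6 : ℝ) = (1 + |t|) ^ 6 := by
      rw [← Real.rpow_natCast]; norm_num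
    rw [e1]
    calc ((1 + |T1 + t|) * (1 + |T2 + t|)) ^ 6
        ≤ (((1 + |T1|) * (1 + |T2|)) * (1 + |t|) ^ 2) ^ 6 :=
          pow_le_pow_left₀ (by positivity) (ht_le _ _ _) 6
      _ = _ := by ring
  calc ‖dsB x X d e f l (σ + t * Complex.I)‖ ^ 2
      ≤ (pC * ‖th (l * (e * sq3) ^ 2 * f)‖ *
      (Q * ((1 + |T1 + t|) * (1 + |T2 + t|)) ^ 3)) ^ 2 :=
        pow_le_pow_left₀ (norm_nonneg _) h2 2
    _ = (pC ^ 2 * Q ^ 2 * ‖th (l * (e * sq3) ^ 2 * f)‖ ^ 2) *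
        ((1 + |T1 + t|) * (1 + |T2 + t|)) ^ 6 := by ring
    _ ≤ (pC ^ 2 * Q ^ 2 * ‖th (l * (e * sq3) ^ 2 * f)‖ ^ 2) *
        (((1 + |T1|) * (1 + |T2|)) ^ 6 * ((1 + |t|) ^ (6 : ℝ)) ^ 2) := by gcongr
    _ = _ := by ring

/-- **the sum over the common divisor `f`** -/
lemma sum_f {C Dm L X : ℝ} (hC : 0 ≤ C) (hth : ∀ L : ℝ, 1 ≤ L → ∑ x ∈ bl L, ‖th x‖ ^ 2 ≤
      C * L ^ ((2 : ℝ) / 3)) (hDm : 0 ≤ Dm) (hL : 1 ≤ L) (hX : 1 ≤ X) {c : Eis} (hc : c ≠ 0)
    (hD : ∀ r : Eis, r ≠ 0 → (nm r : ℝ) ≤ L * (Real.exp 1 * X) → (tau r : ℝ) ≤ Dm) :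
    ∑ f ∈ S X, (nm f : ℝ) ^ (-(2 / 3) : ℝ) * ∑ l ∈ bl L, ‖th (l * f * c)‖ ^ 2 ≤
      (Real.log X + 1) * (Dm * C * Real.exp (2 / 3) * (L * nm c) ^ ((2 : ℝ) / 3)) := by
  classical
  have hX0 : 0 ≤ X := by linarith
  have hL0 : 0 ≤ L := by linarith
  have hlX : 0 ≤ Real.log X := Real.log_nonneg hX
  have hnc : (1 : ℝ) ≤ nm c := by exact_mod_cast nm_pos.2 hc
  set i : Eis → ℕ := fun f => ⌊Real.log (nm f)⌋₊ with hi
  have hfm : ∀ f ∈ S X, i f ∈ Finset.range (⌊Real.log X⌋₊ + 1) := by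
    intro f hf
    obtain ⟨h1, h2, _⟩ := (mem_S hX0).1 hf
    have h3 := one_le_nm' h2
    rw [Finset.mem_range, Nat.lt_succ_iff]
    exact Nat.floor_le_floor (Real.log_le_log (by linarith) h1)
  rw [← Finset.sum_fiberwise_of_maps_to hfm]
  have hcls : ∀ n ∈ Finset.range (⌊Real.log X⌋₊ + 1),
      ∑ f ∈ (S X).filter (fun f => i f = n), (nm f : ℝ) ^ (-(2 / 3) : ℝ) *
        ∑ l ∈ bl L, ‖th (l * f * c)‖ ^ 2 ≤
      Dm * C * Real.exp (2 / 3) * (L * nm c) ^ ((2 : ℝ) / 3) := by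
    intro n hn
    rw [Finset.mem_range, Nat.lt_succ_iff] at hn
    have hnX : (n : ℝ) ≤ Real.log X := (Nat.le_floor_iff hlX).1 hn
    have hen : Real.exp ((n : ℝ) + 1) ≤ Real.exp 1 * X := by
      rw [Real.exp_add, mul_comm]
      have : Real.exp (n : ℝ) ≤ X := (Real.le_log_iff_exp_le (by linarith)).1 hnX
      gcongr
    have hb : ∀ f ∈ (S X).filter (fun f => i f = n), IsPrim f ∧ (n : ℝ) ≤ Real.log (nm f) ∧
        (nm f : ℝ) ≤ Real.exp ((n : ℝ) + 1) := by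
      intro f hf
      rw [Finset.mem_filter] at hf
      obtain ⟨h1, h2, _⟩ := (mem_S hX0).1 hf.1
      have h3 := one_le_nm' h2
      have h4 : 0 ≤ Real.log (nm f) := Real.log_nonneg h3
      have h5 : ⌊Real.log (nm f)⌋₊ = n := hf.2
      refine ⟨h2, ?_, ?_⟩
      · rw [← h5]; exact Nat.floor_le h4
      · have h6 := Nat.lt_floor_add_one (Real.log (nm f))
        rw [h5] at h6
        exact ((Real.log_lt_iff_lt_exp (by linarith)).1 h6).le
    have hm := merge_TG (L := L) (B := Real.exp ((n : ℝ) + 1)) (Dm := Dm) hL0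
      (Real.exp_pos _).le hDm c hc (Bs := (S X).filter (fun f => i f = n))
      (fun b hb' => ⟨(hb b hb').1, (hb b hb').2.2⟩) (fun r => ‖th r‖ ^ 2)
      (fun _ => by positivity) (by
        intro r hr
        rw [mem_bl (by positivity)] at hr
        exact hD r hr.1 (hr.2.trans (mul_le_mul_of_nonneg_left hen hL0)))
    have hL1 : 1 ≤ L * Real.exp ((n : ℝ) + 1) * nm c := by
      have h1 : 1 ≤ Real.exp ((n : ℝ) + 1) := Real.one_le_exp (by positivity)
      exact one_le_mul_of_one_le_of_one_le (one_le_mul_of_one_le_of_one_le hL h1) hnc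
    have h7 := hth _ hL1
    have h8 : ∀ f ∈ (S X).filter (fun f => i f = n), (nm f : ℝ) ^ (-(2 / 3) : ℝ) *
        ∑ l ∈ bl L, ‖th (l * f * c)‖ ^ 2 ≤
        Real.exp (-(2 / 3) * n) * ∑ l ∈ bl L, ‖th (l * f * c)‖ ^ 2 := by
      intro f hf
      obtain ⟨g1, g2, _⟩ := hb f hf
      have g3 := one_le_nm' g1
      refine mul_le_mul_of_nonneg_right ?_ (Finset.sum_nonneg fun _ _ => by positivity)
      rw [Real.rpow_def_of_pos (by linarith)]
      apply Real.exp_le_exp.2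
      linarith
    calc _ ≤ ∑ f ∈ (S X).filter (fun f => i f = n),
          Real.exp (-(2 / 3) * n) * ∑ l ∈ bl L, ‖th (l * f * c)‖ ^ 2 :=
          Finset.sum_le_sum h8
      _ = Real.exp (-(2 / 3) * n) * ∑ f ∈ (S X).filter (fun f => i f = n),
          ∑ l ∈ bl L, ‖th (l * f * c)‖ ^ 2 := by rw [Finset.mul_sum]
      _ ≤ Real.exp (-(2 / 3) * n) * (Dm * (C * (L * Real.exp ((n : ℝ) + 1) * nm c) ^
          ((2 : ℝ) / 3))) := by
          refine mul_le_mul_of_nonneg_left ?_ (Real.exp_pos _).le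
          exact hm.trans (mul_le_mul_of_nonneg_left h7 hDm)
      _ = _ := by
          have e1 : (L * Real.exp ((n : ℝ) + 1) * nm c) ^ ((2 : ℝ) / 3) =
              Real.exp (2 / 3 * n) * Real.exp (2 / 3) * (L * nm c) ^ ((2 : ℝ) / 3) := by
            have : L * Real.exp ((n : ℝ) + 1) * nm c = Real.exp ((n : ℝ) + 1) * (L * nm c) := by
              ring
            rw [this, Real.mul_rpow (Real.exp_pos _).le (by positivity), ← Real.exp_mul,
              ← Real.exp_add]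
            congr 2
            ring
          rw [e1]
          have e2 : Real.exp (-(2 / 3) * n) * Real.exp (2 / 3 * (n : ℝ)) = 1 := by
            rw [← Real.exp_add]
            have : -(2 / 3) * (n : ℝ) + 2 / 3 * n = 0 := by ring
            rw [this, Real.exp_zero]
          calc _ = (Real.exp (-(2 / 3) * n) * Real.exp (2 / 3 * (n : ℝ))) *
              (Dm * C * Real.exp (2 / 3) * (L * nm c) ^ ((2 : ℝ) / 3)) := by ring
            _ = _ := by rw [e2, one_mul]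
  refine (Finset.sum_le_sum hcls).trans ?_
  rw [Finset.sum_const, nsmul_eq_mul, Finset.card_range]
  refine mul_le_mul_of_nonneg_right ?_ (by positivity)
  push_cast
  linarith [Nat.floor_le hlX]

end Crest.Agent.R017.XB241
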