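import Crest.Agent.R017.XBb_241

/-!
# Row 17, exceptional class, the line `be` (helper320's plan, part (a)): the bias block, part 3

* `bias_DD` : all dual bias terms of one step
-/

set_option autoImplicit false

noncomputable section

open Complex MeasureTheory
open scoped ComplexConjugate

namespace Crest.Agent.R017.XB241

open Crest.Agent.R012 Crest.Agent.R012.Eis Crest.Agent.R012.LS2 Crest.Agent.R012.Gauss880
open Crest.Agent.R012.Div277 Crest.Agent.R012.CR2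
open Crest.Agent.R017.PA842 (V Supp)
open Crest.Agent.R017.CM106 (CS TG FS)
open Crest.Agent.R017.TP320 hiding th
open Crest.Agent.R017.End699 Crest.Agent.R017.Two939 Crest.Agent.R017.TXC791
open Crest.Agent.R017.FE47 (PU)
open Crest.Agent.R017.HP842 (Th sqc UT Pc uv pc alL al)
open Crest.Agent.R017.PX764 (th md n6 Gh Dk pC_pos)
open Crest.Agent.R017.ExD791
open Crest.Agent.R017.ExT764 (Shf xA)

lemma Qsq {δ len d0 G m : ℝ} (hδ : 0 ≤ δ) (hG : 1 ≤ G) (hm : m ^ 2 ≤ G * Real.exp (-d0)) :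
    ((Real.exp len / G) ^ (1 / 3 + δ) * m) ^ 2 ≤
      Real.exp ((2 / 3 + 2 * δ) * len - d0) * G ^ ((1 : ℝ) / 3) := by
  have hG0 : 0 < G := by linarith
  have e1 : ((Real.exp len / G) ^ (1 / 3 + δ)) ^ 2 =
      Real.exp ((2 / 3 + 2 * δ) * len) * G ^ (-(2 / 3 + 2 * δ)) := by
    rw [← Real.rpow_natCast, ← Real.rpow_mul (by positivity), Real.div_rpow (Real.exp_pos _).le
      hG0.le, ← Real.exp_mul, Real.rpow_neg hG0.le, div_eq_mul_inv]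
    congr 2
    · push_cast; ring
    · congr 1; push_cast; ring
  rw [mul_pow, e1]
  calc Real.exp ((2 / 3 + 2 * δ) * len) * G ^ (-(2 / 3 + 2 * δ)) * m ^ 2
      ≤ Real.exp ((2 / 3 + 2 * δ) * len) * G ^ (-(2 / 3 + 2 * δ)) * (G * Real.exp (-d0)) := by
        gcongr
    _ = (Real.exp ((2 / 3 + 2 * δ) * len) * Real.exp (-d0)) * (G ^ (-(2 / 3 + 2 * δ)) * G) := by
        ring
    _ = Real.exp ((2 / 3 + 2 * δ) * len - d0) * G ^ (1 / 3 - 2 * δ) := by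
        rw [← Real.exp_add, ← Real.rpow_add_one hG0.ne']
        (congr 2; ring)
    _ ≤ _ := by
        refine mul_le_mul_of_nonneg_left ?_ (Real.exp_pos _).le
        exact Real.rpow_le_rpow_of_exponent_le hG (by linarith)

lemma exp_le_rpow {X0 R : ℝ} (hX0 : 3 ≤ X0) (hR : 0 ≤ R) : Real.exp R ≤ X0 ^ R := by
  rw [Real.rpow_def_of_pos (by linarith)]
  apply Real.exp_le_exp.2
  have h1 : 1 ≤ Real.log X0 := by
    rw [Real.le_log_iff_exp_le (by linarith)]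
    have := Real.exp_one_lt_d9
    linarith
  nlinarith

/-- the exponents of the last step -/
lemma last_alg {δ ε R len d0 K E X G : ℝ} (hδ : 0 < δ) (hδ1 : δ ≤ 1 / 40)
    (hR : 0 ≤ R) (hG : 1 ≤ G) (hK : 1 ≤ K) (hE : 1 ≤ E) (hX : X = Real.exp (len + R))
    (hX1 : 1 ≤ X) {X0 : ℝ} (hX0 : 3 ≤ X0) (hXX : X ≤ Real.exp R * X0) (hKX : K ≤ X0)
    (hε : 0 < ε) :
    (X0 ^ (ε / 4)) ^ 2 * X0 ^ (ε / 4) * (X ^ δ) ^ 2 *
      ((K * Real.exp ((2 / 3 + 2 * δ) * len - d0)) * (G ^ ((1 : ℝ) / 3) * X ^ δ)) *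
      ((Real.log X + 1) * ((X ^ δ) ^ 2 * K ^ δ * ((X / G) ^ ((4 : ℝ) / 3) * E ^ ((2 : ℝ) / 3) *
        K ^ (-(2 / 3) : ℝ)))) ≤
    (1 + 1 / δ) * Real.exp (10 * R) * X0 ^ (30 * δ + ε) *
      (K ^ ((1 : ℝ) / 3) * E ^ ((2 : ℝ) / 3) * Real.exp (2 * len - d0) / G) := by
  have hX00 : 0 < X0 := by linarith
  have hX01 : 1 ≤ X0 := by linarith
  have hXp : 0 < X := by linarith
  have hKp : 0 < K := by linarith
  have hGp : 0 < G := by linarith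
  have hsc : Sc2 δ R X0 K X := ⟨hX0, hK, hKX, hX1, hXX⟩
  obtain ⟨f1, f2, f3, f4, f5⟩ := hsc.facts hδ (by linarith) hR
  have hlenX : Real.exp len ≤ X := by rw [hX]; exact Real.exp_le_exp.2 (by linarith)
  have g1 : Real.exp (2 * δ * len) ≤ (X ^ δ) ^ 2 := by
    have e1 : Real.exp (2 * δ * len) = (Real.exp len) ^ (2 * δ) := by
      rw [← Real.exp_mul]; congr 1; ring
    rw [e1, ← Real.rpow_natCast (X ^ δ), ← Real.rpow_mul hXp.le]
    have e2 : δ * ((2 : ℕ) : ℝ) = 2 * δ := by push_cast; ring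
    rw [e2]
    exact Real.rpow_le_rpow (Real.exp_pos _).le hlenX (by linarith)
  have g2 : X ^ ((4 : ℝ) / 3) = Real.exp (4 / 3 * len) * Real.exp (4 / 3 * R) := by
    rw [hX, ← Real.exp_mul, ← Real.exp_add]; congr 1; ring
  have g3 : (X / G) ^ ((4 : ℝ) / 3) = Real.exp (4 / 3 * len) * Real.exp (4 / 3 * R) *
      G ^ (-(4 / 3) : ℝ) := by
    rw [Real.div_rpow hXp.le hGp.le, g2, Real.rpow_neg hGp.le]; rfl
  have g4 : G ^ ((1 : ℝ) / 3) * G ^ (-(4 / 3) : ℝ) = G⁻¹ := by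
    rw [← Real.rpow_add hGp, ← Real.rpow_neg_one]; norm_num
  have g5 : K * K ^ (-(2 / 3) : ℝ) = K ^ ((1 : ℝ) / 3) := by
    nth_rewrite 1 [← Real.rpow_one K]
    rw [← Real.rpow_add hKp]; norm_num
  have g6 : Real.exp ((2 / 3 + 2 * δ) * len - d0) * Real.exp (4 / 3 * len) =
      Real.exp (2 * δ * len) * Real.exp (2 * len - d0) := by
    rw [← Real.exp_add, ← Real.exp_add]; congr 1; ring
  set W : ℝ := X0 ^ δ with hW
  set P : ℝ := K ^ ((1 : ℝ) / 3) * E ^ ((2 : ℝ) / 3) * Real.exp (2 * len - d0) / G with hP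
  have hP0 : 0 ≤ P := by positivity
  have hXd : 0 ≤ X ^ δ := by positivity
  have hlog0 : 0 ≤ Real.log X + 1 := by linarith [Real.log_nonneg hX1]
  have hε3 : (X0 ^ (ε / 4)) ^ 2 * X0 ^ (ε / 4) ≤ X0 ^ ε := by
    rw [← Real.rpow_natCast, ← Real.rpow_mul hX00.le, ← Real.rpow_add hX00]
    refine Real.rpow_le_rpow_of_exponent_le hX01 ?_
    push_cast; linarith
  have hW9 : W ^ 9 * X0 ^ ε ≤ X0 ^ (30 * δ + ε) := by
    rw [hW, ← Real.rpow_natCast (X0 ^ δ), ← Real.rpow_mul hX00.le, ← Real.rpow_add hX00]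
    refine Real.rpow_le_rpow_of_exponent_le hX01 ?_
    push_cast; nlinarith
  have hR10 : Real.exp R ^ 8 * Real.exp (4 / 3 * R) ≤ Real.exp (10 * R) := by
    rw [← Real.exp_nat_mul, ← Real.exp_add]
    apply Real.exp_le_exp.2
    push_cast; linarith
  calc _ = ((X0 ^ (ε / 4)) ^ 2 * X0 ^ (ε / 4)) * ((X ^ δ) ^ 5 * K ^ δ * (Real.log X + 1)) *
        ((K * K ^ (-(2 / 3) : ℝ)) * E ^ ((2 : ℝ) / 3) * (G ^ ((1 : ℝ) / 3) * G ^ (-(4 / 3) : ℝ)) *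
        (Real.exp ((2 / 3 + 2 * δ) * len - d0) * Real.exp (4 / 3 * len)) *
          Real.exp (4 / 3 * R)) := by rw [g3]; ring
    _ = ((X0 ^ (ε / 4)) ^ 2 * X0 ^ (ε / 4)) * ((X ^ δ) ^ 5 * K ^ δ * (Real.log X + 1)) *
        (P * Real.exp (2 * δ * len) * Real.exp (4 / 3 * R)) := by
        rw [g4, g5, g6, hP]; ring
    _ ≤ X0 ^ ε * ((Real.exp R * W) ^ 5 * W * ((1 + 1 / δ) * (Real.exp R * W))) *
        (P * (Real.exp R * W) ^ 2 * Real.exp (4 / 3 * R)) := by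
        have h1 : Real.exp (2 * δ * len) ≤ (Real.exp R * W) ^ 2 :=
          g1.trans (pow_le_pow_left₀ hXd f3 2)
        gcongr
    _ = (1 + 1 / δ) * (Real.exp R ^ 8 * Real.exp (4 / 3 * R)) * (W ^ 9 * X0 ^ ε) * P := by ring
    _ ≤ _ := by
        have : 0 ≤ 1 + 1 / δ := by positivity
        gcongr


lemma one_le_LdeB {X Z ε : ℝ} (hX : 1 ≤ X) (hZ : 1 ≤ Z) (hε : 0 ≤ ε) (d e : Eis) :
    1 ≤ Lde X Z ε d e := by
  unfold Lde
  have h1 : 1 ≤ (X * Z) ^ ε := Real.one_le_rpow (one_le_mul_of_one_le_of_one_le hX hZ) hε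
  have h2 : 1 ≤ 1 + nm e * X ^ 2 / ((nm d : ℝ) ^ 2 * Z) := by
    have : 0 ≤ nm e * X ^ 2 / ((nm d : ℝ) ^ 2 * Z) := by positivity
    linarith
  exact one_le_mul_of_one_le_of_one_le h1 h2

lemma Mg_sq_le (d0 : ℝ) (g : Eis) : Mg d0 g ^ 2 ≤ (nm g : ℝ) * Real.exp (-d0) := by
  unfold ExD791.Mg
  have hn : (0 : ℝ) ≤ nm g := Nat.cast_nonneg _
  set a := (nm g : ℝ) ^ (1 / 2 : ℝ) * Real.exp (-(d0 / 2)) with ha
  have ha0 : 0 ≤ a := by positivity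
  have ha2 : a ^ 2 = (nm g : ℝ) * Real.exp (-d0) := by
    rw [ha, mul_pow, ← Real.rpow_natCast ((nm g : ℝ) ^ (1 / 2 : ℝ)), ← Real.rpow_mul hn,
      ← Real.exp_nat_mul]
    norm_num
    left; ring
  rw [← ha2]
  exact pow_le_pow_left₀ (le_min zero_le_one ha0) (min_le_right _ _) 2

/-- the length of the dual sums times the cube part -/
lemma Lnc_le {δ E K X G L ne : ℝ} (hδ : 0 ≤ δ) (hK : 1 ≤ K) (hE : 1 ≤ E) (hX : 1 ≤ X)
    (hG : 1 ≤ G) (hL0 : 0 ≤ L) (hL : L ≤ X ^ δ * K ^ δ * (2 * ((X / G) ^ 2 / K)) * E)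
    (hne0 : 0 ≤ ne) (hne : ne ≤ X ^ δ) :
    (L * (9 * ne ^ 2)) ^ ((2 : ℝ) / 3) ≤
      18 * ((X ^ δ) ^ 2 * K ^ δ * ((X / G) ^ ((4 : ℝ) / 3) * E ^ ((2 : ℝ) / 3) *
        K ^ (-(2 / 3) : ℝ))) := by
  have hKp : 0 < K := by linarith
  have hY1 : 1 ≤ X ^ δ := Real.one_le_rpow hX hδ
  have hK1 : 1 ≤ K ^ δ := Real.one_le_rpow hK hδ
  set Y : ℝ := X ^ δ with hY
  set k : ℝ := K ^ δ with hk
  set W : ℝ := X / G with hW
  have hW0 : 0 ≤ W := by rw [hW]; positivity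
  have h1 : L * (9 * ne ^ 2) ≤ (18 * Y ^ 3 * k) * (W ^ 2 * K⁻¹ * E) := by
    calc L * (9 * ne ^ 2) ≤ (Y * k * (2 * (W ^ 2 / K)) * E) * (9 * Y ^ 2) := by gcongr
      _ = _ := by rw [div_eq_mul_inv]; ring
  have h2 : (18 * Y ^ 3 * k) ^ ((2 : ℝ) / 3) ≤ 18 * Y ^ 2 * k := by
    rw [Real.mul_rpow (by positivity) (by positivity), Real.mul_rpow (by norm_num) (by positivity)]
    have a1 : (18 : ℝ) ^ ((2 : ℝ) / 3) ≤ 18 := by
      calc (18 : ℝ) ^ ((2 : ℝ) / 3) ≤ 18 ^ (1 : ℝ) :=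
            Real.rpow_le_rpow_of_exponent_le (by norm_num) (by norm_num)
        _ = 18 := Real.rpow_one _
    have a2 : (Y ^ 3) ^ ((2 : ℝ) / 3) = Y ^ 2 := by
      rw [← Real.rpow_natCast, ← Real.rpow_mul (by positivity), ← Real.rpow_natCast]
      norm_num
    have a3 : k ^ ((2 : ℝ) / 3) ≤ k := by
      calc k ^ ((2 : ℝ) / 3) ≤ k ^ (1 : ℝ) :=
            Real.rpow_le_rpow_of_exponent_le hK1 (by norm_num)
        _ = k := Real.rpow_one _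
    rw [a2]
    gcongr
  have h3 : (W ^ 2 * K⁻¹ * E) ^ ((2 : ℝ) / 3) =
      W ^ ((4 : ℝ) / 3) * E ^ ((2 : ℝ) / 3) * K ^ (-(2 / 3) : ℝ) := by
    rw [Real.mul_rpow (by positivity) (by positivity), Real.mul_rpow (by positivity)
      (by positivity)]
    have a1 : (W ^ 2) ^ ((2 : ℝ) / 3) = W ^ ((4 : ℝ) / 3) := by
      rw [← Real.rpow_natCast, ← Real.rpow_mul hW0]
      norm_num
    have a2 : K⁻¹ ^ ((2 : ℝ) / 3) = K ^ (-(2 / 3) : ℝ) := by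
      rw [Real.inv_rpow hKp.le, ← Real.rpow_neg hKp.le]
    rw [a1, a2]
    ring
  calc (L * (9 * ne ^ 2)) ^ ((2 : ℝ) / 3)
      ≤ ((18 * Y ^ 3 * k) * (W ^ 2 * K⁻¹ * E)) ^ ((2 : ℝ) / 3) :=
        Real.rpow_le_rpow (by positivity) h1 (by norm_num)
    _ = (18 * Y ^ 3 * k) ^ ((2 : ℝ) / 3) * (W ^ 2 * K⁻¹ * E) ^ ((2 : ℝ) / 3) :=
        Real.mul_rpow (by positivity) (by positivity)
    _ ≤ (18 * Y ^ 2 * k) * (W ^ ((4 : ℝ) / 3) * E ^ ((2 : ℝ) / 3) * K ^ (-(2 / 3) : ℝ)) := by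
        rw [h3]
        gcongr
    _ = _ := by ring

/-- sizes: everything is a power of `X0` -/
lemma size_le {δ R E K X G L X0 : ℝ} (hδ : 0 ≤ δ) (hδ1 : δ ≤ 1) (hK : 1 ≤ K) (hE : 1 ≤ E)
    (hX : 1 ≤ X) (hG : 1 ≤ G) (hX0 : 3 ≤ X0) (hR : 0 ≤ R) (hXX : X ≤ Real.exp R * X0)
    (hEX : E ≤ X0) (hL : L ≤ X ^ δ * K ^ δ * (2 * ((X / G) ^ 2 / K)) * E) :
    L ≤ 2 * X ^ 3 * E ∧ X ≤ X0 ^ (R + 1) ∧ L * (9 * X ^ 2) * X ≤ X0 ^ (6 * R + 10) ∧
      L * (Real.exp 1 * X) ≤ X0 ^ (6 * R + 10) := by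
  have hX00 : 0 < X0 := by linarith
  have hKp : 0 < K := by linarith
  have hX01 : 1 ≤ X0 := by linarith
  have h1 : L ≤ 2 * X ^ 3 * E := by
    have a1 : X ^ δ ≤ X := by
      calc X ^ δ ≤ X ^ (1 : ℝ) := Real.rpow_le_rpow_of_exponent_le hX hδ1
        _ = X := Real.rpow_one _
    have a2 : K ^ δ ≤ K := by
      calc K ^ δ ≤ K ^ (1 : ℝ) := Real.rpow_le_rpow_of_exponent_le hK hδ1
        _ = K := Real.rpow_one _
    have a3 : X / G ≤ X := div_le_self (by linarith) hG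
    have a4 : 0 ≤ X / G := by positivity
    calc L ≤ X ^ δ * K ^ δ * (2 * ((X / G) ^ 2 / K)) * E := hL
      _ ≤ X * K * (2 * (X ^ 2 / K)) * E := by gcongr
      _ = _ := by field_simp
  have h2 : X ≤ X0 ^ (R + 1) := by
    refine hXX.trans ?_
    rw [Real.rpow_add hX00, Real.rpow_one]
    exact mul_le_mul_of_nonneg_right (exp_le_rpow hX0 hR) (by linarith)
  have h6 : X ^ 6 ≤ X0 ^ (6 * R + 6) := by
    calc X ^ 6 ≤ (X0 ^ (R + 1)) ^ 6 := pow_le_pow_left₀ (by linarith) h2 6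
      _ = X0 ^ (6 * R + 6) := by
        rw [← Real.rpow_natCast, ← Real.rpow_mul hX00.le]
        congr 1; push_cast; ring
  have h18 : (18 : ℝ) ≤ X0 ^ (3 : ℝ) := by
    have : X0 ^ (3 : ℝ) = X0 ^ 3 := by
      rw [← Real.rpow_natCast]; norm_num
    rw [this]
    calc (18 : ℝ) ≤ 3 ^ 3 := by norm_num
      _ ≤ X0 ^ 3 := pow_le_pow_left₀ (by norm_num) hX0 3
  have hall : 18 * X ^ 6 * X0 ≤ X0 ^ (6 * R + 10) := by
    calc 18 * X ^ 6 * X0 ≤ X0 ^ (3 : ℝ) * X0 ^ (6 * R + 6) * X0 ^ (1 : ℝ) := by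
          rw [Real.rpow_one]; gcongr
      _ = X0 ^ (6 * R + 10) := by
        rw [← Real.rpow_add hX00, ← Real.rpow_add hX00]; congr 1; ring
  refine ⟨h1, h2, ?_, ?_⟩
  · calc L * (9 * X ^ 2) * X ≤ (2 * X ^ 3 * E) * (9 * X ^ 2) * X := by gcongr
      _ = 18 * X ^ 6 * E := by ring
      _ ≤ 18 * X ^ 6 * X0 := by gcongr
      _ ≤ _ := hall
  · have he : Real.exp 1 ≤ 3 := by
      have := Real.exp_one_lt_d9
      linarith
    have h4 : X ^ 4 ≤ X ^ 6 := pow_le_pow_right₀ hX (by norm_num)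
    calc L * (Real.exp 1 * X) ≤ (2 * X ^ 3 * E) * (3 * X) := by gcongr
      _ = 6 * X ^ 4 * E := by ring
      _ ≤ 18 * X ^ 6 * X0 := by
        have : (6 : ℝ) ≤ 18 := by norm_num
        gcongr
      _ ≤ _ := hall

set_option maxHeartbeats 2000000 in
/-- **all dual bias terms of one step** -/
theorem bias_DD {h : ℝ → ℝ} {c : ℝ} (hpu : PU h c) (N : ℕ) {B R : ℝ} (hB : 0 ≤ B) (hR : 0 ≤ R)
    {δ : ℝ} (hδ : 0 < δ) (hδ1 : δ ≤ 1 / 40) {ε : ℝ} (hε : 0 < ε) {M : ℕ} (hM : 8 ≤ M) :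
    ∃ C : ℝ, 1 ≤ C ∧ ∀ (τ : Type) [Fintype τ] [DecidableEq τ], Fintype.card τ ≤ N →
      ∀ X0 : ℝ, 3 ≤ X0 → ∀ (s s' : τ → Pc) (i1 i2 : τ) (sh : ℝ), Shf s s' i1 i2 sh →
      (∀ i, (s i).OK) → (s i1).u = .one → (s i2).u = .one →
      ∑ i ∈ (Finset.univ.erase i1).erase i2, Real.log (s i).Y ≤ B * Real.log X0 →
      ∀ ρ1 ρ2 : Eis, ρ1 ≠ 0 → ρ2 ≠ 0 → (nm ρ1 : ℝ) ≤ X0 ^ B → (nm ρ2 : ℝ) ≤ X0 ^ B →
      (∀ b, IsPrim b → (s i1).ψ b = prin0 ρ1 b) → (∀ b, IsPrim b → (s i2).ψ b = prin0 ρ2 b) →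
      ∀ d0 : ℝ, d0 ≤ Real.log (s i1).Y → d0 ≤ Real.log (s i2).Y → d0 ≤ Real.log (s i1).Y + sh →
      d0 ≤ Real.log (s i2).Y - sh → d0 ≤ B * Real.log X0 → ∀ q : Eis, q ≠ 0 →
      (nm q : ℝ) ≤ X0 ^ B → ∀ X K E : ℝ, X = Real.exp (∑ i, Real.log (s i).Y + R) → 1 ≤ X →
      X ≤ Real.exp R * X0 → Supp (xA h q s s' i1 i2 sh) X → 1 ≤ K → K ≤ X0 → 1 ≤ E → E ≤ X0 →
      ∀ g ∈ S X, K ≤ (X / nm g) ^ 2 →
      (open Classical in
      ∑ d ∈ (S (X / nm g)).filter (fun d => (nm d : ℝ) ≤ X ^ δ),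
        ∑ e ∈ (S (X / nm g)).filter (· ∣ d),
          ∑ f ∈ S X, K / nm f * DIB M δ (xA h q s s' i1 i2 sh) X (g * d) e f
            (Lde (X / nm g) K δ d e * E)) ≤
        C * X0 ^ (30 * δ + ε) * ((1 + |(s i1).t|) * (1 + |(s i2).t|)) ^ 6 *
          (K ^ ((1 : ℝ) / 3) * E ^ ((2 : ℝ) / 3) *
            Real.exp (2 * (∑ i, Real.log (s i).Y) - d0) / nm g) := by
  classical
  set B' : ℝ := B + 6 * R + 11 with hB'
  have hB'0 : 0 ≤ B' := by linarith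
  set ε₂ : ℝ := ε / (4 * B') with hε₂
  have hε₂0 : 0 < ε₂ := by rw [hε₂]; positivity
  obtain ⟨C1, hC1, hbw⟩ := bias_w hpu N hB'0 hδ.le (ε := ε / 4) (by positivity)
  obtain ⟨C2, hC2, hτ⟩ := tau_le_rpow hε₂0
  obtain ⟨C3, hC3, hth⟩ := Dk848.sum_th_sq
  have hM6 : (6 : ℝ) + 1 ≤ M := by
    have : (8 : ℝ) ≤ M := by exact_mod_cast hM
    linarith
  have hIM : 0 ≤ IM M 6 := IM_nonneg M 6
  have hpC := pC_pos
  set Ca : ℝ := 256 * (IM M 6 * pC ^ 2 * C1 ^ 2 * (C2 * C3 * Real.exp (2 / 3) * 18)) with hCa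
  have hCa0 : 0 ≤ Ca := by rw [hCa]; positivity
  refine ⟨Ca * ((1 + 1 / δ) * Real.exp (10 * R)) + 1, by
    have : 0 ≤ Ca * ((1 + 1 / δ) * Real.exp (10 * R)) := by positivity
    linarith, ?_⟩
  intro τ _ _ hcard X0 hX0 s s' i1 i2 sh hs hok hu1 hu2 hL ρ1 ρ2 hρ1 hρ2 hn1 hn2 hp1 hp2 d0
    hy1 hy2 hy3 hy4 hd0 q hq hqX X K E hX hX1 hXX hsupp hK hKX hE hEX g hg hKg
  have hX00 : 0 < X0 := by linarith
  have hX01 : 1 ≤ X0 := by linarith
  have hlX0 : 0 ≤ Real.log X0 := Real.log_nonneg hX01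
  have hXp : 0 < X := by linarith
  have hlX : 0 ≤ Real.log X := Real.log_nonneg hX1
  have up : X0 ^ B ≤ X0 ^ B' := Real.rpow_le_rpow_of_exponent_le hX01 (by linarith)
  have upl : ∀ x : ℝ, x ≤ B * Real.log X0 → x ≤ B' * Real.log X0 := fun x hx =>
    hx.trans (mul_le_mul_of_nonneg_right (by linarith) hlX0)
  have up10 : X0 ^ (6 * R + 10) ≤ X0 ^ B' := Real.rpow_le_rpow_of_exponent_le hX01 (by linarith)
  obtain ⟨hgX, hgp, hgs⟩ := (mem_S hXp.le).1 hg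
  have hg1 := one_le_nm' hgp
  set G : ℝ := (nm g : ℝ) with hG
  have hGp : 0 < G := by linarith
  set X' : ℝ := X / G with hX'
  have hX'1 : 1 ≤ X' := by rw [hX', le_div_iff₀ hGp]; linarith
  have hX'X : X' ≤ X := div_le_self hXp.le hg1
  have hX'n : 0 ≤ X' := by linarith
  set len : ℝ := ∑ i, Real.log (s i).Y with hlen
  set T6 : ℝ := ((1 + |(s i1).t|) * (1 + |(s i2).t|)) ^ 6 with hT6
  have hT60 : 0 ≤ T6 := by rw [hT6]; positivity
  set P : ℝ := X0 ^ (ε / 4) with hP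
  have hP0 : 0 ≤ P := by positivity
  set Ex : ℝ := Real.exp ((2 / 3 + 2 * δ) * len - d0) with hEx
  have hEx0 : 0 ≤ Ex := (Real.exp_pos _).le
  set F : ℝ := (X ^ δ) ^ 2 * K ^ δ * ((X / G) ^ ((4 : ℝ) / 3) * E ^ ((2 : ℝ) / 3) *
        K ^ (-(2 / 3) : ℝ)) with hF
  have hF0 : 0 ≤ F := by rw [hF]; positivity
  have hY1 : 1 ≤ X ^ δ := Real.one_le_rpow hX1 hδ.le
  -- one pair `(d, e)`
  set Q : ℝ := (IM M 6 * pC ^ 2 * C1 ^ 2 * (C2 * C3 * Real.exp (2 / 3) * 18)) *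
    (P ^ 2 * P * T6 * ((K * Ex) * (G ^ ((1 : ℝ) / 3) * X ^ δ)) * ((Real.log X + 1) * F)) with hQ
  have hQ0 : 0 ≤ Q := by rw [hQ]; positivity
  have hpair : ∀ d ∈ (S X').filter (fun d => (nm d : ℝ) ≤ X ^ δ),
      ∀ e ∈ (S X').filter (· ∣ d), ∑ f ∈ S X, K / nm f *
        DIB M δ (xA h q s s' i1 i2 sh) X (g * d) e f (Lde X' K δ d e * E) ≤ Q := by
    intro d hd e he
    have hd' := mem_de hX'n hd
    have hdp := hd'.1
    have he' : IsPrim e ∧ (nm e : ℝ) ≤ nm d := by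
      rw [Finset.mem_filter, mem_S hX'n] at he
      exact ⟨he.1.2.1, by exact_mod_cast nm_le_of_dvd hdp.ne_zero he.2⟩
    have hep := he'.1
    have hd1 := one_le_nm' hdp
    have he1 := one_le_nm' hep
    have hdX : (nm d : ℝ) ≤ X := hd'.2.2.trans hX'X
    have heX : (nm e : ℝ) ≤ X := he'.2.trans hdX
    have heY : (nm e : ℝ) ≤ X ^ δ := he'.2.trans hd'.2.1
    set L : ℝ := Lde X' K δ d e * E with hLd
    have hL1' : 1 ≤ Lde X' K δ d e := one_le_LdeB hX'1 hK hδ.le d e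
    have hL1 : 1 ≤ L := one_le_mul_of_one_le_of_one_le hL1' hE
    have hL0 : 0 ≤ L := by linarith
    have hLb : L ≤ X ^ δ * K ^ δ * (2 * ((X / G) ^ 2 / K)) * E :=
      mul_le_mul_of_nonneg_right (Lde_le2 hδ hK hX'1 hX'X hKg hdp he'.2) (by linarith)
    obtain ⟨z1, z2, z3, z4⟩ := size_le hδ.le (by linarith) hK hE hX1 hg1 hX0 hR hXX hEX hLb
    set ce : Eis := (e * sq3) ^ 2 with hce
    have hce0 : ce ≠ 0 := by
      rw [hce]
      exact pow_ne_zero 2 (mul_ne_zero hep.ne_zero sq3_ne_zero')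
    have hnce : ((nm ce : ℕ) : ℝ) = 9 * (nm e : ℝ) ^ 2 := by rw [hce, nm_sq3_sq]
    -- one `f`
    have hf1 : ∀ f ∈ S X, K / nm f * DIB M δ (xA h q s s' i1 i2 sh) X (g * d) e f L ≤
        (IM M 6 * pC ^ 2 * C1 ^ 2 * (P ^ 2 * T6 * ((K * Ex) * (G ^ ((1 : ℝ) / 3) * X ^ δ)))) *
          ((nm f : ℝ) ^ (-(2 / 3) : ℝ) * ∑ l ∈ bl L, ‖th (l * f * ce)‖ ^ 2) := by
      intro f hf
      obtain ⟨hfX, hfp, hfs⟩ := (mem_S hXp.le).1 hf
      have hf1 := one_le_nm' hfp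
      have hgdf : IsPrim (g * d * f) := (hgp.mul hdp).mul hfp
      have hngdf : ((nm (g * d * f) : ℕ) : ℝ) = G * nm d * nm f := by
        rw [nm_mul, nm_mul]; push_cast; rfl
      have hgdfX : ((nm (g * d * f) : ℕ) : ℝ) ≤ X0 ^ B' := by
        rw [hngdf]
        calc G * nm d * nm f ≤ X * X * X := by gcongr
          _ ≤ X0 ^ (R + 1) * X0 ^ (R + 1) * X0 ^ (R + 1) := by gcongr
          _ = X0 ^ (3 * R + 3) := by
            rw [← Real.rpow_add hX00, ← Real.rpow_add hX00]; congr 1; ring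
          _ ≤ _ := Real.rpow_le_rpow_of_exponent_le hX01 (by linarith)
      have hgdf1 := one_le_nm' hgdf
      set Gt : ℝ := ((nm (g * d * f) : ℕ) : ℝ) with hGt
      have hMg : (Mg d0 (g * d * f)) ^ 2 ≤ Gt * Real.exp (-d0) := Mg_sq_le _ _
      set Qf : ℝ := C1 * P * ((Real.exp len / Gt) ^ (1 / 3 + δ) * Mg d0 (g * d * f)) with hQf
      have hMg0 : 0 ≤ Mg d0 (g * d * f) := by unfold ExD791.Mg; positivity
      have hQf0 : 0 ≤ Qf := by rw [hQf]; positivity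
      have hpt : ∀ l ∈ bl L, ∀ t : ℝ, ‖∑ k ∈ S X, xA h q s s' i1 i2 sh (g * d * f * k) *
          (md (l * (e * sq3) ^ 2 * f) k : ℂ) * (nm k : ℂ) ^ ((δ : ℂ) + t * Complex.I - 1 / 2)‖ ≤
          Qf * ((1 + |(s i1).t + t|) * (1 + |(s i2).t + t|)) ^ 3 := by
        intro l hl t
        rw [mem_bl hL0] at hl
        have hr0 : l * (e * sq3) ^ 2 * f ≠ 0 := mul_ne_zero (mul_ne_zero hl.1 hce0) hfp.ne_zero
        have hrX : ((nm (l * (e * sq3) ^ 2 * f) : ℕ) : ℝ) ≤ X0 ^ B' := by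
          rw [nm_mul, nm_mul]
          push_cast
          rw [← hce, hnce]
          calc (nm l : ℝ) * (9 * (nm e : ℝ) ^ 2) * nm f ≤ L * (9 * X ^ 2) * X := by
                have := hl.2
                gcongr
            _ ≤ _ := z3.trans up10
        have h1 := hbw τ hcard X0 hX0 s s' i1 i2 sh hs hok hu1 hu2 (upl _ hL) ρ1 ρ2 hρ1 hρ2
          (hn1.trans up) (hn2.trans up) hp1 hp2 _ hr0 hrX d0 hy1 hy2 hy3 hy4 (upl _ hd0) q
          (g * d * f) hq (hqX.trans up) hgdf hgdfX X hXp.le hsupp t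
        refine h1.trans (le_of_eq ?_)
        rw [hQf, hP, hGt, hlen]
        ring
      have h2 := DIB_le hM (σ := δ) hXp.le (x := xA h q s s' i1 i2 sh) (d := g * d) (e := e)
        (f := f) (L := L) hQf0 hpt
      have h3 := Qsq (δ := δ) (len := len) (d0 := d0) hδ.le hgdf1 hMg
      have h4 : Qf ^ 2 ≤ C1 ^ 2 * P ^ 2 * (Ex * Gt ^ ((1 : ℝ) / 3)) := by
        rw [hQf, mul_pow, mul_pow]
        exact mul_le_mul_of_nonneg_left h3 (by positivity)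
      have h5 : Gt ^ ((1 : ℝ) / 3) ≤ G ^ ((1 : ℝ) / 3) * X ^ δ * (nm f : ℝ) ^ ((1 : ℝ) / 3) := by
        rw [hngdf, Real.mul_rpow (by positivity) (by positivity),
          Real.mul_rpow (by positivity) (by positivity)]
        have a1 : (nm d : ℝ) ^ ((1 : ℝ) / 3) ≤ X ^ δ := by
          calc (nm d : ℝ) ^ ((1 : ℝ) / 3) ≤ (nm d : ℝ) ^ (1 : ℝ) :=
                Real.rpow_le_rpow_of_exponent_le hd1 (by norm_num)
            _ = nm d := Real.rpow_one _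
            _ ≤ _ := hd'.2.1
        gcongr
      have h6 : (nm f : ℝ) ^ (-(2 / 3) : ℝ) = (nm f : ℝ) ^ ((1 : ℝ) / 3) / nm f := by
        have : (-(2 / 3) : ℝ) = 1 / 3 - 1 := by norm_num
        rw [this, Real.rpow_sub (by linarith), Real.rpow_one]
      have h7 : ∑ l ∈ bl L, ‖th (l * (e * sq3) ^ 2 * f)‖ ^ 2 =
          ∑ l ∈ bl L, ‖th (l * f * ce)‖ ^ 2 := by
        refine Finset.sum_congr rfl fun l _ => ?_
        rw [hce, mul_right_comm]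
      have h8 : 0 ≤ ∑ l ∈ bl L, ‖th (l * f * ce)‖ ^ 2 :=
        Finset.sum_nonneg fun _ _ => by positivity
      rw [h7] at h2
      calc K / nm f * DIB M δ (xA h q s s' i1 i2 sh) X (g * d) e f L
          ≤ K / nm f * (IM M 6 * ((pC ^ 2 * Qf ^ 2 * T6) *
            ∑ l ∈ bl L, ‖th (l * f * ce)‖ ^ 2)) := by
            refine mul_le_mul_of_nonneg_left h2 (by positivity)
        _ ≤ K / nm f * (IM M 6 * ((pC ^ 2 * (C1 ^ 2 * P ^ 2 *
            (Ex * (G ^ ((1 : ℝ) / 3) * X ^ δ * (nm f : ℝ) ^ ((1 : ℝ) / 3)))) * T6) *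
            ∑ l ∈ bl L, ‖th (l * f * ce)‖ ^ 2)) := by
            have h9 : Qf ^ 2 ≤ C1 ^ 2 * P ^ 2 *
                (Ex * (G ^ ((1 : ℝ) / 3) * X ^ δ * (nm f : ℝ) ^ ((1 : ℝ) / 3))) :=
              h4.trans (by gcongr)
            gcongr
        _ = _ := by rw [h6]; ring
    refine (Finset.sum_le_sum hf1).trans ?_
    rw [← Finset.mul_sum]
    -- the sum over `f`
    have hDm : ∀ r : Eis, r ≠ 0 → (nm r : ℝ) ≤ L * (Real.exp 1 * X) → (tau r : ℝ) ≤ C2 * P := by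
      intro r hr hrn
      have hn0 : (0 : ℝ) ≤ nm r := Nat.cast_nonneg _
      calc (tau r : ℝ) ≤ C2 * (nm r : ℝ) ^ ε₂ := hτ r hr
        _ ≤ C2 * (X0 ^ B') ^ ε₂ := by
          have := Real.rpow_le_rpow hn0 (hrn.trans (z4.trans up10)) hε₂0.le
          gcongr
        _ = C2 * P := by
          rw [← Real.rpow_mul hX00.le, hP, hε₂]
          congr 2
          have : B' ≠ 0 := by rw [hB']; positivity
          field_simp
    have hsf := sum_f hC3 hth (Dm := C2 * P) (by positivity) hL1 hX1 hce0 hDm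
    have hLn := Lnc_le (ne := (nm e : ℝ)) hδ.le hK hE hX1 hg1 hL0 hLb (by linarith) heY
    rw [← hnce] at hLn
    calc _ ≤ (IM M 6 * pC ^ 2 * C1 ^ 2 * (P ^ 2 * T6 * ((K * Ex) * (G ^ ((1 : ℝ) / 3) * X ^ δ)))) *
          ((Real.log X + 1) * (C2 * P * C3 * Real.exp (2 / 3) * (18 * F))) := by
          refine mul_le_mul_of_nonneg_left (hsf.trans ?_) (by positivity)
          gcongr
      _ = Q := by rw [hQ]; ring
  have hcd := card_de hY1 Q hQ0 ((S X').filter (fun d => (nm d : ℝ) ≤ X ^ δ))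
    (fun d => (S X').filter (· ∣ d)) (fun d hd => by
      have := mem_de hX'n hd
      exact ⟨this.1, this.2.1⟩) (fun d hd e he => by
      have h1 := mem_de hX'n hd
      rw [Finset.mem_filter, mem_S hX'n] at he
      exact ⟨he.1.2.1, by exact_mod_cast nm_le_of_dvd h1.1.ne_zero he.2⟩) _ hpair
  refine hcd.trans ?_
  have hla := last_alg (δ := δ) (ε := ε) (R := R) (len := len) (d0 := d0) (K := K) (E := E)
    (X := X) (G := G) hδ hδ1 hR hg1 hK hE hX hX1 hX0 hXX hKX hε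
  calc 256 * (X ^ δ) ^ 2 * Q = Ca * T6 * (P ^ 2 * P * (X ^ δ) ^ 2 *
        ((K * Ex) * (G ^ ((1 : ℝ) / 3) * X ^ δ)) * ((Real.log X + 1) * F)) := by
        rw [hQ, hCa]; ring
    _ ≤ Ca * T6 * ((1 + 1 / δ) * Real.exp (10 * R) * X0 ^ (30 * δ + ε) *
      (K ^ ((1 : ℝ) / 3) * E ^ ((2 : ℝ) / 3) * Real.exp (2 * len - d0) / G)) := by
        refine mul_le_mul_of_nonneg_left hla (by positivity)
    _ = (Ca * ((1 + 1 / δ) * Real.exp (10 * R))) * (X0 ^ (30 * δ + ε) * T6 *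
      (K ^ ((1 : ℝ) / 3) * E ^ ((2 : ℝ) / 3) * Real.exp (2 * len - d0) / G)) := by ring
    _ ≤ (Ca * ((1 + 1 / δ) * Real.exp (10 * R)) + 1) * (X0 ^ (30 * δ + ε) * T6 *
      (K ^ ((1 : ℝ) / 3) * E ^ ((2 : ℝ) / 3) * Real.exp (2 * len - d0) / G)) := by
        refine mul_le_mul_of_nonneg_right (by linarith) (by positivity)
    _ = _ := by ring

end Crest.Agent.R017.XB241
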