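import Crest.Agent.R017.XBox_146
import Crest.Agent.R017.SupI_271

/-!
# Row 17, provider: absolute boxes, the literal instance (helper146)

* `Sq Q`, `vq` : the `k` with `Q k` and the value of a piece; `FF_RQ`, `FF_BQ`
* `supG_q` : the pointwise bound in the form `SupG` (input of 702's `level`)
* `card_q`
* `sup1_BQ` : removal of one piece from the box
* `bbox`, `expBox` : `ExpBox θ (ex Dq Rp) (ex Dq Bp)`
-/

set_option autoImplicit false

noncomputable section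

open Complex Finset
open scoped ComplexConjugate ContDiff

namespace Crest.Agent.R017.XBx146

open Crest.Agent.R012 Crest.Agent.R012.Eis Crest.Agent.R012.LS2
open Crest.Agent.R017.CM106 Crest.Agent.R017.FE47 Crest.Agent.R017.End699
open Crest.Agent.R017.XG702 Crest.Agent.R017.ER911
open Crest.Agent.R017.B770 Crest.Agent.R017.XSup271
open Crest.Agent.R017.HP842 (pc)
open Crest.Agent.R017.Prov71 (Kd wt wt_nonneg ex Pq chK Dq RQ BQ Rp Bp Qp Pinv Okl Triv RQ_nonneg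
  BQ_nonneg pinv_Rp pinv_Bp RQ_perm BQ_perm)

open Classical in
/-- the admissible `k` -/
def Sq (Q : Eis → Prop) (l : ℝ) : Finset Eis := (bl (Real.exp l)).filter Q

/-- the value of a piece -/
def vq (P : DPar) (h : ℝ → ℝ) (p : Pq) (k : Eis) : ℝ := ‖CS (pc h (p.pc P)) k‖

lemma vq_nonneg (P : DPar) (h : ℝ → ℝ) (p : Pq) (k : Eis) : 0 ≤ vq P h p k := norm_nonneg _

theorem FF_RQ (Q : Eis → Prop) (P : DPar) (h : ℝ → ℝ) (l : ℝ) (ps : List Pq) :
    FF (Sq Q) (vq P h) 2 l ps = RQ Q h l (ps.map (Pq.pc P)) := by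
  unfold FF RQ Sq
  refine Finset.sum_congr rfl fun k _ => ?_
  rw [List.map_map]
  unfold pvl
  induction ps with
  | nil => simp
  | cons p ps ih =>
    rw [List.map_cons, List.prod_cons, mul_pow, ih, List.map_cons, List.prod_cons]
    rfl

theorem FF_BQ (Q : Eis → Prop) (P : DPar) (h : ℝ → ℝ) (l : ℝ) (ps : List Pq) :
    FF (Sq Q) (vq P h) 1 l ps = BQ Q h l (ps.map (Pq.pc P)) := by
  unfold FF BQ Sq
  refine Finset.sum_congr rfl fun k _ => ?_
  rw [pow_one, List.map_map]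
  rfl

theorem card_q (Q : Eis → Prop) (l : ℝ) :
    ((Sq Q l).card : ℝ) ≤ 16 * Real.exp (max l 0) := by
  classical
  have h1 : ((Sq Q l).card : ℝ) ≤ ((bl (Real.exp l)).card : ℝ) := by
    exact_mod_cast Finset.card_le_card (Finset.filter_subset _ _)
  refine h1.trans ((CR2.card_bl_le (Real.exp_pos l).le).trans ?_)
  have := Real.exp_le_exp.mpr (le_max_left l 0)
  linarith

/-- **the pointwise bound in the form `SupG`** -/
theorem supG_q {θ : ℝ} (hθ : 1 / 2 < θ) (hθ1 : θ ≤ 1) (hPF : PF Set.univ θ)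
    {h : ℝ → ℝ} (hd : ContDiff ℝ ∞ h) (hc : HasCompactSupport h) {Lam : Type*}
    {π : Lam → DPar} (hP : ∀ lam, (π lam).OK) {Q : Lam → Eis → Prop}
    (hQ : ∀ lam k, Q lam k → (π lam).NP2 k) :
    SupG Dq (fun lam => Sq (Q lam)) (fun lam => vq (π lam) h) θ := by
  classical
  intro ε hε lam B
  set s : ℝ := min 1 (ε / (2 * (4 * |B| + 1))) with hs
  have hs0 : 0 < s := lt_min one_pos (by positivity)
  have hs1 : s ≤ 1 := min_le_left _ _
  have hs2 : 2 * ((4 * |B| + 1) * s) ≤ ε := by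
    have : s ≤ ε / (2 * (4 * |B| + 1)) := min_le_right _ _
    rw [le_div_iff₀ (by positivity)] at this
    linarith
  obtain ⟨C, hC1, hC⟩ := SupI271.sup_pq hθ hθ1 hPF hs0 hs1 hd hc (hP lam)
  obtain ⟨X₁, hX₁, H₁⟩ := exists_large C (ε / 2) (by positivity)
  refine ⟨1, one_pos, X₁, hX₁, ?_⟩
  intro X hX k p hkB hnl hgood i hi
  have hX1 : 1 < X := hX₁.trans_le hX
  have hX0 : 0 < X := by linarith
  have hlog : 0 < Real.log X := Real.log_pos hX1
  obtain ⟨g1, g2, g3⟩ := hgood p (List.mem_singleton.mpr rfl)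
  simp only [Prov71.Dq_s1, Prov71.Dq_s2, Prov71.Dq_len] at g1 g2 g3
  have hnl' : Dq.nl X p * Real.log X = p.z := by
    unfold Pcs.nl
    rw [Prov71.Dq_len]
    exact div_mul_cancel₀ _ hlog.ne'
  have hnl0 : 0 ≤ Dq.nl X p := by
    unfold Pcs.nl
    rw [Prov71.Dq_len]
    exact div_nonneg g3 hlog.le
  unfold Sq at hi
  rw [Finset.mem_filter, mem_bl (Real.exp_pos _).le] at hi
  have h1 := hC p i hi.1.1 (hQ lam i hi.2)
  have hB := le_abs_self B
  have hB0 := abs_nonneg B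
  have hni : (nm i : ℝ) ≤ X ^ |B| := by
    refine hi.1.2.trans ?_
    rw [Real.rpow_def_of_pos hX0]
    refine Real.exp_le_exp.mpr ?_
    rw [mul_comm]
    exact mul_le_mul_of_nonneg_left (hkB.trans hB) hlog.le
  have hnd : (nm p.d : ℝ) ≤ X ^ |B| :=
    g2.trans (Real.rpow_le_rpow_of_exponent_le hX1.le hB)
  have h2 : ((nm p.d : ℝ) * nm i * (1 + |p.t|)) ^ s ≤ X ^ ((2 * |B| + 1) * s) := by
    rw [Real.rpow_mul hX0.le]
    refine Real.rpow_le_rpow (by positivity) ?_ hs0.le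
    calc (nm p.d : ℝ) * nm i * (1 + |p.t|) ≤ X ^ |B| * X ^ |B| * X ^ (1 : ℝ) := by gcongr
      _ = _ := by
        rw [← Real.rpow_add hX0, ← Real.rpow_add hX0]
        congr 1; ring
  have h3 : Real.exp ((θ + s) * p.z) ≤ X ^ (θ * Dq.nl X p + |B| * s) := by
    rw [Real.rpow_def_of_pos hX0]
    refine Real.exp_le_exp.mpr ?_
    rw [← hnl']
    have h4 : Dq.nl X p * s ≤ |B| * s := mul_le_mul_of_nonneg_right (hnl.trans hB) hs0.le
    nlinarith
  show ‖CS (pc h (p.pc (π lam))) i‖ ≤ _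
  calc ‖CS (pc h (p.pc (π lam))) i‖ ≤ C * ((((nm p.d : ℝ) * nm i * (1 + |p.t|)) ^ s) *
        Real.exp ((θ + s) * p.z)) := h1
    _ ≤ X ^ (ε / 2) * (X ^ ((2 * |B| + 1) * s) * X ^ (θ * Dq.nl X p + |B| * s)) := by
        have := H₁ X hX
        gcongr
    _ = X ^ (ε / 2 + ((2 * |B| + 1) * s + (θ * Dq.nl X p + |B| * s))) := by
        rw [← Real.rpow_add hX0, ← Real.rpow_add hX0]
    _ ≤ _ := by
        refine Real.rpow_le_rpow_of_exponent_le hX1.le ?_
        have : 0 ≤ |B| * s := by positivity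
        linarith

/-- removal of one piece from the box -/
theorem sup1_BQ {θ : ℝ} (hθ : 1 / 2 < θ) (hθ1 : θ ≤ 1) (hPF : PF Set.univ θ)
    {h : ℝ → ℝ} (hd : ContDiff ℝ ∞ h) (hc : HasCompactSupport h) {P : DPar} (hP : P.OK)
    {Q : Eis → Prop} (hQ : ∀ k, Q k → P.NP2 k) :
    Sup1 (θ / 2) Dq (fun l ps => BQ Q h l (ps.map (Pq.pc P))) := by
  classical
  intro ε hε
  set s : ℝ := min 1 ε with hs
  have hs0 : 0 < s := lt_min one_pos hε
  have hs1 : s ≤ 1 := min_le_left _ _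
  have hs2 : s ≤ ε := min_le_right _ _
  obtain ⟨C, hC1, hC⟩ := SupI271.sup_pq hθ hθ1 hPF hs0 hs1 hd hc hP
  refine ⟨C, hC1, fun l p ps hlen => ?_⟩
  simp only [Prov71.Dq_len, Prov71.Dq_s1, Prov71.Dq_s2] at hlen ⊢
  unfold BQ
  rw [Finset.mul_sum]
  refine Finset.sum_le_sum fun k hk => ?_
  rw [Finset.mem_filter, mem_bl (Real.exp_pos _).le] at hk
  rw [List.map_cons, List.map_cons, List.prod_cons]
  refine mul_le_mul_of_nonneg_right ?_ (List.prod_nonneg ?_)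
  · have h1 := hC p k hk.1.1 (hQ k hk.2)
    have hd1 : (1 : ℝ) ≤ nm p.d := by exact_mod_cast nm_pos.mpr p.d0
    have ht1 : 1 ≤ 1 + |p.t| := by linarith [abs_nonneg p.t]
    have hk2 : (nm k : ℝ) ≤ Real.exp |l| := hk.1.2.trans (Real.exp_le_exp.mpr (le_abs_self l))
    have e1 : max 1 (1 + |p.t|) = 1 + |p.t| := max_eq_right ht1
    have e2 : max 1 (nm p.d : ℝ) = nm p.d := max_eq_right hd1
    rw [e1, e2]
    set Z : ℝ := (1 + |p.t|) * nm p.d * Real.exp |l| with hZ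
    have hZ1 : 1 ≤ Z := by
      rw [hZ]
      exact one_le_mul_of_one_le_of_one_le (one_le_mul_of_one_le_of_one_le ht1 hd1)
        (Real.one_le_exp (abs_nonneg l))
    have h2 : ((nm p.d : ℝ) * nm k * (1 + |p.t|)) ^ s ≤ Z ^ s := by
      refine Real.rpow_le_rpow (by positivity) ?_ hs0.le
      rw [hZ]
      calc (nm p.d : ℝ) * nm k * (1 + |p.t|) ≤ (nm p.d : ℝ) * Real.exp |l| * (1 + |p.t|) := by
            gcongr
        _ = _ := by ring
    have h4 : Z ^ s ≤ Z ^ ε := Real.rpow_le_rpow_of_exponent_le hZ1 hs2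
    have h5 : (θ + s) * p.z ≤ (2 * (θ / 2) + ε) * p.z := by
      refine mul_le_mul_of_nonneg_right ?_ hlen
      linarith
    calc ‖CS (pc h (p.pc P)) k‖ ≤ C * (Z ^ s * Real.exp ((θ + s) * p.z)) := by
          refine h1.trans ?_
          gcongr
      _ ≤ C * (Z ^ ε * Real.exp ((2 * (θ / 2) + ε) * p.z)) := by gcongr
      _ = _ := by ring
  · intro a ha
    obtain ⟨q, _, rfl⟩ := List.mem_map.1 ha
    positivity

instance : Nonempty Pq := ⟨⟨.mo, .one, 1, one_ne_zero, 0, 0⟩⟩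

/-- the second moments of the provider -/
def RF (Q : Eis → Prop) (P : DPar) (h : ℝ → ℝ) (l : ℝ) (ps : List Pq) : ℝ :=
  RQ Q h l (ps.map (Pq.pc P))

/-- the boxes of the provider -/
def BF (Q : Eis → Prop) (P : DPar) (h : ℝ → ℝ) (l : ℝ) (ps : List Pq) : ℝ :=
  BQ Q h l (ps.map (Pq.pc P))

lemma FF_RF (Q : Eis → Prop) (P : DPar) (h : ℝ → ℝ) : FF (Sq Q) (vq P h) 2 = RF Q P h := by
  funext l ps
  exact FF_RQ Q P h l ps

lemma FF_BF (Q : Eis → Prop) (P : DPar) (h : ℝ → ℝ) : FF (Sq Q) (vq P h) 1 = BF Q P h := by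
  funext l ps
  exact FF_BQ Q P h l ps

section

variable {θ : ℝ} (hθ : 1 / 2 < θ) (hθ1 : θ ≤ 1) (hPF : PF Set.univ θ)
    {h : ℝ → ℝ} {c₀ : ℝ} (hh : PU h c₀) {Lam : Type*} (π : Lam → DPar)
    (hP : ∀ lam, (π lam).OK) (Q : Lam → Eis → Prop) (hQ : ∀ lam k, Q lam k → (π lam).NP2 k)

lemma pinv_BF (h : ℝ → ℝ) : Pinv (fun lam => BF (Q lam) (π lam) h) :=
  fun _ l _ _ hp => BQ_perm _ h l (hp.map _)

lemma pinv_RF (h : ℝ → ℝ) : Pinv (fun lam => RF (Q lam) (π lam) h) :=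
  fun _ l _ _ hp => RQ_perm _ h l (hp.map _)

include hθ hθ1 hPF hh hP hQ

theorem sup_B (κ : ℝ) (u : List ℝ) (m a b c e : ℝ) (hκ : 0 ≤ κ) (hu : Okl u m a) (hb : 0 ≤ b)
    (hbm : b ≤ m) (hc : 0 ≤ c) (hca : c ≤ a)
    (H : BG Dq (fun lam => BF (Q lam) (π lam) h) κ u (wt (m - b) (a - c)) e) :
    BG Dq (fun lam => BF (Q lam) (π lam) h) κ u (wt m a) (θ * (b + c) + e) := by
  have h1 := BG_sup (D := Dq) (R := fun lam => BF (Q lam) (π lam) h) (θ := θ / 2) (by linarith)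
    (pinv_BF π Q h)
    (fun lam l ps => BQ_nonneg _ _ _ _)
    (fun lam => sup1_BQ hθ hθ1 hPF hh.cd hh.cs (hP lam) (hQ lam)) κ u m a b c e hκ hu hb hbm hc
    hca H
  have h2 : 2 * (θ / 2) * (b + c) + e = θ * (b + c) + e := by ring
  rw [h2] at h1
  exact h1

theorem supS_B (κ y : ℝ) (u : List ℝ) (m a e : ℝ) (hκ : 0 ≤ κ) (hy : 0 ≤ y)
    (H : BG Dq (fun lam => BF (Q lam) (π lam) h) κ u (wt m a) e) :
    BG Dq (fun lam => BF (Q lam) (π lam) h) κ (y :: u) (wt m a) (θ * y + e) := by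
  have h1 := BG_supS (D := Dq) (R := fun lam => BF (Q lam) (π lam) h) (θ := θ / 2) (by linarith)
    (fun lam l ps => BQ_nonneg _ _ _ _)
    (fun lam => sup1_BQ hθ hθ1 hPF hh.cd hh.cs (hP lam) (hQ lam)) κ y u m a e hκ hy H
  have h2 : 2 * (θ / 2) * y + e = θ * y + e := by ring
  rw [h2] at h1
  exact h1

/-- **the outer level rule of the provider** -/
theorem outer_B (N : ℕ) (u : Fin N → ℝ) (κ m a E : ℝ) (hκ : 0 ≤ κ) (hu : ∀ j, 0 ≤ u j)
    (hm : 0 ≤ m) (ha : 0 ≤ a)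
    (hcert : ∀ (x : Fin N → ℝ) (om α : ℝ), (∀ j, x j ≤ θ * u j) → om ≤ θ * m → α ≤ θ * a →
      (∃ (n : Fin N → ℕ) (f g e : ℝ), 0 ≤ f ∧ (m = 0 → f = 0) ∧ 0 ≤ g ∧ (a = 0 → g = 0) ∧
        BG Dq (fun lam => RF (Q lam) (π lam) h) κ (rep n u) (wt f g) e ∧
        e - 2 * ((∑ j, (n j : ℝ) * x j) + f * (om / m) + g * (α / a)) +
          ((∑ j, x j) + om + α) ≤ E) ∨
      κ + ((∑ j, x j) + om + α) ≤ E) :
    BG Dq (fun lam => BF (Q lam) (π lam) h) κ (List.ofFn u) (wt m a) E := by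
  have key := outer_of_level (D := Dq) (S := fun lam => Sq (Q lam))
    (v := fun lam => vq (π lam) h) (fun lam p i => vq_nonneg _ _ _ _) (by linarith)
    (supG_q hθ hθ1 hPF hh.cd hh.cs hP hQ) (fun lam => ⟨16, card_q (Q lam)⟩) hκ hu
    (w := wt m a) (wt_nonneg hm ha) (E := E)
  simp only [FF_RF, FF_BF] at key
  refine key fun x om hx hom => ?_
  rcases hcert x (om .mo) (om .am) hx (hom .mo) (hom .am) with
    ⟨n, f, g, e, h1, h2, h3, h4, h5, h6⟩ | h6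
  · refine Or.inl ⟨n, wt f g, e, wt_nonneg h1 h3, ?_, h5, ?_⟩
    · intro s hs
      cases s with
      | mo => exact h2 hs
      | am => exact h4 hs
    · rw [sum_Kd, sum_Kd]
      simp only [wt]
      linarith
  · refine Or.inr ?_
    rw [sum_Kd]
    linarith

/-- **the box rules of the provider** (any admissible set of `k`) -/
theorem bbox_Q (htriv : Triv Dq (fun lam => RF (Q lam) (π lam) h)) :
    BBox θ Dq (fun lam => RF (Q lam) (π lam) h) (fun lam => BF (Q lam) (π lam) h) where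
  permR := pinv_RF π Q h
  trivR := htriv
  permB := pinv_BF π Q h
  sup := sup_B hθ hθ1 hPF hh π hP Q hQ
  supS := fun κ y u m a e hκ hy _ H => supS_B hθ hθ1 hPF hh π hP Q hQ κ y u m a e hκ hy H
  outer := outer_B hθ hθ1 hPF hh π hP Q hQ

end

/-- **the box rules of the provider**, cube-free family -/
theorem bbox {θ : ℝ} (hθ : 1 / 2 < θ) (hθ1 : θ ≤ 1) (hPF : PF Set.univ θ)
    {h : ℝ → ℝ} {c₀ : ℝ} (hh : PU h c₀) {Lam : Type*} (π : Lam → DPar)
    (hP : ∀ lam, (π lam).OK) (htriv : Triv Dq (fun lam => Rp (π lam) h)) :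
    BBox θ Dq (fun lam => Rp (π lam) h) (fun lam => Bp (π lam) h) :=
  bbox_Q hθ hθ1 hPF hh π hP (fun lam => Qp (π lam)) (fun _ _ hk => hk.1) htriv

/-- **`ExpBox` of the provider** -/
theorem expBox {θ : ℝ} (hθ : 1 / 2 < θ) (hθ1 : θ ≤ 1) (hPF : PF Set.univ θ)
    {h : ℝ → ℝ} {c₀ : ℝ} (hh : PU h c₀) {Lam : Type*} (π : Lam → DPar)
    (hP : ∀ lam, (π lam).OK) (htriv : Triv Dq (fun lam => Rp (π lam) h)) :
    ExpBox θ (ex Dq (fun lam => Rp (π lam) h)) (ex Dq (fun lam => Bp (π lam) h)) :=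
  (bbox hθ hθ1 hPF hh π hP htriv).exp (by linarith)

end Crest.Agent.R017.XBx146
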