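import Crest.Agent.R017.XLv2_702
import Crest.Agent.R017.Prov_71

/-!
# Row 17, provider: absolute boxes (helper146)

* `BG_count` : the trivial monomial
* `BBox θ D R B`, `BBox.exp : BBox θ D R B → ExpBox θ (ex D R) (ex D B)`
* `outer_of_level` : the outer level rule for the functionals `FF S v 2`, `FF S v 1`
-/

set_option autoImplicit false
set_option linter.unusedSectionVars false

noncomputable section

open Finset

namespace Crest.Agent.R017.XBx146

open Crest.Agent.R017.XG702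
open Crest.Agent.R017.ER911
open Crest.Agent.R017.Prov71 (Kd wt wt_nonneg ex ex_nonneg ex_le ex_le' ex_spec BG_of_ex Pinv Okl Triv okl_of)

variable {Pc τ Lam ι : Type*} [DecidableEq τ]

/-! ### the trivial monomial -/

lemma sum_nl [Fintype τ] (D : Pcs Pc τ) (X : ℝ) (ps : List Pc) :
    (ps.map (D.nl X)).sum = ∑ t, D.mass X ps t := by
  induction ps with
  | nil => simp
  | cons p ps ih =>
    rw [List.map_cons, List.sum_cons, ih]
    simp_rw [Pcs.mass_cons]
    rw [Finset.sum_add_distrib, Finset.sum_ite_eq]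
    simp

lemma pvl_le {v : Pc → ι → ℝ} (hv : ∀ p i, 0 ≤ v p i) (D : Pcs Pc τ) {X θ ε' : ℝ} (hX : 0 < X)
    {i : ι} (ps : List Pc) (h : ∀ p ∈ ps, v p i ≤ X ^ (θ * D.nl X p + ε')) :
    pvl v ps i ≤ X ^ (θ * (ps.map (D.nl X)).sum + ps.length * ε') := by
  induction ps with
  | nil => simp [pvl]
  | cons p ps ih =>
    have e : pvl v (p :: ps) i = v p i * pvl v ps i := by simp [pvl]
    rw [e]
    calc v p i * pvl v ps i ≤ X ^ (θ * D.nl X p + ε') *
          X ^ (θ * (ps.map (D.nl X)).sum + ps.length * ε') :=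
          mul_le_mul (h p List.mem_cons_self) (ih fun q hq => h q (List.mem_cons_of_mem _ hq))
            (pvl_nonneg hv _ _) (Real.rpow_nonneg hX.le _)
      _ = _ := by
          rw [← Real.rpow_add hX, List.map_cons, List.sum_cons, List.length_cons]
          congr 1
          push_cast
          ring

/-- large powers -/
lemma exists_large (M a : ℝ) (ha : 0 < a) : ∃ X₀ : ℝ, 1 < X₀ ∧ ∀ X, X₀ ≤ X → M ≤ X ^ a := by
  have h := (tendsto_rpow_atTop ha).eventually (Filter.eventually_ge_atTop M)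
  rw [Filter.eventually_atTop] at h
  obtain ⟨X₁, h1⟩ := h
  exact ⟨max X₁ 2, lt_of_lt_of_le (by norm_num) (le_max_right _ _), fun X hX =>
    h1 X ((le_max_left _ _).trans hX)⟩

/-- **the trivial monomial**: number of the `k` -/
theorem BG_count [Fintype τ] {D : Pcs Pc τ} {S : Lam → ℝ → Finset ι} {v : Lam → Pc → ι → ℝ}
    (hv : ∀ lam p i, 0 ≤ v lam p i) {θ : ℝ} (hθ : 0 ≤ θ) (hsup : SupG D S v θ)
    (hcard : ∀ lam, ∃ C₀ : ℝ, ∀ l, ((S lam l).card : ℝ) ≤ C₀ * Real.exp (max l 0)) {κ : ℝ}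
    (hκ : 0 ≤ κ) : BG D (fun lam => FF (S lam) (v lam) 2) κ [] (fun _ => 0) κ := by
  classical
  intro ε hε
  set cτ : ℝ := (Fintype.card τ : ℝ) with hcτ
  have hcτ0 : 0 ≤ cτ := Nat.cast_nonneg _
  set δ : ℝ := min 1 (ε / (8 * (θ * cτ + 1))) with hδdef
  have hδ : 0 < δ := lt_min one_pos (by positivity)
  have hδ1 : δ ≤ 1 := min_le_left _ _
  have hδ2 : 8 * (θ * cτ * δ) + 8 * δ ≤ ε := by
    have : δ ≤ ε / (8 * (θ * cτ + 1)) := min_le_right _ _
    rw [le_div_iff₀ (by positivity)] at this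
    linarith
  have hθcδ : 0 ≤ θ * cτ * δ := by positivity
  refine ⟨δ, hδ, fun lam N B => ?_⟩
  set B₂ : ℝ := max B (κ + 2) with hB₂
  set ε' : ℝ := ε / (8 * (N + 1)) with hε'
  have hε'0 : 0 < ε' := by positivity
  have hNε : (N : ℝ) * ε' ≤ ε / 8 := by
    have h1 : ε' * (8 * (N + 1)) = ε := by rw [hε']; field_simp
    nlinarith
  obtain ⟨δ', hδ', X₁, hX₁, Hs⟩ := hsup ε' hε'0 lam B₂
  obtain ⟨C₀, hC₀⟩ := hcard lam
  obtain ⟨X₂, hX₂, H₂⟩ := exists_large C₀ (ε / 4) (by positivity)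
  refine ⟨δ', hδ', max X₁ X₂, lt_of_lt_of_le hX₁ (le_max_left _ _), ?_⟩
  intro X hX k us gs hk hnear hgran hgood
  have hX1 : 1 < X := hX₁.trans_le ((le_max_left _ _).trans hX)
  have hX0 : 0 < X := by linarith
  have hus : us = [] := by
    have := Near_length hnear
    exact List.length_eq_zero_iff.mp (by simpa using this)
  subst hus
  rw [List.nil_append] at hgood ⊢
  have hk2 := (abs_le.mp hk).2
  have hkB : k ≤ B₂ := by
    have := le_max_right B (κ + 2)
    linarith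
  -- pointwise
  have hpt : ∀ i ∈ S lam (k * Real.log X), pvl (v lam) gs i ≤ X ^ (θ * cτ * δ + ε / 8) := by
    intro i hi
    have h1 := pvl_le (v := v lam) (hv lam) D hX0 (θ := θ) (ε' := ε') (i := i) gs (fun p hp => by
      refine Hs X ((le_max_left _ _).trans hX) k p hkB ?_ ?_ i hi
      · have := hgran.2.1 p hp
        have := le_max_right B (κ + 2)
        linarith
      · intro q hq
        rw [List.mem_singleton] at hq
        subst hq
        have := hgood q hp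
        exact ⟨this.1, this.2.1.trans
          (Real.rpow_le_rpow_of_exponent_le hX1.le (le_max_left _ _)), this.2.2⟩)
    refine h1.trans (Real.rpow_le_rpow_of_exponent_le hX1.le ?_)
    have h2 : (gs.map (D.nl X)).sum ≤ cτ * δ := by
      rw [sum_nl]
      calc ∑ t, D.mass X gs t ≤ ∑ _t : τ, δ := Finset.sum_le_sum fun t _ => by
            have := (abs_le.mp (hgran.2.2 t)).2
            linarith
        _ = cτ * δ := by rw [Finset.sum_const, Finset.card_univ, nsmul_eq_mul]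
    have h3 : θ * (gs.map (D.nl X)).sum ≤ θ * (cτ * δ) := mul_le_mul_of_nonneg_left h2 hθ
    have h4 : (gs.length : ℝ) * ε' ≤ N * ε' :=
      mul_le_mul_of_nonneg_right (by exact_mod_cast hgran.1) hε'0.le
    linarith
  have hC₀0 : 0 ≤ C₀ := by
    have h1 := hC₀ 0
    have h2 : (0 : ℝ) ≤ ((S lam 0).card : ℝ) := Nat.cast_nonneg _
    simp only [max_self, Real.exp_zero, mul_one] at h1
    linarith
  have hlog : 0 < Real.log X := Real.log_pos hX1
  have hcd : ((S lam (k * Real.log X)).card : ℝ) ≤ X ^ (ε / 4) * X ^ (κ + δ) := by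
    refine (hC₀ _).trans (mul_le_mul (H₂ X ((le_max_right _ _).trans hX)) ?_ (Real.exp_pos _).le
      (Real.rpow_nonneg hX0.le _))
    rw [Real.rpow_def_of_pos hX0]
    refine Real.exp_le_exp.mpr ?_
    rw [max_le_iff]
    constructor
    · rw [mul_comm (Real.log X)]
      exact mul_le_mul_of_nonneg_right (by linarith) hlog.le
    · exact mul_nonneg hlog.le (by linarith)
  show FF (S lam) (v lam) 2 (k * Real.log X) gs ≤ X ^ (κ + ε)
  unfold FF
  calc ∑ i ∈ S lam (k * Real.log X), pvl (v lam) gs i ^ 2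
      ≤ ∑ _i ∈ S lam (k * Real.log X), (X ^ (θ * cτ * δ + ε / 8)) ^ 2 :=
        Finset.sum_le_sum fun i hi => pow_le_pow_left₀ (pvl_nonneg (hv lam) _ _) (hpt i hi) 2
    _ = ((S lam (k * Real.log X)).card : ℝ) * X ^ (2 * (θ * cτ * δ + ε / 8)) := by
        rw [Finset.sum_const, nsmul_eq_mul, ← Real.rpow_natCast, ← Real.rpow_mul hX0.le]
        congr 2
        push_cast
        ring
    _ ≤ (X ^ (ε / 4) * X ^ (κ + δ)) * X ^ (2 * (θ * cτ * δ + ε / 8)) :=
        mul_le_mul_of_nonneg_right hcd (Real.rpow_nonneg hX0.le _)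
    _ = X ^ (ε / 4 + (κ + δ) + 2 * (θ * cτ * δ + ε / 8)) := by
        rw [← Real.rpow_add hX0, ← Real.rpow_add hX0]
    _ ≤ _ := Real.rpow_le_rpow_of_exponent_le hX1.le (by linarith)

/-! ### the outer level rule -/

lemma rep_zero {n : ℕ} {α : Type*} (u : Fin n → α) : rep (fun _ => 0) u = [] := by
  unfold rep
  rw [List.flatten_eq_nil_iff]
  intro l hl
  obtain ⟨j, rfl⟩ := List.mem_ofFn.mp hl
  rfl

/-- **outer level rule** for `FF S v 2`, `FF S v 1`, any kinds -/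
theorem outer_of_level [Fintype τ] [Nonempty Pc] {D : Pcs Pc τ} {S : Lam → ℝ → Finset ι}
    {v : Lam → Pc → ι → ℝ} (hv : ∀ lam p i, 0 ≤ v lam p i) {θ : ℝ} (hθ : 0 ≤ θ)
    (hsup : SupG D S v θ)
    (hcard : ∀ lam, ∃ C₀ : ℝ, ∀ l, ((S lam l).card : ℝ) ≤ C₀ * Real.exp (max l 0)) {κ : ℝ}
    (hκ : 0 ≤ κ) {n : ℕ} {u : Fin n → ℝ} {w : τ → ℝ} (hu : ∀ j, 0 ≤ u j) (hw : ∀ s, 0 ≤ w s)
    {E : ℝ}
    (hcert : ∀ (x : Fin n → ℝ) (ω : τ → ℝ), (∀ j, x j ≤ θ * u j) → (∀ s, ω s ≤ θ * w s) →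
      (∃ (N : Fin n → ℕ) (f : τ → ℝ) (e : ℝ), (∀ s, 0 ≤ f s) ∧ (∀ s, w s = 0 → f s = 0) ∧
        BG D (fun lam => FF (S lam) (v lam) 2) κ (rep N u) f e ∧
        e - 2 * ((∑ j, (N j : ℝ) * x j) + ∑ s, f s * (ω s / w s)) +
          ((∑ j, x j) + ∑ s, ω s) ≤ E) ∨
      κ + ((∑ j, x j) + ∑ s, ω s) ≤ E) :
    BG D (fun lam => FF (S lam) (v lam) 1) κ (List.ofFn u) w E := by
  refine level hv hθ hsup hcard le_rfl hκ hu hw fun P hP1 hP2 => ?_
  rcases hcert P.1 P.2 hP1 hP2 with ⟨N, f, e, hf, hfw, hBG, hE⟩ | hE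
  · refine ⟨N, f, 2 * lvF w N f P - 1, e, hf, hfw, WG.of_BG hBG _, Or.inl (by linarith), ?_⟩
    unfold lvF smF
    push_cast
    linarith
  · refine ⟨fun _ => 0, fun _ => 0, -1, κ, fun _ => le_rfl, fun _ _ => rfl, ?_, Or.inl ?_, ?_⟩
    · rw [rep_zero]
      exact WG.of_BG (BG_count hv hθ hsup hcard hκ) _
    · unfold lvF; simp
    · unfold lvF smF
      simp
      linarith

/-! ### `ExpBox` -/

variable {D : Pcs Pc Kd} {R B : Lam → ℝ → List Pc → ℝ}

/-- **the box rules at the level of `BG`** -/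
structure BBox (θ : ℝ) (D : Pcs Pc Kd) (R B : Lam → ℝ → List Pc → ℝ) : Prop where
  permR : Pinv R
  trivR : Triv D R
  permB : Pinv B
  sup : ∀ (κ : ℝ) (u : List ℝ) (m a b c e : ℝ), 0 ≤ κ → Okl u m a → 0 ≤ b → b ≤ m → 0 ≤ c →
    c ≤ a → BG D B κ u (wt (m - b) (a - c)) e → BG D B κ u (wt m a) (θ * (b + c) + e)
  supS : ∀ (κ y : ℝ) (u : List ℝ) (m a e : ℝ), 0 ≤ κ → 0 ≤ y → Okl u m a →
    BG D B κ u (wt m a) e → BG D B κ (y :: u) (wt m a) (θ * y + e)
  outer : ∀ (N : ℕ) (u : Fin N → ℝ) (κ m a E : ℝ), 0 ≤ κ → (∀ j, 0 ≤ u j) → 0 ≤ m → 0 ≤ a →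
    (∀ (x : Fin N → ℝ) (ω α : ℝ), (∀ j, x j ≤ θ * u j) → ω ≤ θ * m → α ≤ θ * a →
      (∃ (n : Fin N → ℕ) (f g e : ℝ), 0 ≤ f ∧ (m = 0 → f = 0) ∧ 0 ≤ g ∧ (a = 0 → g = 0) ∧
        BG D R κ (rep n u) (wt f g) e ∧
        e - 2 * ((∑ j, (n j : ℝ) * x j) + f * (ω / m) + g * (α / a)) +
          ((∑ j, x j) + ω + α) ≤ E) ∨
      κ + ((∑ j, x j) + ω + α) ≤ E) →
    BG D B κ (List.ofFn u) (wt m a) E

lemma sum_Kd (F : Kd → ℝ) : ∑ t, F t = F .mo + F .am := by
  have : (Finset.univ : Finset Kd) = {Kd.mo, Kd.am} := rfl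
  rw [this, Finset.sum_pair (by decide)]

lemma coe_rep {n : ℕ} (N : Fin n → ℕ) (u : Fin n → ℝ) :
    ((rep N u : List ℝ) : Multiset ℝ) = ∑ j, Multiset.replicate (N j) (u j) := by
  unfold rep
  have h : ∀ l : List (List ℝ), ((l.flatten : List ℝ) : Multiset ℝ) =
      (l.map fun a : List ℝ => (Multiset.ofList a)).sum := by
    intro l
    induction l with
    | nil => rfl
    | cons a l ih =>
      rw [List.flatten_cons, ← Multiset.coe_add, ih, List.map_cons, List.sum_cons]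
  rw [h, List.map_ofFn, List.sum_ofFn]
  exact Finset.sum_congr rfl fun j _ => Multiset.coe_replicate _ _

theorem BBox.trivB {θ : ℝ} (H : BBox θ D R B) : Triv D B := by
  intro κ u m a hκ hu
  obtain ⟨N, U, rfl⟩ : ∃ N, ∃ U : Fin N → ℝ, u = List.ofFn U :=
    ⟨u.length, u.get, (List.ofFn_get u).symm⟩
  have hU : ∀ j, 0 ≤ U j := fun j => hu.1 _ (List.mem_ofFn.mpr ⟨j, rfl⟩)
  refine ⟨κ + (∑ j, θ * U j + θ * m + θ * a), H.outer N U κ m a _ hκ hU hu.2.1 hu.2.2
    fun x ω α hx hω hα => Or.inr ?_⟩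
  have : ∑ j, x j ≤ ∑ j, θ * U j := Finset.sum_le_sum fun j _ => hx j
  linarith

/-- **the exponents of the absolute boxes** -/
theorem BBox.exp {θ : ℝ} (hθ : 0 ≤ θ) (H : BBox θ D R B) : ExpBox θ (ex D R) (ex D B) where
  sup := by
    intro κ Y m a b c hκ hY hb0 hb1 hc0 hc1
    have h0 : Okl Y.toList (m - b) (a - c) :=
      ⟨(okl_of hY).1, by linarith, by linarith⟩
    have h1 := ex_spec H.permB H.trivB (κ := κ) hκ h0
    have h2 := H.sup κ Y.toList m a b c _ hκ (okl_of hY) hb0 hb1 hc0 hc1 h1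
    have h3 := ex_le' (D := D) (Ψ := B) (by
      have := ex_nonneg (D := D) (Ψ := B) κ Y.toList (m - b) (a - c)
      positivity) h2
    rwa [Multiset.coe_toList] at h3
  supS := by
    intro κ y Y m a hκ hy hY
    have h1 := ex_spec H.permB H.trivB (κ := κ) hκ (okl_of hY)
    have h2 := H.supS κ y Y.toList m a _ hκ hy (okl_of hY) h1
    have h3 := ex_le H.permB (by
      have := ex_nonneg (D := D) (Ψ := B) κ Y.toList m a
      positivity) h2
    rw [← Multiset.cons_coe, Multiset.coe_toList] at h3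
    exact h3
  outer := by
    intro N u κ m a E hκ hu hm ha hcert
    have hE : 0 ≤ E := by
      rcases hcert (fun _ => 0) 0 0 (fun j => mul_nonneg hθ (hu j)) (mul_nonneg hθ hm)
        (mul_nonneg hθ ha) with ⟨n, f, g, _, _, _, _, h5⟩ | h5
      · have h6 := ex_nonneg (D := D) (Ψ := R) κ (∑ j, Multiset.replicate (n j) (u j)) f g
        simp at h5
        linarith
      · simp at h5
        linarith
    have h := H.outer N u κ m a E hκ hu hm ha fun x ω α hx hω hα => by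
      rcases hcert x ω α hx hω hα with ⟨n, f, g, h1, h2, h3, h4, h5⟩ | h5
      · refine Or.inl ⟨n, f, g, ex D R κ (∑ j, Multiset.replicate (n j) (u j)) f g, h1, h2, h3, h4,
          ?_, h5⟩
        have hok : Okl (rep n u) f g := by
          refine ⟨fun y hy => ?_, h1, h3⟩
          obtain ⟨j, rfl⟩ := mem_rep hy
          exact hu j
        have := ex_spec H.permR H.trivR (κ := κ) hκ hok
        rwa [coe_rep] at this
      · exact Or.inr h5
    rw [Fin.univ_val_map]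
    exact ex_le H.permB hE h

end Crest.Agent.R017.XBx146
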