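import Crest.Agent.R017.XC2_858
import Crest.Agent.R017.HP3_842

/-!
# Row 17, sides: rule (C) for lists of typed pieces, every kernel (helper858)

* `alP h ps` : the sequence of a list of pieces
* `Cf_pc`, `l2_alP` : sizes
* `ruleC_list` : `VK K L (sqc q (alP h (ps ++ qs))) ≤ C B^{1+ε} (L B)^ε VK K (L e^{RN} B) (sqc q (alP h qs))`,
  `B = ∏ Y`
-/

set_option autoImplicit false

noncomputable section

open Complex
open scoped ComplexConjugate

namespace Crest.Agent.R017.XC858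

open Crest.Agent.R012 Crest.Agent.R012.Eis Crest.Agent.R012.LS2 Crest.Agent.R012.Gauss880
open Crest.Agent.R012.Div277 (tau dvs mem_dvs tau_le_rpow)
open Crest.Agent.R017.CM106 Crest.Agent.R017.HP842 Crest.Agent.R017.FE47
open Crest.Agent.R017.TP320 (conv)
open Crest.Agent.R017.LBp744 (oneS mulS Cf)
open Crest.Agent.R017.HSep813 (gw norm_gw_le)

/-- the sequence of a list of pieces -/
def alP (h : ℝ → ℝ) (ps : List Pc) : Eis → ℂ := cvL (ps.map (pc h))

lemma alP_nil (h : ℝ → ℝ) : alP h [] = oneS := rfl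

lemma alP_cons (h : ℝ → ℝ) (p : Pc) (ps : List Pc) : alP h (p :: ps) = conv (pc h p) (alP h ps) :=
  rfl

section

variable {h : ℝ → ℝ} {R H : ℝ}

lemma FS_map (hR : ∀ u, cx h u ≠ 0 → |u| ≤ R) {ps : List Pc} (hps : ∀ p ∈ ps, p.OK) :
    ∀ f ∈ ps.map (pc h), FS f := by
  intro f hf
  rw [List.mem_map] at hf
  obtain ⟨p, hp, rfl⟩ := hf
  exact FS_pc hR (hps p hp)

lemma FS_alP (hR : ∀ u, cx h u ≠ 0 → |u| ≤ R) {ps : List Pc} (hps : ∀ p ∈ ps, p.OK) :
    FS (alP h ps) := FS_cvL (FS_map hR hps)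

theorem alP_append (hR : ∀ u, cx h u ≠ 0 → |u| ≤ R) {ps qs : List Pc} (hps : ∀ p ∈ ps, p.OK)
    (hqs : ∀ p ∈ qs, p.OK) : alP h (ps ++ qs) = conv (alP h ps) (alP h qs) := by
  unfold alP
  rw [List.map_append]
  exact cvL_append (FS_map hR hps) (FS_map hR hqs)

theorem alP_perm (hR : ∀ u, cx h u ≠ 0 → |u| ≤ R) {ps qs : List Pc} (hp : ps.Perm qs)
    (hps : ∀ p ∈ ps, p.OK) : alP h ps = alP h qs :=
  cvL_perm (hp.map _) (FS_map hR hps)

lemma CS_alP (hR : ∀ u, cx h u ≠ 0 → |u| ≤ R) {ps : List Pc} (hps : ∀ p ∈ ps, p.OK) (k : Eis) :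
    CS (alP h ps) k = (ps.map fun p => CS (pc h p) k).prod := by
  unfold alP
  rw [CS_cvL (FS_map hR hps), List.map_map]
  rfl

lemma conv_smul (c d : ℂ) (f g : Eis → ℂ) :
    conv (fun n => c * f n) (fun n => d * g n) = fun n => (c * d) * conv f g n := by
  funext n
  unfold TP320.conv
  rw [Finset.mul_sum]
  exact Finset.sum_congr rfl fun x _ => by ring

lemma cvL_smul (c : ℂ) (fs : List (Eis → ℂ)) :
    cvL (fs.map fun f n => c * f n) = fun n => c ^ fs.length * cvL fs n := by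
  induction fs with
  | nil => funext n; simp
  | cons f fs ih =>
    rw [List.map_cons, cvL_cons, ih, cvL_cons, conv_smul, List.length_cons]
    funext n
    rw [pow_succ]; ring

/-- size of a piece -/
lemma Cf_pc (hR : ∀ u, cx h u ≠ 0 → |u| ≤ R) (hH0 : 0 < H) (hH : ∀ u, ‖cx h u‖ ≤ H) {P : Pc}
    (hP : P.OK) : Cf 0 (Real.exp R * P.Y) (fun n => ((H⁻¹ : ℝ) : ℂ) * pc h P n) where
  fs := {
    fin := (FS_pc hR hP).fin.subset fun n hn h0 => hn (by
      show ((H⁻¹ : ℝ) : ℂ) * pc h P n = 0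
      rw [h0, mul_zero])
    prim := fun n hn => (FS_pc hR hP).prim n (right_ne_zero_of_mul hn) }
  le := fun n hn => by
    classical
    have hb := right_ne_zero_of_mul hn
    unfold pc at hb
    split_ifs at hb with hp
    · have h1 : gw h P.Y P.t n ≠ 0 := right_ne_zero_of_mul hb
      unfold HSep813.gw at h1
      have h2 := hR _ (right_ne_zero_of_mul h1)
      have h3 : (0 : ℝ) < nm n := by exact_mod_cast nm_pos.2 hp.ne_zero
      have h4 : Real.log (nm n) ≤ R + Real.log P.Y := by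
        have := (abs_le.1 h2).2
        linarith
      calc (nm n : ℝ) = Real.exp (Real.log (nm n)) := (Real.exp_log h3).symm
        _ ≤ Real.exp (R + Real.log P.Y) := Real.exp_le_exp.2 h4
        _ = _ := by rw [Real.exp_add, Real.exp_log hP.Y0]
    · exact absurd rfl hb
  bd := fun n => by
    classical
    rw [pow_zero, norm_mul, Complex.norm_real, Real.norm_eq_abs, abs_of_pos (inv_pos.2 hH0)]
    unfold pc
    split_ifs with hp
    · rw [norm_mul, norm_mul]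
      have h1 := norm_uv_le P.u n
      have h2 := hP.ch.norm_le hp
      have h3 := norm_gw_le hH P.Y P.t n
      calc H⁻¹ * (‖uv P.u n‖ * ‖P.ψ n‖ * ‖gw h P.Y P.t n‖) ≤ H⁻¹ * (1 * 1 * H) := by
            refine mul_le_mul_of_nonneg_left ?_ (inv_pos.2 hH0).le
            exact mul_le_mul (mul_le_mul h1 h2 (norm_nonneg _) zero_le_one) h3 (norm_nonneg _)
              (by norm_num)
        _ = 1 := by field_simp
    · simp

/-- **second moment of the coefficients of a list of pieces** -/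
theorem l2_alP (hR0 : 0 ≤ R) (hR : ∀ u, cx h u ≠ 0 → |u| ≤ R) (hH0 : 0 < H)
    (hH : ∀ u, ‖cx h u‖ ≤ H) (N : ℕ) {ε : ℝ} (hε : 0 < ε) : ∃ C : ℝ, 1 ≤ C ∧ ∀ ps : List Pc,
      ps.length ≤ N → (∀ p ∈ ps, p.OK) →
        (∀ n, alP h ps n ≠ 0 → (nm n : ℝ) ≤ Real.exp (R * N) * (ps.map Pc.Y).prod) ∧
        ∑' n, ‖alP h ps n‖ ^ 2 ≤ C * (ps.map Pc.Y).prod ^ (1 + ε) := by
  obtain ⟨C0, hC0, H0⟩ := LBp744.l2_bound N hε
  set C := C0 * (Real.exp (R * N)) ^ (1 + ε) * (max H 1) ^ (2 * N) with hC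
  have hM : 1 ≤ max H 1 := le_max_right _ _
  have hE : 1 ≤ Real.exp (R * N) := Real.one_le_exp (by positivity)
  refine ⟨C, ?_, fun ps hlen hps => ?_⟩
  · have h1 : (1 : ℝ) ≤ (Real.exp (R * N)) ^ (1 + ε) := Real.one_le_rpow hE (by linarith)
    have h2 : (1 : ℝ) ≤ (max H 1) ^ (2 * N) := one_le_pow₀ hM
    rw [hC]
    calc (1 : ℝ) = 1 * 1 * 1 := by norm_num
      _ ≤ _ := mul_le_mul (mul_le_mul hC0 h1 zero_le_one (by linarith)) h2 zero_le_one
          (by positivity)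
  -- scaled pieces
  set c : ℂ := ((H⁻¹ : ℝ) : ℂ) with hc
  have hc0 : c ≠ 0 := by
    rw [hc]; exact_mod_cast (inv_pos.2 hH0).ne'
  set B := (ps.map Pc.Y).prod with hB
  have hBp : 0 ≤ B := by
    rw [hB]
    refine List.prod_nonneg fun x hx => ?_
    rw [List.mem_map] at hx
    obtain ⟨p, hp, rfl⟩ := hx
    exact (hps p hp).Y0.le
  have key : ∀ qs : List Pc, (∀ p ∈ qs, p.OK) →
      Cf qs.length (Real.exp R ^ qs.length * (qs.map Pc.Y).prod)
        (cvL ((qs.map (pc h)).map fun f n => c * f n)) := by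
    intro qs hqs
    induction qs with
    | nil => simpa using LBp744.Cf.oneS
    | cons p qs ih =>
      have h1 := ih fun g hg => hqs g (List.mem_cons_of_mem _ hg)
      have hpo := hqs p List.mem_cons_self
      have h2 := LBp744.Cf.mulS (Cf_pc hR hH0 hH hpo) h1
        (mul_nonneg (Real.exp_pos _).le hpo.Y0.le)
      have e : 0 + qs.length + 1 = (p :: qs).length := by simp
      rw [e] at h2
      have e2 : Real.exp R * p.Y * (Real.exp R ^ qs.length * (qs.map Pc.Y).prod) =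
          Real.exp R ^ (p :: qs).length * ((p :: qs).map Pc.Y).prod := by
        rw [List.length_cons, List.map_cons, List.prod_cons, pow_succ]; ring
      rw [e2] at h2
      exact h2
  have h1 := key ps hps
  have e1 : Real.exp R ^ ps.length ≤ Real.exp (R * N) := by
    rw [← Real.exp_nat_mul]
    refine Real.exp_le_exp.2 ?_
    rw [mul_comm]
    exact mul_le_mul_of_nonneg_left (by exact_mod_cast hlen) hR0
  have h2 : Cf N (Real.exp (R * N) * B) (cvL ((ps.map (pc h)).map fun f n => c * f n)) :=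
    h1.mono hlen (mul_le_mul_of_nonneg_right e1 hBp)
  have e2 : cvL ((ps.map (pc h)).map fun f n => c * f n) = fun n => c ^ ps.length * alP h ps n := by
    rw [cvL_smul, List.length_map]; rfl
  rw [e2] at h2
  have hcN : c ^ ps.length ≠ 0 := pow_ne_zero _ hc0
  refine ⟨fun n hn => h2.le n (mul_ne_zero hcN hn), ?_⟩
  have h3 := H0 _ _ (by positivity) h2
  have e3 : ∑' n, ‖c ^ ps.length * alP h ps n‖ ^ 2 = (H⁻¹ ^ ps.length) ^ 2 *
      ∑' n, ‖alP h ps n‖ ^ 2 := by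
    rw [← tsum_mul_left]
    refine tsum_congr fun n => ?_
    rw [norm_mul, norm_pow, hc, Complex.norm_real, Real.norm_eq_abs, abs_of_pos (inv_pos.2 hH0)]
    ring
  rw [e3] at h3
  have h4 : ∑' n, ‖alP h ps n‖ ^ 2 ≤ H ^ (2 * ps.length) *
      (C0 * (Real.exp (R * N) * B) ^ (1 + ε)) := by
    have e4 : H ^ (2 * ps.length) * (H⁻¹ ^ ps.length) ^ 2 = 1 := by
      rw [← pow_mul, inv_pow, mul_comm ps.length 2]
      exact mul_inv_cancel₀ (pow_ne_zero _ hH0.ne')
    calc ∑' n, ‖alP h ps n‖ ^ 2 = H ^ (2 * ps.length) * ((H⁻¹ ^ ps.length) ^ 2 *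
          ∑' n, ‖alP h ps n‖ ^ 2) := by rw [← mul_assoc, e4, one_mul]
      _ ≤ _ := mul_le_mul_of_nonneg_left h3 (by positivity)
  refine h4.trans ?_
  rw [Real.mul_rpow (Real.exp_pos _).le hBp]
  have h5 : H ^ (2 * ps.length) ≤ (max H 1) ^ (2 * N) := by
    calc H ^ (2 * ps.length) ≤ (max H 1) ^ (2 * ps.length) :=
          pow_le_pow_left₀ hH0.le (le_max_left _ _) _
      _ ≤ _ := pow_le_pow_right₀ hM (by omega)
  calc H ^ (2 * ps.length) * (C0 * (Real.exp (R * N) ^ (1 + ε) * B ^ (1 + ε)))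
      ≤ (max H 1) ^ (2 * N) * (C0 * (Real.exp (R * N) ^ (1 + ε) * B ^ (1 + ε))) :=
        mul_le_mul_of_nonneg_right h5 (by positivity)
    _ = C * B ^ (1 + ε) := by rw [hC]; ring

/-- **rule (C) for lists of typed pieces**, every kernel -/
theorem ruleC_list (hR0 : 0 ≤ R) (hR : ∀ u, cx h u ≠ 0 → |u| ≤ R) (hH0 : 0 < H)
    (hH : ∀ u, ‖cx h u‖ ≤ H) (N : ℕ) {ε : ℝ} (hε : 0 < ε) : ∃ C : ℝ, 1 ≤ C ∧
      ∀ K : Eis → Eis → ℂ, Ker K → ∀ (L : ℝ) (q : Eis) (ps qs : List Pc), 0 ≤ L →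
        ps.length ≤ N → (∀ p ∈ ps, p.OK) → (∀ p ∈ qs, p.OK) →
        VK K L (sqc q (alP h (ps ++ qs))) ≤
          C * ((ps.map Pc.Y).prod ^ (1 + ε) * (L * (ps.map Pc.Y).prod) ^ ε) *
            VK K (L * (Real.exp (R * N) * (ps.map Pc.Y).prod)) (sqc q (alP h qs)) := by
  obtain ⟨C1, hC1, H1⟩ := l2_alP hR0 hR hH0 hH N hε
  obtain ⟨C2, hC2, H2⟩ := sum_tau_le hε
  have hE : 1 ≤ (Real.exp (R * N)) ^ ε :=
    Real.one_le_rpow (Real.one_le_exp (by positivity)) hε.le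
  have h12 : 1 ≤ C1 * (C2 * (Real.exp (R * N)) ^ ε) :=
    one_le_mul_of_one_le_of_one_le hC1 (one_le_mul_of_one_le_of_one_le hC2 hE)
  refine ⟨C1 * (C2 * (Real.exp (R * N)) ^ ε), h12, fun K hK L q ps qs hL hlen hps hqs => ?_⟩
  obtain ⟨h1, h2⟩ := H1 ps hlen hps
  set B := (ps.map Pc.Y).prod with hB
  have hBp : 0 ≤ B := by
    rw [hB]
    refine List.prod_nonneg fun x hx => ?_
    rw [List.mem_map] at hx
    obtain ⟨p, hp, rfl⟩ := hx
    exact (hps p hp).Y0.le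
  have hEB : 0 ≤ Real.exp (R * N) * B := by positivity
  rw [alP_append hR hps hqs]
  refine (ruleC_K hK hEB hL (FS_alP hR hps) h1 (FS_alP hR hqs) q).trans ?_
  have h3 := H2 (L * (Real.exp (R * N) * B)) (mul_nonneg hL hEB)
    (fun r => ‖KS K (sqc q (alP h qs)) r‖ ^ 2) fun r => by positivity
  have h4 : 0 ≤ ∑ r ∈ bl (L * (Real.exp (R * N) * B)), (tau r : ℝ) *
      ‖KS K (sqc q (alP h qs)) r‖ ^ 2 := Finset.sum_nonneg fun _ _ => by positivity
  calc (∑' n, ‖alP h ps n‖ ^ 2) * ∑ r ∈ bl (L * (Real.exp (R * N) * B)), (tau r : ℝ) *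
        ‖KS K (sqc q (alP h qs)) r‖ ^ 2
      ≤ (C1 * B ^ (1 + ε)) * (C2 * (L * (Real.exp (R * N) * B)) ^ ε *
        ∑ r ∈ bl (L * (Real.exp (R * N) * B)), ‖KS K (sqc q (alP h qs)) r‖ ^ 2) :=
        mul_le_mul h2 h3 h4 (by positivity)
    _ = _ := by
        have e : (L * (Real.exp (R * N) * B)) ^ ε = (Real.exp (R * N)) ^ ε * (L * B) ^ ε := by
          rw [← Real.mul_rpow (Real.exp_pos _).le (mul_nonneg hL hBp)]
          congr 1; ring
        rw [e]
        unfold VK; ring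

end

end Crest.Agent.R017.XC858
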