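import Crest.Agent.R017.Prov_71

/-!
# Row 17: rule (C) for the granular robust exponents (helper858)

* `RC D S R` : rule (C) as a property of the functional `S` (lists of pieces)
* `BG_rc` : `BG D S (κ + v) u₂ w₂ e → BG D S κ (u₁ ++ u₂) (w₁ + w₂) (v + e)`, `v = ∑ u₁ + ∑ w₁`
* `cau_of_RC`, `cauS_of_RC` : the fields `cau`, `cauS` of helper71's `BRules`
-/

set_option autoImplicit false
set_option linter.unusedSectionVars false

noncomputable section

namespace Crest.Agent.R017.XC858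

open Crest.Agent.R017.XG702 (Pcs BG Loc Gran_split Near_mono Gran_mono Good_mono Good_sub Good_perm)
open Crest.Agent.R017.Prov71 (Kd wt Okl Pinv)

variable {Pc τ Lam : Type*} [DecidableEq τ] {D : Pcs Pc τ} {S : Lam → ℝ → List Pc → ℝ}

/-- total log-length -/
def slen (D : Pcs Pc τ) (ps : List Pc) : ℝ := (ps.map D.len).sum

/-- rule (C) as a property of the functional -/
def RC (D : Pcs Pc τ) (S : ℝ → List Pc → ℝ) (R : ℝ) : Prop :=
  ∀ (N : ℕ) (ε : ℝ), 0 < ε → ∃ C : ℝ, 1 ≤ C ∧ ∀ (l : ℝ) (ps qs : List Pc), ps.length ≤ N →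
    (∀ p ∈ ps, 0 ≤ D.len p) → (∀ p ∈ qs, 0 ≤ D.len p) →
      S l (ps ++ qs) ≤ C * Real.exp ((1 + ε) * slen D ps + ε * (l + slen D ps)) *
        S (l + slen D ps + R * N) qs

lemma sum_near {X δ : ℝ} {us : List Pc} {u : List ℝ} (h : D.Near X δ us u) :
    |(us.map (D.nl X)).sum - u.sum| ≤ u.length * δ := by
  unfold Pcs.Near at h
  induction h with
  | nil => simp
  | @cons p x us u h1 _ ih =>
    rw [List.map_cons, List.sum_cons, List.sum_cons, List.length_cons]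
    have e : D.nl X p + (us.map (D.nl X)).sum - (x + u.sum) =
        (D.nl X p - x) + ((us.map (D.nl X)).sum - u.sum) := by ring
    rw [e]
    refine (abs_add_le _ _).trans ?_
    push_cast
    linarith [h1.2]

lemma sum_mass [Fintype τ] {X : ℝ} (gs : List Pc) :
    (gs.map (D.nl X)).sum = ∑ t, D.mass X gs t := by
  induction gs with
  | nil => simp
  | cons g gs ih =>
    rw [List.map_cons, List.sum_cons, ih]
    simp only [Pcs.mass_cons]
    rw [Finset.sum_add_distrib, Finset.sum_ite_eq]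
    simp

lemma slen_eq {X : ℝ} (hX : 1 < X) (ps : List Pc) :
    slen D ps = (ps.map (D.nl X)).sum * Real.log X := by
  have hlog : Real.log X ≠ 0 := (Real.log_pos hX).ne'
  unfold slen
  induction ps with
  | nil => simp
  | cons p ps ih =>
    rw [List.map_cons, List.map_cons, List.sum_cons, List.sum_cons, ih, add_mul]
    congr 1
    unfold Pcs.nl
    field_simp

/-- **rule (C) for exponents** -/
theorem BG_rc [Fintype τ]
    (hS : ∀ lam l ps qs, ps.Perm qs → S lam l ps = S lam l qs)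
    (hRC : ∀ lam, ∃ R : ℝ, 0 ≤ R ∧ RC D (S lam) R) {κ : ℝ}
    {u₁ u₂ : List ℝ} {w₁ w₂ : τ → ℝ} {e : ℝ} (hw₁ : ∀ t, 0 ≤ w₁ t) (hw₂ : ∀ t, 0 ≤ w₂ t)
    (h : BG D S (κ + (u₁.sum + ∑ t, w₁ t)) u₂ w₂ e) :
    BG D S κ (u₁ ++ u₂) (fun t => w₁ t + w₂ t) ((u₁.sum + ∑ t, w₁ t) + e) := by
  intro ε hε
  obtain ⟨δ₁, hδ₁, L₁⟩ := h (ε / 2) (by linarith)
  set v := u₁.sum + ∑ t, w₁ t with hv
  set A : ℝ := 1 + u₁.length + 2 * Fintype.card τ with hA
  have hA1 : 1 ≤ A := by
    rw [hA]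
    have h1 : (0 : ℝ) ≤ u₁.length := Nat.cast_nonneg _
    have h2 : (0 : ℝ) ≤ Fintype.card τ := Nat.cast_nonneg _
    linarith
  have hA0 : 0 < A := by linarith
  set δ := min (δ₁ / (2 * A)) (min (ε / (8 * A)) (1 / A)) with hδdef
  have hδ : 0 < δ := by
    rw [hδdef]
    refine lt_min (by positivity) (lt_min (by positivity) (by positivity))
  have hd1 : A * δ ≤ δ₁ / 2 := by
    have h1 : δ ≤ δ₁ / (2 * A) := min_le_left _ _
    calc A * δ ≤ A * (δ₁ / (2 * A)) := mul_le_mul_of_nonneg_left h1 hA0.le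
      _ = δ₁ / 2 := by field_simp
  have hd2 : A * δ ≤ ε / 8 := by
    have h1 : δ ≤ ε / (8 * A) := (min_le_right _ _).trans (min_le_left _ _)
    calc A * δ ≤ A * (ε / (8 * A)) := mul_le_mul_of_nonneg_left h1 hA0.le
      _ = ε / 8 := by field_simp
  have hd3 : A * δ ≤ 1 := by
    have h1 : δ ≤ 1 / A := (min_le_right _ _).trans (min_le_right _ _)
    calc A * δ ≤ A * (1 / A) := mul_le_mul_of_nonneg_left h1 hA0.le
      _ = 1 := by field_simp
  set M : ℝ := 2 * (|v| + 1) + |κ| + 1 with hM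
  have hM0 : 0 < M := by rw [hM]; positivity
  set ε' := ε / (8 * M) with hε'
  have hε'0 : 0 < ε' := by rw [hε']; positivity
  refine ⟨δ, hδ, fun lam N B => ?_⟩
  obtain ⟨R, hR, hRC⟩ := hRC lam
  obtain ⟨η₁, hη₁, X₁, hX₁, K₁⟩ := L₁ lam N B
  set N₁ := u₁.length + N with hN₁
  obtain ⟨C, hC1, HC⟩ := hRC N₁ ε' hε'0
  refine ⟨η₁, hη₁, max X₁ (max (Real.exp (2 * (R * N₁) / δ₁)) (C ^ (4 / ε))),
    lt_of_lt_of_le hX₁ (le_max_left _ _), ?_⟩
  intro X hX k us gs hk hnear hgran hgood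
  have hXX1 : X₁ ≤ X := (le_max_left _ _).trans hX
  have hXX2 : Real.exp (2 * (R * N₁) / δ₁) ≤ X :=
    (le_max_left _ _).trans ((le_max_right _ _).trans hX)
  have hXX3 : C ^ (4 / ε) ≤ X := (le_max_right _ _).trans ((le_max_right _ _).trans hX)
  have hX1 : 1 < X := by linarith
  have hXp : (0 : ℝ) < X := by linarith
  have hlog : 0 < Real.log X := Real.log_pos hX1
  have hl1 : 2 * (R * N₁) / δ₁ ≤ Real.log X := by
    rw [Real.le_log_iff_exp_le hXp]; exact hXX2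
  have hl2 : R * N₁ / Real.log X ≤ δ₁ / 2 := by
    rw [div_le_iff₀ hlog]
    rw [div_le_iff₀ hδ₁] at hl1
    linarith
  have hC2 : C ≤ X ^ (ε / 4) := by
    have h1 : (C ^ (4 / ε)) ^ (ε / 4) ≤ X ^ (ε / 4) :=
      Real.rpow_le_rpow (Real.rpow_nonneg (by linarith) _) hXX3 (by positivity)
    rwa [← Real.rpow_mul (by linarith : (0:ℝ) ≤ C), show 4 / ε * (ε / 4) = 1 by field_simp,
      Real.rpow_one] at h1
  -- split the lumps
  obtain ⟨v₁, v₂, rfl, hn1, hn2⟩ : ∃ v₁ v₂, us = v₁ ++ v₂ ∧ D.Near X δ v₁ u₁ ∧ D.Near X δ v₂ u₂ := by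
    unfold Pcs.Near at hnear ⊢
    refine ⟨us.take u₁.length, us.drop u₁.length, (List.take_append_drop _ _).symm, ?_, ?_⟩
    · have := List.forall₂_take u₁.length hnear
      simpa using this
    · have := List.forall₂_drop u₁.length hnear
      simpa using this
  -- split the granular part
  have hg0 : ∀ g ∈ gs, 0 ≤ D.nl X g := fun g hg =>
    div_nonneg (hgood g (List.mem_append_right _ hg)).2.2 hlog.le
  obtain ⟨g₁, g₂, hp, hG1, hG2⟩ := Gran_split hδ.le hg0 hw₁ hw₂ hgran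
  have hperm : ((v₁ ++ v₂) ++ gs).Perm ((v₁ ++ g₁) ++ (v₂ ++ g₂)) := by
    have h1 : ((v₁ ++ v₂) ++ gs).Perm ((v₁ ++ v₂) ++ (g₁ ++ g₂)) := hp.append_left _
    refine h1.trans ?_
    rw [List.append_assoc, List.append_assoc]
    refine List.Perm.append_left v₁ ?_
    rw [← List.append_assoc, ← List.append_assoc]
    exact List.Perm.append_right g₂ List.perm_append_comm
  have hgood' := Good_perm hperm hgood
  -- the moved part
  set σ := ((v₁ ++ g₁).map (D.nl X)).sum with hσ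
  have hσ1 : |σ - v| ≤ (A - 1) * δ := by
    have e1 : σ = (v₁.map (D.nl X)).sum + ∑ t, D.mass X g₁ t := by
      rw [hσ, List.map_append, List.sum_append, sum_mass g₁]
    have e2 : σ - v = ((v₁.map (D.nl X)).sum - u₁.sum) + ∑ t, (D.mass X g₁ t - w₁ t) := by
      rw [e1, hv, Finset.sum_sub_distrib]; ring
    rw [e2]
    refine (abs_add_le _ _).trans ?_
    have h1 := sum_near hn1
    have h2 : |∑ t, (D.mass X g₁ t - w₁ t)| ≤ ∑ _t : τ, 2 * δ :=
      (Finset.abs_sum_le_sum_abs _ _).trans (Finset.sum_le_sum fun t _ => hG1.2.2 t)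
    rw [Finset.sum_const, nsmul_eq_mul, Finset.card_univ] at h2
    calc _ ≤ (u₁.length : ℝ) * δ + (Fintype.card τ : ℝ) * (2 * δ) := add_le_add h1 h2
      _ = (A - 1) * δ := by rw [hA]; ring
  have hsl : slen D (v₁ ++ g₁) = σ * Real.log X := slen_eq hX1 _
  have hlen : (v₁ ++ g₁).length ≤ N₁ := by
    rw [List.length_append, hN₁]
    have h1 : v₁.length = u₁.length := XG702.Near_length hn1
    have h2 := hG1.1
    omega
  have hrc := HC (k * Real.log X) (v₁ ++ g₁) (v₂ ++ g₂) hlen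
    (fun p hp' => (hgood' p (List.mem_append_left _ hp')).2.2)
    (fun p hp' => (hgood' p (List.mem_append_right _ hp')).2.2)
  set k' := k + σ + R * N₁ / Real.log X with hk'
  have ek : k * Real.log X + slen D (v₁ ++ g₁) + R * N₁ = k' * Real.log X := by
    rw [hk', hsl]
    field_simp
  have eA : (A - 1) * δ = A * δ - δ := by ring
  rw [eA] at hσ1
  have hAδ : δ ≤ A * δ := by
    have := mul_le_mul_of_nonneg_right hA1 hδ.le
    linarith
  have hb1 := abs_le.1 hσ1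
  have hb2 := abs_le.1 hk
  have hb3 : 0 ≤ R * N₁ / Real.log X := by positivity
  have hkk : |k' - (κ + v)| ≤ δ₁ := by
    rw [abs_le, hk']
    constructor
    · linarith [hb1.1, hb2.1]
    · linarith [hb1.2, hb2.2]
  have hdd : 2 * δ ≤ δ₁ := by linarith
  have h2δ : δ ≤ δ₁ := by linarith
  have e2 := K₁ X hXX1 k' v₂ g₂ hkk (Near_mono hn2 h2δ) (Gran_mono hG2 hdd le_rfl)
    (Good_sub hgood' fun p hp' => List.mem_append_right _ hp')
  rw [hS _ _ _ _ hperm]
  rw [ek, hsl] at hrc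
  refine hrc.trans ?_
  have e3 : Real.exp ((1 + ε') * (σ * Real.log X) + ε' * (k * Real.log X + σ * Real.log X)) =
      X ^ (σ + ε' * (2 * σ + k)) := by
    rw [Real.rpow_def_of_pos hXp]
    congr 1; ring
  rw [e3]
  have h4 : σ + ε' * (2 * σ + k) ≤ v + ε / 8 + ε / 8 := by
    have h5 : σ ≤ v + ε / 8 := by linarith [hb1.2]
    have h6 : 2 * σ + k ≤ M := by
      rw [hM]
      have h7 : σ ≤ |v| + 1 := by
        have := le_abs_self v
        linarith [hb1.2]
      have h8 : k ≤ |κ| + 1 := by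
        have := le_abs_self κ
        linarith [hb2.2]
      linarith
    have h9 : ε' * (2 * σ + k) ≤ ε' * M := mul_le_mul_of_nonneg_left h6 hε'0.le
    have h10 : ε' * M = ε / 8 := by rw [hε']; field_simp
    linarith
  have h5 : X ^ (σ + ε' * (2 * σ + k)) ≤ X ^ (v + ε / 8 + ε / 8) :=
    Real.rpow_le_rpow_of_exponent_le hX1.le h4
  have h6 : C * X ^ (σ + ε' * (2 * σ + k)) ≤ X ^ (ε / 4) * X ^ (v + ε / 8 + ε / 8) :=
    mul_le_mul hC2 h5 (Real.rpow_nonneg hXp.le _) (Real.rpow_nonneg hXp.le _)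
  calc C * X ^ (σ + ε' * (2 * σ + k)) * S lam (k' * Real.log X) (v₂ ++ g₂)
      ≤ C * X ^ (σ + ε' * (2 * σ + k)) * X ^ (e + ε / 2) :=
        mul_le_mul_of_nonneg_left e2 (mul_nonneg (by linarith) (Real.rpow_nonneg hXp.le _))
    _ ≤ (X ^ (ε / 4) * X ^ (v + ε / 8 + ε / 8)) * X ^ (e + ε / 2) :=
        mul_le_mul_of_nonneg_right h6 (Real.rpow_nonneg hXp.le _)
    _ = X ^ ((v + e) + ε) := by
        rw [← Real.rpow_add hXp, ← Real.rpow_add hXp]; congr 1; ring

/-! ### the fields of `BRules` -/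

section

variable {Pc Lam : Type*} {D : Pcs Pc Kd} {S : Lam → ℝ → List Pc → ℝ}

lemma sum_wt (b c : ℝ) : ∑ t : Kd, wt b c t = b + c := by
  have : (Finset.univ : Finset Kd) = {Kd.mo, Kd.am} := rfl
  rw [this, Finset.sum_pair (by decide)]
  rfl

/-- **the field `cau`** -/
theorem cau_of_RC (hS : Pinv S) (hRC : ∀ lam, ∃ R : ℝ, 0 ≤ R ∧ RC D (S lam) R) (κ : ℝ)
    (u : List ℝ)
    (m a b c e : ℝ) (hb : 0 ≤ b) (hbm : b ≤ m) (hc : 0 ≤ c) (hca : c ≤ a)
    (h : BG D S (κ + (b + c)) u (wt (m - b) (a - c)) e) :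
    BG D S κ u (wt m a) ((b + c) + e) := by
  have h1 : ∀ t, 0 ≤ wt b c t := Prov71.wt_nonneg hb hc
  have h2 : ∀ t, 0 ≤ wt (m - b) (a - c) t := Prov71.wt_nonneg (by linarith) (by linarith)
  have h3 := BG_rc (u₁ := []) (u₂ := u) (w₁ := wt b c) (w₂ := wt (m - b) (a - c)) (κ := κ)
    (e := e) hS hRC h1 h2 (by
      rw [sum_wt, List.sum_nil, zero_add]; exact h)
  rw [sum_wt, List.sum_nil, zero_add, List.nil_append] at h3
  have e1 : (fun t => wt b c t + wt (m - b) (a - c) t) = wt m a := by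
    funext t
    cases t <;> simp [wt]
  rwa [e1] at h3

/-- **the field `cauS`** -/
theorem cauS_of_RC (hS : Pinv S) (hRC : ∀ lam, ∃ R : ℝ, 0 ≤ R ∧ RC D (S lam) R) (κ y : ℝ)
    (u : List ℝ)
    (m a e : ℝ) (hm : 0 ≤ m) (ha : 0 ≤ a) (h : BG D S (κ + y) u (wt m a) e) :
    BG D S κ (y :: u) (wt m a) (y + e) := by
  have h1 : ∀ t, 0 ≤ wt 0 0 t := Prov71.wt_nonneg le_rfl le_rfl
  have h2 : ∀ t, 0 ≤ wt m a t := Prov71.wt_nonneg hm ha
  have h3 := BG_rc (u₁ := [y]) (u₂ := u) (w₁ := wt 0 0) (w₂ := wt m a) (κ := κ)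
    (e := e) hS hRC h1 h2 (by
      rw [sum_wt, List.sum_singleton, add_zero, add_zero]; exact h)
  rw [sum_wt, List.sum_singleton, add_zero, add_zero, List.singleton_append] at h3
  have e1 : (fun t => wt 0 0 t + wt m a t) = wt m a := by
    funext t
    cases t <;> simp [wt]
  rwa [e1] at h3

end

end Crest.Agent.R017.XC858
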