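import Crest.Agent.R017.XC3_858
import Crest.Agent.R017.XC4_858

/-!
# Row 17: rule (C) for the Gauss side functionals of typed lists (helper858)

`SV K h q φ l ps = ∑_{x ∈ bl (exp l)} ‖KS K (sqc q (alP h (ps.map φ))) x‖²`
* `SV_Pinv`, `SV_RC`, `SV_mono`
-/

set_option autoImplicit false
set_option linter.unusedSectionVars false

noncomputable section

namespace Crest.Agent.R017.XC858

open Crest.Agent.R012 Crest.Agent.R012.Eis Crest.Agent.R012.LS2 Crest.Agent.R012.Gauss880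
open Crest.Agent.R017.CM106 Crest.Agent.R017.HP842 Crest.Agent.R017.FE47
open Crest.Agent.R017.XG702 (Pcs BG)
open Crest.Agent.R017.Prov71 (Pinv)

variable {Pq τ : Type*} [DecidableEq τ] {D : Pcs Pq τ}

/-- the Gauss side functional of lists of pieces -/
def SV (K : Eis → Eis → ℂ) (h : ℝ → ℝ) (q : Eis) (φ : Pq → Pc) (l : ℝ) (ps : List Pq) : ℝ :=
  VK K (Real.exp l) (sqc q (alP h (ps.map φ)))

variable {K : Eis → Eis → ℂ} {h : ℝ → ℝ} {R H : ℝ} {q : Eis} {φ : Pq → Pc}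

lemma SV_nonneg (l : ℝ) (ps : List Pq) : 0 ≤ SV K h q φ l ps := VK_nonneg _ _ _

lemma SV_mono {l l' : ℝ} (hl : l ≤ l') (ps : List Pq) : SV K h q φ l ps ≤ SV K h q φ l' ps :=
  VK_mono K (Real.exp_pos _).le (Real.exp_le_exp.2 hl) _

lemma SV_Pinv (hR : ∀ u, cx h u ≠ 0 → |u| ≤ R) (hφ : ∀ p, (φ p).OK) :
    ∀ l ps qs, ps.Perm qs → SV K h q φ l ps = SV K h q φ l qs := by
  intro l ps qs hp
  unfold SV
  rw [alP_perm hR (hp.map φ)]
  intro p hp'
  rw [List.mem_map] at hp'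
  obtain ⟨p', _, rfl⟩ := hp'
  exact hφ p'

lemma prod_Y (hY : ∀ p, (φ p).Y = Real.exp (D.len p)) (ps : List Pq) :
    ((ps.map φ).map Pc.Y).prod = Real.exp (slen D ps) := by
  unfold slen
  induction ps with
  | nil => simp
  | cons p ps ih =>
    rw [List.map_cons, List.map_cons, List.map_cons, List.prod_cons, List.sum_cons, Real.exp_add,
      ih, hY]

/-- **rule (C) for the functional** -/
theorem SV_RC (hK : Ker K) (hR0 : 0 ≤ R) (hR : ∀ u, cx h u ≠ 0 → |u| ≤ R) (hH0 : 0 < H)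
    (hH : ∀ u, ‖cx h u‖ ≤ H) (hφ : ∀ p, (φ p).OK) (hY : ∀ p, (φ p).Y = Real.exp (D.len p)) :
    RC D (SV K h q φ) R := by
  intro N ε hε
  obtain ⟨C, hC, HC⟩ := ruleC_list hR0 hR hH0 hH N hε
  refine ⟨C, hC, fun l ps qs hlen _ _ => ?_⟩
  have hok : ∀ rs : List Pq, ∀ p ∈ rs.map φ, p.OK := by
    intro rs p hp'
    rw [List.mem_map] at hp'
    obtain ⟨p', _, rfl⟩ := hp'
    exact hφ p'
  have h1 := HC K hK (Real.exp l) q (ps.map φ) (qs.map φ) (Real.exp_pos _).le
    (by rw [List.length_map]; exact hlen) (hok ps) (hok qs)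
  rw [prod_Y hY] at h1
  unfold SV
  rw [List.map_append]
  refine h1.trans (le_of_eq ?_)
  have e1 : Real.exp l * (Real.exp (R * N) * Real.exp (slen D ps)) =
      Real.exp (l + slen D ps + R * N) := by
    rw [← Real.exp_add, ← Real.exp_add]; congr 1; ring
  have e2 : Real.exp (slen D ps) ^ (1 + ε) * (Real.exp l * Real.exp (slen D ps)) ^ ε =
      Real.exp ((1 + ε) * slen D ps + ε * (l + slen D ps)) := by
    rw [← Real.exp_add l, ← Real.exp_mul, ← Real.exp_mul, ← Real.exp_add]; congr 1; ring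
  rw [e1, e2]

end Crest.Agent.R017.XC858
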