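import Crest.Agent.R017.X6c5_792

/-!
# Row 17, exceptional class: the cross terms do not depend on the cutoff (helper792)

* `Cross_mono`, `CrossT_mono`, `CRX_mono`, `KKT_mono`
* `CRs_mono`, `KCr_mono` : the total cross terms at `X ≤ X'` agree if `w` is supported in `S X`
-/

set_option autoImplicit false

noncomputable section

open Complex
open scoped ComplexConjugate

namespace Crest.Agent.R017.XCr792

open Crest.Agent.R012 Crest.Agent.R012.Eis Crest.Agent.R012.LS2 Crest.Agent.R012.Gauss880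
open Crest.Agent.R017.PA842 (Supp supp_sub)
open Crest.Agent.R017.PX6 (CrossT KKT)
open Crest.Agent.R017.PX764 (Cross CRX crs)
open Crest.Agent.R017.GE241 (KCr)

lemma ws_eq_self {X : ℝ} {w : Eis → ℂ} (hw : Supp w X) : ws w X = w := by
  classical
  funext n
  unfold ws
  split_ifs with h
  · rfl
  · by_contra h0
    exact h (hw n (Ne.symm h0))

lemma supp_mono {X X' : ℝ} {w : Eis → ℂ} (hX : 0 ≤ X) (hXX : X ≤ X') (hw : Supp w X) :
    Supp w X' := by
  intro n hn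
  have h1 := (mem_S hX).1 (hw n hn)
  exact (mem_S (hX.trans hXX)).2 ⟨h1.1.trans hXX, h1.2⟩

lemma S_mono {X X' : ℝ} (hX : 0 ≤ X) (hXX : X ≤ X') : S X ⊆ S X' := by
  intro n hn
  have h1 := (mem_S hX).1 hn
  exact (mem_S (hX.trans hXX)).2 ⟨h1.1.trans hXX, h1.2⟩

/-- the value at a multiple of an element outside the ball vanishes -/
lemma zero_of_not_mem {X X' : ℝ} (hX : 0 ≤ X) (hXX : X ≤ X') {w : Eis → ℂ} (hw : Supp w X)
    {a m : Eis} (hm : m ∈ S X') (hm' : m ∉ S X) : w (a * m) = 0 := by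
  by_contra h0
  have h1 := (mem_S hX).1 (hw _ h0)
  have h2 := (mem_S (hX.trans hXX)).1 hm
  have ha : a ≠ 0 := by
    rintro rfl
    exact h1.2.1.ne_zero (zero_mul m)
  have ha1 : (1 : ℝ) ≤ nm a := by exact_mod_cast nm_pos.mpr ha
  have h3 : (nm (a * m) : ℝ) = nm a * nm m := by rw [nm_mul]; push_cast; rfl
  have h4 : (0 : ℝ) ≤ nm m := Nat.cast_nonneg _
  refine hm' ((mem_S hX).2 ⟨?_, h2.2⟩)
  have h5 := h1.1
  rw [h3] at h5
  nlinarith

lemma zero_of_not_mem' {X X' : ℝ} (hX : 0 ≤ X) (hXX : X ≤ X') {w : Eis → ℂ} (hw : Supp w X)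
    {a m : Eis} (hm : m ∈ S X') (hm' : m ∉ S X) : w (m * a) = 0 := by
  rw [mul_comm]
  exact zero_of_not_mem hX hXX hw hm hm'

open Classical in
lemma pair_mono {X X' : ℝ} (hX : 0 ≤ X) (hXX : X ≤ X') {w : Eis → ℂ} (hw : Supp w X) (d : Eis)
    (F : Eis → Eis → ℂ) :
    (∑ m₁ ∈ S X', ∑ m₂ ∈ S X', if IsCoprime m₁ m₂ then
      w (d * m₁) * conj (w (d * m₂)) * F m₁ m₂ else 0) =
    ∑ m₁ ∈ S X, ∑ m₂ ∈ S X, if IsCoprime m₁ m₂ then
      w (d * m₁) * conj (w (d * m₂)) * F m₁ m₂ else 0 := by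
  symm
  calc (∑ m₁ ∈ S X, ∑ m₂ ∈ S X, if IsCoprime m₁ m₂ then
        w (d * m₁) * conj (w (d * m₂)) * F m₁ m₂ else 0)
      = ∑ m₁ ∈ S X, ∑ m₂ ∈ S X', if IsCoprime m₁ m₂ then
        w (d * m₁) * conj (w (d * m₂)) * F m₁ m₂ else 0 := by
        refine Finset.sum_congr rfl fun m₁ _ => Finset.sum_subset (S_mono hX hXX) fun m₂ h h' => ?_
        rw [zero_of_not_mem hX hXX hw h h']
        simp
    _ = _ := by
        refine Finset.sum_subset (S_mono hX hXX) fun m₁ h h' => ?_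
        refine Finset.sum_eq_zero fun m₂ _ => ?_
        rw [zero_of_not_mem hX hXX hw h h']
        simp

lemma Cross_mono {X X' : ℝ} (hX : 0 ≤ X) (hXX : X ≤ X') (Z : ℝ) {w : Eis → ℂ} (hw : Supp w X)
    (d : Eis) : Cross X' Z w d = Cross X Z w d := by
  classical
  unfold Cross
  rw [ws_eq_self hw, ws_eq_self (supp_mono hX hXX hw)]
  have h := pair_mono hX hXX hw d (fun m₁ m₂ =>
    (((nm m₁ : ℝ) ^ (-(1 : ℝ) / 2) * (nm m₂ : ℝ) ^ (-(1 : ℝ) / 2) : ℝ) : ℂ) *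
      crs 3 (3 * (nm m₁ * nm m₂) / (4 * Real.pi ^ 2 * Z)) m₁ m₂)
  simp only [← mul_assoc] at h
  simp only [← mul_assoc]
  exact h

lemma CrossT_mono {X X' : ℝ} (hX : 0 ≤ X) (hXX : X ≤ X') (L : ℝ) (g : Eis) {w : Eis → ℂ}
    (hw : Supp w X) (d : Eis) : CrossT X' L g w d = CrossT X L g w d := by
  classical
  unfold CrossT
  rw [ws_eq_self hw, ws_eq_self (supp_mono hX hXX hw)]
  exact pair_mono hX hXX hw d (fun m₁ m₂ => crs g L (d * m₁) (d * m₂))

lemma Cross_zero_of {X X' : ℝ} (hX : 0 ≤ X) (hXX : X ≤ X') (Z : ℝ) {w : Eis → ℂ} (hw : Supp w X)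
    {d : Eis} (hd : d ∈ S X') (hd' : d ∉ S X) : Cross X Z w d = 0 := by
  classical
  unfold Cross
  rw [ws_eq_self hw]
  refine Finset.sum_eq_zero fun m₁ _ => Finset.sum_eq_zero fun m₂ _ => ?_
  rw [zero_of_not_mem' hX hXX hw hd hd']
  simp

lemma CrossT_zero_of {X X' : ℝ} (hX : 0 ≤ X) (hXX : X ≤ X') (L : ℝ) (g : Eis) {w : Eis → ℂ}
    (hw : Supp w X) {d : Eis} (hd : d ∈ S X') (hd' : d ∉ S X) : CrossT X L g w d = 0 := by
  classical
  unfold CrossT
  rw [ws_eq_self hw]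
  refine Finset.sum_eq_zero fun m₁ _ => Finset.sum_eq_zero fun m₂ _ => ?_
  rw [zero_of_not_mem' hX hXX hw hd hd']
  simp

lemma CRX_mono {X X' : ℝ} (hX : 0 ≤ X) (hXX : X ≤ X') (Z Y : ℝ) {w : Eis → ℂ}
    (hw : Supp w X) : CRX X' Z Y w = CRX X Z Y w := by
  classical
  unfold CRX
  symm
  rw [Finset.sum_congr rfl fun d _ => by rw [← Cross_mono hX hXX Z hw d]]
  refine Finset.sum_subset (Finset.filter_subset_filter _ (S_mono hX hXX)) fun d h h' => ?_
  rw [Finset.mem_filter] at h h'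
  have hd' : d ∉ S X := fun hc => h' ⟨hc, h.2⟩
  rw [Cross_mono hX hXX Z hw d, Cross_zero_of hX hXX Z hw h.1 hd', norm_zero]

lemma KKT_mono {X X' : ℝ} (hX : 0 ≤ X) (hXX : X ≤ X') (L Y : ℝ) (g : Eis) {w : Eis → ℂ}
    (hw : Supp w X) : KKT X' L Y g w = KKT X L Y g w := by
  classical
  unfold KKT
  symm
  rw [Finset.sum_congr rfl fun d _ => by rw [← CrossT_mono hX hXX L g hw d]]
  refine Finset.sum_subset (Finset.filter_subset_filter _ (S_mono hX hXX)) fun d h h' => ?_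
  rw [Finset.mem_filter] at h h'
  have hd' : d ∉ S X := fun hc => h' ⟨hc, h.2⟩
  rw [CrossT_mono hX hXX L g hw d, CrossT_zero_of hX hXX L g hw h.1 hd', norm_zero]

lemma sub_zero_of {X X' : ℝ} (hX : 0 ≤ X) (hXX : X ≤ X') {w : Eis → ℂ} (hw : Supp w X)
    {g : Eis} (hg : g ∈ S X') (hg' : g ∉ S X) : PA842.sub w g = 0 := by
  funext n
  exact zero_of_not_mem' hX hXX hw hg hg'

/-- **the total cross term of (P_ex) does not depend on the cutoff** -/
theorem CRs_mono {X X' : ℝ} (hX : 0 ≤ X) (hXX : X ≤ X') (Z Y : ℝ) {w : Eis → ℂ}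
    (hw : Supp w X) : ∑ g ∈ S X', CRX (X' / nm g) Z Y (PA842.sub w g) =
      ∑ g ∈ S X, CRX (X / nm g) Z Y (PA842.sub w g) := by
  symm
  have e : ∀ g ∈ S X, CRX (X / nm g) Z Y (PA842.sub w g) =
      CRX (X' / nm g) Z Y (PA842.sub w g) := by
    intro g hg
    have hg' := (mem_S hX).1 hg
    exact (CRX_mono (by positivity) (by gcongr) Z Y (supp_sub hX hw hg'.2.1)).symm
  rw [Finset.sum_congr rfl e]
  refine Finset.sum_subset (S_mono hX hXX) fun g h h' => ?_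
  rw [sub_zero_of hX hXX hw h h', PX764.CRX_zero]

/-- **the total cross term of (P'_ex) does not depend on the cutoff** -/
theorem KCr_mono {X X' : ℝ} (hX : 0 ≤ X) (hXX : X ≤ X') (L Y : ℝ) {w : Eis → ℂ}
    (hw : Supp w X) : KCr X' L Y w = KCr X L Y w := by
  unfold GE241.KCr
  symm
  have e : ∀ g ∈ S X, KKT (X / nm g) L Y g (PA842.sub w g) =
      KKT (X' / nm g) L Y g (PA842.sub w g) := by
    intro g hg
    have hg' := (mem_S hX).1 hg
    exact (KKT_mono (by positivity) (by gcongr) L Y g (supp_sub hX hw hg'.2.1)).symm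
  rw [Finset.sum_congr rfl e]
  refine Finset.sum_subset (S_mono hX hXX) fun g h h' => ?_
  rw [sub_zero_of hX hXX hw h h', PX6.KKT_zero]

end Crest.Agent.R017.XCr792
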