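import Crest.Agent.R017.XCr_792
import Crest.Agent.R017.XPX2_241
import Crest.Agent.R017.X6T_502

/-!
# Row 17, exceptional class: 241's cross inputs from the lump theorem (helper792)

* `crP_241`, `crG_241` : `XPX241.CrP`, `XPX241.CrG` from `LumpProv`
-/

set_option autoImplicit false

namespace Crest.Agent.R017.XCr792

open Crest.Agent.R017.B770
open Crest.Agent.R017.Prov71
open Crest.Agent.R012.PSer47 (IsChar)

/-- the cross lemma at `r = g` -/
theorem xG2 : X6b792.XG2 := X6T502.xG2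

/-- **the cross input of (P_ex)** -/
theorem crP_241 {h : ℝ → ℝ} {c : ℝ} (hh : FE47.PU h c) {P : DPar}
    (hP : ∀ k : Kd, IsChar (chK P k)) (hL : LumpProv h P) : XPX241.CrP h P := by
  intro r ε R₀ hε hR₀
  obtain ⟨C, A, hC, hA, H⟩ := crP_of_pu hh hP hL r ε R₀ hε hR₀
  exact ⟨C, A, hC, hA, fun s q X K Y D hq hD hn hz hX hK _ hXe hS =>
    H s q X K Y D hq hD hn hz hX hK hXe hS⟩

/-- **the cross input of (P'_ex)** -/
theorem crG_241 {h : ℝ → ℝ} {c : ℝ} (hh : FE47.PU h c) {P : DPar}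
    (hP : ∀ k : Kd, IsChar (chK P k)) (hL : LumpProv h P) : XPX241.CrG h P :=
  crG_of_pu xG2 hh hP hL

end Crest.Agent.R017.XCr792
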