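import Crest.Agent.R017.XFe_320
import Crest.Agent.R017.XBc_241

/-!
# Row 17, exceptional class, pairs: one list without comparison, part a (helper829)

* `triv_pt`   : the trivial bound of the bias sum
* `bias_triv` : the trivial bias block (copy of helper241's `bias_DD`)
-/

set_option autoImplicit false

noncomputable section

open Complex MeasureTheory
open scoped ComplexConjugate

namespace Crest.Agent.R017.XF829

open Crest.Agent.R012 Crest.Agent.R012.Eis Crest.Agent.R012.LS2 Crest.Agent.R012.Gauss880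
open Crest.Agent.R012.Div277 Crest.Agent.R012.CR2
open Crest.Agent.R017.PA842 (V Supp)
open Crest.Agent.R017.CM106 (CS TG FS)
open Crest.Agent.R017.TP320 hiding th
open Crest.Agent.R017.End699 Crest.Agent.R017.Two939 Crest.Agent.R017.TXC791
open Crest.Agent.R017.FE47 (PU)
open Crest.Agent.R017.HP842 (Th sqc UT Pc uv pc alL al)
open Crest.Agent.R017.PX764 (th md n6 Gh Dk pC_pos)
open Crest.Agent.R017.ExD791
open Crest.Agent.R017.ExT764 (Shf xA)
open Crest.Agent.R017.XB241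

/-- the trivial bound of the bias sum -/
lemma triv_pt {A₀ δ len R : ℝ} (hA₀ : 0 ≤ A₀) (hδ1 : δ ≤ 1 / 2) (hδ : 0 ≤ δ) (hR : 0 ≤ R)
    {x : Eis → ℂ} (hx : ∀ m, ‖x m‖ ≤ A₀)
    (hs : ∀ m, x m ≠ 0 → |Real.log (nm m) - len| ≤ R) {a : Eis} (ha : IsPrim a) (r : Eis) (t : ℝ) :
    ‖∑ k ∈ S (Real.exp (len + R)), x (a * k) * (md r k : ℂ) *
      (nm k : ℂ) ^ ((δ : ℂ) + t * Complex.I - 1 / 2)‖ ≤
      16 * Real.exp (2 * R) * A₀ * (Real.exp len / nm a) ^ (1 / 3 + δ) := by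
  classical
  have hX0 : 0 < Real.exp (len + R) := Real.exp_pos _
  have hna : (1 : ℝ) ≤ nm a := by exact_mod_cast nm_pos.2 ha.ne_zero
  have hna0 : (0 : ℝ) < nm a := by linarith
  obtain ⟨Z, hZ⟩ : ∃ z : ℝ, z = Real.exp len / nm a := ⟨_, rfl⟩
  have hZ0 : 0 < Z := by rw [hZ]; positivity
  obtain ⟨T, hT⟩ : ∃ T : ℝ, T = A₀ * (Z * Real.exp (-R)) ^ (δ - 2 / 3) := ⟨_, rfl⟩
  have hT0 : 0 ≤ T := by rw [hT]; positivity
  have key : ∀ k ∈ S (Real.exp (len + R)), ‖x (a * k) * (md r k : ℂ) *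
      (nm k : ℂ) ^ ((δ : ℂ) + t * Complex.I - 1 / 2)‖ ≤
      if (nm k : ℝ) ≤ Z * Real.exp R then T else 0 := by
    intro k hk
    obtain ⟨h1, h2, _⟩ := (mem_S hX0.le).1 hk
    have hk1 : (1 : ℝ) ≤ nm k := by exact_mod_cast nm_pos.2 h2.ne_zero
    have hk0 : 0 < nm k := nm_pos.2 h2.ne_zero
    by_cases hxk : x (a * k) = 0
    · rw [hxk, zero_mul, zero_mul, norm_zero]
      split_ifs
      · exact hT0
      · exact le_rfl
    have hl := hs _ hxk
    rw [nm_mul] at hl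
    push_cast at hl
    rw [Real.log_mul (by positivity) (by positivity)] at hl
    have hl1 := (abs_le.1 hl).1
    have hl2 := (abs_le.1 hl).2
    have hlZ : Real.log Z = len - Real.log (nm a) := by
      rw [hZ, Real.log_div (Real.exp_pos _).ne' hna0.ne', Real.log_exp]
    have hup : (nm k : ℝ) ≤ Z * Real.exp R := by
      rw [← Real.log_le_log_iff (by linarith) (by positivity),
        Real.log_mul hZ0.ne' (Real.exp_pos _).ne', Real.log_exp, hlZ]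
      linarith
    have hlo : Z * Real.exp (-R) ≤ (nm k : ℝ) := by
      rw [← Real.log_le_log_iff (by positivity) (by linarith),
        Real.log_mul hZ0.ne' (Real.exp_pos _).ne', Real.log_exp, hlZ]
      linarith
    rw [if_pos hup, norm_mul, norm_mul, Complex.norm_real,
      Real.norm_of_nonneg (PX764.md_nonneg h2.ne_zero), Complex.norm_natCast_cpow_of_pos hk0]
    have hre : ((δ : ℂ) + t * Complex.I - 1 / 2).re = δ - 1 / 2 := by
      simp
    rw [hre]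
    have h3 : md r k ≤ (nm k : ℝ) ^ (-(1 : ℝ) / 6) := Dk848.md_le_n6 h2.ne_zero
    calc ‖x (a * k)‖ * md r k * (nm k : ℝ) ^ (δ - 1 / 2)
        ≤ A₀ * (nm k : ℝ) ^ (-(1 : ℝ) / 6) * (nm k : ℝ) ^ (δ - 1 / 2) := by
          have := hx (a * k)
          have := PX764.md_nonneg (h := r) h2.ne_zero
          gcongr
      _ = A₀ * (nm k : ℝ) ^ (δ - 2 / 3) := by
          rw [mul_assoc, ← Real.rpow_add (by linarith)]
          congr 2; ring
      _ ≤ A₀ * (Z * Real.exp (-R)) ^ (δ - 2 / 3) := by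
          refine mul_le_mul_of_nonneg_left ?_ hA₀
          exact Real.rpow_le_rpow_of_nonpos (by positivity) hlo (by linarith)
      _ = T := hT.symm
  refine (norm_sum_le _ _).trans ((Finset.sum_le_sum key).trans ?_)
  rw [← Finset.sum_filter, Finset.sum_const, nsmul_eq_mul]
  have hcard : (((S (Real.exp (len + R))).filter
      (fun k => (nm k : ℝ) ≤ Z * Real.exp R)).card : ℝ) ≤ 16 * (Z * Real.exp R) := by
    have hsub : (S (Real.exp (len + R))).filter (fun k => (nm k : ℝ) ≤ Z * Real.exp R) ⊆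
        bl (Z * Real.exp R) := by
      intro k hk
      rw [Finset.mem_filter] at hk
      have h2 := ((mem_S hX0.le).1 hk.1).2.1
      rw [mem_bl (by positivity)]
      exact ⟨h2.ne_zero, hk.2⟩
    exact (Nat.cast_le.2 (Finset.card_le_card hsub)).trans (card_bl_le (by positivity))
  have e1 : (Z * Real.exp (-R)) ^ (δ - 2 / 3) = Z ^ (δ - 2 / 3) * Real.exp (R * (2 / 3 - δ)) := by
    rw [Real.mul_rpow hZ0.le (Real.exp_pos _).le, ← Real.exp_mul]
    congr 2; ring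
  have e2 : Z * Z ^ (δ - 2 / 3) = Z ^ (1 / 3 + δ) := by
    rw [mul_comm, ← Real.rpow_add_one hZ0.ne']
    congr 1; ring
  have e3 : Real.exp R * Real.exp (R * (2 / 3 - δ)) ≤ Real.exp (2 * R) := by
    rw [← Real.exp_add]
    apply Real.exp_le_exp.2
    nlinarith
  calc _ ≤ 16 * (Z * Real.exp R) * T := mul_le_mul_of_nonneg_right hcard hT0
    _ = 16 * A₀ * (Z * Z ^ (δ - 2 / 3)) * (Real.exp R * Real.exp (R * (2 / 3 - δ))) := by
        rw [hT, e1]; ring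
    _ ≤ 16 * A₀ * (Z * Z ^ (δ - 2 / 3)) * Real.exp (2 * R) := by
        refine mul_le_mul_of_nonneg_left e3 (by positivity)
    _ = _ := by rw [e2, hZ]; ring

set_option maxHeartbeats 2000000 in
/-- **the trivial bias block** -/
theorem bias_triv {R : ℝ} (hR : 0 ≤ R) {δ : ℝ} (hδ : 0 < δ) (hδ1 : δ ≤ 1 / 40) {ε : ℝ}
    (hε : 0 < ε) {M : ℕ} (hM : 8 ≤ M) :
    ∃ C : ℝ, 1 ≤ C ∧ ∀ X0 : ℝ, 3 ≤ X0 → ∀ len A₀ : ℝ, 0 ≤ A₀ → ∀ x : Eis → ℂ,
      (∀ m, ‖x m‖ ≤ A₀) → (∀ m, x m ≠ 0 → |Real.log (nm m) - len| ≤ R) →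
      ∀ X K E : ℝ, X = Real.exp (len + R) → 1 ≤ X →
      X ≤ Real.exp R * X0 → 1 ≤ K → K ≤ X0 → 1 ≤ E → E ≤ X0 →
      ∀ g ∈ S X, K ≤ (X / nm g) ^ 2 →
      (open Classical in
      ∑ d ∈ (S (X / nm g)).filter (fun d => (nm d : ℝ) ≤ X ^ δ),
        ∑ e ∈ (S (X / nm g)).filter (· ∣ d),
          ∑ f ∈ S X, K / nm f * DIB M δ x X (g * d) e f
            (Lde (X / nm g) K δ d e * E)) ≤
        C * X0 ^ (30 * δ + ε) * A₀ ^ 2 *
          (K ^ ((1 : ℝ) / 3) * E ^ ((2 : ℝ) / 3) *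
            Real.exp (2 * len - 0) / nm g) := by
  classical
  set B' : ℝ := 6 * R + 11 with hB'
  have hB'0 : 0 ≤ B' := by linarith
  set ε₂ : ℝ := ε / (4 * B') with hε₂
  have hε₂0 : 0 < ε₂ := by rw [hε₂]; positivity
  obtain ⟨C2, hC2, hτ⟩ := tau_le_rpow hε₂0
  obtain ⟨C3, hC3, hth⟩ := Dk848.sum_th_sq
  have hM6 : (6 : ℝ) + 1 ≤ M := by
    have : (8 : ℝ) ≤ M := by exact_mod_cast hM
    linarith
  have hIM : 0 ≤ IM M 6 := IM_nonneg M 6
  have hpC := pC_pos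
  set C1 : ℝ := 16 * Real.exp (2 * R) with hC1
  set Ca : ℝ := 256 * (IM M 6 * pC ^ 2 * C1 ^ 2 * (C2 * C3 * Real.exp (2 / 3) * 18)) with hCa
  have hCa0 : 0 ≤ Ca := by rw [hCa]; positivity
  refine ⟨Ca * ((1 + 1 / δ) * Real.exp (10 * R)) + 1, by
    have : 0 ≤ Ca * ((1 + 1 / δ) * Real.exp (10 * R)) := by positivity
    linarith, ?_⟩
  intro X0 hX0 len A₀ hA₀ x hx hsupp X K E hX hX1 hXX hK hKX hE hEX g hg hKg
  have hX00 : 0 < X0 := by linarith
  have hX01 : 1 ≤ X0 := by linarith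
  have hlX0 : 0 ≤ Real.log X0 := Real.log_nonneg hX01
  have hXp : 0 < X := by linarith
  have hlX : 0 ≤ Real.log X := Real.log_nonneg hX1
  have up10 : X0 ^ (6 * R + 10) ≤ X0 ^ B' := Real.rpow_le_rpow_of_exponent_le hX01 (by linarith)
  obtain ⟨hgX, hgp, hgs⟩ := (mem_S hXp.le).1 hg
  have hg1 := one_le_nm' hgp
  set G : ℝ := (nm g : ℝ) with hG
  have hGp : 0 < G := by linarith
  set X' : ℝ := X / G with hX'
  have hX'1 : 1 ≤ X' := by rw [hX', le_div_iff₀ hGp]; linarith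
  have hX'X : X' ≤ X := div_le_self hXp.le hg1
  have hX'n : 0 ≤ X' := by linarith
  obtain ⟨d0, hd0⟩ : ∃ x : ℝ, x = 0 := ⟨_, rfl⟩
  rw [show 2 * len - 0 = 2 * len - d0 by rw [hd0]]
  set T6 : ℝ := A₀ ^ 2 with hT6
  have hT60 : 0 ≤ T6 := by rw [hT6]; positivity
  set P : ℝ := X0 ^ (ε / 4) with hP
  have hP0 : 0 ≤ P := by positivity
  set Ex : ℝ := Real.exp ((2 / 3 + 2 * δ) * len - d0) with hEx
  have hEx0 : 0 ≤ Ex := (Real.exp_pos _).le
  set F : ℝ := (X ^ δ) ^ 2 * K ^ δ * ((X / G) ^ ((4 : ℝ) / 3) * E ^ ((2 : ℝ) / 3) *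
        K ^ (-(2 / 3) : ℝ)) with hF
  have hF0 : 0 ≤ F := by rw [hF]; positivity
  have hY1 : 1 ≤ X ^ δ := Real.one_le_rpow hX1 hδ.le
  -- one pair `(d, e)`
  set Q : ℝ := (IM M 6 * pC ^ 2 * C1 ^ 2 * (C2 * C3 * Real.exp (2 / 3) * 18)) *
    (P ^ 2 * P * T6 * ((K * Ex) * (G ^ ((1 : ℝ) / 3) * X ^ δ)) * ((Real.log X + 1) * F)) with hQ
  have hQ0 : 0 ≤ Q := by rw [hQ]; positivity
  have hpair : ∀ d ∈ (S X').filter (fun d => (nm d : ℝ) ≤ X ^ δ),
      ∀ e ∈ (S X').filter (· ∣ d), ∑ f ∈ S X, K / nm f *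
        DIB M δ x X (g * d) e f (Lde X' K δ d e * E) ≤ Q := by
    intro d hd e he
    have hd' := mem_de hX'n hd
    have hdp := hd'.1
    have he' : IsPrim e ∧ (nm e : ℝ) ≤ nm d := by
      rw [Finset.mem_filter, mem_S hX'n] at he
      exact ⟨he.1.2.1, by exact_mod_cast nm_le_of_dvd hdp.ne_zero he.2⟩
    have hep := he'.1
    have hd1 := one_le_nm' hdp
    have he1 := one_le_nm' hep
    have hdX : (nm d : ℝ) ≤ X := hd'.2.2.trans hX'X
    have heX : (nm e : ℝ) ≤ X := he'.2.trans hdX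
    have heY : (nm e : ℝ) ≤ X ^ δ := he'.2.trans hd'.2.1
    set L : ℝ := Lde X' K δ d e * E with hLd
    have hL1' : 1 ≤ Lde X' K δ d e := one_le_LdeB hX'1 hK hδ.le d e
    have hL1 : 1 ≤ L := one_le_mul_of_one_le_of_one_le hL1' hE
    have hL0 : 0 ≤ L := by linarith
    have hLb : L ≤ X ^ δ * K ^ δ * (2 * ((X / G) ^ 2 / K)) * E :=
      mul_le_mul_of_nonneg_right (Lde_le2 hδ hK hX'1 hX'X hKg hdp he'.2) (by linarith)
    obtain ⟨z1, z2, z3, z4⟩ := size_le hδ.le (by linarith) hK hE hX1 hg1 hX0 hR hXX hEX hLb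
    set ce : Eis := (e * sq3) ^ 2 with hce
    have hce0 : ce ≠ 0 := by
      rw [hce]
      exact pow_ne_zero 2 (mul_ne_zero hep.ne_zero sq3_ne_zero')
    have hnce : ((nm ce : ℕ) : ℝ) = 9 * (nm e : ℝ) ^ 2 := by rw [hce, nm_sq3_sq]
    -- one `f`
    have hf1 : ∀ f ∈ S X, K / nm f * DIB M δ x X (g * d) e f L ≤
        (IM M 6 * pC ^ 2 * C1 ^ 2 * (P ^ 2 * T6 * ((K * Ex) * (G ^ ((1 : ℝ) / 3) * X ^ δ)))) *
          ((nm f : ℝ) ^ (-(2 / 3) : ℝ) * ∑ l ∈ bl L, ‖th (l * f * ce)‖ ^ 2) := by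
      intro f hf
      obtain ⟨hfX, hfp, hfs⟩ := (mem_S hXp.le).1 hf
      have hf1 := one_le_nm' hfp
      have hgdf : IsPrim (g * d * f) := (hgp.mul hdp).mul hfp
      have hngdf : ((nm (g * d * f) : ℕ) : ℝ) = G * nm d * nm f := by
        rw [nm_mul, nm_mul]; push_cast; rfl
      have hgdfX : ((nm (g * d * f) : ℕ) : ℝ) ≤ X0 ^ B' := by
        rw [hngdf]
        calc G * nm d * nm f ≤ X * X * X := by gcongr
          _ ≤ X0 ^ (R + 1) * X0 ^ (R + 1) * X0 ^ (R + 1) := by gcongr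
          _ = X0 ^ (3 * R + 3) := by
            rw [← Real.rpow_add hX00, ← Real.rpow_add hX00]; congr 1; ring
          _ ≤ _ := Real.rpow_le_rpow_of_exponent_le hX01 (by linarith)
      have hgdf1 := one_le_nm' hgdf
      set Gt : ℝ := ((nm (g * d * f) : ℕ) : ℝ) with hGt
      have hMg : (1 : ℝ) ^ 2 ≤ Gt * Real.exp (-d0) := by
        rw [hd0, neg_zero, Real.exp_zero]; linarith
      set Qf : ℝ := C1 * A₀ * ((Real.exp len / Gt) ^ (1 / 3 + δ) * 1) with hQf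
      have hQf0 : 0 ≤ Qf := by rw [hQf]; positivity
      have hpt : ∀ l ∈ bl L, ∀ t : ℝ, ‖∑ k ∈ S X, x (g * d * f * k) *
          (md (l * (e * sq3) ^ 2 * f) k : ℂ) * (nm k : ℂ) ^ ((δ : ℂ) + t * Complex.I - 1 / 2)‖ ≤
          Qf * ((1 + |0 + t|) * (1 + |0 + t|)) ^ 3 := by
        intro l hl t
        have h1 := triv_pt hA₀ (by linarith : δ ≤ 1 / 2) hδ.le hR hx hsupp hgdf
          (l * (e * sq3) ^ 2 * f) t
        rw [← hX] at h1
        have h2 : (1 : ℝ) ≤ ((1 + |0 + t|) * (1 + |0 + t|)) ^ 3 :=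
          one_le_pow₀ (one_le_mul_of_one_le_of_one_le (by linarith [abs_nonneg (0 + t)])
            (by linarith [abs_nonneg (0 + t)]))
        refine h1.trans (le_trans (le_of_eq ?_) (le_mul_of_one_le_right hQf0 h2))
        rw [hQf, hC1, hGt]
        ring
      have h2 := DIB_le hM (σ := δ) hXp.le (x := x) (d := g * d) (e := e)
        (f := f) (L := L) hQf0 hpt
      have h3 := Qsq (δ := δ) (len := len) (d0 := d0) hδ.le hgdf1 hMg
      have h4 : Qf ^ 2 ≤ C1 ^ 2 * P ^ 2 * T6 * (Ex * Gt ^ ((1 : ℝ) / 3)) := by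
        rw [hQf, mul_pow, mul_pow]
        have hP2 : 1 ≤ P ^ 2 := one_le_pow₀ (Real.one_le_rpow hX01 (by positivity))
        have h40 : 0 ≤ C1 ^ 2 * T6 * (Ex * Gt ^ ((1 : ℝ) / 3)) := by positivity
        calc C1 ^ 2 * A₀ ^ 2 * (((Real.exp len / Gt) ^ (1 / 3 + δ) * 1) ^ 2)
            ≤ C1 ^ 2 * A₀ ^ 2 * (Ex * Gt ^ ((1 : ℝ) / 3)) :=
              mul_le_mul_of_nonneg_left h3 (by positivity)
          _ = C1 ^ 2 * T6 * (Ex * Gt ^ ((1 : ℝ) / 3)) := by rw [hT6]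
          _ ≤ P ^ 2 * (C1 ^ 2 * T6 * (Ex * Gt ^ ((1 : ℝ) / 3))) := le_mul_of_one_le_left h40 hP2
          _ = _ := by ring
      have h5 : Gt ^ ((1 : ℝ) / 3) ≤ G ^ ((1 : ℝ) / 3) * X ^ δ * (nm f : ℝ) ^ ((1 : ℝ) / 3) := by
        rw [hngdf, Real.mul_rpow (by positivity) (by positivity),
          Real.mul_rpow (by positivity) (by positivity)]
        have a1 : (nm d : ℝ) ^ ((1 : ℝ) / 3) ≤ X ^ δ := by
          calc (nm d : ℝ) ^ ((1 : ℝ) / 3) ≤ (nm d : ℝ) ^ (1 : ℝ) :=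
                Real.rpow_le_rpow_of_exponent_le hd1 (by norm_num)
            _ = nm d := Real.rpow_one _
            _ ≤ _ := hd'.2.1
        gcongr
      have h6 : (nm f : ℝ) ^ (-(2 / 3) : ℝ) = (nm f : ℝ) ^ ((1 : ℝ) / 3) / nm f := by
        have : (-(2 / 3) : ℝ) = 1 / 3 - 1 := by norm_num
        rw [this, Real.rpow_sub (by linarith), Real.rpow_one]
      have h7 : ∑ l ∈ bl L, ‖th (l * (e * sq3) ^ 2 * f)‖ ^ 2 =
          ∑ l ∈ bl L, ‖th (l * f * ce)‖ ^ 2 := by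
        refine Finset.sum_congr rfl fun l _ => ?_
        rw [hce, mul_right_comm]
      have h8 : 0 ≤ ∑ l ∈ bl L, ‖th (l * f * ce)‖ ^ 2 :=
        Finset.sum_nonneg fun _ _ => by positivity
      rw [h7] at h2
      have h21 : DIB M δ x X (g * d) e f L ≤ IM M 6 * ((pC ^ 2 * Qf ^ 2) *
          ∑ l ∈ bl L, ‖th (l * f * ce)‖ ^ 2) := by
        refine h2.trans (le_of_eq ?_)
        rw [abs_zero]; ring
      calc K / nm f * DIB M δ x X (g * d) e f L
          ≤ K / nm f * (IM M 6 * ((pC ^ 2 * Qf ^ 2) *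
            ∑ l ∈ bl L, ‖th (l * f * ce)‖ ^ 2)) := by
            refine mul_le_mul_of_nonneg_left h21 (by positivity)
        _ ≤ K / nm f * (IM M 6 * ((pC ^ 2 * (C1 ^ 2 * P ^ 2 * T6 *
            (Ex * (G ^ ((1 : ℝ) / 3) * X ^ δ * (nm f : ℝ) ^ ((1 : ℝ) / 3))))) *
            ∑ l ∈ bl L, ‖th (l * f * ce)‖ ^ 2)) := by
            have h9 : Qf ^ 2 ≤ C1 ^ 2 * P ^ 2 * T6 *
                (Ex * (G ^ ((1 : ℝ) / 3) * X ^ δ * (nm f : ℝ) ^ ((1 : ℝ) / 3))) :=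
              h4.trans (by gcongr)
            gcongr
        _ = _ := by rw [h6]; ring
    refine (Finset.sum_le_sum hf1).trans ?_
    rw [← Finset.mul_sum]
    -- the sum over `f`
    have hDm : ∀ r : Eis, r ≠ 0 → (nm r : ℝ) ≤ L * (Real.exp 1 * X) → (tau r : ℝ) ≤ C2 * P := by
      intro r hr hrn
      have hn0 : (0 : ℝ) ≤ nm r := Nat.cast_nonneg _
      calc (tau r : ℝ) ≤ C2 * (nm r : ℝ) ^ ε₂ := hτ r hr
        _ ≤ C2 * (X0 ^ B') ^ ε₂ := by
          have := Real.rpow_le_rpow hn0 (hrn.trans (z4.trans up10)) hε₂0.le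
          gcongr
        _ = C2 * P := by
          rw [← Real.rpow_mul hX00.le, hP, hε₂]
          congr 2
          have : B' ≠ 0 := by rw [hB']; positivity
          field_simp
    have hsf := sum_f hC3 hth (Dm := C2 * P) (by positivity) hL1 hX1 hce0 hDm
    have hLn := Lnc_le (ne := (nm e : ℝ)) hδ.le hK hE hX1 hg1 hL0 hLb (by linarith) heY
    rw [← hnce] at hLn
    calc _ ≤ (IM M 6 * pC ^ 2 * C1 ^ 2 * (P ^ 2 * T6 * ((K * Ex) * (G ^ ((1 : ℝ) / 3) * X ^ δ)))) *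
          ((Real.log X + 1) * (C2 * P * C3 * Real.exp (2 / 3) * (18 * F))) := by
          refine mul_le_mul_of_nonneg_left (hsf.trans ?_) (by positivity)
          gcongr
      _ = Q := by rw [hQ]; ring
  have hcd := card_de hY1 Q hQ0 ((S X').filter (fun d => (nm d : ℝ) ≤ X ^ δ))
    (fun d => (S X').filter (· ∣ d)) (fun d hd => by
      have := mem_de hX'n hd
      exact ⟨this.1, this.2.1⟩) (fun d hd e he => by
      have h1 := mem_de hX'n hd
      rw [Finset.mem_filter, mem_S hX'n] at he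
      exact ⟨he.1.2.1, by exact_mod_cast nm_le_of_dvd h1.1.ne_zero he.2⟩) _ hpair
  refine hcd.trans ?_
  have hla := last_alg (δ := δ) (ε := ε) (R := R) (len := len) (d0 := d0) (K := K) (E := E)
    (X := X) (G := G) hδ hδ1 hR hg1 hK hE hX hX1 hX0 hXX hKX hε
  calc 256 * (X ^ δ) ^ 2 * Q = Ca * T6 * (P ^ 2 * P * (X ^ δ) ^ 2 *
        ((K * Ex) * (G ^ ((1 : ℝ) / 3) * X ^ δ)) * ((Real.log X + 1) * F)) := by
        rw [hQ, hCa]; ring
    _ ≤ Ca * T6 * ((1 + 1 / δ) * Real.exp (10 * R) * X0 ^ (30 * δ + ε) *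
      (K ^ ((1 : ℝ) / 3) * E ^ ((2 : ℝ) / 3) * Real.exp (2 * len - d0) / G)) := by
        refine mul_le_mul_of_nonneg_left hla (by positivity)
    _ = (Ca * ((1 + 1 / δ) * Real.exp (10 * R))) * (X0 ^ (30 * δ + ε) * T6 *
      (K ^ ((1 : ℝ) / 3) * E ^ ((2 : ℝ) / 3) * Real.exp (2 * len - d0) / G)) := by ring
    _ ≤ (Ca * ((1 + 1 / δ) * Real.exp (10 * R)) + 1) * (X0 ^ (30 * δ + ε) * T6 *
      (K ^ ((1 : ℝ) / 3) * E ^ ((2 : ℝ) / 3) * Real.exp (2 * len - d0) / G)) := by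
        refine mul_le_mul_of_nonneg_right (by linarith) (by positivity)
    _ = _ := by ring


end Crest.Agent.R017.XF829
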