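import Crest.Agent.R017.XFe_320
import Crest.Agent.R017.XBc_241
import Crest.Agent.R017.PE5_241
import Crest.Agent.R017.RQd_385

/-!
# Row 17, exceptional class, pairs (helper320), part f: lists

* `biasAt_of` : the bias block (from helper241's `bias_DD`)
* `rpl d ps`  : the list with the first two lengths `(z₁ + z₂ - d, d)`
* `PMx_list`  : **rule (P) for `Y' - ζ Y°`, lists**: the pair functional over the noncubes of `ps`
  against the one of `rpl d ps`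
-/

set_option autoImplicit false
set_option maxHeartbeats 2000000

noncomputable section

open Complex
open scoped ComplexConjugate

namespace Crest.Agent.R017.XF320

open Crest.Agent.R012 Crest.Agent.R012.Eis Crest.Agent.R012.LS2 Crest.Agent.R012.Gauss880
open Crest.Agent.R012.Div277 Crest.Agent.R012.Weight600
open Crest.Agent.R012.T411 (NCube)
open Crest.Agent.R017.CM106 Crest.Agent.R017.FE47 Crest.Agent.R017.End699
open Crest.Agent.R017.B770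
open Crest.Agent.R017.XG702 (Pcs BG)
open Crest.Agent.R017.Prov71
open Crest.Agent.R017.HP842 (UT pc KS sqc Kg uv alL al ssub)
open Crest.Agent.R017.TP320 (VC VG VC_mono VC_nonneg Fam)
open Crest.Agent.R017.XRG106 (CS_al)
open Crest.Agent.R017.XP699
open Crest.Agent.R017.PE241 (KOk kok_Dk)
open Crest.Agent.R017.PX764 (Dk)
open Crest.Agent.R017.ExT764 (Shf shY xA zeP norm_zeP)
open Crest.Agent.R017.RQd385 (PM2Q PMpQ)

/-- **the bias block** -/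
theorem biasAt_of {h : ℝ → ℝ} {c : ℝ} (hpu : PU h c) (N : ℕ) {B R : ℝ} (hB : 0 ≤ B) (hR : 0 ≤ R)
    {δ ε η : ℝ} (hδ : 0 < δ) (hδ1 : δ ≤ 1 / 40) (hε : 0 < ε) (hη : 30 * δ + ε ≤ η) {M : ℕ}
    (hM : 8 ≤ M) : ∃ C : ℝ, 1 ≤ C ∧ BiasAt h R M δ N B η C := by
  classical
  obtain ⟨C, hC, H⟩ := XB241.bias_DD hpu N hB hR hδ hδ1 hε hM
  refine ⟨C, hC, ?_⟩
  intro τ _ _ hcard X0 hX0 s s' i1 i2 sh hs hok hu1 hu2 hL ρ1 ρ2 hρ1 hρ2 hn1 hn2 hp1 hp2 d0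
    hy1 hy2 hy3 hy4 hd0 q hq hqX hsupp K E hK hKX hE hEX hlen g hg hKg
  have hX0' : (0 : ℝ) < X0 := by linarith
  have hm := (mem_S (Real.exp_pos _).le).1 hg
  have hg1 : (1 : ℝ) ≤ nm g := by exact_mod_cast nm_pos.2 hm.2.1.ne_zero
  have hX1 : 1 ≤ Real.exp (∑ i, Real.log (s i).Y + R) := hg1.trans hm.1
  have hXX : Real.exp (∑ i, Real.log (s i).Y + R) ≤ Real.exp R * X0 := by
    rw [Real.exp_add, mul_comm]
    exact mul_le_mul_of_nonneg_left hlen (Real.exp_pos _).le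
  have h1 := H τ hcard X0 hX0 s s' i1 i2 sh hs hok hu1 hu2 hL ρ1 ρ2 hρ1 hρ2 hn1 hn2 hp1 hp2 d0
    hy1 hy2 hy3 hy4 hd0 q hq hqX _ K E rfl hX1 hXX hsupp hK hKX hE hEX g hg hKg
  unfold BDD DDg
  have hXe : X0 ^ (30 * δ + ε) ≤ X0 ^ η := Real.rpow_le_rpow_of_exponent_le (by linarith) hη
  refine le_trans (le_of_eq ?_) (h1.trans ?_)
  · refine Finset.sum_congr (by congr) fun d _ => Finset.sum_congr (by congr) fun e _ =>
      Finset.sum_congr rfl fun f _ => rfl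
  · rw [← mul_div_assoc]
    have h5 : (0 : ℝ) ≤ nm g := by linarith
    refine div_le_div_of_nonneg_right ?_ h5
    have : 0 ≤ C := by linarith
    gcongr

/-- the list with the first two lengths `(z₁ + z₂ - d, d)` -/
def rpl (d : ℝ) : List Pq → List Pq
  | p1 :: p2 :: ps => { p1 with z := p1.z + (p2.z - d) } :: { p2 with z := d } :: ps
  | l => l

lemma rpl_cons (d : ℝ) (p1 p2 : Pq) (ps : List Pq) : rpl d (p1 :: p2 :: ps) =
    { p1 with z := p1.z + (p2.z - d) } :: { p2 with z := d } :: ps := rfl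

lemma LL_rpl (d : ℝ) (p1 p2 : Pq) (ps : List Pq) :
    LL Dq (rpl d (p1 :: p2 :: ps)) = LL Dq (p1 :: p2 :: ps) := by
  rw [rpl_cons]
  unfold LL
  simp only [List.map_cons, List.sum_cons]
  show p1.z + (p2.z - d) + (d + _) = p1.z + (p2.z + _)
  ring

/-- the block rule with all constants chosen -/
theorem locPMx' {h : ℝ → ℝ} {c : ℝ} (hpu : PU h c) {M : ℝ} (hM : 0 ≤ M) (n : ℕ) {ε : ℝ}
    (hε : 0 < ε) {B1 : ℝ} (hB1 : 0 ≤ B1) :
    ∃ C r : ℝ, 1 ≤ C ∧ 0 ≤ r ∧ ∀ C' r' : ℝ, C ≤ C' → r ≤ r' →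
      ∀ (P : DPar), P.OK → ∀ (s s' : Fin n → Pq) (i1 i2 : Fin n) (sh : ℝ), i1 ≠ i2 →
      s' i1 = { s i1 with z := (s i1).z + sh } → s' i2 = { s i2 with z := (s i2).z - sh } →
      (∀ i, i ≠ i1 → i ≠ i2 → s' i = s i) →
      (s i1).kd = .mo → (s i1).u = .one → (s i2).kd = .mo → (s i2).u = .one →
      ∀ ρ0 : Eis, ρ0 ≠ 0 → (∀ b, IsPrim b → chK P .mo b = prin0 ρ0 b) →
      ∀ X : ℝ, 3 ≤ X → (nm ρ0 : ℝ) ≤ X ^ B1 → (s i1).d ≠ 0 → (s i2).d ≠ 0 →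
      (nm (s i1).d : ℝ) ≤ X ^ B1 → (nm (s i2).d : ℝ) ≤ X ^ B1 → ∀ k β : ℝ, 0 ≤ k →
      k ≤ Real.log X → 0 ≤ β → β ≤ Real.log X →
      (∀ i, 0 ≤ (s i).z ∧ (s i).z ≤ Real.log X) → (∀ i, 0 ≤ (s' i).z ∧ (s' i).z ≤ Real.log X) →
      ∀ d0 : ℝ, d0 ≤ (s i1).z → d0 ≤ (s i2).z → d0 ≤ (s' i1).z → d0 ≤ (s' i2).z →
      ∀ Bd : ℝ, 0 ≤ Bd →
      (∀ (l : ℝ) (u' : Fin n → Pq), 0 ≤ l + β →
        (∀ i, Chd Dq hcost r' (C' * X ^ (3 * n + 3 : ℝ)) (u' i) (s i)) →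
        lf cG1 k (∑ i, (s i).z) l (∑ i, (u' i).z) ≤ r' + ε * Real.log X →
        lf cG2 k (∑ i, (s i).z) l (∑ i, (u' i).z) ≤ r' + ε * Real.log X →
        SK Dk h (l + β) ((List.ofFn u').map (Pq.pc P)) ≤ Bd * (∏ i, hcost (u' i) (s i)) ^ M *
          Real.exp (lf cFP k (∑ i, (s i).z) l (∑ i, (u' i).z))) →
      (∀ (l : ℝ) (u' : Fin n → Pq), 0 ≤ l + β →
        (∀ i, Chd Dq hcost r' (C' * X ^ (3 * n + 3 : ℝ)) (u' i) (s' i)) →
        lf cG1 k (∑ i, (s' i).z) l (∑ i, (u' i).z) ≤ r' + ε * Real.log X →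
        lf cG2 k (∑ i, (s' i).z) l (∑ i, (u' i).z) ≤ r' + ε * Real.log X →
        SK Dk h (l + β) ((List.ofFn u').map (Pq.pc P)) ≤ Bd * (∏ i, hcost (u' i) (s' i)) ^ M *
          Real.exp (lf cFP k (∑ i, (s' i).z) l (∑ i, (u' i).z))) →
      ∀ Bs : Finset Eis, (∀ b ∈ Bs, IsPrim b ∧ (nm b : ℝ) ≤ Real.exp β) →
      ∑ b ∈ Bs, ∑ x ∈ bl (Real.exp k),
        ‖CS (al h (fun i => (s i).pc P)) (x * b ^ 2) -
          zeP ((s i1).pc P) ((s i2).pc P) sh * CS (al h (fun i => (s' i).pc P)) (x * b ^ 2)‖ ^ 2 ≤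
        C' * X ^ (9 * ε) * ((1 + |(s i1).t|) * (1 + |(s i2).t|)) ^ 6 *
          (Real.exp (k + β + ∑ i, (s i).z) + Bd +
            Real.exp (k / 3 + 2 / 3 * β + 2 * ∑ i, (s i).z - d0)) := by
  obtain ⟨R, hR0, hR⟩ := exists_R (cs_cx hpu.cs)
  have hn0 : (0 : ℝ) ≤ n := Nat.cast_nonneg n
  obtain ⟨ε₁, hε₁⟩ : ∃ x : ℝ, x = ε / (4 * (n + 1)) := ⟨_, rfl⟩
  have hε₁0 : 0 < ε₁ := by rw [hε₁]; positivity
  have hε₁n : ε₁ * (n + 1) = ε / 4 := by rw [hε₁]; field_simp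
  have hdl0 : 0 < dl ε₁ := by
    have := lt_min hε₁0 one_pos
    unfold dl; positivity
  have hdl1 : dl ε₁ ≤ 1 / 40 := by
    have := min_le_right ε₁ (1 : ℝ)
    unfold dl; linarith
  have hdl2 : dl ε₁ ≤ ε₁ := by
    have := min_le_left ε₁ (1 : ℝ)
    unfold dl; linarith
  obtain ⟨Mn, hMn⟩ : ∃ m : ℕ, m = 8 + (⌈n * (M / 2)⌉₊ + 1) := ⟨_, rfl⟩
  have hMn8 : 8 ≤ Mn := by omega
  have hMn2 : n * (M / 2) + 1 ≤ Mn := by
    rw [hMn]
    push_cast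
    have := Nat.le_ceil (n * (M / 2))
    linarith
  obtain ⟨Cb, hCb, hbias⟩ := biasAt_of hpu n (B := 1 + 2 * B1) (R := n * (2 * R + 3))
    (by linarith) (by positivity) hdl0 hdl1 hε₁0 (η := 31 * ε₁) (by linarith) hMn8
  exact locPMx hpu hR0 hR hM n hε hε₁0 hε₁n kok_Dk (by omega) hMn2 hB1 (by linarith)
    (by linarith) hCb hbias

lemma prod_CS {h : ℝ → ℝ} (hh : Bump h) {P : DPar} (hP : P.OK) {n : ℕ} (s : Fin n → Pq) (k : Eis) :
    ((List.ofFn s).map fun p => ‖CS (pc h (p.pc P)) k‖ ^ 2).prod =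
      ‖CS (al h (fun i => (s i).pc P)) k‖ ^ 2 := by
  rw [CS_al hh hP, norm_prod, ← Finset.prod_pow, List.map_ofFn, List.prod_ofFn]
  rfl

/-- **rule (P) for `Y' - ζ Y°`, lists** -/
theorem PMx_list {h : ℝ → ℝ} {c : ℝ} (hpu : PU h c) {M : ℝ} (hM : 0 ≤ M) (N : ℕ) {ε : ℝ}
    (hε : 0 < ε) {B1 : ℝ} (hB1 : 0 ≤ B1) : ∃ C r : ℝ, 1 ≤ C ∧ 0 ≤ r ∧ ∀ P : DPar, P.OK →
      ∀ ρ0 : Eis, ρ0 ≠ 0 → (∀ b, IsPrim b → chK P .mo b = prin0 ρ0 b) →
      ∀ X : ℝ, 3 ≤ X → (nm ρ0 : ℝ) ≤ X ^ B1 → ∀ (k β : ℝ) (p1 p2 : Pq) (ps : List Pq),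
      0 ≤ k → k ≤ Real.log X → 0 ≤ β →
      β ≤ Real.log X → (p1 :: p2 :: ps).length ≤ N → Dq.lump p1 → Dq.lump p2 →
      (nm p1.d : ℝ) ≤ X ^ B1 → (nm p2.d : ℝ) ≤ X ^ B1 →
      (∀ p ∈ p1 :: p2 :: ps, 0 ≤ Dq.len p ∧ Dq.len p ≤ Real.log X) → ∀ d0 : ℝ, 0 ≤ d0 →
      d0 ≤ p1.z → d0 ≤ p2.z → p1.z + p2.z - d0 ≤ Real.log X → ∀ Bd : ℝ, 0 ≤ Bd →
      (∀ (l : ℝ) (ps' : List Pq), 0 ≤ l + β →
        List.Forall₂ (Chd Dq hcost r (C * X ^ (3 * N + 3 : ℝ))) ps' (p1 :: p2 :: ps) →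
        (∀ c ∈ ({cG1, cG2} : Finset (Fin 4 → ℝ)),
          lf c k (LL Dq (p1 :: p2 :: ps)) l (LL Dq ps') ≤ r + ε * Real.log X) →
        SK Dk h (l + β) (ps'.map (Pq.pc P)) ≤ Bd * cst hcost ps' (p1 :: p2 :: ps) ^ M *
          Real.exp (lf cFP k (LL Dq (p1 :: p2 :: ps)) l (LL Dq ps'))) →
      (∀ (l : ℝ) (ps' : List Pq), 0 ≤ l + β →
        List.Forall₂ (Chd Dq hcost r (C * X ^ (3 * N + 3 : ℝ))) ps' (rpl d0 (p1 :: p2 :: ps)) →
        (∀ c ∈ ({cG1, cG2} : Finset (Fin 4 → ℝ)),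
          lf c k (LL Dq (p1 :: p2 :: ps)) l (LL Dq ps') ≤ r + ε * Real.log X) →
        SK Dk h (l + β) (ps'.map (Pq.pc P)) ≤ Bd * cst hcost ps' (rpl d0 (p1 :: p2 :: ps)) ^ M *
          Real.exp (lf cFP k (LL Dq (p1 :: p2 :: ps)) l (LL Dq ps'))) →
      PM2Q NCube P h k β (p1 :: p2 :: ps) ≤
        C * X ^ (9 * ε) * ((1 + |p1.t|) * (1 + |p2.t|)) ^ 6 *
          (Real.exp (k + β + LL Dq (p1 :: p2 :: ps)) + Bd +
            Real.exp (k / 3 + 2 / 3 * β + 2 * LL Dq (p1 :: p2 :: ps) - d0)) +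
        2 * PM2Q NCube P h k β (rpl d0 (p1 :: p2 :: ps)) := by
  classical
  choose Cn rn hCn hrn hloc using fun n => locPMx' hpu hM n hε hB1
  refine ⟨2 * ∑ n ∈ Finset.range (N + 1), Cn n, ∑ n ∈ Finset.range (N + 1), rn n, ?_,
    Finset.sum_nonneg fun n _ => hrn n, ?_⟩
  · have h0 : (0 : ℕ) ∈ Finset.range (N + 1) := by simp
    have h1 := (hCn 0).trans
      (Finset.single_le_sum (f := Cn) (fun n _ => by linarith [hCn n]) h0)
    linarith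
  intro P hP ρ0 hρ0 hρ X hX hρX k β p1 p2 ps hk0 hkX hβ0 hβX hlen hl1 hl2 hd1 hd2 hz d0 hd00 hd01
    hd02 hd03 Bd hBd hyp hyp'
  have hX0 : 0 < X := by linarith
  have hX1 : 1 ≤ X := by linarith
  obtain ⟨C, hC⟩ : ∃ x : ℝ, x = ∑ n ∈ Finset.range (N + 1), Cn n := ⟨_, rfl⟩
  obtain ⟨r, hr⟩ : ∃ x : ℝ, x = ∑ n ∈ Finset.range (N + 1), rn n := ⟨_, rfl⟩
  rw [← hC, ← hr] at hyp hyp'
  rw [← hC]
  obtain ⟨qs, hqs⟩ : ∃ l : List Pq, l = p1 :: p2 :: ps := ⟨_, rfl⟩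
  obtain ⟨n, hn⟩ : ∃ m : ℕ, m = ps.length := ⟨_, rfl⟩
  obtain ⟨f, hf⟩ := exists_eq_ofFn ps hn.symm
  -- the tuples
  obtain ⟨s, hs⟩ : ∃ s : Fin (n + 2) → Pq, s = Fin.cons p1 (Fin.cons p2 f) := ⟨_, rfl⟩
  obtain ⟨s', hs'⟩ : ∃ s' : Fin (n + 2) → Pq,
    s' = Fin.cons { p1 with z := p1.z + (p2.z - d0) } (Fin.cons { p2 with z := d0 } f) := ⟨_, rfl⟩
  have hsL : List.ofFn s = p1 :: p2 :: ps := by
    rw [hs, List.ofFn_cons, List.ofFn_cons, hf]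
  have hsL' : List.ofFn s' = rpl d0 (p1 :: p2 :: ps) := by
    rw [hs', List.ofFn_cons, List.ofFn_cons, hf, rpl_cons]
  have hlen2 : (p1 :: p2 :: ps).length = n + 2 := by
    rw [← hsL, List.length_ofFn]
  have hmem : n + 2 ∈ Finset.range (N + 1) := Finset.mem_range.2 (by omega)
  have hC1 : Cn (n + 2) ≤ C := by
    rw [hC]
    exact Finset.single_le_sum (f := Cn) (fun n _ => by linarith [hCn n]) hmem
  have hr1 : rn (n + 2) ≤ r := by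
    rw [hr]
    exact Finset.single_le_sum (f := rn) (fun n _ => hrn n) hmem
  have hC0 : 0 ≤ C := by linarith [hCn (n + 2)]
  have hLL : LL Dq (p1 :: p2 :: ps) = ∑ i, (s i).z := by rw [← hsL]; exact LL_ofFn _
  have hLL' : LL Dq (p1 :: p2 :: ps) = ∑ i, (s' i).z := by
    rw [← LL_rpl d0, ← hsL']; exact LL_ofFn _
  have h01 : (0 : Fin (n + 2)) ≠ 1 := by
    intro h0
    have := congrArg Fin.val h0
    simp at this
  have es0 : s 0 = p1 := by rw [hs]; rfl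
  have es1 : s 1 = p2 := by rw [hs]; rfl
  have es0' : s' 0 = { p1 with z := p1.z + (p2.z - d0) } := by rw [hs']; rfl
  have es1' : s' 1 = { p2 with z := d0 } := by rw [hs']; rfl
  have hzs : ∀ i, 0 ≤ (s i).z ∧ (s i).z ≤ Real.log X := by
    intro i
    have : s i ∈ p1 :: p2 :: ps := by rw [← hsL]; exact (List.mem_ofFn' _ _).2 ⟨i, rfl⟩
    exact hz _ this
  have hp1X := hz p1 (by simp)
  have hp2X := hz p2 (by simp)
  have hp1X' : 0 ≤ p1.z ∧ p1.z ≤ Real.log X := hp1X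
  have hp2X' : 0 ≤ p2.z ∧ p2.z ≤ Real.log X := hp2X
  have hrest : ∀ i, i ≠ 0 → i ≠ 1 → s' i = s i := by
    intro i
    refine Fin.cases ?_ (fun j => ?_) i
    · intro h; exact absurd rfl h
    · refine Fin.cases ?_ (fun j' => ?_) j
      · intro _ h; exact absurd rfl h
      · intro _ _
        rw [hs, hs']
        rfl
  have hzs' : ∀ i, 0 ≤ (s' i).z ∧ (s' i).z ≤ Real.log X := by
    intro i
    by_cases i0 : i = 0
    · rw [i0, es0']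
      show 0 ≤ p1.z + (p2.z - d0) ∧ p1.z + (p2.z - d0) ≤ Real.log X
      constructor <;> linarith
    · by_cases i1 : i = 1
      · rw [i1, es1']
        show 0 ≤ d0 ∧ d0 ≤ Real.log X
        constructor <;> linarith
      · rw [hrest i i0 i1]; exact hzs i
  have hXN : C * X ^ (3 * ((n + 2 : ℕ) : ℝ) + 3) ≤ 2 * C * X ^ (3 * N + 3 : ℝ) := by
    have h3 : ((n + 2 : ℕ) : ℝ) ≤ N := by exact_mod_cast (by omega : n + 2 ≤ N)
    have h4 : X ^ (3 * ((n + 2 : ℕ) : ℝ) + 3) ≤ X ^ (3 * N + 3 : ℝ) :=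
      Real.rpow_le_rpow_of_exponent_le hX1 (by linarith)
    have h5 : 0 ≤ X ^ (3 * N + 3 : ℝ) := by positivity
    nlinarith [mul_le_mul_of_nonneg_left h4 hC0, mul_nonneg hC0 h5]
  have hchd : ∀ {a b : Pq}, Chd Dq hcost r (C * X ^ (3 * ((n + 2 : ℕ) : ℝ) + 3)) a b →
      Chd Dq hcost r (2 * C * X ^ (3 * N + 3 : ℝ)) a b := by
    intro a b h3
    refine ⟨h3.kind, h3.lump, h3.len0, h3.len, h3.s1, h3.s2.trans ?_⟩
    exact mul_le_mul_of_nonneg_left hXN (Nat.cast_nonneg _)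
  have h1 := hloc (n + 2) C r hC1 hr1 P hP s s' 0 1 (p2.z - d0) h01 (by rw [es0', es0])
    (by
      rw [es1', es1]
      show ({ p2 with z := d0 } : Pq) = { p2 with z := p2.z - (p2.z - d0) }
      rw [sub_sub_cancel]) hrest (by rw [es0]; exact hl1.1) (by rw [es0]; exact hl1.2)
    (by rw [es1]; exact hl2.1) (by rw [es1]; exact hl2.2) ρ0 hρ0 hρ X hX hρX
    (s 0).d0 (s 1).d0 (by rw [es0]; exact hd1) (by rw [es1]; exact hd2) k β hk0 hkX hβ0 hβX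
    hzs hzs' d0 (by rw [es0]; exact hd01) (by rw [es1]; exact hd02)
    (by rw [es0']; show d0 ≤ p1.z + (p2.z - d0); linarith) (by rw [es1'])
    Bd hBd (fun l u' hl0 hch hg1 hg2 => by
      rw [← hLL] at hg1 hg2 ⊢
      have h2 := hyp l (List.ofFn u') hl0 (by
        rw [← hsL, forall₂_ofFn_iff]
        exact fun i => hchd (hch i)) (by
        intro c hc
        rw [LL_ofFn]
        rcases Finset.mem_insert.1 hc with rfl | hc
        · exact hg1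
        · rw [Finset.mem_singleton.1 hc]; exact hg2)
      rw [LL_ofFn] at h2
      have h4 : cst hcost (List.ofFn u') (p1 :: p2 :: ps) = ∏ i, hcost (u' i) (s i) := by
        rw [← hsL]; exact cst_ofFn u' s
      rw [h4] at h2
      exact h2) (fun l u' hl0 hch hg1 hg2 => by
      rw [← hLL'] at hg1 hg2 ⊢
      have h2 := hyp' l (List.ofFn u') hl0 (by
        rw [← hsL', forall₂_ofFn_iff]
        exact fun i => hchd (hch i)) (by
        intro c hc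
        rw [LL_ofFn]
        rcases Finset.mem_insert.1 hc with rfl | hc
        · exact hg1
        · rw [Finset.mem_singleton.1 hc]; exact hg2)
      rw [LL_ofFn] at h2
      have h4 : cst hcost (List.ofFn u') (rpl d0 (p1 :: p2 :: ps)) =
          ∏ i, hcost (u' i) (s' i) := by
        rw [← hsL']; exact cst_ofFn u' s'
      rw [h4] at h2
      exact h2) (primBall ⌊Real.exp β⌋₊) (by
      intro b hb
      rw [mem_primBall] at hb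
      exact ⟨hb.2, (Nat.le_floor_iff (Real.exp_pos _).le).1 hb.1⟩)
  rw [es0, es1, ← hLL] at h1
  -- the noncubes
  have hh : Bump h := bump_of_cs hpu.cs
  obtain ⟨ζ, hζ⟩ : ∃ z : ℂ, z = zeP (p1.pc P) (p2.pc P) (p2.z - d0) := ⟨_, rfl⟩
  rw [← hζ] at h1
  have hζ1 : ‖ζ‖ ≤ 1 := by rw [hζ]; exact le_of_eq (norm_zeP _ _ _)
  obtain ⟨A, hA⟩ : ∃ F : Eis → ℂ, F = CS (al h (fun i => (s i).pc P)) := ⟨_, rfl⟩
  obtain ⟨A', hA'⟩ : ∃ F : Eis → ℂ, F = CS (al h (fun i => (s' i).pc P)) := ⟨_, rfl⟩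
  rw [← hA, ← hA'] at h1
  have hAB : ∀ y, ‖A y‖ ^ 2 ≤ 2 * ‖A y - ζ * A' y‖ ^ 2 + 2 * ‖A' y‖ ^ 2 := by
    intro y
    have h3 : ‖A y‖ ≤ ‖A y - ζ * A' y‖ + ‖A' y‖ := by
      calc ‖A y‖ = ‖(A y - ζ * A' y) + ζ * A' y‖ := by rw [sub_add_cancel]
        _ ≤ ‖A y - ζ * A' y‖ + ‖ζ * A' y‖ := norm_add_le _ _
        _ ≤ ‖A y - ζ * A' y‖ + ‖A' y‖ := by
            rw [norm_mul]
            have := mul_le_mul_of_nonneg_right hζ1 (norm_nonneg (A' y))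
            linarith
    have h4 : ‖A y‖ ^ 2 ≤ (‖A y - ζ * A' y‖ + ‖A' y‖) ^ 2 :=
      pow_le_pow_left₀ (norm_nonneg _) h3 2
    nlinarith [sq_nonneg (‖A y - ζ * A' y‖ - ‖A' y‖)]
  have e1 : PM2Q NCube P h k β (p1 :: p2 :: ps) = ∑ b ∈ primBall ⌊Real.exp β⌋₊,
      ∑ x ∈ (bl (Real.exp k)).filter (fun x => NCube (x * b ^ 2)), ‖A (x * b ^ 2)‖ ^ 2 := by
    unfold PM2Q PMpQ
    refine Finset.sum_congr rfl fun b _ => Finset.sum_congr (by congr) fun x _ => ?_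
    rw [← hsL, prod_CS hh hP, hA]
  have e2 : PM2Q NCube P h k β (rpl d0 (p1 :: p2 :: ps)) = ∑ b ∈ primBall ⌊Real.exp β⌋₊,
      ∑ x ∈ (bl (Real.exp k)).filter (fun x => NCube (x * b ^ 2)), ‖A' (x * b ^ 2)‖ ^ 2 := by
    unfold PM2Q PMpQ
    refine Finset.sum_congr rfl fun b _ => Finset.sum_congr (by congr) fun x _ => ?_
    rw [← hsL', prod_CS hh hP, hA']
  rw [e1, e2, Finset.mul_sum]
  have e3 : ∑ b ∈ primBall ⌊Real.exp β⌋₊,
      ∑ x ∈ (bl (Real.exp k)).filter (fun x => NCube (x * b ^ 2)),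
        2 * ‖A (x * b ^ 2) - ζ * A' (x * b ^ 2)‖ ^ 2 ≤ 2 * ∑ b ∈ primBall ⌊Real.exp β⌋₊,
      ∑ x ∈ bl (Real.exp k), ‖A (x * b ^ 2) - ζ * A' (x * b ^ 2)‖ ^ 2 := by
    rw [Finset.mul_sum]
    refine Finset.sum_le_sum fun b _ => ?_
    rw [Finset.mul_sum]
    exact Finset.sum_le_sum_of_subset_of_nonneg (Finset.filter_subset _ _)
      fun x _ _ => by positivity
  calc ∑ b ∈ primBall ⌊Real.exp β⌋₊,
        ∑ x ∈ (bl (Real.exp k)).filter (fun x => NCube (x * b ^ 2)), ‖A (x * b ^ 2)‖ ^ 2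
      ≤ ∑ b ∈ primBall ⌊Real.exp β⌋₊,
        ∑ x ∈ (bl (Real.exp k)).filter (fun x => NCube (x * b ^ 2)),
          (2 * ‖A (x * b ^ 2) - ζ * A' (x * b ^ 2)‖ ^ 2 + 2 * ‖A' (x * b ^ 2)‖ ^ 2) :=
        Finset.sum_le_sum fun b _ => Finset.sum_le_sum fun x _ => hAB _
    _ = (∑ b ∈ primBall ⌊Real.exp β⌋₊,
        ∑ x ∈ (bl (Real.exp k)).filter (fun x => NCube (x * b ^ 2)),
          2 * ‖A (x * b ^ 2) - ζ * A' (x * b ^ 2)‖ ^ 2) + ∑ b ∈ primBall ⌊Real.exp β⌋₊,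
        2 * ∑ x ∈ (bl (Real.exp k)).filter (fun x => NCube (x * b ^ 2)),
          ‖A' (x * b ^ 2)‖ ^ 2 := by
        rw [← Finset.sum_add_distrib]
        refine Finset.sum_congr rfl fun b _ => ?_
        rw [Finset.sum_add_distrib, Finset.mul_sum (Finset.filter _ _) (fun x =>
          ‖A' (x * b ^ 2)‖ ^ 2) 2]
    _ ≤ _ := by
        refine add_le_add_left (e3.trans ?_) _
        have := mul_le_mul_of_nonneg_left h1 (by norm_num : (0 : ℝ) ≤ 2)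
        refine this.trans (le_of_eq ?_)
        ring

end Crest.Agent.R017.XF320
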