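import Crest.Agent.R017.XF1a_829
import Crest.Agent.R017.XFf_320

/-!
# Row 17, exceptional class, pairs: one list without comparison, part b (helper829)

* `biasT`    : the trivial bias block for a member of a family
* `locPM1`   : rule (P), kernel `Dk`, one tuple (copy of helper320's `locPMx` with `ζ = 0`)
* `PM1_list` : the same for lists, noncubes
-/

set_option autoImplicit false
set_option maxHeartbeats 4000000

noncomputable section

open Complex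
open scoped ComplexConjugate

namespace Crest.Agent.R017.XF829

open Crest.Agent.R012 Crest.Agent.R012.Eis Crest.Agent.R012.LS2 Crest.Agent.R012.Gauss880
open Crest.Agent.R012.Div277 Crest.Agent.R012.Weight600
open Crest.Agent.R012.T411 (NCube)
open Crest.Agent.R017.CM106 Crest.Agent.R017.FE47 Crest.Agent.R017.End699
open Crest.Agent.R017.B770
open Crest.Agent.R017.XG702 (Pcs BG)
open Crest.Agent.R017.Prov71
open Crest.Agent.R017.HP842 (UT pc KS sqc Kg uv alL al ssub nat_sq_pc)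
open Crest.Agent.R017.TPOk571 (IP FP SD SD_w SD_len SD_ht sd_ok AC relU)
open Crest.Agent.R017.TP320 (VC VG VC_mono VC_nonneg Fam)
open Crest.Agent.R017.XRG106 (RFp ip ip_pc chd chd_pc alL_ofFn CS_al RFp_ofFn)
open Crest.Agent.R017.XP699
open Crest.Agent.R017.PE241 (VKn VKn_mono VKn_nonneg KOk kok_Dk)
open Crest.Agent.R017.PX764 (Dk)
open Crest.Agent.R017.RQd385 (PM2Q PMpQ)
open Crest.Agent.R017.XF320

/-- **the trivial bias block** for a restricted member of a closed family -/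
theorem biasT {J : Type} {Φ : Fam J} {R A : ℝ} (hΦ : Φ.Ok R A) {ε₁ : ℝ} (hε₁ : 0 < ε₁) {M : ℕ}
    (hM : 8 ≤ M) : ∃ C : ℝ, 1 ≤ C ∧ ∀ (X0 : ℝ), 3 ≤ X0 → ∀ (j : J) (q : Eis),
      Real.exp (Φ.len j) ≤ X0 → ∀ K E : ℝ, 1 ≤ K → K ≤ X0 → 1 ≤ E → E ≤ X0 →
      ∀ g ∈ S (Real.exp (Φ.len j + R)), K ≤ (Real.exp (Φ.len j + R) / nm g) ^ 2 →
      BDD M (dl ε₁) (TP320.sq q (Φ.w j)) K E (Real.exp (Φ.len j + R)) g ≤
        C * X0 ^ (33 * ε₁) * (K ^ (1 / 3 : ℝ) * E ^ (2 / 3 : ℝ) * Real.exp (2 * Φ.len j)) /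
          nm g := by
  classical
  have hdl0 : 0 < dl ε₁ := by
    have := lt_min hε₁ one_pos
    unfold dl; positivity
  have hdl1 : dl ε₁ ≤ 1 / 40 := by
    have := min_le_right ε₁ (1 : ℝ)
    unfold dl; linarith
  have hdl2 : dl ε₁ ≤ ε₁ := by
    have := min_le_left ε₁ (1 : ℝ)
    unfold dl; linarith
  obtain ⟨C, hC, H⟩ := bias_triv hΦ.R0 hdl0 hdl1 hε₁ hM
  obtain ⟨C4, hC4, hbd⟩ := hΦ.bd ε₁ hε₁
  obtain ⟨e, he⟩ : ∃ e : ℝ, e = Real.exp R ^ ε₁ := ⟨_, rfl⟩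
  have he1 : 1 ≤ e := by
    rw [he]; exact Real.one_le_rpow (Real.one_le_exp hΦ.R0) hε₁.le
  refine ⟨C * (C4 * e) ^ 2, one_le_mul_of_one_le_of_one_le hC
    (one_le_pow₀ (one_le_mul_of_one_le_of_one_le hC4 he1)), ?_⟩
  intro X0 hX0 j q hlen K E hK hKX hE hEX g hg hKg
  have hX0' : (0 : ℝ) < X0 := by linarith
  have hm := (mem_S (Real.exp_pos _).le).1 hg
  have hg1 : (1 : ℝ) ≤ nm g := by exact_mod_cast nm_pos.2 hm.2.1.ne_zero
  have hX1 : 1 ≤ Real.exp (Φ.len j + R) := hg1.trans hm.1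
  have hXX : Real.exp (Φ.len j + R) ≤ Real.exp R * X0 := by
    rw [Real.exp_add, mul_comm]
    exact mul_le_mul_of_nonneg_left hlen (Real.exp_pos _).le
  have hC40 : 0 ≤ C4 := by linarith
  obtain ⟨A₀, hA₀⟩ : ∃ a : ℝ, a = C4 * e * X0 ^ ε₁ := ⟨_, rfl⟩
  have hA₀0 : 0 ≤ A₀ := by rw [hA₀]; positivity
  have hsp : ∀ m, TP320.sq q (Φ.w j) m ≠ 0 → Φ.w j m ≠ 0 := by
    intro m hm0 hw
    apply hm0
    unfold TP320.sq
    rw [hw]; simp
  have hle : ∀ m, ‖TP320.sq q (Φ.w j) m‖ ≤ ‖Φ.w j m‖ := by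
    intro m
    unfold TP320.sq
    split_ifs
    · exact le_rfl
    · rw [norm_zero]; exact norm_nonneg _
  have hx : ∀ m, ‖TP320.sq q (Φ.w j) m‖ ≤ A₀ := by
    intro m
    by_cases h0 : Φ.w j m = 0
    · refine (hle m).trans ?_
      rw [h0, norm_zero]; exact hA₀0
    · have h1 := (abs_le.1 (hΦ.supp j m h0)).2
      have hp := hΦ.prim j m h0
      have hn1 : (1 : ℝ) ≤ nm m := by exact_mod_cast nm_pos.2 hp.ne_zero
      have h2 : (nm m : ℝ) ≤ Real.exp R * X0 := by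
        refine le_trans ?_ hXX
        rw [← Real.log_le_iff_le_exp (by linarith)]
        linarith
      refine (hle m).trans ((hbd j m).trans ?_)
      rw [hA₀, he, mul_assoc, ← Real.mul_rpow (Real.exp_pos _).le hX0'.le]
      exact mul_le_mul_of_nonneg_left (Real.rpow_le_rpow (by linarith) h2 hε₁.le) hC40
  have h1 := H X0 hX0 (Φ.len j) A₀ hA₀0 (TP320.sq q (Φ.w j)) hx
    (fun m hm0 => hΦ.supp j m (hsp m hm0)) _ K E rfl hX1 hXX hK hKX hE hEX g hg hKg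
  unfold BDD DDg
  refine le_trans (le_of_eq ?_) (h1.trans ?_)
  · refine Finset.sum_congr (by congr) fun d _ => Finset.sum_congr (by congr) fun e _ =>
      Finset.sum_congr rfl fun f _ => rfl
  · rw [← mul_div_assoc, sub_zero]
    refine div_le_div_of_nonneg_right ?_ (by linarith)
    have hA2 : A₀ ^ 2 = (C4 * e) ^ 2 * X0 ^ (2 * ε₁) := by
      rw [hA₀, mul_pow, ← Real.rpow_natCast (X0 ^ ε₁), ← Real.rpow_mul hX0'.le]
      congr 2; push_cast; ring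
    have h31 : X0 ^ (30 * dl ε₁ + ε₁) * X0 ^ (2 * ε₁) ≤ X0 ^ (33 * ε₁) := by
      rw [← Real.rpow_add hX0']
      exact Real.rpow_le_rpow_of_exponent_le (by linarith) (by linarith)
    rw [hA2]
    have hQ : 0 ≤ K ^ ((1 : ℝ) / 3) * E ^ ((2 : ℝ) / 3) * Real.exp (2 * Φ.len j) := by positivity
    have hC0 : 0 ≤ C * (C4 * e) ^ 2 := by positivity
    calc C * X0 ^ (30 * dl ε₁ + ε₁) * ((C4 * e) ^ 2 * X0 ^ (2 * ε₁)) *
          (K ^ ((1 : ℝ) / 3) * E ^ ((2 : ℝ) / 3) * Real.exp (2 * Φ.len j))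
        = C * (C4 * e) ^ 2 * (X0 ^ (30 * dl ε₁ + ε₁) * X0 ^ (2 * ε₁)) *
          (K ^ ((1 : ℝ) / 3) * E ^ ((2 : ℝ) / 3) * Real.exp (2 * Φ.len j)) := by ring
      _ ≤ _ := mul_le_mul_of_nonneg_right (mul_le_mul_of_nonneg_left h31 hC0) hQ

/-- **the block (P), kernel `Dk`, one tuple** -/
theorem locPM1 {h : ℝ → ℝ} {c : ℝ} (hpu : PU h c) {M : ℝ} (hM : 0 ≤ M) (n : ℕ) {ε : ℝ}
    (hε : 0 < ε) :
    ∃ C r : ℝ, 1 ≤ C ∧ 0 ≤ r ∧ ∀ C' r' : ℝ, C ≤ C' → r ≤ r' →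
      ∀ (P : DPar), P.OK → ∀ (s : Fin n → Pq) (X : ℝ), 3 ≤ X → ∀ k β : ℝ, 0 ≤ k →
      k ≤ Real.log X → 0 ≤ β → β ≤ Real.log X →
      (∀ i, 0 ≤ (s i).z ∧ (s i).z ≤ Real.log X) → ∀ Bd : ℝ, 0 ≤ Bd →
      (∀ (l : ℝ) (u' : Fin n → Pq), 0 ≤ l + β →
        (∀ i, Chd Dq hcost r' (C' * X ^ (3 * n + 3 : ℝ)) (u' i) (s i)) →
        lf cG1 k (∑ i, (s i).z) l (∑ i, (u' i).z) ≤ r' + ε * Real.log X →
        lf cG2 k (∑ i, (s i).z) l (∑ i, (u' i).z) ≤ r' + ε * Real.log X →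
        SK Dk h (l + β) ((List.ofFn u').map (Pq.pc P)) ≤ Bd * (∏ i, hcost (u' i) (s i)) ^ M *
          Real.exp (lf cFP k (∑ i, (s i).z) l (∑ i, (u' i).z))) →
      ∀ Bs : Finset Eis, (∀ b ∈ Bs, IsPrim b ∧ (nm b : ℝ) ≤ Real.exp β) →
      ∑ b ∈ Bs, ∑ x ∈ bl (Real.exp k),
        ‖CS (al h (fun i => (s i).pc P)) (x * b ^ 2)‖ ^ 2 ≤
        C' * X ^ (9 * ε) * (Real.exp (k + β + ∑ i, (s i).z) + Bd +
            Real.exp (k / 3 + 2 / 3 * β + 2 * ∑ i, (s i).z)) := by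
  classical
  obtain ⟨R, hR0, hR⟩ := exists_R (cs_cx hpu.cs)
  have hn0 : (0 : ℝ) ≤ n := Nat.cast_nonneg n
  obtain ⟨ε₁, hε₁⟩ : ∃ x : ℝ, x = ε / (4 * (n + 1)) := ⟨_, rfl⟩
  have hε₁0 : 0 < ε₁ := by rw [hε₁]; positivity
  have hε₁n : ε₁ * (n + 1) = ε / 4 := by rw [hε₁]; field_simp
  have hΦ := sd_ok hpu hR0 hR (μ := M / 2) (by positivity) n
  obtain ⟨Mn, hMn⟩ : ∃ m : ℕ, m = 8 + (⌈n * (M / 2)⌉₊ + 1) := ⟨_, rfl⟩
  have hMn8 : 8 ≤ Mn := by omega
  have hMn2 : n * (M / 2) + 1 ≤ Mn := by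
    rw [hMn]
    push_cast
    have := Nat.le_ceil (n * (M / 2))
    linarith
  obtain ⟨Cb, hCb, hbias⟩ := biasT hΦ hε₁0 hMn8
  obtain ⟨C2, r2, hC2, hr2, hPr⟩ := P_ruleBx' hΦ kok_Dk hε₁0 (by omega) hMn2
  obtain ⟨C3, hC3, hS⟩ := nat_sq_pc n hR0 (ε := ε / 4) (by positivity)
  have hE : 1 ≤ Real.exp r2 := Real.one_le_exp hr2
  have hEn : 1 ≤ Real.exp (r2 * (n + 1)) := Real.one_le_exp (by positivity)
  have hlC2 : 0 ≤ Real.log C2 := Real.log_nonneg hC2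
  obtain ⟨CF, hCF⟩ : ∃ x : ℝ, x = C3 * C2 * (1 + C2 * Real.exp r2 + Cb) := ⟨_, rfl⟩
  have hCF0 : 0 ≤ CF := by rw [hCF]; positivity
  refine ⟨CF + C2 * Real.exp (r2 * (n + 1)), 4 * r2 + Real.log C2, ?_, ?_, ?_⟩
  · have h1 : 1 ≤ C2 * Real.exp (r2 * (n + 1)) := one_le_mul_of_one_le_of_one_le hC2 hEn
    linarith
  · positivity
  intro C' r' hC' hr' P hP s X hX k β hk0 hkX hβ0 hβX hz Bd hBd hyp Bs hBs
  have hC'1 : CF ≤ C' := by
    have : 0 ≤ C2 * Real.exp (r2 * (n + 1)) := by positivity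
    linarith
  have hC'2 : C2 * Real.exp (r2 * (n + 1)) ≤ C' := by linarith
  have hX0 : 0 < X := by linarith
  have hX1 : 1 ≤ X := by linarith
  have hlX : 0 ≤ Real.log X := Real.log_nonneg hX1
  obtain ⟨n₀, hn₀⟩ : ∃ x : ℝ, x = ∑ i, (s i).z := ⟨_, rfl⟩
  have hn₀X : n₀ ≤ n * Real.log X := by
    rw [hn₀]
    refine (Finset.sum_le_sum fun i _ => (hz i).2).trans ?_
    rw [Finset.sum_const, nsmul_eq_mul, Finset.card_univ, Fintype.card_fin]
  obtain ⟨X₀, hX₀⟩ : ∃ x : ℝ, x = X ^ (n + 1 : ℝ) := ⟨_, rfl⟩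
  have hX₀X : X ≤ X₀ := by
    rw [hX₀]
    calc X = X ^ (1 : ℝ) := (Real.rpow_one X).symm
      _ ≤ _ := Real.rpow_le_rpow_of_exponent_le hX1 (by linarith)
  have hlX₀ : Real.log X₀ = (n + 1) * Real.log X := by rw [hX₀, Real.log_rpow hX0]
  have hX₀0 : 0 < X₀ := by linarith
  obtain ⟨K, hK⟩ : ∃ x : ℝ, x = Real.exp k := ⟨_, rfl⟩
  have hK1 : 1 ≤ K := by rw [hK]; exact Real.one_le_exp hk0
  have hK0 : 0 < K := by linarith
  have hKX : K ≤ X₀ := by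
    rw [hK]
    calc Real.exp k ≤ Real.exp (Real.log X) := Real.exp_le_exp.2 hkX
      _ = X := Real.exp_log hX0
      _ ≤ X₀ := hX₀X
  obtain ⟨Eb, hEb⟩ : ∃ x : ℝ, x = Real.exp β := ⟨_, rfl⟩
  have hEb1 : 1 ≤ Eb := by rw [hEb]; exact Real.one_le_exp hβ0
  have hEb0 : 0 < Eb := by linarith
  have hEbX : Eb ≤ X₀ := by
    rw [hEb]
    calc Real.exp β ≤ Real.exp (Real.log X) := Real.exp_le_exp.2 hβX
      _ = X := Real.exp_log hX0
      _ ≤ X₀ := hX₀X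
  obtain ⟨W, hW⟩ : ∃ x : ℝ, x = C2 * X₀ ^ ε₁ * Real.exp r2 := ⟨_, rfl⟩
  have hXe1 : 1 ≤ X₀ ^ ε₁ := Real.one_le_rpow (by linarith) hε₁0.le
  have hW1 : 1 ≤ W := by
    rw [hW]
    exact one_le_mul_of_one_le_of_one_le (one_le_mul_of_one_le_of_one_le hC2 hXe1) hE
  obtain ⟨A, hA⟩ : ∃ x : ℝ, x = W * Bd * Real.exp (-n₀ - k) := ⟨_, rfl⟩
  have hA0 : 0 ≤ A := by rw [hA]; positivity
  obtain ⟨A2, hA2⟩ : ∃ x : ℝ, x = Cb * X₀ ^ (33 * ε₁) *
      Real.exp (-(2 / 3) * k + 2 / 3 * β + n₀) := ⟨_, rfl⟩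
  have hA20 : 0 ≤ A2 := by rw [hA2]; positivity
  have hkey : ∀ a : Fin n → Eis, (∀ i, IsPrim (a i)) →
      ∑ b ∈ Bs, ∑ x ∈ bl K,
        ‖CS (sqc (∏ i, a i) (al h (ssub (fun i => (s i).pc P) a))) (x * b ^ 2)‖ ^ 2 ≤
        (C2 * X₀ ^ ε₁ * (K * Eb + K * (A + A2))) *
          ∏ i, (ssub (fun i => (s i).pc P) a i).Y := by
    intro a ha
    have ha0 : ∀ i, a i ≠ 0 := fun i => (ha i).ne_zero
    have hq : IsPrim (∏ i, a i) := HP842.isPrim_prod ha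
    obtain ⟨j, hj⟩ : ∃ f : Fin n → IP, f = fun i => ip hP ((s i).sub (a i) (ha i).ne_zero) :=
      ⟨_, rfl⟩
    have hjpc : (fun i => (j i).pc) = ssub (fun i => (s i).pc P) a := by
      funext i
      rw [hj, ip_pc]
      exact HP842.Pq_sub_pc P (s i) (ha0 i)
    have hjz : ∀ i, (j i).z = (s i).z - Real.log (nm (a i)) := fun i => by rw [hj]; rfl
    have hnm1 : ∀ i, (1 : ℝ) ≤ nm (a i) := fun i => by exact_mod_cast nm_pos.2 (ha0 i)
    have hlog0 : ∀ i, 0 ≤ Real.log (nm (a i)) := fun i => Real.log_nonneg (hnm1 i)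
    have hlen : (SD h (M / 2) n).len j = ∑ i, (j i).z := SD_len _ _ _ _
    have hht : (SD h (M / 2) n).ht j = 1 := by
      rw [SD_ht]
      refine Finset.prod_eq_one fun i _ => ?_
      have : (j i).s = 0 := by rw [hj]; rfl
      rw [this]; simp
    have hw : (SD h (M / 2) n).w j = al h (ssub (fun i => (s i).pc P) a) := by
      rw [SD_w, hjpc]
    have hY : ∏ i, (ssub (fun i => (s i).pc P) a i).Y = Real.exp ((SD h (M / 2) n).len j) := by
      rw [hlen, Real.exp_sum]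
      refine Finset.prod_congr rfl fun i _ => ?_
      rw [← hjpc]
      rfl
    have hlen0 : (SD h (M / 2) n).len j ≤ n₀ := by
      rw [hlen, hn₀]
      exact Finset.sum_le_sum fun i _ => by rw [hjz]; linarith [hlog0 i]
    have hlenX : Real.exp ((SD h (M / 2) n).len j) ≤ X₀ := by
      rw [← Real.le_log_iff_exp_le hX₀0, hlX₀]
      linarith
    have hH := hypKB_pq Dk (h := h) n hε₁0 hε hε₁n hΦ hC2 hr2 hP s hX hβ0 hz hBd hC'2
      (by linarith : 4 * r2 + Real.log C2 ≤ r') hyp ha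
    have eA : C2 * (X ^ (n + 1 : ℝ)) ^ ε₁ * Real.exp r2 * Bd *
        Real.exp (-(∑ i, (s i).z) - k) = A := by rw [hA, hW, hX₀, hn₀]
    rw [eA, ← hX₀, ← hK, ← hEb, ← hj] at hH
    have hHm := hH.mono (by linarith : A ≤ A + A2)
    have hprim : ∀ b, al h (ssub (fun i => (s i).pc P) a) b ≠ 0 → IsPrim b := fun b hb => by
      rw [← hw] at hb
      exact hΦ.prim j b hb
    have h7 := hPr X₀ K Eb (A + A2) (by linarith) hK1 hKX hEb1 hEbX (by positivity) j j rfl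
      hht hht hlenX (∏ i, a i) hq hHm hHm 0 (by rw [norm_zero]; norm_num)
      (TP320.sq (∏ i, a i) ((SD h (M / 2) n).w j)) (fun m => by rw [zero_mul, sub_zero])
      (fun g hg hKg => by
        refine (hbias X₀ (by linarith) j (∏ i, a i) hlenX K Eb hK1 hKX hEb1 hEbX g hg
          hKg).trans ?_
        have hg0 : (0 : ℝ) ≤ nm g := Nat.cast_nonneg _
        refine div_le_div_of_nonneg_right ?_ hg0
        rw [hK, hEb, ← Real.exp_mul, ← Real.exp_mul, ← Real.exp_add, ← Real.exp_add]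
        have hl1 : k * (1 / 3) + β * (2 / 3) + 2 * (SD h (M / 2) n).len j ≤
            k + (-(2 / 3) * k + 2 / 3 * β + n₀) + (SD h (M / 2) n).len j := by linarith
        have hl2 : Real.exp (k * (1 / 3) + β * (2 / 3) + 2 * (SD h (M / 2) n).len j) ≤
            Real.exp k * Real.exp (-(2 / 3) * k + 2 / 3 * β + n₀) *
              Real.exp ((SD h (M / 2) n).len j) := by
          rw [← Real.exp_add, ← Real.exp_add]
          exact Real.exp_le_exp.2 hl1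
        have hA2' : A2 ≤ A + A2 := by linarith
        calc Cb * X₀ ^ (33 * ε₁) * Real.exp (k * (1 / 3) + β * (2 / 3) +
              2 * (SD h (M / 2) n).len j)
            ≤ Cb * X₀ ^ (33 * ε₁) * (Real.exp k * Real.exp (-(2 / 3) * k + 2 / 3 * β + n₀) *
              Real.exp ((SD h (M / 2) n).len j)) :=
              mul_le_mul_of_nonneg_left hl2 (by positivity)
          _ = Real.exp k * A2 * Real.exp ((SD h (M / 2) n).len j) := by rw [hA2]; ring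
          _ ≤ _ := by gcongr) Bs
      (fun b hb => ⟨(hBs b hb).1, by rw [hEb]; exact (hBs b hb).2⟩)
    rw [hw, HP842.sq_eq_sqc hprim] at h7
    rw [hY]
    exact h7
  -- natural from squarefree
  obtain ⟨gm, hgm⟩ : ∃ f : Eis × Eis → Eis, f = fun p => p.2 * p.1 ^ 2 := ⟨_, rfl⟩
  have hsw : ∀ F : Eis → ℝ, ∑ b ∈ Bs, ∑ x ∈ bl K, F (x * b ^ 2) =
      ∑ y ∈ (Bs ×ˢ bl K).image gm, (((Bs ×ˢ bl K).filter (fun p => gm p = y)).card : ℝ) * F y := by
    intro F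
    rw [← Finset.sum_product', hgm]
    have := Finset.sum_comp (s := Bs ×ˢ bl K) F (fun p : Eis × Eis => p.2 * p.1 ^ 2)
    rw [this]
    exact Finset.sum_congr rfl fun y _ => by rw [nsmul_eq_mul]
  have h8 := hS h hR (Fin n) (by rw [Fintype.card_fin]) (fun i => (s i).pc P)
    (fun i => (s i).ok hP) X hX1 (fun i => by
      show Real.exp (s i).z ≤ X
      rw [← Real.le_log_iff_exp_le hX0]; exact (hz i).2) ((Bs ×ˢ bl K).image gm)
    (fun y => (((Bs ×ˢ bl K).filter (fun p => gm p = y)).card : ℝ))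
    (fun _ _ => Nat.cast_nonneg _) (C2 * X₀ ^ ε₁ * (K * Eb + K * (A + A2))) (by positivity)
    (fun a ha _ => by
      rw [← hsw (fun y => ‖CS (sqc (∏ i, a i) (al h (ssub (fun i => (s i).pc P) a))) y‖ ^ 2)]
      exact hkey a ha)
  rw [← hsw (fun y => ‖CS (al h (fun i => (s i).pc P)) y‖ ^ 2)] at h8
  have e2 : ∏ i, ((s i).pc P).Y = Real.exp n₀ := by
    rw [hn₀, Real.exp_sum]
    rfl
  rw [e2] at h8
  rw [← hK]
  refine h8.trans ?_
  have hX₀e : X₀ ^ ε₁ = X ^ (ε / 4) := by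
    rw [hX₀, ← Real.rpow_mul hX0.le]
    congr 1
    rw [mul_comm]; exact hε₁n
  have hX₀e33 : X₀ ^ (33 * ε₁) = X ^ (33 * (ε / 4)) := by
    rw [hX₀, ← Real.rpow_mul hX0.le]
    congr 1
    rw [← hε₁n]; ring
  have hkn : K * Eb * Real.exp n₀ = Real.exp (k + β + n₀) := by
    rw [hK, hEb, Real.exp_add, Real.exp_add]
  have hKA : K * A * Real.exp n₀ = W * Bd := by
    rw [hA, hK]
    have : Real.exp k * (W * Bd * Real.exp (-n₀ - k)) * Real.exp n₀ =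
        W * Bd * (Real.exp k * Real.exp (-n₀ - k) * Real.exp n₀) := by ring
    rw [this, ← Real.exp_add, ← Real.exp_add]
    have : k + (-n₀ - k) + n₀ = 0 := by ring
    rw [this, Real.exp_zero, mul_one]
  obtain ⟨Q, hQ⟩ : ∃ x : ℝ, x = Real.exp (k / 3 + 2 / 3 * β + 2 * n₀) := ⟨_, rfl⟩
  have hQ0 : 0 < Q := by rw [hQ]; exact Real.exp_pos _
  have hKA2 : K * A2 * Real.exp n₀ = Cb * X₀ ^ (33 * ε₁) * Q := by
    rw [hA2, hK, hQ]
    have : Real.exp k * (Cb * X₀ ^ (33 * ε₁) * Real.exp (-(2 / 3) * k + 2 / 3 * β + n₀)) *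
        Real.exp n₀ = Cb * X₀ ^ (33 * ε₁) * (Real.exp k *
          Real.exp (-(2 / 3) * k + 2 / 3 * β + n₀) * Real.exp n₀) := by ring
    rw [this, ← Real.exp_add, ← Real.exp_add]
    congr 2
    ring
  rw [← hn₀, ← hQ]
  obtain ⟨E1, hE1⟩ : ∃ x : ℝ, x = Real.exp (k + β + n₀) := ⟨_, rfl⟩
  have hE10 : 0 < E1 := by rw [hE1]; exact Real.exp_pos _
  obtain ⟨Y, hYd⟩ : ∃ x : ℝ, x = X ^ (ε / 4) := ⟨_, rfl⟩
  obtain ⟨Z, hZd⟩ : ∃ x : ℝ, x = X ^ (33 * (ε / 4)) := ⟨_, rfl⟩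
  have hY1 : 1 ≤ Y := by rw [hYd]; exact Real.one_le_rpow hX1 (by positivity)
  have hY0 : 0 < Y := by linarith
  have hYZ : Y ≤ Z := by
    rw [hYd, hZd]; exact Real.rpow_le_rpow_of_exponent_le hX1 (by linarith)
  have hZ1 : 1 ≤ Z := hY1.trans hYZ
  have hYYZ : Y * Y * Z ≤ X ^ (9 * ε) := by
    rw [hYd, hZd, ← Real.rpow_add hX0, ← Real.rpow_add hX0]
    exact Real.rpow_le_rpow_of_exponent_le hX1 (by linarith)
  have hWY : W = C2 * Real.exp r2 * Y := by rw [hW, hX₀e, hYd]; ring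
  have hbr : E1 + W * Bd + Cb * Z * Q ≤
      (1 + C2 * Real.exp r2 + Cb) * Z * (E1 + Bd + Q) := by
    rw [hWY]
    have g1 : E1 ≤ 1 * Z * E1 := by
      rw [one_mul]; exact le_mul_of_one_le_left hE10.le hZ1
    have g2 : C2 * Real.exp r2 * Y * Bd ≤ C2 * Real.exp r2 * Z * Bd := by gcongr
    have g4 : 0 ≤ (C2 * Real.exp r2 + Cb) * Z * E1 := by positivity
    have g5 : 0 ≤ (1 + Cb) * Z * Bd := by positivity
    have g6 : 0 ≤ (1 + C2 * Real.exp r2) * Z * Q := by positivity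
    have e9 : (1 + C2 * Real.exp r2 + Cb) * Z * (E1 + Bd + Q) =
        1 * Z * E1 + C2 * Real.exp r2 * Z * Bd + Cb * Z * Q +
        ((C2 * Real.exp r2 + Cb) * Z * E1 + (1 + Cb) * Z * Bd +
        (1 + C2 * Real.exp r2) * Z * Q) := by ring
    rw [e9]
    linarith
  calc C3 * X ^ (ε / 4) * (C2 * X₀ ^ ε₁ * (K * Eb + K * (A + A2)) * Real.exp n₀)
      = C3 * Y * (C2 * Y * (K * Eb * Real.exp n₀ + K * A * Real.exp n₀ +
          K * A2 * Real.exp n₀)) := by rw [hYd, hX₀e]; ring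
    _ = C3 * Y * (C2 * Y * (E1 + W * Bd + Cb * Z * Q)) := by
        rw [hkn, hKA, hKA2, hE1, hX₀e33, hZd]
    _ ≤ C3 * Y * (C2 * Y * ((1 + C2 * Real.exp r2 + Cb) * Z * (E1 + Bd + Q))) := by
        gcongr
    _ = CF * (Y * Y * Z) * (E1 + Bd + Q) := by rw [hCF]; ring
    _ ≤ C' * X ^ (9 * ε) * (E1 + Bd + Q) := by
        have : 0 ≤ C' := hCF0.trans hC'1
        gcongr
    _ = _ := by rw [hE1]

/-- **rule (P), kernel `Dk`, lists, noncubes** -/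
theorem PM1_list {h : ℝ → ℝ} {c : ℝ} (hpu : PU h c) {M : ℝ} (hM : 0 ≤ M) (N : ℕ) {ε : ℝ}
    (hε : 0 < ε) : ∃ C r : ℝ, 1 ≤ C ∧ 0 ≤ r ∧ ∀ P : DPar, P.OK →
      ∀ X : ℝ, 3 ≤ X → ∀ (k β : ℝ) (ps : List Pq), 0 ≤ k → k ≤ Real.log X → 0 ≤ β →
      β ≤ Real.log X → ps.length ≤ N →
      (∀ p ∈ ps, 0 ≤ Dq.len p ∧ Dq.len p ≤ Real.log X) → ∀ Bd : ℝ, 0 ≤ Bd →
      (∀ (l : ℝ) (ps' : List Pq), 0 ≤ l + β →
        List.Forall₂ (Chd Dq hcost r (C * X ^ (3 * N + 3 : ℝ))) ps' ps →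
        (∀ c ∈ ({cG1, cG2} : Finset (Fin 4 → ℝ)),
          lf c k (LL Dq ps) l (LL Dq ps') ≤ r + ε * Real.log X) →
        SK Dk h (l + β) (ps'.map (Pq.pc P)) ≤ Bd * cst hcost ps' ps ^ M *
          Real.exp (lf cFP k (LL Dq ps) l (LL Dq ps'))) →
      PM2Q NCube P h k β ps ≤ C * X ^ (9 * ε) * (Real.exp (k + β + LL Dq ps) + Bd +
        Real.exp (k / 3 + 2 / 3 * β + 2 * LL Dq ps)) := by
  classical
  choose Cn rn hCn hrn hloc using fun n => locPM1 hpu hM n hε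
  refine ⟨∑ n ∈ Finset.range (N + 1), Cn n, ∑ n ∈ Finset.range (N + 1), rn n, ?_,
    Finset.sum_nonneg fun n _ => hrn n, ?_⟩
  · have h0 : (0 : ℕ) ∈ Finset.range (N + 1) := by simp
    exact (hCn 0).trans
      (Finset.single_le_sum (f := Cn) (fun n _ => by linarith [hCn n]) h0)
  intro P hP X hX k β ps hk0 hkX hβ0 hβX hlen hz Bd hBd hyp
  have hX0 : 0 < X := by linarith
  have hX1 : 1 ≤ X := by linarith
  obtain ⟨C, hC⟩ : ∃ x : ℝ, x = ∑ n ∈ Finset.range (N + 1), Cn n := ⟨_, rfl⟩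
  obtain ⟨r, hr⟩ : ∃ x : ℝ, x = ∑ n ∈ Finset.range (N + 1), rn n := ⟨_, rfl⟩
  rw [← hC, ← hr] at hyp
  rw [← hC]
  have hmem : ps.length ∈ Finset.range (N + 1) := Finset.mem_range.2 (by omega)
  have hC1 : Cn ps.length ≤ C := by
    rw [hC]
    exact Finset.single_le_sum (f := Cn) (fun n _ => by linarith [hCn n]) hmem
  have hr1 : rn ps.length ≤ r := by
    rw [hr]
    exact Finset.single_le_sum (f := rn) (fun n _ => hrn n) hmem
  have hC0 : 0 ≤ C := by linarith [hCn ps.length]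
  have hps : List.ofFn ps.get = ps := List.ofFn_get ps
  have hLL : LL Dq ps = ∑ i, (ps.get i).z := by
    conv_lhs => rw [← hps]
    exact LL_ofFn _
  have h1 := hloc ps.length C r hC1 hr1 P hP ps.get X hX k β hk0 hkX hβ0 hβX
    (fun i => hz _ (List.get_mem ps i)) Bd hBd (fun l s' hl0 hch hg1 hg2 => by
      have h2 := hyp l (List.ofFn s') hl0 (by
        conv => arg 3; rw [← hps]
        rw [forall₂_ofFn_iff]
        intro i
        have h3 := hch i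
        refine ⟨h3.kind, h3.lump, h3.len0, h3.len, h3.s1, h3.s2.trans ?_⟩
        refine mul_le_mul_of_nonneg_left (mul_le_mul_of_nonneg_left ?_ hC0) (Nat.cast_nonneg _)
        refine Real.rpow_le_rpow_of_exponent_le hX1 ?_
        have : (ps.length : ℝ) ≤ N := by exact_mod_cast hlen
        linarith) (by
        intro c hc
        rw [hLL, LL_ofFn]
        rcases Finset.mem_insert.1 hc with rfl | hc
        · exact hg1
        · rw [Finset.mem_singleton.1 hc]; exact hg2)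
      rw [hLL, LL_ofFn] at h2
      have h4 : cst hcost (List.ofFn s') ps = ∏ i, hcost (s' i) (ps.get i) := by
        have h5 := cst_ofFn s' ps.get
        rwa [hps] at h5
      rw [h4] at h2
      exact h2) (primBall ⌊Real.exp β⌋₊) (by
      intro b hb
      rw [mem_primBall] at hb
      exact ⟨hb.2, (Nat.le_floor_iff (Real.exp_pos _).le).1 hb.1⟩)
  rw [← hLL] at h1
  have hh : Bump h := bump_of_cs hpu.cs
  refine le_trans ?_ h1
  unfold PM2Q PMpQ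
  refine Finset.sum_le_sum fun b _ => ?_
  have e1 : ∀ x : Eis, (ps.map fun p => ‖CS (pc h (p.pc P)) (x * b ^ 2)‖ ^ 2).prod =
      ‖CS (al h (fun i => (ps.get i).pc P)) (x * b ^ 2)‖ ^ 2 := by
    intro x
    conv_lhs => rw [← hps]
    exact prod_CS hh hP ps.get (x * b ^ 2)
  refine (Finset.sum_le_sum_of_subset_of_nonneg (Finset.filter_subset _ _)
    fun x _ _ => ?_).trans (le_of_eq (Finset.sum_congr rfl fun x _ => e1 x))
  rw [e1]; positivity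

end Crest.Agent.R017.XF829
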