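import Crest.Agent.R017.PE4_241
import Crest.Agent.R017.PMBb_521

/-!
# Row 17, exceptional class, pairs (helper320), part a: rule (P) for `α - ζ β`, block of twists

* `dsum_eq`    : dual sums = dual sums with kernel `Dk` + bias
* `DIM_x_le`   : the dual terms of `x = α - ζ β`
* `DDB_block`  : the sum over the block of twists, any sequence
* `DDKB_main`  : the `Dk`-part of a member of a closed family, level raised by the block
* `P_ruleBx`   : **(P) for `α - ζ β`, summed over a block of twists**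
-/

set_option autoImplicit false

noncomputable section

open Complex MeasureTheory
open scoped ComplexConjugate

namespace Crest.Agent.R017.XF320

open Crest.Agent.R012 Crest.Agent.R012.Eis Crest.Agent.R012.LS2 Crest.Agent.R012.Gauss880
open Crest.Agent.R012.Div277 Crest.Agent.R012.CR2
open Crest.Agent.R012.MelSep811 (dp)
open Crest.Agent.R017.PA842 (V Supp)
open Crest.Agent.R017.PM106 (DIM one_stepM integrable_DIM DIM_nonneg DIM_mono integrable_dp_sqM)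
open Crest.Agent.R017.PI106 (DD DD_nonneg iterM)
open Crest.Agent.R017.CM106 (CS TG FS)
open Crest.Agent.R017.TP320
open Crest.Agent.R017.PMB521
open Crest.Agent.R017.PE241
open Crest.Agent.R017.PX764 (Dk th md Gh)

set_option maxHeartbeats 4000000

/-! ### the kernel -/

/-- the frequency -/
def fr (e f l : Eis) : Eis := l * (e * sq3) ^ 2 * f

lemma ker_eq {e f l k : Eis} (hk : IsPrim k) :
    sy (e * sq3) k * conj (sy (f * l) k) * G k = Gh (fr e f l) k := by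
  have h1 : conj (sy ((e * sq3) ^ 2) k) = sy (e * sq3) k := by
    rw [Char766.sy_pow_left hk, ← Char766.conj_sy hk (x := e * sq3), Complex.conj_conj]
  have h2 : sy (fr e f l) k = sy (f * l) k * sy ((e * sq3) ^ 2) k := by
    have : fr e f l = (f * l) * (e * sq3) ^ 2 := by unfold fr; ring
    rw [this, Char766.sy_mul_left hk]
  unfold PX764.Gh
  rw [h2, map_mul, h1]
  ring

/-- the bias of the dual sums -/
def dsB (x : Eis → ℂ) (X : ℝ) (d e f l : Eis) (s : ℂ) : ℂ :=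
  (pC : ℂ) * th (fr e f l) *
    ∑ k ∈ S X, x (d * f * k) * (md (fr e f l) k : ℂ) * (nm k : ℂ) ^ (s - 1 / 2)

lemma dsum_eq (x : Eis → ℂ) {X : ℝ} (hX : 0 ≤ X) (d e f l : Eis) (s : ℂ) :
    dsum x X d e f l s = dsK Dk x X d e f l s + dsB x X d e f l s := by
  unfold dsum dsK dsB
  rw [Finset.mul_sum, ← Finset.sum_add_distrib]
  refine Finset.sum_congr rfl fun k hk => ?_
  rw [ker_eq ((mem_S hX).1 hk).2.1]
  have : Dk (l * (e * sq3) ^ 2 * f) k = Gh (fr e f l) k - (pC : ℂ) * th (fr e f l) *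
      (md (fr e f l) k : ℂ) := rfl
  rw [this]
  ring

lemma dsK_x {Kn : Eis → Eis → ℂ} {α β x : Eis → ℂ} {ζ : ℂ} (hx : ∀ n, x n = α n - ζ * β n)
    (X : ℝ) (d e f l : Eis) (s : ℂ) :
    dsK Kn x X d e f l s = dsK Kn α X d e f l s - ζ * dsK Kn β X d e f l s := by
  unfold dsK
  rw [Finset.mul_sum, ← Finset.sum_sub_distrib]
  refine Finset.sum_congr rfl fun k _ => ?_
  rw [hx]
  ring

/-- the bias part of the dual term -/
def DIB (M : ℕ) (σ : ℝ) (x : Eis → ℂ) (X : ℝ) (d e f : Eis) (L : ℝ) : ℝ :=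
  ∫ t : ℝ, ((1 + t ^ 2) ^ M)⁻¹ * ∑ l ∈ bl L, ‖dsB x X d e f l (σ + t * Complex.I)‖ ^ 2

lemma dsB_eq (x : Eis → ℂ) (X : ℝ) (d e f l : Eis) (s : ℂ) :
    dsB x X d e f l s =
      dp (S X) (fun k => (pC : ℂ) * th (fr e f l) * (x (d * f * k) * (md (fr e f l) k : ℂ))) s := by
  unfold dsB MelSep811.dp
  rw [Finset.mul_sum]
  refine Finset.sum_congr rfl fun k _ => ?_
  ring

lemma integrable_DIB {M : ℕ} (hM : 1 ≤ M) (σ : ℝ) {X : ℝ} (hX : 0 ≤ X)
    (x : Eis → ℂ) (d e f : Eis) (L : ℝ) :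
    Integrable (fun t : ℝ => ((1 + t ^ 2) ^ M)⁻¹ *
      ∑ l ∈ bl L, ‖dsB x X d e f l (σ + t * Complex.I)‖ ^ 2) := by
  have : (fun t : ℝ => ((1 + t ^ 2) ^ M)⁻¹ *
      ∑ l ∈ bl L, ‖dsB x X d e f l (σ + t * Complex.I)‖ ^ 2) =
      fun t : ℝ => ∑ l ∈ bl L, ((1 + t ^ 2) ^ M)⁻¹ *
        ‖dsB x X d e f l (σ + t * Complex.I)‖ ^ 2 := by
    funext t; rw [Finset.mul_sum]
  rw [this]
  refine integrable_finsetSum _ fun l _ => ?_
  simp only [dsB_eq]
  exact integrable_dp_sqM hM (S X) _ (fun k hk => ((mem_S hX).1 hk).2.1.ne_zero) σ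

lemma DIB_nonneg (M : ℕ) (σ : ℝ) (x : Eis → ℂ) (X : ℝ) (d e f : Eis) (L : ℝ) :
    0 ≤ DIB M σ x X d e f L :=
  integral_nonneg fun t => by positivity

lemma sq3x (u v w : ℂ) : ‖u - v + w‖ ^ 2 ≤ 3 * (‖u‖ ^ 2 + ‖v‖ ^ 2 + ‖w‖ ^ 2) := by
  have h1 : ‖u - v + w‖ ≤ ‖u‖ + ‖v‖ + ‖w‖ :=
    (norm_add_le _ _).trans (add_le_add_left (norm_sub_le _ _) _)
  have h2 := norm_nonneg (u - v + w)
  nlinarith [sq_nonneg (‖u‖ - ‖v‖), sq_nonneg (‖u‖ - ‖w‖), sq_nonneg (‖v‖ - ‖w‖)]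

/-- **the dual terms of the difference** -/
theorem DIM_x_le {M : ℕ} (hM : 1 ≤ M) (σ : ℝ) {α β x : Eis → ℂ} {ζ : ℂ} (hζ : ‖ζ‖ ≤ 1)
    (hx : ∀ n, x n = α n - ζ * β n) {X : ℝ} (hX : 0 ≤ X) (d e f : Eis) (L : ℝ) :
    DIM M σ x X d e f L ≤ 3 * (DIK Dk M σ α X d e f L + DIK Dk M σ β X d e f L +
      DIB M σ x X d e f L) := by
  obtain ⟨fa, hfa⟩ : ∃ F : ℝ → ℝ, F = fun t : ℝ => ((1 + t ^ 2) ^ M)⁻¹ *
      ∑ l ∈ bl L, ‖dsK Dk α X d e f l (σ + t * Complex.I)‖ ^ 2 := ⟨_, rfl⟩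
  obtain ⟨fb, hfb⟩ : ∃ F : ℝ → ℝ, F = fun t : ℝ => ((1 + t ^ 2) ^ M)⁻¹ *
      ∑ l ∈ bl L, ‖dsK Dk β X d e f l (σ + t * Complex.I)‖ ^ 2 := ⟨_, rfl⟩
  obtain ⟨fx, hfx⟩ : ∃ F : ℝ → ℝ, F = fun t : ℝ => ((1 + t ^ 2) ^ M)⁻¹ *
      ∑ l ∈ bl L, ‖dsB x X d e f l (σ + t * Complex.I)‖ ^ 2 := ⟨_, rfl⟩
  have ia : Integrable fa := by rw [hfa]; exact integrable_DIK Dk hM σ hX α d e f L
  have ib : Integrable fb := by rw [hfb]; exact integrable_DIK Dk hM σ hX β d e f L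
  have ix : Integrable fx := by rw [hfx]; exact integrable_DIB hM σ hX x d e f L
  have e1 : 3 * (DIK Dk M σ α X d e f L + DIK Dk M σ β X d e f L + DIB M σ x X d e f L) =
      ∫ t : ℝ, 3 * ((fa t + fb t) + fx t) := by
    have h1 : ∫ t : ℝ, ((fa t + fb t) + fx t) = (∫ t : ℝ, (fa t + fb t)) + ∫ t : ℝ, fx t :=
      integral_add (f := fun t => fa t + fb t) (ia.add ib) ix
    rw [integral_const_mul, h1, integral_add ia ib, hfa, hfb, hfx]
    rfl
  rw [e1]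
  unfold PM106.DIM
  refine integral_mono (integrable_DIM hM σ hX x d e f L)
    (((ia.add ib).add ix).const_mul 3) (fun t => ?_)
  simp only
  rw [hfa, hfb, hfx]
  simp only
  rw [← mul_add, ← mul_add, ← Finset.sum_add_distrib, ← Finset.sum_add_distrib, mul_left_comm]
  have h0 : 0 ≤ ((1 + t ^ 2) ^ M)⁻¹ := by positivity
  refine mul_le_mul_of_nonneg_left ?_ h0
  rw [Finset.mul_sum]
  refine Finset.sum_le_sum fun l _ => ?_
  rw [dsum_eq x hX, dsK_x hx]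
  refine (sq3x _ _ _).trans ?_
  have h1 : ‖ζ * dsK Dk β X d e f l (σ + t * Complex.I)‖ ^ 2 ≤
      ‖dsK Dk β X d e f l (σ + t * Complex.I)‖ ^ 2 := by
    rw [norm_mul]
    exact pow_le_pow_left₀ (by positivity) (mul_le_of_le_one_left (norm_nonneg _) hζ) 2
  linarith

/-! ### the block of twists, any sequence -/

open Classical in
/-- the dual terms with a general integral -/
def DDg (D : Eis → Eis → Eis → ℝ → ℝ) (K δ E X' Y : ℝ) (X : ℝ) (g : Eis) : ℝ :=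
  ∑ d ∈ (S X').filter (fun d => (nm d : ℝ) ≤ Y), ∑ e ∈ (S X').filter (· ∣ d), ∑ f ∈ S X,
    K / nm f * D (g * d) e f (Lde X' K δ d e * E)

lemma DDg_nonneg {D : Eis → Eis → Eis → ℝ → ℝ} (hD : ∀ d e f L, 0 ≤ D d e f L) {K : ℝ}
    (hK : 0 ≤ K) (δ E X' Y X : ℝ) (g : Eis) : 0 ≤ DDg D K δ E X' Y X g :=
  Finset.sum_nonneg fun _ _ => Finset.sum_nonneg fun _ _ => Finset.sum_nonneg fun _ _ =>
    mul_nonneg (div_nonneg hK (Nat.cast_nonneg _)) (hD _ _ _ _)

/-- **the bias of a block** -/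
def BDD (M : ℕ) (δ : ℝ) (x : Eis → ℂ) (K E X : ℝ) (g : Eis) : ℝ :=
  DDg (fun d e f L => DIB M δ x X d e f L) K δ E (X / nm g) (X ^ δ) X g

lemma BDD_nonneg (M : ℕ) (δ : ℝ) (x : Eis → ℂ) {K : ℝ} (hK : 0 ≤ K) (E X : ℝ) (g : Eis) :
    0 ≤ BDD M δ x K E X g :=
  DDg_nonneg (fun _ _ _ _ => DIB_nonneg _ _ _ _ _ _ _ _) hK _ _ _ _ _ _

lemma hdiv_block {δ R Cτ : ℝ} (hδ : 0 < δ) (hδ1 : δ ≤ 1 / 2) (hR : 0 ≤ R)
    (hCτ : 1 ≤ Cτ) (hτ : ∀ n : Eis, n ≠ 0 → (tau n : ℝ) ≤ Cτ * (nm n : ℝ) ^ δ)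
    {X0 K X E : ℝ} (hS : Sc2 δ R X0 K X) (hE1 : 1 ≤ E) (hEX : E ≤ X0) {g : Eis} (hg : g ∈ S X)
    (hKg : K ≤ (X / nm g) ^ 2) : ∀ d e : Eis, IsPrim d → IsPrim e → (nm e : ℝ) ≤ nm d →
      ∀ s : Eis, s ≠ 0 →
      (nm s : ℝ) ≤ Lde (X / nm g) K δ d e * E * (Real.exp 1 * X) →
      (tau s : ℝ) ≤ Cτ * (2 * Real.exp (1 + 4 * R)) * (X0 ^ δ) ^ 5 := by
  intro d e hdp hep hed s hs0 hsn
  obtain ⟨f1, f2, f3, f4, f5⟩ := hS.facts hδ (by linarith) hR
  have hK1 := hS.hK1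
  have hX1 := hS.hX1
  have hX0 := hS.hX0
  have hXn : 0 ≤ X := by linarith
  have hg' := (mem_S hXn).1 hg
  have hgp := hg'.2.1
  have hg1 := one_le_nm' hgp
  have hgX := hg'.1
  set X' : ℝ := X / nm g with hX'
  have hX'1 : 1 ≤ X' := by rw [hX', le_div_iff₀ (by linarith)]; linarith
  have hX'X : X' ≤ X := div_le_self hXn hg1
  set Y : ℝ := X ^ δ with hY
  set W : ℝ := X0 ^ δ with hW
  have hLb := Lde_le2 hδ hK1 hX'1 hX'X hKg hdp hed
  have hKX := hS.hKX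
  have h1 : (nm s : ℝ) ≤ 2 * Real.exp (1 + 4 * R) * X0 ^ 5 := by
    have hYX : Y ≤ X := by
      rw [hY]
      calc X ^ δ ≤ X ^ (1 : ℝ) := Real.rpow_le_rpow_of_exponent_le hX1 (by linarith)
        _ = X := Real.rpow_one _
    have hKd : K ^ δ ≤ K := by
      calc K ^ δ ≤ K ^ (1 : ℝ) := Real.rpow_le_rpow_of_exponent_le hK1 (by linarith)
        _ = K := Real.rpow_one _
    calc (nm s : ℝ) ≤ Lde X' K δ d e * E * (Real.exp 1 * X) := hsn
      _ ≤ (Y * K ^ δ * (2 * (X' ^ 2 / K))) * E * (Real.exp 1 * X) := by gcongr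
      _ ≤ (X * K * (2 * (X ^ 2 / K))) * X0 * (Real.exp 1 * X) := by gcongr
      _ = 2 * Real.exp 1 * X ^ 4 * X0 := by field_simp
      _ ≤ 2 * Real.exp 1 * (Real.exp R * X0) ^ 4 * X0 := by
          have := hS.hXX
          gcongr
      _ = _ := by
          rw [mul_pow, ← Real.exp_nat_mul, Real.exp_add]; push_cast; ring
  set c5 : ℝ := 2 * Real.exp (1 + 4 * R) with hc5
  have hc51 : 1 ≤ c5 := by
    have : 1 ≤ Real.exp (1 + 4 * R) := Real.one_le_exp (by linarith)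
    linarith
  calc (tau s : ℝ) ≤ Cτ * (nm s : ℝ) ^ δ := hτ s hs0
    _ ≤ Cτ * (c5 * X0 ^ 5) ^ δ := by gcongr
    _ = Cτ * (c5 ^ δ * W ^ 5) := by
        rw [Real.mul_rpow (by linarith) (by positivity), hW,
          ← Real.rpow_natCast (X0 ^ δ), ← Real.rpow_natCast X0, ← Real.rpow_mul (by linarith),
          ← Real.rpow_mul (by linarith), mul_comm δ]
    _ ≤ Cτ * (c5 * W ^ 5) := by
        have : c5 ^ δ ≤ c5 ^ (1 : ℝ) := Real.rpow_le_rpow_of_exponent_le hc51 (by linarith)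
        rw [Real.rpow_one] at this
        gcongr
    _ = _ := by ring

/-- **one common divisor, summed over the block, any sequence** -/
theorem DDB_block {δ R Cτ : ℝ} (hδ : 0 < δ) (hδ1 : δ ≤ 1 / 2) (hR : 0 ≤ R) {M : ℕ}
    (hM1 : 1 ≤ M) (hCτ : 1 ≤ Cτ) (hτ : ∀ n : Eis, n ≠ 0 → (tau n : ℝ) ≤ Cτ * (nm n : ℝ) ^ δ)
    {w : Eis → ℂ} {X0 K X E : ℝ} (hS : Sc2 δ R X0 K X) (hsupp : Supp w X)
    (hE1 : 1 ≤ E) (hEX : E ≤ X0) {Bs : Finset Eis}
    (hBs : ∀ B ∈ Bs, IsPrim B ∧ (nm B : ℝ) ≤ E) {g : Eis} (hg : g ∈ S X)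
    (hKg : K ≤ (X / nm g) ^ 2) :
    ∑ B ∈ Bs, DD M δ (X / nm g) K (X ^ δ) δ (PA842.sub (tB B w) g) ≤
      (Cτ * (2 * Real.exp (1 + 4 * R)) * (X0 ^ δ) ^ 5) *
        DDg (fun d e f L => DIM M δ w X d e f L) K δ E (X / nm g) (X ^ δ) X g := by
  classical
  have hK1 := hS.hK1
  have hX1 := hS.hX1
  have hX0 := hS.hX0
  have hXn : 0 ≤ X := by linarith
  have hE0 : 0 ≤ E := by linarith
  have hdiv := hdiv_block hδ hδ1 hR hCτ hτ hS hE1 hEX hg hKg
  have hg' := (mem_S hXn).1 hg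
  have hgp := hg'.2.1
  have hg1 := one_le_nm' hgp
  have hgX := hg'.1
  set X' : ℝ := X / nm g with hX'
  have hX'1 : 1 ≤ X' := by rw [hX', le_div_iff₀ (by linarith)]; linarith
  have hX'X : X' ≤ X := div_le_self hXn hg1
  have hX'n : 0 ≤ X' := by linarith
  set Y : ℝ := X ^ δ with hY
  have hX00 : 0 ≤ X0 := by linarith
  set Dm : ℝ := Cτ * (2 * Real.exp (1 + 4 * R)) * (X0 ^ δ) ^ 5 with hDm
  have hDm0 : 0 ≤ Dm := by positivity
  have hswap : ∑ B ∈ Bs, DD M δ X' K Y δ (PA842.sub (tB B w) g) =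
      ∑ d ∈ (S X').filter (fun d => (nm d : ℝ) ≤ Y), ∑ e ∈ (S X').filter (· ∣ d), ∑ f ∈ S X',
        K / nm f * ∑ B ∈ Bs, DIM M δ (tB B w) X (g * d) e f (Lde X' K δ d e) := by
    unfold PI106.DD
    rw [Finset.sum_comm]
    refine Finset.sum_congr (by congr) fun d hd => ?_
    have hdp := (mem_de hX'n hd).1
    rw [Finset.sum_comm]
    refine Finset.sum_congr (by congr) fun e he => ?_
    rw [Finset.sum_comm]
    refine Finset.sum_congr rfl fun f hf => ?_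
    rw [Finset.mul_sum]
    refine Finset.sum_congr rfl fun B _ => ?_
    rw [DIM_sub hXn (supp_tB hsupp) hgp hdp ((mem_S hX'n).1 hf).2.1]
  rw [hswap]
  unfold DDg
  rw [Finset.mul_sum]
  refine le_trans (le_of_eq ?_) (le_trans (Finset.sum_le_sum (s := (S X').filter
    (fun d => (nm d : ℝ) ≤ Y)) (f := fun d => ∑ e ∈ (S X').filter (· ∣ d), ∑ f ∈ S X',
        K / nm f * ∑ B ∈ Bs, DIM M δ (tB B w) X (g * d) e f (Lde X' K δ d e))
    (g := fun d => Dm * ∑ e ∈ (S X').filter (· ∣ d), ∑ f ∈ S X,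
        K / nm f * DIM M δ w X (g * d) e f (Lde X' K δ d e * E)) fun d hd => ?_) (le_of_eq ?_))
  · exact Finset.sum_congr (by congr) fun d _ => rfl
  · have hd' := mem_de hX'n hd
    have hdp := hd'.1
    rw [Finset.mul_sum]
    refine Finset.sum_le_sum fun e he => ?_
    have he' : IsPrim e ∧ (nm e : ℝ) ≤ nm d := by
      rw [Finset.mem_filter, mem_S hX'n] at he
      exact ⟨he.1.2.1, by exact_mod_cast nm_le_of_dvd hdp.ne_zero he.2⟩
    have hep := he'.1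
    have hL0 : 0 ≤ Lde X' K δ d e := PA842.Lde_nonneg hX'n (by linarith) _ _ _
    have hLE0 : 0 ≤ Lde X' K δ d e * E := mul_nonneg hL0 hE0
    have h1 : ∑ f ∈ S X', K / nm f *
        ∑ B ∈ Bs, DIM M δ (tB B w) X (g * d) e f (Lde X' K δ d e) ≤
        ∑ f ∈ S X', K / nm f *
          (Dm * DIM M δ w X (g * d) e f (Lde X' K δ d e * E)) := by
      refine Finset.sum_le_sum fun f hf => ?_
      refine mul_le_mul_of_nonneg_left ?_ (by positivity)
      refine sum_DIM_tB hM1 δ hXn (hgp.mul hdp) ((mem_S hX'n).1 hf).2.1 hL0 hE0 hBs ?_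
      intro r hr
      rw [mem_bl hLE0] at hr
      refine hdiv d e hdp hep he'.2 r hr.1 (hr.2.trans ?_)
      have h2 : 1 ≤ Real.exp 1 * X := by
        have : 1 ≤ Real.exp 1 := Real.one_le_exp (by norm_num)
        nlinarith
      exact le_mul_of_one_le_right hLE0 h2
    refine h1.trans ?_
    have h2 : ∑ f ∈ S X', K / nm f *
          (Dm * DIM M δ w X (g * d) e f (Lde X' K δ d e * E)) =
        Dm * ∑ f ∈ S X', K / nm f *
          DIM M δ w X (g * d) e f (Lde X' K δ d e * E) := by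
      rw [Finset.mul_sum]
      refine Finset.sum_congr rfl fun f _ => ?_
      ring
    rw [h2]
    refine mul_le_mul_of_nonneg_left ?_ hDm0
    refine Finset.sum_le_sum_of_subset_of_nonneg ?_ fun f _ _ =>
      mul_nonneg (by positivity) (DIM_nonneg _ _ _ _ _ _ _ _)
    intro k hk
    rw [mem_S hX'n] at hk
    rw [mem_S hXn]
    exact ⟨hk.1.trans hX'X, hk.2⟩
  · exact Finset.sum_congr (by congr) fun d _ => rfl

/-- the hypothesis, kernel `Kn`, raised by the block `E` -/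
def HypKB (Kn : Eis → Eis → ℂ) {J : Type} (Φ : Fam J) (C r ε X0 K E a : ℝ) (j : J) (q : Eis) :
    Prop :=
  ∀ (j' : J) (q' : Eis) (n1 φ : ℝ), Φ.good j' → Φ.dom r j' j → 0 ≤ φ → n1 ≤ Φ.len j + r →
    Φ.len j' ≤ n1 - φ + r → n1 - φ - r - ε * Real.log X0 ≤ Φ.len j' →
    IsPrim q' → q ∣ q' → (nm q' : ℝ) ≤ C * nm q * X0 ^ 2 → K ≤ C * Real.exp (2 * n1) →
    VKn Kn (C * X0 ^ ε * (E * Real.exp (φ + 2 * n1)) / K) (TP320.sq q' (Φ.w j')) ≤
      a * Real.exp (φ + n1 + Φ.len j') * (Φ.ht j') ^ 2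

/-- **the `Dk`-part of a member of a closed family** -/
theorem DDKB_main {Kn : Eis → Eis → ℂ} {κ0 : ℝ} (hKn : KOk Kn κ0) {J : Type} {Φ : Fam J}
    {R A : ℝ} (hΦ : Φ.Ok R A) {δ ε Cs Cτ : ℝ} (hδ : 0 < δ)
    (hδ1 : δ ≤ 1 / 2) (hδε : 4 * δ ≤ ε) {M : ℕ} (hM1 : 1 ≤ M) (hM : A + 1 ≤ M) (hCs : 0 ≤ Cs)
    (hs : SplitAt Φ R A δ (1 / 2 - δ) Cs) (hCτ : 1 ≤ Cτ)
    (hτ : ∀ n : Eis, n ≠ 0 → (tau n : ℝ) ≤ Cτ * (nm n : ℝ) ^ δ) (j : J) {q : Eis}
    (hq : IsPrim q) {X0 K X E a : ℝ} (hS : Sc2 δ R X0 K X) (hX : X = Real.exp (Φ.len j + R))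
    (hE1 : 1 ≤ E) (hEX : E ≤ X0)
    (ha : 0 ≤ a) {CG r : ℝ} (hr : 3 * R + 1 ≤ r) (hCG : 18 * Real.exp (1 + 3 * R) ≤ CG)
    (HG : HypKB Kn Φ CG r ε X0 K E a j q) {g : Eis} (hg : g ∈ S X)
    (hKg : K ≤ (X / nm g) ^ 2) :
    DDg (fun d e f L => DIK Kn M δ (TP320.sq q (Φ.w j)) X d e f L) K δ E (X / nm g) (X ^ δ) X g ≤
      256 * (X ^ δ) ^ 2 *
        (K * a * (X / nm g) * (Cs ^ 2 * Real.exp R * IM M A) *
        (Cτ * (2 * Real.exp (1 + 4 * R)) * (X0 ^ δ) ^ 5) * Real.exp (2 * δ * Φ.len j) *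
        (Real.log X + 1) * (Φ.ht j) ^ 2) := by
  classical
  obtain ⟨f1, f2, f3, f4, f5⟩ := hS.facts hδ (by linarith) hΦ.R0
  have hR := hΦ.R0
  have hK1 := hS.hK1
  have hX1 := hS.hX1
  have hX0 := hS.hX0
  have hXn : 0 ≤ X := by linarith
  have hE0 : 0 ≤ E := by linarith
  have hdiv := hdiv_block hδ hδ1 hR hCτ hτ hS hE1 hEX hg hKg
  have hg' := (mem_S hXn).1 hg
  have hgp := hg'.2.1
  have hg1 := one_le_nm' hgp
  have hgX := hg'.1
  set X' : ℝ := X / nm g with hX'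
  have hX'1 : 1 ≤ X' := by rw [hX', le_div_iff₀ (by linarith)]; linarith
  have hX'X : X' ≤ X := div_le_self hXn hg1
  have hX'n : 0 ≤ X' := by linarith
  set Y : ℝ := X ^ δ with hY
  have hY1 : 1 ≤ Y := Real.one_le_rpow hX1 hδ.le
  set W : ℝ := X0 ^ δ with hW
  have hIM := IM_nonneg M A
  have hlogX : 0 ≤ Real.log X := Real.log_nonneg hX1
  -- the parameter
  set n1 : ℝ := Real.log X' with hn1
  have hexpn : Real.exp n1 = X' := Real.exp_log (by linarith)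
  have hn1' : n1 = Φ.len j + R - Real.log (nm g) := by
    rw [hn1, hX', Real.log_div (by linarith) (by linarith), hX, Real.log_exp]
  have hexp2 : Real.exp (2 * n1) = X' ^ 2 := by
    rw [two_mul, Real.exp_add, hexpn]; ring
  have hlg := log_nm_nonneg' hgp
  have hlogX0 : 0 ≤ Real.log X0 := Real.log_nonneg (by linarith)
  have hlogXX : Real.log X ≤ R + Real.log X0 := by
    have : Real.log X ≤ Real.log (Real.exp R * X0) := Real.log_le_log (by linarith) hS.hXX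
    rwa [Real.log_mul (Real.exp_pos _).ne' (by linarith), Real.log_exp] at this
  set Dm : ℝ := Cτ * (2 * Real.exp (1 + 4 * R)) * W ^ 5 with hDm
  have hDm0 : 0 ≤ Dm := by positivity
  set Q : ℝ := K * a * X' * (Cs ^ 2 * Real.exp R * IM M A) * Dm * Real.exp (2 * δ * Φ.len j) *
        (Real.log X + 1) * (Φ.ht j) ^ 2 with hQ
  have hQ0 : 0 ≤ Q := by
    have h1 : 0 ≤ Cs ^ 2 * Real.exp R * IM M A := mul_nonneg (by positivity) hIM
    have h2 : 0 ≤ K * a * X' := by positivity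
    have h3 : 0 ≤ Real.log X + 1 := by linarith
    rw [hQ]; positivity
  unfold DDg
  refine card_de hY1 Q hQ0 _ _ (fun d hd => ?_) (fun d hd e he => ?_) _ ?_
  · have := mem_de hX'n hd
    exact ⟨this.1, this.2.1⟩
  · have h1 := mem_de hX'n hd
    rw [Finset.mem_filter, mem_S hX'n] at he
    exact ⟨he.1.2.1, by exact_mod_cast nm_le_of_dvd h1.1.ne_zero he.2⟩
  intro d hd e he
  have hd' := mem_de hX'n hd
  have hdp := hd'.1
  have he' : IsPrim e ∧ (nm e : ℝ) ≤ nm d := by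
    rw [Finset.mem_filter, mem_S hX'n] at he
    exact ⟨he.1.2.1, by exact_mod_cast nm_le_of_dvd hdp.ne_zero he.2⟩
  have hep := he'.1
  have hd1 := one_le_nm' hdp
  have he1 := one_le_nm' hep
  have hld := log_nm_nonneg' hdp
  have hL0 : 0 ≤ Lde X' K δ d e := PA842.Lde_nonneg hX'n (by linarith) _ _ _
  have hLb := Lde_le2 hδ hK1 hX'1 hX'X hKg hdp he'.2
  have hLE0 : 0 ≤ Lde X' K δ d e * E := mul_nonneg hL0 hE0
  have hmain := dual_main_K hKn hΦ hδ hM1 hM hCs hs j q (hgp.mul hdp) hep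
    (L := Lde X' K δ d e * E) hLE0
    (Dm := Dm) hDm0 (by linarith : 0 ≤ K) ha hX1
    (le_of_eq hX.symm) (n1 := n1) (fun s hs0 hsn => hdiv d e hdp hep he'.2 s hs0 hsn) ?_
  · rw [hexpn] at hmain
    exact hmain
  · -- the hypothesis
    intro i hi j' hgood hdm hl hm
    have hlgd : Real.log (nm (g * d)) = Real.log (nm g) + Real.log (nm d) := by
      rw [nm_mul]; push_cast; rw [Real.log_mul (by linarith) (by linarith)]
    rw [hlgd] at hl hm
    have hdlog : Real.log (nm d) ≤ δ * Real.log X := by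
      have h1 : Real.log (nm d) ≤ Real.log (X ^ δ) := Real.log_le_log (by linarith) hd'.2.1
      rwa [Real.log_rpow (by linarith)] at h1
    have hi0 : (0 : ℝ) ≤ i := Nat.cast_nonneg i
    have key := HG j' (q * (g * d)) n1 i hgood (hΦ.dom_mono _ _ _ _ (by linarith) hdm) hi0
      (by rw [hn1']; linarith) (by rw [hn1']; linarith) (by
        rw [hn1']
        have h2 : δ * Real.log X ≤ δ * (R + Real.log X0) := by gcongr
        have h3 : δ * R ≤ R := by nlinarith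
        have h4 : δ * Real.log X0 ≤ ε * Real.log X0 := by
          apply mul_le_mul_of_nonneg_right _ hlogX0
          linarith
        nlinarith) (hq.mul (hgp.mul hdp)) (dvd_mul_right _ _) (by
        have h2 : ((nm (q * (g * d)) : ℕ) : ℝ) = nm q * (nm g * nm d) := by
          rw [nm_mul, nm_mul]; push_cast; ring
        rw [h2]
        have h3 : (nm g : ℝ) * nm d ≤ (Real.exp R * X0) * (Real.exp R * X0) := by
          have h4 := hS.hXX
          have h5 : (nm d : ℝ) ≤ Real.exp R * X0 := (hd'.2.2.trans hX'X).trans h4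
          have h6 : (nm g : ℝ) ≤ Real.exp R * X0 := hgX.trans h4
          exact mul_le_mul h6 h5 (by linarith) (by positivity)
        have h4 : Real.exp R * Real.exp R ≤ CG := by
          refine le_trans ?_ hCG
          rw [← Real.exp_add]
          have h5 : Real.exp (R + R) ≤ Real.exp (1 + 3 * R) := Real.exp_le_exp.2 (by linarith)
          have h6 := Real.exp_pos (1 + 3 * R)
          linarith
        calc (nm q : ℝ) * (nm g * nm d) ≤ nm q * ((Real.exp R * X0) * (Real.exp R * X0)) := by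
              gcongr
          _ = (Real.exp R * Real.exp R) * nm q * X0 ^ 2 := by ring
          _ ≤ CG * nm q * X0 ^ 2 := by gcongr) (by
        rw [hexp2]
        have h4 : 1 ≤ CG := by
          refine le_trans ?_ hCG
          have := Real.one_le_exp (x := 1 + 3 * R) (by linarith)
          linarith
        nlinarith [sq_nonneg X'])
    refine le_trans (VKn_mono Kn (by positivity) ?_ _) key
    rw [nm_sq3_sq]
    have he2 : (nm e : ℝ) ≤ Y := he'.2.trans hd'.2.1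
    have hCG0 : 0 ≤ CG := by
      refine le_trans ?_ hCG
      positivity
    have hW4 : W ^ 4 ≤ X0 ^ ε := by
      rw [hW, ← Real.rpow_natCast, ← Real.rpow_mul (by linarith)]
      apply Real.rpow_le_rpow_of_exponent_le (by linarith)
      push_cast; linarith
    calc Lde X' K δ d e * E * Real.exp ((i : ℝ) + 1) * (9 * (nm e : ℝ) ^ 2)
        ≤ (Y * K ^ δ * (2 * (X' ^ 2 / K))) * E * Real.exp ((i : ℝ) + 1) * (9 * Y ^ 2) := by gcongr
      _ ≤ ((Real.exp R * W) * W * (2 * (X' ^ 2 / K))) * E * Real.exp ((i : ℝ) + 1) *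
          (9 * (Real.exp R * W) ^ 2) := by gcongr
      _ = (18 * Real.exp (1 + 3 * R)) * W ^ 4 * (E * Real.exp (i + 2 * n1)) / K := by
          have e1 : Real.exp (1 + 3 * R) = Real.exp 1 * Real.exp R ^ 3 := by
            rw [Real.exp_add, ← Real.exp_nat_mul]; push_cast; rfl
          rw [Real.exp_add (i : ℝ) 1, Real.exp_add (i : ℝ) (2 * n1), hexp2, e1]
          ring
      _ ≤ CG * X0 ^ ε * (E * Real.exp (i + 2 * n1)) / K := by gcongr

end Crest.Agent.R017.XF320
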