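import Crest.Agent.R017.ExT3_764

/-!
# Row 17, exceptional class, pairs (helper320), part c: natural -> squarefree for differences

* `nat_sq_x` : second moments of `CS (al h s) - ζ CS (al h s')` from those of 764's `xA`
-/

set_option autoImplicit false
set_option linter.unusedSectionVars false

noncomputable section

open Complex
open scoped ComplexConjugate

namespace Crest.Agent.R017.XF320

open Crest.Agent.R012 Crest.Agent.R012.Eis Crest.Agent.R012.LS2 Crest.Agent.R012.Gauss880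
open Crest.Agent.R012.Mob705
open Crest.Agent.R012.Div277 (tau dvs mem_dvs tau_le_rpow)
open Crest.Agent.R017.CM106 (CS TG FS sub)
open Crest.Agent.R017.FE47 Crest.Agent.R017.End699
open Crest.Agent.R017.Asm986 (Pf)
open Crest.Agent.R017.HP842 (Bd cv sqc al ssub scS sc' cv_sub_pc sqc_smul CS_smul norm_scS_le
  CS_cv_pf cauchy_box sum_box_le isPrim_prod norm_sy_prim FS_pc Bd_pc ssub_Y ceil_le FS_cv Pc pc UT)
open Crest.Agent.R017.ExT764 (Shf shY xA zeP norm_zeP)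

set_option maxHeartbeats 1000000

lemma CS_sub {a b : Eis → ℂ} (ha : FS a) (hb : FS b) (ζ : ℂ) (k : Eis) :
    CS (fun n => a n - ζ * b n) k = CS a k - ζ * CS b k := by
  unfold CM106.CS
  rw [← tsum_mul_left,
    ← (ha.summable fun n => sy k n).tsum_sub ((hb.summable fun n => sy k n).mul_left ζ)]
  refine tsum_congr fun n => ?_
  ring

lemma fs_sqc {w : Eis → ℂ} (hw : FS w) (q : Eis) : FS (sqc q w) where
  fin := hw.fin.subset fun n hn h0 => hn (by
    show HP842.Th q n * w n = 0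
    have h0' : w n = 0 := h0
    rw [h0', mul_zero])
  prim := fun m hm => hw.prim m fun h0 => hm (by
    show HP842.Th q m * w m = 0
    rw [h0, mul_zero])

section fam

variable {ι : Type} [Fintype ι] [DecidableEq ι]

lemma sc'_shY (δ : ℝ) (p : Pc) (a : Eis) : sc' (shY δ p) a = sc' p a := rfl

lemma scS_shf {s s' : ι → Pc} {i1 i2 : ι} {δ : ℝ} (hs : Shf s s' i1 i2 δ) (a : ι → Eis) :
    scS s' a = scS s a := by
  unfold HP842.scS
  refine Finset.prod_congr rfl fun i _ => ?_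
  by_cases h1 : i = i1
  · rw [h1, hs.e1]; rfl
  · by_cases h2 : i = i2
    · rw [h2, hs.e2]; rfl
    · rw [hs.e3 i h1 h2]

lemma sub_shY (δ : ℝ) (p : Pc) (a : Eis) : (shY δ p).sub a = shY δ (p.sub a) := by
  show (⟨p.u.sub a, HP842.psub p.u p.ψ a, p.Y * Real.exp δ / nm a, p.t⟩ : Pc) =
    ⟨p.u.sub a, HP842.psub p.u p.ψ a, p.Y / nm a * Real.exp δ, p.t⟩
  congr 1
  ring

lemma shf_sub {s s' : ι → Pc} {i1 i2 : ι} {δ : ℝ} (hs : Shf s s' i1 i2 δ) (a : ι → Eis) :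
    Shf (ssub s a) (ssub s' a) i1 i2 δ where
  ne := hs.ne
  e1 := by
    show (s' i1).sub (a i1) = shY δ ((s i1).sub (a i1))
    rw [hs.e1, sub_shY]
  e2 := by
    show (s' i2).sub (a i2) = shY (-δ) ((s i2).sub (a i2))
    rw [hs.e2, sub_shY]
  e3 := fun i h1 h2 => by
    show (s' i).sub (a i) = (s i).sub (a i)
    rw [hs.e3 i h1 h2]

/-- one tuple: the two sub-sides -/
lemma CS_sub_shf {h : ℝ → ℝ} {R : ℝ} (hR : ∀ u, cx h u ≠ 0 → |u| ≤ R) {s s' : ι → Pc}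
    {i1 i2 : ι} {δ : ℝ} (hs : Shf s s' i1 i2 δ) (hok : ∀ i, (s i).OK) {a : ι → Eis}
    (ha : ∀ i, IsPrim (a i)) (q k : Eis) :
    CS (sqc q (cv (fun i => sub (pc h (s i)) (a i)))) k -
        zeP (s i1) (s i2) δ * CS (sqc q (cv (fun i => sub (pc h (s' i)) (a i)))) k =
      scS s a * CS (xA h q (ssub s a) (ssub s' a) i1 i2 δ) k := by
  have hok' : ∀ i, (s' i).OK := hs.OK hok
  have hsa : ∀ i, (ssub s a i).OK := fun i => (hok i).sub (ha i)
  have hsa' : ∀ i, (ssub s' a i).OK := fun i => (hok' i).sub (ha i)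
  have f1 : FS (sqc q (al h (ssub s a))) := fs_sqc (FS_cv fun i => FS_pc hR (hsa i)) q
  have f2 : FS (sqc q (al h (ssub s' a))) := fs_sqc (FS_cv fun i => FS_pc hR (hsa' i)) q
  have e1 : CS (xA h q (ssub s a) (ssub s' a) i1 i2 δ) k =
      CS (sqc q (al h (ssub s a))) k - zeP (s i1) (s i2) δ * CS (sqc q (al h (ssub s' a))) k := by
    have : xA h q (ssub s a) (ssub s' a) i1 i2 δ = fun n => sqc q (al h (ssub s a)) n -
        zeP (s i1) (s i2) δ * sqc q (al h (ssub s' a)) n := rfl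
    rw [this, CS_sub f1 f2]
  rw [e1, cv_sub_pc hok ha, cv_sub_pc hok' ha, sqc_smul, sqc_smul, CS_smul, CS_smul,
    scS_shf hs]
  ring

end fam

/-- **natural -> squarefree for the difference of two families** -/
theorem nat_sq_x (r : ℕ) {R ε : ℝ} (hR0 : 0 ≤ R) (hε : 0 < ε) : ∃ C : ℝ, 1 ≤ C ∧ ∀ (h : ℝ → ℝ),
    (∀ u, cx h u ≠ 0 → |u| ≤ R) → ∀ (ι : Type) [Fintype ι] [DecidableEq ι], Fintype.card ι ≤ r →
    ∀ (s s' : ι → Pc) (i1 i2 : ι) (δ : ℝ), Shf s s' i1 i2 δ → (∀ i, (s i).OK) →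
    ∀ X : ℝ, 1 ≤ X → (∀ i, (s i).Y ≤ X) → (∀ i, (s' i).Y ≤ X) →
    ∀ (Ks : Finset Eis) (W : Eis → ℝ), (∀ k ∈ Ks, 0 ≤ W k) → ∀ B : ℝ, 0 ≤ B →
    (∀ a : ι → Eis, (∀ i, IsPrim (a i)) → (∀ i, (nm (a i) : ℝ) ≤ 2 * Real.exp R * X) →
      Pf (∏ i, a i) →
      ∑ k ∈ Ks, W k * ‖CS (xA h (∏ i, a i) (ssub s a) (ssub s' a) i1 i2 δ) k‖ ^ 2 ≤
        B * ∏ i, (ssub s a i).Y) →
    ∑ k ∈ Ks, W k * ‖CS (al h s) k - zeP (s i1) (s i2) δ * CS (al h s') k‖ ^ 2 ≤
      C * X ^ ε * (B * ∏ i, (s i).Y) := by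
  classical
  obtain ⟨C, hC, H⟩ := sum_box_le r (ε := ε / 2) (by positivity)
  have hc1 : (1 : ℝ) ≤ (2 * Real.exp R) ^ ε :=
    Real.one_le_rpow (by have := Real.one_le_exp hR0; linarith) hε.le
  refine ⟨C ^ 2 * (2 * Real.exp R) ^ ε, one_le_mul_of_one_le_of_one_le (one_le_pow₀ hC) hc1, ?_⟩
  intro h hR ι _ _ hcard s s' i1 i2 δ hs hok X hX hsX hsX' Ks W hW B hB hyp
  have hok' : ∀ i, (s' i).OK := hs.OK hok
  set N : ℕ := ⌈Real.exp R * X⌉₊ with hN
  have hN1 : 1 ≤ N := by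
    rw [hN, Nat.one_le_ceil_iff]
    have := Real.exp_pos R
    positivity
  have hY : 0 ≤ ∏ i, (s i).Y := Finset.prod_nonneg fun i _ => (hok i).Y0.le
  set A := Fintype.piFinset (fun _ : ι => primBall N) with hA
  have hmA : ∀ x, x ∈ A → ∀ i, nm (x i) ≤ N ∧ IsPrim (x i) := by
    intro x hx i
    rw [hA, Fintype.mem_piFinset] at hx
    exact mem_primBall.1 (hx i)
  have hNR : (1 : ℝ) ≤ N := by exact_mod_cast hN1
  obtain ⟨c, hc1', hc0⟩ : ∃ c : (ι → Eis) → ℝ, (∀ a, Pf (∏ i, a i) → c a = 1) ∧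
      (∀ a, ¬ Pf (∏ i, a i) → c a = 0) :=
    ⟨fun a => if Pf (∏ i, a i) then 1 else 0, fun a h => if_pos h, fun a h => if_neg h⟩
  have hcn : ∀ a, 0 ≤ c a := by
    intro a
    by_cases h : Pf (∏ i, a i)
    · rw [hc1' a h]; norm_num
    · rw [hc0 a h]
  have hfs : ∀ i, FS (pc h (s i)) := fun i => FS_pc hR (hok i)
  have hfs' : ∀ i, FS (pc h (s' i)) := fun i => FS_pc hR (hok' i)
  have h1 := cauchy_box A c (fun a => (nm (∏ i, a i) : ℝ))
    (fun a _ => hcn a)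
    (fun a ha => by
      have : IsPrim (∏ i, a i) := isPrim_prod fun i => (hmA a ha i).2
      exact_mod_cast nm_pos.2 this.ne_zero) Ks W hW
    (fun k => ‖CS (al h s) k - zeP (s i1) (s i2) δ * CS (al h s') k‖)
    (fun a k => ‖CS (xA h (∏ i, a i) (ssub s a) (ssub s' a) i1 i2 δ) k‖)
    (fun k _ => norm_nonneg _)
    (fun k _ => by
      show ‖CS (al h s) k - zeP (s i1) (s i2) δ * CS (al h s') k‖ ≤ _
      have e1 : CS (al h s) k = ∑ a ∈ A, if Pf (∏ i, a i) then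
          sy k (∏ i, a i) * CS (sqc (∏ i, a i) (cv (fun i => sub (pc h (s i)) (a i)))) k else 0 :=
        CS_cv_pf (Bd_pc hR hok hsX) hfs k
      have e2 : CS (al h s') k = ∑ a ∈ A, if Pf (∏ i, a i) then
          sy k (∏ i, a i) * CS (sqc (∏ i, a i) (cv (fun i => sub (pc h (s' i)) (a i)))) k else 0 :=
        CS_cv_pf (Bd_pc hR hok' hsX') hfs' k
      rw [e1, e2, Finset.mul_sum, ← Finset.sum_sub_distrib]
      refine (norm_sum_le _ _).trans (Finset.sum_le_sum fun a ha => ?_)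
      by_cases hp : Pf (∏ i, a i)
      · rw [if_pos hp, if_pos hp, hc1' a hp, one_mul]
        have e3 := CS_sub_shf hR hs hok (fun i => (hmA a ha i).2) (∏ i, a i) k
        have e4 : sy k (∏ i, a i) * CS (sqc (∏ i, a i) (cv (fun i => sub (pc h (s i)) (a i)))) k -
            zeP (s i1) (s i2) δ * (sy k (∏ i, a i) *
              CS (sqc (∏ i, a i) (cv (fun i => sub (pc h (s' i)) (a i)))) k) =
            sy k (∏ i, a i) * (scS s a *
              CS (xA h (∏ i, a i) (ssub s a) (ssub s' a) i1 i2 δ) k) := by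
          rw [← e3]; ring
        rw [e4, norm_mul, norm_mul]
        have g1 : ‖sy k (∏ i, a i)‖ ≤ 1 := norm_sy_prim (isPrim_prod fun i => (hmA a ha i).2)
        have g2 : ‖scS s a‖ ≤ 1 := norm_scS_le hok (fun i => (hmA a ha i).2)
        calc _ ≤ 1 * (1 * ‖CS (xA h (∏ i, a i) (ssub s a) (ssub s' a) i1 i2 δ) k‖) := by gcongr
          _ = _ := by ring
      · rw [if_neg hp, if_neg hp, hc0 a hp, mul_zero, sub_zero, norm_zero, zero_mul])
    (B := B * ∏ i, (s i).Y) (fun a ha h0 => by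
      have hp : Pf (∏ i, a i) := by
        by_contra hp
        exact h0 (hc0 a hp)
      have h2 := hyp a (fun i => (hmA a ha i).2) (fun i => by
        have h3 : (nm (a i) : ℝ) ≤ N := by exact_mod_cast (hmA a ha i).1
        have h4 : 1 ≤ Real.exp R * X :=
          one_le_mul_of_one_le_of_one_le (Real.one_le_exp hR0) hX
        have h5 := (Nat.ceil_lt_add_one (by linarith : (0 : ℝ) ≤ Real.exp R * X)).le
        linarith) hp
      rw [ssub_Y, mul_div_assoc'] at h2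
      exact h2)
  have h2 := H ι hcard 1 one_ne_zero N hN1 c hcn
    (fun a ha => by
      have : (1 : ℝ) ≤ (tau (∏ i, a i) : ℝ) := by
        exact_mod_cast Div277.one_le_tau (isPrim_prod ha).ne_zero
      have h3 : (1 : ℝ) ≤ (tau (∏ i, a i) : ℝ) ^ r := one_le_pow₀ this
      by_cases h : Pf (∏ i, a i)
      · rw [hc1' a h]; exact h3
      · rw [hc0 a h]; linarith)
    (fun a ha h0 => by
      refine ⟨∏ i, a i, 1, isPrim_prod ha, isPrim_one, (mul_one _).symm, ?_, one_dvd _⟩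
      by_contra hp
      exact h0 (hc0 a hp))
  refine h1.trans ?_
  set T0 := ∑ a ∈ A, c a * (nm (∏ i, a i) : ℝ) ^ (-(1 / 2 : ℝ)) with hS
  have hS0 : 0 ≤ T0 := Finset.sum_nonneg fun a _ => by
    exact mul_nonneg (hcn a) (Real.rpow_nonneg (Nat.cast_nonneg _) _)
  rw [nm_one, Nat.cast_one, Real.one_rpow, mul_one] at h2
  have h3 : T0 ^ 2 ≤ (C * (N : ℝ) ^ (ε / 2)) ^ 2 := pow_le_pow_left₀ hS0 h2 2
  have h4 : (C * (N : ℝ) ^ (ε / 2)) ^ 2 = C ^ 2 * (N : ℝ) ^ ε := by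
    rw [mul_pow, ← Real.rpow_natCast ((N : ℝ) ^ _), ← Real.rpow_mul (by linarith)]
    congr 2
    push_cast; ring
  rw [h4] at h3
  have h5 := ceil_le hR0 hX hε
  have hBY : 0 ≤ B * ∏ i, (s i).Y := mul_nonneg hB hY
  calc T0 ^ 2 * (B * ∏ i, (s i).Y) ≤ (C ^ 2 * (N : ℝ) ^ ε) * (B * ∏ i, (s i).Y) :=
        mul_le_mul_of_nonneg_right h3 hBY
    _ ≤ (C ^ 2 * ((2 * Real.exp R) ^ ε * X ^ ε)) * (B * ∏ i, (s i).Y) := by gcongr
    _ = _ := by ring

end Crest.Agent.R017.XF320
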