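import Crest.Agent.R017.XFb_320
import Crest.Agent.R017.XFc_320
import Crest.Agent.R017.PML1_320

/-!
# Row 17, exceptional class, pairs (helper320), part d: typed tuples

* `SK_child`  : the Gauss side with kernel `Kn` of a tuple of children
* `hypKB_pq`  : the hypothesis of `P_ruleBx` from the children of a tuple
-/

set_option autoImplicit false
set_option maxHeartbeats 1000000

noncomputable section

open Complex
open scoped ComplexConjugate

namespace Crest.Agent.R017.XF320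

open Crest.Agent.R012 Crest.Agent.R012.Eis Crest.Agent.R012.LS2 Crest.Agent.R012.Gauss880
open Crest.Agent.R012.Div277 Crest.Agent.R012.Weight600
open Crest.Agent.R017.CM106 Crest.Agent.R017.FE47 Crest.Agent.R017.End699
open Crest.Agent.R017.B770
open Crest.Agent.R017.XG702 (Pcs BG)
open Crest.Agent.R017.Prov71
open Crest.Agent.R017.HP842 (UT pc KS sqc Kg uv alL al ssub nat_sq_pc)
open Crest.Agent.R017.TPOk571 (IP FP SD SD_w SD_len SD_ht sd_ok AC relU)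
open Crest.Agent.R017.TP320 (VC VG VC_mono VC_nonneg Fam)
open Crest.Agent.R017.XRG106 (RFp ip ip_pc chd chd_pc alL_ofFn CS_al RFp_ofFn)
open Crest.Agent.R017.XP699
open Crest.Agent.R017.PE241 (VKn VKn_mono VKn_nonneg KOk)

/-- the Gauss side with kernel `Kn` of a tuple of children -/
lemma SK_child (Kn : Eis → Eis → ℂ) {h : ℝ → ℝ} {P : DPar} (hP : P.OK) {n : ℕ}
    {s0 : Fin n → Pq} {j' : Fin n → IP}
    (hψ : ∀ i, (j' i).ψ = (ip hP (s0 i)).ψ) {q : Eis} (hq : q ≠ 0) {L : ℝ} (hL : 0 < L)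
    (hprim : ∀ b, al h (fun i => (j' i).pc) b ≠ 0 → IsPrim b) :
    VKn Kn L (TP320.sq q (al h (fun i => (j' i).pc))) =
      SK Kn h (Real.log L) ((List.ofFn fun i => (chd (s0 i) (j' i)).cop q hq).map (Pq.pc P)) := by
  classical
  unfold PE241.VKn SK
  rw [Real.exp_log hL, HP842.sq_eq_sqc hprim, alL_ofFn]
  have e1 : (fun i => ((chd (s0 i) (j' i)).cop q hq).pc P) = fun i => ((j' i).pc).cop q := by
    funext i
    rw [HP842.Pq_cop_pc, chd_pc hP (hψ i)]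
  rw [e1, ← HP842.sqc_absorb, one_mul]

lemma VKn_small (Kn : Eis → Eis → ℂ) {L : ℝ} (hL : L < 1) (hL0 : 0 ≤ L) (w : Eis → ℂ) :
    VKn Kn L w = 0 := by
  unfold PE241.VKn
  have : bl L = ∅ := by
    ext k
    rw [mem_bl hL0]
    simp only [Finset.notMem_empty, iff_false, not_and]
    intro hk
    have : (1 : ℝ) ≤ nm k := by exact_mod_cast nm_pos.2 hk
    linarith
  rw [this, Finset.sum_empty]

/-- **the hypothesis of the rule from the children of a tuple** -/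
theorem hypKB_pq (Kn : Eis → Eis → ℂ) {h : ℝ → ℝ} {M : ℝ} (n : ℕ) {ε ε₁ : ℝ}
    (hε₁0 : 0 < ε₁) (hε : 0 < ε) (hε₁n : ε₁ * (n + 1) = ε / 4)
    {R₀ A₀ : ℝ} (hΦ : (SD h (M / 2) n).Ok R₀ A₀) {C2 r2 : ℝ} (hC2 : 1 ≤ C2) (hr2 : 0 ≤ r2)
    {P : DPar} (hP : P.OK) (s : Fin n → Pq) {X : ℝ} (hX : 3 ≤ X) {k β : ℝ} (hβ0 : 0 ≤ β)
    (hz : ∀ i, 0 ≤ (s i).z ∧ (s i).z ≤ Real.log X) {Bd : ℝ} (hBd : 0 ≤ Bd) {C' r' : ℝ}
    (hC'2 : C2 * Real.exp (r2 * (n + 1)) ≤ C') (hr' : 4 * r2 + Real.log C2 ≤ r')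
    (hyp : ∀ (l : ℝ) (s' : Fin n → Pq), 0 ≤ l + β →
        (∀ i, Chd Dq hcost r' (C' * X ^ (3 * n + 3 : ℝ)) (s' i) (s i)) →
        lf cG1 k (∑ i, (s i).z) l (∑ i, (s' i).z) ≤ r' + ε * Real.log X →
        lf cG2 k (∑ i, (s i).z) l (∑ i, (s' i).z) ≤ r' + ε * Real.log X →
        SK Kn h (l + β) ((List.ofFn s').map (Pq.pc P)) ≤ Bd * (∏ i, hcost (s' i) (s i)) ^ M *
          Real.exp (lf cFP k (∑ i, (s i).z) l (∑ i, (s' i).z)))
    {a : Fin n → Eis} (ha : ∀ i, IsPrim (a i)) :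
    HypKB Kn (SD h (M / 2) n) C2 r2 ε₁ (X ^ (n + 1 : ℝ)) (Real.exp k) (Real.exp β)
      (C2 * (X ^ (n + 1 : ℝ)) ^ ε₁ * Real.exp r2 * Bd * Real.exp (-(∑ i, (s i).z) - k))
      (fun i => ip hP ((s i).sub (a i) (ha i).ne_zero)) (∏ i, a i) := by
  classical
  have hn0 : (0 : ℝ) ≤ n := Nat.cast_nonneg n
  have hE : 1 ≤ Real.exp r2 := Real.one_le_exp hr2
  have hlC2 : 0 ≤ Real.log C2 := Real.log_nonneg hC2
  have hX0 : 0 < X := by linarith
  have hX1 : 1 ≤ X := by linarith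
  have hlX : 0 ≤ Real.log X := Real.log_nonneg hX1
  obtain ⟨n₀, hn₀⟩ : ∃ x : ℝ, x = ∑ i, (s i).z := ⟨_, rfl⟩
  obtain ⟨X₀, hX₀⟩ : ∃ x : ℝ, x = X ^ (n + 1 : ℝ) := ⟨_, rfl⟩
  have hX₀X : X ≤ X₀ := by
    rw [hX₀]
    calc X = X ^ (1 : ℝ) := (Real.rpow_one X).symm
      _ ≤ _ := Real.rpow_le_rpow_of_exponent_le hX1 (by linarith)
  have hlX₀ : Real.log X₀ = (n + 1) * Real.log X := by rw [hX₀, Real.log_rpow hX0]
  have hX₀0 : 0 < X₀ := by linarith
  obtain ⟨K, hK⟩ : ∃ x : ℝ, x = Real.exp k := ⟨_, rfl⟩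
  have hK0 : 0 < K := by rw [hK]; exact Real.exp_pos k
  obtain ⟨Eb, hEb⟩ : ∃ x : ℝ, x = Real.exp β := ⟨_, rfl⟩
  have hEb0 : 0 < Eb := by rw [hEb]; exact Real.exp_pos β
  obtain ⟨W, hW⟩ : ∃ x : ℝ, x = C2 * X₀ ^ ε₁ * Real.exp r2 := ⟨_, rfl⟩
  have hXe1 : 1 ≤ X₀ ^ ε₁ := Real.one_le_rpow (by linarith) hε₁0.le
  have hW1 : 1 ≤ W := by
    rw [hW]
    exact one_le_mul_of_one_le_of_one_le (one_le_mul_of_one_le_of_one_le hC2 hXe1) hE
  obtain ⟨A, hA⟩ : ∃ x : ℝ, x = W * Bd * Real.exp (-n₀ - k) := ⟨_, rfl⟩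
  have hA0 : 0 ≤ A := by rw [hA]; positivity
  have hWexp : W = Real.exp (Real.log C2 + ε₁ * Real.log X₀ + r2) := by
    rw [hW, Real.exp_add, Real.exp_add, Real.exp_log (by linarith), Real.rpow_def_of_pos hX₀0,
      mul_comm ε₁]
  have ha0 : ∀ i, a i ≠ 0 := fun i => (ha i).ne_zero
  obtain ⟨s0, hs0⟩ : ∃ f : Fin n → Pq, f = fun i => (s i).sub (a i) (ha0 i) := ⟨_, rfl⟩
  obtain ⟨j, hj⟩ : ∃ f : Fin n → IP, f = fun i => ip hP (s0 i) := ⟨_, rfl⟩
  have hjz : ∀ i, (j i).z = (s i).z - Real.log (nm (a i)) := fun i => by rw [hj, hs0]; rfl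
  have hnm1 : ∀ i, (1 : ℝ) ≤ nm (a i) := fun i => by exact_mod_cast nm_pos.2 (ha0 i)
  have hlog0 : ∀ i, 0 ≤ Real.log (nm (a i)) := fun i => Real.log_nonneg (hnm1 i)
  have hlen : (SD h (M / 2) n).len j = ∑ i, (j i).z := SD_len _ _ _ _
  have hlen' : (SD h (M / 2) n).len j ≤ n₀ := by
    rw [hlen, hn₀]
    exact Finset.sum_le_sum fun i _ => by rw [hjz]; linarith [hlog0 i]
  have e0 : (C2 * (X ^ (n + 1 : ℝ)) ^ ε₁ * Real.exp r2 * Bd * Real.exp (-(∑ i, (s i).z) - k)) =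
      A := by rw [hA, hW, hX₀, hn₀]
  have e1 : (fun i => ip hP ((s i).sub (a i) (ha i).ne_zero)) = j := by rw [hj, hs0]
  rw [e0, e1, ← hX₀, ← hK, ← hEb]
  intro j' q' n1 φ hgood hdom hφ hn1 hj1 hj2 hq' hqq' hnq hKn
  have hq'0 : q' ≠ 0 := hq'.ne_zero
  obtain ⟨Lv, hLv⟩ : ∃ x : ℝ, x = C2 * X₀ ^ ε₁ * (Eb * Real.exp (φ + 2 * n1)) / K :=
    ⟨_, rfl⟩
  have hLv0 : 0 < Lv := by rw [hLv]; positivity
  have hht0 : 0 ≤ ((SD h (M / 2) n).ht j') ^ 2 := by positivity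
  rw [← hLv]
  rcases lt_or_ge Lv 1 with hc | hc
  · rw [VKn_small Kn hc hLv0.le]
    exact mul_nonneg (mul_nonneg hA0 (Real.exp_pos _).le) hht0
  have hdom' : ∀ i, (j' i).z ≤ (j i).z + r2 ∧ (j' i).t0 = (j i).t0 ∧ (j' i).ψ = (j i).ψ ∧
      relU (j' i).u (j i).u := hdom
  have hgood' : ∀ i, 0 ≤ (j' i).z := hgood
  have hn' : (SD h (M / 2) n).len j' = ∑ i, (j' i).z := SD_len _ _ _ _
  obtain ⟨l, hl⟩ : ∃ x : ℝ, x = Real.log Lv - β := ⟨_, rfl⟩
  have hlβ : l + β = Real.log Lv := by rw [hl]; ring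
  have hl0 : 0 ≤ l + β := by rw [hlβ]; exact Real.log_nonneg hc
  have hl' : l = Real.log C2 + ε₁ * Real.log X₀ + φ + 2 * n1 - k := by
    rw [hl, hLv, Real.log_div (by positivity) hK0.ne', Real.log_mul (by positivity)
      (by positivity), Real.log_mul (by positivity) (by positivity),
      Real.log_mul hEb0.ne' (Real.exp_pos _).ne', Real.log_exp,
      Real.log_rpow hX₀0, hK, Real.log_exp, hEb, Real.log_exp]
    ring
  have he1 : 0 ≤ ε₁ * Real.log X₀ := mul_nonneg hε₁0.le (by rw [hlX₀]; positivity)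
  have he2 : ε₁ * Real.log X₀ = ε / 4 * Real.log X := by
    rw [hlX₀, ← mul_assoc, hε₁n]
  have he3 : ε / 4 * Real.log X ≤ ε * Real.log X :=
    mul_le_mul_of_nonneg_right (by linarith) hlX
  obtain ⟨s', hs'⟩ : ∃ f : Fin n → Pq, f = fun i => (chd (s0 i) (j' i)).cop q' hq'0 :=
    ⟨_, rfl⟩
  have hs'z : ∀ i, (s' i).z = (j' i).z := fun i => by rw [hs']; rfl
  have hs't : ∀ i, (s' i).t - (s i).t = (j' i).s := by
    intro i
    have h1 : (s' i).t = (j' i).t0 + (j' i).s := by rw [hs']; rfl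
    have h2 : (j' i).t0 = (s i).t := by
      rw [(hdom' i).2.1, hj, hs0]; rfl
    rw [h1, h2]; ring
  have hnma : ∀ i, (nm (a i) : ℝ) ≤ Real.exp r2 * X := by
    intro i
    have h1 := (hdom' i).1
    rw [hjz] at h1
    have h2 : Real.log (nm (a i)) ≤ r2 + Real.log X := by linarith [hgood' i, (hz i).2]
    calc (nm (a i) : ℝ) = Real.exp (Real.log (nm (a i))) :=
          (Real.exp_log (by linarith [hnm1 i])).symm
      _ ≤ Real.exp (r2 + Real.log X) := Real.exp_le_exp.2 h2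
      _ = _ := by rw [Real.exp_add, Real.exp_log hX0]
  have hnmq : (nm q' : ℝ) ≤ C2 * (Real.exp r2 * X) ^ n * X₀ ^ 2 := by
    refine hnq.trans ?_
    have h1 : (nm (∏ i, a i) : ℝ) ≤ (Real.exp r2 * X) ^ n := by
      rw [HP842.nm_prod_cast]
      calc ∏ i, (nm (a i) : ℝ) ≤ ∏ _i : Fin n, (Real.exp r2 * X) :=
            Finset.prod_le_prod (fun i _ => by positivity) fun i _ => hnma i
        _ = _ := by rw [Finset.prod_const, Finset.card_univ, Fintype.card_fin]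
    have h2 : 0 ≤ X₀ ^ 2 := by positivity
    exact mul_le_mul_of_nonneg_right (mul_le_mul_of_nonneg_left h1 (by linarith)) h2
  have hbnd : (Real.exp r2 * X) * (C2 * (Real.exp r2 * X) ^ n * X₀ ^ 2) ≤
      C' * X ^ (3 * n + 3 : ℝ) := by
    have e1 : X₀ ^ 2 = X ^ (2 * (n + 1) : ℝ) := by
      rw [hX₀, ← Real.rpow_natCast, ← Real.rpow_mul hX0.le]
      congr 1
      push_cast
      ring
    have e2 : (Real.exp r2 * X) * (C2 * (Real.exp r2 * X) ^ n * X₀ ^ 2) =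
        (C2 * Real.exp (r2 * (n + 1))) * X ^ (3 * n + 3 : ℝ) := by
      rw [e1]
      have e3 : (Real.exp r2 * X) * (Real.exp r2 * X) ^ n =
          Real.exp (r2 * (n + 1)) * X ^ (n + 1 : ℝ) := by
        rw [← pow_succ', mul_pow, ← Real.exp_nat_mul, ← Real.rpow_natCast]
        push_cast
        congr 2
        ring
      have e4 : X ^ (3 * n + 3 : ℝ) = X ^ (n + 1 : ℝ) * X ^ (2 * (n + 1) : ℝ) := by
        rw [← Real.rpow_add hX0]; congr 1; ring
      rw [e4]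
      calc _ = C2 * ((Real.exp r2 * X) * (Real.exp r2 * X) ^ n) * X ^ (2 * (n + 1) : ℝ) := by
            ring
        _ = _ := by rw [e3]; ring
    rw [e2]
    exact mul_le_mul_of_nonneg_right hC'2 (Real.rpow_nonneg hX0.le _)
  have hch : ∀ i, Chd Dq hcost r' (C' * X ^ (3 * n + 3 : ℝ)) (s' i) (s i) := by
    intro i
    have hdu := (hdom' i).2.2.2
    have hju : (j i).u = (s i).u.sub (a i) := by rw [hj, hs0]; rfl
    have hjz' := hjz i
    have hdz := (hdom' i).1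
    refine ⟨?_, ?_, ?_, ?_, ?_, ?_⟩
    · rw [hs']
      show (s0 i).kd = (s i).kd
      rw [hs0]; rfl
    · rintro ⟨h1, h2⟩
      refine ⟨?_, ?_⟩
      · rw [hs']
        show (s0 i).kd = _
        rw [hs0]; exact h1
      · rw [hs']
        show (j' i).u = UT.one
        have h3 : (j i).u = UT.one := by
          rw [hju, h2]
          unfold HP842.UT.sub
          rw [if_neg (by simp)]
        rcases hdu with h4 | ⟨h4, _⟩
        · rw [h4, h3]
        · rw [h3] at h4; exact absurd h4 (by decide)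
    · show 0 ≤ (s' i).z
      rw [hs'z]; exact hgood' i
    · show (s' i).z ≤ (s i).z + r'
      rw [hs'z]
      linarith [hlog0 i]
    · show 1 + |(s' i).t| ≤ (1 + |(s i).t|) * (1 + |(s' i).t - (s i).t|)
      have h1 : |(s' i).t| ≤ |(s i).t| + |(s' i).t - (s i).t| := by
        have := abs_add_le (s i).t ((s' i).t - (s i).t)
        rwa [add_sub_cancel] at this
      have h2 : 0 ≤ |(s i).t| * |(s' i).t - (s i).t| := by positivity
      linarith
    · show (nm (s' i).d : ℝ) ≤ nm (s i).d * (C' * X ^ (3 * n + 3 : ℝ))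
      have h1 : (s' i).d = (s0 i).d * q' := by rw [hs']; rfl
      have h2 : (nm (s0 i).d : ℝ) ≤ nm (s i).d * (Real.exp r2 * X) := by
        have e1 : (s0 i).d = if (s i).u = .mu ∨ (s i).u = .sq then (s i).d * a i
            else (s i).d := by rw [hs0]; rfl
        rw [e1]
        have hd1 : (0 : ℝ) ≤ nm (s i).d := Nat.cast_nonneg _
        split_ifs
        · rw [nm_mul]
          push_cast
          exact mul_le_mul_of_nonneg_left (hnma i) hd1
        · exact le_mul_of_one_le_right hd1 ((hnm1 i).trans (hnma i))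
      rw [h1, nm_mul]
      push_cast
      have hd1 : (0 : ℝ) ≤ nm (s i).d := Nat.cast_nonneg _
      calc (nm (s0 i).d : ℝ) * nm q' ≤
            (nm (s i).d * (Real.exp r2 * X)) * (C2 * (Real.exp r2 * X) ^ n * X₀ ^ 2) :=
            mul_le_mul h2 hnmq (Nat.cast_nonneg _) (by positivity)
        _ = nm (s i).d * ((Real.exp r2 * X) * (C2 * (Real.exp r2 * X) ^ n * X₀ ^ 2)) := by
            ring
        _ ≤ _ := mul_le_mul_of_nonneg_left hbnd hd1
  have hsz : ∑ i, (s' i).z = (SD h (M / 2) n).len j' := by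
    rw [hn']
    exact Finset.sum_congr rfl fun i _ => hs'z i
  have hG1 : lf cG1 k (∑ i, (s i).z) l (∑ i, (s' i).z) ≤ r' + ε * Real.log X := by
    rw [lf_cG1, hsz, hl']
    linarith
  have hG2 : lf cG2 k (∑ i, (s i).z) l (∑ i, (s' i).z) ≤ r' + ε * Real.log X := by
    rw [lf_cG2, hsz, hl', ← hn₀]
    linarith
  have h1 := hyp l s' hl0 hch hG1 hG2
  rw [hs', hlβ] at h1
  rw [← SK_child Kn (h := h) hP (fun i => by rw [(hdom' i).2.2.1, hj]) hq'0 hLv0
    (fun b hb => hΦ.prim j' b hb)] at h1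
  rw [← hs'] at h1
  have hcost' : (∏ i, hcost (s' i) (s i)) ^ M = ((SD h (M / 2) n).ht j') ^ 2 := by
    have e1 : ∀ i, hcost (s' i) (s i) = 1 + |(j' i).s| := fun i => by
      unfold hcost; rw [hs't]
    rw [Finset.prod_congr rfl fun i _ => e1 i, SD_ht]
    have h2 : ∀ i, 0 ≤ 1 + |(j' i).s| := fun i => by positivity
    rw [← Real.finsetProd_rpow _ _ fun i _ => h2 i, ← Finset.prod_pow]
    refine Finset.prod_congr rfl fun i _ => ?_
    rw [← Real.rpow_natCast, ← Real.rpow_mul (h2 i)]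
    congr 1
    push_cast
    ring
  rw [hcost', hsz, ← hn₀, lf_cFP] at h1
  rw [SD_w]
  refine h1.trans ?_
  have h5 := expo_P (n₀ := n₀) (k := k) (l := l) (n1 := n1) (φ := φ) (r2 := r2) (e := ε₁)
    (X0l := Real.log X₀) (n' := (SD h (M / 2) n).len j') (C2 := C2) hlC2 hr2 he1 hl' hj2
  have h6 := Real.exp_le_exp.2 h5
  have e7 : Real.exp ((Real.log C2 + ε₁ * Real.log X₀ + r2) + (-n₀ - k) +
      (φ + n1 + (SD h (M / 2) n).len j')) = W * Real.exp (-n₀ - k) *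
        Real.exp (φ + n1 + (SD h (M / 2) n).len j') := by
    rw [Real.exp_add, Real.exp_add, ← hWexp]
  rw [e7] at h6
  calc Bd * (SD h (M / 2) n).ht j' ^ 2 *
        Real.exp (-k / 3 - n₀ + 2 / 3 * (l + (SD h (M / 2) n).len j')) ≤
      Bd * (SD h (M / 2) n).ht j' ^ 2 * (W * Real.exp (-n₀ - k) *
        Real.exp (φ + n1 + (SD h (M / 2) n).len j')) :=
        mul_le_mul_of_nonneg_left h6 (mul_nonneg hBd hht0)
    _ = _ := by rw [hA]; ring

end Crest.Agent.R017.XF320
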