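import Crest.Agent.R017.XFd_320

/-!
# Row 17, exceptional class, pairs (helper320), part e: rule (P) for `Y' - ζ Y°`, typed tuples

* `BiasAt`  : the bias block (helper241), as a Prop
* `locPMx`  : **the block rule for the difference of two tuples**
-/

set_option autoImplicit false
set_option maxHeartbeats 8000000

noncomputable section

open Complex
open scoped ComplexConjugate

namespace Crest.Agent.R017.XF320

open Crest.Agent.R012 Crest.Agent.R012.Eis Crest.Agent.R012.LS2 Crest.Agent.R012.Gauss880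
open Crest.Agent.R012.Div277 Crest.Agent.R012.Weight600
open Crest.Agent.R017.CM106 Crest.Agent.R017.FE47 Crest.Agent.R017.End699
open Crest.Agent.R017.B770
open Crest.Agent.R017.XG702 (Pcs BG)
open Crest.Agent.R017.Prov71
open Crest.Agent.R017.HP842 (UT pc KS sqc Kg uv alL al ssub nat_sq_pc)
open Crest.Agent.R017.TPOk571 (IP FP SD SD_w SD_len SD_ht sd_ok AC relU)
open Crest.Agent.R017.TP320 (VC VG VC_mono VC_nonneg Fam)
open Crest.Agent.R017.XRG106 (RFp ip ip_pc chd chd_pc alL_ofFn CS_al RFp_ofFn)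
open Crest.Agent.R017.XP699
open Crest.Agent.R017.PE241 (VKn VKn_mono VKn_nonneg KOk)
open Crest.Agent.R017.PX764 (Dk)
open Crest.Agent.R017.ExT764 (Shf shY xA zeP norm_zeP)

/-- **the bias block**, as a Prop -/
def BiasAt (h : ℝ → ℝ) (R : ℝ) (M : ℕ) (δ : ℝ) (N : ℕ) (B η C : ℝ) : Prop :=
  ∀ (τ : Type) [Fintype τ] [DecidableEq τ], Fintype.card τ ≤ N →
    ∀ X0 : ℝ, 3 ≤ X0 → ∀ (s s' : τ → HP842.Pc) (i1 i2 : τ) (sh : ℝ), Shf s s' i1 i2 sh →
    (∀ i, (s i).OK) → (s i1).u = .one → (s i2).u = .one →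
    ∑ i ∈ (Finset.univ.erase i1).erase i2, Real.log (s i).Y ≤ B * Real.log X0 →
    ∀ ρ1 ρ2 : Eis, ρ1 ≠ 0 → ρ2 ≠ 0 → (nm ρ1 : ℝ) ≤ X0 ^ B → (nm ρ2 : ℝ) ≤ X0 ^ B →
    (∀ b, IsPrim b → (s i1).ψ b = prin0 ρ1 b) → (∀ b, IsPrim b → (s i2).ψ b = prin0 ρ2 b) →
    ∀ d0 : ℝ, d0 ≤ Real.log (s i1).Y → d0 ≤ Real.log (s i2).Y → d0 ≤ Real.log (s i1).Y + sh →
    d0 ≤ Real.log (s i2).Y - sh → d0 ≤ B * Real.log X0 → ∀ q : Eis, q ≠ 0 →
    (nm q : ℝ) ≤ X0 ^ B →
    PA842.Supp (xA h q s s' i1 i2 sh) (Real.exp (∑ i, Real.log (s i).Y + R)) →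
    ∀ K E : ℝ, 1 ≤ K → K ≤ X0 → 1 ≤ E → E ≤ X0 →
    Real.exp (∑ i, Real.log (s i).Y) ≤ X0 →
    ∀ g ∈ S (Real.exp (∑ i, Real.log (s i).Y + R)),
    K ≤ (Real.exp (∑ i, Real.log (s i).Y + R) / nm g) ^ 2 →
    BDD M δ (xA h q s s' i1 i2 sh) K E (Real.exp (∑ i, Real.log (s i).Y + R)) g ≤
      C * X0 ^ η * ((1 + |(s i1).t|) * (1 + |(s i2).t|)) ^ 6 *
        (K ^ (1 / 3 : ℝ) * E ^ (2 / 3 : ℝ) *
          Real.exp (2 * ∑ i, Real.log (s i).Y - d0)) / nm g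

lemma HypKB.mono {Kn : Eis → Eis → ℂ} {J : Type} {Φ : Fam J} {C r ε X0 K E a a' : ℝ} {j : J}
    {q : Eis} (h : HypKB Kn Φ C r ε X0 K E a j q) (ha : a ≤ a') :
    HypKB Kn Φ C r ε X0 K E a' j q := by
  intro j' q' n1 φ h1 h2 h3 h4 h5 h6 h7 h8 h9 h10
  refine (h j' q' n1 φ h1 h2 h3 h4 h5 h6 h7 h8 h9 h10).trans ?_
  have := Real.exp_pos (φ + n1 + Φ.len j')
  gcongr

/-- **the block (P) for the difference of two tuples** -/
theorem locPMx {h : ℝ → ℝ} {c : ℝ} (hpu : PU h c) {R : ℝ} (hR0 : 0 ≤ R)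
    (hR : ∀ u, cx h u ≠ 0 → |u| ≤ R) {M : ℝ} (hM : 0 ≤ M) (n : ℕ) {ε ε₁ : ℝ} (hε : 0 < ε)
    (hε₁0 : 0 < ε₁) (hε₁n : ε₁ * (n + 1) = ε / 4)
    {κ0 : ℝ} (hDk : KOk Dk κ0) {Mn : ℕ} (hMn1 : 1 ≤ Mn) (hMn : n * (M / 2) + 1 ≤ Mn)
    {B B1 Cb : ℝ} (hB1 : 0 ≤ B1) (hB : 1 ≤ B) (hBB : 2 * B1 ≤ B) (hCb : 1 ≤ Cb)
    (hbias : BiasAt h (n * (2 * R + 3)) Mn (dl ε₁) n B (31 * ε₁) Cb) :
    ∃ C r : ℝ, 1 ≤ C ∧ 0 ≤ r ∧ ∀ C' r' : ℝ, C ≤ C' → r ≤ r' →
      ∀ (P : DPar), P.OK → ∀ (s s' : Fin n → Pq) (i1 i2 : Fin n) (sh : ℝ), i1 ≠ i2 →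
      s' i1 = { s i1 with z := (s i1).z + sh } → s' i2 = { s i2 with z := (s i2).z - sh } →
      (∀ i, i ≠ i1 → i ≠ i2 → s' i = s i) →
      (s i1).kd = .mo → (s i1).u = .one → (s i2).kd = .mo → (s i2).u = .one →
      ∀ ρ0 : Eis, ρ0 ≠ 0 → (∀ b, IsPrim b → chK P .mo b = prin0 ρ0 b) →
      ∀ X : ℝ, 3 ≤ X → (nm ρ0 : ℝ) ≤ X ^ B1 → (s i1).d ≠ 0 → (s i2).d ≠ 0 →
      (nm (s i1).d : ℝ) ≤ X ^ B1 → (nm (s i2).d : ℝ) ≤ X ^ B1 → ∀ k β : ℝ, 0 ≤ k →
      k ≤ Real.log X → 0 ≤ β → β ≤ Real.log X →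
      (∀ i, 0 ≤ (s i).z ∧ (s i).z ≤ Real.log X) → (∀ i, 0 ≤ (s' i).z ∧ (s' i).z ≤ Real.log X) →
      ∀ d0 : ℝ, d0 ≤ (s i1).z → d0 ≤ (s i2).z → d0 ≤ (s' i1).z → d0 ≤ (s' i2).z →
      ∀ Bd : ℝ, 0 ≤ Bd →
      (∀ (l : ℝ) (u' : Fin n → Pq), 0 ≤ l + β →
        (∀ i, Chd Dq hcost r' (C' * X ^ (3 * n + 3 : ℝ)) (u' i) (s i)) →
        lf cG1 k (∑ i, (s i).z) l (∑ i, (u' i).z) ≤ r' + ε * Real.log X →
        lf cG2 k (∑ i, (s i).z) l (∑ i, (u' i).z) ≤ r' + ε * Real.log X →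
        SK Dk h (l + β) ((List.ofFn u').map (Pq.pc P)) ≤ Bd * (∏ i, hcost (u' i) (s i)) ^ M *
          Real.exp (lf cFP k (∑ i, (s i).z) l (∑ i, (u' i).z))) →
      (∀ (l : ℝ) (u' : Fin n → Pq), 0 ≤ l + β →
        (∀ i, Chd Dq hcost r' (C' * X ^ (3 * n + 3 : ℝ)) (u' i) (s' i)) →
        lf cG1 k (∑ i, (s' i).z) l (∑ i, (u' i).z) ≤ r' + ε * Real.log X →
        lf cG2 k (∑ i, (s' i).z) l (∑ i, (u' i).z) ≤ r' + ε * Real.log X →
        SK Dk h (l + β) ((List.ofFn u').map (Pq.pc P)) ≤ Bd * (∏ i, hcost (u' i) (s' i)) ^ M *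
          Real.exp (lf cFP k (∑ i, (s' i).z) l (∑ i, (u' i).z))) →
      ∀ Bs : Finset Eis, (∀ b ∈ Bs, IsPrim b ∧ (nm b : ℝ) ≤ Real.exp β) →
      ∑ b ∈ Bs, ∑ x ∈ bl (Real.exp k),
        ‖CS (al h (fun i => (s i).pc P)) (x * b ^ 2) -
          zeP ((s i1).pc P) ((s i2).pc P) sh * CS (al h (fun i => (s' i).pc P)) (x * b ^ 2)‖ ^ 2 ≤
        C' * X ^ (9 * ε) * ((1 + |(s i1).t|) * (1 + |(s i2).t|)) ^ 6 *
          (Real.exp (k + β + ∑ i, (s i).z) + Bd +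
            Real.exp (k / 3 + 2 / 3 * β + 2 * ∑ i, (s i).z - d0)) := by
  classical
  have hn0 : (0 : ℝ) ≤ n := Nat.cast_nonneg n
  have hΦ := sd_ok hpu hR0 hR (μ := M / 2) (by positivity) n
  obtain ⟨C2, r2, hC2, hr2, hPr⟩ := P_ruleBx' hΦ hDk hε₁0 hMn1 hMn
  obtain ⟨C3, hC3, hS⟩ := nat_sq_x n hR0 (ε := ε / 4) (by positivity)
  have hE : 1 ≤ Real.exp r2 := Real.one_le_exp hr2
  have hEn : 1 ≤ Real.exp (r2 * (n + 1)) := Real.one_le_exp (by positivity)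
  have hlC2 : 0 ≤ Real.log C2 := Real.log_nonneg hC2
  have hER : 1 ≤ Real.exp R := Real.one_le_exp hR0
  obtain ⟨c₂, hc₂⟩ : ∃ x : ℝ, x = ((2 * Real.exp R) ^ (n + 1 : ℝ)) ^ (31 * ε₁) := ⟨_, rfl⟩
  have hc₂1 : 1 ≤ c₂ := by
    rw [hc₂]
    exact Real.one_le_rpow (Real.one_le_rpow (by linarith) (by positivity)) (by positivity)
  obtain ⟨CF, hCF⟩ : ∃ x : ℝ, x = C3 * C2 * (1 + C2 * Real.exp r2 + Cb * c₂) := ⟨_, rfl⟩
  have hCF0 : 0 ≤ CF := by rw [hCF]; positivity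
  refine ⟨CF + C2 * Real.exp (r2 * (n + 1)), 4 * r2 + Real.log C2, ?_, ?_, ?_⟩
  · have h1 : 1 ≤ C2 * Real.exp (r2 * (n + 1)) := one_le_mul_of_one_le_of_one_le hC2 hEn
    linarith
  · positivity
  intro C' r' hC' hr' P hP s s' i1 i2 sh hne e1 e2 e3 hk1 hu1 hk2 hu2 ρ0 hρ0 hρ X hX hρX hd1 hd2
    hdX1 hdX2 k β hk0 hkX hβ0 hβX hz hz' d0 hd01 hd02 hd03 hd04 Bd hBd hyp hyp' Bs hBs
  have hC'1 : CF ≤ C' := by
    have : 0 ≤ C2 * Real.exp (r2 * (n + 1)) := by positivity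
    linarith
  have hC'2 : C2 * Real.exp (r2 * (n + 1)) ≤ C' := by linarith
  have hX0 : 0 < X := by linarith
  have hX1 : 1 ≤ X := by linarith
  have hlX : 0 ≤ Real.log X := Real.log_nonneg hX1
  obtain ⟨n₀, hn₀⟩ : ∃ x : ℝ, x = ∑ i, (s i).z := ⟨_, rfl⟩
  -- the sum of the lengths of `s'`
  have hsum' : ∑ i, (s' i).z = ∑ i, (s i).z := by
    rw [← Finset.add_sum_erase Finset.univ _ (Finset.mem_univ i1),
      ← Finset.add_sum_erase (Finset.univ.erase i1) _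
        (Finset.mem_erase.2 ⟨hne.symm, Finset.mem_univ i2⟩),
      ← Finset.add_sum_erase Finset.univ (fun i => (s i).z) (Finset.mem_univ i1),
      ← Finset.add_sum_erase (Finset.univ.erase i1) (fun i => (s i).z)
        (Finset.mem_erase.2 ⟨hne.symm, Finset.mem_univ i2⟩)]
    have h1 : ∑ i ∈ (Finset.univ.erase i1).erase i2, (s' i).z =
        ∑ i ∈ (Finset.univ.erase i1).erase i2, (s i).z := by
      refine Finset.sum_congr rfl fun i hi => ?_
      rw [Finset.mem_erase, Finset.mem_erase] at hi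
      rw [e3 i hi.2.1 hi.1]
    rw [h1, e1, e2]
    show (s i1).z + sh + ((s i2).z - sh + _) = _
    ring
  have hn₀X : n₀ ≤ n * Real.log X := by
    rw [hn₀]
    refine (Finset.sum_le_sum fun i _ => (hz i).2).trans ?_
    rw [Finset.sum_const, nsmul_eq_mul, Finset.card_univ, Fintype.card_fin]
  obtain ⟨X₀, hX₀⟩ : ∃ x : ℝ, x = X ^ (n + 1 : ℝ) := ⟨_, rfl⟩
  have hX₀X : X ≤ X₀ := by
    rw [hX₀]
    calc X = X ^ (1 : ℝ) := (Real.rpow_one X).symm
      _ ≤ _ := Real.rpow_le_rpow_of_exponent_le hX1 (by linarith)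
  have hlX₀ : Real.log X₀ = (n + 1) * Real.log X := by rw [hX₀, Real.log_rpow hX0]
  have hX₀0 : 0 < X₀ := by linarith
  -- the large parameter of the bias
  obtain ⟨X₁, hX₁⟩ : ∃ x : ℝ, x = (2 * Real.exp R * X) ^ (n + 1 : ℝ) := ⟨_, rfl⟩
  have h2R : 1 ≤ 2 * Real.exp R := by linarith
  have h2RX : X ≤ 2 * Real.exp R * X := le_mul_of_one_le_left hX0.le h2R
  have hX₀₁ : X₀ ≤ X₁ := by
    rw [hX₀, hX₁]
    exact Real.rpow_le_rpow hX0.le h2RX (by positivity)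
  have hX₁3 : 3 ≤ X₁ := by linarith
  have hX₁1 : 1 ≤ X₁ := by linarith
  have hX₁0 : 0 < X₁ := by linarith
  have hX₁B : X₁ ≤ X₁ ^ B := by
    calc X₁ = X₁ ^ (1 : ℝ) := (Real.rpow_one _).symm
      _ ≤ _ := Real.rpow_le_rpow_of_exponent_le hX₁1 hB
  have hX₁e : X₁ ^ (31 * ε₁) = c₂ * X ^ (31 * (ε / 4)) := by
    rw [hX₁, Real.mul_rpow (by positivity) hX0.le, Real.mul_rpow (by positivity) (by positivity),
      hc₂, ← Real.rpow_mul hX0.le]
    congr 2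
    rw [← hε₁n]; ring
  obtain ⟨K, hK⟩ : ∃ x : ℝ, x = Real.exp k := ⟨_, rfl⟩
  have hK1 : 1 ≤ K := by rw [hK]; exact Real.one_le_exp hk0
  have hK0 : 0 < K := by linarith
  have hKX : K ≤ X₀ := by
    rw [hK]
    calc Real.exp k ≤ Real.exp (Real.log X) := Real.exp_le_exp.2 hkX
      _ = X := Real.exp_log hX0
      _ ≤ X₀ := hX₀X
  obtain ⟨Eb, hEb⟩ : ∃ x : ℝ, x = Real.exp β := ⟨_, rfl⟩
  have hEb1 : 1 ≤ Eb := by rw [hEb]; exact Real.one_le_exp hβ0
  have hEb0 : 0 < Eb := by linarith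
  have hEbX : Eb ≤ X₀ := by
    rw [hEb]
    calc Real.exp β ≤ Real.exp (Real.log X) := Real.exp_le_exp.2 hβX
      _ = X := Real.exp_log hX0
      _ ≤ X₀ := hX₀X
  obtain ⟨W, hW⟩ : ∃ x : ℝ, x = C2 * X₀ ^ ε₁ * Real.exp r2 := ⟨_, rfl⟩
  have hXe1 : 1 ≤ X₀ ^ ε₁ := Real.one_le_rpow (by linarith) hε₁0.le
  have hW1 : 1 ≤ W := by
    rw [hW]
    exact one_le_mul_of_one_le_of_one_le (one_le_mul_of_one_le_of_one_le hC2 hXe1) hE
  obtain ⟨A, hA⟩ : ∃ x : ℝ, x = W * Bd * Real.exp (-n₀ - k) := ⟨_, rfl⟩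
  have hA0 : 0 ≤ A := by rw [hA]; positivity
  obtain ⟨T, hT⟩ : ∃ x : ℝ, x = ((1 + |(s i1).t|) * (1 + |(s i2).t|)) ^ 6 := ⟨_, rfl⟩
  have hT1 : 1 ≤ T := by
    rw [hT]
    exact one_le_pow₀ (one_le_mul_of_one_le_of_one_le (by linarith [abs_nonneg (s i1).t])
      (by linarith [abs_nonneg (s i2).t]))
  obtain ⟨A2, hA2⟩ : ∃ x : ℝ, x = Cb * X₁ ^ (31 * ε₁) * T *
      Real.exp (-(2 / 3) * k + 2 / 3 * β + n₀ - d0) := ⟨_, rfl⟩
  have hA20 : 0 ≤ A2 := by rw [hA2]; positivity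
  -- the two families
  have hshf : Shf (fun i => (s i).pc P) (fun i => (s' i).pc P) i1 i2 sh := by
    refine ⟨hne, ?_, ?_, fun i h1 h2 => ?_⟩
    · show (s' i1).pc P = _
      rw [e1]
      show (⟨(s i1).u, fun b => chK P (s i1).kd b * prin0 (s i1).d b,
        Real.exp ((s i1).z + sh), (s i1).t⟩ : HP842.Pc) =
        ⟨(s i1).u, fun b => chK P (s i1).kd b * prin0 (s i1).d b,
          Real.exp (s i1).z * Real.exp sh, (s i1).t⟩
      rw [Real.exp_add]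
    · show (s' i2).pc P = _
      rw [e2]
      show (⟨(s i2).u, fun b => chK P (s i2).kd b * prin0 (s i2).d b,
        Real.exp ((s i2).z - sh), (s i2).t⟩ : HP842.Pc) =
        ⟨(s i2).u, fun b => chK P (s i2).kd b * prin0 (s i2).d b,
          Real.exp (s i2).z * Real.exp (-sh), (s i2).t⟩
      rw [← Real.exp_add, sub_eq_add_neg]
    · show (s' i).pc P = _
      rw [e3 i h1 h2]
  have hok : ∀ i, ((s i).pc P).OK := fun i => (s i).ok hP
  have hkey : ∀ a : Fin n → Eis, (∀ i, IsPrim (a i)) →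
      (∀ i, (nm (a i) : ℝ) ≤ 2 * Real.exp R * X) →
      ∑ b ∈ Bs, ∑ x ∈ bl K,
        ‖CS (xA h (∏ i, a i) (ssub (fun i => (s i).pc P) a) (ssub (fun i => (s' i).pc P) a)
          i1 i2 sh) (x * b ^ 2)‖ ^ 2 ≤
        (C2 * X₀ ^ ε₁ * (K * Eb + K * (A + A2))) *
          ∏ i, (ssub (fun i => (s i).pc P) a i).Y := by
    intro a ha haX
    have ha0 : ∀ i, a i ≠ 0 := fun i => (ha i).ne_zero
    have hq : IsPrim (∏ i, a i) := HP842.isPrim_prod ha
    obtain ⟨j, hj⟩ : ∃ f : Fin n → IP, f = fun i => ip hP ((s i).sub (a i) (ha i).ne_zero) :=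
      ⟨_, rfl⟩
    obtain ⟨j', hj'⟩ : ∃ f : Fin n → IP, f = fun i => ip hP ((s' i).sub (a i) (ha i).ne_zero) :=
      ⟨_, rfl⟩
    have hjpc : (fun i => (j i).pc) = ssub (fun i => (s i).pc P) a := by
      funext i
      rw [hj, ip_pc]
      exact HP842.Pq_sub_pc P (s i) (ha0 i)
    have hjpc' : (fun i => (j' i).pc) = ssub (fun i => (s' i).pc P) a := by
      funext i
      rw [hj', ip_pc]
      exact HP842.Pq_sub_pc P (s' i) (ha0 i)
    have hjz : ∀ i, (j i).z = (s i).z - Real.log (nm (a i)) := fun i => by rw [hj]; rfl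
    have hjz' : ∀ i, (j' i).z = (s' i).z - Real.log (nm (a i)) := fun i => by rw [hj']; rfl
    have hnm1 : ∀ i, (1 : ℝ) ≤ nm (a i) := fun i => by exact_mod_cast nm_pos.2 (ha0 i)
    have hlog0 : ∀ i, 0 ≤ Real.log (nm (a i)) := fun i => Real.log_nonneg (hnm1 i)
    have hlen : (SD h (M / 2) n).len j = ∑ i, (j i).z := SD_len _ _ _ _
    have hlen' : (SD h (M / 2) n).len j' = (SD h (M / 2) n).len j := by
      rw [SD_len, SD_len, Finset.sum_congr rfl fun i _ => hjz i,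
        Finset.sum_congr rfl fun i _ => hjz' i, Finset.sum_sub_distrib, Finset.sum_sub_distrib,
        hsum']
    have hht : ∀ f : Fin n → IP, (∀ i, (f i).s = 0) → (SD h (M / 2) n).ht f = 1 := by
      intro f hf
      rw [SD_ht]
      refine Finset.prod_eq_one fun i _ => ?_
      rw [hf i]; simp
    have hw : (SD h (M / 2) n).w j = al h (ssub (fun i => (s i).pc P) a) := by
      rw [SD_w, hjpc]
    have hw' : (SD h (M / 2) n).w j' = al h (ssub (fun i => (s' i).pc P) a) := by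
      rw [SD_w, hjpc']
    have hYlog : ∀ i, Real.log (ssub (fun i => (s i).pc P) a i).Y = (j i).z := by
      intro i
      rw [← hjpc]
      show Real.log (Real.exp (j i).z) = _
      rw [Real.log_exp]
    have hlY : ∑ i, Real.log (ssub (fun i => (s i).pc P) a i).Y = (SD h (M / 2) n).len j := by
      rw [hlen]; exact Finset.sum_congr rfl fun i _ => hYlog i
    have hY : ∏ i, (ssub (fun i => (s i).pc P) a i).Y = Real.exp ((SD h (M / 2) n).len j) := by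
      rw [hlen, Real.exp_sum]
      refine Finset.prod_congr rfl fun i _ => ?_
      rw [← hjpc]
      rfl
    have hnq1 : (1 : ℝ) ≤ nm (∏ i, a i) := by exact_mod_cast nm_pos.2 hq.ne_zero
    have hlenq : (SD h (M / 2) n).len j = n₀ - Real.log (nm (∏ i, a i)) := by
      rw [hlen, Finset.sum_congr rfl fun i _ => hjz i, Finset.sum_sub_distrib, ← hn₀,
        HP842.nm_prod_cast, Real.log_prod (fun i _ => by linarith [hnm1 i])]
    have hlen0 : (SD h (M / 2) n).len j ≤ n₀ := by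
      rw [hlenq]; linarith [Real.log_nonneg hnq1]
    have hlenX : Real.exp ((SD h (M / 2) n).len j) ≤ X₀ := by
      rw [← Real.le_log_iff_exp_le hX₀0, hlX₀]
      linarith
    have hle_i : ∀ i, Real.log (nm (a i)) ≤ Real.log (nm (∏ i, a i)) := by
      intro i
      rw [HP842.nm_prod_cast, Real.log_prod (fun i _ => by linarith [hnm1 i])]
      exact Finset.single_le_sum (f := fun i => Real.log (nm (a i))) (fun i _ => hlog0 i)
        (Finset.mem_univ i)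
    have hH := hypKB_pq Dk (h := h) n hε₁0 hε hε₁n hΦ hC2 hr2 hP s hX hβ0 hz hBd hC'2
      (by linarith : 4 * r2 + Real.log C2 ≤ r') hyp ha
    have hH' := hypKB_pq Dk (h := h) n hε₁0 hε hε₁n hΦ hC2 hr2 hP s' hX hβ0 hz' hBd hC'2
      (by linarith : 4 * r2 + Real.log C2 ≤ r') hyp' ha
    rw [hsum'] at hH'
    have eA : C2 * (X ^ (n + 1 : ℝ)) ^ ε₁ * Real.exp r2 * Bd *
        Real.exp (-(∑ i, (s i).z) - k) = A := by rw [hA, hW, hX₀, hn₀]
    rw [eA, ← hX₀, ← hK, ← hEb, ← hj] at hH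
    rw [eA, ← hX₀, ← hK, ← hEb, ← hj'] at hH'
    have hHm := hH.mono (by linarith : A ≤ A + A2)
    have hHm' := hH'.mono (by linarith : A ≤ A + A2)
    have hprim : ∀ b, al h (ssub (fun i => (s i).pc P) a) b ≠ 0 → IsPrim b := fun b hb => by
      rw [← hw] at hb
      exact hΦ.prim j b hb
    have hprim' : ∀ b, al h (ssub (fun i => (s' i).pc P) a) b ≠ 0 → IsPrim b := fun b hb => by
      rw [← hw'] at hb
      exact hΦ.prim j' b hb
    -- the bias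
    have hone1 : (ssub (fun i => (s i).pc P) a i1).u = .one := by
      show (s i1).u.sub (a i1) = .one
      rw [hu1]
      unfold HP842.UT.sub
      rw [if_neg (by simp)]
    have hone2 : (ssub (fun i => (s i).pc P) a i2).u = .one := by
      show (s i2).u.sub (a i2) = .one
      rw [hu2]
      unfold HP842.UT.sub
      rw [if_neg (by simp)]
    have hpsi : ∀ i, (s i).kd = .mo → (s i).u = .one → ∀ b, IsPrim b →
        (ssub (fun i => (s i).pc P) a i).ψ b = prin0 (ρ0 * (s i).d) b := by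
      intro i hk hu b hb
      show HP842.psub (s i).u (fun b => chK P (s i).kd b * prin0 (s i).d b) (a i) b = _
      rw [hu]
      have e4 : HP842.psub UT.one (fun b => chK P (s i).kd b * prin0 (s i).d b) (a i) b =
          chK P (s i).kd b * prin0 (s i).d b := by
        unfold HP842.psub
        simp
      rw [e4, hk, hρ b hb, HP842.prin0_mul]
    have hnρ : ∀ d : Eis, (nm d : ℝ) ≤ X ^ B1 → (nm (ρ0 * d) : ℝ) ≤ X₁ ^ B := by
      intro d hd
      rw [nm_mul]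
      push_cast
      calc (nm ρ0 : ℝ) * nm d ≤ X ^ B1 * X ^ B1 := by gcongr
        _ = X ^ (2 * B1) := by rw [← Real.rpow_add hX0]; congr 1; ring
        _ ≤ X ^ B := Real.rpow_le_rpow_of_exponent_le hX1 hBB
        _ ≤ X₁ ^ B := Real.rpow_le_rpow hX0.le (by linarith) (by linarith)
    have hlX₁ : Real.log X ≤ Real.log X₁ := Real.log_le_log hX0 (by linarith)
    have hlX₁' : (n + 1) * Real.log X ≤ Real.log X₁ := by
      rw [← hlX₀]; exact Real.log_le_log hX₀0 hX₀₁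
    have hlX₁0 : 0 ≤ Real.log X₁ := by linarith
    have hnqX : (nm (∏ i, a i) : ℝ) ≤ X₁ ^ B := by
      refine le_trans ?_ hX₁B
      rw [HP842.nm_prod_cast]
      calc ∏ i, (nm (a i) : ℝ) ≤ ∏ _i : Fin n, (2 * Real.exp R * X) :=
            Finset.prod_le_prod (fun i _ => by positivity) fun i _ => haX i
        _ = (2 * Real.exp R * X) ^ n := by
            rw [Finset.prod_const, Finset.card_univ, Fintype.card_fin]
        _ = (2 * Real.exp R * X) ^ (n : ℝ) := (Real.rpow_natCast _ _).symm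
        _ ≤ X₁ := by
            rw [hX₁]
            exact Real.rpow_le_rpow_of_exponent_le (by linarith) (by linarith)
    obtain ⟨da, hda⟩ : ∃ x : ℝ, x = d0 - Real.log (nm (∏ i, a i)) := ⟨_, rfl⟩
    have hxa : ∀ m, xA h (∏ i, a i) (ssub (fun i => (s i).pc P) a)
        (ssub (fun i => (s' i).pc P) a) i1 i2 sh m =
        TP320.sq (∏ i, a i) ((SD h (M / 2) n).w j) m -
          zeP ((s i1).pc P) ((s i2).pc P) sh *
            TP320.sq (∏ i, a i) ((SD h (M / 2) n).w j') m := fun m => by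
      rw [hw, hw', HP842.sq_eq_sqc hprim, HP842.sq_eq_sqc hprim']
      rfl
    have hxs : PA842.Supp (xA h (∏ i, a i) (ssub (fun i => (s i).pc P) a)
        (ssub (fun i => (s' i).pc P) a) i1 i2 sh)
        (Real.exp (∑ i, Real.log (ssub (fun i => (s i).pc P) a i).Y + n * (2 * R + 3))) := by
      intro m hm
      rw [hxa m] at hm
      rw [hlY]
      by_cases h0 : TP320.sq (∏ i, a i) ((SD h (M / 2) n).w j) m = 0
      · by_cases h1 : TP320.sq (∏ i, a i) ((SD h (M / 2) n).w j') m = 0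
        · exfalso; apply hm; rw [h0, h1]; simp
        · exact TP320.supp_sq hΦ (∏ i, a i) j' (by rw [hlen']) m h1
      · exact TP320.supp_sq hΦ (∏ i, a i) j le_rfl m h0
    have hbx := fun g hg hKg => hbias (Fin n) (by rw [Fintype.card_fin]) X₁ hX₁3
      (ssub (fun i => (s i).pc P) a) (ssub (fun i => (s' i).pc P) a) i1 i2 sh (shf_sub hshf a)
      (fun i => (hok i).sub (ha i)) hone1 hone2 (by
        calc ∑ i ∈ (Finset.univ.erase i1).erase i2,
              Real.log (ssub (fun i => (s i).pc P) a i).Y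
            ≤ ∑ i ∈ (Finset.univ.erase i1).erase i2, (s i).z := by
              refine Finset.sum_le_sum fun i _ => ?_
              rw [hYlog, hjz]; linarith [hlog0 i]
          _ ≤ ∑ i, (s i).z := Finset.sum_le_sum_of_subset_of_nonneg (Finset.subset_univ _)
              fun i _ _ => (hz i).1
          _ ≤ n * Real.log X := by rw [← hn₀]; exact hn₀X
          _ ≤ 1 * Real.log X₁ := by linarith
          _ ≤ B * Real.log X₁ := mul_le_mul_of_nonneg_right hB hlX₁0)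
      (ρ0 * (s i1).d) (ρ0 * (s i2).d) (mul_ne_zero hρ0 hd1) (mul_ne_zero hρ0 hd2)
      (hnρ _ hdX1) (hnρ _ hdX2) (hpsi i1 hk1 hu1) (hpsi i2 hk2 hu2) da
      (by rw [hYlog, hjz, hda]; linarith [hle_i i1])
      (by rw [hYlog, hjz, hda]; linarith [hle_i i2])
      (by
        rw [hYlog, hjz, hda]
        have : (s' i1).z = (s i1).z + sh := by rw [e1]
        linarith [hle_i i1])
      (by
        rw [hYlog, hjz, hda]
        have : (s' i2).z = (s i2).z - sh := by rw [e2]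
        linarith [hle_i i2])
      (by
        have h1 : d0 ≤ Real.log X := hd01.trans (hz i1).2
        have h2 : 0 ≤ Real.log (nm (∏ i, a i)) := Real.log_nonneg hnq1
        have h3 : 1 * Real.log X₁ ≤ B * Real.log X₁ := mul_le_mul_of_nonneg_right hB hlX₁0
        rw [hda]; linarith)
      (∏ i, a i) hq.ne_zero hnqX hxs K Eb hK1 (by linarith) hEb1 (by linarith)
      (by rw [hlY]; exact hlenX.trans hX₀₁) g hg hKg
    have h7 := hPr X₀ K Eb (A + A2) (by linarith) hK1 hKX hEb1 hEbX (by positivity) j j' hlen'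
      (hht j fun i => by rw [hj]; rfl) (hht j' fun i => by rw [hj']; rfl) hlenX (∏ i, a i) hq hHm
      hHm' (zeP ((s i1).pc P) ((s i2).pc P) sh) (le_of_eq (norm_zeP _ _ _))
      (xA h (∏ i, a i) (ssub (fun i => (s i).pc P) a) (ssub (fun i => (s' i).pc P) a) i1 i2 sh)
      hxa (fun g hg hKg => by
        rw [← hlY] at hg hKg ⊢
        refine (hbx g hg hKg).trans ?_
        have hg0 : (0 : ℝ) ≤ nm g := Nat.cast_nonneg _
        refine div_le_div_of_nonneg_right ?_ hg0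
        have et1 : (ssub (fun i => (s i).pc P) a i1).t = (s i1).t := rfl
        have et2 : (ssub (fun i => (s i).pc P) a i2).t = (s i2).t := rfl
        rw [et1, et2, ← hT, hlY, hK, hEb, ← Real.exp_mul, ← Real.exp_mul, ← Real.exp_add,
          ← Real.exp_add]
        have hl1 : k * (1 / 3) + β * (2 / 3) + (2 * (SD h (M / 2) n).len j - da) =
            k + (-(2 / 3) * k + 2 / 3 * β + n₀ - d0) + (SD h (M / 2) n).len j := by
          rw [hda, hlenq]; ring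
        rw [hl1, Real.exp_add, Real.exp_add]
        have hA2' : A2 ≤ A + A2 := by linarith
        calc Cb * X₁ ^ (31 * ε₁) * T * (Real.exp k * Real.exp (-(2 / 3) * k + 2 / 3 * β + n₀ - d0) *
              Real.exp ((SD h (M / 2) n).len j))
            = Real.exp k * A2 * Real.exp ((SD h (M / 2) n).len j) := by rw [hA2]; ring
          _ ≤ _ := by gcongr) Bs
      (fun b hb => ⟨(hBs b hb).1, by rw [hEb]; exact (hBs b hb).2⟩)
    rw [hY]
    exact h7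
  -- natural from squarefree
  obtain ⟨gm, hgm⟩ : ∃ f : Eis × Eis → Eis, f = fun p => p.2 * p.1 ^ 2 := ⟨_, rfl⟩
  have hsw : ∀ F : Eis → ℝ, ∑ b ∈ Bs, ∑ x ∈ bl K, F (x * b ^ 2) =
      ∑ y ∈ (Bs ×ˢ bl K).image gm, (((Bs ×ˢ bl K).filter (fun p => gm p = y)).card : ℝ) * F y := by
    intro F
    rw [← Finset.sum_product', hgm]
    rw [Finset.sum_comp (s := Bs ×ˢ bl K) F (fun p : Eis × Eis => p.2 * p.1 ^ 2)]
    exact Finset.sum_congr rfl fun y _ => by rw [nsmul_eq_mul]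
  have h8 := hS h hR (Fin n) (by rw [Fintype.card_fin]) (fun i => (s i).pc P)
    (fun i => (s' i).pc P) i1 i2 sh hshf hok X hX1 (fun i => by
      show Real.exp (s i).z ≤ X
      rw [← Real.le_log_iff_exp_le hX0]; exact (hz i).2) (fun i => by
      show Real.exp (s' i).z ≤ X
      rw [← Real.le_log_iff_exp_le hX0]; exact (hz' i).2) ((Bs ×ˢ bl K).image gm)
    (fun y => (((Bs ×ˢ bl K).filter (fun p => gm p = y)).card : ℝ))
    (fun _ _ => Nat.cast_nonneg _) (C2 * X₀ ^ ε₁ * (K * Eb + K * (A + A2))) (by positivity)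
    (fun a ha haX _ => by
      rw [← hsw (fun y => ‖CS (xA h (∏ i, a i) (ssub (fun i => (s i).pc P) a)
        (ssub (fun i => (s' i).pc P) a) i1 i2 sh) y‖ ^ 2)]
      exact hkey a ha haX)
  rw [← hsw (fun y => ‖CS (al h (fun i => (s i).pc P)) y -
    zeP ((s i1).pc P) ((s i2).pc P) sh * CS (al h (fun i => (s' i).pc P)) y‖ ^ 2)] at h8
  have e4 : ∏ i, ((s i).pc P).Y = Real.exp n₀ := by
    rw [hn₀, Real.exp_sum]
    rfl
  rw [e4] at h8
  rw [← hK]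
  refine h8.trans ?_
  have hX₀e : X₀ ^ ε₁ = X ^ (ε / 4) := by
    rw [hX₀, ← Real.rpow_mul hX0.le]
    congr 1
    rw [mul_comm]; exact hε₁n
  have hkn : K * Eb * Real.exp n₀ = Real.exp (k + β + n₀) := by
    rw [hK, hEb, Real.exp_add, Real.exp_add]
  have hKA : K * A * Real.exp n₀ = W * Bd := by
    rw [hA, hK]
    have : Real.exp k * (W * Bd * Real.exp (-n₀ - k)) * Real.exp n₀ =
        W * Bd * (Real.exp k * Real.exp (-n₀ - k) * Real.exp n₀) := by ring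
    rw [this, ← Real.exp_add, ← Real.exp_add]
    have : k + (-n₀ - k) + n₀ = 0 := by ring
    rw [this, Real.exp_zero, mul_one]
  obtain ⟨Q, hQ⟩ : ∃ x : ℝ, x = Real.exp (k / 3 + 2 / 3 * β + 2 * n₀ - d0) := ⟨_, rfl⟩
  have hQ0 : 0 < Q := by rw [hQ]; exact Real.exp_pos _
  have hKA2 : K * A2 * Real.exp n₀ = Cb * X₁ ^ (31 * ε₁) * T * Q := by
    rw [hA2, hK, hQ]
    have : Real.exp k * (Cb * X₁ ^ (31 * ε₁) * T *
        Real.exp (-(2 / 3) * k + 2 / 3 * β + n₀ - d0)) *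
        Real.exp n₀ = Cb * X₁ ^ (31 * ε₁) * T * (Real.exp k *
          Real.exp (-(2 / 3) * k + 2 / 3 * β + n₀ - d0) * Real.exp n₀) := by ring
    rw [this, ← Real.exp_add, ← Real.exp_add]
    congr 2
    ring
  rw [← hn₀, ← hT, ← hQ]
  have hXe4 : 1 ≤ X ^ (ε / 4) := Real.one_le_rpow hX1 (by positivity)
  obtain ⟨E1, hE1⟩ : ∃ x : ℝ, x = Real.exp (k + β + n₀) := ⟨_, rfl⟩
  have hE10 : 0 < E1 := by rw [hE1]; exact Real.exp_pos _
  obtain ⟨Y, hYd⟩ : ∃ x : ℝ, x = X ^ (ε / 4) := ⟨_, rfl⟩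
  obtain ⟨Z, hZd⟩ : ∃ x : ℝ, x = X ^ (31 * (ε / 4)) := ⟨_, rfl⟩
  have hYZ : Y ≤ Z := by
    rw [hYd, hZd]
    exact Real.rpow_le_rpow_of_exponent_le hX1 (by linarith)
  rw [← hYd] at hXe4 hX₀e
  rw [← hZd] at hX₁e
  have hY0 : 0 < Y := by linarith
  have hZ1 : 1 ≤ Z := hXe4.trans hYZ
  have hZ0 : 0 < Z := by linarith
  have hY4 : Y * Y * Z ≤ X ^ (9 * ε) := by
    rw [hYd, hZd, ← Real.rpow_add hX0, ← Real.rpow_add hX0]
    exact Real.rpow_le_rpow_of_exponent_le hX1 (by linarith)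
  have hWY : W = C2 * Real.exp r2 * Y := by rw [hW, hX₀e]; ring
  have hXX : X ^ (ε / 4) = Y := hYd.symm
  have hbr : E1 + W * Bd + Cb * X₁ ^ (31 * ε₁) * T * Q ≤
      (1 + C2 * Real.exp r2 + Cb * c₂) * (Z * T) * (E1 + Bd + Q) := by
    rw [hWY, hX₁e]
    have hYT : 1 ≤ Z * T := one_le_mul_of_one_le_of_one_le hZ1 hT1
    have g1 : E1 ≤ 1 * (Z * T) * E1 := by
      rw [one_mul]; exact le_mul_of_one_le_left hE10.le hYT
    have g2 : C2 * Real.exp r2 * Y * Bd ≤ C2 * Real.exp r2 * (Z * T) * Bd := by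
      have : Y ≤ Z * T := hYZ.trans (le_mul_of_one_le_right hZ0.le hT1)
      gcongr
    have g3 : Cb * (c₂ * Z) * T * Q = Cb * c₂ * (Z * T) * Q := by ring
    have p1 : 0 ≤ Z * T := by positivity
    have g4 : 0 ≤ (C2 * Real.exp r2 + Cb * c₂) * (Z * T) * E1 := by positivity
    have g5 : 0 ≤ (1 + Cb * c₂) * (Z * T) * Bd := by positivity
    have g6 : 0 ≤ (1 + C2 * Real.exp r2) * (Z * T) * Q := by positivity
    have e9 : (1 + C2 * Real.exp r2 + Cb * c₂) * (Z * T) * (E1 + Bd + Q) =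
        1 * (Z * T) * E1 + C2 * Real.exp r2 * (Z * T) * Bd + Cb * c₂ * (Z * T) * Q +
        ((C2 * Real.exp r2 + Cb * c₂) * (Z * T) * E1 + (1 + Cb * c₂) * (Z * T) * Bd +
        (1 + C2 * Real.exp r2) * (Z * T) * Q) := by ring
    rw [g3, e9]
    linarith
  calc C3 * X ^ (ε / 4) * (C2 * X₀ ^ ε₁ * (K * Eb + K * (A + A2)) * Real.exp n₀)
      = C3 * Y * (C2 * Y * (K * Eb * Real.exp n₀ + K * A * Real.exp n₀ +
          K * A2 * Real.exp n₀)) := by rw [hXX, hX₀e]; ring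
    _ = C3 * Y * (C2 * Y * (E1 + W * Bd + Cb * X₁ ^ (31 * ε₁) * T * Q)) := by
        rw [hkn, hKA, hKA2, hE1]
    _ ≤ C3 * Y * (C2 * Y * ((1 + C2 * Real.exp r2 + Cb * c₂) * (Z * T) * (E1 + Bd + Q))) := by
        gcongr
    _ = CF * (Y * Y * Z) * T * (E1 + Bd + Q) := by rw [hCF]; ring
    _ ≤ C' * X ^ (9 * ε) * T * (E1 + Bd + Q) := by
        have : 0 ≤ C' := hCF0.trans hC'1
        gcongr
    _ = _ := by rw [hE1]

end Crest.Agent.R017.XF320
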