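import Crest.Agent.R017.XFf_320
import Crest.Agent.R017.PM1_320

/-!
# Row 17, exceptional class, pairs (helper320), part g: the transfer rule with two parents

* `famX`  : one premise at one parent
* `ruleX` : the transfer rule of `ruleBGe` for a pair of parents `ps`, `rpl d ps`
-/

set_option autoImplicit false

noncomputable section

open Set Filter Topology

namespace Crest.Agent.R017.XF320

open Crest.Agent.R017.XG702 (Pcs BG Loc)
open Crest.Agent.R017.Prov71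
open Crest.Agent.R017.XP699
open Crest.Agent.R017.RuleM545

variable {Lam : Type*}

/-- one premise at one parent -/
lemma famX {n : ℕ} {Φ : Lam → ℝ → List Pq → ℝ} {G F : (Fin 4 → ℝ) → Unit → ℝ}
    (hG : Continuous fun x : (Fin 4 → ℝ) × Unit => G x.1 x.2)
    (hF : Continuous fun x : (Fin 4 → ℝ) × Unit => F x.1 x.2) {cl : ℝ}
    (triv : ∀ (lam : Lam) (N : ℕ), ∃ C T : ℝ, 0 ≤ C ∧ 0 ≤ T ∧
      ∀ (l : ℝ) (ps : List Pq), 0 ≤ l → ps.length ≤ N → (∀ p ∈ ps, 0 ≤ Dq.len p) →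
      Φ lam l ps ≤ C * Real.exp (T * (l + LL Dq ps)))
    {κ : ℝ} {uf : Fin n → ℝ} {m a E ε : ℝ} (hε : 0 < ε) (hκ : 0 ≤ κ)
    (hu : Okl (List.ofFn uf) m a)
    (hch : ∀ (u' : List ℝ) (m' a' l : ℝ), Shl u' (List.ofFn uf) → 0 ≤ m' → m' ≤ m → 0 ≤ a' →
      a' ≤ a → 0 ≤ l → l ≤ cl →
      G ![κ, (List.ofFn uf).sum + m + a, l, u'.sum + m' + a'] () ≤ 0 →
      BG Dq Φ l u' (wt m' a')
        (E + F ![κ, (List.ofFn uf).sum + m + a, l, u'.sum + m' + a'] ())) :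
    ∀ᶠ σ in 𝓝[>] (0 : ℝ), FamC Dq hcost Φ G F False cl (vec κ uf (wt m a)) E ε σ := by
  obtain ⟨hu0, hm, ha⟩ := hu
  obtain ⟨n₀, hn₀⟩ : ∃ x : ℝ, x = (List.ofFn uf).sum + m + a := ⟨_, rfl⟩
  rw [← hn₀] at hch
  set p : Unit ⊕ Fin n ⊕ Kd → ℝ := vec κ uf (wt m a) with hp
  have hsp : smv p = n₀ := by
    rw [hp, smv_vec, hn₀, List.sum_ofFn]
    show _ + (m + a) = _
    ring
  have hp0 : ∀ i, 0 ≤ p i := by
    rintro (⟨⟩ | i | t)
    · exact hκ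
    · exact hu0 _ ((List.mem_ofFn' _ _).2 ⟨i, rfl⟩)
    · cases t
      · exact hm
      · exact ha
  refine famC hG hF one_le_hcost (fun p => by
    rw [Dq_s1]; linarith [abs_nonneg p.t]) triv hε hp0 ?_
  intro q θ hq0 hqcl hq2
  obtain ⟨h1, h2, h2'⟩ := fcc_le_zero hq2
  simp only at h1 h2 h2'
  have hwt : (toX q).2.2 = wt (q (Sum.inr (Sum.inr .mo))) (q (Sum.inr (Sum.inr .am))) := by
    funext t; cases t <;> rfl
  have hsum : (List.ofFn (toX q).2.1).sum + q (Sum.inr (Sum.inr .mo)) +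
      q (Sum.inr (Sum.inr .am)) = smv q := by
    rw [smv_eq, List.sum_ofFn]
    show _ = _ + (q (Sum.inr (Sum.inr .mo)) + q (Sum.inr (Sum.inr .am)))
    ring
  have hxx : xx p q = ![κ, n₀, q (Sum.inl ()), smv q] := by
    unfold xx
    rw [hsp]
    rfl
  have h3 := hch (List.ofFn (toX q).2.1) (q (Sum.inr (Sum.inr .mo)))
    (q (Sum.inr (Sum.inr .am))) (q (Sum.inl ())) (by
      show List.Forall₂ _ _ _
      rw [forall₂_ofFn_iff]
      exact fun i => ⟨hq0 _, h2 (Sum.inl i)⟩)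
    (hq0 _) (h2 (Sum.inr .mo)) (hq0 _) (h2 (Sum.inr .am)) (hq0 _) hqcl (by
      rw [hsum, ← hxx]
      exact h1)
  rw [hsum, ← hxx] at h3
  rw [hwt]
  exact h3

lemma near_cons2 {X δ : ℝ} {us : List Pq} {y1 y2 : ℝ} {u : List ℝ}
    (h : Dq.Near X δ us (y1 :: y2 :: u)) : ∃ p1 p2 us', us = p1 :: p2 :: us' ∧
      (Dq.lump p1 ∧ |Dq.nl X p1 - y1| ≤ δ) ∧ (Dq.lump p2 ∧ |Dq.nl X p2 - y2| ≤ δ) ∧
      Dq.Near X δ us' u := by
  unfold Pcs.Near at h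
  rw [List.forall₂_cons_right_iff] at h
  obtain ⟨p1, us1, h1, h2, rfl⟩ := h
  rw [List.forall₂_cons_right_iff] at h2
  obtain ⟨p2, us2, h3, h4, rfl⟩ := h2
  exact ⟨p1, p2, us2, rfl, h1, h3, h4⟩

set_option maxHeartbeats 3200000 in
/-- **the transfer rule with two parents** -/
theorem ruleX {Ψ : Lam → ℝ → List Pq → ℝ} {Φ : Lam → ℝ → List Pq → ℝ}
    {G F : (Fin 4 → ℝ) → Unit → ℝ}
    (hG : Continuous fun x : (Fin 4 → ℝ) × Unit => G x.1 x.2)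
    (hF : Continuous fun x : (Fin 4 → ℝ) × Unit => F x.1 x.2)
    {H A : (Fin 2 → ℝ) → ℝ} (hH : Continuous H) (hA : Continuous A)
    {cl δx : ℝ} (hmono : ∀ lam l l' ps, l ≤ l' → Ψ lam l ps ≤ Ψ lam l' ps)
    (hrule : ∀ (lam : Lam) (N : ℕ) (c₀ B : ℝ), 1 ≤ c₀ → ∃ B₀ : ℝ, 0 ≤ B₀ ∧ ∀ (ε M : ℝ), 0 < ε →
      ε ≤ 1 → 0 ≤ M → ∃ C r J X₁ : ℝ, 0 ≤ C ∧ 0 ≤ r ∧ 0 ≤ J ∧
      ∀ X : ℝ, 3 ≤ X → X₁ ≤ X → ∀ (k : ℝ) (p1 p2 : Pq) (ps : List Pq), 0 ≤ k →
      k ≤ c₀ * Real.log X → (p1 :: p2 :: ps).length ≤ N → Dq.lump p1 → Dq.lump p2 →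
      (∀ p ∈ p1 :: p2 :: ps, 0 ≤ Dq.len p ∧ Dq.len p ≤ c₀ * Real.log X) →
      (∀ p ∈ p1 :: p2 :: ps, Dq.s2 p ≤ X ^ B) →
      ∀ d0 : ℝ, 0 ≤ d0 → d0 ≤ p1.z → d0 ≤ p2.z → δx * Real.log X ≤ d0 + ε / 4 * Real.log X →
      H ![k / Real.log X, LL Dq (p1 :: p2 :: ps) / Real.log X] ≤ ε →
      ∀ Bd : ℝ, 0 ≤ Bd →
      (∀ (l : ℝ) (ps' : List Pq), 0 ≤ l → l ≤ cl * Real.log X →
        List.Forall₂ (Chd Dq hcost r (C * X ^ B₀)) ps' (p1 :: p2 :: ps) →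
        G (xv Dq X k (p1 :: p2 :: ps) l ps') () ≤ ε →
        Φ lam l ps' ≤ Bd * cst hcost ps' (p1 :: p2 :: ps) ^ M *
          X ^ F (xv Dq X k (p1 :: p2 :: ps) l ps') ()) →
      (∀ (l : ℝ) (ps' : List Pq), 0 ≤ l → l ≤ cl * Real.log X →
        List.Forall₂ (Chd Dq hcost r (C * X ^ B₀)) ps' (rpl d0 (p1 :: p2 :: ps)) →
        G (xv Dq X k (p1 :: p2 :: ps) l ps') () ≤ ε →
        Φ lam l ps' ≤ Bd * cst hcost ps' (rpl d0 (p1 :: p2 :: ps)) ^ M *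
          X ^ F (xv Dq X k (p1 :: p2 :: ps) l ps') ()) →
      Ψ lam k (rpl d0 (p1 :: p2 :: ps)) ≤ Bd →
      Ψ lam k (p1 :: p2 :: ps) ≤ C * X ^ ε * ((p1 :: p2 :: ps).map Dq.s1).prod ^ J *
        (X ^ A ![k / Real.log X, LL Dq (p1 :: p2 :: ps) / Real.log X] + Bd))
    (triv : ∀ (lam : Lam) (N : ℕ), ∃ C T : ℝ, 0 ≤ C ∧ 0 ≤ T ∧
      ∀ (l : ℝ) (ps : List Pq), 0 ≤ l → ps.length ≤ N → (∀ p ∈ ps, 0 ≤ Dq.len p) →
      Φ lam l ps ≤ C * Real.exp (T * (l + LL Dq ps)))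
    {κ y1 y2 : ℝ} {u : List ℝ} {m a E : ℝ} (hκ : 0 ≤ κ) (hu : Okl (y1 :: y2 :: u) m a)
    (hδ0 : 0 ≤ δx) (hδ1 : δx ≤ y1) (hδ2 : δx ≤ y2)
    (hHκ : H ![κ, (y1 :: y2 :: u).sum + m + a] ≤ 0)
    (hE : A ![κ, (y1 :: y2 :: u).sum + m + a] ≤ E)
    (hch : ∀ (u' : List ℝ) (m' a' l : ℝ), Shl u' (y1 :: y2 :: u) → 0 ≤ m' → m' ≤ m → 0 ≤ a' →
      a' ≤ a → 0 ≤ l → l ≤ cl →
      G ![κ, (y1 :: y2 :: u).sum + m + a, l, u'.sum + m' + a'] () ≤ 0 →
      BG Dq Φ l u' (wt m' a')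
        (E + F ![κ, (y1 :: y2 :: u).sum + m + a, l, u'.sum + m' + a'] ()))
    (hch' : ∀ (u' : List ℝ) (m' a' l : ℝ), Shl u' ((y1 + y2 - δx) :: δx :: u) → 0 ≤ m' →
      m' ≤ m → 0 ≤ a' → a' ≤ a → 0 ≤ l → l ≤ cl →
      G ![κ, (y1 :: y2 :: u).sum + m + a, l, u'.sum + m' + a'] () ≤ 0 →
      BG Dq Φ l u' (wt m' a')
        (E + F ![κ, (y1 :: y2 :: u).sum + m + a, l, u'.sum + m' + a'] ()))
    (hx : BG Dq Ψ κ ((y1 + y2 - δx) :: δx :: u) (wt m a) E) :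
    BG Dq Ψ κ (y1 :: y2 :: u) (wt m a) E := by
  intro ε hε
  have hs1 : ∀ p : Pq, 1 ≤ Dq.s1 p := fun p => by rw [Dq_s1]; linarith [abs_nonneg p.t]
  obtain ⟨n, hn⟩ : ∃ n, n = u.length := ⟨_, rfl⟩
  obtain ⟨f0, hf0⟩ := exists_eq_ofFn u hn.symm
  obtain ⟨uf, huf⟩ : ∃ v : Fin (n + 2) → ℝ, v = Fin.cons y1 (Fin.cons y2 f0) := ⟨_, rfl⟩
  obtain ⟨uf', huf'⟩ : ∃ v : Fin (n + 2) → ℝ,
    v = Fin.cons (y1 + y2 - δx) (Fin.cons δx f0) := ⟨_, rfl⟩
  have hufL : List.ofFn uf = y1 :: y2 :: u := by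
    rw [huf, List.ofFn_cons, List.ofFn_cons, hf0]
  have hufL' : List.ofFn uf' = (y1 + y2 - δx) :: δx :: u := by
    rw [huf', List.ofFn_cons, List.ofFn_cons, hf0]
  obtain ⟨n₀, hn₀⟩ : ∃ x : ℝ, x = (y1 :: y2 :: u).sum + m + a := ⟨_, rfl⟩
  have hn₀' : n₀ = ((y1 + y2 - δx) :: δx :: u).sum + m + a := by
    rw [hn₀]; simp only [List.sum_cons]; ring
  have hu0 := hu.1
  have hm := hu.2.1
  have ha := hu.2.2
  have husum : 0 ≤ (y1 :: y2 :: u).sum := List.sum_nonneg hu0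
  have hn₀0 : 0 ≤ n₀ := by rw [hn₀]; linarith
  have hu' : Okl ((y1 + y2 - δx) :: δx :: u) m a := by
    refine ⟨?_, hm, ha⟩
    intro y hy
    rcases List.mem_cons.1 hy with rfl | hy
    · have := hu0 y1 (by simp); linarith
    · rcases List.mem_cons.1 hy with rfl | hy
      · exact hδ0
      · exact hu0 y (by simp [hy])
  -- the premises
  have hfam1 := famX (ε := ε) hG hF triv hε hκ (uf := uf) (m := m) (a := a) (E := E) (cl := cl)
    (by rw [hufL]; exact hu) (by rw [hufL]; exact hch)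
  have hfam2 := famX (ε := ε) hG hF triv hε hκ (uf := uf') (m := m) (a := a) (E := E) (cl := cl)
    (by rw [hufL']; exact hu') (by rw [hufL', ← hn₀', hn₀]; exact hch')
  rw [← hn₀] at hHκ hE
  obtain ⟨δh, hδh, hxK⟩ := hx (ε / 2) (by linarith)
  obtain ⟨nn, hnn⟩ : ∃ x : ℝ, x = ((n + 2 : ℕ) : ℝ) := ⟨_, rfl⟩
  have hn2 : (0 : ℝ) ≤ nn := by rw [hnn]; exact Nat.cast_nonneg _
  obtain ⟨σ, hσ0, hσb, hσ1, hσ2⟩ := exists_of_small (b := 1 / (nn + 3)) (by positivity)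
    (hfam1.and hfam2)
  have hσ4 : (nn + 3) * σ ≤ 1 := by
    rw [le_div_iff₀ (by positivity)] at hσb
    linarith
  have hσ5 : σ ≤ 1 := by nlinarith
  obtain ⟨εr, hεr⟩ : ∃ x : ℝ, x = min (σ / 2) (ε / 8) := ⟨_, rfl⟩
  have hεr0 : 0 < εr := hεr ▸ lt_min (by positivity) (by positivity)
  have hεr1 : εr ≤ σ / 2 := hεr ▸ min_le_left _ _
  have hεr2 : εr ≤ ε / 8 := hεr ▸ min_le_right _ _
  -- continuity at the parent
  obtain ⟨ρ₁, hρ₁, hHn⟩ := Metric.continuous_iff.1 hH ![κ, n₀] εr hεr0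
  obtain ⟨ρ₂, hρ₂, hAn⟩ := Metric.continuous_iff.1 hA ![κ, n₀] (ε / 8) (by linarith)
  obtain ⟨σp, hσp⟩ : ∃ x : ℝ, x = min (min (εr / 4) (δh / 3))
    (min ρ₁ ρ₂ / (2 * (nn + 2))) := ⟨_, rfl⟩
  have hσp0 : 0 < σp := hσp ▸ lt_min (lt_min (by positivity) (by positivity))
    (div_pos (lt_min hρ₁ hρ₂) (by positivity))
  have hσp1 : 4 * σp ≤ εr := by
    have : σp ≤ εr / 4 := hσp ▸ (min_le_left _ _).trans (min_le_left _ _)
    linarith
  have hσp3 : 3 * σp ≤ δh := by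
    have : σp ≤ δh / 3 := hσp ▸ (min_le_left _ _).trans (min_le_right _ _)
    linarith
  have hσp2 : (nn + 2) * σp ≤ min ρ₁ ρ₂ / 2 := by
    have h1 : σp ≤ min ρ₁ ρ₂ / (2 * (nn + 2)) := hσp ▸ min_le_right _ _
    rw [le_div_iff₀ (by positivity)] at h1
    linarith
  have hσpσ : 3 * σp ≤ σ := by linarith
  refine ⟨σp, hσp0, fun lam N B => ?_⟩
  obtain ⟨c₀, hc₀⟩ : ∃ x : ℝ, x = κ + n₀ + 3 := ⟨_, rfl⟩
  have hc₀3 : 3 ≤ c₀ := by rw [hc₀]; linarith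
  obtain ⟨B₀, hB₀, hr1⟩ := hrule lam (n + 2 + N) c₀ B (by linarith)
  obtain ⟨M, hM0, hM1, hM2⟩ := exists_of_large 0
    ((hσ1 lam N B B₀ hB₀).and (hσ2 lam N B B₀ hB₀))
  obtain ⟨C, r, J, X₁, hC, hr, hJ, hR⟩ := hr1 εr M hεr0 (by linarith) hM0
  obtain ⟨δk, hδk, Xk, hXk, hK⟩ := hxK lam N B
  obtain ⟨δ'', hδ''0, hδ''b, hδ''1, hδ''2⟩ := exists_of_small
    (b := min δk (ε / (8 * (J + 1) * (((n + 2 + N : ℕ) : ℝ) + 1)))) (lt_min hδk (by positivity))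
    ((hM1 C r hC hr).and (hM2 C r hC hr))
  have hδ''k : δ'' ≤ δk := hδ''b.trans (min_le_left _ _)
  have hδ'2 : ((n + 2 + N : ℕ) : ℝ) * δ'' * J ≤ ε / 8 := by
    have hb := hδ''b.trans (min_le_right _ _)
    rw [le_div_iff₀ (by positivity)] at hb
    have h0 : (0 : ℝ) ≤ ((n + 2 + N : ℕ) : ℝ) := Nat.cast_nonneg _
    have h2 : ((n + 2 + N : ℕ) : ℝ) * J ≤ (J + 1) * (((n + 2 + N : ℕ) : ℝ) + 1) := by nlinarith
    have h3 := mul_le_mul_of_nonneg_left h2 hδ''0.le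
    nlinarith
  have hC2 : ∀ᶠ X in (atTop : Filter ℝ), 2 * C ≤ X ^ (ε / 8) :=
    (tendsto_rpow_atTop (by linarith)).eventually_ge_atTop _
  obtain ⟨X₀, hX₀⟩ := eventually_atTop.1 ((hδ''1.and hδ''2).and
    (hC2.and (eventually_ge_atTop (max X₁ Xk))))
  refine ⟨δ'', hδ''0, max X₀ 3, lt_of_lt_of_le (by norm_num) (le_max_right _ _), ?_⟩
  intro X hX k us gs hk hnr hgran hgood
  obtain ⟨⟨hfX1, hfX2⟩, hCX, hX₁m⟩ := hX₀ X ((le_max_left _ _).trans hX)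
  have hX₁ : X₁ ≤ X := (le_max_left _ _).trans hX₁m
  have hXkX : Xk ≤ X := (le_max_right _ _).trans hX₁m
  have x5 : 3 ≤ X := (le_max_right _ _).trans hX
  have hX1 : (1 : ℝ) < X := by linarith
  have hX0 : (0 : ℝ) < X := by linarith
  have hlog : 0 < Real.log X := Real.log_pos hX1
  -- the parent
  obtain ⟨p1, p2, us', rfl, ⟨hl1, hn1⟩, ⟨hl2, hn2'⟩, hnr'⟩ := near_cons2 hnr
  have hlenus : us'.length = n := by
    have := List.Forall₂.length_eq hnr'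
    rw [this, hn]
  obtain ⟨f1, rfl⟩ := exists_eq_ofFn us' hlenus
  obtain ⟨f, hf⟩ : ∃ f : Fin (n + 2) → Pq, f = Fin.cons p1 (Fin.cons p2 f1) := ⟨_, rfl⟩
  have hfL : List.ofFn f = p1 :: p2 :: List.ofFn f1 := by
    rw [hf, List.ofFn_cons, List.ofFn_cons]
  obtain ⟨L, hL⟩ : ∃ x : ℝ, x = Real.log X := ⟨_, rfl⟩
  have hn1' : |p1.z / L - y1| ≤ σp := by rw [hL]; exact hn1
  have hn2'' : |p2.z / L - y2| ≤ σp := by rw [hL]; exact hn2'
  have hL0 : 0 < L := by rw [hL]; exact hlog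
  have hz1L : p1.z = p1.z / L * L := by field_simp
  have hz2L : p2.z = p2.z / L * L := by field_simp
  have hz1 : (y1 - σp) * L ≤ p1.z := by
    rw [hz1L]
    exact mul_le_mul_of_nonneg_right (by linarith [(abs_le.1 hn1').1]) hL0.le
  have hz2 : (y2 - σp) * L ≤ p2.z := by
    rw [hz2L]
    exact mul_le_mul_of_nonneg_right (by linarith [(abs_le.1 hn2'').1]) hL0.le
  have hg1 : ∀ q ∈ (p1 :: p2 :: List.ofFn f1) ++ gs, 0 ≤ Dq.len q := fun q hq => (hgood q hq).2.2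
  have hp10 : 0 ≤ p1.z := hg1 p1 (by simp)
  have hp20 : 0 ≤ p2.z := hg1 p2 (by simp)
  -- the new length
  obtain ⟨d0, hd0⟩ : ∃ x : ℝ, x = min (δx * L) (min p1.z p2.z) := ⟨_, rfl⟩
  have hd00 : 0 ≤ d0 := hd0 ▸ le_min (by positivity) (le_min hp10 hp20)
  have hd01 : d0 ≤ p1.z := hd0 ▸ (min_le_right _ _).trans (min_le_left _ _)
  have hd02 : d0 ≤ p2.z := hd0 ▸ (min_le_right _ _).trans (min_le_right _ _)
  have hd03 : d0 ≤ δx * L := hd0 ▸ min_le_left _ _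
  have hσL : 0 ≤ σp * L := by positivity
  have hd04 : (δx - σp) * L ≤ d0 := by
    rw [hd0]
    refine le_min (by nlinarith) (le_min ?_ ?_)
    · refine le_trans ?_ hz1
      exact mul_le_mul_of_nonneg_right (by linarith) hL0.le
    · refine le_trans ?_ hz2
      exact mul_le_mul_of_nonneg_right (by linarith) hL0.le
  have hd0L : d0 = d0 / L * L := by field_simp
  have hd05 : |d0 / L - δx| ≤ σp := by
    rw [abs_le]
    constructor
    · have : δx - σp ≤ d0 / L := by rw [le_div_iff₀ hL0]; exact hd04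
      linarith
    · have : d0 / L ≤ δx := by rw [div_le_iff₀ hL0]; exact hd03
      linarith
  obtain ⟨q1, hq1⟩ : ∃ q : Pq, q = { p1 with z := p1.z + (p2.z - d0) } := ⟨_, rfl⟩
  obtain ⟨q2, hq2⟩ : ∃ q : Pq, q = { p2 with z := d0 } := ⟨_, rfl⟩
  obtain ⟨f', hf'⟩ : ∃ f : Fin (n + 2) → Pq, f = Fin.cons q1 (Fin.cons q2 f1) := ⟨_, rfl⟩
  have hfL' : List.ofFn f' = q1 :: q2 :: List.ofFn f1 := by
    rw [hf', List.ofFn_cons, List.ofFn_cons]
  have hrpl : rpl d0 ((p1 :: p2 :: List.ofFn f1) ++ gs) = (q1 :: q2 :: List.ofFn f1) ++ gs := by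
    rw [List.cons_append, List.cons_append, rpl_cons, hq1, hq2]
    rfl
  have hq1n : |Dq.nl X q1 - (y1 + y2 - δx)| ≤ 3 * σp := by
    show |q1.z / Real.log X - (y1 + y2 - δx)| ≤ 3 * σp
    rw [hq1, ← hL]
    show |(p1.z + (p2.z - d0)) / L - (y1 + y2 - δx)| ≤ 3 * σp
    have e : (p1.z + (p2.z - d0)) / L - (y1 + y2 - δx) =
        (p1.z / L - y1) + (p2.z / L - y2) - (d0 / L - δx) := by field_simp; ring
    rw [e]
    have a1 := abs_le.1 hn1'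
    have a2 := abs_le.1 hn2''
    have a3 := abs_le.1 hd05
    rw [abs_le]
    constructor <;> linarith
  have hq2n : |Dq.nl X q2 - δx| ≤ σp := by
    show |q2.z / Real.log X - δx| ≤ σp
    rw [hq2, ← hL]
    exact hd05
  have hlq1 : Dq.lump q1 := by rw [hq1]; exact hl1
  have hlq2 : Dq.lump q2 := by rw [hq2]; exact hl2
  unfold Pcs.Near at hnr'
  rw [hf0, forall₂_ofFn_iff] at hnr'
  obtain ⟨k₁, hk₁⟩ : ∃ x : ℝ, x = max k 0 * Real.log X := ⟨_, rfl⟩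
  have hk₁0 : 0 ≤ k₁ := by rw [hk₁]; exact mul_nonneg (le_max_right _ _) hlog.le
  have hkk : k * Real.log X ≤ k₁ := by
    rw [hk₁]; exact mul_le_mul_of_nonneg_right (le_max_left _ _) hlog.le
  have hk₁l : k₁ / Real.log X = max k 0 := by rw [hk₁, mul_div_cancel_right₀ _ hlog.ne']
  have hmaxk : |max k 0 - κ| ≤ σp := by
    rw [abs_le] at hk ⊢
    constructor
    · linarith [hk.1, le_max_left k 0]
    · have := max_le (show k ≤ κ + σp by linarith [hk.2]) (show 0 ≤ κ + σp by linarith)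
      linarith
  have hfn : ∀ i, Dq.lump (f i) ∧ |Dq.nl X (f i) - uf i| ≤ σp := by
    intro i
    rw [hf, huf]
    refine Fin.cases ⟨hl1, hn1⟩ (fun j => ?_) i
    refine Fin.cases ⟨hl2, hn2'⟩ (fun j' => ?_) j
    exact hnr' j'
  have hfn' : ∀ i, Dq.lump (f' i) ∧ |Dq.nl X (f' i) - uf' i| ≤ 3 * σp := by
    intro i
    rw [hf', huf']
    refine Fin.cases ⟨hlq1, hq1n⟩ (fun j => ?_) i
    refine Fin.cases ⟨hlq2, hq2n.trans (by linarith)⟩ (fun j' => ?_) j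
    exact ⟨(hnr' j').1, (hnr' j').2.trans (by linarith)⟩
  obtain ⟨p, hp⟩ : ∃ v : Unit ⊕ Fin (n + 2) ⊕ Kd → ℝ, v = vec κ uf (wt m a) := ⟨_, rfl⟩
  obtain ⟨p', hp'⟩ : ∃ v : Unit ⊕ Fin (n + 2) ⊕ Kd → ℝ, v = vec κ uf' (wt m a) := ⟨_, rfl⟩
  have hq : ∀ i, |evv Dq X k₁ f gs i - p i| ≤ σp := by
    rw [hp]
    rintro (⟨⟩ | i | t)
    · show |k₁ / Real.log X - κ| ≤ σp
      rw [hk₁l]; exact hmaxk
    · exact (hfn i).2
    · exact hgran.2.2 t
  have hq' : ∀ i, |evv Dq X k₁ f' gs i - p' i| ≤ σ := by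
    rw [hp']
    rintro (⟨⟩ | i | t)
    · show |k₁ / Real.log X - κ| ≤ σ
      rw [hk₁l]; exact hmaxk.trans (by linarith)
    · exact (hfn' i).2.trans hσpσ
    · exact (hgran.2.2 t).trans (by linarith)
  have hsp : smv p = n₀ := by
    rw [hp, smv_vec, ← List.sum_ofFn, hufL, hn₀]
    show _ + (m + a) = _
    ring
  have hsm : |smv (evv Dq X k₁ f gs) - n₀| ≤ (nn + 2) * σp := by
    have h3 := abs_smv_sub (q := evv Dq X k₁ f gs) (q' := p) hq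
    rw [hsp] at h3
    rw [hnn]; exact h3
  have hsm1 := (abs_le.1 hsm).2
  have hnσ : (nn + 2) * σp ≤ (nn + 2) * σ := mul_le_mul_of_nonneg_left (by linarith) (by positivity)
  have hLL : LL Dq ((p1 :: p2 :: List.ofFn f1) ++ gs) / Real.log X ≤ n₀ + (nn + 2) * σ := by
    rw [← hfL, ← smv_evv]; linarith
  have hLLi : ∀ q ∈ (p1 :: p2 :: List.ofFn f1) ++ gs,
      Dq.len q ≤ LL Dq ((p1 :: p2 :: List.ofFn f1) ++ gs) := by
    intro q hq
    unfold LL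
    exact List.single_le_sum (fun x hx => by
      obtain ⟨y, hy, rfl⟩ := List.mem_map.1 hx
      exact hg1 y hy) _ (List.mem_map.2 ⟨q, hq, rfl⟩)
  have hLLc : LL Dq ((p1 :: p2 :: List.ofFn f1) ++ gs) ≤ c₀ * Real.log X := by
    rw [div_le_iff₀ hlog] at hLL
    refine hLL.trans (mul_le_mul_of_nonneg_right ?_ hlog.le)
    rw [hc₀]
    nlinarith
  have hcnt : ((p1 :: p2 :: List.ofFn f1) ++ gs).length ≤ n + 2 + N := by
    rw [List.length_append, ← hfL, List.length_ofFn]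
    exact Nat.add_le_add_left hgran.1 _
  have hσ2p : σp ≤ (nn + 2) * σp := by nlinarith
  -- the parent is near
  obtain ⟨w, hw⟩ : ∃ w : Fin 2 → ℝ, w = ![k₁ / Real.log X,
    LL Dq ((p1 :: p2 :: List.ofFn f1) ++ gs) / Real.log X] := ⟨_, rfl⟩
  have hdw : dist w ![κ, n₀] ≤ min ρ₁ ρ₂ / 2 := by
    refine le_trans ?_ hσp2
    rw [dist_pi_le_iff (by positivity)]
    intro i
    rw [hw, Real.dist_eq]
    fin_cases i
    · show |k₁ / Real.log X - κ| ≤ _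
      rw [hk₁l]
      exact hmaxk.trans hσ2p
    · show |LL Dq ((p1 :: p2 :: List.ofFn f1) ++ gs) / Real.log X - n₀| ≤ _
      rw [← hfL, ← smv_evv]
      exact hsm
  have hmin0 : 0 < min ρ₁ ρ₂ := lt_min hρ₁ hρ₂
  have hHw : H w ≤ εr := by
    have h1 := hHn w (lt_of_le_of_lt hdw (by linarith [min_le_left ρ₁ ρ₂]))
    rw [Real.dist_eq] at h1
    linarith [(abs_lt.1 h1).2]
  have hAw : A w ≤ E + ε / 8 := by
    have h1 := hAn w (lt_of_le_of_lt hdw (by linarith [min_le_right ρ₁ ρ₂]))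
    rw [Real.dist_eq] at h1
    linarith [(abs_lt.1 h1).2]
  rw [hw] at hHw hAw
  -- the replaced list
  have hgood' : Dq.Good X δ'' B ((q1 :: q2 :: List.ofFn f1) ++ gs) := by
    have e1 := hgood p1 (by simp)
    have e2 := hgood p2 (by simp)
    intro q hq
    rw [List.cons_append, List.cons_append] at hq
    rcases List.mem_cons.1 hq with rfl | hq
    · refine ⟨?_, ?_, ?_⟩
      · rw [hq1]; exact e1.1
      · rw [hq1]; exact e1.2.1
      · rw [hq1]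
        show 0 ≤ p1.z + (p2.z - d0)
        linarith
    · rcases List.mem_cons.1 hq with rfl | hq
      · refine ⟨?_, ?_, ?_⟩
        · rw [hq2]; exact e2.1
        · rw [hq2]; exact e2.2.1
        · rw [hq2]; exact hd00
      · exact hgood q (by
          rw [List.cons_append, List.cons_append]
          exact List.mem_cons_of_mem _ (List.mem_cons_of_mem _ hq))
  have hΨx : Ψ lam k₁ (rpl d0 ((p1 :: p2 :: List.ofFn f1) ++ gs)) ≤ X ^ (E + ε / 2) := by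
    rw [hrpl, hk₁]
    refine hK X hXkX (max k 0) (q1 :: q2 :: List.ofFn f1) gs (hmaxk.trans (by linarith)) ?_
      (XG702.Gran_mono hgran (by linarith) le_rfl)
      (XG702.Good_mono hX1.le hgood' hδ''k)
    rw [← hfL', ← hufL']
    unfold Pcs.Near
    rw [forall₂_ofFn_iff]
    exact fun i => ⟨(hfn' i).1, (hfn' i).2.trans hσp3⟩
  have hslack : εr ≤ σ := by linarith
  have hfinal := hR X x5 hX₁ k₁ p1 p2 (List.ofFn f1 ++ gs) hk₁0 (by
      rw [hk₁]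
      refine mul_le_mul_of_nonneg_right ?_ hlog.le
      rw [hc₀]
      linarith [(abs_le.1 hmaxk).2]) hcnt hl1 hl2
      (fun q hq => ⟨hg1 q hq, (hLLi q hq).trans hLLc⟩)
      (fun q hq => (hgood q hq).2.1) d0 hd00 hd01 hd02 (by
        have h1 : σp * L ≤ εr / 4 * L := mul_le_mul_of_nonneg_right (by linarith) hL0.le
        rw [← hL]
        linarith)
      hHw (X ^ (E + ε / 2)) (Real.rpow_nonneg hX0.le _)
      (fun l ps' hl hlcl hps' hG => by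
        have h4 := hfX1 k₁ f gs hk₁0 (fun i => by
            have := hq i
            rw [hp] at this
            exact this.trans (by linarith))
          (fun i => (hfn i).1) hgran.1 (fun g hg => (hgran.2.1 g hg).trans (by linarith))
          (by rw [hfL]; exact hgood) () l ps' hl hlcl (by rw [hfL]; exact hps')
          (by rw [hfL]; exact hG.trans hslack) (fun hf => hf.elim)
        rw [hfL] at h4
        exact h4)
      (fun l ps' hl hlcl hps' hG => by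
        have hrp : rpl d0 (p1 :: p2 :: (List.ofFn f1 ++ gs)) = List.ofFn f' ++ gs := by
          rw [hfL']; exact hrpl
        rw [hrp] at hps' ⊢
        have hLLe : LL Dq (p1 :: p2 :: (List.ofFn f1 ++ gs)) = LL Dq (List.ofFn f' ++ gs) := by
          rw [← hrp, LL_rpl]
        have hxv : xv Dq X k₁ (p1 :: p2 :: (List.ofFn f1 ++ gs)) l ps' =
            xv Dq X k₁ (List.ofFn f' ++ gs) l ps' := by
          unfold xv; rw [hLLe]
        rw [hxv] at hG ⊢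
        exact hfX2 k₁ f' gs hk₁0 (fun i => by
            have := hq' i
            rw [hp'] at this
            exact this)
          (fun i => (hfn' i).1) hgran.1 (fun g hg => (hgran.2.1 g hg).trans (by linarith))
          (by rw [hfL']; exact hgood') () l ps' hl hlcl hps'
          (hG.trans hslack) (fun hf => hf.elim)) hΨx
  refine (hmono lam _ _ _ hkk).trans ?_
  have e1 : X ^ A ![k₁ / Real.log X, LL Dq (p1 :: p2 :: (List.ofFn f1 ++ gs)) / Real.log X] =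
      Real.exp (A ![k₁ / Real.log X, LL Dq (p1 :: p2 :: (List.ofFn f1 ++ gs)) / Real.log X] *
        Real.log X) := by
    rw [Real.rpow_def_of_pos hX0, mul_comm]
  rw [e1] at hfinal
  refine final_countm (Nr := ((n + 2 + N : ℕ) : ℝ)) hX1 hε hC hJ
    (one_le_prod_s1 hs1 _) ?_ hεr2 hδ'2
    (prod_s1_le hs1 hX1.le hδ''0.le _ (fun q hq => (hgood q hq).1) hcnt) hCX hfinal
  rw [mul_div_cancel_right₀ _ hlog.ne']
  exact hAw

end Crest.Agent.R017.XF320
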