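import Crest.Agent.R017.FYpv_61
import Crest.Agent.R017.TPF1_939
import Crest.Agent.R017.Sup_271

/-!
# Row 17, provider, rule `flip` (helper571), part 1: two pointwise lemmas

* `unit_le` : a smooth sum of bounded length with finitely many heights controls `1`
* `FEk`     : pointwise functional equation for a cube-free nonprincipal member
-/

set_option autoImplicit false

noncomputable section

open Complex MeasureTheory Filter Topology
open scoped ContDiff ComplexConjugate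

namespace Crest.Agent.R017.XFl571

open Crest.Agent.R012 Crest.Agent.R012.Eis Crest.Agent.R012.LS2 Crest.Agent.R012.Gauss880
open Crest.Agent.R012.Weight600 (osc norm_osc)
open Crest.Agent.R012.PSer47
open Crest.Agent.R017.End699 Crest.Agent.R017.FE47 Crest.Agent.R017.Two939

/-! ### the unit lemma -/

lemma osc_sum {ι : Type*} (s : Finset ι) (f : ι → ℝ) (x : ℝ) :
    osc (∑ i ∈ s, f i) x = ∏ i ∈ s, osc (f i) x := by
  unfold osc
  rw [← Complex.exp_sum]
  congr 1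
  rw [Finset.sum_mul]
  push_cast
  rw [Finset.sum_mul]

lemma osc_pi {m : ℕ} (hm : 2 ≤ m) : osc (Real.pi / Real.log m) (Real.log m) = -1 := by
  have h1 : Real.log m ≠ 0 := by
    have : 0 < Real.log m := Real.log_pos (by exact_mod_cast (by omega : 1 < m))
    exact this.ne'
  unfold osc
  rw [div_mul_cancel₀ _ h1, Complex.exp_pi_mul_I]

lemma eq_one_of_nm {b : Eis} (hb : IsPrim b) (h : nm b = 1) : b = 1 := by
  have hu : IsUnit b := isUnit_iff.2 h
  exact hb.eq_of_associated isPrim_one (associated_one_iff_isUnit.mpr hu)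

/-- **a smooth sum of bounded length controls `1`** -/
theorem unit_le {h : ℝ → ℝ} {c : ℝ} (hpu : PU h c) : ∃ (zs : ℝ) (s : Finset (Finset ℕ))
    (ts : Finset ℕ → ℝ) (C : ℝ), 0 ≤ zs ∧ 0 ≤ C ∧ ∀ Ξ : Eis → ℂ, Ξ 1 = 1 →
      1 ≤ C * ∑ S ∈ s, ‖PS (cx h) Ξ zs (ts S)‖ ^ 2 := by
  classical
  have h0 := hpu.one 0 le_rfl
  obtain ⟨n, hn⟩ : ∃ n : ℕ, h (0 - c * n) ≠ 0 := by
    by_contra hcon
    push Not at hcon
    rw [tsum_congr hcon, tsum_zero] at h0
    exact zero_ne_one h0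
  obtain ⟨R, hR0, hR⟩ := exists_R (cs_cx hpu.cs)
  set zs : ℝ := c * n with hzs
  have hzs0 : 0 ≤ zs := mul_nonneg hpu.cpos.le (Nat.cast_nonneg _)
  set N : ℕ := ⌊Real.exp (zs + R)⌋₊ with hN
  have hN1 : Real.exp (zs + R) < N + 1 := Nat.lt_floor_add_one _
  set I : Finset ℕ := Finset.Icc 2 N with hI
  set s : Finset (Finset ℕ) := I.powerset with hs
  set ts : Finset ℕ → ℝ := fun S => ∑ m ∈ S, Real.pi / Real.log m with hts
  set a : ℝ := h (0 - c * n) with ha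
  have hN1' : 1 ≤ N := by
    rw [hN]
    refine Nat.le_floor ?_
    push_cast
    exact Real.one_le_exp (by linarith)
  -- the key identity
  have key : ∀ Ξ : Eis → ℂ, Ξ 1 = 1 →
      ∑ S ∈ s, PS (cx h) Ξ zs (ts S) = (2 : ℂ) ^ I.card * (a : ℂ) := by
    intro Ξ hΞ
    have e1 : ∀ S ∈ s, PS (cx h) Ξ zs (ts S) = ∑ b ∈ primBall N, Ξ b *
        (osc (ts S) (Real.log (nm b)) * cx h (Real.log (nm b) - zs)) := fun S _ =>
      PS_eq_sum hR Ξ zs (ts S) hN1
    rw [Finset.sum_congr rfl e1, Finset.sum_comm]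
    have e2 : ∀ b ∈ primBall N, ∑ S ∈ s, Ξ b *
        (osc (ts S) (Real.log (nm b)) * cx h (Real.log (nm b) - zs)) =
        if b = 1 then (2 : ℂ) ^ I.card * (a : ℂ) else 0 := by
      intro b hb
      rw [mem_primBall] at hb
      have e3 : ∑ S ∈ s, Ξ b * (osc (ts S) (Real.log (nm b)) * cx h (Real.log (nm b) - zs)) =
          Ξ b * cx h (Real.log (nm b) - zs) *
            ∏ m ∈ I, (1 + osc (Real.pi / Real.log m) (Real.log (nm b))) := by
        rw [Finset.prod_one_add, Finset.mul_sum]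
        refine Finset.sum_congr rfl fun S _ => ?_
        rw [hts]
        dsimp only
        rw [osc_sum]
        ring
      rw [e3]
      by_cases h1 : b = 1
      · subst h1
        rw [if_pos rfl, hΞ]
        have e4 : (nm (1 : Eis) : ℕ) = 1 := by simp
        have e5 : Real.log ((nm (1 : Eis) : ℕ) : ℝ) = 0 := by rw [e4]; simp
        rw [e5]
        have e6 : ∀ m ∈ I, (1 + osc (Real.pi / Real.log m) 0 : ℂ) = 2 := by
          intro m _
          unfold osc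
          rw [mul_zero]
          simp
          norm_num
        rw [Finset.prod_congr rfl e6, Finset.prod_const]
        unfold cx
        rw [ha]
        ring
      · rw [if_neg h1]
        have h2 : nm b ≠ 1 := fun h => h1 (eq_one_of_nm hb.2 h)
        have h3 : 0 < nm b := nm_pos.mpr hb.2.ne_zero
        have h4 : nm b ∈ I := by
          rw [hI, Finset.mem_Icc]
          exact ⟨by omega, hb.1⟩
        rw [Finset.prod_eq_zero h4, mul_zero]
        rw [osc_pi (by omega)]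
        ring
    rw [Finset.sum_congr rfl e2, Finset.sum_ite_eq' (primBall N) 1, if_pos]
    rw [mem_primBall]
    exact ⟨by simpa using hN1', isPrim_one⟩
  have ha2 : 0 < a ^ 2 := by positivity
  have h4 : (0 : ℝ) < ((2 : ℝ) ^ I.card) ^ 2 := by positivity
  refine ⟨zs, s, ts, s.card / (((2 : ℝ) ^ I.card) ^ 2 * a ^ 2), hzs0, by positivity,
    fun Ξ hΞ => ?_⟩
  have h5 : ‖∑ S ∈ s, PS (cx h) Ξ zs (ts S)‖ ^ 2 ≤ s.card * ∑ S ∈ s, ‖PS (cx h) Ξ zs (ts S)‖ ^ 2 := by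
    calc ‖∑ S ∈ s, PS (cx h) Ξ zs (ts S)‖ ^ 2 ≤ (∑ S ∈ s, ‖PS (cx h) Ξ zs (ts S)‖) ^ 2 := by
          gcongr
          exact norm_sum_le _ _
      _ ≤ _ := sq_sum_le_card_mul_sum_sq
  rw [key Ξ hΞ, norm_mul, norm_pow, Complex.norm_real, mul_pow] at h5
  have e7 : ‖(2 : ℂ)‖ = 2 := by norm_num
  rw [e7, Real.norm_eq_abs, sq_abs] at h5
  rw [div_mul_eq_mul_div, one_le_div (by positivity)]
  exact h5

/-! ### the functional equation of a member -/

/-- a cube-free element has no cubic part -/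
lemma dec_cubefree {M : Eis} (h3 : (3 : Eis) ∣ M) {k : Eis} (hk : k ≠ 0)
    (hcf : ∀ p : Eis, Prime p → ¬ p ^ 3 ∣ k) :
    ∃ e ∈ SM M, ∃ k1 k2 : Eis, IsPrim k1 ∧ IsPrim k2 ∧ Squarefree k1 ∧ Squarefree k2 ∧
      IsCoprime k1 k2 ∧ IsCoprime (k1 * k2) M ∧ k = e * k1 * k2 ^ 2 := by
  obtain ⟨e, he, k1, k2, m, p1, p2, hm, s1, s2, hcop, hM, -, hk'⟩ := exists_dec h3 hk
  have hm1 : m = 1 := by
    by_contra hne
    have hnu : ¬ IsUnit m := fun hu => hne
      (hm.eq_of_associated isPrim_one (associated_one_iff_isUnit.mpr hu))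
    obtain ⟨p, hp, hpm⟩ := WfDvdMonoid.exists_irreducible_factor hnu hm.ne_zero
    refine hcf p hp.prime ?_
    rw [hk']
    exact (pow_dvd_pow_of_dvd hpm 3).trans (dvd_mul_left _ _)
  refine ⟨e, he, k1, k2, p1, p2, s1, s2, hcop, hM, ?_⟩
  rw [hk', hm1]; ring

lemma one_le_nm_of {a : Eis} (ha : a ≠ 0) : (1 : ℝ) ≤ nm a := by
  have := nm_pos.mpr ha
  exact_mod_cast this

/-- **pointwise functional equation of a cube-free member** -/
theorem FEk {h : ℝ → ℝ} {c : ℝ} (hpu : PU h c) {M : Eis} {χ : Eis → ℂ} (hχ : HC M χ) (l : ℤ)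
    {A K : ℕ} (hA : 2 ≤ A) (hK : 2 ≤ K) {ε : ℝ} (hε : 0 < ε) (hε1 : ε < 1) :
    ∃ (C : ℝ) (J : ℕ), 0 ≤ C ∧ ∀ k : Eis, k ≠ 0 → (∀ p : Eis, Prime p → ¬ p ^ 3 ∣ k) →
      Sup271.NPm M χ l k →
      (∀ κ t : ℝ, ‖PS (cx h) (XK χ (sy k) l) κ t‖ ^ 2 ≤ C * (1 + |t|) ^ J) ∨
      ∃ Q : ℝ, 1 ≤ Q ∧ Q ≤ nm k ∧ ∀ κ t : ℝ,
        ‖PS (cx h) (XK χ (sy k) l) κ t‖ ^ 2 ≤ C * (1 + |t|) ^ J *
          (Real.exp (2 * κ) / Q * (Q / Real.exp κ) ^ ε) *
          ∑' n : ℕ, wz ε A (Real.exp (c * n + κ) / Q) * TN2 h (XK χ (sy k) l) K (c * n) := by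
  obtain ⟨C1, J1, hC1, hF⟩ := FE_sq (cd_cx hpu.cd) (cs_cx hpu.cs) l hpu (A := A) (K := K)
    hA hK hε hε1
  obtain ⟨C2, hC2, hfix⟩ := PSfix (cd_cx hpu.cd) (cs_cx hpu.cs) l
  have hcM := cM_nonneg A ε (9 * M)
  refine ⟨(C2 * (nm (9 * M) : ℝ) ^ 2) ^ 2 + C1 * cM A ε (9 * M) ^ 2, 8 + J1, by positivity, ?_⟩
  intro k hk hcf hnp
  obtain ⟨e, he, k1, k2, p1, p2, s1, s2, hcop, hM, hk'⟩ := dec_cubefree hχ.three hk hcf
  have hχ' := hc_SM hχ he
  have hPS : ∀ κ t : ℝ, PS (cx h) (XK χ (sy k) l) κ t =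
      PS (cx h) (XK (fun b => χ b * sy e b) (kap k1 k2) l) κ t := by
    intro κ t
    refine PS_congr (fun b hb => ?_) _ _
    unfold XK
    rw [hk']
    have e1 : sy (e * k1 * k2 ^ 2) b = sy e b * kap k1 k2 b := by
      rw [kap_eq_sy p1 p2 hb, mul_assoc, Char766.sy_mul_left hb]
    rw [e1]
    ring
  by_cases h1 : k1 * k2 = 1
  · left
    intro κ t
    have ht : 1 ≤ 1 + |t| := by linarith [abs_nonneg t]
    have hk1 : k1 = 1 := by
      have hu : IsUnit k1 := IsUnit.of_mul_eq_one _ h1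
      exact p1.eq_of_associated isPrim_one (associated_one_iff_isUnit.mpr hu)
    have hk2 : k2 = 1 := by rw [hk1, one_mul] at h1; exact h1
    have hke : k = e := by rw [hk', hk1, hk2]; ring
    have hnp' : NP (9 * M) (fun b => χ b * sy e b) l := by
      rcases hnp with h | ⟨b, hb, hbc, hne⟩
      · exact Or.inl h
      · refine Or.inr ⟨b, hb, ?_, ?_⟩
        · refine hbc.of_isCoprime_of_dvd_right ?_
          exact ⟨k, by ring⟩
        · rw [← hke]; exact hne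
    have e0 : PS (cx h) (XK (fun b => χ b * sy e b) (kap k1 k2) l) κ t =
        PS (cx h) (XK (fun b => χ b * sy e b) (fun _ => 1) l) κ t := by
      refine PS_congr (fun b _ => ?_) _ _
      rw [hk1, hk2]
      unfold XK
      rw [kap_one_one]
    have h2 := hfix (9 * M) _ hχ' hnp' κ t
    rw [hPS, e0]
    calc ‖PS (cx h) (XK (fun b => χ b * sy e b) (fun _ => 1) l) κ t‖ ^ 2
        ≤ (C2 * (1 + |t|) ^ 4 * (nm (9 * M) : ℝ) ^ 2) ^ 2 := by gcongr
      _ = (C2 * (nm (9 * M) : ℝ) ^ 2) ^ 2 * (1 + |t|) ^ 8 := by ring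
      _ ≤ ((C2 * (nm (9 * M) : ℝ) ^ 2) ^ 2 + C1 * cM A ε (9 * M) ^ 2) * (1 + |t|) ^ (8 + J1) := by
          have h3 : (1 + |t|) ^ 8 ≤ (1 + |t|) ^ (8 + J1) := pow_le_pow_right₀ ht (by omega)
          have h4 : 0 ≤ C1 * cM A ε (9 * M) ^ 2 := by positivity
          gcongr
          linarith
  · right
    have hM' : IsCoprime (k1 * k2) (9 * M) := (isCoprime_nine_mul' (p1.mul p2)).mpr hM
    have hmem : Mem (9 * M) (fun b => χ b * sy e b) (k1 * k2) (kap k1 k2) :=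
      mem_kap hχ' p1 p2 s1 s2 hcop hM' h1
    have hQ1 : (1 : ℝ) ≤ nm (k1 * k2) := one_le_nm_of (mul_ne_zero p1.ne_zero p2.ne_zero)
    have hQ : (0 : ℝ) < nm (k1 * k2) := by linarith
    have hQk : (nm (k1 * k2) : ℝ) ≤ nm k := by
      have he1 := one_le_nm_of he.1
      have hk21 := one_le_nm_of p2.ne_zero
      have hk11 := one_le_nm_of p1.ne_zero
      have e2 : (nm k : ℝ) = nm e * nm (k1 * k2) * nm k2 := by
        rw [hk']
        have : e * k1 * k2 ^ 2 = e * (k1 * k2) * k2 := by ring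
        rw [this]
        push_cast [nm_mul]
        ring
      rw [e2]
      calc (nm (k1 * k2) : ℝ) = 1 * nm (k1 * k2) * 1 := by ring
        _ ≤ nm e * nm (k1 * k2) * nm k2 := by gcongr
    refine ⟨nm (k1 * k2), hQ1, hQk, fun κ t => ?_⟩
    have ht : 1 ≤ 1 + |t| := by linarith [abs_nonneg t]
    have h2 := hF (9 * M) _ (k1 * k2) (kap k1 k2) hmem (nm (k1 * k2)) 1 hQ (by rw [one_mul])
      le_rfl κ t
    have hTN : ∀ n : ℕ, TN2 h (XK (fun b => χ b * sy e b) (kap k1 k2) l) K (c * n) =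
        TN2 h (XK χ (sy k) l) K (c * n) := by
      intro n
      unfold TN2
      congr 1
      funext t'
      rw [hPS]
    simp only [hTN] at h2
    rw [← hPS] at h2
    set T := ∑' n : ℕ, wz ε A (Real.exp (c * n + κ) / (nm (k1 * k2) : ℝ)) *
      TN2 h (XK χ (sy k) l) K (c * n) with hT
    have hT0 : 0 ≤ T := tsum_nonneg fun n => mul_nonneg (wz_nonneg (by positivity))
      (TN2_nonneg _ _ _ _)
    calc ‖PS (cx h) (XK χ (sy k) l) κ t‖ ^ 2
        ≤ C1 * (1 + |t|) ^ J1 * cM A ε (9 * M) ^ 2 *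
          (1 * Real.exp (2 * κ) / nm (k1 * k2) * (nm (k1 * k2) / Real.exp κ) ^ ε) * T := h2
      _ = (C1 * cM A ε (9 * M) ^ 2) * (1 + |t|) ^ J1 *
          (Real.exp (2 * κ) / nm (k1 * k2) * (nm (k1 * k2) / Real.exp κ) ^ ε) * T := by ring
      _ ≤ ((C2 * (nm (9 * M) : ℝ) ^ 2) ^ 2 + C1 * cM A ε (9 * M) ^ 2) * (1 + |t|) ^ (8 + J1) *
          (Real.exp (2 * κ) / nm (k1 * k2) * (nm (k1 * k2) / Real.exp κ) ^ ε) * T := by
          have h3 : (1 + |t|) ^ J1 ≤ (1 + |t|) ^ (8 + J1) := pow_le_pow_right₀ ht (by omega)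
          have h4 : 0 ≤ (C2 * (nm (9 * M) : ℝ) ^ 2) ^ 2 := by positivity
          gcongr
          linarith

end Crest.Agent.R017.XFl571
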