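import Crest.Agent.R017.XFl1_571

/-!
# Row 17, provider, rule `flip` (helper571), part 2: the analytic rule

* `SB`      : `Σ_k B_k |P_k(κ, t)|²`
* `ChF`     : the children
* `rule1`   : the rule for the member sums
* `rule`    : the rule with a coprimality condition
-/

set_option autoImplicit false

noncomputable section

open Complex MeasureTheory Filter Topology
open scoped ContDiff ComplexConjugate

namespace Crest.Agent.R017.XFl571

open Crest.Agent.R012 Crest.Agent.R012.Eis Crest.Agent.R012.LS2 Crest.Agent.R012.Gauss880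
open Crest.Agent.R012.Weight600 (osc norm_osc)
open Crest.Agent.R012.PSer47 Crest.Agent.R012.Div277
open Crest.Agent.R017.End699 Crest.Agent.R017.FE47 Crest.Agent.R017.Two939

/-- `Σ_k B_k |P_k(κ, t)|²` -/
def SB (h : ℝ → ℝ) (χ : Eis → ℂ) (l : ℤ) (S : Finset Eis) (B : Eis → ℝ) (κ t : ℝ) : ℝ :=
  ∑ k ∈ S, B k * ‖PS (cx h) (XK χ (sy k) l) κ t‖ ^ 2

lemma SB_nonneg {h : ℝ → ℝ} {χ : Eis → ℂ} {l : ℤ} {S : Finset Eis} {B : Eis → ℝ}
    (hB : ∀ k ∈ S, 0 ≤ B k) (κ t : ℝ) : 0 ≤ SB h χ l S B κ t :=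
  Finset.sum_nonneg fun k hk => mul_nonneg (hB k hk) (sq_nonneg _)

/-- the class of the members -/
structure Cl (M : Eis) (χ : Eis → ℂ) (l : ℤ) (L : ℝ) (k : Eis) : Prop where
  ne : k ≠ 0
  cf : ∀ p : Eis, Prime p → ¬ p ^ 3 ∣ k
  np : Sup271.NPm M χ l k
  le : (nm k : ℝ) ≤ Real.exp L

/-! ### the kernel -/

lemma W_le {ε : ℝ} (hε : 0 < ε) (hε1 : ε ≤ 1 / 2) {A : ℕ} (hA : 1 ≤ A) {κ x L Q : ℝ}
    (hQ : 0 < Q) (hQL : Q ≤ Real.exp L) :
    Real.exp (2 * κ) / Q * (Q / Real.exp κ) ^ ε * wz ε A (Real.exp (x + κ) / Q) ≤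
      Real.exp (κ - x + ε * x) * Real.exp (-(((A : ℝ) - 1) * max 0 (x + κ - L))) := by
  obtain ⟨q, rfl⟩ : ∃ q, Q = Real.exp q := ⟨Real.log Q, (Real.exp_log hQ).symm⟩
  have hqL : q ≤ L := Real.exp_le_exp.1 hQL
  set v := x + κ - q with hv
  set m := max 0 (x + κ - L) with hm
  have hm0 : 0 ≤ m := le_max_left _ _
  have hmv : m ≤ max 0 v := max_le_max le_rfl (by linarith)
  have hA1 : (1 : ℝ) ≤ A := by exact_mod_cast hA
  have e1 : Real.exp (x + κ) / Real.exp q = Real.exp v := by rw [← Real.exp_sub]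
  have e2 : (Real.exp q / Real.exp κ) ^ ε = Real.exp (ε * (q - κ)) := by
    rw [← Real.exp_sub, ← Real.exp_mul]; ring_nf
  have e3 : Real.exp (2 * κ) / Real.exp q = Real.exp (2 * κ - q) := by rw [← Real.exp_sub]
  have e4 : (Real.exp v) ^ (-ε) = Real.exp (-(ε * v)) := by rw [← Real.exp_mul]; ring_nf
  unfold wz
  rw [e1, e2, e3, e4]
  have key : Real.exp ((1 - 2 * ε) * v) * ((1 + Real.exp v) ^ A)⁻¹ ≤
      Real.exp (-(((A : ℝ) - 1) * m)) := by
    rw [Real.exp_neg, ← div_eq_mul_inv, div_le_iff₀ (by positivity), ← div_eq_inv_mul,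
      le_div_iff₀ (Real.exp_pos _), ← Real.exp_add]
    rcases le_or_gt v 0 with hv0 | hv0
    · have hm1 : m = 0 := le_antisymm (hmv.trans (max_le le_rfl hv0)) hm0
      rw [hm1, mul_zero, add_zero]
      have h1 : Real.exp ((1 - 2 * ε) * v) ≤ 1 :=
        Real.exp_le_one_iff.2 (mul_nonpos_of_nonneg_of_nonpos (by linarith) hv0)
      refine h1.trans (one_le_pow₀ ?_)
      linarith [Real.exp_pos v]
    · have hm1 : m ≤ v := hmv.trans (max_le hv0.le le_rfl)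
      have h1 : (1 - 2 * ε) * v + ((A : ℝ) - 1) * m ≤ (A : ℝ) * v := by
        have h2 : ((A : ℝ) - 1) * m ≤ ((A : ℝ) - 1) * v :=
          mul_le_mul_of_nonneg_left hm1 (by linarith)
        nlinarith [mul_pos hε hv0]
      calc Real.exp ((1 - 2 * ε) * v + ((A : ℝ) - 1) * m) ≤ Real.exp ((A : ℝ) * v) :=
            Real.exp_le_exp.2 h1
        _ = Real.exp v ^ A := by rw [Real.exp_nat_mul]
        _ ≤ (1 + Real.exp v) ^ A := by
            gcongr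
            linarith
  calc Real.exp (2 * κ - q) * Real.exp (ε * (q - κ)) *
        (Real.exp (-(ε * v)) * ((1 + Real.exp v) ^ A)⁻¹)
      = Real.exp (κ - x + ε * x) * (Real.exp ((1 - 2 * ε) * v) * ((1 + Real.exp v) ^ A)⁻¹) := by
        have e5 : Real.exp (2 * κ - q) * Real.exp (ε * (q - κ)) * Real.exp (-(ε * v)) =
            Real.exp (κ - x + ε * x) * Real.exp ((1 - 2 * ε) * v) := by
          rw [← Real.exp_add, ← Real.exp_add, ← Real.exp_add]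
          congr 1
          rw [hv]; ring
        rw [← mul_assoc, e5, mul_assoc]
    _ ≤ _ := mul_le_mul_of_nonneg_left key (Real.exp_pos _).le

/-! ### mean squares -/

/-- `∫ (1+|t|)^{-2}` -/
def I2 : ℝ := ∫ t : ℝ, ((1 + |t|) ^ 2)⁻¹

lemma I2_nonneg : 0 ≤ I2 := integral_nonneg fun _ => by positivity

lemma norm_XK_sy_le {M : Eis} {χ : Eis → ℂ} (hχ : HC M χ) (l : ℤ) (k : Eis) :
    ∀ b, IsPrim b → ‖XK χ (sy k) l b‖ ≤ 1 := norm_XS_le hχ l k

/-- sums of the averaged squares -/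
lemma sum_TN2_le {h : ℝ → ℝ} {c : ℝ} (hpu : PU h c) {M : Eis} {χ : Eis → ℂ} (hχ : HC M χ) (l : ℤ)
    {M₀ : ℕ} {S S₂ : Finset Eis} (hS : S₂ ⊆ S) {B : Eis → ℝ} (hB : ∀ k ∈ S, 0 ≤ B k) {G x : ℝ}
    (hG : ∀ t : ℝ, SB h χ l S B x t ≤ G * (1 + |t|) ^ M₀) :
    ∑ k ∈ S₂, B k * TN2 h (XK χ (sy k) l) (M₀ + 2) x ≤ G * I2 := by
  have e1 : ∑ k ∈ S₂, B k * TN2 h (XK χ (sy k) l) (M₀ + 2) x =
      ∫ t : ℝ, ((1 + |t|) ^ (M₀ + 2))⁻¹ * ∑ k ∈ S₂, B k * ‖PS (cx h) (XK χ (sy k) l) x t‖ ^ 2 := by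
    have e2 : (fun t : ℝ => ((1 + |t|) ^ (M₀ + 2))⁻¹ *
        ∑ k ∈ S₂, B k * ‖PS (cx h) (XK χ (sy k) l) x t‖ ^ 2) =
        fun t : ℝ => ∑ k ∈ S₂, B k * (((1 + |t|) ^ (M₀ + 2))⁻¹ *
          ‖PS (cx h) (XK χ (sy k) l) x t‖ ^ 2) := by
      funext t
      rw [Finset.mul_sum]
      exact Finset.sum_congr rfl fun k _ => by ring
    rw [e2, integral_finsetSum]
    · exact Finset.sum_congr rfl fun k _ => by rw [integral_const_mul]; rfl
    · intro k _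
      exact (integrable_TN2 hpu.cd.continuous hpu.cs (by omega) (norm_XK_sy_le hχ l k) _).const_mul _
  rw [e1, I2, ← integral_const_mul]
  refine integral_mono ?_ ((integrable_wt le_rfl).const_mul _) fun t => ?_
  · have e2 : (fun t : ℝ => ((1 + |t|) ^ (M₀ + 2))⁻¹ *
        ∑ k ∈ S₂, B k * ‖PS (cx h) (XK χ (sy k) l) x t‖ ^ 2) =
        fun t : ℝ => ∑ k ∈ S₂, B k * (((1 + |t|) ^ (M₀ + 2))⁻¹ *
          ‖PS (cx h) (XK χ (sy k) l) x t‖ ^ 2) := by
      funext t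
      rw [Finset.mul_sum]
      exact Finset.sum_congr rfl fun k _ => by ring
    rw [e2]
    refine integrable_finsetSum _ fun k _ => ?_
    exact (integrable_TN2 hpu.cd.continuous hpu.cs (by omega) (norm_XK_sy_le hχ l k) _).const_mul _
  · have ht : 0 < 1 + |t| := by positivity
    have h1 : ∑ k ∈ S₂, B k * ‖PS (cx h) (XK χ (sy k) l) x t‖ ^ 2 ≤ G * (1 + |t|) ^ M₀ :=
      (Finset.sum_le_sum_of_subset_of_nonneg hS fun k hk _ =>
        mul_nonneg (hB k hk) (sq_nonneg _)).trans (hG t)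
    calc ((1 + |t|) ^ (M₀ + 2))⁻¹ * ∑ k ∈ S₂, B k * ‖PS (cx h) (XK χ (sy k) l) x t‖ ^ 2
        ≤ ((1 + |t|) ^ (M₀ + 2))⁻¹ * (G * (1 + |t|) ^ M₀) := by gcongr
      _ = G * ((1 + |t|) ^ 2)⁻¹ := by
          rw [pow_add]; field_simp

/-! ### the children -/

/-- the allowed children `(z', z'')` for the parent `z` at family `L`, slack `D₀` -/
def ChF (D₀ L z z' z'' : ℝ) : Prop :=
  0 ≤ z'' ∧ z' ≤ z + D₀ ∧ z'' ≤ L / 2 + D₀ ∧ (z' = z'' ∨ (L / 2 ≤ z' ∧ z' + z'' ≤ L + D₀))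

lemma ChF.mono {D₀ D₁ L z z' z'' : ℝ} (h : ChF D₀ L z z' z'') (hD : D₀ ≤ D₁) :
    ChF D₁ L z z' z'' :=
  ⟨h.1, h.2.1.trans (by linarith), h.2.2.1.trans (by linarith),
    h.2.2.2.imp id fun h => ⟨h.1, h.2.trans (by linarith)⟩⟩

/-- the allowed children for `cut` -/
def ChC (D₀ L z z' z'' : ℝ) : Prop := z' = z'' ∧ 0 ≤ z'' ∧ z'' ≤ z + D₀ ∧ z'' ≤ L + D₀

lemma ChC.mono {D₀ D₁ L z z' z'' : ℝ} (h : ChC D₀ L z z' z'') (hD : D₀ ≤ D₁) :
    ChC D₁ L z z' z'' :=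
  ⟨h.1, h.2.1, h.2.2.1.trans (by linarith), h.2.2.2.trans (by linarith)⟩

/-- the sets of children for which the rule holds -/
structure PCh (D₀ zs L z : ℝ) (Pch : ℝ → ℝ → Prop) : Prop where
  unit : Pch zs zs
  all : ∀ κ : ℝ, 0 ≤ κ → κ ≤ z → Pch κ κ ∨ ∀ x : ℝ, 0 ≤ x → κ + x ≤ L + D₀ → Pch κ x

lemma pch_F {D₀ zs L z : ℝ} (hzs : 0 ≤ zs) (hD : zs ≤ D₀) (hL : 0 ≤ L) (hz : 0 ≤ z) :
    PCh D₀ zs L z (ChF D₀ L z) where
  unit := ⟨hzs, by linarith, by linarith, Or.inl rfl⟩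
  all κ h0 h1 := by
    rcases le_or_gt κ (L / 2) with h | h
    · exact Or.inl ⟨h0, by linarith, by linarith, Or.inl rfl⟩
    · exact Or.inr fun x hx hn => ⟨hx, by linarith, by linarith, Or.inr ⟨h.le, hn⟩⟩

lemma pch_C {D₀ zs L z : ℝ} (hzs : 0 ≤ zs) (hD : zs ≤ D₀) (hL : 0 ≤ L) (hz : 0 ≤ z) :
    PCh D₀ zs L z (ChC D₀ L z) where
  unit := ⟨rfl, hzs, by linarith, by linarith⟩
  all κ h0 h1 := by
    rcases le_or_gt κ (L + D₀) with h | h
    · exact Or.inl ⟨rfl, h0, by linarith, h⟩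
    · exact Or.inr fun x hx hn => absurd hn (by linarith)

/-- **the rule for the member sums** -/
theorem rule1 {h : ℝ → ℝ} {c : ℝ} (hpu : PU h c) {M : Eis} {χ : Eis → ℂ} (hχ : HC M χ) (l : ℤ)
    {zs : ℝ} {s : Finset (Finset ℕ)} {ts : Finset ℕ → ℝ} {Cu : ℝ} (hzs : 0 ≤ zs) (hCu : 0 ≤ Cu)
    (hun : ∀ Ξ : Eis → ℂ, Ξ 1 = 1 → 1 ≤ Cu * ∑ S ∈ s, ‖PS (cx h) Ξ zs (ts S)‖ ^ 2)
    {ε : ℝ} (hε : 0 < ε) (hε1 : ε ≤ 1 / 2) (M₀ : ℕ) :
    ∃ (C : ℝ) (J : ℕ), 0 ≤ C ∧ ∀ (L z : ℝ), 0 ≤ L → 0 ≤ z → ∀ (S : Finset Eis) (B : Eis → ℝ),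
      (∀ k ∈ S, 0 ≤ B k) → (∀ k ∈ S, Cl M χ l L k) → ∀ Bd : ℝ, 0 ≤ Bd →
      ∀ Pch : ℝ → ℝ → Prop, PCh (ε * (1 + L + z) + zs) zs L z Pch →
      (∀ z' z'' t' : ℝ, Pch z' z'' →
        SB h χ l S B z'' t' ≤ Bd * (1 + |t'|) ^ M₀ * Real.exp (-(z' - z''))) →
      ∀ κ t : ℝ, κ ≤ z →
        SB h χ l S B κ t ≤ C * Real.exp (4 * ε * (1 + L + z)) * (1 + |t|) ^ J * Bd := by
  classical
  obtain ⟨a, ha⟩ := exists_nat_ge (3 / ε)
  have haε : 3 ≤ a * ε := by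
    rw [div_le_iff₀ hε] at ha; exact ha
  set A : ℕ := a + 4 with hA
  obtain ⟨CT, hCT, hT⟩ := norm_PS_le (cd_cx hpu.cd).continuous (cs_cx hpu.cs)
  obtain ⟨C1, J1, hC1, hF⟩ := FEk hpu hχ l (A := A) (K := M₀ + 2) (by omega) (by omega) hε
    (by linarith)
  -- the constants
  set U' : ℝ := Cu * ∑ T ∈ s, (1 + |ts T|) ^ M₀ with hU'
  have hU'0 : 0 ≤ U' := mul_nonneg hCu (Finset.sum_nonneg fun _ _ => by positivity)
  have hr1 : Real.exp (-(c * ε)) < 1 := Real.exp_lt_one_iff.mpr (by linarith [mul_pos hpu.cpos hε])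
  set Gs : ℝ := (1 - Real.exp (-(c * ε)))⁻¹ with hGs
  have hGs0 : 0 ≤ Gs := inv_nonneg.mpr (by linarith)
  set E0 : ℝ := Real.exp (2 * ε * zs) + CT ^ 2 * U' with hE0
  have hE00 : 0 ≤ E0 := by positivity
  refine ⟨CT ^ 2 * U' + 1 + C1 * U' + C1 * (E0 * I2 * Gs), M₀ + J1, by
    have := I2_nonneg; positivity, ?_⟩
  intro L z hL hz S B hB hCl Bd hBd Pch hPch hch κ t hκz
  set big := 1 + L + z with hbig
  have hbig1 : 1 ≤ big := by linarith
  set D₀ := ε * big + zs with hD₀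
  have hD₀0 : 0 ≤ D₀ := by positivity
  have ht : 1 ≤ 1 + |t| := by linarith [abs_nonneg t]
  have hX1 : 1 ≤ Real.exp (4 * ε * big) := Real.one_le_exp (by positivity)
  have hI := I2_nonneg
  -- the total mass
  have hU : ∑ k ∈ S, B k ≤ U' * Bd := by
    have h1 : ∑ k ∈ S, B k ≤ Cu * ∑ T ∈ s, SB h χ l S B zs (ts T) := by
      unfold SB
      rw [Finset.sum_comm, Finset.mul_sum]
      refine Finset.sum_le_sum fun k hk => ?_
      have hΞ : XK χ (sy k) l 1 = 1 := by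
        unfold XK
        rw [hχ.char.one, (ang_isChar l).one]
        have : sy k 1 = 1 := Char766.sy_one_right k
        rw [this]; ring
      have h2 := hun _ hΞ
      rw [← Finset.mul_sum]
      calc B k = B k * 1 := (mul_one _).symm
        _ ≤ B k * (Cu * ∑ T ∈ s, ‖PS (cx h) (XK χ (sy k) l) zs (ts T)‖ ^ 2) :=
            mul_le_mul_of_nonneg_left h2 (hB k hk)
        _ = _ := by ring
    refine h1.trans ?_
    rw [hU', mul_assoc, Finset.sum_mul]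
    refine mul_le_mul_of_nonneg_left (Finset.sum_le_sum fun T _ => ?_) hCu
    have h3 := hch zs zs (ts T) hPch.unit
    rw [sub_self, neg_zero, Real.exp_zero, mul_one] at h3
    linarith
  have hS0 : ∀ x t' : ℝ, SB h χ l S B x t' ≤ (CT * Real.exp x) ^ 2 * (U' * Bd) := by
    intro x t'
    calc SB h χ l S B x t' ≤ ∑ k ∈ S, B k * (CT * Real.exp x) ^ 2 := by
          refine Finset.sum_le_sum fun k hk => mul_le_mul_of_nonneg_left ?_ (hB k hk)
          have := hT _ (norm_XK_sy_le hχ l k) x t'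
          gcongr
      _ = (CT * Real.exp x) ^ 2 * ∑ k ∈ S, B k := by rw [← Finset.sum_mul, mul_comm]
      _ ≤ _ := mul_le_mul_of_nonneg_left hU (sq_nonneg _)
  have hUB : 0 ≤ U' * Bd := by positivity
  rcases lt_or_ge κ 0 with hκ0 | hκ0
  · -- negative scales
    have h1 := hS0 κ t
    have h2 : Real.exp κ ≤ 1 := Real.exp_le_one_iff.2 hκ0.le
    calc SB h χ l S B κ t ≤ (CT * Real.exp κ) ^ 2 * (U' * Bd) := h1
      _ ≤ (CT * 1) ^ 2 * (U' * Bd) := by gcongr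
      _ = (CT ^ 2 * U') * 1 * 1 * Bd := by ring
      _ ≤ (CT ^ 2 * U' + 1 + C1 * U' + C1 * (E0 * I2 * Gs)) * Real.exp (4 * ε * big) *
          (1 + |t|) ^ (M₀ + J1) * Bd := by
          have h3 : 1 ≤ (1 + |t|) ^ (M₀ + J1) := one_le_pow₀ ht
          have h4 : 0 ≤ C1 * U' := by positivity
          have h5 : 0 ≤ C1 * (E0 * I2 * Gs) := by positivity
          gcongr
          linarith
  rcases hPch.all κ hκ0 hκz with hκL | hκL
  · -- the direct child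
    have h1 := hch κ κ t hκL
    rw [sub_self, neg_zero, Real.exp_zero, mul_one] at h1
    calc SB h χ l S B κ t ≤ Bd * (1 + |t|) ^ M₀ := h1
      _ = 1 * 1 * (1 + |t|) ^ M₀ * Bd := by ring
      _ ≤ (CT ^ 2 * U' + 1 + C1 * U' + C1 * (E0 * I2 * Gs)) * Real.exp (4 * ε * big) *
          (1 + |t|) ^ (M₀ + J1) * Bd := by
          have h3 : (1 + |t|) ^ M₀ ≤ (1 + |t|) ^ (M₀ + J1) := pow_le_pow_right₀ ht (by omega)
          have h4 : 0 ≤ C1 * U' := by positivity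
          have h5 : 0 ≤ C1 * (E0 * I2 * Gs) := by positivity
          have h6 : 0 ≤ CT ^ 2 * U' := by positivity
          gcongr
          linarith
  -- the functional equation
  have hdec : ∀ k ∈ S, (∀ κ t : ℝ, ‖PS (cx h) (XK χ (sy k) l) κ t‖ ^ 2 ≤ C1 * (1 + |t|) ^ J1) ∨
      ∃ Q : ℝ, 1 ≤ Q ∧ Q ≤ nm k ∧ ∀ κ t : ℝ,
        ‖PS (cx h) (XK χ (sy k) l) κ t‖ ^ 2 ≤ C1 * (1 + |t|) ^ J1 *
          (Real.exp (2 * κ) / Q * (Q / Real.exp κ) ^ ε) *
          ∑' n : ℕ, wz ε A (Real.exp (c * n + κ) / Q) * TN2 h (XK χ (sy k) l) (M₀ + 2) (c * n) :=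
    fun k hk => hF k (hCl k hk).ne (hCl k hk).cf (hCl k hk).np
  set S₁ := S.filter (fun k => ∀ κ t : ℝ,
    ‖PS (cx h) (XK χ (sy k) l) κ t‖ ^ 2 ≤ C1 * (1 + |t|) ^ J1) with hS₁
  set S₂ := S.filter (fun k => ¬ ∀ κ t : ℝ,
    ‖PS (cx h) (XK χ (sy k) l) κ t‖ ^ 2 ≤ C1 * (1 + |t|) ^ J1) with hS₂
  have hsplit : SB h χ l S B κ t = ∑ k ∈ S₁, B k * ‖PS (cx h) (XK χ (sy k) l) κ t‖ ^ 2 +
      ∑ k ∈ S₂, B k * ‖PS (cx h) (XK χ (sy k) l) κ t‖ ^ 2 := by
    unfold SB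
    rw [hS₁, hS₂, Finset.sum_filter_add_sum_filter_not]
  have hQ' : ∀ k ∈ S₂, ∃ Q : ℝ, 1 ≤ Q ∧ Q ≤ Real.exp L ∧
        ‖PS (cx h) (XK χ (sy k) l) κ t‖ ^ 2 ≤ C1 * (1 + |t|) ^ J1 *
          (Real.exp (2 * κ) / Q * (Q / Real.exp κ) ^ ε) *
          ∑' n : ℕ, wz ε A (Real.exp (c * n + κ) / Q) *
            TN2 h (XK χ (sy k) l) (M₀ + 2) (c * n) := by
    intro k hk
    rw [hS₂, Finset.mem_filter] at hk
    rcases hdec k hk.1 with h1 | ⟨Q, h1, h2, h3⟩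
    · exact absurd h1 hk.2
    · exact ⟨Q, h1, h2.trans (hCl k hk.1).le, h3 κ t⟩
  choose! Q hQ1 hQL hQF using hQ'
  have hB2 : ∀ k ∈ S₂, 0 ≤ B k := fun k hk => hB k (Finset.mem_of_mem_filter k hk)
  -- the first part
  have hp1 : ∑ k ∈ S₁, B k * ‖PS (cx h) (XK χ (sy k) l) κ t‖ ^ 2 ≤
      C1 * (1 + |t|) ^ J1 * (U' * Bd) := by
    calc ∑ k ∈ S₁, B k * ‖PS (cx h) (XK χ (sy k) l) κ t‖ ^ 2
        ≤ ∑ k ∈ S₁, B k * (C1 * (1 + |t|) ^ J1) := by
          refine Finset.sum_le_sum fun k hk => ?_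
          rw [hS₁, Finset.mem_filter] at hk
          exact mul_le_mul_of_nonneg_left (hk.2 κ t) (hB k hk.1)
      _ = C1 * (1 + |t|) ^ J1 * ∑ k ∈ S₁, B k := by rw [← Finset.sum_mul, mul_comm]
      _ ≤ C1 * (1 + |t|) ^ J1 * ∑ k ∈ S, B k := by
          refine mul_le_mul_of_nonneg_left ?_ (by positivity)
          exact Finset.sum_le_sum_of_subset_of_nonneg (Finset.filter_subset _ _)
            fun k hk _ => hB k hk
      _ ≤ _ := mul_le_mul_of_nonneg_left hU (by positivity)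
  -- the terms of the second part
  set W : Eis → ℕ → ℝ := fun k n => (Real.exp (2 * κ) / Q k * (Q k / Real.exp κ) ^ ε) *
    wz ε A (Real.exp (c * n + κ) / Q k) with hW
  have hWle : ∀ k ∈ S₂, ∀ n : ℕ, W k n ≤ Real.exp (κ - c * n + ε * (c * n)) *
      Real.exp (-(((A : ℝ) - 1) * max 0 (c * n + κ - L))) := by
    intro k hk n
    exact W_le hε hε1 (by omega) (by linarith [hQ1 k hk]) (hQL k hk)
  have hW0 : ∀ k ∈ S₂, ∀ n : ℕ, 0 ≤ W k n := by
    intro k hk n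
    have : 0 < Q k := by linarith [hQ1 k hk]
    refine mul_nonneg (by positivity) (wz_nonneg (by positivity))
  have hterm : ∀ n : ℕ, ∑ k ∈ S₂, B k * (W k n * TN2 h (XK χ (sy k) l) (M₀ + 2) (c * n)) ≤
      (Real.exp (4 * ε * big) * E0 * I2 * Bd) * Real.exp (-(c * ε)) ^ n := by
    intro n
    set x : ℝ := c * n with hx
    have hx0 : 0 ≤ x := mul_nonneg hpu.cpos.le (Nat.cast_nonneg _)
    set Wm := Real.exp (κ - x + ε * x) * Real.exp (-(((A : ℝ) - 1) * max 0 (x + κ - L))) with hWm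
    have hWm0 : 0 ≤ Wm := by positivity
    -- bound of the sums by `G`
    have hgen : ∀ G : ℝ, (∀ t' : ℝ, SB h χ l S B x t' ≤ G * (1 + |t'|) ^ M₀) →
        ∑ k ∈ S₂, B k * (W k n * TN2 h (XK χ (sy k) l) (M₀ + 2) x) ≤ Wm * (G * I2) := by
      intro G hG
      have h1 := sum_TN2_le hpu hχ l (Finset.filter_subset _ _ : S₂ ⊆ S) hB hG
      calc ∑ k ∈ S₂, B k * (W k n * TN2 h (XK χ (sy k) l) (M₀ + 2) x)
          ≤ ∑ k ∈ S₂, Wm * (B k * TN2 h (XK χ (sy k) l) (M₀ + 2) x) := by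
            refine Finset.sum_le_sum fun k hk => ?_
            have h2 := hWle k hk n
            have h3 := TN2_nonneg h (XK χ (sy k) l) (M₀ + 2) x
            have h4 := hB2 k hk
            calc B k * (W k n * TN2 h (XK χ (sy k) l) (M₀ + 2) x)
                ≤ B k * (Wm * TN2 h (XK χ (sy k) l) (M₀ + 2) x) := by gcongr
              _ = _ := by ring
        _ = Wm * ∑ k ∈ S₂, B k * TN2 h (XK χ (sy k) l) (M₀ + 2) x := by rw [Finset.mul_sum]
        _ ≤ _ := mul_le_mul_of_nonneg_left h1 hWm0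
    have hgeo : Real.exp (-(c * ε)) ^ n = Real.exp (-(ε * x)) := by
      rw [← Real.exp_nat_mul]; congr 1; rw [hx]; ring
    rw [hgeo]
    have hA1 : (A : ℝ) - 1 = a + 3 := by rw [hA]; push_cast; ring
    have hm0 : 0 ≤ max 0 (x + κ - L) := le_max_left _ _
    by_cases hnear : κ + x ≤ L + D₀
    · -- near
      have h1 := hgen (Bd * Real.exp (-(κ - x))) (fun t' => by
        have h2 := hch κ x t' (hκL x hx0 hnear)
        linarith)
      refine h1.trans ?_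
      have h2 : Wm * Real.exp (-(κ - x)) ≤ Real.exp (4 * ε * big) * Real.exp (2 * ε * zs) *
          Real.exp (-(ε * x)) := by
        rw [hWm, ← Real.exp_add, ← Real.exp_add, ← Real.exp_add, ← Real.exp_add]
        apply Real.exp_le_exp.2
        have h3 : 0 ≤ ((A : ℝ) - 1) * max 0 (x + κ - L) := mul_nonneg (by rw [hA1]; positivity) hm0
        have h4 : ε * x ≤ ε * (2 * big + zs) := by
          refine mul_le_mul_of_nonneg_left ?_ hε.le
          have : ε * big ≤ 1 * big := mul_le_mul_of_nonneg_right (by linarith) (by linarith)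
          rw [hD₀] at hnear
          linarith
        nlinarith
      calc Wm * (Bd * Real.exp (-(κ - x)) * I2)
          = (Wm * Real.exp (-(κ - x))) * (I2 * Bd) := by ring
        _ ≤ (Real.exp (4 * ε * big) * Real.exp (2 * ε * zs) * Real.exp (-(ε * x))) *
            (I2 * Bd) := by gcongr
        _ ≤ (Real.exp (4 * ε * big) * E0 * Real.exp (-(ε * x))) * (I2 * Bd) := by
            have : Real.exp (2 * ε * zs) ≤ E0 := by
              rw [hE0]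
              have : 0 ≤ CT ^ 2 * U' := by positivity
              linarith
            gcongr
        _ = _ := by ring
    · -- far
      push Not at hnear
      have h1 := hgen ((CT * Real.exp x) ^ 2 * (U' * Bd)) (fun t' => by
        refine (hS0 x t').trans ?_
        have : 1 ≤ (1 + |t'|) ^ M₀ := one_le_pow₀ (by linarith [abs_nonneg t'])
        have h0 : 0 ≤ (CT * Real.exp x) ^ 2 * (U' * Bd) := by positivity
        nlinarith)
      refine h1.trans ?_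
      have h2 : Wm * Real.exp x ^ 2 ≤ Real.exp (-(ε * x)) := by
        rw [hWm, ← Real.exp_nat_mul, ← Real.exp_add, ← Real.exp_add]
        apply Real.exp_le_exp.2
        have h3 : x + κ - L ≤ max 0 (x + κ - L) := le_max_right _ _
        have h4 : ε * big ≤ x + κ - L := by rw [hD₀] at hnear; linarith
        have h5 : (a : ℝ) * (ε * big) ≤ a * max 0 (x + κ - L) :=
          mul_le_mul_of_nonneg_left (h4.trans h3) (Nat.cast_nonneg _)
        have h6 : 3 * big ≤ (a : ℝ) * (ε * big) := by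
          have := mul_le_mul_of_nonneg_right haε (by linarith : 0 ≤ big)
          linarith
        have h7 : ε * x ≤ 1 / 2 * x := mul_le_mul_of_nonneg_right hε1 hx0
        rw [hA1]
        push_cast
        nlinarith
      calc Wm * ((CT * Real.exp x) ^ 2 * (U' * Bd) * I2)
          = (Wm * Real.exp x ^ 2) * (CT ^ 2 * U' * (I2 * Bd)) := by ring
        _ ≤ Real.exp (-(ε * x)) * (CT ^ 2 * U' * (I2 * Bd)) := by gcongr
        _ = 1 * (CT ^ 2 * U') * I2 * Bd * Real.exp (-(ε * x)) := by ring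
        _ ≤ Real.exp (4 * ε * big) * E0 * I2 * Bd * Real.exp (-(ε * x)) := by
            have : CT ^ 2 * U' ≤ E0 := by
              rw [hE0]
              have := Real.exp_pos (2 * ε * zs)
              linarith
            gcongr
  -- the second part
  have hsum : ∀ k ∈ S₂, Summable fun n : ℕ => W k n * TN2 h (XK χ (sy k) l) (M₀ + 2) (c * n) := by
    intro k hk
    have hQ0 : 0 < Q k := by linarith [hQ1 k hk]
    have h1 := (summable_wz2 hpu.cd.continuous hpu.cs hpu.cpos hε (A := A) (K := M₀ + 2)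
      (by omega) (by omega) (norm_XK_sy_le hχ l k) (κ - Real.log (Q k))).mul_left
      (Real.exp (2 * κ) / Q k * (Q k / Real.exp κ) ^ ε)
    refine h1.congr fun n => ?_
    have hshift : Real.exp (c * n + κ) / Q k = Real.exp (c * n + (κ - Real.log (Q k))) := by
      rw [← add_sub_assoc, Real.exp_sub, Real.exp_log hQ0]
    rw [hW]
    dsimp only
    rw [hshift]
    ring
  have hp2 : ∑ k ∈ S₂, B k * ‖PS (cx h) (XK χ (sy k) l) κ t‖ ^ 2 ≤
      C1 * (1 + |t|) ^ J1 * (Real.exp (4 * ε * big) * E0 * I2 * Bd * Gs) := by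
    have h1 : ∑ k ∈ S₂, B k * ‖PS (cx h) (XK χ (sy k) l) κ t‖ ^ 2 ≤
        C1 * (1 + |t|) ^ J1 * ∑ k ∈ S₂, B k *
          ∑' n : ℕ, W k n * TN2 h (XK χ (sy k) l) (M₀ + 2) (c * n) := by
      rw [Finset.mul_sum]
      refine Finset.sum_le_sum fun k hk => ?_
      have h2 := hQF k hk
      have e1 : ∑' n : ℕ, W k n * TN2 h (XK χ (sy k) l) (M₀ + 2) (c * n) =
          (Real.exp (2 * κ) / Q k * (Q k / Real.exp κ) ^ ε) *
          ∑' n : ℕ, wz ε A (Real.exp (c * n + κ) / Q k) *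
            TN2 h (XK χ (sy k) l) (M₀ + 2) (c * n) := by
        rw [← tsum_mul_left]
        refine tsum_congr fun n => ?_
        rw [hW]; ring
      rw [e1]
      calc B k * ‖PS (cx h) (XK χ (sy k) l) κ t‖ ^ 2
          ≤ B k * (C1 * (1 + |t|) ^ J1 *
          (Real.exp (2 * κ) / Q k * (Q k / Real.exp κ) ^ ε) *
          ∑' n : ℕ, wz ε A (Real.exp (c * n + κ) / Q k) *
            TN2 h (XK χ (sy k) l) (M₀ + 2) (c * n)) := mul_le_mul_of_nonneg_left h2 (hB2 k hk)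
        _ = _ := by ring
    refine h1.trans (mul_le_mul_of_nonneg_left ?_ (by positivity))
    have e2 : ∑ k ∈ S₂, B k * ∑' n : ℕ, W k n * TN2 h (XK χ (sy k) l) (M₀ + 2) (c * n) =
        ∑' n : ℕ, ∑ k ∈ S₂, B k * (W k n * TN2 h (XK χ (sy k) l) (M₀ + 2) (c * n)) := by
      rw [Summable.tsum_finsetSum fun k hk => (hsum k hk).mul_left _]
      exact Finset.sum_congr rfl fun k _ => by rw [tsum_mul_left]
    rw [e2]
    have hg := (summable_geometric_of_lt_one (Real.exp_pos (-(c * ε))).le hr1).mul_left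
      (Real.exp (4 * ε * big) * E0 * I2 * Bd)
    have hnn : ∀ n : ℕ, 0 ≤ ∑ k ∈ S₂, B k * (W k n * TN2 h (XK χ (sy k) l) (M₀ + 2) (c * n)) :=
      fun n => Finset.sum_nonneg fun k hk => mul_nonneg (hB2 k hk)
        (mul_nonneg (hW0 k hk n) (TN2_nonneg _ _ _ _))
    have hs2 : Summable fun n : ℕ => ∑ k ∈ S₂, B k *
        (W k n * TN2 h (XK χ (sy k) l) (M₀ + 2) (c * n)) :=
      Summable.of_nonneg_of_le hnn hterm hg
    refine (hs2.tsum_le_tsum hterm hg).trans (le_of_eq ?_)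
    rw [tsum_mul_left, tsum_geometric_of_lt_one (Real.exp_pos _).le hr1]
  rw [hsplit]
  have hJ1 : (1 + |t|) ^ J1 ≤ (1 + |t|) ^ (M₀ + J1) := pow_le_pow_right₀ ht (by omega)
  calc _ ≤ C1 * (1 + |t|) ^ J1 * (U' * Bd) +
        C1 * (1 + |t|) ^ J1 * (Real.exp (4 * ε * big) * E0 * I2 * Bd * Gs) := add_le_add hp1 hp2
    _ ≤ C1 * (1 + |t|) ^ J1 * (Real.exp (4 * ε * big) * (U' * Bd)) +
        C1 * (1 + |t|) ^ J1 * (Real.exp (4 * ε * big) * E0 * I2 * Bd * Gs) := by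
        have : U' * Bd ≤ Real.exp (4 * ε * big) * (U' * Bd) := by nlinarith
        gcongr
    _ = (C1 * U' + C1 * (E0 * I2 * Gs)) * Real.exp (4 * ε * big) * (1 + |t|) ^ J1 * Bd := by ring
    _ ≤ (CT ^ 2 * U' + 1 + C1 * U' + C1 * (E0 * I2 * Gs)) * Real.exp (4 * ε * big) *
          (1 + |t|) ^ (M₀ + J1) * Bd := by
        have h4 : 0 ≤ C1 * U' := by positivity
        have h5 : 0 ≤ C1 * (E0 * I2 * Gs) := by positivity
        have h6 : 0 ≤ CT ^ 2 * U' := by positivity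
        gcongr
        linarith

open Classical in
/-- **the rule with a coprimality condition** -/
theorem rule {h : ℝ → ℝ} {c : ℝ} (hpu : PU h c) :
    ∃ zs : ℝ, 0 ≤ zs ∧ ∀ (M : Eis) (χ : Eis → ℂ) (_ : HC M χ) (l : ℤ),
    ∀ ε : ℝ, 0 < ε → ε ≤ 1 / 2 → ∀ ε₂ : ℝ, 0 < ε₂ → ∀ M₀ : ℕ,
    ∃ (C : ℝ) (J : ℕ), 0 ≤ C ∧ ∀ (L z : ℝ), 0 ≤ L → 0 ≤ z → ∀ (S : Finset Eis) (B : Eis → ℝ),
      (∀ k ∈ S, 0 ≤ B k) → (∀ k ∈ S, Cl M χ l L k) → ∀ Bd : ℝ, 0 ≤ Bd →
      ∀ Pch : ℝ → ℝ → Prop, PCh (ε * (1 + L + z) + zs) zs L z Pch →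
      (∀ z' z'' t' : ℝ, Pch z' z'' →
        SB h χ l S B z'' t' ≤ Bd * (1 + |t'|) ^ M₀ * Real.exp (-(z' - z''))) →
      ∀ d : Eis, d ≠ 0 → ∀ t : ℝ,
        ∑ k ∈ S, B k * ‖PS (cx h) (fun b => XK χ (sy k) l b * prin0 d b) z t‖ ^ 2 ≤
          C * Real.exp (4 * ε * (1 + L + z)) * (nm d : ℝ) ^ ε₂ * (1 + |t|) ^ J * Bd := by
  obtain ⟨zs, s, ts, Cu, hzs, hCu, hun⟩ := unit_le hpu
  refine ⟨zs, hzs, fun M χ hχ l ε hε hε1 ε₂ hε₂ M₀ => ?_⟩
  obtain ⟨C, J, hC, hr⟩ := rule1 hpu hχ l hzs hCu hun hε hε1 M₀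
  obtain ⟨Ct, hCt, hτ⟩ := tau_le_rpow (show 0 < ε₂ / 2 by positivity)
  have hCt0 : 0 ≤ Ct := by linarith
  refine ⟨C * Ct ^ 2, J, by positivity, ?_⟩
  intro L z hL hz S B hB hCl Bd hBd Pch hPch hch d hd t
  have hr' := hr L z hL hz S B hB hCl Bd hBd Pch hPch hch
  set F := (dvs d).filter Squarefree with hF
  have hFc : (F.card : ℝ) ≤ tau d := by
    unfold tau
    exact_mod_cast Finset.card_filter_le _ _
  have hτ0 : (0 : ℝ) ≤ tau d := Nat.cast_nonneg _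
  have hpt : ∀ k ∈ S, ‖PS (cx h) (fun b => XK χ (sy k) l b * prin0 d b) z t‖ ^ 2 ≤
      tau d * ∑ d' ∈ F, ‖PS (cx h) (XK χ (sy k) l) (z - Real.log (nm d')) t‖ ^ 2 := by
    intro k hk
    have hk0 := (hCl k hk).ne
    have hXc : IsChar (XK χ (sy k) l) := (hχ.char.mul' (hc_sy hk0).char).mul' (ang_isChar l)
    have e3 : PS (cx h) (fun b => XK χ (sy k) l b * prin0 d b) z t =
        PS (cx h) (fun b => if IsCoprime b d then XK χ (sy k) l b else 0) z t := by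
      refine PS_congr (fun b _ => ?_) _ _
      unfold prin0
      split_ifs <;> simp
    rw [e3]
    have h1 := norm_PS_cop_le (cs_cx hpu.cs) hXc hd z t
    calc _ ≤ (∑ d' ∈ F, ‖PS (cx h) (XK χ (sy k) l) (z - Real.log (nm d')) t‖) ^ 2 := by gcongr
      _ ≤ F.card * ∑ d' ∈ F, ‖PS (cx h) (XK χ (sy k) l) (z - Real.log (nm d')) t‖ ^ 2 :=
          sq_sum_le_card_mul_sum_sq
      _ ≤ _ := by
          have : 0 ≤ ∑ d' ∈ F, ‖PS (cx h) (XK χ (sy k) l) (z - Real.log (nm d')) t‖ ^ 2 := by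
            positivity
          gcongr
  have h2 : ∑ k ∈ S, B k * ‖PS (cx h) (fun b => XK χ (sy k) l b * prin0 d b) z t‖ ^ 2 ≤
      tau d * ∑ d' ∈ F, SB h χ l S B (z - Real.log (nm d')) t := by
    calc _ ≤ ∑ k ∈ S, B k * (tau d * ∑ d' ∈ F,
          ‖PS (cx h) (XK χ (sy k) l) (z - Real.log (nm d')) t‖ ^ 2) :=
          Finset.sum_le_sum fun k hk => mul_le_mul_of_nonneg_left (hpt k hk) (hB k hk)
      _ = _ := by
          unfold SB
          rw [Finset.sum_comm, Finset.mul_sum]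
          refine Finset.sum_congr rfl fun k _ => ?_
          rw [← Finset.mul_sum]; ring
  have h3 : ∀ d' ∈ F, SB h χ l S B (z - Real.log (nm d')) t ≤
      C * Real.exp (4 * ε * (1 + L + z)) * (1 + |t|) ^ J * Bd := by
    intro d' hd'
    rw [hF, Finset.mem_filter] at hd'
    have h4 := log_nm_nonneg (isPrim_of_mem_dvs hd'.1)
    exact hr' _ t (by linarith)
  have hR0 : 0 ≤ C * Real.exp (4 * ε * (1 + L + z)) * (1 + |t|) ^ J * Bd := by positivity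
  have hd1 : (0 : ℝ) ≤ nm d := Nat.cast_nonneg _
  have hτ2 : (tau d : ℝ) * tau d ≤ Ct ^ 2 * (nm d : ℝ) ^ ε₂ := by
    have h5 := hτ d hd
    have e1 : (nm d : ℝ) ^ ε₂ = (nm d : ℝ) ^ (ε₂ / 2) * (nm d : ℝ) ^ (ε₂ / 2) := by
      rw [← Real.rpow_add (by have := one_le_nm_of hd; linarith)]; ring_nf
    rw [e1]
    calc (tau d : ℝ) * tau d ≤ (Ct * (nm d : ℝ) ^ (ε₂ / 2)) * (Ct * (nm d : ℝ) ^ (ε₂ / 2)) :=
          mul_le_mul h5 h5 hτ0 (by positivity)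
      _ = _ := by ring
  calc _ ≤ tau d * ∑ d' ∈ F, SB h χ l S B (z - Real.log (nm d')) t := h2
    _ ≤ tau d * ∑ d' ∈ F, (C * Real.exp (4 * ε * (1 + L + z)) * (1 + |t|) ^ J * Bd) :=
        mul_le_mul_of_nonneg_left (Finset.sum_le_sum h3) hτ0
    _ = tau d * (F.card * (C * Real.exp (4 * ε * (1 + L + z)) * (1 + |t|) ^ J * Bd)) := by
        rw [Finset.sum_const, nsmul_eq_mul]
    _ ≤ tau d * (tau d * (C * Real.exp (4 * ε * (1 + L + z)) * (1 + |t|) ^ J * Bd)) := by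
        gcongr
    _ = (tau d * tau d) * (C * Real.exp (4 * ε * (1 + L + z)) * (1 + |t|) ^ J * Bd) := by ring
    _ ≤ (Ct ^ 2 * (nm d : ℝ) ^ ε₂) * (C * Real.exp (4 * ε * (1 + L + z)) * (1 + |t|) ^ J * Bd) :=
        mul_le_mul_of_nonneg_right hτ2 hR0
    _ = _ := by ring

end Crest.Agent.R017.XFl571
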