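import Crest.Agent.R017.RGE6_545
import Crest.Agent.R017.PM6_320

/-!
# Row 17, T.7, class E: the transfer of the base pair rule (helper590)

* `PM1P h P` : the one-list pair rule (helper829's `PM1_list`) for one set of data
* `rulePBx`, `rawPBx` : the analytic rule in the form of `ruleBGe`, kernel `Dk`, noncubes
* `base_of` : `PairRules.base`
-/

set_option autoImplicit false

noncomputable section

open Set Filter Topology

namespace Crest.Agent.R017.XFt590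

open Crest.Agent.R012 Crest.Agent.R012.Eis Crest.Agent.R012.LS2
open Crest.Agent.R012.T411 (NCube)
open Crest.Agent.R017.FE47 (PU)
open Crest.Agent.R017.XG702 (Pcs BG)
open Crest.Agent.R017.Prov71
open Crest.Agent.R017.B770
open Crest.Agent.R017.XP699
open Crest.Agent.R017.RuleM545
open Crest.Agent.R017.PMR320
open Crest.Agent.R017.PML320
open Crest.Agent.R017.PM320 (PMx Gp Fp Hp clp cont_Gp cont_Fp cont_Hp)
open Crest.Agent.R017.ER911 (Ok Sh EF)
open Crest.Agent.R017.RQd385 (PM2Q PM2Q_mono)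
open Crest.Agent.R017.RGB545 (PQs PQe bg2_of_slope)
open Crest.Agent.R017.XC858 (SKq)
open Crest.Agent.R017.PX764 (Dk)

variable {Λ : Type*}

/-- **the one-list pair rule** for the data `P` (constants depending on `P`) -/
def PM1P (h : ℝ → ℝ) (P : DPar) : Prop :=
  ∀ M : ℝ, 0 ≤ M → ∀ (N : ℕ) (ε : ℝ), 0 < ε → ∃ C r X₁ : ℝ, 1 ≤ C ∧ 0 ≤ r ∧
    ∀ X : ℝ, 3 ≤ X → X₁ ≤ X → ∀ (k β : ℝ) (ps : List Pq), 0 ≤ k → k ≤ Real.log X → 0 ≤ β →
    β ≤ Real.log X → ps.length ≤ N → (∀ p ∈ ps, 0 ≤ Dq.len p ∧ Dq.len p ≤ Real.log X) →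
    ∀ Bd : ℝ, 0 ≤ Bd →
    (∀ (l : ℝ) (ps' : List Pq), 0 ≤ l + β →
      List.Forall₂ (Chd Dq hcost r (C * X ^ (3 * N + 3 : ℝ))) ps' ps →
      (∀ c ∈ ({cG1, cG2} : Finset (Fin 4 → ℝ)),
        lf c k (LL Dq ps) l (LL Dq ps') ≤ r + ε * Real.log X) →
      SK Dk h (l + β) (ps'.map (Pq.pc P)) ≤ Bd * cst hcost ps' ps ^ M *
        Real.exp (lf cFP k (LL Dq ps) l (LL Dq ps'))) →
    PM2Q NCube P h k β ps ≤ C * X ^ (9 * ε) * (Real.exp (k + β + LL Dq ps) + Bd +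
      Real.exp (k / 3 + 2 / 3 * β + 2 * LL Dq ps))

/-- the diagonal and the principal column -/
def Ax (c : ℝ) (w : Fin 2 → ℝ) : ℝ :=
  max ((1 + c) * w 0 + w 1) ((1 + 2 * c) / 3 * w 0 + 2 * w 1)

lemma cont_Ax (c : ℝ) : Continuous (Ax c) := by unfold Ax; fun_prop

/-- **the analytic rule** -/
theorem rulePBx {h : ℝ → ℝ} {π : Λ → DPar} (hPM : ∀ lam, PM1P h (π lam))
    {c : ℝ} (hc : 0 ≤ c) (κ₀ n₀ : ℝ) (lam : Λ) (N : ℕ) (c₀ : ℝ) (hc₀ : 1 ≤ c₀) :
    ∃ B₀ : ℝ, 0 ≤ B₀ ∧ ∀ (ε M : ℝ), 0 < ε →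
      ε ≤ 1 → 0 ≤ M → ∃ C r J X₁ : ℝ, 0 ≤ C ∧ 0 ≤ r ∧ 0 ≤ J ∧
      ∀ X : ℝ, 3 ≤ X → X₁ ≤ X → ∀ (k : ℝ) (ps : List Pq), 0 ≤ k → k ≤ c₀ * Real.log X →
      ps.length ≤ N → (∀ p ∈ ps, 0 ≤ Dq.len p ∧ Dq.len p ≤ c₀ * Real.log X) →
      Hp κ₀ n₀ ![k / Real.log X, LL Dq ps / Real.log X] ≤ ε →
      ∀ Bd : ℝ, 0 ≤ Bd →
      (∀ (j : Unit) (θ : Unit) (l : ℝ) (ps' : List Pq), 0 ≤ l → l ≤ clp c κ₀ n₀ * Real.log X →
        List.Forall₂ (Chd Dq hcost r (C * X ^ B₀)) ps' ps →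
        Gp c j (xv Dq X k ps l ps') θ ≤ ε →
        (False → ∀ p ∈ ps', Dq.lump p → Dq.len p ≤ l + ε * Real.log X) →
        SKq Dk (π lam) h l ps' ≤ Bd * cst hcost ps' ps ^ M *
          X ^ Fp c j (xv Dq X k ps l ps') θ) →
      PQs c π h lam k ps ≤ C * X ^ ε * (ps.map Dq.s1).prod ^ J *
        (X ^ Ax c ![k / Real.log X, LL Dq ps / Real.log X] + Bd) := by
  obtain ⟨c₂, hc₂⟩ : ∃ c₂ : ℝ, c₂ = c₀ * (1 + c) := ⟨_, rfl⟩
  have hcc : 0 ≤ c₀ * c := by positivity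
  have hc₂0 : c₀ ≤ c₂ := by rw [hc₂]; nlinarith
  have hc₂1 : 1 ≤ c₂ := hc₀.trans hc₂0
  have hc₂c : c * c₀ ≤ c₂ := by rw [hc₂]; nlinarith
  refine ⟨c₂ * (3 * N + 3), by positivity, fun ε M hε hε1 hM => ?_⟩
  obtain ⟨C, r, X₂, hC, hr, hL⟩ := hPM lam M hM N (ε / (18 * c₂)) (by positivity)
  refine ⟨2 * C, r, 0, max (Real.exp (18 * r / ε)) X₂, by linarith, hr, le_rfl, ?_⟩
  intro X hX hX₁ k ps hk0 hk hlen hz hH Bd hBd hch
  have hXp : 0 < X := by linarith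
  have hX1 : (1 : ℝ) ≤ X := by linarith
  have hlog : 0 < Real.log X := Real.log_pos (by linarith)
  have hlog' : Real.log (X ^ c₂) = c₂ * Real.log X := Real.log_rpow hXp _
  have hXX' : X ≤ X ^ c₂ := by
    calc X = X ^ (1 : ℝ) := (Real.rpow_one X).symm
      _ ≤ X ^ c₂ := Real.rpow_le_rpow_of_exponent_le hX1 hc₂1
  have hX' : 3 ≤ X ^ c₂ := hX.trans hXX'
  have hrl : r ≤ ε / 2 * Real.log X := by
    have h1 : 18 * r / ε ≤ Real.log X :=
      (Real.le_log_iff_exp_le hXp).2 ((le_max_left _ _).trans hX₁)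
    rw [div_le_iff₀ hε] at h1
    linarith
  have hk' : k ≤ Real.log (X ^ c₂) := by
    rw [hlog']
    exact hk.trans (mul_le_mul_of_nonneg_right hc₂0 hlog.le)
  have hβ' : c * k ≤ Real.log (X ^ c₂) := by
    rw [hlog']
    calc c * k ≤ c * (c₀ * Real.log X) := mul_le_mul_of_nonneg_left hk hc
      _ = c * c₀ * Real.log X := by ring
      _ ≤ c₂ * Real.log X := mul_le_mul_of_nonneg_right hc₂c hlog.le
  have hLL0 : ∀ qs : List Pq, (∀ p ∈ qs, 0 ≤ Dq.len p) → 0 ≤ LL Dq qs :=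
    fun qs h => LL_nonneg h
  have hH1 : k / Real.log X - κ₀ ≤ ε := by
    have := (le_max_left _ _).trans (show max (k / Real.log X - κ₀)
      (LL Dq ps / Real.log X - n₀) ≤ ε from hH)
    exact this
  have hH2 : LL Dq ps / Real.log X - n₀ ≤ ε := by
    have := (le_max_right _ _).trans (show max (k / Real.log X - κ₀)
      (LL Dq ps / Real.log X - n₀) ≤ ε from hH)
    exact this
  have hkX : k ≤ (κ₀ + 1) * Real.log X := by
    have h1 : k / Real.log X ≤ κ₀ + 1 := by linarith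
    rwa [div_le_iff₀ hlog] at h1
  have hnX : LL Dq ps ≤ (n₀ + 1) * Real.log X := by
    have h1 : LL Dq ps / Real.log X ≤ n₀ + 1 := by linarith
    rwa [div_le_iff₀ hlog] at h1
  have hexp : ∀ y : ℝ, X ^ (y / Real.log X) = Real.exp y := by
    intro y
    rw [Real.rpow_def_of_pos hXp, mul_div_cancel₀ _ hlog.ne']
  have key := hL (X ^ c₂) hX' (((le_max_right _ _).trans hX₁).trans hXX') k (c * k) ps hk0 hk'
    (by positivity) hβ' hlen
    (fun p hp => ⟨(hz p hp).1, by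
      rw [hlog']
      exact (hz p hp).2.trans (mul_le_mul_of_nonneg_right hc₂0 hlog.le)⟩) Bd hBd ?_
  · have h1 : PQs c π h lam k ps = PM2Q NCube (π lam) h k (c * k) ps := rfl
    rw [h1, Real.rpow_zero, mul_one]
    obtain ⟨D, hD⟩ : ∃ D : ℝ, D = X ^ Ax c ![k / Real.log X, LL Dq ps / Real.log X] := ⟨_, rfl⟩
    have h2 : Real.exp (k + c * k + LL Dq ps) ≤ D := by
      rw [← hexp, hD]
      refine Real.rpow_le_rpow_of_exponent_le hX1 ?_
      show _ ≤ max ((1 + c) * (k / Real.log X) + LL Dq ps / Real.log X) _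
      refine le_trans (le_of_eq ?_) (le_max_left _ _)
      ring
    have h3 : Real.exp (k / 3 + 2 / 3 * (c * k) + 2 * LL Dq ps) ≤ D := by
      rw [← hexp, hD]
      refine Real.rpow_le_rpow_of_exponent_le hX1 ?_
      show _ ≤ max _ ((1 + 2 * c) / 3 * (k / Real.log X) + 2 * (LL Dq ps / Real.log X))
      refine le_trans (le_of_eq ?_) (le_max_right _ _)
      ring
    rw [← hD]
    refine key.trans ?_
    have h4 : (X ^ c₂) ^ (9 * (ε / (18 * c₂))) ≤ X ^ ε := by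
      rw [← Real.rpow_mul hXp.le]
      refine Real.rpow_le_rpow_of_exponent_le hX1 ?_
      have : c₂ * (9 * (ε / (18 * c₂))) = ε / 2 := by field_simp; norm_num
      rw [this]; linarith
    have hD0 : 0 ≤ D := by rw [hD]; positivity
    have h5 : Real.exp (k + c * k + LL Dq ps) + Bd +
        Real.exp (k / 3 + 2 / 3 * (c * k) + 2 * LL Dq ps) ≤ 2 * (D + Bd) := by linarith
    have hC0 : 0 ≤ C := by linarith
    calc C * (X ^ c₂) ^ (9 * (ε / (18 * c₂))) * (Real.exp (k + c * k + LL Dq ps) + Bd +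
          Real.exp (k / 3 + 2 / 3 * (c * k) + 2 * LL Dq ps))
        ≤ C * X ^ ε * (2 * (D + Bd)) := by gcongr
      _ = 2 * C * X ^ ε * (D + Bd) := by ring
  · intro l ps' hl hps' hG
    have hB : (X ^ c₂) ^ (3 * N + 3 : ℝ) = X ^ (c₂ * (3 * N + 3)) :=
      (Real.rpow_mul hXp.le _ _).symm
    rw [hB] at hps'
    have hps2 : List.Forall₂ (Chd Dq hcost r (2 * C * X ^ (c₂ * (3 * N + 3)))) ps' ps := by
      refine hps'.imp fun a b h3 => ⟨h3.kind, h3.lump, h3.len0, h3.len, h3.s1, h3.s2.trans ?_⟩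
      refine mul_le_mul_of_nonneg_left ?_ (Nat.cast_nonneg _)
      have : 0 ≤ X ^ (c₂ * (3 * (N : ℝ) + 3)) := by positivity
      nlinarith
    have hεl : ε / (18 * c₂) * Real.log (X ^ c₂) = ε / 18 * Real.log X := by
      rw [hlog']; field_simp
    rw [hεl] at hG
    have g1 := hG cG1 (by simp)
    have g2 := hG cG2 (by simp)
    rw [lf_cG1] at g1
    rw [lf_cG2] at g2
    have hps0 : 0 ≤ LL Dq ps' := by
      refine hLL0 ps' fun p hp => ?_
      obtain ⟨_, _, h3, _⟩ := good_child one_le_hcost hps' (le_refl _) p hp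
      exact h3.len0
    have hεlog : 0 ≤ ε * Real.log X := by positivity
    have hl' : l + c * k ≤ clp c κ₀ n₀ * Real.log X := by
      unfold clp
      have h5 : c * k ≤ c * ((κ₀ + 1) * Real.log X) := mul_le_mul_of_nonneg_left hkX hc
      have h6 : ε / 2 * Real.log X ≤ 1 / 2 * Real.log X :=
        mul_le_mul_of_nonneg_right (by linarith) hlog.le
      nlinarith
    have hGp : Gp c () (xv Dq X k ps (l + c * k) ps') () ≤ ε := by
      unfold Gp xv
      simp only [Matrix.cons_val_zero, Matrix.cons_val_one, Matrix.cons_val]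
      refine max_le ?_ ?_
      · have e1 : -(k / Real.log X) - ((l + c * k) / Real.log X - c * (k / Real.log X)) +
            2 * (LL Dq ps' / Real.log X) = (-k - l + 2 * LL Dq ps') / Real.log X := by ring
        rw [e1, div_le_iff₀ hlog]
        linarith
      · have e1 : k / Real.log X - 3 * (LL Dq ps / Real.log X) +
            ((l + c * k) / Real.log X - c * (k / Real.log X)) + LL Dq ps' / Real.log X =
            (k - 3 * LL Dq ps + l + LL Dq ps') / Real.log X := by ring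
        rw [e1, div_le_iff₀ hlog]
        linarith
    have h7 := hch () () (l + c * k) ps' hl hl' hps2 hGp (fun hf => hf.elim)
    have h8 : X ^ Fp c () (xv Dq X k ps (l + c * k) ps') () =
        Real.exp (lf cFP k (LL Dq ps) l (LL Dq ps')) := by
      rw [← hexp, lf_cFP]
      congr 1
      unfold Fp xv
      simp only [Matrix.cons_val_zero, Matrix.cons_val_one, Matrix.cons_val]
      ring
    rw [h8] at h7
    exact h7

/-- **the raw rule for pairs, class E** -/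
theorem rawPBx {h : ℝ → ℝ} {c₁ : ℝ} (hpu : PU h c₁) {π : Λ → DPar} (hP : ∀ lam, (π lam).OK)
    (hPM : ∀ lam, PM1P h (π lam)) {c : ℝ} (hc : 0 ≤ c) {κ : ℝ} {u : List ℝ} {m a E : ℝ}
    (hκ : 0 ≤ κ) (hu : Okl u m a) (hE : (1 + c) * κ + (u.sum + m + a) ≤ E)
    (hE' : (1 + 2 * c) / 3 * κ + 2 * (u.sum + m + a) ≤ E)
    (hch : ∀ (u' : List ℝ) (m' a' l : ℝ), Shl u' u → 0 ≤ m' → m' ≤ m → 0 ≤ a' → a' ≤ a →
      0 ≤ l → 2 * (u'.sum + m' + a') - κ ≤ l - c * κ →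
      (l - c * κ) + (u'.sum + m' + a') ≤ 3 * (u.sum + m + a) - κ →
      BG Dq (fun lam => SKq Dk (π lam) h) l u' (wt m' a')
        (E - (u.sum + m + a) - κ / 3 + 2 / 3 * ((l - c * κ) + (u'.sum + m' + a')))) :
    BG Dq (PQs c π h) κ u (wt m a) E := by
  refine ruleBGe (D := Dq) (cost := hcost) (Θ := Unit) (ι := Unit) (Ψ := PQs c π h)
    (Φ := fun _ lam => SKq Dk (π lam) h) one_le_hcost (fun p => by
      rw [Dq_s1]; linarith [abs_nonneg p.t]) (G := Gp c) (F := Fp c) (cont_Gp c) (cont_Fp c)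
    (H := Hp κ (u.sum + m + a)) (A := Ax c) (cont_Hp _ _) (cont_Ax _)
    (zl := fun _ => False) (cl := clp c κ (u.sum + m + a)) ?_
    (fun lam N c₀ hc₀ => rulePBx hPM hc _ _ lam N c₀ hc₀)
    (fun _ lam N => Dk848.trivL_SD (hP lam) hpu N) hκ hu ?_ ?_ ?_
  · intro lam l l' ps hl
    exact PM2Q_mono (fun _ h => h) hl (mul_le_mul_of_nonneg_left hl hc) _
  · show max (κ - κ) (u.sum + m + a - (u.sum + m + a)) ≤ 0
    simp
  · show max ((1 + c) * κ + (u.sum + m + a)) ((1 + 2 * c) / 3 * κ + 2 * (u.sum + m + a)) ≤ E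
    exact max_le hE hE'
  · intro j θ u' m' a' l hsh h0 h1 h2 h3 hl _ hG _
    have g : max (-κ - (l - c * κ) + 2 * (u'.sum + m' + a'))
        (κ - 3 * (u.sum + m + a) + (l - c * κ) + (u'.sum + m' + a')) ≤ 0 := hG
    have g1 := (le_max_left _ _).trans g
    have g2 := (le_max_right _ _).trans g
    have h4 := hch u' m' a' l hsh h0 h1 h2 h3 hl (by linarith) (by linarith)
    have e : E + Fp c j ![κ, u.sum + m + a, l, u'.sum + m' + a'] θ =
        E - (u.sum + m + a) - κ / 3 + 2 / 3 * ((l - c * κ) + (u'.sum + m' + a')) := by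
      show E + (-κ / 3 - (u.sum + m + a) + 2 / 3 * ((l - c * κ) + (u'.sum + m' + a'))) = _
      ring
    rw [e]
    exact h4

/-- **`PairRules.base`** for any data -/
theorem base_of {h : ℝ → ℝ} {c₁ : ℝ} (hpu : PU h c₁) {π : Λ → DPar} (hP : ∀ lam, (π lam).OK)
    (hPM : ∀ lam, PM1P h (π lam)) {κ b : ℝ} {u : List ℝ} {m a E : ℝ} (hκ : 0 ≤ κ) (hb : 0 ≤ b)
    (hu : Okl u m a)
    (H : PMx (ex Dq (fun lam => SKq Dk (π lam) h)) κ b (u : Multiset ℝ) m a E)
    (hE2 : 2 * (u.sum + m + a) + (κ + 2 * b) / 3 ≤ E) :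
    BG2 Dq (PQe π h) κ b u (wt m a) E := by
  obtain ⟨hE1, hch⟩ := H
  have hsu : (u : Multiset ℝ).sum = u.sum := Multiset.sum_coe u
  rw [hsu] at hE1 hch
  refine bg2_of_slope hκ hb fun ε hε => ⟨ε / 2, by linarith, ?_⟩
  have hη : 0 < κ + ε / 2 := by linarith
  have hc0 : 0 ≤ (b + ε / 2) / (κ + ε / 2) := by positivity
  have hcb : (b + ε / 2) / (κ + ε / 2) * (κ + ε / 2) = b + ε / 2 := div_mul_cancel₀ _ hη.ne'
  refine rawPBx hpu hP hPM hc0 hη.le hu (by rw [add_mul, hcb]; linarith) ?_ ?_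
  · have e1 : (1 + 2 * ((b + ε / 2) / (κ + ε / 2))) / 3 * (κ + ε / 2) =
        (κ + ε / 2) / 3 + 2 / 3 * ((b + ε / 2) / (κ + ε / 2) * (κ + ε / 2)) := by ring
    rw [e1, hcb]
    linarith
  intro u' m' a' l hsh hm0 hm1 ha0 ha1 hl hl1 hl2
  rw [hcb] at hl1 hl2 ⊢
  have hsum : (u' : Multiset ℝ).sum = u'.sum := Multiset.sum_coe u'
  have hs' := shl_sum_le hsh
  have hs0 : 0 ≤ u'.sum := List.sum_nonneg hsh.nonneg
  obtain ⟨n1, hn1⟩ : ∃ x : ℝ, x = (l - b + (u'.sum + m' + a') + κ) / 3 := ⟨_, rfl⟩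
  have hl' : b + 3 * n1 - (u'.sum + m' + a') - κ = l := by rw [hn1]; ring
  have h1 : u'.sum + m' + a' ≤ n1 := by linarith
  have h2 : n1 ≤ u.sum + m + a := by linarith
  rcases le_total κ (2 * n1) with h3 | h3
  · have h4 := hch (u' : Multiset ℝ) m' a' (u'.sum + m' + a') n1 hsh.sh hm0 hm1 ha0 ha1
      (by rw [hsum]) h1 h2 h3
    rw [hl'] at h4
    exact BG_of_ex (Dk848.pinv_SD π h) (Dk848.triv_SD hP hpu) hl ⟨hsh.nonneg, hm0, ha0⟩
      (by linarith)
  · refine (Dk848.bg_SKq hP hpu l u' m' a').mono ?_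
    refine max_le (by linarith) (max_le (by linarith) (by linarith))

end Crest.Agent.R017.XFt590
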