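import Crest.Agent.R017.XFt_590
import Crest.Agent.R017.XF1b_829
import Crest.Agent.R017.RGE8_545

/-!
# Row 17, T.7, class E: the base pair rule (helper590)

* `pm1P` : helper829's `PM1_list` for one set of data
* `base_E` : the field `base` of `PairRules`
* `pairRules_E` : `PairRules` from the field `repl`
-/

set_option autoImplicit false

noncomputable section

namespace Crest.Agent.R017.XFt590

open Crest.Agent.R012 Crest.Agent.R012.Eis Crest.Agent.R012.LS2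
open Crest.Agent.R017.FE47 (PU)
open Crest.Agent.R017.B770
open Crest.Agent.R017.Prov71
open Crest.Agent.R017.XP699
open Crest.Agent.R017.RuleM545
open Crest.Agent.R017.ER911 (EF)
open Crest.Agent.R017.PM320 (PMx Clo)
open Crest.Agent.R017.RGB545
open Crest.Agent.R017.XPD571
open Crest.Agent.R017.Red848

variable {Λ : Type*}

/-- the one-list pair rule -/
theorem pm1P {h : ℝ → ℝ} {c : ℝ} (hpu : PU h c) {P : DPar} (hP : P.OK) : PM1P h P := by
  intro M hM N ε hε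
  obtain ⟨C, r, hC, hr, H⟩ := XF829.PM1_list hpu hM N hε
  exact ⟨C, r, 0, hC, hr, fun X hX _ => H P hP X hX⟩

/-- **the field `base`**, any data -/
theorem base_any {h : ℝ → ℝ} {c : ℝ} (hpu : PU h c) {π : Λ → DPar} (hP : ∀ lam, (π lam).OK) :
    ∀ (i b : ℝ) (u : List ℝ) (m a ρ : ℝ), 0 ≤ i → 0 ≤ b → Okl u m a →
      PMx (ex Dq (fun lam => XC858.SKq PX764.Dk (π lam) h)) i b (u : Multiset ℝ) m a ρ →
      2 * (u.sum + m + a) + (i + 2 * b) / 3 ≤ ρ → BG2 Dq (PQe π h) i b u (wt m a) ρ :=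
  fun _ _ _ _ _ _ hi hb hu H h2 => base_of hpu hP (fun lam => pm1P hpu (hP lam)) hi hb hu H h2

/-- **the field `base`** of class E -/
theorem base_E {h : ℝ → ℝ} {c : ℝ} (hpu : PU h c) {π : Λ → DPar}
    (hP : ∀ lam, (rdE π lam).OK) :
    ∀ (i b : ℝ) (u : List ℝ) (m a ρ : ℝ), 0 ≤ i → 0 ≤ b → Okl u m a →
      PMx (ex Dq (SPe π h)) i b (u : Multiset ℝ) m a ρ →
      2 * (u.sum + m + a) + (i + 2 * b) / 3 ≤ ρ → BG2 Dq (PQe (rdE π) h) i b u (wt m a) ρ :=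
  base_any hpu hP

/-- **the pair rules of class E** from the field `repl` -/
theorem pairRules_E {h : ℝ → ℝ} {c : ℝ} (hpu : PU h c) {π : Λ → DPar}
    (hP : ∀ lam, (rdE π lam).OK) (hc : Clo (rdE π))
    (hrepl : ∀ (i b y₁ y₂ δ : ℝ) (u : List ℝ) (m a ρ : ℝ), 0 ≤ i → 0 ≤ b →
      Okl (y₁ :: y₂ :: u) m a → 0 ≤ δ → δ ≤ y₁ → δ ≤ y₂ →
      PMx (ex Dq (SPe π h)) i b ((y₁ :: y₂ :: u : List ℝ) : Multiset ℝ) m a ρ →
      PMx (ex Dq (SPe π h)) i b (((y₁ + y₂ - δ) :: δ :: u : List ℝ) : Multiset ℝ) m a ρ →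
      2 * (y₁ + y₂ + u.sum + m + a) + (i + 2 * b) / 3 - δ ≤ ρ →
      BG2 Dq (PQe (rdE π) h) i b ((y₁ + y₂ - δ) :: δ :: u) (wt m a) ρ →
      BG2 Dq (PQe (rdE π) h) i b (y₁ :: y₂ :: u) (wt m a) ρ) :
    PairRules (rdE π) h (ex Dq (SPe π h)) :=
  pairRules_of hpu hP hc (base_E hpu hP) hrepl

end Crest.Agent.R017.XFt590
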