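import Crest.Agent.R017.XG2_702

/-!
# Row 17: granular robust exponents as numbers (helper702)

* `BG.scale` : homogeneity
* `rG D Ψ κ Y w` : the best exponent `≥ 0` (`Y : Multiset ℝ` lumps, `w` masses)
* `rG_spec`, `rG_le`, `rG_nonneg`, `rG_scale`
-/

set_option autoImplicit false
set_option linter.unusedSectionVars false
set_option linter.unusedVariables false

noncomputable section

open Set Filter Topology

namespace Crest.Agent.R017.XG702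

variable {Pc τ Lam : Type*} [DecidableEq τ] {D : Pcs Pc τ}

lemma nl_rpow {X c : ℝ} (hX : 0 < X) (p : Pc) : D.nl (X ^ c) p = D.nl X p / c := by
  unfold Pcs.nl
  rw [Real.log_rpow hX, div_div, mul_comm]

lemma mass_rpow {X c : ℝ} (hX : 0 < X) (ps : List Pc) (t : τ) :
    D.mass (X ^ c) ps t = D.mass X ps t / c := by
  induction ps with
  | nil => simp
  | cons p ps ih =>
    rw [Pcs.mass_cons, Pcs.mass_cons, ih, nl_rpow hX]
    split_ifs <;> ring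

/-- **homogeneity** -/
theorem BG.scale {Ψ : Lam → ℝ → List Pc → ℝ} {κ : ℝ} {u : List ℝ} {w : τ → ℝ} {e : ℝ}
    (h : BG D Ψ κ u w e) {c : ℝ} (hc : 0 < c) :
    BG D Ψ (c * κ) (u.map (c * ·)) (fun t => c * w t) (c * e) := by
  intro ε hε
  obtain ⟨δ, hδ, L⟩ := h (ε / c) (by positivity)
  refine ⟨δ * c, by positivity, fun lam N B => ?_⟩
  obtain ⟨η, hη, X₀, hX₀, K⟩ := L lam N (B / c)
  have hcinv : 0 < c⁻¹ := by positivity
  refine ⟨η * c, by positivity, X₀ ^ c⁻¹, Real.one_lt_rpow hX₀ hcinv, ?_⟩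
  intro X hX k us gs hk hnear hgran hgood
  have hX1 : 1 < X := lt_of_lt_of_le (Real.one_lt_rpow hX₀ hcinv) hX
  have hX0 : 0 < X := by linarith
  have hX0' : 0 < X₀ := by linarith
  have hY : X₀ ≤ X ^ c := by
    have := Real.rpow_le_rpow (Real.rpow_nonneg hX0'.le _) hX hc.le
    rwa [← Real.rpow_mul hX0'.le, inv_mul_cancel₀ hc.ne', Real.rpow_one] at this
  have hdiv : ∀ {a b : ℝ}, |a - c * b| ≤ δ * c → |a / c - b| ≤ δ := by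
    intro a b hab
    have e : a / c - b = (a - c * b) / c := by field_simp
    rw [e, abs_div, abs_of_pos hc, div_le_iff₀ hc]
    exact hab
  have key := K (X ^ c) hY (k / c) us gs (hdiv hk) ?_ ?_ ?_
  · have e1 : k / c * Real.log (X ^ c) = k * Real.log X := by
      rw [Real.log_rpow hX0]; field_simp
    rw [e1, ← Real.rpow_mul hX0.le] at key
    have e2 : c * (e + ε / c) = c * e + ε := by field_simp
    rwa [e2] at key
  · unfold Pcs.Near at hnear ⊢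
    rw [List.forall₂_map_right_iff] at hnear
    refine hnear.imp fun p x hp => ⟨hp.1, ?_⟩
    rw [nl_rpow hX0]
    exact hdiv hp.2
  · refine ⟨hgran.1, fun g hg => ?_, fun t => ?_⟩
    · rw [nl_rpow hX0, div_le_iff₀ hc]
      exact hgran.2.1 g hg
    · rw [mass_rpow hX0]
      exact hdiv (hgran.2.2 t)
  · intro p hp
    obtain ⟨h1, h2, h3⟩ := hgood p hp
    refine ⟨?_, ?_, h3⟩
    · rw [← Real.rpow_mul hX0.le, mul_comm c η]; exact h1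
    · rw [← Real.rpow_mul hX0.le, mul_div_cancel₀ _ hc.ne']; exact h2

lemma BG.congr_w {Ψ : Lam → ℝ → List Pc → ℝ} {κ : ℝ} {u : List ℝ} {w w' : τ → ℝ} {e : ℝ}
    (h : BG D Ψ κ u w e) (hw : ∀ t, w t = w' t) : BG D Ψ κ u w' e := by
  have : w = w' := funext hw
  rwa [← this]

/-- the set of admissible exponents -/
def GS (D : Pcs Pc τ) (Ψ : Lam → ℝ → List Pc → ℝ) (κ : ℝ) (Y : Multiset ℝ) (w : τ → ℝ) : Set ℝ :=
  {e | 0 ≤ e ∧ BG D Ψ κ Y.toList w e}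

/-- **the exponent** -/
def rG (D : Pcs Pc τ) (Ψ : Lam → ℝ → List Pc → ℝ) (κ : ℝ) (Y : Multiset ℝ) (w : τ → ℝ) : ℝ :=
  sInf (GS D Ψ κ Y w)

lemma GS_bddBelow {Ψ : Lam → ℝ → List Pc → ℝ} {κ : ℝ} {Y : Multiset ℝ} {w : τ → ℝ} :
    BddBelow (GS D Ψ κ Y w) := ⟨0, fun _ h => h.1⟩

lemma rG_nonneg {Ψ : Lam → ℝ → List Pc → ℝ} {κ : ℝ} {Y : Multiset ℝ} {w : τ → ℝ} :
    0 ≤ rG D Ψ κ Y w := Real.sInf_nonneg fun _ h => h.1

/-- the trivial bound: every configuration has an exponent -/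
def Tr (D : Pcs Pc τ) (Ψ : Lam → ℝ → List Pc → ℝ) (κ : ℝ) (Y : Multiset ℝ) (w : τ → ℝ) : Prop :=
  (GS D Ψ κ Y w).Nonempty

/-- lists with the multiset `Y` -/
lemma BG.of_toList {Ψ : Lam → ℝ → List Pc → ℝ} (hΨ : ∀ lam l ps qs, ps.Perm qs → Ψ lam l ps = Ψ lam l qs) {κ : ℝ}
    {u : List ℝ} {w : τ → ℝ} {e : ℝ} (h : BG D Ψ κ (Multiset.toList (u : Multiset ℝ)) w e) :
    BG D Ψ κ u w e := h.perm hΨ (by
  rw [← Multiset.coe_eq_coe]; exact Multiset.coe_toList _)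

lemma BG.to_toList {Ψ : Lam → ℝ → List Pc → ℝ} (hΨ : ∀ lam l ps qs, ps.Perm qs → Ψ lam l ps = Ψ lam l qs) {κ : ℝ}
    {u : List ℝ} {w : τ → ℝ} {e : ℝ} (h : BG D Ψ κ u w e) :
    BG D Ψ κ (Multiset.toList (u : Multiset ℝ)) w e := h.perm hΨ (by
  rw [← Multiset.coe_eq_coe]; exact (Multiset.coe_toList _).symm)

/-- the exponent is attained -/
theorem rG_spec {Ψ : Lam → ℝ → List Pc → ℝ} {κ : ℝ} {Y : Multiset ℝ} {w : τ → ℝ}
    (ht : Tr D Ψ κ Y w) : BG D Ψ κ Y.toList w (rG D Ψ κ Y w) := by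
  refine BG.of_forall fun e' he' => ?_
  obtain ⟨e, he, hlt⟩ := exists_lt_of_csInf_lt ht he'
  exact he.2.mono hlt.le

theorem rG_le {Ψ : Lam → ℝ → List Pc → ℝ} {κ : ℝ} {Y : Multiset ℝ} {w : τ → ℝ} {e : ℝ} (he : 0 ≤ e)
    (h : BG D Ψ κ Y.toList w e) : rG D Ψ κ Y w ≤ e := csInf_le GS_bddBelow ⟨he, h⟩

theorem rG_le_iff {Ψ : Lam → ℝ → List Pc → ℝ} {κ : ℝ} {Y : Multiset ℝ} {w : τ → ℝ} {e : ℝ}
    (ht : Tr D Ψ κ Y w) : rG D Ψ κ Y w ≤ e ↔ 0 ≤ e ∧ BG D Ψ κ Y.toList w e :=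
  ⟨fun h => ⟨rG_nonneg.trans h, (rG_spec ht).mono h⟩, fun h => rG_le h.1 h.2⟩

/-- the form in which certificates are used: `rG ≤ e → BG e` for a list of lumps -/
theorem BG_of_rG_le {Ψ : Lam → ℝ → List Pc → ℝ} (hΨ : ∀ lam l ps qs, ps.Perm qs → Ψ lam l ps = Ψ lam l qs) {κ : ℝ}
    {u : List ℝ} {w : τ → ℝ} {e : ℝ} (ht : Tr D Ψ κ u w) (h : rG D Ψ κ (u : Multiset ℝ) w ≤ e) :
    BG D Ψ κ u w e := (BG.of_toList hΨ (rG_spec ht)).mono h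

theorem rG_le' {Ψ : Lam → ℝ → List Pc → ℝ} (hΨ : ∀ lam l ps qs, ps.Perm qs → Ψ lam l ps = Ψ lam l qs) {κ : ℝ}
    {u : List ℝ} {w : τ → ℝ} {e : ℝ} (he : 0 ≤ e) (h : BG D Ψ κ u w e) :
    rG D Ψ κ (u : Multiset ℝ) w ≤ e := rG_le he (BG.to_toList hΨ h)

theorem Tr.scale {Ψ : Lam → ℝ → List Pc → ℝ} (hΨ : ∀ lam l ps qs, ps.Perm qs → Ψ lam l ps = Ψ lam l qs) {κ : ℝ}
    {Y : Multiset ℝ} {w : τ → ℝ} (ht : Tr D Ψ κ Y w) {c : ℝ} (hc : 0 < c) :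
    Tr D Ψ (c * κ) (Y.map (c * ·)) (fun t => c * w t) := by
  obtain ⟨e, he, h⟩ := ht
  refine ⟨c * e, by positivity, ?_⟩
  refine (h.scale hc).perm hΨ ?_
  rw [← Multiset.coe_eq_coe, Multiset.coe_toList, ← Multiset.map_coe, Multiset.coe_toList]

/-- homogeneity -/
theorem rG_scale_le {Ψ : Lam → ℝ → List Pc → ℝ} (hΨ : ∀ lam l ps qs, ps.Perm qs → Ψ lam l ps = Ψ lam l qs) {κ : ℝ}
    {Y : Multiset ℝ} {w : τ → ℝ} (ht : Tr D Ψ κ Y w) {c : ℝ} (hc : 0 < c) :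
    rG D Ψ (c * κ) (Y.map (c * ·)) (fun t => c * w t) ≤ c * rG D Ψ κ Y w := by
  refine rG_le (mul_nonneg hc.le rG_nonneg) ?_
  refine ((rG_spec ht).scale hc).perm hΨ ?_
  rw [← Multiset.coe_eq_coe, Multiset.coe_toList, ← Multiset.map_coe, Multiset.coe_toList]

theorem rG_scale {Ψ : Lam → ℝ → List Pc → ℝ} (hΨ : ∀ lam l ps qs, ps.Perm qs → Ψ lam l ps = Ψ lam l qs) {κ : ℝ}
    {Y : Multiset ℝ} {w : τ → ℝ} (ht : Tr D Ψ κ Y w) {c : ℝ} (hc : 0 < c) :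
    rG D Ψ (c * κ) (Y.map (c * ·)) (fun t => c * w t) = c * rG D Ψ κ Y w := by
  refine le_antisymm (rG_scale_le hΨ ht hc) ?_
  have h := rG_scale_le hΨ (ht.scale hΨ hc) (inv_pos.2 hc)
  have e1 : c⁻¹ * (c * κ) = κ := by field_simp
  have e2 : (Y.map (c * ·)).map (c⁻¹ * ·) = Y := by
    rw [Multiset.map_map]
    conv_rhs => rw [← Multiset.map_id Y]
    refine Multiset.map_congr rfl fun x _ => ?_
    simp only [Function.comp, id]; field_simp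
  have e3 : (fun t => c⁻¹ * (c * w t)) = w := by funext t; field_simp
  rw [e1, e2, e3] at h
  calc c * rG D Ψ κ Y w ≤ c * (c⁻¹ * rG D Ψ (c * κ) (Y.map (c * ·)) (fun t => c * w t)) :=
        mul_le_mul_of_nonneg_left h hc.le
    _ = _ := by field_simp

/-- a lump of length `0` -/
theorem rG_zero {Ψ : Lam → ℝ → List Pc → ℝ} (hΨ : ∀ lam l ps qs, ps.Perm qs → Ψ lam l ps = Ψ lam l qs) {κ : ℝ}
    {Y : Multiset ℝ} {w : τ → ℝ} (ht : Tr D Ψ κ Y w) :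
    rG D Ψ κ (0 ::ₘ Y) w ≤ rG D Ψ κ Y w := by
  refine rG_le rG_nonneg ?_
  refine (BG.zero hΨ (rG_spec ht)).perm hΨ ?_
  rw [← Multiset.coe_eq_coe, Multiset.coe_toList, ← Multiset.cons_coe, Multiset.coe_toList]

/-- Cauchy-Schwarz for a partition -/
theorem BG_of_parts {Ψ Φ : Lam → ℝ → List Pc → ℝ} (hΨ : ∀ lam l ps qs, ps.Perm qs → Ψ lam l ps = Ψ lam l qs)
    {κ : ℝ} {u : List ℝ} {Y₁ Y₂ : Multiset ℝ} {w₁ w₂ : τ → ℝ}
    (ht₁ : Tr D Φ κ Y₁ w₁) (ht₂ : Tr D Φ κ Y₂ w₂) (hw₁ : ∀ t, 0 ≤ w₁ t) (hw₂ : ∀ t, 0 ≤ w₂ t)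
    (hu : (u : Multiset ℝ) = Y₁ + Y₂)
    (H : ∀ lam l ps p₁ p₂, ps.Perm (p₁ ++ p₂) →
      Ψ lam l ps ≤ Real.sqrt (Φ lam l p₁) * Real.sqrt (Φ lam l p₂)) :
    BG D Ψ κ u (fun t => w₁ t + w₂ t) ((rG D Φ κ Y₁ w₁ + rG D Φ κ Y₂ w₂) / 2) := by
  refine (BG.cauchy (rG_spec ht₁) (rG_spec ht₂) hw₁ hw₂ H).perm hΨ ?_
  rw [← Multiset.coe_eq_coe, hu, ← Multiset.coe_add, Multiset.coe_toList, Multiset.coe_toList]

end Crest.Agent.R017.XG702
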