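import Crest.Agent.R017.FE10_47
import Crest.Agent.R017.FE9_47
import Crest.Agent.R017.EndO_699

/-!
# Row 17, two-level flip (helper739), part 1: pointwise lemmas for smooth sums

* `grid1`, `grid2` : a smooth sum of any length from the averages at the scales `c n`
* `step_p`, `euler_one`, `euler_all` : removal of a coprimality condition (Euler factors)
-/

set_option autoImplicit false

noncomputable section

open Complex MeasureTheory Filter Topology
open scoped ContDiff ComplexConjugate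

namespace Crest.Agent.R017.XG739

open Crest.Agent.R012 Crest.Agent.R012.Eis Crest.Agent.R012.Gauss880
open Crest.Agent.R012.Weight600 (osc norm_osc)
open Crest.Agent.R012.PSer47 Crest.Agent.R012.Div277 Crest.Agent.R012.Mob705
open Crest.Agent.R017.End699 Crest.Agent.R017.FE47

/-! ### scales -/

/-- the scales up to `z` -/
def Gr (c R z : ℝ) : Finset ℕ := Finset.range (⌊(z + R) / c⌋₊ + 1)

lemma card_Gr {c R z : ℝ} (hc : 0 < c) (hR : 0 ≤ R) (hz : 0 ≤ z) :
    ((Gr c R z).card : ℝ) ≤ (z + R) / c + 1 := by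
  unfold Gr
  rw [Finset.card_range]
  push_cast
  have : ((⌊(z + R) / c⌋₊ : ℕ) : ℝ) ≤ (z + R) / c := Nat.floor_le (by positivity)
  linarith

lemma mem_Gr_le {c R z : ℝ} (hc : 0 < c) (hR : 0 ≤ R) (hz : 0 ≤ z) {n : ℕ} (hn : n ∈ Gr c R z) :
    c * n ≤ z + R := by
  unfold Gr at hn
  rw [Finset.mem_range] at hn
  have h1 : n ≤ ⌊(z + R) / c⌋₊ := by omega
  have h2 : ((⌊(z + R) / c⌋₊ : ℕ) : ℝ) ≤ (z + R) / c := Nat.floor_le (by positivity)
  have h3 : (n : ℝ) ≤ ((⌊(z + R) / c⌋₊ : ℕ) : ℝ) := by exact_mod_cast h1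
  have h4 : (n : ℝ) ≤ (z + R) / c := h3.trans h2
  rw [le_div_iff₀ hc] at h4
  linarith

lemma TN_sq {h : ℝ → ℝ} (hcn : Continuous h) (hs : HasCompactSupport h) {K : ℕ} (hK : 2 ≤ K)
    {Ξ : Eis → ℂ} (hΞ : ∀ b, IsPrim b → ‖Ξ b‖ ≤ 1) (x : ℝ) :
    TN h Ξ K x ^ 2 ≤ (∫ t : ℝ, ((1 + |t|) ^ K)⁻¹) * TN2 h Ξ K x := by
  refine sq_le_of_forall (TN_nonneg _ _ _ _) (integral_nonneg fun _ => by positivity)
    fun θ hθ => ?_
  unfold TN TN2
  rw [← integral_const_mul, ← integral_const_mul, ← integral_const_mul, ← integral_add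
    ((integrable_wt hK).const_mul _) ((integrable_TN2 hcn hs hK hΞ _).const_mul _)]
  apply integral_mono ((integrable_TN hcn hs hK hΞ _).const_mul _)
    (((integrable_wt hK).const_mul _).add ((integrable_TN2 hcn hs hK hΞ _).const_mul _))
  intro t
  simp only [Pi.add_apply]
  have h1 : 0 ≤ ((1 + |t|) ^ K)⁻¹ := by positivity
  set x := ‖PS (cx h) Ξ x t‖
  have h2 : 2 * x ≤ θ + θ⁻¹ * x ^ 2 := by
    have h3 : 0 ≤ θ⁻¹ * (θ - x) ^ 2 := by positivity
    have h4 : θ⁻¹ * (θ - x) ^ 2 = θ - 2 * x + θ⁻¹ * x ^ 2 := by field_simp; ring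
    linarith
  nlinarith [mul_le_mul_of_nonneg_left h2 h1]

/-- **a smooth sum of length at most `z` from the averages at the scales** -/
theorem grid1 {h : ℝ → ℝ} {c : ℝ} (hpu : PU h c) : ∃ R : ℝ, 0 ≤ R ∧ ∀ K : ℕ, 2 ≤ K → ∃ C : ℝ,
    0 ≤ C ∧ ∀ Ξ : Eis → ℂ, (∀ b, IsPrim b → ‖Ξ b‖ ≤ 1) → ∀ κ z t : ℝ, 0 ≤ z → κ ≤ z →
      ‖PS (cx h) Ξ κ t‖ ≤ C * (1 + |t|) ^ K * ∑ n ∈ Gr c R z, TN h Ξ K (c * n) := by
  have hcd := cd_cx hpu.cd
  have hcs := cs_cx hpu.cs
  obtain ⟨R, hR0, hR⟩ := exists_R hcs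
  refine ⟨2 * R, by positivity, fun K hK => ?_⟩
  obtain ⟨C, hC, hdec⟩ := Weight600.ker_decay hcd hcs K
  have hki := Weight600.ker_integrable hcd hcs
  refine ⟨C, hC.le, fun Ξ hΞ κ z t hz hκ => ?_⟩
  set N : ℕ := ⌊Real.exp (z + 3 * R)⌋₊ with hN
  have hNlt : Real.exp (z + 3 * R) < N + 1 := Nat.lt_floor_add_one _
  have hN1 : Real.exp (κ + R) < N + 1 := (Real.exp_le_exp.2 (by linarith)).trans_lt hNlt
  have hN2 : ∀ n ∈ Gr c (2 * R) z, Real.exp (c * n + R) < N + 1 := by
    intro n hn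
    have := mem_Gr_le hpu.cpos (by positivity) hz hn
    exact (Real.exp_le_exp.2 (by linarith)).trans_lt hNlt
  -- the partition
  have hpart : ∀ b : Eis, IsPrim b → cx h (Real.log (nm b) - κ) *
      ∑ n ∈ Gr c (2 * R) z, cx h (Real.log (nm b) - c * n) = cx h (Real.log (nm b) - κ) := by
    intro b hb
    by_cases h0 : cx h (Real.log (nm b) - κ) = 0
    · rw [h0, zero_mul]
    have hL0 := log_nm_nonneg hb
    have h1 := (abs_le.mp (hR _ h0)).2
    have h2 := hpu.one _ hL0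
    have h3 : ∀ n : ℕ, n ∉ Gr c (2 * R) z → h (Real.log (nm b) - c * n) = 0 := by
      intro n hn
      by_contra h4
      have h5 : cx h (Real.log (nm b) - c * n) ≠ 0 := by
        unfold cx
        exact_mod_cast h4
      have h6 := (abs_le.mp (hR _ h5)).1
      apply hn
      unfold Gr
      rw [Finset.mem_range]
      have h7 : c * n ≤ z + 2 * R := by linarith
      have h8 : (n : ℝ) ≤ (z + 2 * R) / c := by
        rw [le_div_iff₀ hpu.cpos]; linarith
      have := Nat.le_floor h8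
      omega
    rw [tsum_eq_sum h3] at h2
    have h4 : ∑ n ∈ Gr c (2 * R) z, cx h (Real.log (nm b) - c * n) = 1 := by
      unfold cx
      rw [← Complex.ofReal_sum, h2, Complex.ofReal_one]
    rw [h4, mul_one]
  have e2 : ∀ n ∈ Gr c (2 * R) z, ∫ s, Weight600.ker (cx h) s *
      (osc s (-κ) * PS (cx h) Ξ (c * n) (t + s)) =
      ∑ b ∈ primBall N, Ξ b * (osc t (Real.log (nm b)) * cx h (Real.log (nm b) - κ)) *
        cx h (Real.log (nm b) - c * n) := by
    intro n hn
    have e3 : (fun s => Weight600.ker (cx h) s * (osc s (-κ) * PS (cx h) Ξ (c * n) (t + s))) =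
        fun s => ∑ b ∈ primBall N, Weight600.ker (cx h) s * osc s (Real.log (nm b) - κ) *
          (Ξ b * (osc t (Real.log (nm b)) * cx h (Real.log (nm b) - c * n))) := by
      funext s
      rw [PS_eq_sum hR Ξ (c * n) (t + s) (hN2 n hn), Finset.mul_sum, Finset.mul_sum]
      refine Finset.sum_congr rfl fun b _ => ?_
      have e4 : osc s (Real.log (nm b) - κ) = osc s (-κ) * osc s (Real.log (nm b)) := by
        rw [← Weight600.osc_add_right]; congr 1; ring
      have e5 : osc (t + s) (Real.log (nm b)) =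
          osc t (Real.log (nm b)) * osc s (Real.log (nm b)) := by
        rw [← Weight600.osc_add_left]
      rw [e4, e5]
      ring
    rw [e3, integral_finsetSum _ (fun b _ => (integrable_mul_osc hki _).mul_const _)]
    refine Finset.sum_congr rfl fun b _ => ?_
    rw [integral_mul_const, Weight600.inversion_smooth hcd hcs]
    ring
  have e1 : PS (cx h) Ξ κ t = ∑ n ∈ Gr c (2 * R) z, ∫ s, Weight600.ker (cx h) s *
      (osc s (-κ) * PS (cx h) Ξ (c * n) (t + s)) := by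
    rw [Finset.sum_congr rfl e2, Finset.sum_comm, PS_eq_sum hR Ξ κ t hN1]
    refine Finset.sum_congr rfl fun b hb => ?_
    rw [mem_primBall] at hb
    rw [← Finset.mul_sum, mul_assoc (Ξ b), mul_assoc (osc t (Real.log (nm b))), hpart b hb.2]
  rw [e1, Finset.mul_sum]
  refine (norm_sum_le _ _).trans (Finset.sum_le_sum fun n _ => ?_)
  have hcont : Continuous fun s => ‖PS (cx h) Ξ (c * n) (t + s)‖ :=
    ((continuous_PS hcs Ξ (c * n)).comp (continuous_const.add continuous_id)).norm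
  obtain ⟨CT, hCT, hT⟩ := norm_PS_le hcd.continuous hcs
  have hbd : ∀ s : ℝ, ‖(‖PS (cx h) Ξ (c * n) (t + s)‖ : ℝ)‖ ≤ CT * Real.exp (c * n) := by
    intro s
    rw [norm_norm]
    exact hT Ξ hΞ _ _
  have hcont' : Continuous fun s => ‖PS (cx h) Ξ (c * n) s‖ := (continuous_PS hcs Ξ (c * n)).norm
  have hbd' : ∀ s : ℝ, ‖(‖PS (cx h) Ξ (c * n) s‖ : ℝ)‖ ≤ CT * Real.exp (c * n) := by
    intro s
    rw [norm_norm]
    exact hT Ξ hΞ _ _
  calc ‖∫ s, Weight600.ker (cx h) s * (osc s (-κ) * PS (cx h) Ξ (c * n) (t + s))‖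
      ≤ ∫ s, ‖Weight600.ker (cx h) s * (osc s (-κ) * PS (cx h) Ξ (c * n) (t + s))‖ :=
        norm_integral_le_integral_norm _
    _ = ∫ s, ‖Weight600.ker (cx h) s‖ * ‖PS (cx h) Ξ (c * n) (t + s)‖ := by
        congr 1; funext s
        rw [norm_mul, norm_mul, norm_osc, one_mul]
    _ ≤ ∫ s, C * (((1 + |s|) ^ K)⁻¹ * ‖PS (cx h) Ξ (c * n) (t + s)‖) := by
        refine integral_mono (hki.norm.mul_bdd (c := CT * Real.exp (c * n))
          hcont.aestronglyMeasurable (Eventually.of_forall hbd))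
          (((integrable_wt hK).mul_bdd (c := CT * Real.exp (c * n))
          hcont.aestronglyMeasurable (Eventually.of_forall hbd)).const_mul _) fun s => ?_
        have h1 := hdec s
        have h2 : 0 < (1 + |s|) ^ K := by positivity
        have h3 : ‖Weight600.ker (cx h) s‖ ≤ C * ((1 + |s|) ^ K)⁻¹ := by
          rw [← div_eq_mul_inv, le_div_iff₀ h2]; exact h1
        calc ‖Weight600.ker (cx h) s‖ * ‖PS (cx h) Ξ (c * n) (t + s)‖
            ≤ C * ((1 + |s|) ^ K)⁻¹ * ‖PS (cx h) Ξ (c * n) (t + s)‖ := by gcongr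
          _ = _ := by ring
    _ = ∫ s, C * (((1 + |s - t|) ^ K)⁻¹ * ‖PS (cx h) Ξ (c * n) s‖) := by
        rw [← integral_add_left_eq_self
          (fun s => C * (((1 + |s - t|) ^ K)⁻¹ * ‖PS (cx h) Ξ (c * n) s‖)) t]
        congr 1; funext s
        rw [add_sub_cancel_left]
    _ ≤ ∫ s, C * (1 + |t|) ^ K * (((1 + |s|) ^ K)⁻¹ * ‖PS (cx h) Ξ (c * n) s‖) := by
        have hwt : Integrable fun s : ℝ => ((1 + |s - t|) ^ K)⁻¹ :=
          (integrable_wt hK).comp_sub_right t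
        refine integral_mono ((hwt.mul_bdd (c := CT * Real.exp (c * n))
          hcont'.aestronglyMeasurable (Eventually.of_forall hbd')).const_mul _)
          (((integrable_wt hK).mul_bdd (c := CT * Real.exp (c * n))
          hcont'.aestronglyMeasurable (Eventually.of_forall hbd')).const_mul _) fun s => ?_
        have h1 : 1 + |s| ≤ (1 + |s - t|) * (1 + |t|) := by
          have h2 : |s| ≤ |s - t| + |t| := by
            have := abs_add_le (s - t) t
            rwa [sub_add_cancel] at this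
          nlinarith [abs_nonneg (s - t), abs_nonneg t]
        have h3 : ((1 + |s - t|) ^ K)⁻¹ ≤ (1 + |t|) ^ K * ((1 + |s|) ^ K)⁻¹ := by
          rw [← div_eq_mul_inv, inv_eq_one_div, div_le_div_iff₀ (by positivity) (by positivity),
            one_mul]
          calc (1 + |s|) ^ K ≤ ((1 + |s - t|) * (1 + |t|)) ^ K := by
                gcongr
            _ = _ := by rw [mul_pow]; ring
        calc C * (((1 + |s - t|) ^ K)⁻¹ * ‖PS (cx h) Ξ (c * n) s‖)
            ≤ C * (((1 + |t|) ^ K * ((1 + |s|) ^ K)⁻¹) * ‖PS (cx h) Ξ (c * n) s‖) := by gcongr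
          _ = _ := by ring
    _ = C * (1 + |t|) ^ K * TN h Ξ K (c * n) := by
        rw [integral_const_mul]
        rfl

/-- the squared form -/
theorem grid2 {h : ℝ → ℝ} {c : ℝ} (hpu : PU h c) : ∃ R : ℝ, 0 ≤ R ∧ ∀ K : ℕ, 2 ≤ K → ∃ C : ℝ,
    0 ≤ C ∧ ∀ Ξ : Eis → ℂ, (∀ b, IsPrim b → ‖Ξ b‖ ≤ 1) → ∀ κ z t : ℝ, 0 ≤ z → κ ≤ z →
      ‖PS (cx h) Ξ κ t‖ ^ 2 ≤ C * (1 + z) * (1 + |t|) ^ (2 * K) *
        ∑ n ∈ Gr c R z, TN2 h Ξ K (c * n) := by
  obtain ⟨R, hR, hg0⟩ := grid1 hpu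
  refine ⟨R, hR, fun K hK => ?_⟩
  obtain ⟨C, hC, hg⟩ := hg0 K hK
  set I : ℝ := ∫ t : ℝ, ((1 + |t|) ^ K)⁻¹ with hI
  have hI0 : 0 ≤ I := integral_nonneg fun _ => by positivity
  have hc := hpu.cpos
  refine ⟨C ^ 2 * I * (c⁻¹ + R / c + 1), by positivity, fun Ξ hΞ κ z t hz hκ => ?_⟩
  have h1 := hg Ξ hΞ κ z t hz hκ
  have h2 : (∑ n ∈ Gr c R z, TN h Ξ K (c * n)) ^ 2 ≤
      (Gr c R z).card * ∑ n ∈ Gr c R z, TN h Ξ K (c * n) ^ 2 := sq_sum_le_card_mul_sum_sq
  have h3 : ∑ n ∈ Gr c R z, TN h Ξ K (c * n) ^ 2 ≤ I * ∑ n ∈ Gr c R z, TN2 h Ξ K (c * n) := by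
    rw [Finset.mul_sum]
    exact Finset.sum_le_sum fun n _ => TN_sq hpu.cd.continuous hpu.cs hK hΞ _
  have h4 := card_Gr hc hR hz
  have h5 : (z + R) / c + 1 ≤ (c⁻¹ + R / c + 1) * (1 + z) := by
    have e1 : (z + R) / c + 1 = c⁻¹ * z + R / c + 1 := by field_simp
    have e2 : 0 ≤ R / c * z := by positivity
    have e3 : 0 ≤ c⁻¹ := by positivity
    rw [e1]
    nlinarith
  have hS : 0 ≤ ∑ n ∈ Gr c R z, TN2 h Ξ K (c * n) := Finset.sum_nonneg fun n _ => TN2_nonneg _ _ _ _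
  calc ‖PS (cx h) Ξ κ t‖ ^ 2 ≤ (C * (1 + |t|) ^ K * ∑ n ∈ Gr c R z, TN h Ξ K (c * n)) ^ 2 := by
        gcongr
    _ = (C * (1 + |t|) ^ K) ^ 2 * (∑ n ∈ Gr c R z, TN h Ξ K (c * n)) ^ 2 := by ring
    _ ≤ (C * (1 + |t|) ^ K) ^ 2 * ((Gr c R z).card * (I * ∑ n ∈ Gr c R z, TN2 h Ξ K (c * n))) := by
        refine mul_le_mul_of_nonneg_left (h2.trans ?_) (by positivity)
        exact mul_le_mul_of_nonneg_left h3 (Nat.cast_nonneg _)
    _ ≤ (C * (1 + |t|) ^ K) ^ 2 * (((c⁻¹ + R / c + 1) * (1 + z)) *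
          (I * ∑ n ∈ Gr c R z, TN2 h Ξ K (c * n))) := by
        refine mul_le_mul_of_nonneg_left ?_ (by positivity)
        exact mul_le_mul_of_nonneg_right (h4.trans h5) (by positivity)
    _ = _ := by
        have : (1 + |t|) ^ (2 * K) = ((1 + |t|) ^ K) ^ 2 := by rw [← pow_mul]; ring_nf
        rw [this]; ring

/-! ### Euler factors -/

lemma summable_PSt {w : ℝ → ℂ} (hw : HasCompactSupport w) (F : Eis → ℂ) (κ t : ℝ) :
    Summable fun b : Eis => End699.ext F b * (osc t (Real.log (nm b)) *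
      w (Real.log (nm b) - κ)) := by
  obtain ⟨N, hN⟩ := PS_support hw κ
  refine summable_of_ne_finset_zero (s := primBall N) fun b hb => ?_
  by_cases hp : IsPrim b
  · by_cases h0 : w (Real.log (nm b) - κ) = 0
    · rw [h0, mul_zero, mul_zero]
    · exact absurd (hN b hp h0) hb
  · simp [End699.ext, hp]

/-- one prime -/
lemma step_p {w : ℝ → ℂ} (hw : HasCompactSupport w) {Ξ : Eis → ℂ} (hΞ : IsChar Ξ) {p : Eis}
    (hp : Mob705.IsPP p) (κ t : ℝ) :
    PS w Ξ κ t = PS w (fun b => Ξ b * prin0 p b) κ t +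
      Ξ p * osc t (Real.log (nm p)) * PS w Ξ (κ - Real.log (nm p)) t := by
  classical
  rw [← tsum_dvd hΞ hp.isPrim κ t]
  unfold PS
  rw [← Summable.tsum_add (summable_PSt hw _ κ t)]
  · refine tsum_congr fun b => ?_
    by_cases hb : IsPrim b
    · simp only [End699.ext, if_pos hb]
      unfold prin0
      by_cases hd : p ∣ b
      · have h1 : ¬ IsCoprime b p := fun h => hp.isCoprime_iff.1 h.symm hd
        rw [if_neg h1, if_pos hd]; ring
      · have h1 : IsCoprime b p := (hp.isCoprime_iff.2 hd).symm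
        rw [if_pos h1, if_neg hd]; ring
    · simp [End699.ext, hb]
  · obtain ⟨N, hN⟩ := PS_support hw κ
    refine summable_of_ne_finset_zero (s := primBall N) fun b hb => ?_
    by_cases hp : IsPrim b
    · by_cases h0 : w (Real.log (nm b) - κ) = 0
      · rw [h0]; simp
      · exact absurd (hN b hp h0) hb
    · simp [End699.ext, hp]

lemma PS_zero_of_neg {w : ℝ → ℂ} {R : ℝ} (hR : ∀ u, w u ≠ 0 → |u| ≤ R) (Ξ : Eis → ℂ) {κ : ℝ}
    (hκ : κ + R < 0) (t : ℝ) : PS w Ξ κ t = 0 := by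
  unfold PS
  refine (tsum_congr fun b => ?_).trans tsum_zero
  by_cases hb : IsPrim b
  · have h1 := log_nm_nonneg hb
    have h2 : w (Real.log (nm b) - κ) = 0 := by
      by_contra h0
      have := (abs_le.mp (hR _ h0)).2
      linarith
    rw [h2, mul_zero, mul_zero]
  · simp [End699.ext, hb]

/-- the loss of one Euler factor -/
def eL (ε : ℝ) : ℝ := (1 - Real.exp (-(ε * Real.log 2)))⁻¹

lemma eL_aux {ε : ℝ} (hε : 0 < ε) : Real.exp (-(ε * Real.log 2)) < 1 := by
  have := Real.log_pos (show (1 : ℝ) < 2 by norm_num)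
  exact Real.exp_lt_one_iff.2 (by linarith [mul_pos hε this])

lemma one_le_eL {ε : ℝ} (hε : 0 < ε) : 1 ≤ eL ε := by
  unfold eL
  have h1 := eL_aux hε
  have h2 := Real.exp_pos (-(ε * Real.log 2))
  exact (one_le_inv₀ (by linarith)).2 (by linarith)

/-- **removal of one prime** -/
theorem euler_one {w : ℝ → ℂ} (hw : HasCompactSupport w) {Ξ : Eis → ℂ} (hΞ : IsChar Ξ) {p : Eis}
    (hp : Mob705.IsPP p) {ε : ℝ} (hε : 0 < ε) {κ₀ A t : ℝ} (hA : 0 ≤ A)
    (h : ∀ κ ≤ κ₀, ‖PS w (fun b => Ξ b * prin0 p b) κ t‖ ≤ Real.exp (ε * κ) * A) :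
    ∀ κ ≤ κ₀, ‖PS w Ξ κ t‖ ≤ Real.exp (ε * κ) * (A * eL ε) := by
  obtain ⟨R, hR0, hR⟩ := exists_R hw
  have hl2 : 0 < Real.log 2 := Real.log_pos (by norm_num)
  have hq := eL_aux hε
  set q : ℝ := Real.exp (-(ε * Real.log 2)) with hqd
  have hq0 : 0 < q := Real.exp_pos _
  have heL : eL ε = (1 - q)⁻¹ := rfl
  have h1q : 0 < 1 - q := by linarith
  have hnp : Real.log 2 ≤ Real.log (nm p) := by
    refine Real.log_le_log (by norm_num) ?_
    have := hp.one_lt_nm
    exact_mod_cast this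
  have key : ∀ n : ℕ, ∀ κ ≤ κ₀, κ + R < n * Real.log 2 →
      ‖PS w Ξ κ t‖ ≤ Real.exp (ε * κ) * (A * eL ε) := by
    intro n
    induction n with
    | zero =>
      intro κ _ hκR
      rw [Nat.cast_zero, zero_mul] at hκR
      rw [PS_zero_of_neg hR Ξ hκR, norm_zero]
      have := one_le_eL hε
      positivity
    | succ n ih =>
      intro κ hκ hκR
      push_cast at hκR
      have h2 := ih (κ - Real.log (nm p)) (by linarith) (by linarith)
      rw [step_p hw hΞ hp κ t]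
      refine (norm_add_le _ _).trans ?_
      rw [norm_mul, norm_mul, norm_osc, mul_one]
      have h3 := hΞ.norm_le hp.isPrim
      have h4 : Real.exp (ε * (κ - Real.log (nm p))) ≤ Real.exp (ε * κ) * q := by
        rw [hqd, ← Real.exp_add]
        refine Real.exp_le_exp.2 ?_
        nlinarith
      have hAe : 0 ≤ A * eL ε := mul_nonneg hA (by linarith [one_le_eL hε])
      calc ‖PS w (fun b => Ξ b * prin0 p b) κ t‖ + ‖Ξ p‖ * ‖PS w Ξ (κ - Real.log (nm p)) t‖
          ≤ Real.exp (ε * κ) * A + 1 * (Real.exp (ε * κ) * q * (A * eL ε)) := by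
            refine add_le_add (h κ hκ) ?_
            refine mul_le_mul h3 (h2.trans ?_) (norm_nonneg _) zero_le_one
            exact mul_le_mul_of_nonneg_right h4 hAe
        _ = Real.exp (ε * κ) * (A * eL ε) := by
            rw [heL]
            field_simp
            ring
  intro κ hκ
  obtain ⟨n, hn⟩ := exists_nat_gt ((κ + R) / Real.log 2)
  rw [div_lt_iff₀ hl2] at hn
  exact key n κ hκ hn

open Classical in
lemma tau_pp {p m : Eis} (hp : Mob705.IsPP p) (hm : IsPrim m) (hpm : ¬ p ∣ m) :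
    2 * tau m ≤ tau (p * m) := by
  have hpm0 : p * m ≠ 0 := mul_ne_zero hp.ne_zero hm.ne_zero
  have h1 : dvs m ∪ (dvs m).image (fun d => p * d) ⊆ dvs (p * m) := by
    intro d hd
    rw [Finset.mem_union, Finset.mem_image] at hd
    rw [mem_dvs hpm0]
    rcases hd with hd | ⟨e, he, rfl⟩
    · rw [mem_dvs hm.ne_zero] at hd
      exact ⟨hd.1, hd.2.trans (dvd_mul_left _ _)⟩
    · rw [mem_dvs hm.ne_zero] at he
      exact ⟨hp.isPrim.mul he.1, mul_dvd_mul_left _ he.2⟩
  have h2 : Disjoint (dvs m) ((dvs m).image (fun d => p * d)) := by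
    rw [Finset.disjoint_left]
    intro d hd hd'
    rw [Finset.mem_image] at hd'
    obtain ⟨e, he, rfl⟩ := hd'
    exact hpm ((dvd_mul_right p e).trans (dvd_of_mem_dvs hd))
  have h3 : ((dvs m).image (fun d => p * d)).card = (dvs m).card :=
    Finset.card_image_of_injective _ (mul_right_injective₀ hp.ne_zero)
  have h4 := Finset.card_le_card h1
  rw [Finset.card_union_of_disjoint h2, h3] at h4
  unfold tau
  omega

/-- **removal of a coprimality condition** -/
theorem euler_all {ε : ℝ} (hε : 0 < ε) : ∃ r : ℕ, ∀ {w : ℝ → ℂ}, HasCompactSupport w →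
    ∀ {Ξ : Eis → ℂ}, IsChar Ξ → ∀ {m : Eis}, IsPrim m → ∀ {κ₀ A t : ℝ}, 0 ≤ A →
    (∀ κ ≤ κ₀, ‖PS w (fun b => Ξ b * prin0 m b) κ t‖ ≤ Real.exp (ε * κ) * A) →
    ∀ κ ≤ κ₀, ‖PS w Ξ κ t‖ ≤ Real.exp (ε * κ) * (A * (tau m : ℝ) ^ r) := by
  obtain ⟨r, hr⟩ := pow_unbounded_of_one_lt (eL ε) (show (1 : ℝ) < 2 by norm_num)
  refine ⟨r, ?_⟩
  intro w hw Ξ hΞ m hm κ₀ A t hA h
  have key : ∀ n : ℕ, ∀ m : Eis, IsPrim m → nm m ≤ n → ∀ A : ℝ, 0 ≤ A →
      (∀ κ ≤ κ₀, ‖PS w (fun b => Ξ b * prin0 m b) κ t‖ ≤ Real.exp (ε * κ) * A) →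
      ∀ κ ≤ κ₀, ‖PS w Ξ κ t‖ ≤ Real.exp (ε * κ) * (A * (tau m : ℝ) ^ r) := by
    intro n
    induction n with
    | zero =>
      intro m hm hmn
      exact absurd (nm_pos.2 hm.ne_zero) (by omega)
    | succ n ih =>
      intro m hm hmn A hA h
      by_cases hm1 : m = 1
      · intro κ hκ
        have h1 := h κ hκ
        have e1 : PS w (fun b => Ξ b * prin0 m b) κ t = PS w Ξ κ t := by
          refine PS_congr (fun b _ => ?_) _ _
          rw [hm1]
          unfold prin0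
          rw [if_pos isCoprime_one_right, mul_one]
        rw [e1] at h1
        refine h1.trans (mul_le_mul_of_nonneg_left ?_ (Real.exp_pos _).le)
        have h2 : (1 : ℝ) ≤ tau m := by exact_mod_cast one_le_tau hm.ne_zero
        exact le_mul_of_one_le_right hA (one_le_pow₀ h2)
      obtain ⟨p, hp, m', rfl⟩ := exists_pp_dvd_of_isPrim hm hm1
      have hm' : IsPrim m' := (P355.isPrim_mul_iff hp.isPrim).1 hm
      have hnm' : nm m' ≤ n := by
        have h1 := hp.one_lt_nm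
        have h2 : nm (p * m') = nm p * nm m' := nm_mul _ _
        have h3 := nm_pos.2 hm'.ne_zero
        rw [h2] at hmn
        nlinarith
      by_cases hpm : p ∣ m'
      · have e1 : ∀ b, prin0 (p * m') b = prin0 m' b := by
          intro b
          unfold prin0
          have : IsCoprime b (p * m') ↔ IsCoprime b m' := by
            refine ⟨fun h => h.of_mul_right_right, fun h => IsCoprime.mul_right ?_ h⟩
            exact h.of_isCoprime_of_dvd_right hpm
          by_cases hb : IsCoprime b m'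
          · rw [if_pos hb, if_pos (this.2 hb)]
          · rw [if_neg hb, if_neg (fun h => hb (this.1 h))]
        have e2 : (fun b => Ξ b * prin0 (p * m') b) = fun b => Ξ b * prin0 m' b := by
          funext b
          rw [e1]
        rw [e2] at h
        intro κ hκ
        refine (ih m' hm' hnm' A hA h κ hκ).trans ?_
        have h2 : (tau m' : ℝ) ≤ tau (p * m') := by
          exact_mod_cast tau_le_of_dvd hm.ne_zero (dvd_mul_left _ _)
        gcongr
      · have hΞ' : IsChar (fun b => Ξ b * prin0 m' b) := hΞ.mul' (isChar_prin0 m')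
        have e1 : ∀ κ, PS w (fun b => Ξ b * prin0 (p * m') b) κ t =
            PS w (fun b => Ξ b * prin0 m' b * prin0 p b) κ t := by
          intro κ
          refine PS_congr (fun b _ => ?_) _ _
          unfold prin0
          have : IsCoprime b (p * m') ↔ IsCoprime b p ∧ IsCoprime b m' := by
            exact IsCoprime.mul_right_iff
          by_cases h1 : IsCoprime b p <;> by_cases h2 : IsCoprime b m' <;> simp [this, h1, h2]
        have h1 := euler_one hw hΞ' hp hε hA (κ₀ := κ₀) (t := t) (fun κ hκ => by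
          rw [← e1]; exact h κ hκ)
        have hA1 : 0 ≤ A * eL ε := mul_nonneg hA (by linarith [one_le_eL hε])
        intro κ hκ
        refine (ih m' hm' hnm' (A * eL ε) hA1 h1 κ hκ).trans ?_
        have h2 : (2 : ℝ) * tau m' ≤ tau (p * m') := by exact_mod_cast tau_pp hp hm' hpm
        refine mul_le_mul_of_nonneg_left ?_ (Real.exp_pos _).le
        calc A * eL ε * (tau m' : ℝ) ^ r ≤ A * 2 ^ r * (tau m' : ℝ) ^ r := by gcongr
          _ = A * (2 * tau m') ^ r := by rw [mul_pow]; ring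
          _ ≤ A * (tau (p * m') : ℝ) ^ r := by gcongr
  exact key (nm m) m hm le_rfl A hA h

end Crest.Agent.R017.XG739
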