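import Crest.Agent.R017.XFl2_571
import Crest.Agent.R017.XGa_739

/-!
# Row 17, two-level flip (helper739), part 2: the analytic rule for frequencies with cubes

* `ClG`, `FEg`, `rule1g` : the rule of helper571 for frequencies `e k₁ k₂²` with the conductor bound
-/

set_option autoImplicit false

noncomputable section

open Complex MeasureTheory Filter Topology
open scoped ContDiff ComplexConjugate

namespace Crest.Agent.R017.XG739

open Crest.Agent.R012 Crest.Agent.R012.Eis Crest.Agent.R012.LS2 Crest.Agent.R012.Gauss880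
open Crest.Agent.R012.Weight600 (osc norm_osc)
open Crest.Agent.R012.PSer47 Crest.Agent.R012.Div277
open Crest.Agent.R017.End699 Crest.Agent.R017.FE47 Crest.Agent.R017.Two939
open Crest.Agent.R017.XFl571 (one_le_nm_of W_le I2 I2_nonneg norm_XK_sy_le PCh unit_le)

/-- a frequency `e k₁ k₂²` with conductor at most `exp L` -/
structure ClG (M : Eis) (χ : Eis → ℂ) (l : ℤ) (L : ℝ) (k : Eis) : Prop where
  dec : ∃ e ∈ SM M, ∃ k1 k2 : Eis, IsPrim k1 ∧ IsPrim k2 ∧ Squarefree k1 ∧ Squarefree k2 ∧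
      IsCoprime k1 k2 ∧ IsCoprime (k1 * k2) M ∧ k = e * k1 * k2 ^ 2 ∧
      (nm (k1 * k2) : ℝ) ≤ Real.exp L
  np : Sup271.NPm M χ l k

/-- **pointwise functional equation of a member** -/
theorem FEg {h : ℝ → ℝ} {c : ℝ} (hpu : PU h c) {M : Eis} {χ : Eis → ℂ} (hχ : HC M χ) (l : ℤ)
    {A K : ℕ} (hA : 2 ≤ A) (hK : 2 ≤ K) {ε : ℝ} (hε : 0 < ε) (hε1 : ε < 1) :
    ∃ (C : ℝ) (J : ℕ), 0 ≤ C ∧ ∀ (L : ℝ) (k : Eis), ClG M χ l L k →
      (∀ κ t : ℝ, ‖PS (cx h) (XK χ (sy k) l) κ t‖ ^ 2 ≤ C * (1 + |t|) ^ J) ∨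
      ∃ Q : ℝ, 1 ≤ Q ∧ Q ≤ Real.exp L ∧ ∀ κ t : ℝ,
        ‖PS (cx h) (XK χ (sy k) l) κ t‖ ^ 2 ≤ C * (1 + |t|) ^ J *
          (Real.exp (2 * κ) / Q * (Q / Real.exp κ) ^ ε) *
          ∑' n : ℕ, wz ε A (Real.exp (c * n + κ) / Q) * TN2 h (XK χ (sy k) l) K (c * n) := by
  obtain ⟨C1, J1, hC1, hF⟩ := FE_sq (cd_cx hpu.cd) (cs_cx hpu.cs) l hpu (A := A) (K := K)
    hA hK hε hε1
  obtain ⟨C2, hC2, hfix⟩ := PSfix (cd_cx hpu.cd) (cs_cx hpu.cs) l
  have hcM := cM_nonneg A ε (9 * M)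
  refine ⟨(C2 * (nm (9 * M) : ℝ) ^ 2) ^ 2 + C1 * cM A ε (9 * M) ^ 2, 8 + J1, by positivity, ?_⟩
  intro L k hcl
  have hnp := hcl.np
  obtain ⟨e, he, k1, k2, p1, p2, s1, s2, hcop, hM, hk', hQL⟩ := hcl.dec
  have hχ' := hc_SM hχ he
  have hPS : ∀ κ t : ℝ, PS (cx h) (XK χ (sy k) l) κ t =
      PS (cx h) (XK (fun b => χ b * sy e b) (kap k1 k2) l) κ t := by
    intro κ t
    refine PS_congr (fun b hb => ?_) _ _
    unfold XK
    rw [hk']
    have e1 : sy (e * k1 * k2 ^ 2) b = sy e b * kap k1 k2 b := by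
      rw [kap_eq_sy p1 p2 hb, mul_assoc, Char766.sy_mul_left hb]
    rw [e1]
    ring
  by_cases h1 : k1 * k2 = 1
  · left
    intro κ t
    have ht : 1 ≤ 1 + |t| := by linarith [abs_nonneg t]
    have hk1 : k1 = 1 := by
      have hu : IsUnit k1 := IsUnit.of_mul_eq_one _ h1
      exact p1.eq_of_associated isPrim_one (associated_one_iff_isUnit.mpr hu)
    have hk2 : k2 = 1 := by rw [hk1, one_mul] at h1; exact h1
    have hke : k = e := by rw [hk', hk1, hk2]; ring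
    have hnp' : NP (9 * M) (fun b => χ b * sy e b) l := by
      rcases hnp with h | ⟨b, hb, hbc, hne⟩
      · exact Or.inl h
      · refine Or.inr ⟨b, hb, ?_, ?_⟩
        · refine hbc.of_isCoprime_of_dvd_right ?_
          exact ⟨k, by ring⟩
        · rw [← hke]; exact hne
    have e0 : PS (cx h) (XK (fun b => χ b * sy e b) (kap k1 k2) l) κ t =
        PS (cx h) (XK (fun b => χ b * sy e b) (fun _ => 1) l) κ t := by
      refine PS_congr (fun b _ => ?_) _ _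
      rw [hk1, hk2]
      unfold XK
      rw [kap_one_one]
    have h2 := hfix (9 * M) _ hχ' hnp' κ t
    rw [hPS, e0]
    calc ‖PS (cx h) (XK (fun b => χ b * sy e b) (fun _ => 1) l) κ t‖ ^ 2
        ≤ (C2 * (1 + |t|) ^ 4 * (nm (9 * M) : ℝ) ^ 2) ^ 2 := by gcongr
      _ = (C2 * (nm (9 * M) : ℝ) ^ 2) ^ 2 * (1 + |t|) ^ 8 := by ring
      _ ≤ ((C2 * (nm (9 * M) : ℝ) ^ 2) ^ 2 + C1 * cM A ε (9 * M) ^ 2) * (1 + |t|) ^ (8 + J1) := by
          have h3 : (1 + |t|) ^ 8 ≤ (1 + |t|) ^ (8 + J1) := pow_le_pow_right₀ ht (by omega)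
          have h4 : 0 ≤ C1 * cM A ε (9 * M) ^ 2 := by positivity
          gcongr
          linarith
  · right
    have hM' : IsCoprime (k1 * k2) (9 * M) := (isCoprime_nine_mul' (p1.mul p2)).mpr hM
    have hmem : Mem (9 * M) (fun b => χ b * sy e b) (k1 * k2) (kap k1 k2) :=
      mem_kap hχ' p1 p2 s1 s2 hcop hM' h1
    have hQ1 : (1 : ℝ) ≤ nm (k1 * k2) := one_le_nm_of (mul_ne_zero p1.ne_zero p2.ne_zero)
    have hQ : (0 : ℝ) < nm (k1 * k2) := by linarith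
    refine ⟨nm (k1 * k2), hQ1, hQL, fun κ t => ?_⟩
    have ht : 1 ≤ 1 + |t| := by linarith [abs_nonneg t]
    have h2 := hF (9 * M) _ (k1 * k2) (kap k1 k2) hmem (nm (k1 * k2)) 1 hQ (by rw [one_mul])
      le_rfl κ t
    have hTN : ∀ n : ℕ, TN2 h (XK (fun b => χ b * sy e b) (kap k1 k2) l) K (c * n) =
        TN2 h (XK χ (sy k) l) K (c * n) := by
      intro n
      unfold TN2
      congr 1
      funext t'
      rw [hPS]
    simp only [hTN] at h2
    rw [← hPS] at h2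
    set T := ∑' n : ℕ, wz ε A (Real.exp (c * n + κ) / (nm (k1 * k2) : ℝ)) *
      TN2 h (XK χ (sy k) l) K (c * n) with hT
    have hT0 : 0 ≤ T := tsum_nonneg fun n => mul_nonneg (wz_nonneg (by positivity))
      (TN2_nonneg _ _ _ _)
    calc ‖PS (cx h) (XK χ (sy k) l) κ t‖ ^ 2
        ≤ C1 * (1 + |t|) ^ J1 * cM A ε (9 * M) ^ 2 *
          (1 * Real.exp (2 * κ) / nm (k1 * k2) * (nm (k1 * k2) / Real.exp κ) ^ ε) * T := h2
      _ = (C1 * cM A ε (9 * M) ^ 2) * (1 + |t|) ^ J1 *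
          (Real.exp (2 * κ) / nm (k1 * k2) * (nm (k1 * k2) / Real.exp κ) ^ ε) * T := by ring
      _ ≤ ((C2 * (nm (9 * M) : ℝ) ^ 2) ^ 2 + C1 * cM A ε (9 * M) ^ 2) * (1 + |t|) ^ (8 + J1) *
          (Real.exp (2 * κ) / nm (k1 * k2) * (nm (k1 * k2) / Real.exp κ) ^ ε) * T := by
          have h3 : (1 + |t|) ^ J1 ≤ (1 + |t|) ^ (8 + J1) := pow_le_pow_right₀ ht (by omega)
          have h4 : 0 ≤ (C2 * (nm (9 * M) : ℝ) ^ 2) ^ 2 := by positivity
          gcongr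
          linarith

/-- `Σ_i B_i |P_{f i}(κ, t)|²` -/
def SBf {ι : Type} (h : ℝ → ℝ) (χ : Eis → ℂ) (l : ℤ) (S : Finset ι) (f : ι → Eis) (B : ι → ℝ)
    (κ t : ℝ) : ℝ :=
  ∑ k ∈ S, B k * ‖PS (cx h) (XK χ (sy (f k)) l) κ t‖ ^ 2

/-- sums of the averaged squares -/
lemma sum_TN2f_le {h : ℝ → ℝ} {c : ℝ} (hpu : PU h c) {M : Eis} {χ : Eis → ℂ} (hχ : HC M χ) (l : ℤ)
    {M₀ : ℕ} {ι : Type} {S S₂ : Finset ι} {f : ι → Eis} (hS : S₂ ⊆ S) {B : ι → ℝ} (hB : ∀ k ∈ S, 0 ≤ B k) {G x : ℝ}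
    (hG : ∀ t : ℝ, SBf h χ l S f B x t ≤ G * (1 + |t|) ^ M₀) :
    ∑ k ∈ S₂, B k * TN2 h (XK χ (sy (f k)) l) (M₀ + 2) x ≤ G * I2 := by
  have e1 : ∑ k ∈ S₂, B k * TN2 h (XK χ (sy (f k)) l) (M₀ + 2) x =
      ∫ t : ℝ, ((1 + |t|) ^ (M₀ + 2))⁻¹ * ∑ k ∈ S₂, B k * ‖PS (cx h) (XK χ (sy (f k)) l) x t‖ ^ 2 := by
    have e2 : (fun t : ℝ => ((1 + |t|) ^ (M₀ + 2))⁻¹ *
        ∑ k ∈ S₂, B k * ‖PS (cx h) (XK χ (sy (f k)) l) x t‖ ^ 2) =
        fun t : ℝ => ∑ k ∈ S₂, B k * (((1 + |t|) ^ (M₀ + 2))⁻¹ *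
          ‖PS (cx h) (XK χ (sy (f k)) l) x t‖ ^ 2) := by
      funext t
      rw [Finset.mul_sum]
      exact Finset.sum_congr rfl fun k _ => by ring
    rw [e2, integral_finsetSum]
    · exact Finset.sum_congr rfl fun k _ => by rw [integral_const_mul]; rfl
    · intro k _
      exact (integrable_TN2 hpu.cd.continuous hpu.cs (by omega) (norm_XK_sy_le hχ l (f k)) _).const_mul _
  rw [e1, I2, ← integral_const_mul]
  refine integral_mono ?_ ((integrable_wt le_rfl).const_mul _) fun t => ?_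
  · have e2 : (fun t : ℝ => ((1 + |t|) ^ (M₀ + 2))⁻¹ *
        ∑ k ∈ S₂, B k * ‖PS (cx h) (XK χ (sy (f k)) l) x t‖ ^ 2) =
        fun t : ℝ => ∑ k ∈ S₂, B k * (((1 + |t|) ^ (M₀ + 2))⁻¹ *
          ‖PS (cx h) (XK χ (sy (f k)) l) x t‖ ^ 2) := by
      funext t
      rw [Finset.mul_sum]
      exact Finset.sum_congr rfl fun k _ => by ring
    rw [e2]
    refine integrable_finsetSum _ fun k _ => ?_
    exact (integrable_TN2 hpu.cd.continuous hpu.cs (by omega) (norm_XK_sy_le hχ l (f k)) _).const_mul _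
  · have ht : 0 < 1 + |t| := by positivity
    have h1 : ∑ k ∈ S₂, B k * ‖PS (cx h) (XK χ (sy (f k)) l) x t‖ ^ 2 ≤ G * (1 + |t|) ^ M₀ :=
      (Finset.sum_le_sum_of_subset_of_nonneg hS fun k hk _ =>
        mul_nonneg (hB k hk) (sq_nonneg _)).trans (hG t)
    calc ((1 + |t|) ^ (M₀ + 2))⁻¹ * ∑ k ∈ S₂, B k * ‖PS (cx h) (XK χ (sy (f k)) l) x t‖ ^ 2
        ≤ ((1 + |t|) ^ (M₀ + 2))⁻¹ * (G * (1 + |t|) ^ M₀) := by gcongr
      _ = G * ((1 + |t|) ^ 2)⁻¹ := by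
          rw [pow_add]; field_simp

set_option maxHeartbeats 2000000 in
/-- **the rule for the member sums** -/
theorem rule1g {h : ℝ → ℝ} {c : ℝ} (hpu : PU h c) {M : Eis} {χ : Eis → ℂ} (hχ : HC M χ) (l : ℤ)
    {zs : ℝ} {s : Finset (Finset ℕ)} {ts : Finset ℕ → ℝ} {Cu : ℝ} (hzs : 0 ≤ zs) (hCu : 0 ≤ Cu)
    (hun : ∀ Ξ : Eis → ℂ, Ξ 1 = 1 → 1 ≤ Cu * ∑ S ∈ s, ‖PS (cx h) Ξ zs (ts S)‖ ^ 2)
    {ε : ℝ} (hε : 0 < ε) (hε1 : ε ≤ 1 / 2) (M₀ : ℕ) :
    ∃ (C : ℝ) (J : ℕ), 0 ≤ C ∧ ∀ (L z : ℝ), 0 ≤ L → 0 ≤ z → ∀ {ι : Type} (S : Finset ι)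
      (f : ι → Eis) (B : ι → ℝ), (∀ k ∈ S, 0 ≤ B k) → (∀ k ∈ S, ClG M χ l L (f k)) → ∀ Bd : ℝ, 0 ≤ Bd →
      ∀ Pch : ℝ → ℝ → Prop, PCh (ε * (1 + L + z) + zs) zs L z Pch →
      (∀ z' z'' t' : ℝ, Pch z' z'' →
        SBf h χ l S f B z'' t' ≤ Bd * (1 + |t'|) ^ M₀ * Real.exp (-(z' - z''))) →
      ∀ κ t : ℝ, κ ≤ z →
        SBf h χ l S f B κ t ≤ C * Real.exp (4 * ε * (1 + L + z)) * (1 + |t|) ^ J * Bd := by
  classical
  obtain ⟨a, ha⟩ := exists_nat_ge (3 / ε)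
  have haε : 3 ≤ a * ε := by
    rw [div_le_iff₀ hε] at ha; exact ha
  set A : ℕ := a + 4 with hA
  obtain ⟨CT, hCT, hT⟩ := norm_PS_le (cd_cx hpu.cd).continuous (cs_cx hpu.cs)
  obtain ⟨C1, J1, hC1, hF⟩ := FEg hpu hχ l (A := A) (K := M₀ + 2) (by omega) (by omega) hε
    (by linarith)
  -- the constants
  set U' : ℝ := Cu * ∑ T ∈ s, (1 + |ts T|) ^ M₀ with hU'
  have hU'0 : 0 ≤ U' := mul_nonneg hCu (Finset.sum_nonneg fun _ _ => by positivity)
  have hr1 : Real.exp (-(c * ε)) < 1 := Real.exp_lt_one_iff.mpr (by linarith [mul_pos hpu.cpos hε])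
  set Gs : ℝ := (1 - Real.exp (-(c * ε)))⁻¹ with hGs
  have hGs0 : 0 ≤ Gs := inv_nonneg.mpr (by linarith)
  set E0 : ℝ := Real.exp (2 * ε * zs) + CT ^ 2 * U' with hE0
  have hE00 : 0 ≤ E0 := by positivity
  refine ⟨CT ^ 2 * U' + 1 + C1 * U' + C1 * (E0 * I2 * Gs), M₀ + J1, by
    have := I2_nonneg; positivity, ?_⟩
  intro L z hL hz ι S f B hB hCl Bd hBd Pch hPch hch κ t hκz
  set big := 1 + L + z with hbig
  have hbig1 : 1 ≤ big := by linarith
  set D₀ := ε * big + zs with hD₀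
  have hD₀0 : 0 ≤ D₀ := by positivity
  have ht : 1 ≤ 1 + |t| := by linarith [abs_nonneg t]
  have hX1 : 1 ≤ Real.exp (4 * ε * big) := Real.one_le_exp (by positivity)
  have hI := I2_nonneg
  -- the total mass
  have hU : ∑ k ∈ S, B k ≤ U' * Bd := by
    have h1 : ∑ k ∈ S, B k ≤ Cu * ∑ T ∈ s, SBf h χ l S f B zs (ts T) := by
      unfold SBf
      rw [Finset.sum_comm, Finset.mul_sum]
      refine Finset.sum_le_sum fun k hk => ?_
      have hΞ : XK χ (sy (f k)) l 1 = 1 := by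
        unfold XK
        rw [hχ.char.one, (ang_isChar l).one]
        have : sy (f k) 1 = 1 := Char766.sy_one_right (f k)
        rw [this]; ring
      have h2 := hun _ hΞ
      rw [← Finset.mul_sum]
      calc B k = B k * 1 := (mul_one _).symm
        _ ≤ B k * (Cu * ∑ T ∈ s, ‖PS (cx h) (XK χ (sy (f k)) l) zs (ts T)‖ ^ 2) :=
            mul_le_mul_of_nonneg_left h2 (hB k hk)
        _ = _ := by ring
    refine h1.trans ?_
    rw [hU', mul_assoc, Finset.sum_mul]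
    refine mul_le_mul_of_nonneg_left (Finset.sum_le_sum fun T _ => ?_) hCu
    have h3 := hch zs zs (ts T) hPch.unit
    rw [sub_self, neg_zero, Real.exp_zero, mul_one] at h3
    linarith
  have hS0 : ∀ x t' : ℝ, SBf h χ l S f B x t' ≤ (CT * Real.exp x) ^ 2 * (U' * Bd) := by
    intro x t'
    calc SBf h χ l S f B x t' ≤ ∑ k ∈ S, B k * (CT * Real.exp x) ^ 2 := by
          refine Finset.sum_le_sum fun k hk => mul_le_mul_of_nonneg_left ?_ (hB k hk)
          have := hT _ (norm_XK_sy_le hχ l (f k)) x t'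
          gcongr
      _ = (CT * Real.exp x) ^ 2 * ∑ k ∈ S, B k := by rw [← Finset.sum_mul, mul_comm]
      _ ≤ _ := mul_le_mul_of_nonneg_left hU (sq_nonneg _)
  have hUB : 0 ≤ U' * Bd := by positivity
  rcases lt_or_ge κ 0 with hκ0 | hκ0
  · -- negative scales
    have h1 := hS0 κ t
    have h2 : Real.exp κ ≤ 1 := Real.exp_le_one_iff.2 hκ0.le
    calc SBf h χ l S f B κ t ≤ (CT * Real.exp κ) ^ 2 * (U' * Bd) := h1
      _ ≤ (CT * 1) ^ 2 * (U' * Bd) := by gcongr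
      _ = (CT ^ 2 * U') * 1 * 1 * Bd := by ring
      _ ≤ (CT ^ 2 * U' + 1 + C1 * U' + C1 * (E0 * I2 * Gs)) * Real.exp (4 * ε * big) *
          (1 + |t|) ^ (M₀ + J1) * Bd := by
          have h3 : 1 ≤ (1 + |t|) ^ (M₀ + J1) := one_le_pow₀ ht
          have h4 : 0 ≤ C1 * U' := by positivity
          have h5 : 0 ≤ C1 * (E0 * I2 * Gs) := by positivity
          gcongr
          linarith
  rcases hPch.all κ hκ0 hκz with hκL | hκL
  · -- the direct child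
    have h1 := hch κ κ t hκL
    rw [sub_self, neg_zero, Real.exp_zero, mul_one] at h1
    calc SBf h χ l S f B κ t ≤ Bd * (1 + |t|) ^ M₀ := h1
      _ = 1 * 1 * (1 + |t|) ^ M₀ * Bd := by ring
      _ ≤ (CT ^ 2 * U' + 1 + C1 * U' + C1 * (E0 * I2 * Gs)) * Real.exp (4 * ε * big) *
          (1 + |t|) ^ (M₀ + J1) * Bd := by
          have h3 : (1 + |t|) ^ M₀ ≤ (1 + |t|) ^ (M₀ + J1) := pow_le_pow_right₀ ht (by omega)
          have h4 : 0 ≤ C1 * U' := by positivity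
          have h5 : 0 ≤ C1 * (E0 * I2 * Gs) := by positivity
          have h6 : 0 ≤ CT ^ 2 * U' := by positivity
          gcongr
          linarith
  -- the functional equation
  have hdec : ∀ k ∈ S, (∀ κ t : ℝ, ‖PS (cx h) (XK χ (sy (f k)) l) κ t‖ ^ 2 ≤ C1 * (1 + |t|) ^ J1) ∨
      ∃ Q : ℝ, 1 ≤ Q ∧ Q ≤ Real.exp L ∧ ∀ κ t : ℝ,
        ‖PS (cx h) (XK χ (sy (f k)) l) κ t‖ ^ 2 ≤ C1 * (1 + |t|) ^ J1 *
          (Real.exp (2 * κ) / Q * (Q / Real.exp κ) ^ ε) *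
          ∑' n : ℕ, wz ε A (Real.exp (c * n + κ) / Q) * TN2 h (XK χ (sy (f k)) l) (M₀ + 2) (c * n) :=
    fun k hk => hF L (f k) (hCl k hk)
  set S₁ := S.filter (fun k => ∀ κ t : ℝ,
    ‖PS (cx h) (XK χ (sy (f k)) l) κ t‖ ^ 2 ≤ C1 * (1 + |t|) ^ J1) with hS₁
  set S₂ := S.filter (fun k => ¬ ∀ κ t : ℝ,
    ‖PS (cx h) (XK χ (sy (f k)) l) κ t‖ ^ 2 ≤ C1 * (1 + |t|) ^ J1) with hS₂
  have hsplit : SBf h χ l S f B κ t = ∑ k ∈ S₁, B k * ‖PS (cx h) (XK χ (sy (f k)) l) κ t‖ ^ 2 +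
      ∑ k ∈ S₂, B k * ‖PS (cx h) (XK χ (sy (f k)) l) κ t‖ ^ 2 := by
    unfold SBf
    rw [hS₁, hS₂, Finset.sum_filter_add_sum_filter_not]
  have hQ' : ∀ k ∈ S₂, ∃ Q : ℝ, 1 ≤ Q ∧ Q ≤ Real.exp L ∧
        ‖PS (cx h) (XK χ (sy (f k)) l) κ t‖ ^ 2 ≤ C1 * (1 + |t|) ^ J1 *
          (Real.exp (2 * κ) / Q * (Q / Real.exp κ) ^ ε) *
          ∑' n : ℕ, wz ε A (Real.exp (c * n + κ) / Q) *
            TN2 h (XK χ (sy (f k)) l) (M₀ + 2) (c * n) := by
    intro k hk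
    rw [hS₂, Finset.mem_filter] at hk
    rcases hdec k hk.1 with h1 | ⟨Q, h1, h2, h3⟩
    · exact absurd h1 hk.2
    · exact ⟨Q, h1, h2, h3 κ t⟩
  choose! Q hQ1 hQL hQF using hQ'
  have hB2 : ∀ k ∈ S₂, 0 ≤ B k := fun k hk => hB k (Finset.mem_of_mem_filter k hk)
  -- the first part
  have hp1 : ∑ k ∈ S₁, B k * ‖PS (cx h) (XK χ (sy (f k)) l) κ t‖ ^ 2 ≤
      C1 * (1 + |t|) ^ J1 * (U' * Bd) := by
    calc ∑ k ∈ S₁, B k * ‖PS (cx h) (XK χ (sy (f k)) l) κ t‖ ^ 2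
        ≤ ∑ k ∈ S₁, B k * (C1 * (1 + |t|) ^ J1) := by
          refine Finset.sum_le_sum fun k hk => ?_
          rw [hS₁, Finset.mem_filter] at hk
          exact mul_le_mul_of_nonneg_left (hk.2 κ t) (hB k hk.1)
      _ = C1 * (1 + |t|) ^ J1 * ∑ k ∈ S₁, B k := by rw [← Finset.sum_mul, mul_comm]
      _ ≤ C1 * (1 + |t|) ^ J1 * ∑ k ∈ S, B k := by
          refine mul_le_mul_of_nonneg_left ?_ (by positivity)
          exact Finset.sum_le_sum_of_subset_of_nonneg (Finset.filter_subset _ _)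
            fun k hk _ => hB k hk
      _ ≤ _ := mul_le_mul_of_nonneg_left hU (by positivity)
  -- the terms of the second part
  set W : ι → ℕ → ℝ := fun k n => (Real.exp (2 * κ) / Q k * (Q k / Real.exp κ) ^ ε) *
    wz ε A (Real.exp (c * n + κ) / Q k) with hW
  have hWle : ∀ k ∈ S₂, ∀ n : ℕ, W k n ≤ Real.exp (κ - c * n + ε * (c * n)) *
      Real.exp (-(((A : ℝ) - 1) * max 0 (c * n + κ - L))) := by
    intro k hk n
    exact W_le hε hε1 (by omega) (by linarith [hQ1 k hk]) (hQL k hk)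
  have hW0 : ∀ k ∈ S₂, ∀ n : ℕ, 0 ≤ W k n := by
    intro k hk n
    have : 0 < Q k := by linarith [hQ1 k hk]
    refine mul_nonneg (by positivity) (wz_nonneg (by positivity))
  have hterm : ∀ n : ℕ, ∑ k ∈ S₂, B k * (W k n * TN2 h (XK χ (sy (f k)) l) (M₀ + 2) (c * n)) ≤
      (Real.exp (4 * ε * big) * E0 * I2 * Bd) * Real.exp (-(c * ε)) ^ n := by
    intro n
    set x : ℝ := c * n with hx
    have hx0 : 0 ≤ x := mul_nonneg hpu.cpos.le (Nat.cast_nonneg _)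
    set Wm := Real.exp (κ - x + ε * x) * Real.exp (-(((A : ℝ) - 1) * max 0 (x + κ - L))) with hWm
    have hWm0 : 0 ≤ Wm := by positivity
    -- bound of the sums by `G`
    have hgen : ∀ G : ℝ, (∀ t' : ℝ, SBf h χ l S f B x t' ≤ G * (1 + |t'|) ^ M₀) →
        ∑ k ∈ S₂, B k * (W k n * TN2 h (XK χ (sy (f k)) l) (M₀ + 2) x) ≤ Wm * (G * I2) := by
      intro G hG
      have h1 := sum_TN2f_le hpu hχ l (Finset.filter_subset _ _ : S₂ ⊆ S) hB hG
      calc ∑ k ∈ S₂, B k * (W k n * TN2 h (XK χ (sy (f k)) l) (M₀ + 2) x)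
          ≤ ∑ k ∈ S₂, Wm * (B k * TN2 h (XK χ (sy (f k)) l) (M₀ + 2) x) := by
            refine Finset.sum_le_sum fun k hk => ?_
            have h2 := hWle k hk n
            have h3 := TN2_nonneg h (XK χ (sy (f k)) l) (M₀ + 2) x
            have h4 := hB2 k hk
            calc B k * (W k n * TN2 h (XK χ (sy (f k)) l) (M₀ + 2) x)
                ≤ B k * (Wm * TN2 h (XK χ (sy (f k)) l) (M₀ + 2) x) := by gcongr
              _ = _ := by ring
        _ = Wm * ∑ k ∈ S₂, B k * TN2 h (XK χ (sy (f k)) l) (M₀ + 2) x := by rw [Finset.mul_sum]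
        _ ≤ _ := mul_le_mul_of_nonneg_left h1 hWm0
    have hgeo : Real.exp (-(c * ε)) ^ n = Real.exp (-(ε * x)) := by
      rw [← Real.exp_nat_mul]; congr 1; rw [hx]; ring
    rw [hgeo]
    have hA1 : (A : ℝ) - 1 = a + 3 := by rw [hA]; push_cast; ring
    have hm0 : 0 ≤ max 0 (x + κ - L) := le_max_left _ _
    by_cases hnear : κ + x ≤ L + D₀
    · -- near
      have h1 := hgen (Bd * Real.exp (-(κ - x))) (fun t' => by
        have h2 := hch κ x t' (hκL x hx0 hnear)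
        linarith)
      refine h1.trans ?_
      have h2 : Wm * Real.exp (-(κ - x)) ≤ Real.exp (4 * ε * big) * Real.exp (2 * ε * zs) *
          Real.exp (-(ε * x)) := by
        rw [hWm, ← Real.exp_add, ← Real.exp_add, ← Real.exp_add, ← Real.exp_add]
        apply Real.exp_le_exp.2
        have h3 : 0 ≤ ((A : ℝ) - 1) * max 0 (x + κ - L) := mul_nonneg (by rw [hA1]; positivity) hm0
        have h4 : ε * x ≤ ε * (2 * big + zs) := by
          refine mul_le_mul_of_nonneg_left ?_ hε.le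
          have : ε * big ≤ 1 * big := mul_le_mul_of_nonneg_right (by linarith) (by linarith)
          rw [hD₀] at hnear
          linarith
        nlinarith
      calc Wm * (Bd * Real.exp (-(κ - x)) * I2)
          = (Wm * Real.exp (-(κ - x))) * (I2 * Bd) := by ring
        _ ≤ (Real.exp (4 * ε * big) * Real.exp (2 * ε * zs) * Real.exp (-(ε * x))) *
            (I2 * Bd) := by gcongr
        _ ≤ (Real.exp (4 * ε * big) * E0 * Real.exp (-(ε * x))) * (I2 * Bd) := by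
            have : Real.exp (2 * ε * zs) ≤ E0 := by
              rw [hE0]
              have : 0 ≤ CT ^ 2 * U' := by positivity
              linarith
            gcongr
        _ = _ := by ring
    · -- far
      push Not at hnear
      have h1 := hgen ((CT * Real.exp x) ^ 2 * (U' * Bd)) (fun t' => by
        refine (hS0 x t').trans ?_
        have : 1 ≤ (1 + |t'|) ^ M₀ := one_le_pow₀ (by linarith [abs_nonneg t'])
        have h0 : 0 ≤ (CT * Real.exp x) ^ 2 * (U' * Bd) := by positivity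
        nlinarith)
      refine h1.trans ?_
      have h2 : Wm * Real.exp x ^ 2 ≤ Real.exp (-(ε * x)) := by
        rw [hWm, ← Real.exp_nat_mul, ← Real.exp_add, ← Real.exp_add]
        apply Real.exp_le_exp.2
        have h3 : x + κ - L ≤ max 0 (x + κ - L) := le_max_right _ _
        have h4 : ε * big ≤ x + κ - L := by rw [hD₀] at hnear; linarith
        have h5 : (a : ℝ) * (ε * big) ≤ a * max 0 (x + κ - L) :=
          mul_le_mul_of_nonneg_left (h4.trans h3) (Nat.cast_nonneg _)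
        have h6 : 3 * big ≤ (a : ℝ) * (ε * big) := by
          have := mul_le_mul_of_nonneg_right haε (by linarith : 0 ≤ big)
          linarith
        have h7 : ε * x ≤ 1 / 2 * x := mul_le_mul_of_nonneg_right hε1 hx0
        rw [hA1]
        push_cast
        nlinarith
      calc Wm * ((CT * Real.exp x) ^ 2 * (U' * Bd) * I2)
          = (Wm * Real.exp x ^ 2) * (CT ^ 2 * U' * (I2 * Bd)) := by ring
        _ ≤ Real.exp (-(ε * x)) * (CT ^ 2 * U' * (I2 * Bd)) := by gcongr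
        _ = 1 * (CT ^ 2 * U') * I2 * Bd * Real.exp (-(ε * x)) := by ring
        _ ≤ Real.exp (4 * ε * big) * E0 * I2 * Bd * Real.exp (-(ε * x)) := by
            have : CT ^ 2 * U' ≤ E0 := by
              rw [hE0]
              have := Real.exp_pos (2 * ε * zs)
              linarith
            gcongr
  -- the second part
  have hsum : ∀ k ∈ S₂, Summable fun n : ℕ => W k n * TN2 h (XK χ (sy (f k)) l) (M₀ + 2) (c * n) := by
    intro k hk
    have hQ0 : 0 < Q k := by linarith [hQ1 k hk]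
    have h1 := (summable_wz2 hpu.cd.continuous hpu.cs hpu.cpos hε (A := A) (K := M₀ + 2)
      (by omega) (by omega) (norm_XK_sy_le hχ l (f k)) (κ - Real.log (Q k))).mul_left
      (Real.exp (2 * κ) / Q k * (Q k / Real.exp κ) ^ ε)
    refine h1.congr fun n => ?_
    have hshift : Real.exp (c * n + κ) / Q k = Real.exp (c * n + (κ - Real.log (Q k))) := by
      rw [← add_sub_assoc, Real.exp_sub, Real.exp_log hQ0]
    rw [hW]
    dsimp only
    rw [hshift]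
    ring
  have hp2 : ∑ k ∈ S₂, B k * ‖PS (cx h) (XK χ (sy (f k)) l) κ t‖ ^ 2 ≤
      C1 * (1 + |t|) ^ J1 * (Real.exp (4 * ε * big) * E0 * I2 * Bd * Gs) := by
    have h1 : ∑ k ∈ S₂, B k * ‖PS (cx h) (XK χ (sy (f k)) l) κ t‖ ^ 2 ≤
        C1 * (1 + |t|) ^ J1 * ∑ k ∈ S₂, B k *
          ∑' n : ℕ, W k n * TN2 h (XK χ (sy (f k)) l) (M₀ + 2) (c * n) := by
      rw [Finset.mul_sum]
      refine Finset.sum_le_sum fun k hk => ?_
      have h2 := hQF k hk
      have e1 : ∑' n : ℕ, W k n * TN2 h (XK χ (sy (f k)) l) (M₀ + 2) (c * n) =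
          (Real.exp (2 * κ) / Q k * (Q k / Real.exp κ) ^ ε) *
          ∑' n : ℕ, wz ε A (Real.exp (c * n + κ) / Q k) *
            TN2 h (XK χ (sy (f k)) l) (M₀ + 2) (c * n) := by
        rw [← tsum_mul_left]
        refine tsum_congr fun n => ?_
        rw [hW]; ring
      rw [e1]
      calc B k * ‖PS (cx h) (XK χ (sy (f k)) l) κ t‖ ^ 2
          ≤ B k * (C1 * (1 + |t|) ^ J1 *
          (Real.exp (2 * κ) / Q k * (Q k / Real.exp κ) ^ ε) *
          ∑' n : ℕ, wz ε A (Real.exp (c * n + κ) / Q k) *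
            TN2 h (XK χ (sy (f k)) l) (M₀ + 2) (c * n)) := mul_le_mul_of_nonneg_left h2 (hB2 k hk)
        _ = _ := by ring
    refine h1.trans (mul_le_mul_of_nonneg_left ?_ (by positivity))
    have e2 : ∑ k ∈ S₂, B k * ∑' n : ℕ, W k n * TN2 h (XK χ (sy (f k)) l) (M₀ + 2) (c * n) =
        ∑' n : ℕ, ∑ k ∈ S₂, B k * (W k n * TN2 h (XK χ (sy (f k)) l) (M₀ + 2) (c * n)) := by
      rw [Summable.tsum_finsetSum fun k hk => (hsum k hk).mul_left _]
      exact Finset.sum_congr rfl fun k _ => by rw [tsum_mul_left]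
    rw [e2]
    have hg := (summable_geometric_of_lt_one (Real.exp_pos (-(c * ε))).le hr1).mul_left
      (Real.exp (4 * ε * big) * E0 * I2 * Bd)
    have hnn : ∀ n : ℕ, 0 ≤ ∑ k ∈ S₂, B k * (W k n * TN2 h (XK χ (sy (f k)) l) (M₀ + 2) (c * n)) :=
      fun n => Finset.sum_nonneg fun k hk => mul_nonneg (hB2 k hk)
        (mul_nonneg (hW0 k hk n) (TN2_nonneg _ _ _ _))
    have hs2 : Summable fun n : ℕ => ∑ k ∈ S₂, B k *
        (W k n * TN2 h (XK χ (sy (f k)) l) (M₀ + 2) (c * n)) :=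
      Summable.of_nonneg_of_le hnn hterm hg
    refine (hs2.tsum_le_tsum hterm hg).trans (le_of_eq ?_)
    rw [tsum_mul_left, tsum_geometric_of_lt_one (Real.exp_pos _).le hr1]
  rw [hsplit]
  have hJ1 : (1 + |t|) ^ J1 ≤ (1 + |t|) ^ (M₀ + J1) := pow_le_pow_right₀ ht (by omega)
  calc _ ≤ C1 * (1 + |t|) ^ J1 * (U' * Bd) +
        C1 * (1 + |t|) ^ J1 * (Real.exp (4 * ε * big) * E0 * I2 * Bd * Gs) := add_le_add hp1 hp2
    _ ≤ C1 * (1 + |t|) ^ J1 * (Real.exp (4 * ε * big) * (U' * Bd)) +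
        C1 * (1 + |t|) ^ J1 * (Real.exp (4 * ε * big) * E0 * I2 * Bd * Gs) := by
        have : U' * Bd ≤ Real.exp (4 * ε * big) * (U' * Bd) := by nlinarith
        gcongr
    _ = (C1 * U' + C1 * (E0 * I2 * Gs)) * Real.exp (4 * ε * big) * (1 + |t|) ^ J1 * Bd := by ring
    _ ≤ (CT ^ 2 * U' + 1 + C1 * U' + C1 * (E0 * I2 * Gs)) * Real.exp (4 * ε * big) *
          (1 + |t|) ^ (M₀ + J1) * Bd := by
        have h4 : 0 ≤ C1 * U' := by positivity
        have h5 : 0 ≤ C1 * (E0 * I2 * Gs) := by positivity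
        have h6 : 0 ≤ CT ^ 2 * U' := by positivity
        gcongr
        linarith

end Crest.Agent.R017.XG739
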