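import Crest.Agent.R017.XGb_739

/-!
# Row 17, two-level flip (helper739), part 3: the analytic rule for all frequencies

* `CnG`   : frequencies `k = k' m³`, conductor at most `exp L`, `nm m ≤ exp N`
* `ruleG` : the rule
-/

set_option autoImplicit false

noncomputable section

open Complex MeasureTheory Filter Topology
open scoped ContDiff ComplexConjugate

namespace Crest.Agent.R017.XG739

open Crest.Agent.R012 Crest.Agent.R012.Eis Crest.Agent.R012.LS2 Crest.Agent.R012.Gauss880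
open Crest.Agent.R012.Weight600 (osc norm_osc)
open Crest.Agent.R012.PSer47 Crest.Agent.R012.Div277
open Crest.Agent.R017.End699 Crest.Agent.R017.FE47 Crest.Agent.R017.Two939
open Crest.Agent.R017.XFl571 (one_le_nm_of W_le I2 I2_nonneg norm_XK_sy_le PCh unit_le)

lemma prin0_mul (x y b : Eis) : prin0 (x * y) b = prin0 x b * prin0 y b := by
  classical
  unfold prin0
  by_cases hx : IsCoprime b x
  · by_cases hy : IsCoprime b y
    · rw [if_pos hx, if_pos hy, if_pos (hx.mul_right hy), mul_one]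
    · rw [if_neg hy, if_neg (fun h => hy h.of_mul_right_right), mul_zero]
  · rw [if_neg hx, if_neg (fun h => hx h.of_mul_right_left), zero_mul]

/-- a frequency `k' m³` -/
structure CnG (M : Eis) (χ : Eis → ℂ) (l : ℤ) (L N : ℝ) (k : Eis) : Prop where
  dec : ∃ k' m : Eis, IsPrim m ∧ k' ≠ 0 ∧ ClG M χ l L k' ∧ k = k' * m ^ 3 ∧
    (nm m : ℝ) ≤ Real.exp N

lemma XK_cube {χ : Eis → ℂ} {l : ℤ} (k' m : Eis) {b : Eis} (hb : IsPrim b) :
    XK χ (sy (k' * m ^ 3)) l b = XK χ (sy k') l b * prin0 m b := by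
  classical
  unfold XK
  have e : sy (m ^ 3) b = prin0 m b := by
    unfold prin0
    by_cases h : IsCoprime b m
    · rw [if_pos h, Char766.sy_cube_left hb h.symm]
    · rw [if_neg h, Char766.sy_pow_left hb, Char766.sy_eq_zero hb (fun h' => h h'.symm)]
      norm_num
  have e1 : sy (k' * m ^ 3) b = sy k' b * prin0 m b := by
    rw [Char766.sy_mul_left hb, e]
  rw [e1]; ring

lemma one_add_le {ε z : ℝ} (hε : 0 < ε) (hz : 0 ≤ z) :
    1 + z ≤ (1 + ε⁻¹) * Real.exp (ε * z) := by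
  have h1 : 1 + ε * z ≤ Real.exp (ε * z) := by linarith [Real.add_one_le_exp (ε * z)]
  have h2 : 0 < ε⁻¹ := inv_pos.2 hε
  calc 1 + z ≤ (1 + ε⁻¹) * (1 + ε * z) := by
        have e : (1 + ε⁻¹) * (1 + ε * z) = 1 + z + ε⁻¹ + ε * z := by
          field_simp
          ring
        have : 0 ≤ ε * z := by positivity
        linarith
    _ ≤ _ := mul_le_mul_of_nonneg_left h1 (by positivity)

lemma card_Gr' {c R z : ℝ} (hc : 0 < c) (hR : 0 ≤ R) (hz : 0 ≤ z) :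
    ((Gr c R z).card : ℝ) ≤ (c⁻¹ + R / c + 1) * (1 + z) := by
  refine (card_Gr hc hR hz).trans ?_
  have e1 : (z + R) / c + 1 = c⁻¹ * z + R / c + 1 := by field_simp
  have e2 : 0 ≤ R / c * z := by positivity
  have e3 : 0 ≤ c⁻¹ := by positivity
  rw [e1]
  nlinarith

/-- the removal of the cube in one member -/
lemma child_point {h : ℝ → ℝ} {c : ℝ} (hpu : PU h c) {R : ℝ} {K : ℕ} {Cg : ℝ} (hCg : 0 ≤ Cg)
    (hg : ∀ Ξ : Eis → ℂ, (∀ b, IsPrim b → ‖Ξ b‖ ≤ 1) → ∀ κ z t : ℝ, 0 ≤ z → κ ≤ z →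
      ‖PS (cx h) Ξ κ t‖ ^ 2 ≤ Cg * (1 + z) * (1 + |t|) ^ (2 * K) *
        ∑ n ∈ Gr c R z, TN2 h Ξ K (c * n))
    {ε : ℝ} {r : ℕ} (hε : 0 < ε)
    (hr : ∀ {w : ℝ → ℂ}, HasCompactSupport w →
      ∀ {Ξ : Eis → ℂ}, IsChar Ξ → ∀ {m : Eis}, IsPrim m → ∀ {κ₀ A t : ℝ}, 0 ≤ A →
      (∀ κ ≤ κ₀, ‖PS w (fun b => Ξ b * prin0 m b) κ t‖ ≤ Real.exp (ε * κ) * A) →
      ∀ κ ≤ κ₀, ‖PS w Ξ κ t‖ ≤ Real.exp (ε * κ) * (A * (tau m : ℝ) ^ r))
    {R0 : ℝ} (hR : ∀ u, cx h u ≠ 0 → |u| ≤ R0) {M : Eis} {χ : Eis → ℂ} (hχ : HC M χ) (l : ℤ)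
    {k' m : Eis} (hk : k' ≠ 0) (hm : IsPrim m) {z t : ℝ} (hz : 0 ≤ z) :
    ‖PS (cx h) (XK χ (sy k') l) z t‖ ^ 2 ≤ Real.exp (2 * ε * z) * (tau m : ℝ) ^ (2 * r) *
      (Real.exp (2 * ε * R0) * (Cg * (1 + z) * (1 + |t|) ^ (2 * K) *
        ∑ n ∈ Gr c R z, TN2 h (XK χ (sy (k' * m ^ 3)) l) K (c * n))) := by
  set V : ℝ := Cg * (1 + z) * (1 + |t|) ^ (2 * K) *
        ∑ n ∈ Gr c R z, TN2 h (XK χ (sy (k' * m ^ 3)) l) K (c * n) with hV
  have hS : 0 ≤ ∑ n ∈ Gr c R z, TN2 h (XK χ (sy (k' * m ^ 3)) l) K (c * n) :=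
    Finset.sum_nonneg fun n _ => TN2_nonneg _ _ _ _
  have hV0 : 0 ≤ V := by rw [hV]; positivity
  have hb : ∀ κ ≤ z, ‖PS (cx h) (XK χ (sy (k' * m ^ 3)) l) κ t‖ ≤ √V := fun κ hκ =>
    (le_abs_self _).trans (Real.abs_le_sqrt (hg _ (norm_XK_sy_le hχ l _) κ z t hz hκ))
  have h1 : ∀ κ ≤ z, ‖PS (cx h) (fun b => XK χ (sy k') l b * prin0 m b) κ t‖ ≤
      Real.exp (ε * κ) * (Real.exp (ε * R0) * √V) := by
    intro κ hκ
    have e : PS (cx h) (fun b => XK χ (sy k') l b * prin0 m b) κ t =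
        PS (cx h) (XK χ (sy (k' * m ^ 3)) l) κ t :=
      PS_congr (fun b hb => (XK_cube _ _ hb).symm) _ _
    rw [e]
    rcases lt_or_ge (κ + R0) 0 with h0 | h0
    · rw [PS_zero_of_neg hR _ h0, norm_zero]; positivity
    · refine (hb κ hκ).trans ?_
      rw [← mul_assoc, ← Real.exp_add]
      refine le_mul_of_one_le_left (Real.sqrt_nonneg _) (Real.one_le_exp ?_)
      have : 0 ≤ ε * (κ + R0) := by positivity
      linarith
  have hXc : IsChar (XK χ (sy k') l) := (hχ.char.mul' (hc_sy hk).char).mul' (ang_isChar l)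
  have h2 := hr (cs_cx hpu.cs) hXc hm (by positivity) h1 z le_rfl
  have e1 : Real.exp (2 * ε * z) = Real.exp (ε * z) ^ 2 := by
    rw [← Real.exp_nat_mul]; congr 1; push_cast; ring
  have e2 : Real.exp (2 * ε * R0) = Real.exp (ε * R0) ^ 2 := by
    rw [← Real.exp_nat_mul]; congr 1; push_cast; ring
  have e3 : V = √V ^ 2 := (Real.sq_sqrt hV0).symm
  have e4 : (tau m : ℝ) ^ (2 * r) = ((tau m : ℝ) ^ r) ^ 2 := by rw [← pow_mul, mul_comm 2 r]
  calc ‖PS (cx h) (XK χ (sy k') l) z t‖ ^ 2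
      ≤ (Real.exp (ε * z) * (Real.exp (ε * R0) * √V * (tau m : ℝ) ^ r)) ^ 2 := by gcongr
    _ = Real.exp (ε * z) ^ 2 * ((tau m : ℝ) ^ r) ^ 2 * (Real.exp (ε * R0) ^ 2 * √V ^ 2) := by ring
    _ = _ := by rw [← e1, ← e2, ← e3, ← e4]

open Classical in
/-- the insertion of a coprimality condition in one member -/
lemma ins_point {h : ℝ → ℝ} {c : ℝ} (hpu : PU h c) {R : ℝ} {K : ℕ} {Cg : ℝ} (hCg : 0 ≤ Cg)
    (hg : ∀ Ξ : Eis → ℂ, (∀ b, IsPrim b → ‖Ξ b‖ ≤ 1) → ∀ κ z t : ℝ, 0 ≤ z → κ ≤ z →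
      ‖PS (cx h) Ξ κ t‖ ^ 2 ≤ Cg * (1 + z) * (1 + |t|) ^ (2 * K) *
        ∑ n ∈ Gr c R z, TN2 h Ξ K (c * n))
    {M : Eis} {χ : Eis → ℂ} (hχ : HC M χ) (l : ℤ) {k' m d : Eis} (hk : k' ≠ 0) (hm : IsPrim m)
    (hd : d ≠ 0) {z t : ℝ} (hz : 0 ≤ z) :
    ‖PS (cx h) (fun b => XK χ (sy (k' * m ^ 3)) l b * prin0 d b) z t‖ ^ 2 ≤
      (tau (m * d) : ℝ) ^ 2 * (Cg * (1 + z) * (1 + |t|) ^ (2 * K) *
        ∑ n ∈ Gr c R z, TN2 h (XK χ (sy k') l) K (c * n)) := by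
  set V : ℝ := Cg * (1 + z) * (1 + |t|) ^ (2 * K) *
        ∑ n ∈ Gr c R z, TN2 h (XK χ (sy k') l) K (c * n) with hV
  have hS : 0 ≤ ∑ n ∈ Gr c R z, TN2 h (XK χ (sy k') l) K (c * n) :=
    Finset.sum_nonneg fun n _ => TN2_nonneg _ _ _ _
  have hV0 : 0 ≤ V := by rw [hV]; positivity
  have hmd : m * d ≠ 0 := mul_ne_zero hm.ne_zero hd
  set F := (dvs (m * d)).filter Squarefree with hF
  have hFc : (F.card : ℝ) ≤ tau (m * d) := by
    unfold tau
    exact_mod_cast Finset.card_filter_le _ _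
  have hτ0 : (0 : ℝ) ≤ tau (m * d) := Nat.cast_nonneg _
  have hXc : IsChar (XK χ (sy k') l) := (hχ.char.mul' (hc_sy hk).char).mul' (ang_isChar l)
  have e3 : PS (cx h) (fun b => XK χ (sy (k' * m ^ 3)) l b * prin0 d b) z t =
      PS (cx h) (fun b => if IsCoprime b (m * d) then XK χ (sy k') l b else 0) z t := by
    refine PS_congr (fun b hb => ?_) _ _
    rw [XK_cube _ _ hb, mul_assoc, ← prin0_mul]
    unfold prin0
    split_ifs <;> simp
  rw [e3]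
  have h1 := norm_PS_cop_le (cs_cx hpu.cs) hXc hmd z t
  calc _ ≤ (∑ d' ∈ F, ‖PS (cx h) (XK χ (sy k') l) (z - Real.log (nm d')) t‖) ^ 2 := by gcongr
    _ ≤ F.card * ∑ d' ∈ F, ‖PS (cx h) (XK χ (sy k') l) (z - Real.log (nm d')) t‖ ^ 2 :=
        sq_sum_le_card_mul_sum_sq
    _ ≤ F.card * ∑ _d' ∈ F, V := by
        refine mul_le_mul_of_nonneg_left (Finset.sum_le_sum fun d' hd' => ?_) (Nat.cast_nonneg _)
        rw [hF, Finset.mem_filter] at hd'
        have h4 := log_nm_nonneg (isPrim_of_mem_dvs hd'.1)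
        exact hg _ (norm_XK_sy_le hχ l _) _ z t hz (by linarith)
    _ = (F.card : ℝ) ^ 2 * V := by rw [Finset.sum_const, nsmul_eq_mul]; ring
    _ ≤ _ := by gcongr

set_option maxHeartbeats 1000000 in
/-- **the analytic rule for frequencies with cubes** -/
theorem ruleG {h : ℝ → ℝ} {c : ℝ} (hpu : PU h c) : ∃ zs R : ℝ, 0 ≤ zs ∧ 0 ≤ R ∧
    ∀ (M : Eis) (χ : Eis → ℂ) (_ : HC M χ) (l : ℤ), ∀ ε : ℝ, 0 < ε → ε ≤ 1 / 2 → ∀ M₀ : ℕ,
    ∃ (C : ℝ) (J : ℕ), 0 ≤ C ∧ ∀ (L N z Z : ℝ), 0 ≤ L → 0 ≤ N → 0 ≤ z → 0 ≤ Z →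
      ∀ {ι : Type} (S : Finset ι) (f : ι → Eis) (B : ι → ℝ), (∀ i ∈ S, 0 ≤ B i) →
      (∀ i ∈ S, CnG M χ l L N (f i)) → ∀ Bd : ℝ, 0 ≤ Bd → ∀ Pch Pch₁ : ℝ → ℝ → Prop,
      PCh (ε * (1 + L + (z + R)) + zs) zs L (z + R) Pch₁ →
      (∀ z' z'' : ℝ, Pch₁ z' z'' → 0 ≤ z'' ∧ z'' ≤ Z ∧ ∀ x : ℝ, 0 ≤ x → x ≤ z'' + R →
        (z' = z'' ∧ Pch x x) ∨ Pch z' x) →
      (∀ z' z'' t' : ℝ, Pch z' z'' →
        SBf h χ l S f B z'' t' ≤ Bd * (1 + |t'|) ^ M₀ * Real.exp (-(z' - z''))) →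
      ∀ d : Eis, d ≠ 0 → ∀ t : ℝ,
        ∑ i ∈ S, B i * ‖PS (cx h) (fun b => XK χ (sy (f i)) l b * prin0 d b) z t‖ ^ 2 ≤
          C * Real.exp (8 * ε * (1 + L + N + z + Z)) * (nm d : ℝ) ^ ε * (1 + |t|) ^ J * Bd := by
  classical
  obtain ⟨zs, s, ts, Cu, hzs, hCu, hun⟩ := unit_le hpu
  obtain ⟨R, hR, hgrid⟩ := grid2 hpu
  obtain ⟨R0, hR00, hR0⟩ := exists_R (cs_cx hpu.cs)
  refine ⟨zs, R, hzs, hR, fun M χ hχ l ε hε hε1 M₀ => ?_⟩
  obtain ⟨r, hr⟩ := euler_all hε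
  obtain ⟨Cg, hCg, hg⟩ := hgrid (M₀ + 2) (by omega)
  obtain ⟨C1, J1, hC1, hrule⟩ := rule1g hpu hχ l hzs hCu hun hε hε1 (2 * (M₀ + 2))
  obtain ⟨Cg2, hCg2, hg2⟩ := hgrid (J1 + 2) (by omega)
  obtain ⟨Ct, hCt, hτ⟩ := tau_le_rpow (show 0 < ε / (2 * r + 2) by positivity)
  obtain ⟨Ct2, hCt2, hτ2⟩ := tau_le_rpow (show 0 < ε / 2 by positivity)
  have hc := hpu.cpos
  have hI := I2_nonneg
  set cR : ℝ := c⁻¹ + R / c + 1 with hcR
  have hcR0 : 0 ≤ cR := by rw [hcR]; positivity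
  set CE : ℝ := 1 + ε⁻¹ with hCE
  have hCE0 : 0 ≤ CE := by rw [hCE]; positivity
  set CA : ℝ := Real.exp (2 * ε * R0) * Ct ^ (2 * r) * Cg * CE ^ 2 * cR * Real.exp R * I2 with hCA
  have hCA0 : 0 ≤ CA := by rw [hCA]; positivity
  refine ⟨Ct2 ^ 2 * Cg2 * CE ^ 2 * cR * (C1 * Real.exp (4 * ε * R) * CA * I2), 2 * (J1 + 2),
    by positivity, ?_⟩
  intro L N z Z hL hN hz hZ ι S f B hB hCn Bd hBd Pch Pch₁ hPch hdown hch d hd t
  choose! k' m hm hk0 hcl hfk hmN using fun i hi => (hCn i hi).dec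
  have hN0 : ∀ i ∈ S, (0 : ℝ) < nm (m i) := fun i hi => by
    have := nm_pos.2 (hm i hi).ne_zero
    exact_mod_cast this
  -- the divisor bounds
  have hτm : ∀ i ∈ S, (tau (m i) : ℝ) ^ (2 * r) ≤ Ct ^ (2 * r) * Real.exp (ε * N) := by
    intro i hi
    have h1 := hτ (m i) (hm i hi).ne_zero
    have h2 : (nm (m i) : ℝ) ^ (ε / (2 * r + 2)) ≤ Real.exp (N * (ε / (2 * r + 2))) := by
      rw [Real.exp_mul]
      exact Real.rpow_le_rpow (hN0 i hi).le (hmN i hi) (by positivity)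
    calc (tau (m i) : ℝ) ^ (2 * r) ≤ (Ct * Real.exp (N * (ε / (2 * r + 2)))) ^ (2 * r) := by
          refine pow_le_pow_left₀ (Nat.cast_nonneg _) (h1.trans ?_) _
          exact mul_le_mul_of_nonneg_left h2 (by linarith)
      _ = Ct ^ (2 * r) * Real.exp ((2 * r : ℕ) * (N * (ε / (2 * r + 2)))) := by
          rw [mul_pow, ← Real.exp_nat_mul]
      _ ≤ _ := by
          refine mul_le_mul_of_nonneg_left (Real.exp_le_exp.2 ?_) (by positivity)
          push_cast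
          have e1 : (2 * (r : ℝ)) * (N * (ε / (2 * r + 2))) =
              ε * N * ((2 * r) / (2 * r + 2)) := by ring
          rw [e1]
          have e2 : (2 * (r : ℝ)) / (2 * r + 2) ≤ 1 := by
            rw [div_le_one (by positivity)]; linarith
          have e3 : 0 ≤ ε * N := by positivity
          calc ε * N * ((2 * r) / (2 * r + 2)) ≤ ε * N * 1 := mul_le_mul_of_nonneg_left e2 e3
            _ = ε * N := mul_one _
  have hτd : ∀ i ∈ S, (tau (m i * d) : ℝ) ^ 2 ≤ Ct2 ^ 2 * Real.exp (ε * N) * (nm d : ℝ) ^ ε := by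
    intro i hi
    have h1 := hτ2 (m i * d) (mul_ne_zero (hm i hi).ne_zero hd)
    have hd0 : (0 : ℝ) ≤ nm d := Nat.cast_nonneg _
    calc (tau (m i * d) : ℝ) ^ 2 ≤ (Ct2 * (nm (m i * d) : ℝ) ^ (ε / 2)) ^ 2 := by gcongr
      _ = Ct2 ^ 2 * (nm (m i * d) : ℝ) ^ ε := by
          have e1 : (nm (m i * d) : ℝ) ^ ε = ((nm (m i * d) : ℝ) ^ (ε / 2)) ^ 2 := by
            rw [← Real.rpow_natCast, ← Real.rpow_mul (Nat.cast_nonneg _)]
            congr 1
            push_cast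
            ring
          rw [mul_pow, e1]
      _ = Ct2 ^ 2 * ((nm (m i) : ℝ) ^ ε * (nm d : ℝ) ^ ε) := by
          rw [nm_mul]; push_cast; rw [Real.mul_rpow (hN0 i hi).le hd0]
      _ ≤ Ct2 ^ 2 * (Real.exp (ε * N) * (nm d : ℝ) ^ ε) := by
          have h2 : (nm (m i) : ℝ) ^ ε ≤ Real.exp (ε * N) := by
            rw [mul_comm, Real.exp_mul]
            exact Real.rpow_le_rpow (hN0 i hi).le (hmN i hi) hε.le
          gcongr
      _ = _ := by ring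
  -- the children of the members without cubes
  have hA : ∀ z' z'' t' : ℝ, Pch₁ z' z'' → SBf h χ l S k' B z'' t' ≤
      (CA * Real.exp (ε * N + 4 * ε * Z) * Bd) * (1 + |t'|) ^ (2 * (M₀ + 2)) *
        Real.exp (-(z' - z'')) := by
    intro z' z'' t' hP1
    obtain ⟨hz0, hzZ, hdn⟩ := hdown z' z'' hP1
    have hin : ∀ n ∈ Gr c R z'', ∑ i ∈ S, B i * TN2 h (XK χ (sy (f i)) l) (M₀ + 2) (c * n) ≤
        (Bd * Real.exp (-(z' - z'')) * Real.exp R) * I2 := by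
      intro n hn
      have hx0 : 0 ≤ c * n := mul_nonneg hc.le (Nat.cast_nonneg _)
      have hx1 := mem_Gr_le hc hR hz0 hn
      refine sum_TN2f_le hpu hχ l (Finset.Subset.refl S) hB (fun t => ?_)
      rcases hdn _ hx0 hx1 with ⟨he, hP⟩ | hP
      · have h1 := hch _ _ t hP
        rw [sub_self, neg_zero, Real.exp_zero, mul_one] at h1
        rw [he, sub_self, neg_zero, Real.exp_zero, mul_one]
        have h2 : 1 ≤ Real.exp R := Real.one_le_exp hR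
        calc _ ≤ Bd * (1 + |t|) ^ M₀ := h1
          _ = Bd * 1 * (1 + |t|) ^ M₀ := by ring
          _ ≤ Bd * Real.exp R * (1 + |t|) ^ M₀ := by gcongr
      · have h1 := hch _ _ t hP
        have h2 : Real.exp (-(z' - c * n)) ≤ Real.exp (-(z' - z'')) * Real.exp R := by
          rw [← Real.exp_add]
          exact Real.exp_le_exp.2 (by linarith)
        calc _ ≤ Bd * (1 + |t|) ^ M₀ * Real.exp (-(z' - c * n)) := h1
          _ ≤ Bd * (1 + |t|) ^ M₀ * (Real.exp (-(z' - z'')) * Real.exp R) := by gcongr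
          _ = _ := by ring
    have hq : Real.exp (2 * ε * z'') * (1 + z'') ^ 2 ≤ CE ^ 2 * Real.exp (4 * ε * Z) := by
      have h1 := one_add_le hε hz0
      calc Real.exp (2 * ε * z'') * (1 + z'') ^ 2
          ≤ Real.exp (2 * ε * z'') * (CE * Real.exp (ε * z'')) ^ 2 := by gcongr
        _ = CE ^ 2 * Real.exp (4 * ε * z'') := by
            have e1 : Real.exp (4 * ε * z'') = Real.exp (2 * ε * z'') * Real.exp (ε * z'') ^ 2 := by
              rw [← Real.exp_nat_mul, ← Real.exp_add]; congr 1; push_cast; ring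
            rw [e1]; ring
        _ ≤ _ := by gcongr
    have hcard := card_Gr' hc hR hz0
    rw [← hcR] at hcard
    set G : ℝ := (Bd * Real.exp (-(z' - z'')) * Real.exp R) * I2 with hG
    have hG0 : 0 ≤ G := by rw [hG]; positivity
    set T1 : ℝ := (1 + |t'|) ^ (2 * (M₀ + 2)) with hT1
    have hT10 : 0 ≤ T1 := by positivity
    calc SBf h χ l S k' B z'' t'
        ≤ ∑ i ∈ S, B i * (Real.exp (2 * ε * z'') * (Ct ^ (2 * r) * Real.exp (ε * N)) *
          (Real.exp (2 * ε * R0) * (Cg * (1 + z'') * T1 *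
            ∑ n ∈ Gr c R z'', TN2 h (XK χ (sy (f i)) l) (M₀ + 2) (c * n)))) := by
          refine Finset.sum_le_sum fun i hi => mul_le_mul_of_nonneg_left ?_ (hB i hi)
          have h1 := child_point hpu hCg hg hε hr hR0 hχ l (hk0 i hi) (hm i hi) (t := t') hz0
          rw [← hfk i hi] at h1
          refine h1.trans ?_
          have h2 := hτm i hi
          have h3 : 0 ≤ ∑ n ∈ Gr c R z'', TN2 h (XK χ (sy (f i)) l) (M₀ + 2) (c * n) :=
            Finset.sum_nonneg fun n _ => TN2_nonneg _ _ _ _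
          refine mul_le_mul_of_nonneg_right ?_ (by positivity)
          exact mul_le_mul_of_nonneg_left h2 (Real.exp_pos _).le
      _ = Real.exp (2 * ε * z'') * (Ct ^ (2 * r) * Real.exp (ε * N)) *
          (Real.exp (2 * ε * R0) * (Cg * (1 + z'') * T1)) *
          ∑ n ∈ Gr c R z'', ∑ i ∈ S, B i * TN2 h (XK χ (sy (f i)) l) (M₀ + 2) (c * n) := by
          rw [Finset.sum_comm, Finset.mul_sum]
          refine Finset.sum_congr rfl fun i _ => ?_
          rw [← Finset.mul_sum]; ring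
      _ ≤ Real.exp (2 * ε * z'') * (Ct ^ (2 * r) * Real.exp (ε * N)) *
          (Real.exp (2 * ε * R0) * (Cg * (1 + z'') * T1)) * ((cR * (1 + z'')) * G) := by
          refine mul_le_mul_of_nonneg_left ?_ (by positivity)
          calc _ ≤ ∑ _n ∈ Gr c R z'', G := Finset.sum_le_sum fun n hn => hin n hn
            _ = (Gr c R z'').card * G := by rw [Finset.sum_const, nsmul_eq_mul]
            _ ≤ _ := mul_le_mul_of_nonneg_right hcard hG0
      _ = (Real.exp (2 * ε * z'') * (1 + z'') ^ 2) * (Ct ^ (2 * r) * Real.exp (ε * N) *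
          Real.exp (2 * ε * R0) * Cg * cR * (T1 * G)) := by ring
      _ ≤ (CE ^ 2 * Real.exp (4 * ε * Z)) * (Ct ^ (2 * r) * Real.exp (ε * N) *
          Real.exp (2 * ε * R0) * Cg * cR * (T1 * G)) := by
          refine mul_le_mul_of_nonneg_right hq (by positivity)
      _ = _ := by
          rw [hG, hCA, Real.exp_add]; ring
  -- the rule for the members without cubes
  set Bd' : ℝ := CA * Real.exp (ε * N + 4 * ε * Z) * Bd with hBd'
  have hBd'0 : 0 ≤ Bd' := by rw [hBd']; positivity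
  have hrl := hrule L (z + R) hL (by linarith) S k' B hB hcl Bd' hBd'0 Pch₁ hPch hA
  have hin2 : ∀ n ∈ Gr c R z, ∑ i ∈ S, B i * TN2 h (XK χ (sy (k' i)) l) (J1 + 2) (c * n) ≤
      (C1 * Real.exp (4 * ε * (1 + L + (z + R))) * Bd') * I2 := by
    intro n hn
    have hx1 := mem_Gr_le hc hR hz hn
    refine sum_TN2f_le hpu hχ l (Finset.Subset.refl S) hB (fun t => ?_)
    refine (hrl (c * n) t hx1).trans (le_of_eq ?_)
    ring
  have hcard := card_Gr' hc hR hz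
  rw [← hcR] at hcard
  set G : ℝ := (C1 * Real.exp (4 * ε * (1 + L + (z + R))) * Bd') * I2 with hG
  have hG0 : 0 ≤ G := by rw [hG]; positivity
  set T1 : ℝ := (1 + |t|) ^ (2 * (J1 + 2)) with hT1
  have hT10 : 0 ≤ T1 := by positivity
  have hd0 : (0 : ℝ) ≤ (nm d : ℝ) ^ ε := Real.rpow_nonneg (Nat.cast_nonneg _) _
  have hq : (1 + z) ^ 2 ≤ CE ^ 2 * Real.exp (2 * ε * z) := by
    have h1 := one_add_le hε hz
    calc (1 + z) ^ 2 ≤ (CE * Real.exp (ε * z)) ^ 2 := by gcongr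
      _ = CE ^ 2 * Real.exp (2 * ε * z) := by
          have e1 : Real.exp (2 * ε * z) = Real.exp (ε * z) ^ 2 := by
            rw [← Real.exp_nat_mul]; congr 1; push_cast; ring
          rw [e1]; ring
  have hEE : Real.exp (2 * ε * z) * Real.exp (ε * N) * (Real.exp (4 * ε * (1 + L + (z + R))) *
      Real.exp (ε * N + 4 * ε * Z)) ≤ Real.exp (4 * ε * R) *
        Real.exp (8 * ε * (1 + L + N + z + Z)) := by
    rw [← Real.exp_add, ← Real.exp_add, ← Real.exp_add, ← Real.exp_add]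
    apply Real.exp_le_exp.2
    have h1 : 0 ≤ ε * L := by positivity
    have h2 : 0 ≤ ε * N := by positivity
    have h3 : 0 ≤ ε * z := by positivity
    have h4 : 0 ≤ ε * Z := by positivity
    nlinarith
  calc ∑ i ∈ S, B i * ‖PS (cx h) (fun b => XK χ (sy (f i)) l b * prin0 d b) z t‖ ^ 2
      ≤ ∑ i ∈ S, B i * ((Ct2 ^ 2 * Real.exp (ε * N) * (nm d : ℝ) ^ ε) * (Cg2 * (1 + z) * T1 *
          ∑ n ∈ Gr c R z, TN2 h (XK χ (sy (k' i)) l) (J1 + 2) (c * n))) := by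
        refine Finset.sum_le_sum fun i hi => mul_le_mul_of_nonneg_left ?_ (hB i hi)
        have h1 := ins_point hpu hCg2 hg2 hχ l (hk0 i hi) (hm i hi) hd (t := t) hz
        rw [← hfk i hi] at h1
        refine h1.trans ?_
        have h3 : 0 ≤ ∑ n ∈ Gr c R z, TN2 h (XK χ (sy (k' i)) l) (J1 + 2) (c * n) :=
          Finset.sum_nonneg fun n _ => TN2_nonneg _ _ _ _
        exact mul_le_mul_of_nonneg_right (hτd i hi) (by positivity)
    _ = (Ct2 ^ 2 * Real.exp (ε * N) * (nm d : ℝ) ^ ε) * (Cg2 * (1 + z) * T1) *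
          ∑ n ∈ Gr c R z, ∑ i ∈ S, B i * TN2 h (XK χ (sy (k' i)) l) (J1 + 2) (c * n) := by
        rw [Finset.sum_comm, Finset.mul_sum]
        refine Finset.sum_congr rfl fun i _ => ?_
        rw [← Finset.mul_sum]; ring
    _ ≤ (Ct2 ^ 2 * Real.exp (ε * N) * (nm d : ℝ) ^ ε) * (Cg2 * (1 + z) * T1) *
          ((cR * (1 + z)) * G) := by
        refine mul_le_mul_of_nonneg_left ?_ (by positivity)
        calc _ ≤ ∑ _n ∈ Gr c R z, G := Finset.sum_le_sum fun n hn => hin2 n hn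
          _ = (Gr c R z).card * G := by rw [Finset.sum_const, nsmul_eq_mul]
          _ ≤ _ := mul_le_mul_of_nonneg_right hcard hG0
    _ = (1 + z) ^ 2 * (Ct2 ^ 2 * Real.exp (ε * N) * (nm d : ℝ) ^ ε * Cg2 * T1 * cR * G) := by ring
    _ ≤ (CE ^ 2 * Real.exp (2 * ε * z)) * (Ct2 ^ 2 * Real.exp (ε * N) * (nm d : ℝ) ^ ε * Cg2 *
          T1 * cR * G) := mul_le_mul_of_nonneg_right hq (by positivity)
    _ = (Real.exp (2 * ε * z) * Real.exp (ε * N) * (Real.exp (4 * ε * (1 + L + (z + R))) *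
        Real.exp (ε * N + 4 * ε * Z))) * (CE ^ 2 * Ct2 ^ 2 * (nm d : ℝ) ^ ε * Cg2 * T1 * cR *
          (C1 * CA * Bd * I2)) := by
        rw [hG, hBd']; ring
    _ ≤ (Real.exp (4 * ε * R) * Real.exp (8 * ε * (1 + L + N + z + Z))) *
        (CE ^ 2 * Ct2 ^ 2 * (nm d : ℝ) ^ ε * Cg2 * T1 * cR * (C1 * CA * Bd * I2)) :=
        mul_le_mul_of_nonneg_right hEE (by positivity)
    _ = _ := by ring

end Crest.Agent.R017.XG739
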