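import Crest.Agent.R017.XGc_739
import Crest.Agent.R017.XFl4_571
import Crest.Agent.R017.RQd_385

/-!
# Row 17, two-level flip (helper739), part 4: the rule for lists of pieces

* `PsE`      : the two-level functional, the second level is the length of the second piece
* `rule_PsE` : the analytic rule
-/

set_option autoImplicit false

noncomputable section

open Complex
open scoped ComplexConjugate ContDiff

namespace Crest.Agent.R017.XG739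

open Crest.Agent.R012 Crest.Agent.R012.Eis Crest.Agent.R012.LS2 Crest.Agent.R012.Gauss880
open Crest.Agent.R012.PSer47 (IsChar ang_isChar)
open Crest.Agent.R012.Div277 (nm_le_of_dvd)
open Crest.Agent.R017.CM106 (CS)
open Crest.Agent.R017.End699 Crest.Agent.R017.FE47 Crest.Agent.R017.Two939
open Crest.Agent.R017.B770
open Crest.Agent.R017.XG702 (Pcs BG)
open Crest.Agent.R017.HP842 (UT Pc pc uv norm_uv_le)
open Crest.Agent.R017.Prov71
open Crest.Agent.R017.RQd385 (PM2Q PMpQ PM2Q_nonneg PM2Q_neg)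
open Crest.Agent.R017.XFl571 (PCh ChF ChC pch_F pch_C GF GF_cont GF_hom GC GC_cont GC_hom
  CS_lump CS_mkL mkL wB wB_nonneg wB_le norm_CS_le lump_rule)

/-! ### the conductor -/

lemma NPm_of_cube {M : Eis} {χ : Eis → ℂ} {l : ℤ} {k m : Eis}
    (h : Sup271.NPm M χ l (k * m ^ 3)) : Sup271.NPm M χ l k := by
  unfold Sup271.NPm at h ⊢
  rcases h with h | ⟨a, ha, hc, hne⟩
  · exact Or.inl h
  · right
    have hd : M * (9 * k) ∣ M * (9 * (k * m ^ 3)) :=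
      mul_dvd_mul_left _ (mul_dvd_mul_left _ (dvd_mul_right k (m ^ 3)))
    have hdm : m ∣ M * (9 * (k * m ^ 3)) :=
      Dvd.dvd.mul_left (Dvd.dvd.mul_left (Dvd.dvd.mul_left (dvd_pow_self m three_ne_zero) k) 9) M
    refine ⟨a, ha, hc.of_isCoprime_of_dvd_right hd, ?_⟩
    have hma : IsCoprime m a := (hc.of_isCoprime_of_dvd_right hdm).symm
    beta_reduce at hne ⊢
    rwa [Char766.sy_mul_left ha, Char766.sy_cube_left ha hma, mul_one] at hne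

/-- the class of `x b²` -/
lemma cnG_of {M : Eis} {χ : Eis → ℂ} (hχ : HC M χ) {l : ℤ} {L N : ℝ} {x b : Eis}
    (h0 : x * b ^ 2 ≠ 0) (hnp : Sup271.NPm M χ l (x * b ^ 2))
    (hL : (nm x : ℝ) * nm b ≤ Real.exp L) (hN : (nm x : ℝ) * (nm b : ℝ) ^ 2 ≤ Real.exp N) :
    CnG M χ l L N (x * b ^ 2) := by
  obtain ⟨e, he, k1, k2, m, p1, p2, hm, s1, s2, hcop, hM, -, hk⟩ := exists_dec hχ.three h0
  have hx0 : x ≠ 0 := left_ne_zero_of_mul h0
  have hb0 : b ≠ 0 := fun h => h0 (by rw [h]; ring)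
  have hk'0 : e * k1 * k2 ^ 2 ≠ 0 := mul_ne_zero (mul_ne_zero he.1 p1.ne_zero)
    (pow_ne_zero 2 p2.ne_zero)
  have hsq : Squarefree (k1 * k2) := squarefree_mul_iff.2 ⟨hcop.isRelPrime, s1, s2⟩
  have hdv : k1 * k2 ∣ x * b := by
    rw [← hsq.dvd_pow_iff_dvd (n := 2) two_ne_zero]
    have h1 : k1 * k2 ∣ x * b ^ 2 := by rw [hk]; exact ⟨e * k2 * m ^ 3, by ring⟩
    exact h1.trans ⟨x, by ring⟩
  have hmd : m ∣ x * b ^ 2 := by
    rw [hk]
    exact ⟨e * k1 * k2 ^ 2 * m ^ 2, by ring⟩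
  refine ⟨e * k1 * k2 ^ 2, m, hm, hk'0, ⟨⟨e, he, k1, k2, p1, p2, s1, s2, hcop, hM, rfl, ?_⟩, ?_⟩,
    hk, ?_⟩
  · refine le_trans ?_ hL
    have h1 := nm_le_of_dvd (mul_ne_zero hx0 hb0) hdv
    rw [nm_mul x b] at h1
    exact_mod_cast h1
  · rw [hk] at hnp
    exact NPm_of_cube hnp
  · refine le_trans ?_ hN
    have h1 := nm_le_of_dvd h0 hmd
    rw [nm_mul, nm_pow] at h1
    exact_mod_cast h1

/-! ### the functional as a sum over pairs -/

/-- the frequency of a pair -/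
def fP (q : Eis × Eis) : Eis := q.2 * q.1 ^ 2

open Classical in
/-- the pairs -/
def SP (Q : Eis → Prop) (l β : ℝ) : Finset (Eis × Eis) :=
  (primBall ⌊Real.exp β⌋₊ ×ˢ bl (Real.exp l)).filter (fun q => Q (fP q))

lemma PM2Q_eq (Q : Eis → Prop) (P : DPar) (h : ℝ → ℝ) (l β : ℝ) (ps : List Pq) :
    PM2Q Q P h l β ps = ∑ q ∈ SP Q l β, wB P h ps (fP q) := by
  classical
  unfold RQd385.PM2Q RQd385.PMpQ SP
  rw [Finset.sum_filter, Finset.sum_product]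
  refine Finset.sum_congr rfl fun b _ => ?_
  rw [Finset.sum_filter]
  refine Finset.sum_congr rfl fun x _ => ?_
  unfold wB fP
  dsimp only
  rw [List.map_map]
  rfl

lemma wB_cons (P : DPar) (h : ℝ → ℝ) (p : Pq) (ps : List Pq) (k : Eis) :
    wB P h (p :: ps) k = wB P h ps k * ‖CS (pc h (p.pc P)) k‖ ^ 2 := by
  unfold wB
  rw [List.map_cons, List.map_cons, List.prod_cons, mul_comm]

lemma mem_SP {Q : Eis → Prop} {l β : ℝ} {q : Eis × Eis} (hq : q ∈ SP Q l β) :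
    IsPrim q.1 ∧ (nm q.1 : ℝ) ≤ Real.exp β ∧ q.2 ≠ 0 ∧ (nm q.2 : ℝ) ≤ Real.exp l ∧ Q (fP q) := by
  classical
  unfold SP at hq
  rw [Finset.mem_filter, Finset.mem_product, mem_primBall, mem_bl (Real.exp_pos _).le] at hq
  obtain ⟨⟨⟨h1, h2⟩, h3, h4⟩, h5⟩ := hq
  refine ⟨h2, ?_, h3, h4, h5⟩
  exact (Nat.cast_le.2 h1).trans (Nat.floor_le (Real.exp_pos _).le)

lemma card_SP_le (Q : Eis → Prop) (l β : ℝ) :
    ((SP Q l β).card : ℝ) ≤ 256 * Real.exp (l + β) := by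
  classical
  have h1 : ((SP Q l β).card : ℝ) ≤ (primBall ⌊Real.exp β⌋₊).card * (bl (Real.exp l)).card := by
    unfold SP
    refine (Nat.cast_le.2 (Finset.card_filter_le _ _)).trans ?_
    rw [Finset.card_product]
    push_cast
    exact le_rfl
  have h2 : ((primBall ⌊Real.exp β⌋₊).card : ℝ) ≤ 16 * Real.exp β := by
    refine le_trans ?_ (CR2.card_bl_le (Real.exp_pos β).le)
    refine Nat.cast_le.2 (Finset.card_le_card fun b hb => ?_)
    rw [mem_primBall] at hb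
    rw [mem_bl (Real.exp_pos _).le]
    exact ⟨hb.2.ne_zero, (Nat.cast_le.2 hb.1).trans (Nat.floor_le (Real.exp_pos _).le)⟩
  have h3 := CR2.card_bl_le (Real.exp_pos l).le
  calc ((SP Q l β).card : ℝ) ≤ (primBall ⌊Real.exp β⌋₊).card * (bl (Real.exp l)).card := h1
    _ ≤ (16 * Real.exp β) * (16 * Real.exp l) :=
        mul_le_mul h2 h3 (Nat.cast_nonneg _) (by positivity)
    _ = _ := by rw [Real.exp_add]; ring

lemma PM2Q_negβ {Q : Eis → Prop} {P : DPar} {h : ℝ → ℝ} {l β : ℝ} (hβ : β < 0) (ps : List Pq) :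
    PM2Q Q P h l β ps = 0 := by
  rw [PM2Q_eq]
  refine Finset.sum_eq_zero fun q hq => ?_
  exfalso
  obtain ⟨h1, h2, -⟩ := mem_SP hq
  have h3 : (1 : ℝ) ≤ nm q.1 := by exact_mod_cast nm_pos.2 h1.ne_zero
  have h4 : Real.exp β < 1 := by
    rw [← Real.exp_zero]; exact Real.exp_lt_exp.2 hβ
  linarith

/-! ### the encoded functional -/

/-- the functional with two levels: the second level is the length of the second piece, the
family is the sum of the levels -/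
def PsE (P : DPar) (Q : Eis → Prop) (h : ℝ → ℝ) (L : ℝ) : List Pq → ℝ
  | p :: q :: ps => PM2Q Q P h (L - q.z) q.z (p :: ps)
  | _ => 0

section
variable {P : DPar} {Q : Eis → Prop} {h : ℝ → ℝ}

lemma PsE_cons (L : ℝ) (p q : Pq) (ps : List Pq) :
    PsE P Q h L (p :: q :: ps) = PM2Q Q P h (L - q.z) q.z (p :: ps) := rfl

lemma PsE_one (L : ℝ) (p : Pq) : PsE P Q h L [p] = 0 := rfl

lemma PsE_nil (L : ℝ) : PsE P Q h L [] = 0 := rfl

lemma neg_PsE {L : ℝ} (hL : L < 0) (ps : List Pq) : PsE P Q h L ps ≤ 0 := by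
  match ps with
  | [] => exact le_rfl
  | [p] => exact le_rfl
  | p :: q :: ps =>
    rw [PsE_cons]
    rcases lt_or_ge q.z 0 with h0 | h0
    · rw [PM2Q_negβ h0]
    · rw [PM2Q_neg (by linarith)]

/-- trivial bound -/
lemma triv_PsE {c : ℝ} (hpu : PU h c) (hP : P.OK) (N : ℕ) :
    ∃ C : ℝ, ∀ lK : ℝ, 0 ≤ lK → ∀ ps : List Pq, ps.length ≤ N → (∀ p ∈ ps, 0 ≤ Dq.len p) →
      PsE P Q h lK ps ≤ C * Real.exp (2 * (lK + (ps.map Dq.len).sum)) := by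
  obtain ⟨C, hC, hb⟩ := norm_CS_le hpu
  have hC2 : 1 ≤ C ^ 2 := one_le_pow₀ hC
  refine ⟨256 * (C ^ 2) ^ N, fun lK hlK ps hN hps => ?_⟩
  match ps, hN, hps with
  | [], _, _ => rw [PsE_nil]; positivity
  | [p], _, _ => rw [PsE_one]; positivity
  | p :: q :: ps, hN, hps =>
    rw [PsE_cons, PM2Q_eq]
    have hq0 : 0 ≤ q.z := hps q (by simp)
    have hsum : ((p :: ps).map Dq.len).sum ≤ ((p :: q :: ps).map Dq.len).sum := by
      simp only [List.map_cons, List.sum_cons, Dq_len]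
      linarith
    have h1 : ∀ k, wB P h (p :: ps) k ≤
        (C ^ 2) ^ N * Real.exp (2 * ((p :: q :: ps).map Dq.len).sum) := by
      intro k
      refine (wB_le hC (hb P hP) (p :: ps) k).trans ?_
      have i1 : (p :: ps).length ≤ N := by
        simp only [List.length_cons] at hN ⊢
        omega
      have i2 := pow_le_pow_right₀ hC2 i1
      have i3 : Real.exp (2 * ((p :: ps).map Dq.len).sum) ≤
          Real.exp (2 * ((p :: q :: ps).map Dq.len).sum) :=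
        Real.exp_le_exp.2 (by linarith)
      exact mul_le_mul i2 i3 (Real.exp_pos _).le (by positivity)
    calc ∑ x ∈ SP Q (lK - q.z) q.z, wB P h (p :: ps) (fP x)
        ≤ ∑ _x ∈ SP Q (lK - q.z) q.z,
          (C ^ 2) ^ N * Real.exp (2 * ((p :: q :: ps).map Dq.len).sum) :=
          Finset.sum_le_sum fun x _ => h1 _
      _ = (SP Q (lK - q.z) q.z).card *
          ((C ^ 2) ^ N * Real.exp (2 * ((p :: q :: ps).map Dq.len).sum)) := by
          rw [Finset.sum_const, nsmul_eq_mul]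
      _ ≤ (256 * Real.exp (lK - q.z + q.z)) *
          ((C ^ 2) ^ N * Real.exp (2 * ((p :: q :: ps).map Dq.len).sum)) :=
          mul_le_mul_of_nonneg_right (card_SP_le _ _ _) (by positivity)
      _ ≤ (256 * Real.exp (2 * lK)) *
          ((C ^ 2) ^ N * Real.exp (2 * ((p :: q :: ps).map Dq.len).sum)) := by
          refine mul_le_mul_of_nonneg_right ?_ (by positivity)
          refine mul_le_mul_of_nonneg_left (Real.exp_le_exp.2 (by linarith)) (by norm_num)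
      _ = _ := by rw [mul_add, Real.exp_add]; ring

end

/-! ### the rule for a list -/

set_option maxHeartbeats 1000000 in
/-- **the analytic rule for lists of pieces** -/
theorem rule_PsE {h : ℝ → ℝ} {c : ℝ} (hpu : PU h c) : ∃ zs₀ zs : ℝ, 0 ≤ zs₀ ∧ zs₀ ≤ zs ∧
    ∀ {P : DPar}, P.OK → ∀ {Q : Eis → Prop},
    (∀ k, Q k → k ≠ 0 ∧ Sup271.NPm P.n P.ψ P.l₂ k) →
    ∀ {Pch : ℝ → ℝ → ℝ → ℝ → ℝ → Prop},
    (∀ D₀ D₁ L z z' z'', D₀ ≤ D₁ → Pch D₀ L z z' z'' → Pch D₁ L z z' z'') →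
    (∀ D₀ L z, zs₀ ≤ D₀ → 0 ≤ L → 0 ≤ z → PCh D₀ zs₀ L z (Pch D₀ L z)) →
    (∀ D₀ L z R z' z'', 0 ≤ D₀ → 0 ≤ L → 0 ≤ z → 0 ≤ R → Pch D₀ L (z + R) z' z'' →
      0 ≤ z'' ∧ z'' ≤ z + L + D₀ + R ∧ ∀ x, 0 ≤ x → x ≤ z'' + R →
        (z' = z'' ∧ Pch (D₀ + 2 * R) L z x x) ∨ Pch (D₀ + 2 * R) L z z' x) →
    ∀ (ε ε₂ M : ℝ), 0 < ε → 0 < ε₂ → 0 ≤ M → ∃ C J : ℝ, 0 < C ∧ 0 ≤ J ∧
      ∀ (lK : ℝ) (p : Pq) (ps : List Pq), Dq.lump p → 0 ≤ lK → 0 ≤ Dq.len p → ∀ Bd : ℝ, 0 ≤ Bd →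
      (∀ z' z'' t', Pch (ε * (1 + lK + Dq.len p) + zs) lK (Dq.len p) z' z'' →
        PsE P Q h lK (mkL z'' t' :: ps) ≤ Bd * (1 + |t'|) ^ M * Real.exp (-(z' - z''))) →
      PsE P Q h lK (p :: ps) ≤
        C * Real.exp (ε * (1 + lK + Dq.len p)) * Dq.s2 p ^ ε₂ * Dq.s1 p ^ J * Bd := by
  obtain ⟨zs₀, R, hzs₀, hR, hr0⟩ := ruleG hpu
  refine ⟨zs₀, zs₀ + 3 * R, hzs₀, by linarith, ?_⟩
  intro P hP Q hQ Pch hPm hPC hPd ε ε₂ M hε hε₂ hM
  set ε' : ℝ := min (ε / 40) (min ε₂ (1 / 2)) with hε'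
  have hε'0 : 0 < ε' := lt_min (by linarith) (lt_min hε₂ (by norm_num))
  have hε'1 : ε' ≤ 1 / 2 := (min_le_right _ _).trans (min_le_right _ _)
  have hε'2 : 40 * ε' ≤ ε := by
    have := min_le_left (ε / 40) (min ε₂ (1 / 2))
    linarith
  have hε'3 : ε' ≤ ε₂ := (min_le_right _ _).trans (min_le_left _ _)
  obtain ⟨C, J, hC, hr⟩ := hr0 P.n P.ψ hP.ψ P.l₂ ε' hε'0 hε'1 ⌈M⌉₊
  refine ⟨C * Real.exp (4 * (2 * R + zs₀)) + 1, J, by positivity, Nat.cast_nonneg _, ?_⟩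
  intro lK p ps hlump hlK hz Bd hBd hch
  rw [Dq_len] at hz hch
  rw [Dq_len, Dq_s1, Dq_s2, Real.rpow_natCast]
  have hs20 : 0 ≤ ((nm p.d : ℕ) : ℝ) ^ ε₂ := Real.rpow_nonneg (Nat.cast_nonneg _) _
  have hRHS : 0 ≤ (C * Real.exp (4 * (2 * R + zs₀)) + 1) * Real.exp (ε * (1 + lK + p.z)) *
      ((nm p.d : ℕ) : ℝ) ^ ε₂ * (1 + |p.t|) ^ J * Bd := by positivity
  match ps, hch with
  | [], _ => rw [PsE_one]; exact hRHS
  | q :: ps, hch =>
  rw [PsE_cons]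
  rcases lt_or_ge q.z 0 with h0 | h0
  · rw [PM2Q_negβ h0]; exact hRHS
  rcases lt_or_ge (lK - q.z) 0 with h1 | h1
  · rw [PM2Q_neg h1]; exact hRHS
  set S := SP Q (lK - q.z) q.z with hS
  set B : Eis × Eis → ℝ := fun x => wB P h ps (fP x) with hB
  have hB0 : ∀ i ∈ S, 0 ≤ B i := fun i _ => wB_nonneg _ _ _ _
  have hCn : ∀ i ∈ S, CnG P.n P.ψ P.l₂ lK (2 * lK) (fP i) := by
    intro i hi
    obtain ⟨b1, b2, x1, x2, hq⟩ := mem_SP hi
    obtain ⟨k1, k2⟩ := hQ _ hq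
    refine cnG_of hP.ψ k1 k2 ?_ ?_
    · calc (nm i.2 : ℝ) * nm i.1 ≤ Real.exp (lK - q.z) * Real.exp q.z :=
            mul_le_mul x2 b2 (Nat.cast_nonneg _) (Real.exp_pos _).le
        _ = Real.exp lK := by rw [← Real.exp_add]; congr 1; ring
    · calc (nm i.2 : ℝ) * (nm i.1 : ℝ) ^ 2 ≤ Real.exp (lK - q.z) * Real.exp q.z ^ 2 := by
            gcongr
        _ = Real.exp (lK + q.z) := by
            rw [← Real.exp_nat_mul, ← Real.exp_add]; congr 1; push_cast; ring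
        _ ≤ Real.exp (2 * lK) := Real.exp_le_exp.2 (by linarith)
  set D₀ : ℝ := ε' * (1 + lK + (p.z + R)) + zs₀ with hD₀
  have hD₀0 : 0 ≤ D₀ := by rw [hD₀]; positivity
  have hD₀1 : D₀ ≤ (1 + lK + p.z + R) + zs₀ := by
    rw [hD₀]
    have : ε' * (1 + lK + (p.z + R)) ≤ 1 * (1 + lK + (p.z + R)) :=
      mul_le_mul_of_nonneg_right (by linarith) (by positivity)
    linarith
  have hD₀2 : D₀ + 2 * R ≤ ε * (1 + lK + p.z) + (zs₀ + 3 * R) := by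
    rw [hD₀]
    have i1 : ε' * (1 + lK + p.z) ≤ ε * (1 + lK + p.z) :=
      mul_le_mul_of_nonneg_right (by linarith) (by positivity)
    have i2 : ε' * R ≤ 1 * R := mul_le_mul_of_nonneg_right (by linarith) hR
    nlinarith
  set Z : ℝ := p.z + lK + D₀ + R with hZ
  have hZ0 : 0 ≤ Z := by rw [hZ]; positivity
  have hchild : ∀ z' z'' t' : ℝ, Pch (D₀ + 2 * R) lK p.z z' z'' →
      SBf h P.ψ P.l₂ S fP B z'' t' ≤
        Bd * (1 + |t'|) ^ ⌈M⌉₊ * Real.exp (-(z' - z'')) := by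
    intro z' z'' t' hPc
    have h1 := hch z' z'' t' (hPm _ _ _ _ _ _ hD₀2 hPc)
    have e1 : PsE P Q h lK (mkL z'' t' :: q :: ps) =
        SBf h P.ψ P.l₂ S fP B z'' t' := by
      rw [PsE_cons, PM2Q_eq]
      unfold SBf
      refine Finset.sum_congr rfl fun k _ => ?_
      rw [wB_cons, CS_mkL]
    rw [e1] at h1
    refine h1.trans ?_
    have ht : 1 ≤ 1 + |t'| := by linarith [abs_nonneg t']
    have h2 : (1 + |t'|) ^ M ≤ (1 + |t'|) ^ ⌈M⌉₊ := by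
      rw [← Real.rpow_natCast]
      exact Real.rpow_le_rpow_of_exponent_le ht (Nat.le_ceil M)
    gcongr
  have hmain := hr lK (2 * lK) p.z Z hlK (by linarith) hz hZ0 S fP B hB0 hCn Bd hBd
    (Pch (D₀ + 2 * R) lK p.z) (Pch D₀ lK (p.z + R))
    (hPC _ _ _ (by have : 0 ≤ ε' * (1 + lK + (p.z + R)) := by positivity
                   linarith) hlK (by linarith))
    (fun z' z'' hPc => hPd D₀ lK p.z R z' z'' hD₀0 hlK hz hR hPc) hchild p.d p.d0 p.t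
  have e2 : PM2Q Q P h (lK - q.z) q.z (p :: ps) =
      ∑ i ∈ S, B i * ‖PS (cx h) (fun b => XK P.ψ (sy (fP i)) P.l₂ b * prin0 p.d b)
        p.z p.t‖ ^ 2 := by
    rw [PM2Q_eq]
    refine Finset.sum_congr rfl fun k _ => ?_
    rw [wB_cons, CS_lump P h hlump]
  rw [e2]
  refine hmain.trans ?_
  have hexp : Real.exp (8 * ε' * (1 + lK + 2 * lK + p.z + Z)) ≤
      Real.exp (4 * (2 * R + zs₀)) * Real.exp (ε * (1 + lK + p.z)) := by
    rw [← Real.exp_add]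
    apply Real.exp_le_exp.2
    have i1 : 1 + lK + 2 * lK + p.z + Z ≤ 5 * (1 + lK + p.z) + (2 * R + zs₀) := by
      rw [hZ]; linarith
    have i2 : 8 * ε' * (1 + lK + 2 * lK + p.z + Z) ≤
        8 * ε' * (5 * (1 + lK + p.z) + (2 * R + zs₀)) :=
      mul_le_mul_of_nonneg_left i1 (by positivity)
    have i3 : 40 * ε' * (1 + lK + p.z) ≤ ε * (1 + lK + p.z) :=
      mul_le_mul_of_nonneg_right hε'2 (by positivity)
    have i4 : 8 * ε' * (2 * R + zs₀) ≤ 4 * (2 * R + zs₀) :=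
      mul_le_mul_of_nonneg_right (by linarith) (by positivity)
    linarith
  have hnm : ((nm p.d : ℕ) : ℝ) ^ ε' ≤ ((nm p.d : ℕ) : ℝ) ^ ε₂ :=
    Real.rpow_le_rpow_of_exponent_le (by exact_mod_cast nm_pos.2 p.d0) hε'3
  have hn0 : 0 ≤ ((nm p.d : ℕ) : ℝ) ^ ε' := Real.rpow_nonneg (Nat.cast_nonneg _) _
  calc C * Real.exp (8 * ε' * (1 + lK + 2 * lK + p.z + Z)) * ((nm p.d : ℕ) : ℝ) ^ ε' *
        (1 + |p.t|) ^ J * Bd
      ≤ C * (Real.exp (4 * (2 * R + zs₀)) * Real.exp (ε * (1 + lK + p.z))) *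
        ((nm p.d : ℕ) : ℝ) ^ ε₂ * (1 + |p.t|) ^ J * Bd := by gcongr
    _ = (C * Real.exp (4 * (2 * R + zs₀))) * (Real.exp (ε * (1 + lK + p.z)) *
        ((nm p.d : ℕ) : ℝ) ^ ε₂ * (1 + |p.t|) ^ J * Bd) := by ring
    _ ≤ (C * Real.exp (4 * (2 * R + zs₀)) + 1) * (Real.exp (ε * (1 + lK + p.z)) *
        ((nm p.d : ℕ) : ℝ) ^ ε₂ * (1 + |p.t|) ^ J * Bd) := by
        refine mul_le_mul_of_nonneg_right (by linarith) (by positivity)
    _ = _ := by ring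

/-! ### the polytopes -/

lemma down_F (D₀ L z R z' z'' : ℝ) (hD : 0 ≤ D₀) (hL : 0 ≤ L) (hz : 0 ≤ z) (hR : 0 ≤ R)
    (h : ChF D₀ L (z + R) z' z'') : 0 ≤ z'' ∧ z'' ≤ z + L + D₀ + R ∧ ∀ x, 0 ≤ x → x ≤ z'' + R →
      (z' = z'' ∧ ChF (D₀ + 2 * R) L z x x) ∨ ChF (D₀ + 2 * R) L z z' x := by
  obtain ⟨c1, c2, c3, c4⟩ := h
  refine ⟨c1, by linarith, fun x hx hx1 => ?_⟩
  rcases c4 with c4 | c4
  · exact Or.inl ⟨c4, hx, by linarith, by linarith, Or.inl rfl⟩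
  · exact Or.inr ⟨hx, by linarith, by linarith, Or.inr ⟨c4.1, by linarith [c4.2]⟩⟩

lemma down_C (D₀ L z R z' z'' : ℝ) (hD : 0 ≤ D₀) (hL : 0 ≤ L) (hz : 0 ≤ z) (hR : 0 ≤ R)
    (h : ChC D₀ L (z + R) z' z'') : 0 ≤ z'' ∧ z'' ≤ z + L + D₀ + R ∧ ∀ x, 0 ≤ x → x ≤ z'' + R →
      (z' = z'' ∧ ChC (D₀ + 2 * R) L z x x) ∨ ChC (D₀ + 2 * R) L z z' x := by
  obtain ⟨c1, c2, c3, c4⟩ := h
  exact ⟨c2, by linarith, fun x hx hx1 => Or.inl ⟨c1, rfl, hx, by linarith, by linarith⟩⟩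

end Crest.Agent.R017.XG739
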