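import Crest.Agent.R017.XGd_739
import Crest.Agent.R017.RuleG_545

/-!
# Row 17, two-level flip (helper739), part 5: the rules `flip2` and `cut2`

* `PQx`   : the two-level functional with a predicate
* `flip2`, `cut2` : the rules for it, in two-parameter form
-/

set_option autoImplicit false

noncomputable section

open Complex
open scoped ComplexConjugate ContDiff

namespace Crest.Agent.R017.XG739

open Crest.Agent.R012 Crest.Agent.R012.Eis Crest.Agent.R012.LS2 Crest.Agent.R012.Gauss880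
open Crest.Agent.R012.PSer47 (IsChar ang_isChar)
open Crest.Agent.R012.Div277 (nm_le_of_dvd)
open Crest.Agent.R017.CM106 (CS)
open Crest.Agent.R017.End699 Crest.Agent.R017.FE47 Crest.Agent.R017.Two939
open Crest.Agent.R017.B770
open Crest.Agent.R017.XG702 (Pcs BG)
open Crest.Agent.R017.HP842 (UT Pc pc uv norm_uv_le)
open Crest.Agent.R017.Prov71
open Crest.Agent.R017.RQd385 (PM2Q PMpQ PM2Q_nonneg PM2Q_neg)
open Crest.Agent.R017.RuleM545 (BG2 Loc2)
open Crest.Agent.R017.XFl571 (PCh ChF ChC pch_F pch_C GF GF_cont GF_hom GC GC_cont GC_hom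
  CS_lump CS_mkL mkL wB wB_nonneg wB_le norm_CS_le lump_rule)

/-! ### passage to two parameters -/

/-- **the two-level functional of a family** -/
def PQx {Lam : Type*} (π : Lam → DPar) (Q : Lam → Eis → Prop) (h : ℝ → ℝ) (lam : Lam) (l β : ℝ)
    (ps : List Pq) : ℝ := PM2Q (Q lam) (π lam) h l β ps

section
variable {Lam : Type*} {π : Lam → DPar} {Q : Lam → Eis → Prop} {h : ℝ → ℝ}

lemma enc {κ b x e : ℝ} {u : List ℝ} {w : Kd → ℝ} (H : BG2 Dq (PQx π Q h) κ b (x :: u) w e) :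
    BG Dq (fun lam => PsE (π lam) (Q lam) h) (κ + b) (x :: b :: u) w e := by
  intro ε hε
  obtain ⟨δ, hδ, H1⟩ := H ε hε
  refine ⟨δ / 2, by linarith, fun lam N B => ?_⟩
  obtain ⟨δ', hδ', X₀, hX₀, K⟩ := H1 lam N B
  refine ⟨δ', hδ', X₀, hX₀, fun X hX k us gs h1 h2 h3 h4 => ?_⟩
  have hlog : 0 < Real.log X := Real.log_pos (by linarith)
  unfold XG702.Pcs.Near at h2
  obtain ⟨p, us1, hp, hus1, rfl⟩ := List.forall₂_cons_right_iff.1 h2
  obtain ⟨q, us2, hq, hus2, rfl⟩ := List.forall₂_cons_right_iff.1 hus1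
  have hgood : Dq.Good X δ' B ((p :: us2) ++ gs) := by
    intro r hr
    refine h4 r ?_
    simp only [List.cons_append, List.mem_cons, List.mem_append] at hr ⊢
    tauto
  have hnear : Dq.Near X δ (p :: us2) (x :: u) := by
    refine List.Forall₂.cons ⟨hp.1, hp.2.trans (by linarith)⟩ ?_
    exact List.Forall₂.imp (fun _ _ h' => ⟨h'.1, h'.2.trans (by linarith)⟩) hus2
  have hgran : Dq.Gran X δ N gs w := XG702.Gran_mono h3 (by linarith) le_rfl
  have e1 : q.z = Dq.nl X q * Real.log X := by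
    unfold XG702.Pcs.nl
    rw [Dq_len]; field_simp
  have i1 := abs_le.1 h1
  have i2 := abs_le.1 hq.2
  have h5 := K X hX (k - Dq.nl X q) (Dq.nl X q) (p :: us2) gs
    (abs_le.2 ⟨by linarith, by linarith⟩) (abs_le.2 ⟨by linarith, by linarith⟩) hnear hgran hgood
  show PsE (π lam) (Q lam) h (k * Real.log X) (p :: q :: (us2 ++ gs)) ≤ _
  rw [PsE_cons]
  have e2 : k * Real.log X - q.z = (k - Dq.nl X q) * Real.log X := by rw [e1]; ring
  rw [e2, e1]
  exact h5

lemma decd {κ b x e : ℝ} {u : List ℝ} {w : Kd → ℝ}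
    (H : BG Dq (fun lam => PsE (π lam) (Q lam) h) (κ + b) (x :: b :: u) w e) : BG2 Dq (PQx π Q h) κ b (x :: u) w e := by
  intro ε hε
  obtain ⟨δ, hδ, H1⟩ := H ε hε
  refine ⟨δ / 2, by linarith, fun lam N B => ?_⟩
  obtain ⟨δ', hδ', X₀, hX₀, K⟩ := H1 lam N (max B 0)
  refine ⟨δ', hδ', X₀, hX₀, fun X hX k β us gs h1 h2 h3 h4 h5 => ?_⟩
  have hX1 : 1 ≤ X := by linarith
  have hlog : 0 < Real.log X := Real.log_pos (by linarith)
  have hX0 : 0 < X := by linarith
  rcases lt_or_ge β 0 with hβ | hβ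
  · have e0 : PQx π Q h lam (k * Real.log X) (β * Real.log X) (us ++ gs) = 0 :=
      PM2Q_negβ (mul_neg_of_neg_of_pos hβ hlog) _
    rw [e0]
    exact Real.rpow_nonneg hX0.le _
  unfold XG702.Pcs.Near at h3
  obtain ⟨p, us1, hp, hus1, rfl⟩ := List.forall₂_cons_right_iff.1 h3
  set q : Pq := mkL (β * Real.log X) 0 with hq
  have hql : Dq.nl X q = β := by
    unfold XG702.Pcs.nl
    rw [Dq_len]
    show β * Real.log X / Real.log X = β
    field_simp
  have hgood : Dq.Good X δ' (max B 0) ((p :: q :: us1) ++ gs) := by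
    intro r hr
    have hr' : r = q ∨ r ∈ (p :: us1) ++ gs := by
      simp only [List.cons_append, List.mem_cons, List.mem_append] at hr ⊢
      tauto
    rcases hr' with rfl | hr'
    · refine ⟨?_, ?_, ?_⟩
      · show 1 + |(0 : ℝ)| ≤ X ^ δ'
        rw [abs_zero, add_zero]
        exact Real.one_le_rpow hX1 hδ'.le
      · show ((nm (1 : Eis) : ℕ) : ℝ) ≤ X ^ (max B 0)
        have : ((nm (1 : Eis) : ℕ) : ℝ) = 1 := by simp
        rw [this]
        exact Real.one_le_rpow hX1 (le_max_right _ _)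
      · show 0 ≤ β * Real.log X
        positivity
    · obtain ⟨g1, g2, g3⟩ := h5 r hr'
      exact ⟨g1, g2.trans (Real.rpow_le_rpow_of_exponent_le hX1 (le_max_left _ _)), g3⟩
  have hnear : Dq.Near X δ (p :: q :: us1) (x :: b :: u) := by
    refine List.Forall₂.cons ⟨hp.1, hp.2.trans (by linarith)⟩ (List.Forall₂.cons ⟨⟨rfl, rfl⟩, ?_⟩ ?_)
    · rw [hql]
      linarith
    · exact List.Forall₂.imp (fun _ _ h' => ⟨h'.1, h'.2.trans (by linarith)⟩) hus1
  have hgran : Dq.Gran X δ N gs w := XG702.Gran_mono h4 (by linarith) le_rfl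
  have i1 := abs_le.1 h1
  have i2 := abs_le.1 h2
  have h6 := K X hX (k + β) (p :: q :: us1) gs (abs_le.2 ⟨by linarith, by linarith⟩) hnear hgran
    hgood
  have h7 : PsE (π lam) (Q lam) h ((k + β) * Real.log X) (p :: q :: (us1 ++ gs)) ≤ X ^ (e + ε) := h6
  rw [PsE_cons] at h7
  have e2 : (k + β) * Real.log X - q.z = k * Real.log X := by
    show (k + β) * Real.log X - β * Real.log X = k * Real.log X
    ring
  rw [e2] at h7
  exact h7

end

/-! ### the rules -/

set_option maxHeartbeats 1000000 in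
/-- **two-level flip** -/
theorem flip2 {Lam : Type*} {π : Lam → DPar} (hP : ∀ lam, (π lam).OK) {h : ℝ → ℝ} {c : ℝ}
    (hpu : PU h c) {Q : Lam → Eis → Prop}
    (hQ : ∀ lam k, Q lam k → k ≠ 0 ∧ Sup271.NPm (π lam).n (π lam).ψ (π lam).l₂ k)
    {κ b y : ℝ} {u : List ℝ} {w : Kd → ℝ} {E : ℝ}
    (h1 : ∀ y' : ℝ, 0 ≤ y' → y' ≤ y → 2 * y' ≤ κ + b → BG2 Dq (PQx π Q h) κ b (y' :: u) w E)
    (h2 : ∀ y' t : ℝ, y' ≤ y → y' ≤ κ + b → κ + b ≤ 2 * y' → 0 ≤ t → t ≤ κ + b - y' →
      BG2 Dq (PQx π Q h) κ b ((κ + b - t - y') :: u) w (E - (2 * y' - (κ + b) + t))) :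
    BG2 Dq (PQx π Q h) κ b (y :: u) w E := by
  apply decd
  obtain ⟨zs₀, zs, hzs₀, hzs, hr⟩ := rule_PsE hpu
  refine lump_rule (D := Dq) (Ψ := fun lam => PsE (π lam) (Q lam) h) (mk := mkL) (fun z t => ⟨rfl, rfl⟩) (fun z t => rfl) (fun z t => rfl)
    (fun z t => ?_) GF_cont GF_hom (hzs₀.trans hzs) (Pch := ChF)
    (fun D₀ D₁ L z z' z'' hD hc => hc.mono hD)
    ?_ ?_ (fun lam lK ps hl => neg_PsE hl ps) (T₁ := 2) (by norm_num)
    (fun lam N => triv_PsE hpu (hP lam) N) (fun p => ?_) (fun p => ?_) ?_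
  · show ((nm (1 : Eis) : ℕ) : ℝ) ≤ 1
    simp
  · intro D₀ L z z' z'' hD hL hz hc
    obtain ⟨c1, c2, c3, c4⟩ := hc
    refine ⟨c1, ?_, ?_, by linarith⟩
    · unfold XFl571.GF
      refine max_le (by dsimp only; linarith) (max_le (by dsimp only; linarith) ?_)
      rcases c4 with c4 | c4
      · refine (min_le_left _ _).trans ?_
        dsimp only
        rw [c4, sub_self, abs_zero]
        exact hD
      · refine (min_le_right _ _).trans (max_le ?_ ?_)
        · dsimp only; linarith [c4.1]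
        · dsimp only; linarith [c4.2]
    · rw [abs_le]
      rcases c4 with c4 | c4
      · constructor <;> linarith
      · constructor <;> linarith [c4.1]
  · exact fun lam => hr (hP lam) (hQ lam) (Pch := ChF) (fun D₀ D₁ L z z' z'' hD hc => hc.mono hD)
      (fun D₀ L z hD hL hz => pch_F hzs₀ hD hL hz)
      (fun D₀ L z R z' z'' hD hL hz hR hc => down_F D₀ L z R z' z'' hD hL hz hR hc)
  · show (0 : ℝ) ≤ 1 + |p.t|
    positivity
  · show (0 : ℝ) ≤ nm p.d
    positivity
  · intro y' y'' hy'' hG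
    unfold XFl571.GF at hG
    dsimp only at hG
    rw [max_le_iff, max_le_iff, min_le_iff, max_le_iff] at hG
    obtain ⟨g1, g2, g3⟩ := hG
    rcases g3 with g3 | ⟨g3, g4⟩
    · have e1 : y' = y'' := by
        have := abs_nonpos_iff.1 g3
        linarith
      have := h1 y'' hy'' (by linarith) (by linarith)
      have e2 : E - (y' - y'') = E := by rw [e1]; ring
      rw [e2]
      exact enc this
    · have := h2 y' (κ + b - y' - y'') (by linarith) (by linarith) (by linarith) (by linarith)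
        (by linarith)
      have e1 : κ + b - (κ + b - y' - y'') - y' = y'' := by ring
      have e2 : E - (2 * y' - (κ + b) + (κ + b - y' - y'')) = E - (y' - y'') := by ring
      rw [e1, e2] at this
      exact enc this

set_option maxHeartbeats 1000000 in
/-- **two-level cut**: lumps longer than the conductor are not needed -/
theorem cut2 {Lam : Type*} {π : Lam → DPar} (hP : ∀ lam, (π lam).OK) {h : ℝ → ℝ} {c : ℝ}
    (hpu : PU h c) {Q : Lam → Eis → Prop}
    (hQ : ∀ lam k, Q lam k → k ≠ 0 ∧ Sup271.NPm (π lam).n (π lam).ψ (π lam).l₂ k)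
    {κ b y : ℝ} {u : List ℝ} {w : Kd → ℝ} {E : ℝ}
    (h1 : ∀ y' : ℝ, 0 ≤ y' → y' ≤ y → y' ≤ κ + b → BG2 Dq (PQx π Q h) κ b (y' :: u) w E) :
    BG2 Dq (PQx π Q h) κ b (y :: u) w E := by
  apply decd
  obtain ⟨zs₀, zs, hzs₀, hzs, hr⟩ := rule_PsE hpu
  refine lump_rule (D := Dq) (Ψ := fun lam => PsE (π lam) (Q lam) h) (mk := mkL) (fun z t => ⟨rfl, rfl⟩) (fun z t => rfl) (fun z t => rfl)
    (fun z t => ?_) GC_cont GC_hom (hzs₀.trans hzs) (Pch := ChC)
    (fun D₀ D₁ L z z' z'' hD hc => hc.mono hD)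
    ?_ ?_ (fun lam lK ps hl => neg_PsE hl ps) (T₁ := 2) (by norm_num)
    (fun lam N => triv_PsE hpu (hP lam) N) (fun p => ?_) (fun p => ?_) ?_
  · show ((nm (1 : Eis) : ℕ) : ℝ) ≤ 1
    simp
  · intro D₀ L z z' z'' hD hL hz hc
    obtain ⟨c1, c2, c3, c4⟩ := hc
    refine ⟨c2, ?_, ?_, by linarith⟩
    · unfold XFl571.GC
      refine max_le ?_ (max_le (by dsimp only; linarith) (by dsimp only; linarith))
      dsimp only
      rw [c1, sub_self, abs_zero]
      exact hD
    · rw [abs_le]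
      constructor <;> linarith
  · exact fun lam => hr (hP lam) (hQ lam) (Pch := ChC) (fun D₀ D₁ L z z' z'' hD hc => hc.mono hD)
      (fun D₀ L z hD hL hz => pch_C hzs₀ hD hL hz)
      (fun D₀ L z R z' z'' hD hL hz hR hc => down_C D₀ L z R z' z'' hD hL hz hR hc)
  · show (0 : ℝ) ≤ 1 + |p.t|
    positivity
  · show (0 : ℝ) ≤ nm p.d
    positivity
  · intro y' y'' hy'' hG
    unfold XFl571.GC at hG
    dsimp only at hG
    rw [max_le_iff, max_le_iff] at hG
    obtain ⟨g1, g2, g3⟩ := hG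
    have e1 : y' = y'' := by
      have := abs_nonpos_iff.1 g1
      linarith
    have := h1 y'' hy'' (by linarith) (by linarith)
    have e2 : E - (y' - y'') = E := by rw [e1]; ring
    rw [e2]
    exact enc this

end Crest.Agent.R017.XG739
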