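import Crest.Agent.R017.XHB4_411
import Crest.Agent.R017.P3th_283
import Crest.Agent.R012.CR3a_436

/-!
# Row 17, rule HB for the exceptional class (helper411)

* `th_ms`  : `∑_{bl K} |th k|² ≤ C K^(2/3)`
* `hbL_D`  : `∑_{k ∈ bl (e^l)} |KS Dk (sqc q (alL)) k|² ≤ C e^{ε (l + Λ)} e^{EHB l Λ}`
* `bg_SD`, `triv_SD` : the fields `hbG`, `trivS` for `S := SK Dk`
* `bg_add`, `bg_Rt`  : the field `hbC` for `RQ Q + [lumps ≤ l] e^{l + Λ}`
-/

set_option autoImplicit false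

noncomputable section

open Complex Finset
open scoped BigOperators ComplexConjugate

namespace Crest.Agent.R017.XHB411

open Crest.Agent.R012 Crest.Agent.R012.Eis
open Crest.Agent.R012.LS2 (bl mem_bl S mem_S)
open Crest.Agent.R017.CM106 (CS FS)
open Crest.Agent.R017.FE47 (cx)
open Crest.Agent.R017.Lbc298 (Cf one_le_tau_of_prim)
open Crest.Agent.R017.HP842 (KS Kg sqc Pc pc alL)
open Crest.Agent.R017.Prov71 Crest.Agent.R017.XG702 Crest.Agent.R017.B770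
open Crest.Agent.R012.Mob705 (PE)
open Crest.Agent.R012.Div277 (tau)
open Crest.Agent.R017.PX764 (th md Dk n6)

/-- mean square of the theta coefficients -/
theorem th_ms : ∃ C : ℝ, 1 ≤ C ∧ ∀ K : ℝ, 1 ≤ K →
    ∑ k ∈ bl K, ‖th k‖ ^ 2 ≤ C * K ^ (2 / 3 : ℝ) := by
  classical
  obtain ⟨C, j, hC, hb⟩ := P3all283.P3all_one
  set c1 : ℝ := |3 * P3all283.c0 * PE 1| with hc1
  refine ⟨Real.exp 1 * (c1 + C * (tau (1 : Eis) : ℝ) ^ j * 10) + 1, ?_, ?_⟩
  · have : 0 ≤ Real.exp 1 * (c1 + C * (tau (1 : Eis) : ℝ) ^ j * 10) := by positivity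
    linarith
  intro K hK
  have hK0 : 0 < K := by linarith
  obtain ⟨hs, h1⟩ := hb K 1 hK0 isPrim_one
  have h2 : ∑ k ∈ bl K, ‖th k‖ ^ 2 ≤ Real.exp 1 * ∑ k ∈ bl K, P3all283.ft3 1 K 1 k := by
    rw [Finset.mul_sum]
    refine Finset.sum_le_sum fun k hk => ?_
    rw [mem_bl hK0.le] at hk
    unfold P3all283.ft3
    rw [if_pos ⟨hk.1, isCoprime_one_right⟩, one_mul]
    have h3 : Real.exp (-1) ≤ Real.exp (-(nm k : ℝ) / K) := by
      apply Real.exp_le_exp.2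
      rw [neg_div, neg_le_neg_iff, div_le_one hK0]
      exact hk.2
    have h4 : Real.exp 1 * Real.exp (-1) = 1 := by rw [← Real.exp_add]; simp
    calc ‖th k‖ ^ 2 = ‖th k‖ ^ 2 * (Real.exp 1 * Real.exp (-1)) := by rw [h4, mul_one]
      _ ≤ ‖th k‖ ^ 2 * (Real.exp 1 * Real.exp (-(nm k : ℝ) / K)) := by gcongr
      _ = _ := by ring
  have h3 : ∑ k ∈ bl K, P3all283.ft3 1 K 1 k ≤ ∑' k, P3all283.ft3 1 K 1 k :=
    hs.sum_le_tsum _ fun k _ => by
      unfold P3all283.ft3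
      split_ifs <;> positivity
  have h4 : ∑' k, P3all283.ft3 1 K 1 k ≤ c1 * K ^ (2 / 3 : ℝ) +
      C * (tau (1 : Eis) : ℝ) ^ j * K ^ (1 / 3 : ℝ) * (1 + Real.log (1 + K)) := by
    have h5 := (abs_le.1 h1).2
    have h6 : 3 * P3all283.c0 * PE 1 * K ^ (2 / 3 : ℝ) ≤ c1 * K ^ (2 / 3 : ℝ) := by
      have := le_abs_self (3 * P3all283.c0 * PE 1)
      gcongr
    linarith
  have h5 : K ^ (1 / 3 : ℝ) * (1 + Real.log (1 + K)) ≤ 10 * K ^ (2 / 3 : ℝ) := by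
    have e1 : K ^ (2 / 3 : ℝ) = K ^ (1 / 3 : ℝ) * K ^ (1 / 3 : ℝ) := by
      rw [← Real.rpow_add hK0]; norm_num
    have e2 : Real.log (1 + K) ≤ (1 + K) ^ (1 / 3 : ℝ) / (1 / 3 : ℝ) :=
      Real.log_le_rpow_div (by linarith) (by norm_num)
    have e3 : (1 + K) ^ (1 / 3 : ℝ) ≤ 2 * K ^ (1 / 3 : ℝ) := by
      calc (1 + K) ^ (1 / 3 : ℝ) ≤ (8 * K) ^ (1 / 3 : ℝ) := by
            apply Real.rpow_le_rpow (by linarith) (by linarith) (by norm_num)
        _ = 8 ^ (1 / 3 : ℝ) * K ^ (1 / 3 : ℝ) := Real.mul_rpow (by norm_num) hK0.le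
        _ = 2 * K ^ (1 / 3 : ℝ) := by
            have : (8 : ℝ) ^ (1 / 3 : ℝ) = 2 := by
              have : (8 : ℝ) = 2 ^ (3 : ℝ) := by norm_num
              rw [this, ← Real.rpow_mul (by norm_num)]
              norm_num
            rw [this]
    have e4 : 1 ≤ K ^ (1 / 3 : ℝ) := Real.one_le_rpow hK (by norm_num)
    rw [e1]
    have e5 : 1 + Real.log (1 + K) ≤ 10 * K ^ (1 / 3 : ℝ) := by
      have : (1 + K) ^ (1 / 3 : ℝ) / (1 / 3 : ℝ) = 3 * (1 + K) ^ (1 / 3 : ℝ) := by ring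
      rw [this] at e2
      linarith
    nlinarith
  have hK2 : 0 ≤ K ^ (2 / 3 : ℝ) := by positivity
  calc ∑ k ∈ bl K, ‖th k‖ ^ 2
      ≤ Real.exp 1 * (c1 * K ^ (2 / 3 : ℝ) +
      C * (tau (1 : Eis) : ℝ) ^ j * K ^ (1 / 3 : ℝ) * (1 + Real.log (1 + K))) := by
        refine h2.trans ?_
        have := h3.trans h4
        gcongr
    _ = Real.exp 1 * (c1 * K ^ (2 / 3 : ℝ) +
      C * (tau (1 : Eis) : ℝ) ^ j * (K ^ (1 / 3 : ℝ) * (1 + Real.log (1 + K)))) := by ring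
    _ ≤ Real.exp 1 * (c1 * K ^ (2 / 3 : ℝ) +
      C * (tau (1 : Eis) : ℝ) ^ j * (10 * K ^ (2 / 3 : ℝ))) := by gcongr
    _ = Real.exp 1 * (c1 + C * (tau (1 : Eis) : ℝ) ^ j * 10) * K ^ (2 / 3 : ℝ) := by ring
    _ ≤ _ := by
        gcongr
        linarith

lemma n6_le {X : ℝ} {m : Eis} (hm : m ≠ 0) (hX : (nm m : ℝ) ≤ X) :
    n6 m ≤ X ^ (5 / 6 : ℝ) * (nm m : ℝ)⁻¹ := by
  have h1 : (0 : ℝ) < nm m := by exact_mod_cast nm_pos.2 hm
  unfold n6
  have e1 : (nm m : ℝ) ^ (-(1 : ℝ) / 6) = (nm m : ℝ) ^ (5 / 6 : ℝ) * (nm m : ℝ)⁻¹ := by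
    rw [← Real.rpow_neg_one, ← Real.rpow_add h1]
    norm_num
  rw [e1]
  have := Real.rpow_le_rpow h1.le hX (show (0 : ℝ) ≤ 5 / 6 by norm_num)
  gcongr

lemma sum_n6 {ε : ℝ} (hε : 0 < ε) : ∃ C : ℝ, 1 ≤ C ∧ ∀ X : ℝ, 1 ≤ X →
    ∑ m ∈ bl X, n6 m ≤ C * X ^ (5 / 6 + ε) := by
  refine ⟨100 * (1 + 1 / ε), ?_, ?_⟩
  · have : 0 < 1 / ε := by positivity
    linarith
  intro X hX
  have hX0 : 0 < X := by linarith
  have h2 : ∑ f ∈ bl X, (nm f : ℝ)⁻¹ ≤ 100 * (1 + Real.log X) := by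
    have h := Div277.sum_inv_nz_le ⌊X⌋₊
    have h1 : bl X = Div277.nz ⌊X⌋₊ := rfl
    rw [h1]
    have h3 : ∑ f ∈ Div277.nz ⌊X⌋₊, (nm f : ℝ)⁻¹ = ∑ f ∈ Div277.nz ⌊X⌋₊, 1 / (nm f : ℝ) :=
      Finset.sum_congr rfl fun _ _ => by rw [one_div]
    rw [h3]
    refine h.trans ?_
    have h2 : Real.log (⌊X⌋₊ : ℝ) ≤ Real.log X := by
      have h3 : (0 : ℝ) < ⌊X⌋₊ := by exact_mod_cast Nat.floor_pos.mpr hX
      exact Real.log_le_log h3 (Nat.floor_le (by linarith))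
    linarith
  have h3 : Real.log X ≤ X ^ ε / ε := Real.log_le_rpow_div hX0.le hε
  have h4 : 1 ≤ X ^ ε := Real.one_le_rpow hX hε.le
  have h5 : 100 * (1 + Real.log X) ≤ 100 * (1 + 1 / ε) * X ^ ε := by
    calc 100 * (1 + Real.log X) ≤ 100 * (X ^ ε + X ^ ε / ε) := by linarith
      _ = _ := by ring
  calc ∑ m ∈ bl X, n6 m ≤ ∑ m ∈ bl X, X ^ (5 / 6 : ℝ) * (nm m : ℝ)⁻¹ :=
        Finset.sum_le_sum fun m hm => by
          rw [mem_bl hX0.le] at hm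
          exact n6_le hm.1 hm.2
    _ = X ^ (5 / 6 : ℝ) * ∑ m ∈ bl X, (nm m : ℝ)⁻¹ := by rw [Finset.mul_sum]
    _ ≤ X ^ (5 / 6 : ℝ) * (100 * (1 + 1 / ε) * X ^ ε) := by
        have := h2.trans h5
        gcongr
    _ = _ := by rw [Real.rpow_add hX0]; ring

/-- the model sum of a sequence of the class -/
lemma cs_n6 (n : ℕ) {ε : ℝ} (hε : 0 < ε) : ∃ C : ℝ, 1 ≤ C ∧ ∀ (X : ℝ) (α : Eis → ℂ), 1 ≤ X →
    Cf n X α → ∀ k : Eis, Summable (fun m => α m * (md k m : ℂ)) ∧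
      ‖∑' m, α m * (md k m : ℂ)‖ ≤ C * X ^ (5 / 6 + ε) := by
  classical
  obtain ⟨C1, hC1, h1⟩ := CR3436.tau_pow_le n (ε := ε / 2) (by positivity)
  obtain ⟨C2, hC2, h2⟩ := sum_n6 (ε := ε / 2) (by positivity)
  refine ⟨C1 * C2, one_le_mul_of_one_le_of_one_le hC1 hC2, fun X α hX hα k => ?_⟩
  have hX0 : 0 < X := by linarith
  have hz : ∀ m ∉ bl X, α m * (md k m : ℂ) = 0 := by
    intro m hm
    by_contra h0
    apply hm
    have h3 : α m ≠ 0 := left_ne_zero_of_mul h0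
    rw [mem_bl hX0.le]
    exact ⟨(hα.fs.prim m h3).ne_zero, hα.supp m h3⟩
  refine ⟨summable_of_ne_finset_zero hz, ?_⟩
  rw [tsum_eq_sum hz]
  calc ‖∑ m ∈ bl X, α m * (md k m : ℂ)‖ ≤ ∑ m ∈ bl X, C1 * X ^ (ε / 2) * n6 m := by
        refine (norm_sum_le _ _).trans (Finset.sum_le_sum fun m hm => ?_)
        rw [mem_bl hX0.le] at hm
        by_cases h3 : α m = 0
        · rw [h3, zero_mul, norm_zero]
          have := PX764.n6_pos hm.1
          positivity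
        have hp := hα.fs.prim m h3
        have h4 : ‖α m‖ ≤ C1 * X ^ (ε / 2) := (hα.bd m).trans (h1 X m hp hm.2)
        have h5 : ‖(md k m : ℂ)‖ ≤ n6 m := by
          rw [Complex.norm_real]
          unfold md
          have := PX764.n6_pos hm.1
          split_ifs
          · rw [Real.norm_of_nonneg this.le]
          · rw [norm_zero]; exact this.le
        rw [norm_mul]
        gcongr
    _ = C1 * X ^ (ε / 2) * ∑ m ∈ bl X, n6 m := by rw [Finset.mul_sum]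
    _ ≤ C1 * X ^ (ε / 2) * (C2 * X ^ (5 / 6 + ε / 2)) := by
        have := h2 X hX
        gcongr
    _ = C1 * C2 * X ^ (5 / 6 + ε) := by
        have : X ^ (5 / 6 + ε) = X ^ (ε / 2) * X ^ (5 / 6 + ε / 2) := by
          rw [← Real.rpow_add hX0]; congr 1; ring
        rw [this]; ring

/-- the kernel `Dk` through the kernel `Kg` -/
lemma KS_Dk_eq {n : ℕ} {X : ℝ} {α : Eis → ℂ} (hα : Cf n X α) (k : Eis)
    (hs : Summable (fun m => α m * (md k m : ℂ))) :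
    KS Dk α k = KS Kg α k - ((pC : ℝ) : ℂ) * th k * ∑' m, α m * (md k m : ℂ) := by
  unfold KS
  rw [← tsum_mul_left, ← (hα.fs.summable _).tsum_sub (hs.mul_left _)]
  refine tsum_congr fun m => ?_
  have e : Dk k m = Kg k m - ((pC : ℝ) : ℂ) * th k * (md k m : ℂ) := rfl
  rw [e]
  ring

/-- **rule HB for the kernel `Dk`** -/
theorem hbL_D {h : ℝ → ℝ} {c : ℝ} (hpu : FE47.PU h c) (n : ℕ) {ε : ℝ} (hε : 0 < ε) :
    ∃ C : ℝ, 1 ≤ C ∧ ∀ (q : Eis) (l : ℝ) (ps : List Pc), 0 ≤ l → ps.length ≤ n →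
      (∀ p ∈ ps, p.OK) → (∀ p ∈ ps, 1 ≤ p.Y) →
      ∑ k ∈ bl (Real.exp l), ‖KS Dk (sqc q (alL0 h ps)) k‖ ^ 2 ≤
        C * Real.exp (ε * (l + LL ps)) * Real.exp (EHB l (LL ps)) := by
  obtain ⟨R, hR0, hR⟩ := FE47.exists_R (FE47.cs_cx hpu.cs)
  obtain ⟨H1, hH1⟩ := (FE47.cs_cx hpu.cs).exists_bound_of_continuous (FE47.cd_cx hpu.cd).continuous
  set H0 : ℝ := max 1 H1 with hH0d
  have hH01 : 1 ≤ H0 := le_max_left _ _
  have hH0 : 0 < H0 := by linarith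
  have hH : ∀ u, ‖cx h u‖ ≤ H0 := fun u => (hH1 u).trans (le_max_right _ _)
  obtain ⟨C1, hC1, hG⟩ := hbL_G hpu n hε
  obtain ⟨C2, hC2, hN⟩ := cs_n6 n (ε := ε / 2) (by positivity)
  obtain ⟨C3, hC3, hT⟩ := th_ms
  have hRn : 0 ≤ R * n := by positivity
  set P2 : ℝ := pC ^ 2 with hP2
  set C4 : ℝ := (H0 ^ n * C2) ^ 2 * Real.exp ((5 / 3 + ε) * (R * n)) with hC4
  refine ⟨2 * C1 + 2 * (P2 * (C3 * C4)), ?_, ?_⟩
  · have : 0 ≤ 2 * (P2 * (C3 * C4)) := by positivity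
    linarith
  intro q l ps hl hlen hok hY
  have hL := LL_nonneg hY
  set m : ℕ := ps.length with hm
  have hmn : (m : ℝ) ≤ n := by exact_mod_cast hlen
  have hcls := Cf_alL0 hH0 hH hR ps hok
  have hRm : R * m ≤ R * n := by gcongr
  have hcls' : Cf n (Real.exp (R * n + LL ps))
      (sqc q (fun x => (((H0⁻¹ : ℝ) : ℂ) ^ m) * alL0 h ps x)) :=
    Cf_sqc (hcls.mono hlen (Real.exp_le_exp.2 (by linarith))) q
  -- pull the constant out
  have ecf : ∀ x, sqc q (alL0 h ps) x = ((H0 : ℝ) : ℂ) ^ m *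
      sqc q (fun x => (((H0⁻¹ : ℝ) : ℂ) ^ m) * alL0 h ps x) x := by
    intro x
    unfold HP842.sqc
    have h9 : ((H0 : ℝ) : ℂ) ^ m * ((H0⁻¹ : ℝ) : ℂ) ^ m = 1 := by
      rw [← mul_pow, ← Complex.ofReal_mul, mul_inv_cancel₀ hH0.ne', Complex.ofReal_one, one_pow]
    linear_combination (-(HP842.Th q x * alL0 h ps x)) * h9
  have hpt : ∀ k, ‖∑' x, sqc q (alL0 h ps) x * (md k x : ℂ)‖ ≤
      H0 ^ n * (C2 * Real.exp ((5 / 6 + ε / 2) * (R * n + LL ps))) ∧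
      Summable (fun x => sqc q (alL0 h ps) x * (md k x : ℂ)) := by
    intro k
    obtain ⟨s1, s2⟩ := hN (Real.exp (R * n + LL ps)) _ (Real.one_le_exp (by linarith)) hcls' k
    have e1 : (fun x => sqc q (alL0 h ps) x * (md k x : ℂ)) = fun x => ((H0 : ℝ) : ℂ) ^ m *
        (sqc q (fun x => (((H0⁻¹ : ℝ) : ℂ) ^ m) * alL0 h ps x) x * (md k x : ℂ)) := by
      funext x
      rw [ecf x]; ring
    constructor
    · rw [e1, tsum_mul_left, norm_mul, norm_pow, Complex.norm_real, Real.norm_of_nonneg hH0.le]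
      rw [← Real.exp_mul] at s2
      have e2 : (R * n + LL ps) * (5 / 6 + ε / 2) = (5 / 6 + ε / 2) * (R * n + LL ps) := by ring
      rw [e2] at s2
      have e3 : H0 ^ m ≤ H0 ^ n := pow_le_pow_right₀ hH01 hlen
      gcongr
    · rw [e1]
      exact s1.mul_left _
  have hclsO : Cf n (Real.exp (R * n + LL ps)) (sqc q (fun x => (((H0⁻¹ : ℝ) : ℂ) ^ m) *
    alL0 h ps x)) := hcls'
  have hFS : FS (sqc q (alL0 h ps)) := by
    have e : sqc q (alL0 h ps) = fun x => ((H0 : ℝ) : ℂ) ^ m *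
      sqc q (fun x => (((H0⁻¹ : ℝ) : ℂ) ^ m) * alL0 h ps x) x := funext ecf
    rw [e]
    exact
      { fin := hclsO.fs.fin.subset fun x hx h0 => hx (by
          have h0' : sqc q (fun x => (((H0⁻¹ : ℝ) : ℂ) ^ m) * alL0 h ps x) x = 0 := h0
          simp only [h0', mul_zero])
        prim := fun x hx => hclsO.fs.prim x (right_ne_zero_of_mul hx) }
  have hk : ∀ k, ‖KS Dk (sqc q (alL0 h ps)) k‖ ^ 2 ≤ 2 * ‖KS Kg (sqc q (alL0 h ps)) k‖ ^ 2 +
      2 * (P2 * (‖th k‖ ^ 2 * (H0 ^ n * (C2 * Real.exp ((5 / 6 + ε / 2) *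
        (R * n + LL ps)))) ^ 2)) := by
    intro k
    obtain ⟨s2, s1⟩ := hpt k
    have e : KS Dk (sqc q (alL0 h ps)) k = KS Kg (sqc q (alL0 h ps)) k -
        ((pC : ℝ) : ℂ) * th k * ∑' x, sqc q (alL0 h ps) x * (md k x : ℂ) := by
      unfold KS
      rw [← tsum_mul_left, ← (hFS.summable _).tsum_sub (s1.mul_left _)]
      refine tsum_congr fun x => ?_
      have e : Dk k x = Kg k x - ((pC : ℝ) : ℂ) * th k * (md k x : ℂ) := rfl
      rw [e]
      ring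
    rw [e]
    set A := KS Kg (sqc q (alL0 h ps)) k
    set Bv := ∑' x, sqc q (alL0 h ps) x * (md k x : ℂ)
    have h1 := norm_sub_le A (((pC : ℝ) : ℂ) * th k * Bv)
    have h2 : ‖((pC : ℝ) : ℂ) * th k * Bv‖ ^ 2 = P2 * (‖th k‖ ^ 2 * ‖Bv‖ ^ 2) := by
      rw [norm_mul, norm_mul, Complex.norm_real, Real.norm_eq_abs, mul_pow, mul_pow, sq_abs]
      ring
    have h3 : ‖A - ((pC : ℝ) : ℂ) * th k * Bv‖ ^ 2 ≤ 2 * ‖A‖ ^ 2 +
        2 * ‖((pC : ℝ) : ℂ) * th k * Bv‖ ^ 2 := by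
      have h4 := norm_nonneg (A - ((pC : ℝ) : ℂ) * th k * Bv)
      nlinarith [sq_nonneg (‖A‖ - ‖((pC : ℝ) : ℂ) * th k * Bv‖)]
    rw [h2] at h3
    refine h3.trans ?_
    gcongr
  have h1 := hG q l ps hl hlen hok hY
  have h2 := hT (Real.exp l) (Real.one_le_exp hl)
  have e4 : (H0 ^ n * (C2 * Real.exp ((5 / 6 + ε / 2) * (R * n + LL ps)))) ^ 2 =
      C4 * Real.exp ((5 / 3 + ε) * LL ps) := by
    rw [hC4]
    have : (H0 ^ n * (C2 * Real.exp ((5 / 6 + ε / 2) * (R * n + LL ps)))) ^ 2 =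
        (H0 ^ n * C2) ^ 2 * Real.exp ((5 / 6 + ε / 2) * (R * n + LL ps)) ^ 2 := by ring
    rw [this, ← Real.exp_nat_mul, mul_assoc, ← Real.exp_add]
    congr 2
    push_cast
    ring
  have e5 : (Real.exp l) ^ (2 / 3 : ℝ) = Real.exp (2 / 3 * l) := by
    rw [← Real.exp_mul]; congr 1; ring
  rw [e5] at h2
  have h3 : Real.exp (2 / 3 * l) * Real.exp ((5 / 3 + ε) * LL ps) ≤
      Real.exp (ε * (l + LL ps)) * Real.exp (EHB l (LL ps)) := by
    rw [← Real.exp_add, ← Real.exp_add]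
    apply Real.exp_le_exp.2
    have m3 : LL ps + 2 / 3 * (l + LL ps) ≤ EHB l (LL ps) := by
      unfold EHB
      exact (le_max_right _ _).trans (le_max_right _ _)
    have m4 : 0 ≤ ε * l := by positivity
    nlinarith
  calc ∑ k ∈ bl (Real.exp l), ‖KS Dk (sqc q (alL0 h ps)) k‖ ^ 2
      ≤ ∑ k ∈ bl (Real.exp l), (2 * ‖KS Kg (sqc q (alL0 h ps)) k‖ ^ 2 +
        2 * (P2 * (‖th k‖ ^ 2 * (C4 * Real.exp ((5 / 3 + ε) * LL ps))))) :=
        Finset.sum_le_sum fun k _ => by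
          have := hk k
          rw [e4] at this
          exact this
    _ = 2 * ∑ k ∈ bl (Real.exp l), ‖KS Kg (sqc q (alL0 h ps)) k‖ ^ 2 +
        2 * (P2 * ((∑ k ∈ bl (Real.exp l), ‖th k‖ ^ 2) *
          (C4 * Real.exp ((5 / 3 + ε) * LL ps)))) := by
        rw [Finset.sum_add_distrib, ← Finset.mul_sum, ← Finset.mul_sum, ← Finset.mul_sum,
          ← Finset.sum_mul]
    _ ≤ 2 * (C1 * Real.exp (ε * (l + LL ps)) * Real.exp (EHB l (LL ps))) +
        2 * (P2 * ((C3 * Real.exp (2 / 3 * l)) *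
          (C4 * Real.exp ((5 / 3 + ε) * LL ps)))) := by
        gcongr
    _ = 2 * (C1 * (Real.exp (ε * (l + LL ps)) * Real.exp (EHB l (LL ps)))) +
        2 * (P2 * (C3 * C4) * (Real.exp (2 / 3 * l) * Real.exp ((5 / 3 + ε) * LL ps))) := by ring
    _ ≤ 2 * (C1 * (Real.exp (ε * (l + LL ps)) * Real.exp (EHB l (LL ps)))) +
        2 * (P2 * (C3 * C4) * (Real.exp (ε * (l + LL ps)) * Real.exp (EHB l (LL ps)))) := by
        gcongr
    _ = _ := by ring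

variable {Lam : Type*}

/-- **field `hbG`** for `S := SK Dk` -/
theorem bg_SD {π : Lam → DPar} (hP : ∀ lam, (π lam).OK) {h : ℝ → ℝ} {c : ℝ} (hpu : FE47.PU h c)
    (κ : ℝ) (u : List ℝ) (m a : ℝ) :
    BG Dq (fun lam l ps => SK Dk h l (ps.map (Pq.pc (π lam)))) κ u (wt m a)
      (max (κ + (u.sum + m + a))
      (max (2 * (u.sum + m + a) + κ / 3) ((u.sum + m + a) + 2 / 3 * (κ + (u.sum + m + a))))) := by
  have h1 := BG_of_bound (D := Dq) (Ψ := fun lam l ps => SK Dk h l (ps.map (Pq.pc (π lam))))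
    EHB EHB_lip EHB_hom ?_ ?_ κ u (wt m a)
  · rw [sum_wt, EHB_field] at h1
    exact h1
  · intro lam n ε hε
    obtain ⟨C, hC, hb⟩ := hbL_D hpu n hε
    refine ⟨C, hC, fun l ps hl hlen hz => ?_⟩
    have h2 := hb 1 l (ps.map (Pq.pc (π lam))) hl (by rw [List.length_map]; exact hlen)
      (ok_map (hP lam) ps) (one_le_map hz)
    rw [LL_pc, alL0_eq] at h2
    exact h2
  · intro lam l ps hl
    unfold SK
    rw [bl_neg hl, Finset.sum_empty]

/-- **field `trivS`** for `S := SK Dk` -/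
theorem triv_SD {π : Lam → DPar} (hP : ∀ lam, (π lam).OK) {h : ℝ → ℝ} {c : ℝ}
    (hpu : FE47.PU h c) : Triv Dq (fun lam l ps => SK Dk h l (ps.map (Pq.pc (π lam)))) :=
  fun κ u m a _ _ => ⟨_, bg_SD hP hpu κ u m a⟩

/-- the extra term of the exceptional character side: an ideal term on any set `Z` of lists -/
def idt (Z : ℝ → List Pq → Prop) (l : ℝ) (ps : List Pq) : ℝ := by
  classical exact if 0 ≤ l ∧ Z l ps then Real.exp (l + tl Dq ps) else 0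

lemma idt_nonneg (Z : ℝ → List Pq → Prop) (l : ℝ) (ps : List Pq) : 0 ≤ idt Z l ps := by
  unfold idt; split_ifs <;> positivity

/-- **field `hbC`** with the extra term -/
theorem bg_Rt {π : Lam → DPar} (hP : ∀ lam, (π lam).OK) {h : ℝ → ℝ} {c : ℝ} (hpu : FE47.PU h c)
    (Q : Lam → Eis → Prop) (Z : ℝ → List Pq → Prop) (κ : ℝ) (u : List ℝ) (m a : ℝ) :
    BG Dq (fun lam l ps => RQ (Q lam) h l (ps.map (Pq.pc (π lam))) + idt Z l ps) κ u (wt m a)
      (max (κ + (u.sum + m + a))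
      (max (2 * (u.sum + m + a) + κ / 3) ((u.sum + m + a) + 2 / 3 * (κ + (u.sum + m + a))))) := by
  classical
  have hh : Bump h := bump_of_cs hpu.cs
  have h1 := BG_of_bound (D := Dq)
    (Ψ := fun lam l ps => RQ (Q lam) h l (ps.map (Pq.pc (π lam))) + idt Z l ps) EHB EHB_lip
    EHB_hom ?_ ?_ κ u (wt m a)
  · rw [sum_wt, EHB_field] at h1
    exact h1
  · intro lam n ε hε
    obtain ⟨C, hC, hb⟩ := hbL_C hpu n hε
    refine ⟨C + 1, by linarith, fun l ps hl hlen hz => ?_⟩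
    have h2 := hb l (ps.map (Pq.pc (π lam))) hl (by rw [List.length_map]; exact hlen)
      (ok_map (hP lam) ps) (one_le_map hz)
    have htl : 0 ≤ tl Dq ps := by
      unfold tl
      apply List.sum_nonneg
      intro x hx
      obtain ⟨p, hp, rfl⟩ := List.mem_map.1 hx
      exact hz p hp
    rw [LL_pc] at h2
    have h3 : RQ (Q lam) h l (ps.map (Pq.pc (π lam))) ≤
        C * Real.exp (ε * (l + tl Dq ps)) * Real.exp (EHB l (tl Dq ps)) := by
      refine le_trans ?_ h2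
      rw [RQ_eq hh l (ok_map (hP lam) ps), alL0_eq]
      exact Finset.sum_le_sum_of_subset_of_nonneg (Finset.filter_subset _ _)
        fun _ _ _ => by positivity
    have h4 : idt Z l ps ≤ Real.exp (ε * (l + tl Dq ps)) * Real.exp (EHB l (tl Dq ps)) := by
      have h5 : Real.exp (l + tl Dq ps) ≤
          Real.exp (ε * (l + tl Dq ps)) * Real.exp (EHB l (tl Dq ps)) := by
        rw [← Real.exp_add]
        apply Real.exp_le_exp.2
        have m1 : l + tl Dq ps ≤ EHB l (tl Dq ps) := le_max_left _ _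
        have m2 : 0 ≤ ε * (l + tl Dq ps) := by positivity
        linarith
      unfold idt
      split_ifs
      · exact h5
      · positivity
    calc RQ (Q lam) h l (ps.map (Pq.pc (π lam))) + idt Z l ps
        ≤ C * Real.exp (ε * (l + tl Dq ps)) * Real.exp (EHB l (tl Dq ps)) +
          Real.exp (ε * (l + tl Dq ps)) * Real.exp (EHB l (tl Dq ps)) := add_le_add h3 h4
      _ = _ := by ring
  · intro lam l ps hl
    unfold RQ idt
    rw [bl_neg hl, Finset.filter_empty, Finset.sum_empty, if_neg (fun h0 => by linarith [h0.1]),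
      add_zero]

theorem triv_Rt {π : Lam → DPar} (hP : ∀ lam, (π lam).OK) {h : ℝ → ℝ} {c : ℝ}
    (hpu : FE47.PU h c) (Q : Lam → Eis → Prop) (Z : ℝ → List Pq → Prop) :
    Triv Dq (fun lam l ps => RQ (Q lam) h l (ps.map (Pq.pc (π lam))) + idt Z l ps) :=
  fun κ u m a _ _ => ⟨_, bg_Rt hP hpu Q Z κ u m a⟩

end Crest.Agent.R017.XHB411
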