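import Crest.Agent.R017.XHb_512
import Crest.Agent.R017.E4Sb_352

/-!
# Row 17, C70/E4 (version 7), the `x`-side in the large sieve range: `ZF` at `zTr` (helper512)

* `zf_tr` : `ZF` at 352's `zTr`
* `lgR_of` : the length of `R R'`
-/

set_option autoImplicit false

noncomputable section

open Complex Finset
open scoped ComplexConjugate

namespace Crest.Agent.R017.XHn512

open Crest.Agent.R012 Crest.Agent.R012.Eis
open Crest.Agent.R012.Mob705 hiding pb mem_pb
open Crest.Agent.R017.C70 (OKJ)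
open Crest.Agent.R017.E4J352
open Crest.Agent.R017.B770 (DPar)
open Crest.Agent.R017.Prov71
open Crest.Agent.R017.E5B71 Crest.Agent.R017.E4D164 Crest.Agent.R017.E4U164
open Crest.Agent.R017.E4Dic352 (lg RS lgR)
open Crest.Agent.R017.E4St352
open Crest.Agent.R017.Str699 (nu0)
open Crest.Agent.R017.E4RH858 (Pf pf Facts be1 be2)
open Crest.Agent.R017.E4F858 (R1S R2S RS_eq)
open Crest.Agent.R017.E4R70 (Cls)
open Crest.Agent.R017.JxS679 (sk)

variable {Λ : Type*} {π : Λ → DPar} {lam : Λ × Eis}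
  {Jf : ℝ → ℝ → ℝ → Finset (Eis × Eis)} {a : Bd × ℕ} {x : Dt} {Bf : ℝ → ℝ → ℝ → ℝ}
  {e0 r ε X : ℝ}

/-- **`ZF` at the class of a term** -/
theorem zf_tr (hJ : ∀ l N z, OKJ (Jf l N z)) (ha : a.1.ok) (hP : a.1.okP (π lam.1))
    (hx : x.OK (π lam.1) Bf e0 r ε X a.1) {Lg : ℝ} (hG : Lg ≠ 0) (t : Tm (x.O π lam Jf a))
    (f f1 f2 D1' l m : Eis) (sc : ℝ) :
    ZF (zTr Lg a.2 x f t f1 f2 D1' l m sc) Lg x a.2 (sk (x.g * x.e₀ * x.t) t.k) (lg t.k)
      (lg (nu0 t.o.1.1 t.o.1.2)) (R1S (pf t) + 2 * R2S (pf t)) where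
  v := by unfold zTr; field_simp
  k := by unfold zTr; field_simp
  Y0 := by unfold zTr; field_simp
  Y1 := by unfold zTr; field_simp
  c02 := by unfold zTr kC; field_simp
  c12 := by unfold zTr; field_simp
  nu := by unfold zTr; field_simp
  R := by unfold zTr; field_simp
  G := by
    refine (le_gS x t).trans (le_of_eq ?_)
    unfold gS Cls.s0 zTr
    field_simp
  W := by
    refine (lg_b3 hJ ha hP hx t.o).1.trans (le_of_eq ?_)
    have h1 := lg_bo3 x.e₀ t
    have h2 : lg (Str699.b3 (t.o.1.1 * t.o.1.2)) = lg (bo3 t) := rfl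
    rw [h2, ← h1]
    unfold zTr
    field_simp
  s1 := by unfold zTr; field_simp

/-- the length of `R R'` -/
lemma lgR_of {M : Eis} {O : Type} {t : Tm O} (hF : Facts M t) {P : Pf} (hp : pf t = P) :
    lg (P.R * P.R') = R1S (pf t) + 2 * R2S (pf t) := by
  rw [← RS_eq hF.loc, ← lgR hF, ← hp]
  rfl

/-- **the numbers of `XHB` at a near class** -/
theorem nr_of_near {δ : ℝ} {z z' : Cls} (h : Nm918.Near δ z z') : NrHB δ z z' := by
  have hv := abs_le.mp h.v
  have hk := abs_le.mp h.k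
  have hs := abs_le.mp h.s
  have hG := abs_le.mp h.G
  have h0 := abs_le.mp h.Y0
  have h1 := abs_le.mp h.Y1
  have hW := abs_le.mp h.W
  have h2 := abs_le.mp h.c02
  have h3 := abs_le.mp h.c12
  have hn := abs_le.mp h.nu
  have hR1 := abs_le.mp h.R1
  have hR2 := abs_le.mp h.R2
  have hsW := abs_le.mp h.sW
  have hs1 := abs_le.mp h.s1
  refine ⟨by linarith, by linarith, by linarith, by linarith, ?_, ?_⟩
  · unfold Cls.v1
    linarith
  · unfold Cls.lam Cls.us Cls.s0
    linarith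

end Crest.Agent.R017.XHn512
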