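import Crest.Agent.R017.XHc_512

/-!
# Row 17, C70/E4 (version 7), the `x`-side in the large sieve range: one block, final form
(helper512)

* `xblk_core` : the moment of one block from `XHB` at a class near `zTr`, any `α`
-/

set_option autoImplicit false

noncomputable section

open Complex Finset
open scoped ComplexConjugate

namespace Crest.Agent.R017.XHn512

open Crest.Agent.R012 Crest.Agent.R012.Eis
open Crest.Agent.R012.Mob705 hiding pb mem_pb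
open Crest.Agent.R017.C70 (OKJ)
open Crest.Agent.R017.E4J352
open Crest.Agent.R017.B770 (DPar)
open Crest.Agent.R017.Prov71
open Crest.Agent.R017.E5B71 Crest.Agent.R017.E4D164 Crest.Agent.R017.E4U164
open Crest.Agent.R017.E5L770 (omL)
open Crest.Agent.R017.E4Dic352 (lg)
open Crest.Agent.R017.E4St352
open Crest.Agent.R017.Str699 (nu0)
open Crest.Agent.R017.E4RH858 (Pf pf Facts kl)
open Crest.Agent.R017.E4R70 (Cls)
open Crest.Agent.R017.JxS679 (sk)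
open Crest.Agent.R017.EnX743

variable {Λ : Type*}

/-- the length of the class is at most a power of `N(S ν)` -/
lemma V_le {π : Λ → DPar} {lam : Λ × Eis} {Jf : ℝ → ℝ → ℝ → Finset (Eis × Eis)} {a : Bd × ℕ}
    {x : Dt} {Bf : ℝ → ℝ → ℝ → ℝ} {e0 r ε X : ℝ} (hJ : ∀ l N z, OKJ (Jf l N z)) (ha : a.1.ok)
    (hP : a.1.okP (π lam.1)) (hx : x.OK (π lam.1) Bf e0 r ε X a.1) (o : x.O π lam Jf a) :
    2 ^ 27 * (2 * 2 ^ a.2 * 8 ^ x.nS / 8 ^ x.nE) ≤ 2 ^ 28 * (2 ^ a.2 * lD o ^ 3) := by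
  have hl := lD_pos o hJ ha hP hx
  have h1 := (log_lam hJ ha hP hx o).1
  have h2 := nSE_eq x
  have h3 : (0 : ℝ) ≤ lg (nu0 o.1.1 o.1.2) := E4Dic352.lg_nonneg _
  have g0 := kG_nonneg x
  have g1 := kY_nonneg x
  have g2 := kW_nonneg x
  have g3 := kC_nonneg x
  have h4 : (8 : ℝ) ^ x.nS / 8 ^ x.nE ≤ lD o ^ 3 := by
    rw [← Real.log_le_log_iff (by positivity) (by positivity),
      Real.log_div (by positivity) (by positivity), Real.log_pow, Real.log_pow, Real.log_pow, log8]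
    push_cast
    nlinarith
  calc 2 ^ 27 * (2 * 2 ^ a.2 * 8 ^ x.nS / 8 ^ x.nE)
      = 2 ^ 28 * (2 ^ a.2 * ((8 : ℝ) ^ x.nS / 8 ^ x.nE)) := by ring
    _ ≤ _ := by gcongr

set_option maxHeartbeats 1000000 in
/-- **the moment of one block from `XHB`**, class near `zTr`, any `α` -/
theorem xblk_core (π : Λ → DPar) {ε B : ℝ} (hε : 0 < ε) (hB : 1 ≤ B) : ∃ X₀ : ℝ, 1 < X₀ ∧
    ∀ X : ℝ, X₀ ≤ X → ∀ (lam : Λ × Eis) (Jf : ℝ → ℝ → ℝ → Finset (Eis × Eis)),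
    (∀ l N z, OKJ (Jf l N z)) → ∀ (a : Bd × ℕ) (x : Dt) (Bf : ℝ → ℝ → ℝ → ℝ) (e0 r ε' : ℝ),
    x.OK (π lam.1) Bf e0 r ε' X a.1 → a.1.ok → a.1.okP (π lam.1) → ∀ α : Eis → ℂ,
    End699.HC (π lam.1).n₃ (fun k => conj ((π lam.1).χ₃ k)) →
    ∀ (G : Eis → ℂ), (∀ y, IsPrim y → ‖G y‖ ≤ 1) →
    ∀ (c : Win) (P : Pf) (β τ₁ : Eis) (𝒥 : Finset (Tm (x.O π lam Jf a))),
    (∀ t ∈ 𝒥, Facts (π lam.1).n₃ t ∧ t.OK (π lam.1).n₃ 1 ∧ t.In lD c ∧ pf t = P ∧ bo3 t = β ∧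
      kl (x.g * x.e₀ * x.t) t.k = τ₁ ∧ IsCoprime (t.R * t.R') t.o.1.1) →
    (∀ t ∈ 𝒥, (nm t.k : ℝ) ≤ X ^ B) → (∀ t ∈ 𝒥, lD t.o ≤ X ^ B) → (2 : ℝ) ^ a.2 ≤ X ^ B →
    ∀ t ∈ 𝒥, ∀ (κ₀ δ : ℝ) (f f1 f2 D1' l m : Eis) (sc : ℝ) (z' : Cls), 0 < κ₀ → 0 ≤ δ →
    12 * κ₀ * δ ≤ ε / 16 →
    Nm918.Near δ (zTr (κ₀ * Real.log X) a.2 x f t f1 f2 D1' l m sc) z' →
    ∀ (d0 t₀ mx ex : ℝ), 0 ≤ mx → mx ≤ B →
    E4R70.XHB (κ₀ * z'.k) (κ₀ * z'.v1) d0 (κ₀ * z'.c12) (κ₀ * z'.s1) mx ex →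
    TWa (xJB Jf a x β) (omL a.2) α x.e₀ 1 0 ≤ X ^ (t₀ + ε / 16) →
    min (TWa (xJB Jf a x β) (omL a.2) α x.e₀ 1 1)
      (√(2 ^ 27 * (2 * 2 ^ a.2 * 8 ^ x.nS / 8 ^ x.nE) / (2 ^ c.nlam : ℝ) ^ 2 /
        (nm (P.R * P.R') * 2 ^ (x.m 0 0 + x.m 1 2))) *
        TWa (xJB Jf a x β) (omL a.2) α x.e₀ 1 0) ≤ X ^ (t₀ + d0 + ε / 16) →
    (∀ D b : Eis, IsPrim D → IsPrim b →
      XSd512.XMo (π lam.1).n₃ (vG π lam Jf a x α) G P (𝒥.image fun t => t.o) c.nkk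
        (fun k => kl (x.g * x.e₀ * x.t) k = τ₁) D b (fun _ _ => 1) ≤
        X ^ (κ₀ * (z'.k + (2 * z'.lam - z'.us / 3)) + t₀ + ex + ε)) ∧
    (∀ D b : Eis, IsPrim D → IsPrim b → ∀ bm : x.O π lam Jf a → Eis → ℂ,
      (∀ o ∈ 𝒥.image fun t => t.o,
        JxL679.NatS (X ^ (mx + ε / 16)) (X ^ (ε / 16) * X ^ (mx + ε / 16)) (bm o)) →
      XSd512.XMo (π lam.1).n₃ (vG π lam Jf a x α) G P (𝒥.image fun t => t.o) c.nkk
        (fun k => kl (x.g * x.e₀ * x.t) k = τ₁) D b (fun o k => ‖CM106.CS (bm o) k‖ ^ 2) ≤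
        X ^ (κ₀ * (z'.k + (2 * z'.lam - z'.us / 3)) + t₀ + ex + ε)) := by
  classical
  obtain ⟨A1, hA1⟩ : ∃ A1 : ℝ, A1 = 4 * B + 1 + ε := ⟨_, rfl⟩
  have hA : 1 ≤ A1 := by rw [hA1]; linarith
  obtain ⟨X₁, hX₁, H⟩ := xnum_HB π (τ := ε / 16) (A1 := A1) (by positivity) hA
  refine ⟨max X₁ (2 ^ 28), lt_max_of_lt_left hX₁, ?_⟩
  intro X hXX lam Jf hJf a x Bf e0 r ε' hx ha hP α hψ G hG c P β τ₁ 𝒥 h𝒥 hk hl hi t ht κ₀ δ f f1 f2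
    D1' l m sc z' hκ hδ hκδ hN d0 t₀ mx ex hmx hmxB hXHB hT0 hT1
  have hXX₁ : X₁ ≤ X := (le_max_left _ _).trans hXX
  have hX28 : (2 : ℝ) ^ 28 ≤ X := (le_max_right _ _).trans hXX
  have hX1 : 1 < X := hX₁.trans_le hXX₁
  have hX0 : 0 < X := by linarith
  have hXB : 0 < X ^ B := Real.rpow_pos_of_pos hX0 _
  have hXB1 : 1 ≤ X ^ B := Real.one_le_rpow hX1.le (by linarith)
  have hp : X * (X ^ B) ^ 4 ≤ X ^ A1 := by
    rw [hA1, ← Real.rpow_natCast, ← Real.rpow_mul hX0.le]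
    nth_rewrite 1 [← Real.rpow_one X]
    rw [← Real.rpow_add hX0]
    refine Real.rpow_le_rpow_of_exponent_le hX1.le ?_
    push_cast
    linarith
  have hp1 : X * X ^ B ≤ X ^ A1 := by
    refine le_trans (mul_le_mul_of_nonneg_left ?_ hX0.le) hp
    exact le_self_pow₀ hXB1 (by norm_num)
  have h2X : (2 : ℝ) ≤ X := le_trans (by norm_num) hX28
  have hlast := hl t ht
  have hBl := blkX_of (A1 := A1) (Y := X) h𝒥
    (fun t ht => (mul_le_mul h2X (hk t ht) (Nat.cast_nonneg _) hX0.le).trans hp1)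
    (fun t ht => (mul_le_mul h2X (hl t ht) (Nat.cast_nonneg _) hX0.le).trans hp1)
    ((V_le hJf ha hP hx t.o).trans (by
      have h5 : lD t.o ^ 3 ≤ (X ^ B) ^ 3 := pow_le_pow_left₀ (Nat.cast_nonneg _) hlast 3
      calc 2 ^ 28 * (2 ^ a.2 * lD t.o ^ 3) ≤ X * (X ^ B * (X ^ B) ^ 3) := by
            have : (0 : ℝ) ≤ lD t.o ^ 3 := pow_nonneg (Nat.cast_nonneg _) 3
            gcongr
        _ = X * (X ^ B) ^ 4 := by ring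
        _ ≤ _ := hp))
    ((mul_le_mul h2X hi (by positivity) hX0.le).trans hp1) ht
  obtain ⟨hF, hok, hIn, hpf, -, -, -⟩ := h𝒥 t ht
  have hk0 : t.k ≠ 0 := hok.sk.ne_zero
  obtain ⟨w1, w2, w3⟩ := win_of hJf ha hP hx hIn hk0
  have hLg : κ₀ * Real.log X ≠ 0 := (mul_pos hκ (Real.log_pos hX1)).ne'
  have hZ := zf_tr hJf ha hP hx hLg t f f1 f2 D1' l m sc
  have hs₁ : sk (x.g * x.e₀ * x.t) t.k ≠ 0 := (JxS679.sk_prim _ _).ne_zero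
  have key := H X hXX₁ lam Jf hJf a x Bf e0 r ε' hx ha hP α hψ G hG c.nkk c.nlam P _ β _ _ hBl κ₀ δ
    _ z' _ _ _ hκ.le hδ hκδ hs₁ hZ (nr_of_near hN) w1 (lgR_of hF hpf) w2 w3 d0 t₀ mx ex hmx
    (by rw [hA1]; linarith) hXHB hT0 hT1
  have e : κ₀ * (z'.k + (2 * z'.lam - z'.us / 3)) + t₀ + ex + 16 * (ε / 16) =
      κ₀ * (z'.k + (2 * z'.lam - z'.us / 3)) + t₀ + ex + ε := by ring
  rw [e] at key
  exact key

end Crest.Agent.R017.XHn512
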