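import Crest.Agent.R017.XHd_512
import Crest.Agent.R017.StrD_699
import Crest.Agent.R017.E4Ux_512

/-!
# Row 17, C70/E4 (version 7): `XNumU`, the large sieve closer (helper512)

* `xmo_congr` : only the values of `G` on `Sm M` matter
* `gx_le` : the twist is bounded by one
* `TNumU` : the `T`-numbers of the `x`-side
* `XNumC` : helper699's `XNumU` with any closer;  `xnumC_or` : two closers
* **`xnumH_of`** : the large sieve closer, from `TNumU`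
-/

set_option autoImplicit false

noncomputable section

open Complex Finset
open scoped ComplexConjugate

namespace Crest.Agent.R017.XHn512

open Crest.Agent.R012 Crest.Agent.R012.Eis
open Crest.Agent.R012.Mob705 hiding pb mem_pb
open Crest.Agent.R012.LS2 (mem_S)
open Crest.Agent.R017.Sx545 (Sm)
open Crest.Agent.R017.CM106 (FS CS)
open Crest.Agent.R017.FE47 (PU SM)
open Crest.Agent.R017.C70 (OKJ)
open Crest.Agent.R017.End699 (HC)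
open Crest.Agent.R017.B770
open Crest.Agent.R017.Prov71
open Crest.Agent.R017.E4352 (PrI Dat4 rd SSm tws)
open Crest.Agent.R017.E4o502 (vD)
open Crest.Agent.R017.E5B71
open Crest.Agent.R017.E5L770
open Crest.Agent.R017.E5k54 (alb)
open Crest.Agent.R017.E4D164
open Crest.Agent.R017.E4J352
open Crest.Agent.R017.E4U164
open Crest.Agent.R017.E4R70
open Crest.Agent.R017.E4RH858 (Pf pf Facts kl)
open Crest.Agent.R017.E4Dic352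
open Crest.Agent.R017.E4St352
open Crest.Agent.R017.JxG679 (vD_ne)
open Crest.Agent.R017.JxL679 (NatS)
open Crest.Agent.R017.JxP679
open Crest.Agent.R017.XSd512 (XMo)
open Crest.Agent.R017.YsU61 (TwOK)
open Crest.Agent.R017.EnX743 (TWa xJB)
open Crest.Agent.R017.Str699 (nu0)

/-! ### the twist -/

/-- only the values of `G` on `Sm M` matter -/
lemma xmo_congr {M : Eis} {OO : Finset (Eis × Eis)} {v : {x // x ∈ OO} → Eis → ℂ}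
    {G G' : Eis → ℂ} {Pp : Pf} (hPr : IsPrim (Pp.R * Pp.R'))
    (hv : ∀ o y, v o y ≠ 0 → Sm M y) (hG : ∀ y, Sm M y → G y = G' y)
    (Oc : Finset {x // x ∈ OO}) (nkk : ℕ) (Pk : Eis → Prop) (D b : Eis)
    (H : {x // x ∈ OO} → Eis → ℝ) :
    XMo M v G Pp Oc nkk Pk D b H = XMo M v G' Pp Oc nkk Pk D b H := by
  have key : ∀ o, (pkP Pp o D b).v' v G = (pkP Pp o D b).v' v G' := by
    intro o
    unfold JxG679.Px.v' pkP
    simp only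
    funext y
    unfold E4352.tws
    by_cases h : IsCoprime y (Pp.B * (b ^ 2 * Pp.b))
    swap
    · rw [if_neg h, if_neg h]
    rw [if_pos h, if_pos h]
    by_cases h0 : vD D (v o) (Pp.R * Pp.R' * y) = 0
    · rw [h0, mul_zero, mul_zero]
    · obtain ⟨-, h1⟩ := vD_ne h0
      have h2 := hv _ _ h1
      have h3 : Sm M y := ⟨h2.prim.of_mul_left hPr, h2.cop.of_mul_left_right⟩
      show sy y _ * G y * _ = sy y _ * G' y * _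
      rw [hG y h3]
  unfold XMo
  simp only [key]

/-- the twist is bounded by one -/
lemma gx_le {M' : Eis} {η : Eis → ℂ} (h : HC M' η) (j : ℤ) (ξ : ℝ) {y : Eis} (hy : IsPrim y) :
    ‖E4J352.gx η j ξ y‖ ≤ 1 := by
  have hy0 : (0 : ℝ) < nm y := by exact_mod_cast nm_pos.2 hy.ne_zero
  unfold E4J352.gx
  rw [norm_mul]
  have h1 : ‖(nm y : ℂ) ^ (I * ξ)‖ = 1 := by
    rw [show ((nm y : ℕ) : ℂ) = ((nm y : ℝ) : ℂ) by push_cast; rfl,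
      Complex.norm_cpow_eq_rpow_re_of_pos hy0]
    simp
  rw [h1, mul_one]
  rcases (h.isChar_tw j).norm y hy with h2 | h2
  · rw [h2, norm_zero]; exact zero_le_one
  · rw [h2]

/-- natural sequences at larger lengths -/
lemma natS_mono {Bm C B' C' : ℝ} {bm : Eis → ℂ} (hB0 : 0 < Bm) (hB : Bm ≤ B') (hC0 : 0 ≤ C)
    (hC : C ≤ C') (h : NatS Bm (C * Bm) bm) : NatS B' (C' * B') bm := by
  have hB' : 0 < B' := hB0.trans_le hB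
  have hfl : ⌊Bm⌋₊ ≤ ⌊B'⌋₊ := Nat.floor_le_floor hB
  refine ⟨fun n hn => ?_, fun s hs => ?_, fun n => ?_⟩
  · have h1 := mem_primBall.mp (h.supp n hn)
    exact mem_primBall.mpr ⟨h1.1.trans hfl, h1.2⟩
  · have h1 := h.mom s hs
    have h2 : ∑ d ∈ primBall ⌊B'⌋₊, ‖bm (s * d)‖ ^ 2 = ∑ d ∈ primBall ⌊Bm⌋₊, ‖bm (s * d)‖ ^ 2 := by
      symm
      refine sum_subset (fun d hd => ?_) fun d hd hn => ?_
      · have h3 := mem_primBall.mp hd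
        exact mem_primBall.mpr ⟨h3.1.trans hfl, h3.2⟩
      · by_contra h4
        have h5 : bm (s * d) ≠ 0 := fun h6 => h4 (by rw [h6, norm_zero]; ring)
        have h7 := mem_primBall.mp (h.supp _ h5)
        apply hn
        refine mem_primBall.mpr ⟨le_trans ?_ h7.1, (mem_primBall.mp hd).2⟩
        exact Div277.nm_le_of_dvd (mul_ne_zero hs.ne_zero (mem_primBall.mp hd).2.ne_zero)
          (dvd_mul_left _ _)
    rw [h2]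
    refine h1.trans (div_le_div_of_nonneg_right ?_ (Nat.cast_nonneg _))
    exact mul_le_mul hC hB hB0.le (hC0.trans hC)
  · have h1 := h.bd n
    have h2 : ‖bm n‖ ^ 2 ≤ C := by
      by_contra h3
      push Not at h3
      have := mul_lt_mul_of_pos_left h3 hB0
      linarith
    calc B' * ‖bm n‖ ^ 2 ≤ B' * C := mul_le_mul_of_nonneg_left h2 hB'.le
      _ ≤ C' * B' := by nlinarith

/-- the square root of the length of the `x`-side -/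
lemma dm_le {z z' : Cls} {κ₀ X δ τ : ℝ} (hX : 1 < X) (hκ : 0 ≤ κ₀) (hτ : 12 * κ₀ * δ ≤ τ)
    {x : Dt} {i : ℕ} {s₁ : Eis} {lk lnu lR : ℝ}
    (h : ZF z (κ₀ * Real.log X) x i s₁ lk lnu lR) (hn : NrHB δ z z') {nl : ℕ} {P : ℝ}
    (hP : 0 < P) (hR : Real.log P = lR)
    (hlam : kG x + 2 * kY x + 3 * kW x + kC x + lnu ≤ (nl + 1) * Real.log 2)
    (h30 : (2 : ℝ) ^ 30 ≤ X ^ τ) :
    √(2 ^ 27 * (2 * 2 ^ i * 8 ^ x.nS / 8 ^ x.nE) / (2 ^ nl : ℝ) ^ 2 /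
      (P * 2 ^ (x.m 0 0 + x.m 1 2))) ≤ X ^ (κ₀ * (z'.v1 / 2) + τ) := by
  have hX0 : 0 < X := by linarith
  have hL0 : 0 < Real.log X := Real.log_pos hX
  have h1 := num_V1 h hP hR hlam
  have h2 : Real.exp (κ₀ * Real.log X * z.v1) ≤ X ^ (κ₀ * z'.v1 + τ) := by
    rw [Real.rpow_def_of_pos hX0]
    refine Real.exp_le_exp.2 ?_
    have h6 := mul_le_mul_of_nonneg_left hn.v1 (mul_nonneg hκ hL0.le)
    have h7 : 12 * κ₀ * δ * Real.log X ≤ τ * Real.log X := mul_le_mul_of_nonneg_right hτ hL0.le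
    nlinarith
  rw [Real.sqrt_le_left (Real.rpow_nonneg hX0.le _)]
  rw [← div_div, div_le_iff₀ (by positivity)]
  refine h1.trans ?_
  have e1 : (X ^ (κ₀ * (z'.v1 / 2) + τ)) ^ 2 = X ^ τ * X ^ (κ₀ * z'.v1 + τ) := by
    rw [← Real.rpow_natCast, ← Real.rpow_mul hX0.le, ← Real.rpow_add hX0]
    congr 1
    push_cast
    ring
  rw [e1]
  have p1 : 0 < X ^ (κ₀ * z'.v1 + τ) := Real.rpow_pos_of_pos hX0 _
  calc 2 ^ 30 * (Real.exp (κ₀ * Real.log X * z.v1) * 2 ^ (x.m 0 0 + x.m 1 2))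
      ≤ X ^ τ * (X ^ (κ₀ * z'.v1 + τ) * 2 ^ (x.m 0 0 + x.m 1 2)) := by gcongr
    _ = _ := by ring

/-! ### the numbers -/

section num

variable {Λ : Type*} (π : Λ → DPar) (h : ℝ → ℝ)

/-- the exponent of the `T`-number (units of `log X`) -/
def tEx (κ d : ℝ) (z : Cls) (N u : ℝ) : ℝ :=
  κ * (z.tT N u + 2 / 3 * d * z.N1 N - (z.v + (N - z.β)) / 3)

/-- **the `T`-numbers of the `x`-side** (class N) : weights `1` and `nm y.1` -/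
def TNumU (A d e0 r : ℝ) (Bf : ℝ → ℝ → ℝ → ℝ) (Jf : ℝ → ℝ → ℝ → Finset (Eis × Eis)) : Prop :=
  ∀ ε : ℝ, 0 < ε → ∃ η : ℝ, 0 < η ∧
    ∀ (lam : Λ × Eis) (N : ℕ) (B : ℝ), ¬ (π lam.1).CaseD →
    ∃ δ' : ℝ, 0 < δ' ∧ ∃ X₀ : ℝ, 1 < X₀ ∧ ∀ X : ℝ, X₀ ≤ X → ∀ δ ε' : ℝ, δ ≤ η → ε' ≤ η →
    ∀ (a : Bd × ℕ) (ps : List Pq) (q : (Option (Fin 3 ⊕ Fin 5) → ℝ) × (Kd → ℝ)),
      FrL A d δ δ' B X N a ps q → a.1.ok → lam.2 ∈ SM (π lam.1).n → a.1.okP (π lam.1) →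
    ∀ x : Dt, x.OK (π lam.1) Bf e0 r ε' X a.1 → ∀ z' : Cls,
      z'.Ok d (1 / cκ (dn q.1)) (cN (dn q.1) / cκ (dn q.1)) (cM (dn q.1) / cκ (dn q.1))
        (q.2 .mo / cκ (dn q.1)) (q.2 .am / cκ (dn q.1)) (cx' (dn q.1) / cκ (dn q.1)) →
      |z'.v - Real.log 2 * a.2 / (cκ (dn q.1) * Real.log X)| ≤ η →
      |z'.β - lg (∏ i, x.β i) / (cκ (dn q.1) * Real.log X)| ≤ η →
      |z'.s - lg x.e₀ / (cκ (dn q.1) * Real.log X)| ≤ η → ∀ b₀ : Eis,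
      TWa (xJB Jf a x b₀) (omL a.2) (alb (f3 (π lam.1) h lam.2 a.1) x.β) x.e₀ 1 0 ≤
        X ^ (tEx (cκ (dn q.1)) d z' (cN (dn q.1) / cκ (dn q.1)) (cu (dn q.1) 4 / cκ (dn q.1)) +
          ε) ∧
      (TWa (xJB Jf a x b₀) (omL a.2) (alb (f3 (π lam.1) h lam.2 a.1) x.β) x.e₀ 1 1 ≤
        X ^ (tEx (cκ (dn q.1)) d z' (cN (dn q.1) / cκ (dn q.1)) (cu (dn q.1) 4 / cκ (dn q.1)) +
          cκ (dn q.1) * z'.d0 (cN (dn q.1) / cκ (dn q.1)) (cu (dn q.1) 4 / cκ (dn q.1)) + ε) ∨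
        z'.v1 / 2 ≤ z'.d0 (cN (dn q.1) / cκ (dn q.1)) (cu (dn q.1) 4 / cκ (dn q.1)))

/-- **helper699's `XNumU` with any closer `Cl`** -/
def XNumC (Cl : ℝ → Cls → ℝ → ℝ → ℝ → ℝ → ℝ → Prop) (A d e0 r : ℝ) (Bf : ℝ → ℝ → ℝ → ℝ) (Jf : ℝ → ℝ → ℝ → Finset (Eis × Eis)) : Prop :=
  ∀ ε : ℝ, 0 < ε → ∃ η : ℝ, 0 < η ∧
    ∀ (lam : Λ × Eis) (N : ℕ) (B : ℝ) (T : Finset ((Eis → ℂ) × ℤ)), ¬ (π lam.1).CaseD →
    (∀ tt ∈ T, TwOK (π lam.1) tt) →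
    ∃ (M₁ : ℕ) (δ' : ℝ), 0 < δ' ∧ ∃ X₀ : ℝ, 1 < X₀ ∧ ∀ X : ℝ, X₀ ≤ X →
    ∀ δ ε' : ℝ, δ ≤ η → ε' ≤ η →
    ∀ (a : Bd × ℕ) (ps : List Pq) (q : (Option (Fin 3 ⊕ Fin 5) → ℝ) × (Kd → ℝ)),
      FrL A d δ δ' B X N a ps q → a.1.ok → lam.2 ∈ SM (π lam.1).n → a.1.okP (π lam.1) →
    ∀ x : Dt, x.OK (π lam.1) Bf e0 r ε' X a.1 →
    ∀ (h₁ : FS (b1 (π lam.1) h lam.2 ps)) (h₂ : FS (b2 (π lam.1) h lam.2 a.1 ps)),
    ∀ tt ∈ T, ∀ (ξ : ℝ) (G : Eis → ℂ), (∀ y, Sm (π lam.1).n₃ y → G y = E4J352.gx tt.1 tt.2 ξ y) →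
    ∀ (c : E4J352.Win) (P : Pf) (β : Eis) (τ : Eis × Eis × Eis)
      (𝒥 : Finset (Tm (x.O π lam Jf a))),
      (∀ t ∈ 𝒥, t.OK (π lam.1).n₃ 1 ∧
        t.val 1 lD (x.v π h lam Jf a) (x.w π h lam Jf a ps h₁ h₂) G ≠ 0 ∧ t.In lD c ∧
        pf t = P ∧ bo3 t = β ∧ soL x (fN (π lam.1).n₃ (x.E a.1)) t = τ) →
    ∀ Oc : Finset (x.O π lam Jf a), (∀ o, o ∈ Oc ↔ ∃ t ∈ 𝒥, t.o = o) →
    ∀ t ∈ 𝒥, ∀ f1 f2 f3 D1' Z'' l' m : Eis,
      Spl (π lam.1).n₃ (fN (π lam.1).n₃ (x.E a.1)) x.z t f1 f2 f3 D1' Z'' l' m →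
    ∀ (z' : Cls) (mx ex : ℝ),
      Nm918.Near η (StrD699.zT (cκ (dn q.1) * Real.log X) a.2 x (fN (π lam.1).n₃ (x.E a.1)) t
        f1 f2 D1' l' m 0) z' →
      z'.Ok d (1 / cκ (dn q.1)) (cN (dn q.1) / cκ (dn q.1)) (cM (dn q.1) / cκ (dn q.1))
        (q.2 .mo / cκ (dn q.1)) (q.2 .am / cκ (dn q.1)) (cx' (dn q.1) / cκ (dn q.1)) →
      z'.ky ≤ 1 → 0 ≤ mx → mx ≤ 2 →
      Cl (cκ (dn q.1)) z' d (cN (dn q.1) / cκ (dn q.1)) (cu (dn q.1) 4 / cκ (dn q.1)) mx ex →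
    ∀ t' ∈ 𝒥, ∀ Bm : ℝ, 1 ≤ Bm → Bm ≤ X ^ (mx + η) →
      ∀ Bd : ℝ, Bd = ((1 + |ξ|) ^ M₁) ^ 2 * X ^ (cκ (dn q.1) * (z'.k + 2 * z'.lam) +
        (cκ (dn q.1) * StrD699.Vx z' (cN (dn q.1) / cκ (dn q.1)) (cu (dn q.1) 4 / cκ (dn q.1)) +
          cκ (dn q.1) * (2 / 3 * d * z'.N1 (cN (dn q.1) / cκ (dn q.1))) + ex + ε)) →
      (mx = 0 → XMo (π lam.1).n₃ (x.v π h lam Jf a) G P Oc c.nkk
        (fun k => kl (x.g * x.e₀ * x.t) k = τ.1) t'.D1 (E4RH858.b1 t') (fun _ _ => 1) ≤ Bd) ∧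
      (∀ bm : x.O π lam Jf a → Eis → ℂ, (∀ o ∈ Oc, NatS Bm (X ^ η * Bm) (bm o)) →
        XMo (π lam.1).n₃ (x.v π h lam Jf a) G P Oc c.nkk
          (fun k => kl (x.g * x.e₀ * x.t) k = τ.1) t'.D1 (E4RH858.b1 t')
          (fun o k => ‖CS (bm o) k‖ ^ 2) ≤ Bd)

/-- the large sieve closer -/
def HBc (κ₀ : ℝ) (z : Cls) (_d N u x ex : ℝ) : Prop :=
  XHB (κ₀ * z.k) (κ₀ * z.v1) (κ₀ * z.d0 N u) (κ₀ * z.c12) (κ₀ * z.s1) x ex

/-- the closer with an `R`-part -/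
def LTc (κ₀ : ℝ) (z : Cls) (d N u x ex : ℝ) : Prop :=
  Hg918.XLTX d (κ₀ * z.k) (κ₀ * z.v1) (κ₀ * z.N1 N) (κ₀ * (N - z.β)) (κ₀ * z.R1) (κ₀ * z.R2)
    (κ₀ * u) (κ₀ * z.lqt) (κ₀ * z.sh) (κ₀ * z.cnt) (κ₀ * z.tT N u) (κ₀ * (z.c12 + z.s1))
    (κ₀ * z.ff N u) (κ₀ * ((z.fF N u + z.ff N u) / 2)) x ex

/-- the closer without an `R`-part -/
def PVc (κ₀ : ℝ) (z : Cls) (_d N u x ex : ℝ) : Prop :=
  XPV (κ₀ * z.k) (κ₀ * z.v1) (κ₀ * z.lqt) (κ₀ * (z.c12 + z.s1)) (κ₀ * z.ff N u) x ex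

end num

/-- the frequency of an admissible class -/
lemma k_le_one {z : Cls} {d r N M a c x : ℝ} (h : z.Ok d r N M a c x) (hk : z.ky ≤ 1) :
    z.k ≤ 1 := by
  have h1 := h.G
  have h2 := h.sWs
  have h3 := h.Y0
  have h4 := h.Y1
  have h5 := h.c02
  have h6 := h.c12
  have h7 := h.nu
  have h8 := h.η
  have h9 := h.b1
  have h10 := h.F
  have h11 := h.tau
  unfold Cls.ky Cls.lam Cls.s0 at hk
  linarith

set_option maxHeartbeats 1000000 in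
/-- **the large sieve half of helper699's `XNumU`** -/
theorem xnumH_of {Λ : Type*} {π : Λ → DPar} {h : ℝ → ℝ} {c₀ : ℝ} (hh : PU h c₀)
    (hP : ∀ lam, (π lam).OK) {A d e0 r : ℝ} (hA : 2 / 3 ≤ A) {Bf : ℝ → ℝ → ℝ → ℝ}
    {Jf : ℝ → ℝ → ℝ → Finset (Eis × Eis)} (hJf : ∀ l N z, OKJ (Jf l N z))
    (HT : TNumU π h A d e0 r Bf Jf) : XNumC π h HBc A d e0 r Bf Jf := by
  classical
  intro ε hε
  obtain ⟨η₁, hη₁, HT1⟩ := HT (ε / 64) (by positivity)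
  obtain ⟨η, hη, hηa, hηb, hηc⟩ : ∃ η : ℝ, 0 < η ∧ η ≤ η₁ ∧ η ≤ 1 / 2 ∧ η ≤ ε / 768 :=
    ⟨min η₁ (min (1 / 2) (ε / 768)), by positivity, min_le_left _ _,
      (min_le_right _ _).trans (min_le_left _ _), (min_le_right _ _).trans (min_le_right _ _)⟩
  refine ⟨η, hη, ?_⟩
  intro lam N B T hD hT
  obtain ⟨δ₁, hδ₁, X₁, hX₁, HT2⟩ := HT1 lam N B hD
  obtain ⟨A0, C0, X₂, hA0, hC0, hX₂, HS⟩ := E4Us512.szU hh hP d hA e0 r Bf hJf lam N B 1 one_pos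
  obtain ⟨Bb, hBb⟩ : ∃ Bb : ℝ, Bb = max (max B 3) A0 := ⟨_, rfl⟩
  have hBb1 : B ≤ Bb := by rw [hBb]; exact (le_max_left _ _).trans (le_max_left _ _)
  have hBb3 : 3 ≤ Bb := by rw [hBb]; exact (le_max_right _ _).trans (le_max_left _ _)
  have hBbA : A0 ≤ Bb := by rw [hBb]; exact le_max_right _ _
  obtain ⟨X₃, hX₃, HX⟩ := xblk_core π hε (B := Bb) (by linarith)
  refine ⟨0, min δ₁ 1, by positivity, max (max X₁ X₂) (max X₃ (max 2 ((2 : ℝ) ^ (64 / ε * 30)))),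
    lt_max_of_lt_left (lt_max_of_lt_left hX₁), ?_⟩
  intro X hXX δ ε' hδ hε' a ps q hF ha hlam haP x hx h₁ h₂ tt htt ξ G hG c P β τ 𝒥 h𝒥 Oc hOc t ht
    f1 f2 f3' D1' Z'' l' m hS z' mx ex hN hok hky hmx hmx2 hXHB t' ht' Bm hBm1 hBm Bd hBd
  have hXX₁ : X₁ ≤ X := ((le_max_left _ _).trans (le_max_left _ _)).trans hXX
  have hXX₂ : X₂ ≤ X := ((le_max_right _ _).trans (le_max_left _ _)).trans hXX
  have hXX₃ : X₃ ≤ X := ((le_max_left _ _).trans (le_max_right _ _)).trans hXX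
  have hXX₅ : max 2 ((2 : ℝ) ^ (64 / ε * 30)) ≤ X :=
    ((le_max_right _ _).trans (le_max_right _ _)).trans hXX
  have hX2 : 2 ≤ X := (le_max_left _ _).trans hXX₅
  have hXX₄ : (2 : ℝ) ^ (64 / ε * 30) ≤ X := (le_max_right _ _).trans hXX₅
  have hX1 : 1 < X := hX₁.trans_le hXX₁
  have hX0 : 0 < X := by linarith
  have hL0 : 0 < Real.log X := Real.log_pos hX1
  have h30 : (2 : ℝ) ^ 30 ≤ X ^ (ε / 64) := by
    calc (2 : ℝ) ^ 30 = ((2 : ℝ) ^ (64 / ε * 30)) ^ (ε / 64) := by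
          rw [← Real.rpow_mul (by norm_num), ← Real.rpow_natCast]
          congr 1
          push_cast
          field_simp
      _ ≤ X ^ (ε / 64) := Real.rpow_le_rpow (by positivity) hXX₄ (by positivity)
  -- the parameters
  have hSq : Sq5 A d (dn q.1) q.2 := by
    have hdom := hF.dom
    unfold SqL DomL at hdom
    exact hdom.1
  have hκ0 : 0 < cκ (dn q.1) := by have := hSq.κ0; linarith
  have hκ1 : cκ (dn q.1) ≤ 1 := hSq.κ1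
  obtain ⟨κ₀, hκ₀⟩ : ∃ κ₀ : ℝ, κ₀ = cκ (dn q.1) := ⟨_, rfl⟩
  rw [← hκ₀] at hN hok hXHB hBd hκ0 hκ1
  have hδ2 : δ ≤ 1 / 2 := hδ.trans hηb
  obtain ⟨-, SD0⟩ := HS X hXX₂ a ps q δ (min δ₁ 1) hδ2 (min_le_right _ _) hF ha hlam haP
  have SD := SD0 x (hx.mono hX1.le (by linarith)) h₁ h₂
  have hT2 := HT2 X hXX₁ δ ε' (hδ.trans hηa) (hε'.trans hηa) a ps q
    (hF.mono hX1.le le_rfl (min_le_left _ _)) ha hlam haP x hx z' (by rw [← hκ₀]; exact hok)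
    (by rw [← hκ₀]; exact hN.v.trans hηa) (by rw [← hκ₀]; exact hN.β.trans hηa)
    (by rw [← hκ₀]; exact hN.s.trans hηa) β
  rw [← hκ₀] at hT2
  -- the block
  have hOc' : Oc = 𝒥.image fun t => t.o := by
    ext o
    rw [hOc, mem_image]
  have hn : (π lam.1).n₃ ≠ 0 := (hP lam.1).χ₃.q0
  have h𝒥' : ∀ t ∈ 𝒥, Facts (π lam.1).n₃ t ∧ t.OK (π lam.1).n₃ 1 ∧ t.In lD c ∧ pf t = P ∧
      bo3 t = β ∧ kl (x.g * x.e₀ * x.t) t.k = τ.1 ∧ IsCoprime (t.R * t.R') t.o.1.1 := by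
    intro t ht
    obtain ⟨g1, g2, g3, g4, g5, g6⟩ := h𝒥 t ht
    have hFt := E4RH858.facts SD.dat g1 g2
    refine ⟨hFt, g1, g3, g4, g5, ?_, cop_RS hJf ha haP hn hx hFt g2⟩
    rw [← g6]
    rfl
  have hk1 := k_le_one hok hky
  have hkt : (nm t.k : ℝ) ≤ X ^ (2 : ℝ) := by
    obtain ⟨g1, -⟩ := h𝒥 t ht
    have hk0 : (0 : ℝ) < nm t.k := by exact_mod_cast nm_pos.mpr g1.sk.ne_zero
    have e1 := (abs_le.mp hN.k).1
    have e2 : lg t.k / (κ₀ * Real.log X) ≤ 2 := by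
      have e3 : (StrD699.zT (κ₀ * Real.log X) a.2 x (fN (π lam.1).n₃ (x.E a.1)) t
        f1 f2 D1' l' m 0).k = lg t.k / (κ₀ * Real.log X) := rfl
      rw [e3] at e1
      linarith
    rw [div_le_iff₀ (by positivity)] at e2
    have e4 : Real.log (nm t.k) ≤ 2 * Real.log X := by
      have : κ₀ * Real.log X ≤ Real.log X := by nlinarith
      have e5 : lg t.k = Real.log (nm t.k) := rfl
      linarith
    rw [← Real.log_le_log_iff hk0 (by positivity), Real.log_rpow hX0]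
    exact e4
  have hkk : ∀ t'' ∈ 𝒥, (nm t''.k : ℝ) ≤ X ^ Bb := by
    intro t'' ht''
    obtain ⟨-, -, w1, -⟩ := h𝒥 t ht
    obtain ⟨-, -, w2, -⟩ := h𝒥 t'' ht''
    have e1 := w2.hkk.2
    have e2 := w1.hkk.1
    have e3 : (nm t''.k : ℝ) ≤ 2 * nm t.k := by
      rw [pow_succ] at e1
      linarith
    calc (nm t''.k : ℝ) ≤ 2 * nm t.k := e3
      _ ≤ X * X ^ (2 : ℝ) := by gcongr
      _ = X ^ (3 : ℝ) := by
          nth_rewrite 1 [← Real.rpow_one X]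
          rw [← Real.rpow_add hX0]
          norm_num
      _ ≤ X ^ Bb := Real.rpow_le_rpow_of_exponent_le hX1.le hBb3
  have hll : ∀ t'' ∈ 𝒥, lD t''.o ≤ X ^ Bb := fun t'' _ =>
    ((SD.dat.lam1 t''.o).2).trans (Real.rpow_le_rpow_of_exponent_le hX1.le hBbA)
  have hii : (2 : ℝ) ^ a.2 ≤ X ^ Bb := by
    have hFr := E4Us512.fr_of_frL hA hδ2 hX1 hF ha haP hBb1 hBb3
    have e1 := hFr.lv
    rw [← Real.log_le_log_iff (by positivity) (by positivity), Real.log_pow, Real.log_rpow hX0]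
    linarith
  -- the twist
  obtain ⟨M', hM'⟩ : ∃ M' : Eis, HC M' tt.1 := by
    rcases hT tt htt with h1 | ⟨⟨M', -, -, -, h1⟩, -⟩
    · rw [h1]
      exact ⟨_, End699.hc_prin0 (hP lam.1).χ₃.q0 (hP lam.1).χ₃.three⟩
    · exact ⟨M', h1⟩
  have hcong : ∀ (nkk : ℕ) (Pk : Eis → Prop) (D b : Eis) (H : x.O π lam Jf a → Eis → ℝ),
      XMo (π lam.1).n₃ (x.v π h lam Jf a) G P Oc nkk Pk D b H =
        XMo (π lam.1).n₃ (x.v π h lam Jf a) (E4J352.gx tt.1 tt.2 ξ) P Oc nkk Pk D b H := by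
    intro nkk Pk D b H
    obtain ⟨hFt, -, -, hpf, -⟩ := h𝒥' t ht
    refine xmo_congr ?_ (fun o y hy => (SD.dat.hv o).sm y hy) hG Oc nkk Pk D b H
    rw [← hpf]
    exact hFt.pR.1.mul hFt.pR'.1
  -- the `T`-numbers
  obtain ⟨t₀, ht₀⟩ : ∃ t₀ : ℝ, t₀ = tEx κ₀ d z' (cN (dn q.1) / κ₀) (cu (dn q.1) 4 / κ₀) := ⟨_, rfl⟩
  rw [← ht₀] at hT2
  have h12 : 12 * κ₀ * η ≤ ε / 64 := by nlinarith
  have hT0 : TWa (xJB Jf a x β) (omL a.2) (alb (f3 (π lam.1) h lam.2 a.1) x.β) x.e₀ 1 0 ≤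
      X ^ (t₀ + ε / 16) :=
    hT2.1.trans (Real.rpow_le_rpow_of_exponent_le hX1.le (by linarith))
  have hLg : κ₀ * Real.log X ≠ 0 := (mul_pos hκ0 hL0).ne'
  have hT1 : min (TWa (xJB Jf a x β) (omL a.2) (alb (f3 (π lam.1) h lam.2 a.1) x.β) x.e₀ 1 1)
      (√(2 ^ 27 * (2 * 2 ^ a.2 * 8 ^ x.nS / 8 ^ x.nE) / (2 ^ c.nlam : ℝ) ^ 2 /
        (nm (P.R * P.R') * 2 ^ (x.m 0 0 + x.m 1 2))) *
        TWa (xJB Jf a x β) (omL a.2) (alb (f3 (π lam.1) h lam.2 a.1) x.β) x.e₀ 1 0) ≤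
      X ^ (t₀ + κ₀ * z'.d0 (cN (dn q.1) / κ₀) (cu (dn q.1) 4 / κ₀) + ε / 16) := by
    rcases hT2.2 with h1 | h1
    · exact (min_le_left _ _).trans (h1.trans (Real.rpow_le_rpow_of_exponent_le hX1.le
        (by linarith)))
    · refine (min_le_right _ _).trans ?_
      obtain ⟨hFt, g1, g3, hpf, -⟩ := h𝒥' t ht
      obtain ⟨w1, w2, w3⟩ := win_of hJf ha haP hx g3 g1.sk.ne_zero
      have hRP : IsPrim (P.R * P.R') := by
        rw [← hpf]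
        exact hFt.pR.1.mul hFt.pR'.1
      have hnP : (0 : ℝ) < nm (P.R * P.R') := by exact_mod_cast nm_pos.mpr hRP.ne_zero
      have e1 := dm_le hX1 hκ0.le h12
        (zf_tr hJf ha haP hx hLg t (fN (π lam.1).n₃ (x.E a.1)) f1 f2 D1' l' m 0)
        (nr_of_near hN) hnP (lgR_of hFt hpf) w2 h30
      refine (mul_le_mul e1 hT2.1 (TWa_nonneg _ _ _ _ _ _) (by positivity)).trans ?_
      rw [← Real.rpow_add hX0]
      refine Real.rpow_le_rpow_of_exponent_le hX1.le ?_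
      have := mul_le_mul_of_nonneg_left h1 hκ0.le
      linarith
  have key := HX X hXX₃ lam Jf hJf a x Bf e0 r ε' hx ha haP
    (alb (f3 (π lam.1) h lam.2 a.1) x.β) (hP lam.1).χ₃.conj (E4J352.gx tt.1 tt.2 ξ)
    (fun y hy => gx_le hM' _ _ hy) c P β τ.1 𝒥 h𝒥' hkk hll hii t ht κ₀ η
    (fN (π lam.1).n₃ (x.E a.1)) f1 f2 D1' l' m 0 z' hκ0 hη.le (by linarith) hN
    (κ₀ * z'.d0 (cN (dn q.1) / κ₀) (cu (dn q.1) 4 / κ₀)) t₀ mx ex hmx (by linarith) hXHB hT0 hT1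
  rw [← vG_v, ← hOc'] at key
  have hpD : IsPrim t'.D1 := (h𝒥 t' ht').1.pD1
  have hpb : IsPrim (E4RH858.b1 t') := (h𝒥' t' ht').1.sb1.prim
  have eBd : X ^ (κ₀ * (z'.k + (2 * z'.lam - z'.us / 3)) + t₀ + ex + ε) = Bd := by
    rw [hBd, pow_zero, one_pow, one_mul, ht₀]
    congr 1
    unfold tEx StrD699.Vx
    ring
  rw [eBd] at key
  refine ⟨fun _ => ?_, fun bm hbm => ?_⟩
  · rw [hcong]
    exact key.1 t'.D1 (E4RH858.b1 t') hpD hpb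
  · rw [hcong]
    refine key.2 t'.D1 (E4RH858.b1 t') hpD hpb bm fun o ho => ?_
    refine natS_mono (by linarith) ?_ (by positivity) ?_ (hbm o ho)
    · refine hBm.trans (Real.rpow_le_rpow_of_exponent_le hX1.le ?_)
      linarith
    · exact Real.rpow_le_rpow_of_exponent_le hX1.le (by linarith)

/-- a larger tolerance -/
lemma near_mono {δ δ₁ : ℝ} {z z' : Cls} (h : Nm918.Near δ z z') (h1 : δ ≤ δ₁) :
    Nm918.Near δ₁ z z' := by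
  obtain ⟨a1, a2, a3, a4, a5, a6, a7, a8, a9, a10, a11, a12, a13, a14, a15, a16, a17, a18, a19,
    a20, a21, a22, a23, a24, a25, a26, a27, a28, a29⟩ := h
  constructor <;> linarith

/-- **two closers** -/
theorem xnumC_or {Λ : Type*} {π : Λ → DPar} {h : ℝ → ℝ}
    {C₁ C₂ : ℝ → Cls → ℝ → ℝ → ℝ → ℝ → ℝ → Prop} {A d e0 r : ℝ} {Bf : ℝ → ℝ → ℝ → ℝ}
    {Jf : ℝ → ℝ → ℝ → Finset (Eis × Eis)} (H₁ : XNumC π h C₁ A d e0 r Bf Jf)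
    (H₂ : XNumC π h C₂ A d e0 r Bf Jf) :
    XNumC π h (fun κ z d N u x ex => C₁ κ z d N u x ex ∨ C₂ κ z d N u x ex) A d e0 r Bf Jf := by
  intro ε hε
  obtain ⟨η₁, hη₁, K₁⟩ := H₁ ε hε
  obtain ⟨η₂, hη₂, K₂⟩ := H₂ ε hε
  refine ⟨min η₁ η₂, lt_min hη₁ hη₂, ?_⟩
  intro lam N B T hD hT
  obtain ⟨M₁, δ₁, hδ₁, X₁, hX₁, L₁⟩ := K₁ lam N B T hD hT
  obtain ⟨M₂, δ₂, hδ₂, X₂, hX₂, L₂⟩ := K₂ lam N B T hD hT
  refine ⟨max M₁ M₂, min δ₁ δ₂, lt_min hδ₁ hδ₂, max X₁ X₂, lt_max_of_lt_left hX₁, ?_⟩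
  intro X hXX δ ε' hδ hε' a ps q hF ha hlam haP x hx h₁ h₂ tt htt ξ G hG c P β τ 𝒥 h𝒥 Oc hOc t ht
    f1 f2 f3' D1' Z'' l' m hS z' mx ex hN hok hky hmx hmx2 hC t' ht' Bm hBm1 hBm Bd hBd
  have hXX₁ : X₁ ≤ X := (le_max_left _ _).trans hXX
  have hXX₂ : X₂ ≤ X := (le_max_right _ _).trans hXX
  have hX1 : 1 < X := hX₁.trans_le hXX₁
  have hX0 : 0 < X := by linarith
  have hξ : 1 ≤ 1 + |ξ| := by
    have := abs_nonneg ξ
    linarith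
  have hmono : ∀ {η : ℝ}, min η₁ η₂ ≤ η → ∀ {bm : Eis → ℂ}, NatS Bm (X ^ min η₁ η₂ * Bm) bm →
      NatS Bm (X ^ η * Bm) bm := fun {η} h1 {bm} h2 =>
    natS_mono (by linarith) le_rfl (by positivity)
      (Real.rpow_le_rpow_of_exponent_le hX1.le h1) h2
  have hBdm : ∀ {M' : ℕ}, M' ≤ max M₁ M₂ → ∀ E : ℝ,
      ((1 + |ξ|) ^ M') ^ 2 * X ^ E ≤ ((1 + |ξ|) ^ max M₁ M₂) ^ 2 * X ^ E := fun {M'} h1 E => by
    have h2 := pow_le_pow_right₀ hξ h1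
    have h3 : (0 : ℝ) ≤ (1 + |ξ|) ^ M' := by positivity
    gcongr
  rcases hC with hC | hC
  · have key := L₁ X hXX₁ δ ε' (hδ.trans (min_le_left _ _)) (hε'.trans (min_le_left _ _)) a ps q
      (hF.mono hX1.le le_rfl (min_le_left _ _)) ha hlam haP x hx h₁ h₂ tt htt ξ G hG c P β τ 𝒥 h𝒥
      Oc hOc t ht f1 f2 f3' D1' Z'' l' m hS z' mx ex (near_mono hN (min_le_left _ _)) hok hky hmx
      hmx2 hC t' ht' Bm hBm1 (hBm.trans (Real.rpow_le_rpow_of_exponent_le hX1.le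
        (by linarith [min_le_left η₁ η₂]))) _ rfl
    have hle := hBdm (le_max_left M₁ M₂) (cκ (dn q.1) * (z'.k + 2 * z'.lam) +
        (cκ (dn q.1) * StrD699.Vx z' (cN (dn q.1) / cκ (dn q.1)) (cu (dn q.1) 4 / cκ (dn q.1)) +
          cκ (dn q.1) * (2 / 3 * d * z'.N1 (cN (dn q.1) / cκ (dn q.1))) + ex + ε))
    rw [← hBd] at hle
    exact ⟨fun h0 => (key.1 h0).trans hle,
      fun bm hbm => (key.2 bm fun o ho => hmono (min_le_left _ _) (hbm o ho)).trans hle⟩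
  · have key := L₂ X hXX₂ δ ε' (hδ.trans (min_le_right _ _)) (hε'.trans (min_le_right _ _)) a ps q
      (hF.mono hX1.le le_rfl (min_le_right _ _)) ha hlam haP x hx h₁ h₂ tt htt ξ G hG c P β τ 𝒥 h𝒥
      Oc hOc t ht f1 f2 f3' D1' Z'' l' m hS z' mx ex (near_mono hN (min_le_right _ _)) hok hky hmx
      hmx2 hC t' ht' Bm hBm1 (hBm.trans (Real.rpow_le_rpow_of_exponent_le hX1.le
        (by linarith [min_le_right η₁ η₂]))) _ rfl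
    have hle := hBdm (le_max_right M₁ M₂) (cκ (dn q.1) * (z'.k + 2 * z'.lam) +
        (cκ (dn q.1) * StrD699.Vx z' (cN (dn q.1) / cκ (dn q.1)) (cu (dn q.1) 4 / cκ (dn q.1)) +
          cκ (dn q.1) * (2 / 3 * d * z'.N1 (cN (dn q.1) / cκ (dn q.1))) + ex + ε))
    rw [← hBd] at hle
    exact ⟨fun h0 => (key.1 h0).trans hle,
      fun bm hbm => (key.2 bm fun o ho => hmono (min_le_right _ _) (hbm o ho)).trans hle⟩

/-- **`XNumU` from the three closers** -/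
theorem xnumC_ClX {Λ : Type*} {π : Λ → DPar} {h : ℝ → ℝ} {A d e0 r : ℝ} {Bf : ℝ → ℝ → ℝ → ℝ}
    {Jf : ℝ → ℝ → ℝ → Finset (Eis × Eis)} (H₁ : XNumC π h HBc A d e0 r Bf Jf)
    (H₂ : XNumC π h LTc A d e0 r Bf Jf) (H₃ : XNumC π h PVc A d e0 r Bf Jf) :
    XNumC π h Hg918.ClX A d e0 r Bf Jf :=
  xnumC_or H₁ (xnumC_or H₂ H₃)

end Crest.Agent.R017.XHn512
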