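import Crest.Agent.R017.XHeX_266
import Crest.Agent.R017.E4Re_918

/-!
# Row 17, StrUX: the `T`-numbers of the large sieve half, class E: the statement (helper266)

* `tExE` : exponent, helper918's `tE`;  `TNumEX` : the `T`-numbers of the `x`-side
-/

set_option autoImplicit false

noncomputable section

open Complex Finset
open scoped ComplexConjugate

namespace Crest.Agent.R017.E4SE266

open Crest.Agent.R012 Crest.Agent.R012.Eis
open Crest.Agent.R012.Mob705 hiding pb mem_pb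
open Crest.Agent.R012.LS2 (mem_S)
open Crest.Agent.R017.Sx545 (Sm)
open Crest.Agent.R017.CM106 (FS CS)
open Crest.Agent.R017.FE47 (PU SM)
open Crest.Agent.R017.C70 (OKJ)
open Crest.Agent.R017.End699 (HC)
open Crest.Agent.R017.B770
open Crest.Agent.R017.Prov71
open Crest.Agent.R017.E4352 (PrI Dat4 rd SSm tws)
open Crest.Agent.R017.E4o502 (vD)
open Crest.Agent.R017.E5B71
open Crest.Agent.R017.E5L770
open Crest.Agent.R017.E5LX770 (SqLX)
open Crest.Agent.R017.ExP960 hiding alX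
open Crest.Agent.R017.E5k54 (alb)
open Crest.Agent.R017.E4D164 hiding E4L
open Crest.Agent.R017.E4J352 hiding Win
open Crest.Agent.R017.E4U164
open Crest.Agent.R017.E4Df372
open Crest.Agent.R017.E4R70
open Crest.Agent.R017.E4RH858 (Pf pf Facts kl)
open Crest.Agent.R017.E4Dic352
open Crest.Agent.R017.E4St352
open Crest.Agent.R017.JxG679 (vD_ne)
open Crest.Agent.R017.JxL679 (NatS)
open Crest.Agent.R017.JxP679
open Crest.Agent.R017.XSd512 (XMo)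
open Crest.Agent.R017.YsU61 (TwOK)
open Crest.Agent.R017.EnX743 (TWa xJB)
open Crest.Agent.R017.Str699 (nu0)
open Crest.Agent.R017.XHn512

/-- exponent of the `T`-number of the `x`-side, class E -/
def tExE (κ d : ℝ) (z : Cls) (N u : ℝ) : ℝ :=
  κ * (z.tE N u + 2 / 3 * d * z.N1 N - (z.v + (N - z.β)) / 3)

section num

variable {Λ : Type*} (π : Λ → DPar) (h : ℝ → ℝ)

/-- **the `T`-numbers of the `x`-side** (class E, helper918's `tE`) : weights `1` and `nm y.1` -/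
def TNumEX (A d bb e0 r : ℝ)
    (Bf : ℕ → ℝ → ℝ → ℝ → ℝ) (Jf : ℝ → ℝ → ℝ → Finset (Eis × Eis)) : Prop :=
  ∀ ε : ℝ, 0 < ε → ∃ η : ℝ, 0 < η ∧
    ∀ (lam : Λ × Eis) (N : ℕ) (B : ℝ), ¬ (π lam.1).CaseD →
    ∃ δ' : ℝ, 0 < δ' ∧ ∃ X₀ : ℝ, 1 < X₀ ∧ ∀ X : ℝ, X₀ ≤ X → ∀ δ ε' : ℝ, δ ≤ η → ε' ≤ η →
    ∀ (a : BdX × ℕ) (ps : List Pq) (q : (Option IX5 → ℝ) × (Kd → ℝ)),
      FrLX A d bb δ δ' B X N a ps q → a.1.ok → lam.2 ∈ SM (π lam.1).n → a.1.okP (π lam.1) →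
    ∀ x : Dt, x.OK (π lam.1) (Bf a.2) e0 r ε' X a.1.toBd → XLowX d X q x →
      (x.I Jf (bl a)).Nonempty → ∀ z' : Cls,
      z'.Ok d (1 / cκ (prX (dn q.1))) (cN (prX (dn q.1)) / cκ (prX (dn q.1))) (cM (prX (dn q.1)) / cκ (prX (dn q.1)))
        (q.2 .mo / cκ (prX (dn q.1))) (q.2 .am / cκ (prX (dn q.1))) (cx' (prX (dn q.1)) / cκ (prX (dn q.1))) →
      |z'.v - Real.log 2 * a.2 / (cκ (prX (dn q.1)) * Real.log X)| ≤ η →
      |z'.β - lg (∏ i, x.β i) / (cκ (prX (dn q.1)) * Real.log X)| ≤ η →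
      |z'.s - lg x.e₀ / (cκ (prX (dn q.1)) * Real.log X)| ≤ η → ∀ b₀ : Eis,
      TWa (xJB Jf (bl a) x b₀) (omL a.2) (alX (π lam.1) h lam.2 a.1 x.β) x.e₀ 1 0 ≤
        X ^ (tExE (cκ (prX (dn q.1))) d z' (cN (prX (dn q.1)) / cκ (prX (dn q.1))) (cu (prX (dn q.1)) 4 / cκ (prX (dn q.1))) +
          ε) ∧
      (TWa (xJB Jf (bl a) x b₀) (omL a.2) (alX (π lam.1) h lam.2 a.1 x.β) x.e₀ 1 1 ≤
        X ^ (tExE (cκ (prX (dn q.1))) d z' (cN (prX (dn q.1)) / cκ (prX (dn q.1))) (cu (prX (dn q.1)) 4 / cκ (prX (dn q.1))) +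
          cκ (prX (dn q.1)) * z'.d0E (cN (prX (dn q.1)) / cκ (prX (dn q.1))) (cu (prX (dn q.1)) 4 / cκ (prX (dn q.1))) + ε) ∨
        z'.v1 / 2 ≤ z'.d0E (cN (prX (dn q.1)) / cκ (prX (dn q.1))) (cu (prX (dn q.1)) 4 / cκ (prX (dn q.1))))

end num

end Crest.Agent.R017.E4SE266
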