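import Crest.Agent.R017.EnC_743
import Crest.Agent.R017.JxR_679
import Crest.Agent.R017.E4Rd_70

/-!
# Row 17, C70/E4 (version 7), the `x`-side in the large sieve range: the number (helper512)

* `xhb_core` : the three terms of helper679's `Qdm` at two `T`-numbers, in exponents
* `xhb_sum` : the sum over the square part `δ`
* `xhb_X` : the same from helper918's / helper70's `XHB` with a tolerance `τ`, base `X`
-/

set_option autoImplicit false

noncomputable section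

open Complex Finset
open scoped ComplexConjugate

namespace Crest.Agent.R017.XHn512

open Crest.Agent.R012 Crest.Agent.R012.Eis
open Crest.Agent.R017.JxS679

/-- **the number of the large sieve range** : `k = log K`, `b` the moved mass, `s = log s₁`,
`v` the length divided by `σ`, `c = log (σ/σ')`, `t`, `t + d` the two `T`-numbers -/
theorem xhb_core {k b s v c t d ex cV : ℝ} (hcV : 1 ≤ cV) (h1 : b + d - s ≤ ex)
    (h2 : b + (v + min (c + s) (k / 2) + b - k) ≤ ex) (h3 : 3 * b + (2 * (v + b) - k - s) ≤ 3 * ex)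
    {K' Vp σ σ' s₁ Tk T0 : ℝ} (hK0 : 0 ≤ K') (hK : K' ≤ 2 * Real.exp k) (hs : s₁ = Real.exp s)
    (hσ' : 0 < σ') (hσ : σ = σ' * Real.exp c) (hVp0 : 0 ≤ Vp)
    (hVp : Vp ≤ cV * (Real.exp v * σ)) (hTk0 : 0 ≤ Tk) (hTk : Tk ≤ Real.exp (t + d))
    (hT0 : 0 ≤ T0) (hT0' : T0 ≤ Real.exp t) :
    (Real.exp k)⁻¹ * Real.exp b * (K' / s₁ * Tk +
      (Vp * Real.exp b * min (s₁ / σ') (√K' / σ) +
        (K' * (Vp * Real.exp b / σ)) ^ ((2 : ℝ) / 3) / s₁ ^ ((1 : ℝ) / 3)) * T0) ≤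
      6 * cV * Real.exp (t + ex) := by
  have hcV0 : 0 < cV := by linarith
  have hσ0 : 0 < σ := by rw [hσ]; positivity
  have hs0 : 0 < s₁ := by rw [hs]; positivity
  -- the first term
  have t1 : (Real.exp k)⁻¹ * Real.exp b * (K' / s₁ * Tk) ≤ 2 * Real.exp (t + ex) := by
    calc (Real.exp k)⁻¹ * Real.exp b * (K' / s₁ * Tk)
        ≤ (Real.exp k)⁻¹ * Real.exp b * (2 * Real.exp k / s₁ * Real.exp (t + d)) := by gcongr
      _ = 2 * Real.exp (t + (b + d - s)) := by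
          rw [hs, show t + (b + d - s) = b + (t + d) - s by ring, Real.exp_sub,
            Real.exp_add b (t + d)]
          field_simp
      _ ≤ _ := by
          refine mul_le_mul_of_nonneg_left (Real.exp_le_exp.2 (by linarith)) (by norm_num)
  -- the second term
  have t2 : (Real.exp k)⁻¹ * Real.exp b * (Vp * Real.exp b * min (s₁ / σ') (√K' / σ) * T0) ≤
      2 * cV * Real.exp (t + ex) := by
    have m1 : σ * min (s₁ / σ') (√K' / σ) ≤ 2 * Real.exp (min (c + s) (k / 2)) := by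
      rw [mul_min_of_nonneg _ _ hσ0.le]
      have e1 : σ * (s₁ / σ') = Real.exp (c + s) := by
        rw [hσ, hs, Real.exp_add]
        field_simp
      have e2 : σ * (√K' / σ) = √K' := by field_simp
      have e3 : √K' ≤ 2 * Real.exp (k / 2) := by
        rw [Real.sqrt_le_left (by positivity)]
        calc K' ≤ 2 * Real.exp k := hK
          _ ≤ 4 * Real.exp k := by nlinarith [Real.exp_pos k]
          _ = (2 * Real.exp (k / 2)) ^ 2 := by
              rw [mul_pow, ← Real.exp_nat_mul]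
              have : ((2 : ℕ) : ℝ) * (k / 2) = k := by push_cast; ring
              rw [this]
              norm_num
      rw [e1, e2]
      rcases le_total (c + s) (k / 2) with h | h
      · rw [min_eq_left h]
        refine (min_le_left _ _).trans ?_
        nlinarith [Real.exp_pos (c + s)]
      · rw [min_eq_right h]
        exact (min_le_right _ _).trans e3
    have m0 : 0 ≤ min (s₁ / σ') (√K' / σ) := le_min (by positivity) (by positivity)
    calc (Real.exp k)⁻¹ * Real.exp b * (Vp * Real.exp b * min (s₁ / σ') (√K' / σ) * T0)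
        ≤ (Real.exp k)⁻¹ * Real.exp b * ((cV * (Real.exp v * σ)) * Real.exp b *
            min (s₁ / σ') (√K' / σ) * Real.exp t) := by gcongr
      _ = (Real.exp k)⁻¹ * Real.exp b * (cV * Real.exp v * Real.exp b * Real.exp t) *
            (σ * min (s₁ / σ') (√K' / σ)) := by ring
      _ ≤ (Real.exp k)⁻¹ * Real.exp b * (cV * Real.exp v * Real.exp b * Real.exp t) *
            (2 * Real.exp (min (c + s) (k / 2))) := by gcongr
      _ = 2 * cV * Real.exp (t + (b + (v + min (c + s) (k / 2) + b - k))) := by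
          rw [show t + (b + (v + min (c + s) (k / 2) + b - k)) =
            t + (b + (v + (min (c + s) (k / 2) + b))) - k by ring, Real.exp_sub, Real.exp_add,
            Real.exp_add, Real.exp_add, Real.exp_add]
          field_simp
      _ ≤ _ := by
          refine mul_le_mul_of_nonneg_left (Real.exp_le_exp.2 (by linarith)) (by positivity)
  -- the third term
  have t3 : (Real.exp k)⁻¹ * Real.exp b *
      ((K' * (Vp * Real.exp b / σ)) ^ ((2 : ℝ) / 3) / s₁ ^ ((1 : ℝ) / 3) * T0) ≤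
      2 * cV * Real.exp (t + ex) := by
    have m1 : K' * (Vp * Real.exp b / σ) ≤ 2 * cV * Real.exp (k + (v + b)) := by
      calc K' * (Vp * Real.exp b / σ) ≤
          (2 * Real.exp k) * ((cV * (Real.exp v * σ)) * Real.exp b / σ) := by gcongr
        _ = 2 * cV * Real.exp (k + (v + b)) := by
            rw [Real.exp_add, Real.exp_add]
            field_simp
    have m2 : (K' * (Vp * Real.exp b / σ)) ^ ((2 : ℝ) / 3) ≤
        2 * cV * Real.exp (2 / 3 * (k + (v + b))) := by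
      have m0 : 0 ≤ K' * (Vp * Real.exp b / σ) := by positivity
      refine (Real.rpow_le_rpow m0 m1 (by norm_num)).trans ?_
      rw [Real.mul_rpow (by positivity) (Real.exp_pos _).le, ← Real.exp_mul]
      have e1 : (2 * cV) ^ ((2 : ℝ) / 3) ≤ 2 * cV := by
        have : 1 ≤ 2 * cV := by linarith
        calc (2 * cV) ^ ((2 : ℝ) / 3) ≤ (2 * cV) ^ (1 : ℝ) :=
              Real.rpow_le_rpow_of_exponent_le this (by norm_num)
          _ = 2 * cV := Real.rpow_one _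
      have e2 : (k + (v + b)) * ((2 : ℝ) / 3) = 2 / 3 * (k + (v + b)) := by ring
      rw [e2]
      exact mul_le_mul_of_nonneg_right e1 (Real.exp_pos _).le
    have m3 : s₁ ^ ((1 : ℝ) / 3) = Real.exp (s / 3) := by
      rw [hs, ← Real.exp_mul]
      congr 1
      ring
    rw [m3]
    calc (Real.exp k)⁻¹ * Real.exp b *
        ((K' * (Vp * Real.exp b / σ)) ^ ((2 : ℝ) / 3) / Real.exp (s / 3) * T0)
        ≤ (Real.exp k)⁻¹ * Real.exp b *
          (2 * cV * Real.exp (2 / 3 * (k + (v + b))) / Real.exp (s / 3) * Real.exp t) := by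
          gcongr
      _ = 2 * cV * Real.exp (t + (3 * b + (2 * (v + b) - k - s)) / 3) := by
          rw [show t + (3 * b + (2 * (v + b) - k - s)) / 3 =
            t + (b + 2 / 3 * (k + (v + b))) - (k + s / 3) by ring, Real.exp_sub, Real.exp_add,
            Real.exp_add, Real.exp_add k]
          field_simp
      _ ≤ _ := by
          refine mul_le_mul_of_nonneg_left (Real.exp_le_exp.2 (by linarith)) (by positivity)
  have e := Real.exp_pos (t + ex)
  calc _ = (Real.exp k)⁻¹ * Real.exp b * (K' / s₁ * Tk) +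
        (Real.exp k)⁻¹ * Real.exp b * (Vp * Real.exp b * min (s₁ / σ') (√K' / σ) * T0) +
        (Real.exp k)⁻¹ * Real.exp b *
          ((K' * (Vp * Real.exp b / σ)) ^ ((2 : ℝ) / 3) / s₁ ^ ((1 : ℝ) / 3) * T0) := by ring
    _ ≤ 2 * Real.exp (t + ex) + 2 * cV * Real.exp (t + ex) + 2 * cV * Real.exp (t + ex) :=
        add_le_add (add_le_add t1 t2) t3
    _ ≤ _ := by nlinarith

/-! ### the sum over the square part -/

lemma Qdm_eq {K V B σ σ' s₁ d : ℝ} (hK : 0 ≤ K) (hV : 0 ≤ V) (hB : 0 ≤ B) (hσ : 0 < σ)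
    (hd : 0 < d) : Qdm K V B σ σ' s₁ d = K / s₁ + V * B * min (s₁ / σ') (√K / σ) / d ^ 2 +
      (K * (V * B / σ)) ^ ((2 : ℝ) / 3) / s₁ ^ ((1 : ℝ) / 3) / d ^ ((4 : ℝ) / 3) := by
  unfold Qdm
  have e1 : K * (V * B / (σ * d ^ 2)) = K * (V * B / σ) / d ^ 2 := by field_simp
  have e2 : (d ^ 2) ^ ((2 : ℝ) / 3) = d ^ ((4 : ℝ) / 3) := by
    rw [← Real.rpow_natCast d 2, ← Real.rpow_mul hd.le]
    norm_num
  rw [e1, Real.div_rpow (by positivity) (by positivity), e2]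
  ring

/-- **the moment in exponents**, abstract form : `F δ` the energy at the square part `δ`,
`Ec` the class constant, `Tk`, `T0` the two `T`-numbers -/
theorem xhb_sum {D : Finset Eis} (hD : ∀ δ ∈ D, IsPrim δ) {F : Eis → ℝ} {Ec T Tk T0 : ℝ}
    (hE : ∀ A₁ A₂ A₃ : ℝ, 0 ≤ A₁ → 0 ≤ A₂ → 0 ≤ A₃ →
      ∑ δ ∈ D, (nm δ : ℝ) * (A₁ + A₂ / (nm δ : ℝ) ^ 2 + A₃ / (nm δ : ℝ) ^ ((4 : ℝ) / 3)) * F δ ≤
        Ec * (T * (A₁ * Tk + (A₂ + A₃) * T0)))
    {k b s v c t d ex cV : ℝ} (hcV : 1 ≤ cV) (h1 : b + d - s ≤ ex)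
    (h2 : b + (v + min (c + s) (k / 2) + b - k) ≤ ex) (h3 : 3 * b + (2 * (v + b) - k - s) ≤ 3 * ex)
    {K' Vp σ σ' s₁ : ℝ} (hK0 : 0 ≤ K') (hK : K' ≤ 2 * Real.exp k) (hs : s₁ = Real.exp s)
    (hσ' : 0 < σ') (hσ : σ = σ' * Real.exp c) (hVp0 : 0 ≤ Vp)
    (hVp : Vp ≤ cV * (Real.exp v * σ)) (hTk0 : 0 ≤ Tk) (hTk : Tk ≤ Real.exp (t + d))
    (hT0 : 0 ≤ T0) (hT0' : T0 ≤ Real.exp t) (hEc : 0 ≤ Ec) (hT : 0 ≤ T) :
    Real.exp b * ∑ δ ∈ D, (nm δ : ℝ) * Qdm K' Vp (Real.exp b) σ σ' s₁ (nm δ) * F δ ≤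
      Ec * T * (6 * cV * Real.exp (k + t + ex)) := by
  have hσ0 : 0 < σ := by rw [hσ]; positivity
  have hs0 : 0 < s₁ := by rw [hs]; positivity
  have hm : 0 ≤ min (s₁ / σ') (√K' / σ) := le_min (by positivity) (by positivity)
  have e1 : ∑ δ ∈ D, (nm δ : ℝ) * Qdm K' Vp (Real.exp b) σ σ' s₁ (nm δ) * F δ =
      ∑ δ ∈ D, (nm δ : ℝ) * (K' / s₁ + Vp * Real.exp b * min (s₁ / σ') (√K' / σ) /
        (nm δ : ℝ) ^ 2 + (K' * (Vp * Real.exp b / σ)) ^ ((2 : ℝ) / 3) / s₁ ^ ((1 : ℝ) / 3) /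
          (nm δ : ℝ) ^ ((4 : ℝ) / 3)) * F δ := by
    refine sum_congr rfl fun δ hδ => ?_
    have hd : (0 : ℝ) < nm δ := by exact_mod_cast nm_pos.mpr (hD δ hδ).ne_zero
    rw [Qdm_eq hK0 hVp0 (Real.exp_pos _).le hσ0 hd]
  have e2 := hE (K' / s₁) (Vp * Real.exp b * min (s₁ / σ') (√K' / σ))
    ((K' * (Vp * Real.exp b / σ)) ^ ((2 : ℝ) / 3) / s₁ ^ ((1 : ℝ) / 3)) (by positivity)
    (by positivity) (by positivity)
  have e3 := xhb_core hcV h1 h2 h3 hK0 hK hs hσ' hσ hVp0 hVp hTk0 hTk hT0 hT0'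
  rw [e1]
  calc Real.exp b * _ ≤ Real.exp b * (Ec * (T * (K' / s₁ * Tk +
        (Vp * Real.exp b * min (s₁ / σ') (√K' / σ) +
        (K' * (Vp * Real.exp b / σ)) ^ ((2 : ℝ) / 3) / s₁ ^ ((1 : ℝ) / 3)) * T0))) :=
        mul_le_mul_of_nonneg_left e2 (Real.exp_pos _).le
    _ = Ec * T * (Real.exp k * ((Real.exp k)⁻¹ * Real.exp b * (K' / s₁ * Tk +
        (Vp * Real.exp b * min (s₁ / σ') (√K' / σ) +
        (K' * (Vp * Real.exp b / σ)) ^ ((2 : ℝ) / 3) / s₁ ^ ((1 : ℝ) / 3)) * T0))) := by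
        field_simp
    _ ≤ Ec * T * (Real.exp k * (6 * cV * Real.exp (t + ex))) := by gcongr
    _ = _ := by
        rw [show k + t + ex = k + (t + ex) by ring, Real.exp_add k]
        ring

/-- **the moment from `XHB`**, tolerance `τ`, base `X` -/
theorem xhb_X {D : Finset Eis} (hD : ∀ δ ∈ D, IsPrim δ) {F : Eis → ℝ} {Ec T Tk T0 : ℝ}
    (hE : ∀ A₁ A₂ A₃ : ℝ, 0 ≤ A₁ → 0 ≤ A₂ → 0 ≤ A₃ →
      ∑ δ ∈ D, (nm δ : ℝ) * (A₁ + A₂ / (nm δ : ℝ) ^ 2 + A₃ / (nm δ : ℝ) ^ ((4 : ℝ) / 3)) * F δ ≤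
        Ec * (T * (A₁ * Tk + (A₂ + A₃) * T0)))
    {X τ k v1 d0 c12 s1 x ex t cV : ℝ} (hX : 1 < X) (hτ : 0 ≤ τ)
    (H : E4R70.XHB k v1 d0 c12 s1 x ex) (hcV : 1 ≤ cV)
    {K' Vp σ σ' s₁ B : ℝ} (hK0 : 0 ≤ K') (hK : K' ≤ 2 * X ^ (k + τ)) (hs1 : X ^ (s1 - τ) ≤ s₁)
    (hs2 : s₁ ≤ X ^ (s1 + τ)) (hσ' : 0 < σ') (hσ0 : 0 < σ) (hσ : σ ≤ σ' * X ^ (c12 + τ))
    (hVp0 : 0 ≤ Vp) (hVp : Vp ≤ cV * (X ^ (v1 + τ) * σ)) (hB0 : 0 < B) (hB : B ≤ X ^ (x + τ))
    (hTk0 : 0 ≤ Tk) (hTk : Tk ≤ X ^ (t + d0 + τ))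
    (hT0 : 0 ≤ T0) (hT0' : T0 ≤ X ^ (t + τ)) (hEc : 0 ≤ Ec) (hT : 0 ≤ T) :
    B * ∑ δ ∈ D, (nm δ : ℝ) * Qdm K' Vp B σ σ' s₁ (nm δ) * F δ ≤
      Ec * T * (6 * cV * X ^ (k + t + ex + 10 * τ)) := by
  have hX0 : 0 < X := by linarith
  obtain ⟨L, hL⟩ : ∃ L : ℝ, L = Real.log X := ⟨_, rfl⟩
  have hL0 : 0 < L := by rw [hL]; exact Real.log_pos hX
  have eX : ∀ r : ℝ, X ^ r = Real.exp (r * L) := fun r => by
    rw [Real.rpow_def_of_pos hX0, hL, mul_comm]
  have hs₁0 : 0 < s₁ := (Real.rpow_pos_of_pos hX0 _).trans_le hs1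
  obtain ⟨H0, H1, H2, H3⟩ := H
  have hls1 : (s1 - τ) * L ≤ Real.log s₁ := by
    rw [Real.le_log_iff_exp_le hs₁0, ← eX]; exact hs1
  have hls2 : Real.log s₁ ≤ (s1 + τ) * L := by
    rw [Real.log_le_iff_le_exp hs₁0, ← eX]; exact hs2
  have hlc : Real.log (σ / σ') ≤ (c12 + τ) * L := by
    rw [Real.log_le_iff_le_exp (by positivity), ← eX, div_le_iff₀ hσ', mul_comm]
    exact hσ
  have hB' : B = Real.exp (Real.log B) := (Real.exp_log hB0).symm
  have hb : Real.log B ≤ (x + τ) * L := by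
    rw [Real.log_le_iff_le_exp hB0, ← eX]; exact hB
  have hLτ : 0 ≤ τ * L := by positivity
  have key := xhb_sum (b := Real.log B) (k := (k + τ) * L) (s := Real.log s₁)
    (v := (v1 + τ) * L) (c := Real.log (σ / σ')) (t := (t + τ) * L) (d := d0 * L)
    (ex := (ex + 8 * τ) * L) (K' := K') (Vp := Vp) (σ := σ) (σ' := σ') (s₁ := s₁) (cV := cV)
    hD hE hcV
    (by
      have := mul_le_mul_of_nonneg_right H1 hL0.le
      nlinarith)
    (by
      have h5 : min (Real.log (σ / σ') + Real.log s₁) ((k + τ) * L / 2) ≤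
          (c12 + τ) * L + (s1 + τ) * L := (min_le_left _ _).trans (add_le_add hlc hls2)
      have := mul_le_mul_of_nonneg_right H2 hL0.le
      nlinarith)
    (by
      have := mul_le_mul_of_nonneg_right H3 hL0.le
      nlinarith)
    hK0 (by rw [← eX]; exact hK) (Real.exp_log hs₁0).symm hσ'
    (by rw [Real.exp_log (by positivity)]; field_simp) hVp0 (by rw [← eX]; exact hVp) hTk0
    (by
      refine hTk.trans (le_of_eq ?_)
      rw [eX]
      congr 1
      ring) hT0 (by rw [← eX]; exact hT0') hEc hT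
  rw [← hB'] at key
  refine key.trans (le_of_eq ?_)
  rw [eX]
  congr 3
  ring

end Crest.Agent.R017.XHn512
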