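import Crest.Agent.R017.YsP_61
import Crest.Agent.R017.Jy3_61

/-!
# Row 17, C70/E4 v7: the `y`-side with the moved mass chosen (helper61)

* `choose_mv` : choice of the moved pieces of one pattern
* `CS_tP_zero` : a piece with a too long divisor vanishes
* `Nom` : nominal values of a state within a tolerance
* `XSide` : the `x`-side bracket with the moved mass `mx`; the pieces are cut to `n₁ i ≤ z_i + R₁`
* `YT` : the trivial bound of the `y`-side (few frequencies)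
* `ys_choiceT` : `∑ Wx ‖ys‖` from one hypothesis in reals and the `x`-side bracket; the frequency
  `k'' D² β² b~` with `k ν = k'' b0³` is a function of the term
* `ys_choice` : the same without the alternative `YT`

The size lines of the premise have a tolerance `ρ` of their own, chosen after `σ`.
-/

set_option autoImplicit false

noncomputable section

open Complex
open scoped ComplexConjugate

namespace Crest.Agent.R017.YsM61

open Crest.Agent.R012 Crest.Agent.R012.Eis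
open Crest.Agent.R012.PSer47 (IsChar)
open Crest.Agent.R012.LS2 (bl mem_bl)
open Crest.Agent.R017.Sx545 (Sm)
open Crest.Agent.R017.CM106 Crest.Agent.R017.HP842
open Crest.Agent.R017.FE47
open Crest.Agent.R017.End699 (HC prin0)
open Crest.Agent.R017.Sup271 (NPm)
open Crest.Agent.R017.B770
open Crest.Agent.R017.Prov71
open Crest.Agent.R017.Rough381
open Crest.Agent.R017.E4352
open Crest.Agent.R017.E4D164 (ww mulw)
open Crest.Agent.R017.E4J352
open Crest.Agent.R017.E4Yb792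
open Crest.Agent.R017.JyF744
open Crest.Agent.R017.ER911 Crest.Agent.R017.ExpC702
open Crest.Agent.R017.YM61 Crest.Agent.R017.YU61 Crest.Agent.R017.Jy61

/-! ### choice of the moved pieces -/

/-- **choice of the moved set** of one pattern -/
lemma choose_mv {n : ℕ} {zz nn : Fin n → ℝ} {L σ ρ R l₁ wv mx : ℝ} {N : ℕ} (hn : n ≤ N)
    (hL : 0 < L) (hR : 0 ≤ R) (hσ : 0 < σ) (hn0 : ∀ i, 0 ≤ nn i)
    (hshort : ∀ i, zz i / L ≤ σ / 4) (hgood : ∀ i, nn i ≤ zz i + R)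
    (hsum : |∑ i, nn i - l₁| ≤ ρ) (hsmall : ρ + N * R ≤ σ / 16 * L)
    (hw0 : 0 ≤ wv) (hx0 : 0 ≤ mx)
    (ht : |max 0 ((∑ i, zz i - l₁) / L) - (wv + mx)| ≤ σ / 4) :
    ∃ mv : Finset (Fin n), (mx = 0 → mv = ∅) ∧ (∀ i, -σ ≤ (zz i - nn i) / L) ∧
      |(∑ i ∈ mv, (zz i - nn i)) / L - mx| ≤ σ ∧
      |max 0 ((∑ i ∈ mvᶜ, zz i - ∑ i ∈ mvᶜ, nn i) / L) - wv| ≤ σ := by
  classical
  set f : Fin n → ℝ := fun i => (zz i - nn i) / L with hf
  set g : Fin n → ℝ := fun i => max 0 (f i) with hg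
  set T : ℝ := (∑ i, zz i - l₁) / L with hT
  set a : ℝ := σ / 16 with ha
  have ha0 : 0 < a := by positivity
  have hNR : (N : ℝ) * (R / L) ≤ a := by
    rw [mul_div_assoc', div_le_iff₀ hL]
    have : 0 ≤ ρ := (abs_nonneg _).trans hsum
    linarith
  have hρ : ρ / L ≤ a := by
    rw [div_le_iff₀ hL]
    have : 0 ≤ (N : ℝ) * R := by positivity
    linarith
  have hρN : ρ / L + (N : ℝ) * (R / L) ≤ a := by
    rw [mul_div_assoc', ← add_div, div_le_iff₀ hL]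
    exact hsmall
  have hRL : 0 ≤ R / L := by positivity
  have f1 : ∀ i, -(R / L) ≤ f i := by
    intro i
    have := hgood i
    rw [hf, ← neg_div]
    exact div_le_div_of_nonneg_right (by linarith) hL.le
  have f2 : ∀ i, f i ≤ σ / 4 := by
    intro i
    refine le_trans ?_ (hshort i)
    exact div_le_div_of_nonneg_right (by have := hn0 i; linarith) hL.le
  have g1 : ∀ i, f i ≤ g i := fun i => le_max_right _ _
  have g2 : ∀ i, g i ≤ f i + R / L := fun i => max_le (by have := f1 i; linarith) (by linarith)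
  have g3 : ∀ i, g i ≤ σ / 4 := fun i => max_le (by linarith) (f2 i)
  have g0 : ∀ i, 0 ≤ g i := fun i => le_max_left _ _
  have hS : ∑ i, f i = (∑ i, zz i - ∑ i, nn i) / L := by
    rw [hf, ← Finset.sum_div, Finset.sum_sub_distrib]
  obtain ⟨s1, s2⟩ := abs_le.1 hsum
  have hST1 : ∑ i, f i ≤ T + ρ / L := by
    rw [hS, hT, ← add_div]
    exact div_le_div_of_nonneg_right (by linarith) hL.le
  have hST2 : T - ρ / L ≤ ∑ i, f i := by
    rw [hS, hT, ← sub_div]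
    exact div_le_div_of_nonneg_right (by linarith) hL.le
  have hcard : ∀ mv : Finset (Fin n), ((mv.card : ℕ) : ℝ) * (R / L) ≤ (N : ℝ) * (R / L) := by
    intro mv
    refine mul_le_mul_of_nonneg_right ?_ hRL
    exact_mod_cast (Finset.card_le_univ mv).trans (by rw [Fintype.card_fin]; exact hn)
  have hGF : ∀ mv : Finset (Fin n), ∑ i ∈ mv, g i ≤ ∑ i ∈ mv, f i + (N : ℝ) * (R / L) := by
    intro mv
    refine (Finset.sum_le_sum fun i _ => g2 i).trans ?_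
    rw [Finset.sum_add_distrib, Finset.sum_const, nsmul_eq_mul]
    have := hcard mv
    linarith
  have hneg : ∀ i, -σ ≤ (zz i - nn i) / L := by
    intro i
    have h1 := f1 i
    by_cases hN : n = 0
    · subst hN; exact i.elim0
    have h2 : (1 : ℝ) * (R / L) ≤ (N : ℝ) * (R / L) := by
      refine mul_le_mul_of_nonneg_right ?_ hRL
      have : 1 ≤ N := (Nat.one_le_iff_ne_zero.2 hN).trans hn
      exact_mod_cast this
    have h3 : -(R / L) ≤ (zz i - nn i) / L := h1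
    linarith
  obtain ⟨t1, t2⟩ := abs_le.1 ht
  have hTm := le_max_left 0 T
  have hTm' := le_max_right 0 T
  by_cases hx : mx = 0
  · refine ⟨∅, fun _ => rfl, hneg, ?_, ?_⟩
    · rw [Finset.sum_empty, zero_div, hx, sub_zero, abs_zero]
      exact hσ.le
    · rw [Finset.compl_empty, ← hS, abs_le]
      subst hx
      constructor
      · have : max 0 T - ρ / L ≤ max 0 (∑ i, f i) := by
          have h0 : 0 ≤ ρ / L := div_nonneg ((abs_nonneg _).trans hsum) hL.le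
          rw [sub_le_iff_le_add]
          refine max_le ?_ ?_
          · have := le_max_left 0 (∑ i, f i); linarith
          · have := le_max_right 0 (∑ i, f i); linarith
        linarith
      · have : max 0 (∑ i, f i) ≤ max 0 T + ρ / L := by
          have h0 : 0 ≤ ρ / L := div_nonneg ((abs_nonneg _).trans hsum) hL.le
          refine max_le ?_ ?_ <;> linarith
        linarith
  · have hsub : ∀ mv : Finset (Fin n), (∑ i ∈ mvᶜ, zz i - ∑ i ∈ mvᶜ, nn i) / L =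
        ∑ i, f i - ∑ i ∈ mv, f i := by
      intro mv
      rw [← Finset.sum_add_sum_compl mv f]
      have : ∑ i ∈ mvᶜ, f i = (∑ i ∈ mvᶜ, zz i - ∑ i ∈ mvᶜ, nn i) / L := by
        rw [hf, ← Finset.sum_div, Finset.sum_sub_distrib]
      linarith
    have hG0 : 0 ≤ ∑ i, g i := Finset.sum_nonneg fun i _ => g0 i
    obtain ⟨mv, -, m1, m2⟩ := exists_mv (σ := σ / 4) (x := min mx (∑ i, g i)) (by linarith)
      (le_min hx0 hG0) Finset.univ (f := g) (fun i _ => g3 i) (min_le_right _ _)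
    have hFG : ∑ i ∈ mv, f i ≤ ∑ i ∈ mv, g i := Finset.sum_le_sum fun i _ => g1 i
    have hGF' := hGF mv
    have hSG : ∑ i, f i ≤ ∑ i, g i := Finset.sum_le_sum fun i _ => g1 i
    have hlow : mx - σ / 4 - 2 * a ≤ ∑ i ∈ mv, f i := by
      rcases le_total mx (∑ i, g i) with h | h
      · rw [min_eq_left h] at m1
        linarith
      · rw [min_eq_right h] at m1
        have : max 0 T - a ≤ ∑ i, g i := by
          rw [sub_le_iff_le_add]
          refine max_le (by linarith) (by linarith)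
        linarith
    have hup : ∑ i ∈ mv, f i ≤ mx + σ / 4 := by
      have := min_le_left mx (∑ i, g i)
      linarith
    have e1 : (∑ i ∈ mv, (zz i - nn i)) / L = ∑ i ∈ mv, f i := by
      rw [hf, ← Finset.sum_div]
    refine ⟨mv, fun h => absurd h hx, hneg, ?_, ?_⟩
    · rw [e1, abs_le]
      constructor <;> linarith
    · rw [hsub mv, abs_le]
      constructor
      · rcases le_total 0 T with h | h
        · rw [max_eq_right h] at t1 t2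
          have := le_max_right 0 (∑ i, f i - ∑ i ∈ mv, f i)
          linarith
        · rw [max_eq_left h] at t1 t2
          have := le_max_left 0 (∑ i, f i - ∑ i ∈ mv, f i)
          linarith
      · have : max 0 (∑ i, f i - ∑ i ∈ mv, f i) ≤ wv + σ := by
          refine max_le (by linarith) (by linarith)
        linarith

/-- a piece with a too long divisor vanishes -/
lemma CS_tP_zero {h : ℝ → ℝ} {R : ℝ} (hR : ∀ u, cx h u ≠ 0 → |u| ≤ R) {θ : Eis → ℂ} {ξ : ℝ}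
    {s : Pc} (hY : 0 < s.Y) {x : Eis} (hx : IsPrim x)
    (hxs : Real.log s.Y + R < Real.log (nm x)) (K : Eis) :
    CS (pc h (tP θ ξ s x)) K = 0 := by
  have hx0 : (0 : ℝ) < nm x := by exact_mod_cast nm_pos.2 hx.ne_zero
  have h0 : pc h (tP θ ξ s x) = fun _ => 0 := by
    funext b
    by_contra hb
    have hY' : 0 < (tP θ ξ s x).Y := div_pos hY hx0
    have h1 := pc_supp hR hY' hb
    have h2 : (tP θ ξ s x).Y = s.Y / nm x := rfl
    have hbp : IsPrim b := by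
      unfold pc at hb
      split_ifs at hb with hp
      · exact hp
      · exact absurd rfl hb
    have h3 : (1 : ℝ) ≤ nm b := by exact_mod_cast nm_pos.2 hbp.ne_zero
    have h4 : s.Y / nm x * Real.exp R < 1 := by
      have h5 : s.Y / nm x * Real.exp R = Real.exp (Real.log s.Y + R - Real.log (nm x)) := by
        rw [Real.exp_sub, Real.exp_add, Real.exp_log hY, Real.exp_log hx0]
        ring
      rw [h5]
      rw [← Real.exp_zero]
      exact Real.exp_lt_exp.2 (by linarith)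
    rw [h2] at h1
    linarith
  rw [h0]
  exact CS_zero' K

/-- lengths of children are nonnegative -/
lemma Ls_child_nonneg {r : ℝ} {ps' ps : List Pq} (hf : List.Forall₂ (Ch r) ps' ps) (p : Pq)
    (hp : p ∈ ps') : 0 ≤ p.z := by
  induction hf with
  | nil => simp at hp
  | cons hab _ ih =>
    rcases List.mem_cons.1 hp with rfl | hp
    · exact hab.2.2.2.1
    · exact ih hp

/-! ### the hypothesis in reals -/

/-- **nominal values** of a state within `τ` of the true ones: family `l` (one-sided), two lumps `uu`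
shortened by `β`, unmarked mass `qq`, amplifier `am` shortened by `l₁` -/
structure Nom (K τ L l uu β qq am l₁ κ Mv q wv y mx : ℝ) : Prop where
  κ0 : 0 ≤ κ
  κK : κ ≤ K
  MK : Mv ≤ K
  q0 : 0 ≤ q
  qK : q ≤ K
  w0 : 0 ≤ wv
  wK : wv ≤ K
  y0 : 0 ≤ y
  x0 : 0 ≤ mx
  tκ : l / L ≤ κ + τ
  tM : |(uu - β) / L - Mv| ≤ τ
  tq : |qq / L - q| ≤ τ
  tw : |max 0 ((am - l₁) / L) - (wv + mx)| ≤ τ
  ty : |β / L - y| ≤ τ

/-- **the `x`-side bracket** with the moved mass `mx`; `R₁` a constant -/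
def XSide {O : Type} (h : ℝ → ℝ) (P : DPar) (ps₁ : List Pq) (M B : Eis) (η : Eis → ℂ) (j : ℤ)
    (ξ : ℝ) (z : Eis) (𝒥 : Finset (Tm O)) (Kf : Tm O → Eis) (Wx : Tm O → ℝ)
    (L σ R₁ l₁ mx Sx : ℝ) : Prop :=
  ∀ n₁ : Fin ps₁.length → ℕ, |∑ i, (n₁ i : ℝ) - l₁| ≤ σ * L →
    (∀ i, (n₁ i : ℝ) ≤ (ps₁.get i).z + R₁) →
  ∀ mv : Finset (Fin ps₁.length), (mx = 0 → mv = ∅) →
    |(∑ i ∈ mv, ((ps₁.get i).z - n₁ i)) / L - mx| ≤ σ →
  ∀ E' ⊆ 𝒥, ∀ x₁ : Tm O → Fin ps₁.length → Eis,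
    (∀ t ∈ E', (∀ i, IsPrim (x₁ t i) ∧ (n₁ i : ℝ) ≤ Real.log (nm (x₁ t i)) ∧
        Real.log (nm (x₁ t i)) < n₁ i + 1) ∧
      (∏ i, x₁ t i) ∣ t.D1 * (z * (t.Z * t.Z'))) →
    ∑ t ∈ E', Wx t ^ 2 * ∏ i ∈ mv, ‖CS (pc h (tP (th1 M B η j) ξ ((ps₁.get i).pc P)
      (x₁ t i))) (Kf t)‖ ^ 2 ≤ Sx

/-- **the trivial bound of the `y`-side** : the frequencies are in a set of `X ^ κt` elements -/
def YT {O : Type} (𝒥 : Finset (Tm O)) (Kf : Tm O → Eis) (X M q w e : ℝ) : Prop :=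
  ∃ (κt : ℝ) (F : Finset Eis), (∀ t ∈ 𝒥, Kf t ∈ F) ∧ (F.card : ℝ) ≤ X ^ κt ∧
    κt + 2 * (M + q + w) ≤ e

/-- second moment over a finite set of frequencies, pointwise bound -/
lemma RQ_triv {h : ℝ → ℝ} {C : ℝ} (hC1 : 1 ≤ C)
    (hC : ∀ (p : Pc) (k : Eis), p.OK → ‖CS (pc h p) k‖ ≤ C * p.Y) {P : DPar} (hP : P.OK)
    (Q : Eis → Prop) (F : Finset Eis) (hQ : ∀ k, Q k → k ∈ F) (l : ℝ) (ps : List Pq) :
    RQ Q h l (ps.map (Pq.pc P)) ≤ F.card * (C ^ (2 * ps.length) * Real.exp (2 * Ls ps)) := by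
  classical
  have key : ∀ k, ((ps.map (Pq.pc P)).map fun p => ‖CS (pc h p) k‖ ^ 2).prod ≤
      C ^ (2 * ps.length) * Real.exp (2 * Ls ps) := by
    intro k
    induction ps with
    | nil => unfold Ls; simp
    | cons p ps ih =>
      rw [List.map_cons, List.map_cons, List.prod_cons, List.length_cons]
      have h1 := hC (p.pc P) k (Pq.ok hP p)
      have h2 : ‖CS (pc h (p.pc P)) k‖ ^ 2 ≤ C ^ 2 * Real.exp (2 * p.z) := by
        calc ‖CS (pc h (p.pc P)) k‖ ^ 2 ≤ (C * (p.pc P).Y) ^ 2 :=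
              pow_le_pow_left₀ (norm_nonneg _) h1 2
          _ = C ^ 2 * Real.exp (2 * p.z) := by
              rw [Pq.pc_Y, mul_pow, ← Real.exp_nat_mul]; push_cast; rfl
      have h3 : Ls (p :: ps) = p.z + Ls ps := by
        unfold Ls
        rw [List.map_cons, List.sum_cons]
      have h0 : 0 ≤ ((ps.map (Pq.pc P)).map fun p => ‖CS (pc h p) k‖ ^ 2).prod := by
        refine List.prod_nonneg ?_
        intro x hx
        obtain ⟨q, _, rfl⟩ := List.mem_map.1 hx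
        positivity
      calc ‖CS (pc h (p.pc P)) k‖ ^ 2 *
            ((ps.map (Pq.pc P)).map fun p => ‖CS (pc h p) k‖ ^ 2).prod
          ≤ (C ^ 2 * Real.exp (2 * p.z)) * (C ^ (2 * ps.length) * Real.exp (2 * Ls ps)) :=
            mul_le_mul h2 ih h0 (by positivity)
        _ = C ^ (2 * (ps.length + 1)) * Real.exp (2 * Ls (p :: ps)) := by
            rw [h3, mul_add 2 (p.z), Real.exp_add]
            ring
  unfold RQ
  calc ∑ k ∈ (bl (Real.exp l)).filter Q,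
        ((ps.map (Pq.pc P)).map fun p => ‖CS (pc h p) k‖ ^ 2).prod
      ≤ ∑ _k ∈ (bl (Real.exp l)).filter Q, C ^ (2 * ps.length) * Real.exp (2 * Ls ps) :=
        Finset.sum_le_sum fun k _ => key k
    _ = (((bl (Real.exp l)).filter Q).card : ℝ) *
          (C ^ (2 * ps.length) * Real.exp (2 * Ls ps)) := by
        rw [Finset.sum_const, nsmul_eq_mul]
    _ ≤ _ := by
        refine mul_le_mul_of_nonneg_right ?_ (by positivity)
        have : (bl (Real.exp l)).filter Q ⊆ F := fun k hk => hQ k (Finset.mem_filter.1 hk).2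
        exact_mod_cast Finset.card_le_card this

section
variable {Λ : Type*} {π : Λ → DPar} {h : ℝ → ℝ} {d : ℝ} {r s : EF}
variable {c₀ : ℝ} (hpu : PU h c₀) (hP : ∀ lam, (π lam).OK)
  (hN : ∀ lam k, k ≠ 0 → NPm (π lam).n (π lam).ψ (π lam).l₂ k)
  (R : ExpRules (7 / 8 + d) r s) (C : ExpC r (ex Dq (fun lam => Rc (π lam) h)))

include hpu hP hN R C

set_option maxHeartbeats 2000000 in
/-- **the `y`-side with the moved mass chosen**, with the trivial bound as an alternative -/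
theorem ys_choiceT (hd : 0 ≤ d) (hd8 : d ≤ 1 / 8) {K : ℝ} (hK : 0 ≤ K) {ε : ℝ} (hε : 0 < ε) :
    ∃ σ₀ R₁ : ℝ, 0 < σ₀ ∧ 0 ≤ R₁ ∧ ∀ σ : ℝ, 0 < σ → σ ≤ σ₀ → ∀ ρ : ℝ, 0 < ρ →
    ∀ (lam' : Λ) (N : ℕ) (B₀ : ℝ), 0 ≤ B₀ →
    ∃ (M₀ : ℕ) (X₀ : ℝ), 3 ≤ X₀ ∧ ∀ X : ℝ, X₀ ≤ X →
    ∀ (P : DPar), (∀ k : Kd, IsChar (chK P k)) → P.OK →
    ∀ (u₁ u₂ : Pq) (ps₁ qs₂ : List Pq), Dq.lump u₁ → Dq.lump u₂ → ps₁.length ≤ N →
      qs₂.length ≤ N → (∀ p ∈ ps₁, p.kd = .am) → (∀ p ∈ qs₂, p.kd = .mo) →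
      (∀ p ∈ ps₁, Dq.nl X p ≤ σ / 4) → (∀ p ∈ qs₂, Dq.lump p ∨ Dq.nl X p ≤ σ) →
      Ls ps₁ ≤ K * Real.log X →
    ∀ H : ℝ, (∀ p ∈ u₁ :: u₂ :: (ps₁ ++ qs₂), 0 ≤ p.z ∧ p.z ≤ B₀ * Real.log X ∧
      (nm p.d : ℝ) ≤ X ^ B₀ ∧ 1 + |p.t| ≤ H) →
    ∀ (M M' Bp bk c b0 z e₀ : Eis) (η : Eis → ℂ) (j : ℤ) (ξ : ℝ)
      (hMB : M * (Bp * (bk * c ^ 3) * b0) ≠ 0),
      (nm (M * (Bp * (bk * c ^ 3) * b0)) : ℝ) ≤ X ^ B₀ →
      IsPrim bk → IsPrim c → Sm M b0 → Sm M e₀ →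
    PrI M z → HC M' η → (∀ p : Eis, Prime p → p ∣ M' → p ∣ M) →
    (∀ b, IsPrim b → chK (π lam') .am b = chK P .am b * End699.tw η j b) →
    (∀ b, IsPrim b → chK (π lam') .mo b = chK P .mo b *
      (conj (End699.tw η j b) * conj (End699.tw η j b))) →
    ∀ (h₁ : FS (alL h (ps₁.map (Pq.pc P)))) (h₂ : FS (alL h ((u₁ :: u₂ :: qs₂).map (Pq.pc P))))
      (OO : Finset (Eis × Eis)), (∀ o ∈ OO, IsPrim o.1 ∧ IsPrim o.2) →
    ∀ (lam : {x // x ∈ OO} → ℝ) (v w : {x // x ∈ OO} → Eis → ℂ),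
      Dat4 M 1 lam v w (X ^ B₀) →
      (∀ o, w o = mulw e₀ (ww M (alL h (ps₁.map (Pq.pc P)))
        (alL h ((u₁ :: u₂ :: qs₂).map (Pq.pc P)))
          (h₁.fin.toFinset ×ˢ h₂.fin.toFinset) z (nu2 o))) →
    ∀ G : Eis → ℂ, (∀ y, Sm M y → G y = gx η j ξ y) →
    ∀ (be kn : Tm {x // x ∈ OO} → Eis) (𝒥 : Finset (Tm {x // x ∈ OO})),
      (∀ t ∈ 𝒥, t.OK M 1 ∧ t.val 1 lam v w G ≠ 0 ∧ Pre Bp bk c be t ∧
        t.k * nu2 t.o = kn t * b0 ^ 3 ∧ (∀ p : Eis, Prime p → p ∣ b0 → p ∣ nu2 t.o) ∧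
        (nm (yK nu2 t) : ℝ) ≤ X ^ B₀) →
    ∀ l : ℝ, 0 ≤ l → Real.exp l ≤ X ^ B₀ →
      (∀ t ∈ 𝒥, (nm (yF kn be bk t) : ℝ) ≤ Real.exp l) →
    ∀ Wx : Tm {x // x ∈ OO} → ℝ, (∀ t ∈ 𝒥, 0 ≤ Wx t) → ∀ S₀ : ℝ, 0 ≤ S₀ →
    (∀ t ∈ 𝒥, ∀ f1 f2 f3 D1' Z'' : Eis, e₀ = f1 * f2 * f3 → Sm M f1 → Sm M f2 → Sm M f3 →
      t.D1 = f1 * D1' → t.Z * t.Z' = f2 * Z'' → IsCoprime f3 t.D1 → IsCoprime f3 (t.B * t.b) →
      PrI (t.B * t.b) f2 → IsCoprime (D1' * Z'') b0 →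
      ∀ l' m : Eis, IsPrim l' → IsPrim m → l' * m ^ 2 = z * Z'' →
      Real.log (nm l') + Real.log (nm D1') ≤ Ls ps₁ + ρ * Real.log X →
      Real.log (nm m) ≤ u₁.z + u₂.z + Ls qs₂ + ρ * Real.log X →
      ∃ κ Mv q wv y mx e Sx : ℝ,
        Nom K (σ / 4) (Real.log X) l (u₁.z + u₂.z) (Real.log (nm m)) (Ls qs₂) (Ls ps₁)
          (Real.log (nm l') + Real.log (nm D1')) κ Mv q wv y mx ∧
        (GoodYM d κ Mv q wv y e ∨ YT 𝒥 (yF kn be bk) X Mv q wv e) ∧ 0 ≤ Sx ∧ Sx * X ^ e ≤ S₀ ^ 2 ∧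
        XSide h P ps₁ M (Bp * (bk * c ^ 3) * b0) η j ξ z 𝒥 (yF kn be bk) Wx (Real.log X) σ R₁
          (Real.log (nm l') + Real.log (nm D1')) mx Sx) →
    ∑ t ∈ 𝒥, Wx t * ‖t.ys w G‖ ≤ (H * (1 + |ξ|)) ^ M₀ * X ^ ε * S₀ := by
  classical
  obtain ⟨R₀, hR₀⟩ := bump_of_cs hpu.cs
  set R' := max R₀ 0 with hRd
  have hR0 : 0 ≤ R' := le_max_right _ _
  have hR' : ∀ u, cx h u ≠ 0 → |u| ≤ R' := fun u hu => (hR₀ u hu).trans (le_max_left _ _)
  obtain ⟨σh, hσh, V⟩ := hy_move hpu hP hN R C hd hd8 hK (ε := ε / 4) (by linarith)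
  obtain ⟨Ct, hCt1, hCt⟩ := TopC702.norm_CS_pc_le hpu
  refine ⟨min σh (ε / 32), R', lt_min hσh (by positivity), hR0, ?_⟩
  intro σ hσ hσσ' ρ hρ lam' N B₀ hB₀
  have hσσ : σ ≤ σh := hσσ'.trans (min_le_left _ _)
  have hσε : σ ≤ ε / 32 := hσσ'.trans (min_le_right _ _)
  obtain ⟨M₀, V⟩ := V lam' N B₀
  obtain ⟨C₁, r', hC₁, hr', U⟩ := ys_moveK hpu (N + 2) (ε := ε / 4) (by linarith) hB₀ (M₀ : ℝ)
  obtain ⟨X₁, hX₁, V⟩ := V r' hr'
  set X₂ : ℝ := Real.exp (16 * (r' + N * R') / σ) with hX₂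
  set X₃ : ℝ := C₁ ^ (4 / ε) with hX₃
  set X₄ : ℝ := (Ct ^ (2 * (N + (N + 2)))) ^ (8 / ε) with hX₄
  set X₅ : ℝ := Real.exp (3 * r' / ρ) with hX₅
  refine ⟨M₀, max (max (max 3 X₁) (max X₂ X₃)) (max X₄ X₅),
    ((le_max_left _ _).trans (le_max_left _ _)).trans (le_max_left _ _), ?_⟩
  intro X hX' P hchar hPOK u₁ u₂ ps₁ qs₂ hu₁ hu₂ hl₁ hl₂ hk₁ hk₂ hg₁ hg₂ hLs H hdat M M' Bp bk c
    b0 z e₀ η j ξ hMB hmod hbk hc hb0 he₀ hz hη hM' hc₁ hc₂ h₁ h₂ OO hOO lam v w hD hw G hG be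
    kn 𝒥 hJ l hl0 hlX hKle Wx hWx S₀ hS₀ hyp
  have hX := (le_max_left _ _).trans hX'
  have hXX₄ : X₄ ≤ X := ((le_max_left _ _).trans (le_max_right _ _)).trans hX'
  have hXX₅ : X₅ ≤ X := ((le_max_right _ _).trans (le_max_right _ _)).trans hX'
  have hX3 : 3 ≤ X := ((le_max_left _ _).trans (le_max_left _ _)).trans hX
  have hXX₁ : X₁ ≤ X := ((le_max_right _ _).trans (le_max_left _ _)).trans hX
  have hXX₂ : X₂ ≤ X := ((le_max_left _ _).trans (le_max_right _ _)).trans hX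
  have hXX₃ : X₃ ≤ X := ((le_max_right _ _).trans (le_max_right _ _)).trans hX
  have hX1 : 1 < X := by linarith
  have hX0 : 0 < X := by linarith
  have hlog : 0 < Real.log X := Real.log_pos hX1
  have hsmall : r' + N * R' ≤ σ / 16 * Real.log X := by
    have h1 : 16 * (r' + N * R') / σ ≤ Real.log X := by
      rw [← Real.log_exp (16 * (r' + N * R') / σ)]
      exact Real.log_le_log (Real.exp_pos _) hXX₂
    rw [div_le_iff₀ hσ] at h1
    linarith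
  have hrρ : 3 * r' ≤ ρ * Real.log X := by
    have h1 : 3 * r' / ρ ≤ Real.log X := by
      rw [← Real.log_exp (3 * r' / ρ)]
      exact Real.log_le_log (Real.exp_pos _) hXX₅
    rw [div_le_iff₀ hρ] at h1
    linarith
  have hC₁X : C₁ ≤ X ^ (ε / 4) := by
    have h1 : (C₁ ^ (4 / ε)) ^ (ε / 4) ≤ X ^ (ε / 4) :=
      Real.rpow_le_rpow (by positivity) hXX₃ (by positivity)
    rw [← Real.rpow_mul (by linarith)] at h1
    have e1 : 4 / ε * (ε / 4) = 1 := by field_simp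
    rwa [e1, Real.rpow_one] at h1
  have hCtX : Ct ^ (2 * (N + (N + 2))) ≤ X ^ (ε / 8) := by
    have h1 : ((Ct ^ (2 * (N + (N + 2)))) ^ (8 / ε)) ^ (ε / 8) ≤ X ^ (ε / 8) :=
      Real.rpow_le_rpow (by positivity) hXX₄ (by positivity)
    rw [← Real.rpow_mul (by positivity)] at h1
    have e1 : 8 / ε * (ε / 8) = 1 := by field_simp
    rwa [e1, Real.rpow_one] at h1
  have hps₁ : ∀ p ∈ ps₁, 0 ≤ p.z ∧ p.z ≤ B₀ * Real.log X ∧ (nm p.d : ℝ) ≤ X ^ B₀ ∧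
      1 + |p.t| ≤ H := fun p hp => hdat p (by simp [hp])
  have hqs₂ : ∀ p ∈ qs₂, 0 ≤ p.z ∧ p.z ≤ B₀ * Real.log X ∧ (nm p.d : ℝ) ≤ X ^ B₀ ∧
      1 + |p.t| ≤ H := fun p hp => hdat p (by simp [hp])
  have hdu₁ := hdat u₁ (by simp)
  have hdu₂ := hdat u₂ (by simp)
  have hH1 : 1 ≤ H := by
    have := abs_nonneg u₁.t
    linarith [hdu₁.2.2.2]
  have hHξ : 1 ≤ H * (1 + |ξ|) :=
    one_le_mul_of_one_le_of_one_le hH1 (by linarith [abs_nonneg ξ])
  have hHM : 1 ≤ (H * (1 + |ξ|)) ^ M₀ := one_le_pow₀ hHξ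
  set S₁ : ℝ := (H * (1 + |ξ|)) ^ M₀ * X ^ (ε / 4) * S₀ with hS₁
  have hS₁0 : 0 ≤ S₁ := by positivity
  have hXε : 1 ≤ X ^ (ε / 4) := Real.one_le_rpow hX1.le (by positivity)
  set Qf : Eis → Prop := fun k => ∃ t ∈ 𝒥, yF kn be bk t = k with hQf
  have main := U X hX3 P (π lam') (π lam') hchar ps₁ (u₁ :: u₂ :: qs₂) (by omega)
    (by simp only [List.length_cons]; omega) (fun p hp => (hps₁ p hp).2.1)
    (by
      intro p hp
      rcases List.mem_cons.1 hp with rfl | hp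
      · exact hdu₁.2.1
      rcases List.mem_cons.1 hp with rfl | hp
      · exact hdu₂.2.1
      · exact (hqs₂ p hp).2.1)
    M M' Bp bk c b0 z e₀ η j ξ hMB hbk hc hb0 he₀ hz hη hM'
    (by
      intro p hp b hb
      rw [hk₁ p hp]
      exact hc₁ b hb)
    (by
      intro p hp b hb
      have hkd : p.kd = .mo := by
        rcases List.mem_cons.1 hp with rfl | hp
        · exact ((Dq_lump _).1 hu₁).1
        rcases List.mem_cons.1 hp with rfl | hp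
        · exact ((Dq_lump _).1 hu₂).1
        · exact hk₂ p hp
      rw [hkd]
      exact hc₂ b hb)
    h₁ h₂ OO hOO lam v w hD hw G hG be kn 𝒥 hJ (Real.exp l) hlX hKle Qf
    (fun t ht => ⟨t, ht, rfl⟩) Wx hWx S₁ hS₁0 ?_
  · refine main.trans ?_
    rw [hS₁]
    calc C₁ * X ^ (ε / 4) * ((H * (1 + |ξ|)) ^ M₀ * X ^ (ε / 4) * S₀)
        ≤ X ^ (ε / 4) * X ^ (ε / 4) * ((H * (1 + |ξ|)) ^ M₀ * (X ^ (ε / 4) * X ^ (ε / 4)) * S₀)
          := by
          gcongr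
          exact le_mul_of_one_le_left (by positivity) hXε
      _ = (H * (1 + |ξ|)) ^ M₀ * X ^ ε * S₀ := by
          have e1 : X ^ ε = X ^ (ε / 4) * X ^ (ε / 4) * (X ^ (ε / 4) * X ^ (ε / 4)) := by
            rw [← Real.rpow_add hX0, ← Real.rpow_add hX0]
            congr 1
            ring
          rw [e1]
          ring
  · intro t ht f1 f2 f3 D1' Z'' g1 g2 g3 g4 g5 g6 g7 g8 g9 g10 l' m hl' hm hlm n₁ n₂ hn₁ hn₂
    set l₁ : ℝ := Real.log (nm l') + Real.log (nm D1') with hl₁d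
    have hLs0 : ∀ {ps' ps'' : List Pq}, List.Forall₂ (Ch r') ps' ps'' → 0 ≤ Ls ps' := by
      intro ps' ps'' hf
      refine List.sum_nonneg fun x hx => ?_
      obtain ⟨p, hp, rfl⟩ := List.mem_map.1 hx
      exact Ls_child_nonneg hf p hp
    have hrsm : 3 * r' ≤ σ / 4 * Real.log X := by
      have : 0 ≤ (N : ℝ) * R' := by positivity
      linarith
    have hWW : 0 ≤ ∑ t' ∈ 𝒥, Wx t' ^ 2 := Finset.sum_nonneg fun _ _ => sq_nonneg _
    have hvac : ∀ (_ : (∀ ps₁' ps₂' : List Pq,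
          List.Forall₂ (Ch r') ps₁'
            ((rst ps₁ ∅).map (shf (M * (Bp * (bk * c ^ 3) * b0)) hMB ξ)) →
          List.Forall₂ (Ch r') ps₂'
            ((rst (u₁ :: u₂ :: qs₂) ∅).map
              (shf (M * (Bp * (bk * c ^ 3) * b0)) hMB (-2 * ξ))) →
          |Ls (rst ps₁ ∅) - Ls ps₁' -
            ∑ i ∈ (∅ : Finset (Fin ps₁.length))ᶜ, (n₁ i : ℝ)| ≤ r' →
          |Ls (rst (u₁ :: u₂ :: qs₂) ∅) - Ls ps₂' -
            ∑ i ∈ (∅ : Finset (Fin (u₁ :: u₂ :: qs₂).length))ᶜ, (n₂ i : ℝ)| ≤ r' → False)),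
        ∃ (mv₁ : Finset (Fin ps₁.length)) (mv₂ : Finset (Fin (u₁ :: u₂ :: qs₂).length))
          (Sx Bd : ℝ), 0 ≤ Sx ∧ 0 ≤ Bd ∧ Sx * Bd ≤ S₁ ^ 2 ∧
        (∀ E' ⊆ 𝒥, ∀ (x₁ : Tm {x // x ∈ OO} → Fin ps₁.length → Eis)
            (x₂ : Tm {x // x ∈ OO} → Fin (u₁ :: u₂ :: qs₂).length → Eis),
          (∀ e ∈ E', (∀ i, IsPrim (x₁ e i) ∧ (n₁ i : ℝ) ≤ Real.log (nm (x₁ e i)) ∧
              Real.log (nm (x₁ e i)) < n₁ i + 1) ∧
            (∀ i, IsPrim (x₂ e i) ∧ (n₂ i : ℝ) ≤ Real.log (nm (x₂ e i)) ∧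
              Real.log (nm (x₂ e i)) < n₂ i + 1) ∧
            (∏ i, x₁ e i) * (∏ i, x₂ e i) ^ 2 ∣ e.D1 * (z * (e.Z * e.Z'))) →
          ∑ e ∈ E', Wx e ^ 2 *
            ((∏ i ∈ mv₁, ‖CS (pc h (tP (th1 M (Bp * (bk * c ^ 3) * b0) η j) ξ
                ((ps₁.get i).pc P) (x₁ e i))) (yF kn be bk e)‖ ^ 2) *
              ∏ i ∈ mv₂, ‖CS (pc h (tP (th2 M (Bp * (bk * c ^ 3) * b0) η j) (-2 * ξ)
                (((u₁ :: u₂ :: qs₂).get i).pc P) (x₂ e i))) (yF kn be bk e)‖ ^ 2) ≤ Sx) ∧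
        (∀ ps₁' ps₂' : List Pq,
          List.Forall₂ (Ch r') ps₁'
            ((rst ps₁ mv₁).map (shf (M * (Bp * (bk * c ^ 3) * b0)) hMB ξ)) →
          List.Forall₂ (Ch r') ps₂'
            ((rst (u₁ :: u₂ :: qs₂) mv₂).map
              (shf (M * (Bp * (bk * c ^ 3) * b0)) hMB (-2 * ξ))) →
          |Ls (rst ps₁ mv₁) - Ls ps₁' - ∑ i ∈ mv₁ᶜ, (n₁ i : ℝ)| ≤ r' →
          |Ls (rst (u₁ :: u₂ :: qs₂) mv₂) - Ls ps₂' - ∑ i ∈ mv₂ᶜ, (n₂ i : ℝ)| ≤ r' →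
          RQ Qf h (Real.log (Real.exp l))
            (ps₁'.map (Pq.pc (π lam')) ++ ps₂'.map (Pq.pc (π lam'))) ≤
            Bd * (cst ps₁' ((rst ps₁ mv₁).map (shf (M * (Bp * (bk * c ^ 3) * b0)) hMB ξ)) *
              cst ps₂' ((rst (u₁ :: u₂ :: qs₂) mv₂).map
                (shf (M * (Bp * (bk * c ^ 3) * b0)) hMB (-2 * ξ)))) ^ (M₀ : ℝ)) := by
      intro hF
      refine ⟨∅, ∅, ∑ t' ∈ 𝒥, Wx t' ^ 2, 0, hWW, le_rfl, by rw [mul_zero]; positivity, ?_, ?_⟩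
      · intro E' hE' x₁ x₂ _
        simp only [Finset.prod_empty, mul_one]
        exact Finset.sum_le_sum_of_subset_of_nonneg hE' fun _ _ _ => sq_nonneg _
      · intro ps₁' ps₂' hch₁ hch₂ hα hβ
        exact (hF ps₁' ps₂' hch₁ hch₂ hα hβ).elim
    obtain ⟨a1, a2⟩ := abs_le.1 hn₁
    obtain ⟨a3, a4⟩ := abs_le.1 hn₂
    by_cases hfe₁ : l₁ ≤ Ls ps₁ + ρ * Real.log X
    swap
    · refine hvac fun ps₁' ps₂' hch₁ hch₂ hα hβ => ?_
      have h1 := hLs0 hch₁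
      rw [rst_empty, Finset.compl_empty] at hα
      obtain ⟨b1, b2⟩ := abs_le.1 hα
      linarith [not_le.1 hfe₁]
    by_cases hfe₂ : Real.log (nm m) ≤ u₁.z + u₂.z + Ls qs₂ + ρ * Real.log X
    swap
    · refine hvac fun ps₁' ps₂' hch₁ hch₂ hα hβ => ?_
      have h1 := hLs0 hch₂
      rw [rst_empty, Finset.compl_empty] at hβ
      obtain ⟨b1, b2⟩ := abs_le.1 hβ
      have e2 : Ls (u₁ :: u₂ :: qs₂) = u₁.z + u₂.z + Ls qs₂ := by
        unfold Ls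
        simp only [List.map_cons, List.sum_cons]
        ring
      rw [e2] at b1 b2
      linarith [not_le.1 hfe₂]
    obtain ⟨κ, Mv, q, wv, y, mx, e, Sx, hNom, hG', hSx, hSe, hX'⟩ :=
      hyp t ht f1 f2 f3 D1' Z'' g1 g2 g3 g4 g5 g6 g7 g8 g9 g10 l' m hl' hm hlm hfe₁ hfe₂
    have hσ4 : σ / 4 ≤ σh := by linarith
    have hnz : ∀ i : Fin ps₁.length, (0 : ℝ) ≤ n₁ i := fun i => Nat.cast_nonneg _
    by_cases hbad : ∃ i, (ps₁.get i).z + R' < n₁ i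
    · -- a bad pattern
      obtain ⟨i, hi⟩ := hbad
      set w' : ℝ := max 0 ((Ls (rst ps₁ {i}) - ∑ k ∈ ({i} : Finset (Fin ps₁.length))ᶜ,
        (n₁ k : ℝ)) / Real.log X) with hw'
      set e' : ℝ := max (κ / 3 + 2 * (q + w')) (EA d κ Mv q w') with he'
      have hGb : GoodYM d κ Mv q w' y e' :=
        Or.inl ⟨le_max_left _ _, Or.inl (le_max_right _ _)⟩
      have hw'0 : 0 ≤ w' := le_max_left _ _
      have hw'K : w' ≤ K := by
        refine max_le hK ?_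
        rw [div_le_iff₀ hlog]
        have h3 : Ls (rst ps₁ {i}) ≤ Ls ps₁ := by
          rw [Ls_rst]
          have e1 : Ls ps₁ = ∑ k, (ps₁.get k).z := by
            have := Ls_rst ps₁ ∅
            rw [rst_empty, Finset.compl_empty] at this
            exact this
          rw [e1]
          exact Finset.sum_le_sum_of_subset_of_nonneg (Finset.subset_univ _)
            fun k _ _ => (hps₁ _ (List.get_mem _ _)).1
        have h4 : 0 ≤ ∑ k ∈ ({i} : Finset (Fin ps₁.length))ᶜ, (n₁ k : ℝ) :=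
          Finset.sum_nonneg fun k _ => hnz k
        linarith
      refine ⟨{i}, ∅, 0, (H * (1 + |ξ|)) ^ M₀ * X ^ (e' + ε / 4), le_rfl, by positivity, ?_, ?_,
        ?_⟩
      · rw [zero_mul]; positivity
      · intro E' hE' x₁ x₂ hx
        refine (Finset.sum_eq_zero fun t' ht' => ?_).le
        obtain ⟨y1, -, -⟩ := hx t' ht'
        have hz0 : CS (pc h (tP (th1 M (Bp * (bk * c ^ 3) * b0) η j) ξ ((ps₁.get i).pc P)
            (x₁ t' i))) (yF kn be bk t') = 0 := by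
          refine CS_tP_zero hR' (Real.exp_pos _) (y1 i).1 ?_ _
          have e1 : Real.log ((ps₁.get i).pc P).Y = (ps₁.get i).z := Real.log_exp _
          rw [e1]
          exact lt_of_lt_of_le hi (y1 i).2.1
        rw [Finset.prod_singleton, hz0, norm_zero]
        ring
      · intro ps₁' ps₂' hch₁ hch₂ hα hβ
        rw [Real.log_exp]
        refine (RQ_mono_set (fun _ _ => trivial) _ _ _).trans ?_
        exact V X hXX₁ u₁ u₂ ps₁ qs₂ hu₁ hu₂ hl₁ hl₂ hk₁ hk₂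
          (fun p hp => (hg₁ p hp).trans hσ4) (fun p hp => (hg₂ p hp).imp id fun h => h.trans hσσ)
          hdu₁.2.2.1 hdu₂.2.2.1 (fun p hp => (hps₁ p hp).2.2.1) (fun p hp => (hqs₂ p hp).2.2.1)
          (M * (Bp * (bk * c ^ 3) * b0)) hMB ξ hmod H hdu₁.2.2.2 hdu₂.2.2.2
          (fun p hp => (hps₁ p hp).2.2.2) (fun p hp => (hqs₂ p hp).2.2.2) {i} n₁ n₂ l
          (Real.log (nm m)) κ Mv q w' y e' hn₂ hl0 hNom.κ0 hNom.κK hNom.MK hNom.q0 hNom.qK hw'0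
          hw'K hNom.y0 (hNom.tκ.trans (by linarith)) (hNom.tM.trans hσ4) (hNom.tq.trans hσ4)
          (by rw [← hw', sub_self, abs_zero]; exact hσh.le) (hNom.ty.trans hσ4) hGb ps₁' ps₂'
          hch₁ hch₂ hα hβ
    · -- a good pattern
      have hgood : ∀ i, (n₁ i : ℝ) ≤ (ps₁.get i).z + R' := fun i => by
        by_contra h0
        exact hbad ⟨i, not_le.1 h0⟩
      have e1 : Ls ps₁ = ∑ k, (ps₁.get k).z := by
        have := Ls_rst ps₁ ∅
        rw [rst_empty, Finset.compl_empty] at this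
        exact this
      obtain ⟨mv, m1, m2, m3, m4⟩ := choose_mv (n := ps₁.length)
        (zz := fun i => (ps₁.get i).z) (nn := fun i => (n₁ i : ℝ)) (N := N) (l₁ := l₁)
        (wv := wv) (mx := mx) hl₁ hlog hR0 hσ hnz
        (fun i => hg₁ _ (List.get_mem _ _)) hgood hn₁ hsmall hNom.w0 hNom.x0
        (by rw [← e1]; exact hNom.tw)
      refine ⟨mv, ∅, Sx, (H * (1 + |ξ|)) ^ M₀ * X ^ (e + ε / 4), hSx, by positivity, ?_, ?_, ?_⟩
      · calc Sx * ((H * (1 + |ξ|)) ^ M₀ * X ^ (e + ε / 4))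
            = (Sx * X ^ e) * ((H * (1 + |ξ|)) ^ M₀ * X ^ (ε / 4)) := by
              rw [Real.rpow_add hX0]; ring
          _ ≤ S₀ ^ 2 * ((H * (1 + |ξ|)) ^ M₀ * X ^ (ε / 4)) := by gcongr
          _ ≤ S₀ ^ 2 * (((H * (1 + |ξ|)) ^ M₀ * X ^ (ε / 4)) ^ 2) := by
              have h1 : 1 ≤ (H * (1 + |ξ|)) ^ M₀ * X ^ (ε / 4) :=
                one_le_mul_of_one_le_of_one_le hHM hXε
              have h2 : (H * (1 + |ξ|)) ^ M₀ * X ^ (ε / 4) ≤
                  ((H * (1 + |ξ|)) ^ M₀ * X ^ (ε / 4)) ^ 2 := by nlinarith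
              gcongr
          _ = S₁ ^ 2 := by rw [hS₁]; ring
      · intro E' hE' x₁ x₂ hx
        refine le_trans (le_of_eq ?_) (hX' n₁ (hn₁.trans ?_) hgood mv m1 m3 E' hE' x₁ ?_)
        · refine Finset.sum_congr rfl fun t' _ => ?_
          rw [Finset.prod_empty, mul_one]
        · have : 0 ≤ (N : ℝ) * R' := by positivity
          nlinarith
        · intro t' ht'
          obtain ⟨y1, y2, y3⟩ := hx t' ht'
          exact ⟨y1, (dvd_mul_right _ _).trans y3⟩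
      · intro ps₁' ps₂' hch₁ hch₂ hα hβ
        rw [Real.log_exp]
        rcases hG' with hG' | ⟨κt, F, hF1, hF2, hF3⟩
        · refine (RQ_mono_set (fun _ _ => trivial) _ _ _).trans ?_
          exact V X hXX₁ u₁ u₂ ps₁ qs₂ hu₁ hu₂ hl₁ hl₂ hk₁ hk₂
            (fun p hp => (hg₁ p hp).trans hσ4)
            (fun p hp => (hg₂ p hp).imp id fun h => h.trans hσσ)
            hdu₁.2.2.1 hdu₂.2.2.1 (fun p hp => (hps₁ p hp).2.2.1)
            (fun p hp => (hqs₂ p hp).2.2.1)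
            (M * (Bp * (bk * c ^ 3) * b0)) hMB ξ hmod H hdu₁.2.2.2 hdu₂.2.2.2
            (fun p hp => (hps₁ p hp).2.2.2) (fun p hp => (hqs₂ p hp).2.2.2) mv n₁ n₂ l
            (Real.log (nm m)) κ Mv q wv y e hn₂ hl0 hNom.κ0 hNom.κK hNom.MK hNom.q0 hNom.qK
            hNom.w0 hNom.wK hNom.y0 (hNom.tκ.trans (by linarith)) (hNom.tM.trans hσ4)
            (hNom.tq.trans hσ4)
            (by rw [Ls_rst]; exact m4.trans hσσ) (hNom.ty.trans hσ4) hG' ps₁' ps₂'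
            hch₁ hch₂ hα hβ
        · -- the trivial bound
          have hlen₁ : ps₁'.length ≤ N := by
            rw [hch₁.length_eq, List.length_map]
            exact (length_rst _ _).trans hl₁
          have hlen₂ : ps₂'.length ≤ N + 2 := by
            rw [hch₂.length_eq, List.length_map, rst_empty, List.length_cons, List.length_cons]
            omega
          have t1 := RQ_triv hCt1 hCt (hP lam') Qf F
            (fun k hk => by obtain ⟨t', ht', rfl⟩ := hk; exact hF1 t' ht') l (ps₁' ++ ps₂')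
          rw [List.map_append] at t1
          have t2 : Ls (ps₁' ++ ps₂') = Ls ps₁' + Ls ps₂' := by
            unfold Ls
            rw [List.map_append, List.sum_append]
          rw [t2] at t1
          obtain ⟨b1, b2⟩ := abs_le.1 hα
          have t3 : Ls (rst ps₁ mv) - ∑ i ∈ mvᶜ, (n₁ i : ℝ) ≤ (wv + σ) * Real.log X := by
            rw [Ls_rst]
            have h1 := (abs_le.1 m4).2
            have h2 := le_max_right 0 ((∑ i ∈ mvᶜ, (ps₁.get i).z - ∑ i ∈ mvᶜ, (n₁ i : ℝ)) /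
              Real.log X)
            rw [← div_le_iff₀ hlog]
            linarith
          have t4 : Ls (rst (u₁ :: u₂ :: qs₂) ∅) = u₁.z + u₂.z + Ls qs₂ := by
            rw [rst_empty]
            unfold Ls
            simp only [List.map_cons, List.sum_cons]
            ring
          rw [t4, Finset.compl_empty] at hβ
          obtain ⟨b3, b4⟩ := abs_le.1 hβ
          have t5 : u₁.z + u₂.z - Real.log (nm m) ≤ (Mv + σ / 4) * Real.log X := by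
            have h1 := (abs_le.1 hNom.tM).2
            rw [← div_le_iff₀ hlog]
            linarith
          have t6 : Ls qs₂ ≤ (q + σ / 4) * Real.log X := by
            have h1 := (abs_le.1 hNom.tq).2
            rw [← div_le_iff₀ hlog]
            linarith
          have t7 : 2 * (Ls ps₁' + Ls ps₂') ≤ (2 * (Mv + q + wv) + ε / 8) * Real.log X := by
            have h1 : σ * Real.log X ≤ ε / 32 * Real.log X :=
              mul_le_mul_of_nonneg_right hσε hlog.le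
            nlinarith
          have t8 : Real.exp (2 * (Ls ps₁' + Ls ps₂')) ≤ X ^ (2 * (Mv + q + wv) + ε / 8) := by
            rw [Real.rpow_def_of_pos hX0]
            exact Real.exp_le_exp.2 (by linarith)
          have t9 : Ct ^ (2 * (ps₁' ++ ps₂').length) ≤ X ^ (ε / 8) := by
            refine le_trans (pow_le_pow_right₀ hCt1 ?_) hCtX
            rw [List.length_append]
            omega
          have t10 : RQ Qf h l (ps₁'.map (Pq.pc (π lam')) ++ ps₂'.map (Pq.pc (π lam'))) ≤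
              X ^ (e + ε / 4) := by
            calc RQ Qf h l (ps₁'.map (Pq.pc (π lam')) ++ ps₂'.map (Pq.pc (π lam')))
                ≤ F.card * (Ct ^ (2 * (ps₁' ++ ps₂').length) *
                    Real.exp (2 * (Ls ps₁' + Ls ps₂'))) := t1
              _ ≤ X ^ κt * (X ^ (ε / 8) * X ^ (2 * (Mv + q + wv) + ε / 8)) := by
                  gcongr
              _ = X ^ (κt + (ε / 8 + (2 * (Mv + q + wv) + ε / 8))) := by
                  rw [Real.rpow_add hX0 κt, Real.rpow_add hX0 (ε / 8) (2 * (Mv + q + wv) + ε / 8)]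
              _ ≤ X ^ (e + ε / 4) :=
                  Real.rpow_le_rpow_of_exponent_le hX1.le (by linarith)
          have t11 : 1 ≤ (cst ps₁' ((rst ps₁ mv).map (shf (M * (Bp * (bk * c ^ 3) * b0)) hMB ξ)) *
              cst ps₂' ((rst (u₁ :: u₂ :: qs₂) ∅).map
                (shf (M * (Bp * (bk * c ^ 3) * b0)) hMB (-2 * ξ)))) ^ (M₀ : ℝ) :=
            Real.one_le_rpow (one_le_mul_of_one_le_of_one_le (YV61.one_le_cst _ _)
              (YV61.one_le_cst _ _)) (Nat.cast_nonneg _)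
          refine t10.trans ?_
          calc X ^ (e + ε / 4) ≤ (H * (1 + |ξ|)) ^ M₀ * X ^ (e + ε / 4) :=
                le_mul_of_one_le_left (by positivity) hHM
            _ ≤ _ := le_mul_of_one_le_right (by positivity) t11

/-- **the `y`-side with the moved mass chosen** -/
theorem ys_choice (hd : 0 ≤ d) (hd8 : d ≤ 1 / 8) {K : ℝ} (hK : 0 ≤ K) {ε : ℝ} (hε : 0 < ε) :
    ∃ σ₀ R₁ : ℝ, 0 < σ₀ ∧ 0 ≤ R₁ ∧ ∀ σ : ℝ, 0 < σ → σ ≤ σ₀ → ∀ ρ : ℝ, 0 < ρ →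
    ∀ (lam' : Λ) (N : ℕ) (B₀ : ℝ), 0 ≤ B₀ →
    ∃ (M₀ : ℕ) (X₀ : ℝ), 3 ≤ X₀ ∧ ∀ X : ℝ, X₀ ≤ X →
    ∀ (P : DPar), (∀ k : Kd, IsChar (chK P k)) → P.OK →
    ∀ (u₁ u₂ : Pq) (ps₁ qs₂ : List Pq), Dq.lump u₁ → Dq.lump u₂ → ps₁.length ≤ N →
      qs₂.length ≤ N → (∀ p ∈ ps₁, p.kd = .am) → (∀ p ∈ qs₂, p.kd = .mo) →
      (∀ p ∈ ps₁, Dq.nl X p ≤ σ / 4) → (∀ p ∈ qs₂, Dq.lump p ∨ Dq.nl X p ≤ σ) →
      Ls ps₁ ≤ K * Real.log X →
    ∀ H : ℝ, (∀ p ∈ u₁ :: u₂ :: (ps₁ ++ qs₂), 0 ≤ p.z ∧ p.z ≤ B₀ * Real.log X ∧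
      (nm p.d : ℝ) ≤ X ^ B₀ ∧ 1 + |p.t| ≤ H) →
    ∀ (M M' Bp bk c b0 z e₀ : Eis) (η : Eis → ℂ) (j : ℤ) (ξ : ℝ)
      (hMB : M * (Bp * (bk * c ^ 3) * b0) ≠ 0),
      (nm (M * (Bp * (bk * c ^ 3) * b0)) : ℝ) ≤ X ^ B₀ →
      IsPrim bk → IsPrim c → Sm M b0 → Sm M e₀ →
    PrI M z → HC M' η → (∀ p : Eis, Prime p → p ∣ M' → p ∣ M) →
    (∀ b, IsPrim b → chK (π lam') .am b = chK P .am b * End699.tw η j b) →
    (∀ b, IsPrim b → chK (π lam') .mo b = chK P .mo b *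
      (conj (End699.tw η j b) * conj (End699.tw η j b))) →
    ∀ (h₁ : FS (alL h (ps₁.map (Pq.pc P)))) (h₂ : FS (alL h ((u₁ :: u₂ :: qs₂).map (Pq.pc P))))
      (OO : Finset (Eis × Eis)), (∀ o ∈ OO, IsPrim o.1 ∧ IsPrim o.2) →
    ∀ (lam : {x // x ∈ OO} → ℝ) (v w : {x // x ∈ OO} → Eis → ℂ),
      Dat4 M 1 lam v w (X ^ B₀) →
      (∀ o, w o = mulw e₀ (ww M (alL h (ps₁.map (Pq.pc P)))
        (alL h ((u₁ :: u₂ :: qs₂).map (Pq.pc P)))
          (h₁.fin.toFinset ×ˢ h₂.fin.toFinset) z (nu2 o))) →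
    ∀ G : Eis → ℂ, (∀ y, Sm M y → G y = gx η j ξ y) →
    ∀ (be kn : Tm {x // x ∈ OO} → Eis) (𝒥 : Finset (Tm {x // x ∈ OO})),
      (∀ t ∈ 𝒥, t.OK M 1 ∧ t.val 1 lam v w G ≠ 0 ∧ Pre Bp bk c be t ∧
        t.k * nu2 t.o = kn t * b0 ^ 3 ∧ (∀ p : Eis, Prime p → p ∣ b0 → p ∣ nu2 t.o) ∧
        (nm (yK nu2 t) : ℝ) ≤ X ^ B₀) →
    ∀ l : ℝ, 0 ≤ l → Real.exp l ≤ X ^ B₀ →
      (∀ t ∈ 𝒥, (nm (yF kn be bk t) : ℝ) ≤ Real.exp l) →
    ∀ Wx : Tm {x // x ∈ OO} → ℝ, (∀ t ∈ 𝒥, 0 ≤ Wx t) → ∀ S₀ : ℝ, 0 ≤ S₀ →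
    (∀ t ∈ 𝒥, ∀ f1 f2 f3 D1' Z'' : Eis, e₀ = f1 * f2 * f3 → Sm M f1 → Sm M f2 → Sm M f3 →
      t.D1 = f1 * D1' → t.Z * t.Z' = f2 * Z'' → IsCoprime f3 t.D1 → IsCoprime f3 (t.B * t.b) →
      PrI (t.B * t.b) f2 → IsCoprime (D1' * Z'') b0 →
      ∀ l' m : Eis, IsPrim l' → IsPrim m → l' * m ^ 2 = z * Z'' →
      Real.log (nm l') + Real.log (nm D1') ≤ Ls ps₁ + ρ * Real.log X →
      Real.log (nm m) ≤ u₁.z + u₂.z + Ls qs₂ + ρ * Real.log X →
      ∃ κ Mv q wv y mx e Sx : ℝ,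
        Nom K (σ / 4) (Real.log X) l (u₁.z + u₂.z) (Real.log (nm m)) (Ls qs₂) (Ls ps₁)
          (Real.log (nm l') + Real.log (nm D1')) κ Mv q wv y mx ∧
        GoodYM d κ Mv q wv y e ∧ 0 ≤ Sx ∧ Sx * X ^ e ≤ S₀ ^ 2 ∧
        XSide h P ps₁ M (Bp * (bk * c ^ 3) * b0) η j ξ z 𝒥 (yF kn be bk) Wx (Real.log X) σ R₁
          (Real.log (nm l') + Real.log (nm D1')) mx Sx) →
    ∑ t ∈ 𝒥, Wx t * ‖t.ys w G‖ ≤ (H * (1 + |ξ|)) ^ M₀ * X ^ ε * S₀ := by
  obtain ⟨σ₀, R₁, h1, h2, V⟩ := ys_choiceT hpu hP hN R C hd hd8 hK hε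
  refine ⟨σ₀, R₁, h1, h2, fun σ hσ hσσ ρ hρ lam' N B₀ hB₀ => ?_⟩
  obtain ⟨M₀, X₀, h3, V⟩ := V σ hσ hσσ ρ hρ lam' N B₀ hB₀
  refine ⟨M₀, X₀, h3, ?_⟩
  intro X hX P hchar hPOK u₁ u₂ ps₁ qs₂ hu₁ hu₂ hl₁ hl₂ hk₁ hk₂ hg₁ hg₂ hLs H hdat M M' Bp bk c
    b0 z e₀ η j ξ hMB hmod hbk hc hb0 he₀ hz hη hM' hc₁ hc₂ h₁ h₂ OO hOO lam v w hD hw G hG be
    kn 𝒥 hJ l hl0 hlX hKle Wx hWx S₀ hS₀ hyp
  refine V X hX P hchar hPOK u₁ u₂ ps₁ qs₂ hu₁ hu₂ hl₁ hl₂ hk₁ hk₂ hg₁ hg₂ hLs H hdat M M' Bp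
    bk c b0 z e₀ η j ξ hMB hmod hbk hc hb0 he₀ hz hη hM' hc₁ hc₂ h₁ h₂ OO hOO lam v w hD hw G hG
    be kn 𝒥 hJ l hl0 hlX hKle Wx hWx S₀ hS₀ ?_
  intro t ht f1 f2 f3 D1' Z'' g1 g2 g3 g4 g5 g6 g7 g8 g9 g10 l' m hl' hm hlm h5 h6
  obtain ⟨κ, Mv, q, wv, y, mx, e, Sx, k1, k2, k3, k4, k5⟩ :=
    hyp t ht f1 f2 f3 D1' Z'' g1 g2 g3 g4 g5 g6 g7 g8 g9 g10 l' m hl' hm hlm h5 h6
  exact ⟨κ, Mv, q, wv, y, mx, e, Sx, k1, Or.inl k2, k3, k4, k5⟩

end

end Crest.Agent.R017.YsM61
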