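import Crest.Agent.R017.JxS_679
import Crest.Agent.R017.YsCh_61

/-!
# Row 17, C70/E4 (version 7): helper61's `XSide` from one moment (helper512)

* `xside_gen` : `XSide` from one moment per `(D1, b₁)` (helper679's `hx_brKg`, `hx_br0Kg`)
* `th_of` : the hypotheses `TH` on the terms from `Dat4`
-/

set_option autoImplicit false

noncomputable section

open Complex Finset
open scoped ComplexConjugate Classical

namespace Crest.Agent.R017.XSd512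

open Crest.Agent.R012 Crest.Agent.R012.Eis Crest.Agent.R012.Mob705
open Crest.Agent.R012.Div277
open Crest.Agent.R012.PSer47 (IsChar)
open Crest.Agent.R017.Sx545 (Sm)
open Crest.Agent.R017.C70 (CbF)
open Crest.Agent.R017.CM106 (CS FS)
open Crest.Agent.R017.FE47 (PU)
open Crest.Agent.R017.HP842 (Pc pc)
open Crest.Agent.R017.End699 (HC)
open Crest.Agent.R017.B770 (DPar)
open Crest.Agent.R017.Prov71
open Crest.Agent.R017.E4352
open Crest.Agent.R017.E4J352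
open Crest.Agent.R017.E4D164 (ww mulw pu cb)
open Crest.Agent.R017.E4Yb792 (tP tP_OK th1 th2)
open Crest.Agent.R017.E4y92 (Dk)
open Crest.Agent.R017.E4RH858 (Pf pf Facts ext_pf)
open Crest.Agent.R017.YsM61 (yF XSide)
open Crest.Agent.R017.JyF744 (nu2)
open Crest.Agent.R017.JxG679 Crest.Agent.R017.JxH679 Crest.Agent.R017.JxM679
open Crest.Agent.R017.JxL679 Crest.Agent.R017.JxN679 Crest.Agent.R017.JxP679
open Crest.Agent.R017.JxQ679 Crest.Agent.R017.JxS679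

/-- the weight of helper61's bracket -/
def Wx {O : Type} (lam : O → ℝ) (v : O → Eis → ℂ) (G : Eis → ℂ) (t : Tm O) : ℝ :=
  (nm (t.D1 * E4RH858.b1 t) : ℝ) ^ (-(1 / 2) : ℝ) * ((lam t.o * nm t.k)⁻¹ * ‖t.xs v G‖)

variable {OO : Finset (Eis × Eis)}

/-- the moment of the `x`-side with a natural factor -/
def XMo (M : Eis) (v : {x // x ∈ OO} → Eis → ℂ) (G : Eis → ℂ) (Pp : Pf)
    (Oc : Finset {x // x ∈ OO}) (nkk : ℕ) (Pk : Eis → Prop) (D b : Eis)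
    (H : {x // x ∈ OO} → Eis → ℝ) : ℝ :=
  ∑ o ∈ Oc, ∑ k ∈ (Dk M (2 ^ nkk - 1 / 2)).filter Pk, (nm k : ℝ)⁻¹ *
    (‖Sd ((pkP Pp o D b).v' v G) k‖ ^ 2 * H o k)

set_option maxHeartbeats 1000000 in
/-- **`XSide` from one moment per `(D1, b₁)`** -/
theorem xside_gen {h : ℝ → ℝ} {c₀ : ℝ} (hpu : PU h c₀) {ε : ℝ} (hε : 0 < ε) (N : ℕ) :
    ∃ C A₁ : ℝ, 1 ≤ C ∧ 1 ≤ A₁ ∧ ∀ {OO : Finset (Eis × Eis)} (M M' g1 g2 : Eis),
    IsPrim g1 → IsPrim g2 → ∀ (Y : ℝ), 1 ≤ Y →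
    ∀ (P : DPar), (∀ k : Kd, IsChar (chK P k)) → ∀ (ps₁ : List Pq), ps₁.length ≤ N →
    ∀ (η : Eis → ℂ) (j : ℤ) (ξ : ℝ), HC M' η → ∀ (Bq b0 : Eis), b0 ∣ Bq → ∀
    (lam : {x // x ∈ OO} → ℝ) (v : {x // x ∈ OO} → Eis → ℂ) (G : Eis → ℂ) (cl : Win)
    (Pp : Pf) (bk : Eis) (kn : Tm {x // x ∈ OO} → Eis) (z : Eis), z ≠ 0 →
    ∀ (Pk : Eis → Prop) (Oc : Finset {x // x ∈ OO}) (𝒥 : Finset (Tm {x // x ∈ OO}))
    (L σ R₁ l₁ mx Sx Bm : ℝ),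
    0 < L → 0 ≤ Sx → A₁ * Real.exp ((mx + σ) * L) ≤ Bm → Bm ≤ Y →
    (∀ t ∈ 𝒥, TH M lam Y cl Pp z Oc t ∧ Pk t.k ∧ t.k * nu2 t.o = kn t * b0 ^ 3) →
    (∀ t ∈ 𝒥, g1 ∣ t.D1 ∧ g2 ∣ E4RH858.b1 t) →
    (mx = 0 → ∀ t ∈ 𝒥,
      XMo M v G Pp Oc cl.nkk Pk t.D1 (E4RH858.b1 t) (fun _ _ => 1) ≤ Sx) →
    (mx ≠ 0 → ∀ t ∈ 𝒥, ∀ bm : {x // x ∈ OO} → Eis → ℂ,
      (∀ o ∈ Oc, NatS Bm (C * Y ^ ε * Bm) (bm o)) →
      XMo M v G Pp Oc cl.nkk Pk t.D1 (E4RH858.b1 t) (fun o k => ‖CS (bm o) k‖ ^ 2) ≤ Sx) →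
    XSide h P ps₁ M Bq η j ξ z 𝒥 (yF kn E4RH858.b1 bk) (Wx lam v G) L σ R₁ l₁ mx
      (((nm g1 : ℝ) * nm g2)⁻¹ * (C * Y ^ ε * (2 ^ cl.nkk / (2 ^ cl.nk) ^ 2 * Sx))) := by
  obtain ⟨C, A₁, hC, hA₁, H⟩ := hx_brKg hpu hε N
  obtain ⟨C', hC', H'⟩ := hx_br0Kg hε
  refine ⟨max C C', A₁, le_max_of_le_left hC, hA₁, ?_⟩
  intro OO M M' g1 g2 hg1 hg2 Y hY P hP ps₁ hl₁ η j ξ hη Bq b0 hb0 lam v G cl Pp bk kn z hz Pk
    Oc 𝒥 L σ R₁ l₁ mx Sx Bm hL hSx hBm hBY hJ hg h0 h1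
  have hY0 : 0 < Y := by linarith
  have hBm0 : 0 ≤ Bm := le_trans (by positivity) hBm
  have hn : (0 : ℝ) ≤ 2 ^ cl.nkk / (2 ^ cl.nk) ^ 2 * Sx := by positivity
  have hgi : (0 : ℝ) ≤ ((nm g1 : ℝ) * nm g2)⁻¹ := by positivity
  intro n₁ _ _ mv hmv hmm E' hE' x₁ hx
  by_cases hmx : mx = 0
  · have e0 := hmv hmx
    subst e0
    have k1 := H' M g1 g2 hg1 hg2 Y hY lam v G cl Pp Pk Oc 𝒥 Sx hSx
      (fun t ht => by
        obtain ⟨g, gk, -⟩ := hJ t ht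
        exact ⟨g.F, g.ok, g.cl, g.pf, g.o, g.D1, g.b1, gk⟩) hg
      (fun t ht => by
        have k2 := h0 hmx t ht
        unfold XMo at k2
        simpa only [mul_one] using k2) E' hE'
    refine le_trans (le_of_eq ?_) (k1.trans ?_)
    · refine sum_congr rfl fun t _ => ?_
      rw [prod_empty, mul_one]
      rfl
    · exact mul_le_mul_of_nonneg_left (mul_le_mul_of_nonneg_right
        (mul_le_mul_of_nonneg_right (le_max_right _ _) (by positivity)) hn) hgi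
  · have hmm' : ∑ i ∈ mv, ((ps₁.get i).z - n₁ i) ≤ (mx + σ) * L := by
      have h2 := (abs_le.1 hmm).2
      have h3 : (∑ i ∈ mv, ((ps₁.get i).z - n₁ i)) / L ≤ mx + σ := by linarith
      rwa [div_le_iff₀ hL] at h3
    have k1 := H M M' g1 g2 hg1 hg2 Y hY P hP ps₁ [] hl₁ (Nat.zero_le _) η j ξ hη Bq b0 hb0
      lam v G cl Pp bk (yF kn E4RH858.b1 bk) z hz Pk
      Oc 𝒥 Sx Bm hSx hBm0 hBY
      (fun t ht => by
        obtain ⟨g, gk, gn⟩ := hJ t ht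
        refine ⟨g, gk, ?_⟩
        unfold yF
        linear_combination (-(t.D1 ^ 2 * (E4RH858.b1 t ^ 2 * bk))) * gn) hg
      n₁ (fun i => i.elim0) mv ∅
      (by
        rw [sum_empty, add_zero]
        refine le_trans (mul_le_mul_of_nonneg_left (Real.exp_le_exp.2 hmm') (by linarith)) hBm)
      (fun t ht bm hbm => by
        refine h1 hmx t ht bm fun o ho => NatS.mono (hbm o ho) ?_
        exact mul_le_mul_of_nonneg_right (mul_le_mul_of_nonneg_right (le_max_left _ _)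
          (by positivity)) hBm0)
      E' hE' x₁ (fun _ i => i.elim0)
      (fun t ht => by
        obtain ⟨g1, g2⟩ := hx t ht
        refine ⟨g1, fun i => i.elim0, ?_⟩
        simpa using g2)
    refine le_trans (le_of_eq ?_) (k1.trans ?_)
    · refine sum_congr rfl fun t _ => ?_
      rw [prod_empty, mul_one]
      rfl
    · exact mul_le_mul_of_nonneg_left (mul_le_mul_of_nonneg_right
        (mul_le_mul_of_nonneg_right (le_max_left _ _) (by positivity)) hn) hgi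

/-- **the hypotheses on the terms** -/
theorem th_of {M : Eis} {lam : {x // x ∈ OO} → ℝ} {v w : {x // x ∈ OO} → Eis → ℂ} {G : Eis → ℂ}
    {X Yw : ℝ} (hd : Dat4 M 1 lam v w X) {e₀ z : Eis} (he₀ : IsPrim e₀) {b₁ b₂ : Eis → ℂ}
    {Lf : Finset (Eis × Eis)} (hw : ∀ o, w o = mulw e₀ (ww M b₁ b₂ Lf z (nu2 o)))
    (hL : ∀ p ∈ Lf, b₁ p.1 ≠ 0 → b₂ p.2 ≠ 0 → (nm (p.1 * p.2 ^ 2) : ℝ) ≤ Yw) {Y : ℝ}
    (hXY : X ≤ Y) (hYw : 0 ≤ Yw) (heY : X * Yw ≤ Y) {cl : Win} {Pp : Pf}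
    {Oc : Finset {x // x ∈ OO}} {t : Tm {x // x ∈ OO}} (hok : t.OK M 1)
    (hv : t.val 1 lam v w G ≠ 0) (hcl : t.In lam cl) (hpf : pf t = Pp) (ho : t.o ∈ Oc) :
    TH M lam Y cl Pp z Oc t := by
  have hF := E4RH858.facts hd hok hv
  obtain ⟨-, -, hys⟩ := val_ne hv
  obtain ⟨y, -, -, hy⟩ := JxG679.ys_ne hys
  have h2 : (nm (t.D1 * (t.Z * t.Z' * y)) : ℝ) ≤ X := hd.wy _ _ hy
  have n2 : t.D1 * (t.Z * t.Z' * y) ≠ 0 := ((hd.hw _).sm _ hy).ne_zero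
  have le : ∀ {a b : Eis}, b ≠ 0 → a ∣ b → (nm b : ℝ) ≤ X → (nm a : ℝ) ≤ X := by
    intro a b hb hab hbY
    exact le_trans (by exact_mod_cast nm_le_of_dvd hb hab) hbY
  have he : (nm e₀ : ℝ) ≤ X := by
    refine le n2 ?_ h2
    rw [hw] at hy
    obtain ⟨u, h4, -⟩ := E4D164.mulw_ne he₀.ne_zero hy
    exact ⟨u, h4⟩
  refine ⟨hF, hok, hcl, hpf, ho, ?_, ?_, ?_⟩
  · exact (le n2 (dvd_mul_right _ _) h2).trans hXY
  · refine (le n2 ?_ h2).trans hXY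
    have h3 : E4RH858.b1 t ∣ t.Z' := by
      rw [hF.Z']
      exact dvd_mul_right _ _
    exact ((h3.mul_left _).mul_right _).mul_left _
  · exact (size_E he₀ (hw t.o) hys hL).trans
      ((mul_le_mul_of_nonneg_right he hYw).trans heY)

end Crest.Agent.R017.XSd512
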