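import Crest.Agent.R017.XHn_512
import Crest.Agent.R017.E4Sa_352
import Crest.Agent.R017.XSd_512

/-!
# Row 17, C70/E4 (version 7), the `x`-side in the large sieve range at helper164's data (helper512)

* `g0_S` : the primes of `g e₀ t` divide `S`
* `sf_Dt` : helper679's `SF` at the data
* `xmo_HB` : the moment with a natural factor from `XHB`;  `xmo_HB0` : without the factor
-/

set_option autoImplicit false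

noncomputable section

open Complex Finset
open scoped ComplexConjugate

namespace Crest.Agent.R017.XHn512

open Crest.Agent.R012 Crest.Agent.R012.Eis
open Crest.Agent.R012.Mob705 hiding pb mem_pb
open Crest.Agent.R012.Div277
open Crest.Agent.R012.LS2 (S mem_S)
open Crest.Agent.R017.C70 (OKJ JC CbF)
open Crest.Agent.R017.CM106 (CS FS)
open Crest.Agent.R017.End699 (HC)
open Crest.Agent.R017.E4352 (PrI)
open Crest.Agent.R017.E4J352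
open Crest.Agent.R017.B770 (DPar)
open Crest.Agent.R017.Prov71
open Crest.Agent.R017.E5B71 Crest.Agent.R017.E4D164 Crest.Agent.R017.E4U164
open Crest.Agent.R017.E5L770
open Crest.Agent.R017.E5k54 (alb)
open Crest.Agent.R017.EnX743
open Crest.Agent.R017.E4579 (bpt)
open Crest.Agent.R017.E4y92 (Dk)
open Crest.Agent.R017.E4RH858 (Pf pf Facts)
open Crest.Agent.R017.JxB679 (Ex)
open Crest.Agent.R017.JxL679 Crest.Agent.R017.JxP679 Crest.Agent.R017.JxR679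
open Crest.Agent.R017.JxS679
open Crest.Agent.R017.XSd512 (XMo)

/-- the `x`-side at a coefficient function `α` (class N: `alb (f3 ..) x.β`, class E: `alX ..`) -/
def vG {Λ : Type*} (π : Λ → DPar) (lam : Λ × Eis) (Jf : ℝ → ℝ → ℝ → Finset (Eis × Eis))
    (a : Bd × ℕ) (x : Dt) (α : Eis → ℂ) (o : x.O π lam Jf a) : Eis → ℂ :=
  vX (π lam.1).n₃ (fun k => conj ((π lam.1).χ₃ k)) (π lam.1).l₃ (x.I Jf a) (omL a.2) x.ph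
    (x.E a.1) α x.g x.e₀ x.t x.c₀ x.g' o

lemma vG_v {Λ : Type*} (π : Λ → DPar) (h : ℝ → ℝ) (lam : Λ × Eis)
    (Jf : ℝ → ℝ → ℝ → Finset (Eis × Eis)) (a : Bd × ℕ) (x : Dt) :
    x.v π h lam Jf a = vG π lam Jf a x (alb (f3 (π lam.1) h lam.2 a.1) x.β) := rfl

section data

variable {Λ : Type*} {π : Λ → DPar} {lam : Λ × Eis}
  {Jf : ℝ → ℝ → ℝ → Finset (Eis × Eis)} {a : Bd × ℕ} {x : Dt} {Bf : ℝ → ℝ → ℝ → ℝ}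
  {e0 r ε X : ℝ} {α : Eis → ℂ}

/-- the primes of `g e₀ t` divide `S` -/
lemma g0_S (hx : x.OK (π lam.1) Bf e0 r ε X a.1) (ha : a.1.ok)
    (hP : a.1.okP (π lam.1)) (o : x.O π lam Jf a) {p : Eis} (hp : Prime p)
    (hd : p ∣ x.g * x.e₀ * x.t) : p ∣ o.1.1 := by
  classical
  obtain ⟨⟨o1, o2⟩, ho⟩ := o
  have ho' := ho
  unfold Dt.O OD OU at ho'
  rw [mem_filter, mem_image] at ho'
  obtain ⟨⟨i, hi, he⟩, -⟩ := ho'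
  obtain ⟨⟨hi1, hi2⟩, hcl⟩ := Dt.mem_I.mp hi
  obtain ⟨q1, q2, q3, -⟩ := hx.Q _ hi1
  have he1 : sS x.g x.e₀ x.t i.1 = o1 := congrArg Prod.fst he
  obtain ⟨g1, g2, g3⟩ := (E5P571.mem_Gd ha.2.2).mp hx.g
  have hEp : IsPrim (x.E a.1) := hP.1.prim.mul (T3_prim x.β hx.β)
  obtain ⟨t1, t2, -⟩ := (E5P571.mem_Gd (tS_prim hEp).ne_zero).mp hx.t
  obtain ⟨-, e1, e2⟩ := (LS2.mem_S (Real.exp_nonneg _)).mp hx.e₀
  have hs1 : IsPrim (i.1 ^ 2 * x.g) := (q1.1.pow 2).mul g1.1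
  have L1 := (DgA829.lc_dvd hs1 e1 (DgA829.lc (i.1 ^ 2 * x.g) x.e₀)).mp dvd_rfl
  have L2 : DgA829.lc (i.1 ^ 2 * x.g) x.e₀ ∣ sS x.g x.e₀ x.t i.1 ∧ x.t ∣ sS x.g x.e₀ x.t i.1 :=
    (DgA829.lc_dvd (DgA829.lc_prim hs1 e1) t1.1 _).mp dvd_rfl
  have k1 : x.g ∣ sS x.g x.e₀ x.t i.1 := (dvd_mul_left _ _).trans (L1.1.trans L2.1)
  have k2 : x.e₀ ∣ sS x.g x.e₀ x.t i.1 := L1.2.trans L2.1
  have k3 : x.t ∣ sS x.g x.e₀ x.t i.1 := L2.2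
  show p ∣ o1
  rw [← he1]
  rcases hp.dvd_or_dvd hd with h | h
  · rcases hp.dvd_or_dvd h with h | h
    · exact h.trans k1
    · exact h.trans k2
  · exact h.trans k3

/-- the length bound of the level -/
lemma lv_le {y : Eis × Eis} (hy : y ∈ J3 Jf a.1 a.2) (hJ : OKJ (J3 Jf a.1 a.2))
    (ho : omL a.2 y ≠ 0) : (nm (y.2 * y.1 ^ 2) : ℝ) ≤ 2 * 2 ^ a.2 := by
  have h1 := (abs_le.mp (omL_supp ho)).2
  have h3 : (0 : ℝ) < nm (y.2 * y.1 ^ 2) := by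
    exact_mod_cast nm_pos.mpr (mul_ne_zero (E5b54.JC_ne_zero (hJ.jc _ hy))
      (pow_ne_zero 2 (hJ.prim _ hy).ne_zero))
  have h4 : Real.log (nm (y.2 * y.1 ^ 2) : ℝ) ≤ Real.log (2 * 2 ^ a.2) := by
    rw [Real.log_mul (by norm_num) (by positivity), Real.log_pow]
    unfold lv at h1
    linarith
  exact (Real.log_le_log_iff h3 (by positivity)).mp h4

/-- **helper679's `SF` at the data** -/
lemma sf_Dt (hJf : ∀ l N z, OKJ (Jf l N z)) (hx : x.OK (π lam.1) Bf e0 r ε X a.1) (ha : a.1.ok)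
    (hP : a.1.okP (π lam.1)) {Y Lm : ℝ} (hLm : 0 < Lm) {P : Eis}
    {Oc : Finset (x.O π lam Jf a)} (hO : ∀ o ∈ Oc, Lm ≤ lD o ∧ lD o ≤ Y)
    (hc : ∀ o ∈ Oc, IsCoprime P o.1.1) :
    SF Y (2 ^ 27 * (2 * 2 ^ a.2 * 8 ^ x.nS / 8 ^ x.nE) / Lm ^ 2) (2 ^ (x.m 0 0 + x.m 1 2))
      (2 ^ x.m 0 0) P (x.g * x.e₀ * x.t) (vG π lam Jf a x α) Oc (fun o => o.1.1) where
  Sp o _ := (Str699.o_spec hJf ha hP hx o).1
  SY o ho := by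
    obtain ⟨p1, p2, -⟩ := Str699.o_spec hJf ha hP hx o
    refine le_trans ?_ (hO o ho).2
    unfold lD
    exact_mod_cast nm_le_of_dvd (mul_ne_zero p1.ne_zero p2.ne_zero) (dvd_mul_right _ _)
  gS o _ p hp hd := g0_S hx ha hP o hp hd
  cop := hc
  supp o ho y hy := by
    obtain ⟨h1, -, h3, h4, -⟩ := supp_vX hJf hx ha hP
      (fun y hy ho => lv_le hy (okJ3 hJf a.1 a.2) ho) o hy
    refine ⟨h1, h3, ?_⟩
    rw [le_div_iff₀ (by positivity)]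
    refine le_trans (mul_le_mul_of_nonneg_left ?_ (Nat.cast_nonneg _)) h4
    exact pow_le_pow_left₀ hLm.le (hO o ho).1 2
  sig o _ y hy := sig_vX hJf hx ha hP (fun y hy ho => lv_le hy (okJ3 hJf a.1 a.2) ho) o y hy
  sig' o _ y hy := sig2_vX hJf hx ha hP (fun y hy ho => lv_le hy (okJ3 hJf a.1 a.2) ho) o y hy

/-- the `δ` of the class -/
lemma mem_Dd {V P σ : ℝ} (hV : 0 ≤ V) (hσ : 0 < σ) (hP : 0 < P) {δ : Eis} (hδ : δ ∈ Dd V P σ) :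
    IsPrim δ ∧ Squarefree δ ∧ (nm δ : ℝ) ≤ √(V / (P * σ)) := by
  unfold Dd at hδ
  obtain ⟨h1, h2⟩ := mem_filter.mp hδ
  obtain ⟨-, h3, h4⟩ := (mem_S hV).mp h1
  refine ⟨h3, h4, ?_⟩
  rw [Real.le_sqrt (Nat.cast_nonneg _) (by positivity), le_div_iff₀ (by positivity)]
  linarith

/-- **the energies of the class** in the three weights -/
lemma hE_Dt (hJf : ∀ l N z, OKJ (Jf l N z)) (hx : x.OK (π lam.1) Bf e0 r ε X a.1) (ha : a.1.ok)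
    (hP : a.1.okP (π lam.1)) (hψ : HC (π lam.1).n₃ (fun k => conj ((π lam.1).χ₃ k)))
    {Oc : Finset (x.O π lam Jf a)} {β₀ : Eis}
    (hB : ∀ o ∈ Oc, Str699.b3 (o.1.1 * o.1.2) = β₀) {Lm : ℝ} (hO : ∀ o ∈ Oc, lD o ≤ Lm)
    {V P σ : ℝ} (hV : 0 ≤ V) (hσ : 0 < σ) (hP0 : 0 < P) {T : ℝ}
    (hT : ∀ y ∈ J3 Jf a.1 a.2, omL a.2 y ≠ 0 → (tau y.1 : ℝ) * tau y.2 ≤ T)
    (A₁ A₂ A₃ : ℝ) (h1 : 0 ≤ A₁) (h2 : 0 ≤ A₂) (h3 : 0 ≤ A₃) :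
    ∑ δ ∈ Dd V P σ, (nm δ : ℝ) *
        (A₁ + A₂ / (nm δ : ℝ) ^ 2 + A₃ / (nm δ : ℝ) ^ ((4 : ℝ) / 3)) *
        ∑ o ∈ Oc, Ex V (vG π lam Jf a x α o) δ ≤
      (8 * (Lm ^ 2 * 2 ^ x.nE / 2 ^ x.nS)) * (T *
        (A₁ * min (TWa (xJB Jf a x β₀) (omL a.2) α x.e₀ 1 1)
          (√(V / (P * σ)) *
            TWa (xJB Jf a x β₀) (omL a.2) α x.e₀ 1 0) +
          (A₂ + A₃) *
            TWa (xJB Jf a x β₀) (omL a.2) α x.e₀ 1 0)) :=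
  hb_vXBJ hψ (π lam.1).l₃ hJf hx ha hP (omL a.2) α Oc hB hO V
    h1 h2 h3 (Real.sqrt_nonneg _) hT (fun _ hδ => mem_Dd hV hσ hP0 hδ)

/-- `T`-sums are nonnegative -/
lemma TWa_nonneg (J : Finset (Eis × Eis)) (om : Eis × Eis → ℂ) (α : Eis → ℂ) (e₀ δ : Eis)
    (s : ℝ) : 0 ≤ TWa J om α e₀ δ s := by
  unfold TWa
  exact sum_nonneg fun y _ => by positivity

end data

section main

variable {Λ : Type*}

/-- the hypotheses of one block in the large sieve range -/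
structure BlkHB (π : Λ → DPar) (lam : Λ × Eis) (Jf : ℝ → ℝ → ℝ → Finset (Eis × Eis))
    (a : Bd × ℕ) (x : Dt) (Y : ℝ) (nkk : ℕ) (Lm : ℝ) (Pp : Pf) (s₁ β₀ : Eis)
    (Oc : Finset (x.O π lam Jf a)) (Pk : Eis → Prop) (T : ℝ) (V : ℝ) : Prop where
  kY : 2 * (2 ^ nkk - 1 / 2) ≤ Y
  L0 : 0 < Lm
  Ve : V = 2 ^ 27 * (2 * 2 ^ a.2 * 8 ^ x.nS / 8 ^ x.nE) / Lm ^ 2
  VY : V ≤ Y
  pP : IsPrim (Pp.R * Pp.R')
  pb : IsPrim Pp.b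
  O : ∀ o ∈ Oc, Lm ≤ lD o ∧ lD o ≤ 2 * Lm
  LY : 2 * Lm ≤ Y
  cop : ∀ o ∈ Oc, IsCoprime (Pp.R * Pp.R') o.1.1
  b3 : ∀ o ∈ Oc, Str699.b3 (o.1.1 * o.1.2) = β₀
  Pk : ∀ k ∈ Dk (π lam.1).n₃ (2 ^ nkk - 1 / 2), Pk k → sk (x.g * x.e₀ * x.t) k = s₁
  T0 : 0 ≤ T
  T : ∀ y ∈ J3 Jf a.1 a.2, omL a.2 y ≠ 0 → (tau y.1 : ℝ) * tau y.2 ≤ T

/-- the numbers of one block, tolerance `τ`, base `X` -/
structure NumHB (Jf : ℝ → ℝ → ℝ → Finset (Eis × Eis)) (a : Bd × ℕ) (x : Dt) (α : Eis → ℂ) (nkk : ℕ) (Pp : Pf) (s₁ β₀ : Eis) (V cV X τ k v1 d0 c12 s1 t : ℝ) :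
    Prop where
  hk : (2 : ℝ) ^ nkk ≤ X ^ (k + τ)
  hs1 : X ^ (s1 - τ) ≤ min (nm s₁ : ℝ) (2 ^ x.m 0 0)
  hs2 : min (nm s₁ : ℝ) (2 ^ x.m 0 0) ≤ X ^ (s1 + τ)
  hc12 : (2 : ℝ) ^ x.m 1 2 ≤ X ^ (c12 + τ)
  hV1 : V / nm (Pp.R * Pp.R') ≤ cV * (X ^ (v1 + τ) * 2 ^ (x.m 0 0 + x.m 1 2))
  T0 : TWa (xJB Jf a x β₀) (omL a.2) α x.e₀ 1 0 ≤ X ^ (t + τ)
  T1 : min (TWa (xJB Jf a x β₀) (omL a.2) α x.e₀ 1 1)
    (√(V / (nm (Pp.R * Pp.R') * 2 ^ (x.m 0 0 + x.m 1 2))) *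
      TWa (xJB Jf a x β₀) (omL a.2) α x.e₀ 1 0) ≤
    X ^ (t + d0 + τ)

set_option maxHeartbeats 1000000 in
/-- **the moment of one block with a natural factor, from `XHB`** -/
theorem xmo_HB (π : Λ → DPar) {ε : ℝ} (hε : 0 < ε) : ∃ C : ℝ, 1 ≤ C ∧
    ∀ (lam : Λ × Eis) (Jf : ℝ → ℝ → ℝ → Finset (Eis × Eis)), (∀ l N z, OKJ (Jf l N z)) →
    ∀ (a : Bd × ℕ) (x : Dt) (Bf : ℝ → ℝ → ℝ → ℝ) (e0 r ε' X₀ : ℝ),
    x.OK (π lam.1) Bf e0 r ε' X₀ a.1 → a.1.ok → a.1.okP (π lam.1) → ∀ α : Eis → ℂ,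
    HC (π lam.1).n₃ (fun k => conj ((π lam.1).χ₃ k)) →
    ∀ (Y : ℝ), 1 ≤ Y → ∀ (G : Eis → ℂ), (∀ y, IsPrim y → ‖G y‖ ≤ 1) →
    ∀ (nkk : ℕ) (Lm : ℝ) (Pp : Pf) (s₁ β₀ : Eis) (Oc : Finset (x.O π lam Jf a))
    (Pk : Eis → Prop) (T V : ℝ), BlkHB π lam Jf a x Y nkk Lm Pp s₁ β₀ Oc Pk T V →
    ∀ (cV X τ k v1 d0 c12 s1 t mx ex : ℝ), 1 < X → 0 ≤ τ → 1 ≤ cV →
    E4R70.XHB k v1 d0 c12 s1 mx ex →
    NumHB Jf a x α nkk Pp s₁ β₀ V cV X τ k v1 d0 c12 s1 t →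
    ∀ (B Mb : ℝ), 1 ≤ B → B ≤ X ^ (mx + τ) → B ≤ Y → 0 ≤ Mb → ∀ (D b : Eis), IsPrim D →
    IsPrim b → ∀ bm : x.O π lam Jf a → Eis → ℂ, (∀ o ∈ Oc, NatS B Mb (bm o)) →
    XMo (π lam.1).n₃ (vG π lam Jf a x α) G Pp Oc nkk Pk D b (fun o k => ‖CS (bm o) k‖ ^ 2) ≤
      C * Y ^ ε * (Mb / B * (8 * ((2 * Lm) ^ 2 * 2 ^ x.nE / 2 ^ x.nS) * T *
        (6 * cV * X ^ (k + t + ex + 10 * τ)))) := by
  obtain ⟨C, hC, H⟩ := xv_HBS hε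
  refine ⟨C, hC, ?_⟩
  intro lam Jf hJf a x Bf e0 r ε' X₀ hx ha hP α hψ Y hY G hG nkk Lm Pp s₁ β₀ Oc Pk T V hb cV X τ k v1
    d0 c12 s1 t mx ex hX hτ hcV hXHB hn B Mb hB1 hBX hBY hMb D b hD hbp bm hbm
  have hY0 : 0 < Y := by linarith
  have hB0 : 0 < B := by linarith
  have hLm := hb.L0
  have hV0 : 0 ≤ V := by
    rw [hb.Ve]
    positivity
  have hPn : (0 : ℝ) < nm (Pp.R * Pp.R') := by exact_mod_cast nm_pos.mpr hb.pP.ne_zero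
  obtain ⟨g1, g2, g3⟩ := (E5P571.mem_Gd ha.2.2).mp hx.g
  have hEp : IsPrim (x.E a.1) := hP.1.prim.mul (T3_prim x.β hx.β)
  obtain ⟨t1, t2, -⟩ := (E5P571.mem_Gd (tS_prim hEp).ne_zero).mp hx.t
  obtain ⟨-, e1, e2⟩ := (LS2.mem_S (Real.exp_nonneg _)).mp hx.e₀
  have hg₀ : IsPrim (x.g * x.e₀ * x.t) := (g1.1.mul e1).mul t1.1
  have hk1 : (1 : ℝ) ≤ 2 ^ nkk := one_le_pow₀ (by norm_num)
  have hSF : SF Y V (2 ^ (x.m 0 0 + x.m 1 2)) (2 ^ x.m 0 0) (Pp.R * Pp.R') (x.g * x.e₀ * x.t)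
      (vG π lam Jf a x α) Oc (fun o => o.1.1) := by
    have := sf_Dt (α := α) hJf hx ha hP (Y := Y) hLm (P := Pp.R * Pp.R') (Oc := Oc)
      (fun o ho => ⟨(hb.O o ho).1, (hb.O o ho).2.trans hb.LY⟩) hb.cop
    rwa [← hb.Ve] at this
  have k1 := H (π lam.1).n₃ Y hY (vG π lam Jf a x α) G (2 ^ nkk - 1 / 2) V B Mb
    (2 ^ (x.m 0 0 + x.m 1 2)) (2 ^ x.m 0 0) (by linarith) hb.kY hV0 hb.VY hB1 hBY hMb
    (by positivity) (by positivity) hG Pp (x.g * x.e₀ * x.t) s₁ hb.pP hg₀ Oc (fun o => o.1.1) hSF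
    Pk hb.Pk D b hD ((hbp.pow 2).mul hb.pb) bm hbm
  have hEf := hE_Dt (α := α) hJf hx ha hP hψ (Oc := Oc) hb.b3 (Lm := 2 * Lm)
    (fun o ho => (hb.O o ho).2) hV0 (σ := 2 ^ (x.m 0 0 + x.m 1 2)) (by positivity) hPn hb.T
  have k2 := xhb_X (D := Dd V (nm (Pp.R * Pp.R')) (2 ^ (x.m 0 0 + x.m 1 2)))
    (fun δ hδ => (mem_Dd hV0 (by positivity) hPn hδ).1)
    (F := fun δ => ∑ o ∈ Oc, Ex V (vG π lam Jf a x α o) δ) hEf hX hτ hXHB hcV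
    (K' := 2 * (2 ^ nkk - 1 / 2)) (Vp := V / nm (Pp.R * Pp.R'))
    (σ := 2 ^ (x.m 0 0 + x.m 1 2)) (σ' := 2 ^ x.m 0 0) (s₁ := min (nm s₁ : ℝ) (2 ^ x.m 0 0))
    (B := B) (by linarith) (by linarith [hn.hk]) hn.hs1 hn.hs2 (by positivity) (by positivity)
    (by
      rw [pow_add]
      exact mul_le_mul_of_nonneg_left hn.hc12 (by positivity))
    (by positivity) hn.hV1 hB0 hBX
    (le_min (TWa_nonneg _ _ _ _ _ _) (mul_nonneg (Real.sqrt_nonneg _) (TWa_nonneg _ _ _ _ _ _)))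
    hn.T1 (TWa_nonneg _ _ _ _ _ _) hn.T0 (by positivity) hb.T0
  unfold XMo
  refine k1.trans (mul_le_mul_of_nonneg_left ?_ (by positivity))
  refine le_trans (le_of_eq ?_) (mul_le_mul_of_nonneg_left k2 (div_nonneg hMb hB0.le))
  field_simp

set_option maxHeartbeats 1000000 in
/-- **the moment of one block without a natural factor, from `XHB`** -/
theorem xmo_HB0 (π : Λ → DPar) {ε : ℝ} (hε : 0 < ε) : ∃ C : ℝ, 1 ≤ C ∧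
    ∀ (lam : Λ × Eis) (Jf : ℝ → ℝ → ℝ → Finset (Eis × Eis)), (∀ l N z, OKJ (Jf l N z)) →
    ∀ (a : Bd × ℕ) (x : Dt) (Bf : ℝ → ℝ → ℝ → ℝ) (e0 r ε' X₀ : ℝ),
    x.OK (π lam.1) Bf e0 r ε' X₀ a.1 → a.1.ok → a.1.okP (π lam.1) → ∀ α : Eis → ℂ,
    HC (π lam.1).n₃ (fun k => conj ((π lam.1).χ₃ k)) →
    ∀ (Y : ℝ), 1 ≤ Y → ∀ (G : Eis → ℂ), (∀ y, IsPrim y → ‖G y‖ ≤ 1) →
    ∀ (nkk : ℕ) (Lm : ℝ) (Pp : Pf) (s₁ β₀ : Eis) (Oc : Finset (x.O π lam Jf a))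
    (Pk : Eis → Prop) (T V : ℝ), BlkHB π lam Jf a x Y nkk Lm Pp s₁ β₀ Oc Pk T V →
    ∀ (cV X τ k v1 d0 c12 s1 t mx ex : ℝ), 1 < X → 0 ≤ τ → 1 ≤ cV → 0 ≤ mx →
    E4R70.XHB k v1 d0 c12 s1 mx ex →
    NumHB Jf a x α nkk Pp s₁ β₀ V cV X τ k v1 d0 c12 s1 t →
    ∀ (D b : Eis), IsPrim D → IsPrim b →
    XMo (π lam.1).n₃ (vG π lam Jf a x α) G Pp Oc nkk Pk D b (fun _ _ => 1) ≤
      C * Y ^ ε * (8 * ((2 * Lm) ^ 2 * 2 ^ x.nE / 2 ^ x.nS) * T *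
        (6 * cV * X ^ (k + t + ex + 10 * τ))) := by
  obtain ⟨C, hC, H⟩ := xmo_HB π hε
  refine ⟨C, hC, ?_⟩
  intro lam Jf hJf a x Bf e0 r ε' X₀ hx ha hP α hψ Y hY G hG nkk Lm Pp s₁ β₀ Oc Pk T V hb cV X τ k v1
    d0 c12 s1 t mx ex hX hτ hcV hmx hXHB hn D b hD hbp
  have k1 := H lam Jf hJf a x Bf e0 r ε' X₀ hx ha hP α hψ Y hY G hG nkk Lm Pp s₁ β₀ Oc Pk T V hb cV
    X τ k v1 d0 c12 s1 t mx ex hX hτ hcV hXHB hn 1 1 le_rfl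
    (Real.one_le_rpow hX.le (by linarith)) hY zero_le_one D b hD hbp (fun _ => b1s)
    (fun _ _ => natS_b1s)
  simp only [CS_b1s, norm_one, one_pow, div_one, one_mul] at k1
  exact k1

end main

end Crest.Agent.R017.XHn512
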