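import Crest.Agent.R017.XLBa_298
import Crest.Agent.R017.XG3_702

/-!
# Row 17, (LB) as a rule for exponents (helper298)

* `RQ cf Q l ps` : second moment of the list `ps` over the `k` with `nm k ≤ e^l`, `Q k`
* `PI`, `SupI`   : interface: coefficient class and sup bound of the pieces
* `BG_lb`        : **(LB)** for cube-free families, `BG` form, any kinds of granular masses
-/

set_option autoImplicit false
set_option linter.unusedSectionVars false
set_option linter.unusedVariables false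

noncomputable section

open Complex Finset
open scoped ComplexConjugate

namespace Crest.Agent.R017.Lbc298

open Crest.Agent.R012 Crest.Agent.R012.Eis Crest.Agent.R012.LS2 Crest.Agent.R012.Char766
open Crest.Agent.R017.CM106 Crest.Agent.R017.LV404 Crest.Agent.R017.HP842
open Crest.Agent.R017.XG702

variable {Pc τ : Type*} [DecidableEq τ] {D : Pcs Pc τ}

/-- the second moment of a list of pieces over the `k` with `Q k` -/
def RQ (cf : Pc → Eis → ℂ) (Q : Eis → Prop) (l : ℝ) (ps : List Pc) : ℝ := by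
  classical exact ∑ k ∈ (bl (Real.exp l)).filter Q, (ps.map fun p => ‖CS (cf p) k‖ ^ 2).prod

/-- coefficient class of the pieces -/
structure PI (D : Pcs Pc τ) (cf : Pc → Eis → ℂ) (r : ℕ) (c : ℝ) : Prop where
  c0 : 0 ≤ c
  cf : ∀ p, 0 ≤ D.len p → Cf r (Real.exp (D.len p + c)) (cf p)

/-- sup bound of the pieces over the family -/
def SupI (D : Pcs Pc τ) (cf : Pc → Eis → ℂ) (Q : Eis → Prop) (θ : ℝ) : Prop :=
  ∀ ε : ℝ, 0 < ε → ∀ B : ℝ, ∃ δ' : ℝ, 0 < δ' ∧ ∃ X₀ : ℝ, 1 < X₀ ∧ ∀ X : ℝ, X₀ ≤ X → ∀ p : Pc,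
    D.s1 p ≤ X ^ δ' → D.s2 p ≤ X ^ B → 0 ≤ D.len p → D.len p ≤ B * Real.log X →
    ∀ k, Q k → (nm k : ℝ) ≤ X ^ B → ‖CS (cf p) k‖ ≤ X ^ ε * Real.exp (θ * D.len p)

/-! ### lists -/

lemma prod_map_nonneg {β : Type*} (l : List β) (f : β → ℝ) (h : ∀ x ∈ l, 0 ≤ f x) :
    0 ≤ (l.map f).prod := by
  refine List.prod_nonneg fun z hz => ?_
  obtain ⟨x, hx, rfl⟩ := List.mem_map.1 hz
  exact h x hx

lemma prod_map_le_pow {β : Type*} (l : List β) (f : β → ℝ) {b : ℝ} (hb : 1 ≤ b)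
    (h : ∀ x ∈ l, 0 ≤ f x ∧ f x ≤ b) : (l.map f).prod ≤ b ^ l.length := by
  induction l with
  | nil => simp
  | cons x l ih =>
    rw [List.map_cons, List.prod_cons, List.length_cons, pow_succ, mul_comm (b ^ _)]
    have h1 := h x List.mem_cons_self
    have h2 := ih fun y hy => h y (List.mem_cons_of_mem _ hy)
    have h3 := prod_map_nonneg l f fun y hy => (h y (List.mem_cons_of_mem _ hy)).1
    exact mul_le_mul h1.2 h2 h3 (by linarith)

lemma prod_map_mono {β : Type*} (l : List β) (f g : β → ℝ)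
    (h : ∀ x ∈ l, 0 ≤ f x ∧ f x ≤ g x) : (l.map f).prod ≤ (l.map g).prod := by
  induction l with
  | nil => simp
  | cons x l ih =>
    rw [List.map_cons, List.prod_cons, List.map_cons, List.prod_cons]
    have h1 := h x List.mem_cons_self
    have h2 := ih fun y hy => h y (List.mem_cons_of_mem _ hy)
    have h3 := prod_map_nonneg l f fun y hy => (h y (List.mem_cons_of_mem _ hy)).1
    exact mul_le_mul h1.2 h2 h3 (h1.1.trans h1.2)

lemma RQ_nonneg (cf : Pc → Eis → ℂ) (Q : Eis → Prop) (l : ℝ) (ps : List Pc) :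
    0 ≤ RQ cf Q l ps := by
  unfold RQ
  exact Finset.sum_nonneg fun k _ => prod_map_nonneg _ _ fun _ _ => by positivity

lemma RQ_perm (cf : Pc → Eis → ℂ) (Q : Eis → Prop) (l : ℝ) (ps qs : List Pc)
    (h : ps.Perm qs) : RQ cf Q l ps = RQ cf Q l qs := by
  unfold RQ
  exact Finset.sum_congr rfl fun k _ => (h.map _).prod_eq

/-- lengths of a list -/
lemma prod_exp (ps : List Pc) (X c : ℝ) (hX : 1 < X) :
    (ps.map fun p => Real.exp (D.len p + c)).prod =
      X ^ (ps.map (D.nl X)).sum * Real.exp (c * ps.length) := by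
  have hlog : 0 < Real.log X := Real.log_pos hX
  induction ps with
  | nil => simp
  | cons p ps ih =>
    rw [List.map_cons, List.prod_cons, ih, List.map_cons, List.sum_cons, List.length_cons,
      Real.rpow_add (by linarith), Real.exp_add]
    have e1 : X ^ D.nl X p = Real.exp (D.len p) := by
      rw [Real.rpow_def_of_pos (by linarith)]
      unfold Pcs.nl
      congr 1
      field_simp
    have e2 : Real.exp (c * ((ps.length + 1 : ℕ) : ℝ)) =
        Real.exp c * Real.exp (c * ps.length) := by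
      rw [← Real.exp_add]; congr 1; push_cast; ring
    rw [e1, e2]
    ring

lemma sum_mass [Fintype τ] (X : ℝ) (ps : List Pc) :
    (ps.map (D.nl X)).sum = ∑ t, D.mass X ps t := by
  induction ps with
  | nil => simp
  | cons p ps ih =>
    rw [List.map_cons, List.sum_cons, ih]
    simp only [Pcs.mass_cons, Finset.sum_add_distrib]
    rw [Finset.sum_ite_eq]
    simp

lemma near_sum {X δ : ℝ} {us : List Pc} {u : List ℝ} (h : D.Near X δ us u) :
    |(us.map (D.nl X)).sum - u.sum| ≤ δ * u.length := by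
  unfold Pcs.Near at h
  induction h with
  | nil => simp
  | cons h1 _ ih =>
    rename_i p x us u _
    rw [List.map_cons, List.sum_cons, List.sum_cons, List.length_cons]
    calc |D.nl X p + (us.map (D.nl X)).sum - (x + u.sum)|
        = |(D.nl X p - x) + ((us.map (D.nl X)).sum - u.sum)| := by ring_nf
      _ ≤ |D.nl X p - x| + |(us.map (D.nl X)).sum - u.sum| := abs_add_le _ _
      _ ≤ δ + δ * u.length := add_le_add h1.2 ih
      _ = δ * ((u.length + 1 : ℕ) : ℝ) := by push_cast; ring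

/-- a constant is below every power -/
lemma const_le_rpow (c : ℝ) {a : ℝ} (ha : 0 < a) : ∃ X₀ : ℝ, 1 < X₀ ∧ ∀ X : ℝ, X₀ ≤ X →
    c ≤ X ^ a := by
  refine ⟨max 2 (max c 1 ^ (1 / a)), lt_of_lt_of_le (by norm_num) (le_max_left _ _), ?_⟩
  intro X hX
  have h1 : max c 1 ^ (1 / a) ≤ X := (le_max_right _ _).trans hX
  have h0 : (0 : ℝ) ≤ max c 1 := le_trans zero_le_one (le_max_right _ _)
  calc c ≤ max c 1 := le_max_left _ _
    _ = (max c 1 ^ (1 / a)) ^ a := by
        rw [← Real.rpow_mul h0, one_div_mul_cancel ha.ne', Real.rpow_one]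
    _ ≤ X ^ a := Real.rpow_le_rpow (Real.rpow_nonneg h0 _) h1 ha.le

/-- splitting of the granular list: small pieces, kept part, the rest -/
theorem split_gran [Fintype τ] {X δ c : ℝ} (hX1 : 1 < X) (hδ : 0 < δ) (hc : 0 ≤ c) {N : ℕ}
    {gs : List Pc} {w w0 : τ → ℝ} (hw0 : ∀ t, 0 ≤ w0 t) (hw : ∀ t, w0 t ≤ w t)
    (h0 : ∀ g ∈ gs, 0 ≤ D.len g) (hgran : D.Gran X δ N gs w) :
    ∃ g1 g2 gsm : List Pc, gs.Perm ((g1 ++ g2) ++ gsm) ∧ g1.length + g2.length ≤ N ∧
      gsm.length ≤ N ∧ D.Gran X (4 * δ) N g1 w0 ∧ D.Gran X (4 * δ) N g2 (fun t => w t - w0 t) ∧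
      (∀ g ∈ g1 ++ g2, g ∈ gs ∧ D.nl X g ≤ δ ∧
        X ^ (δ / ((N : ℝ) + 1)) ≤ Real.exp (D.len g + c)) ∧
      (∀ g ∈ gsm, g ∈ gs ∧ Real.exp (D.len g + c) < X ^ (δ / ((N : ℝ) + 1))) := by
  classical
  have hX0 : 0 < X := by linarith
  have hlog : 0 < Real.log X := Real.log_pos hX1
  have hN0 : (0 : ℝ) ≤ N := Nat.cast_nonneg _
  set pb : Pc → Bool := fun g => decide (X ^ (δ / ((N : ℝ) + 1)) ≤ Real.exp (D.len g + c)) with hpb
  set gb := gs.filter pb with hgb
  set gsm := gs.filter (fun g => !pb g) with hgsm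
  have hperm0 : (gb ++ gsm).Perm gs := List.filter_append_perm pb gs
  have hgb_mem : ∀ g ∈ gb, g ∈ gs ∧ X ^ (δ / ((N : ℝ) + 1)) ≤ Real.exp (D.len g + c) := by
    intro g hg
    have := List.mem_filter.1 hg
    exact ⟨this.1, by simpa [hpb] using this.2⟩
  have hgsm_mem : ∀ g ∈ gsm, g ∈ gs ∧ Real.exp (D.len g + c) < X ^ (δ / ((N : ℝ) + 1)) := by
    intro g hg
    have := List.mem_filter.1 hg
    exact ⟨this.1, by simpa [hpb] using this.2⟩
  have hlen_gs : gs.length ≤ N := hgran.1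
  have hlen_perm : gb.length + gsm.length = gs.length := by
    rw [← hperm0.length_eq, List.length_append]
  have hlen_gb : gb.length ≤ N := by omega
  have hlen_gsm : gsm.length ≤ N := by omega
  have hnl_gsm : ∀ g ∈ gsm, 0 ≤ D.nl X g ∧ D.nl X g ≤ δ / ((N : ℝ) + 1) := by
    intro g hg
    have h3 := hgsm_mem g hg
    have h4 := h0 g h3.1
    refine ⟨div_nonneg h4 hlog.le, ?_⟩
    unfold Pcs.nl
    rw [div_le_iff₀ hlog]
    have h5 := h3.2
    rw [Real.rpow_def_of_pos hX0, Real.exp_lt_exp] at h5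
    linarith
  have hsum_gsm : (gsm.map (D.nl X)).sum ≤ δ := by
    have h3 : (gsm.map (D.nl X)).sum ≤ gsm.length • (δ / ((N : ℝ) + 1)) := by
      have := List.sum_le_card_nsmul (gsm.map (D.nl X)) (δ / ((N : ℝ) + 1)) (by
        intro x hx
        obtain ⟨g, hg, rfl⟩ := List.mem_map.1 hx
        exact (hnl_gsm g hg).2)
      simpa using this
    rw [nsmul_eq_mul] at h3
    have h4 : (gsm.length : ℝ) ≤ N := by exact_mod_cast hlen_gsm
    have h5 : (gsm.length : ℝ) * (δ / ((N : ℝ) + 1)) ≤ N * (δ / ((N : ℝ) + 1)) := by gcongr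
    have h6 : (N : ℝ) * (δ / ((N : ℝ) + 1)) ≤ δ := by
      rw [mul_div_assoc', div_le_iff₀ (by positivity)]
      nlinarith
    linarith
  have hGb : D.Gran X (2 * δ) N gb w := by
    refine ⟨hlen_gb, fun g hg => (hgran.2.1 g (hgb_mem g hg).1).trans (by linarith), fun t => ?_⟩
    have e1 : D.mass X gs t = D.mass X gb t + D.mass X gsm t := by
      rw [← D.mass_perm hperm0, D.mass_append]
    have e2 : 0 ≤ D.mass X gsm t := mass_nonneg (fun g hg => (hnl_gsm g hg).1) t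
    have e3 : D.mass X gsm t ≤ δ := by
      refine le_trans ?_ hsum_gsm
      rw [sum_mass X gsm]
      exact Finset.single_le_sum (f := fun t => D.mass X gsm t)
        (fun t _ => mass_nonneg (fun g hg => (hnl_gsm g hg).1) t) (Finset.mem_univ t)
    have e4 := abs_le.1 (hgran.2.2 t)
    rw [abs_le]
    constructor <;> linarith
  have hGb' : D.Gran X (2 * δ) N gb (fun t => w0 t + (w t - w0 t)) := by
    have e : (fun t => w0 t + (w t - w0 t)) = w := by funext t; ring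
    rw [e]; exact hGb
  obtain ⟨g1, g2, hperm1, hG1, hG2⟩ := Gran_split (by linarith : (0 : ℝ) ≤ 2 * δ)
    (fun g hg => div_nonneg (h0 g (hgb_mem g hg).1) hlog.le) hw0
    (fun t => sub_nonneg.2 (hw t)) hGb'
  have e4 : 2 * (2 * δ) = 4 * δ := by ring
  rw [e4] at hG1 hG2
  refine ⟨g1, g2, gsm, hperm0.symm.trans (List.Perm.append_right _ hperm1), ?_, hlen_gsm, hG1, hG2,
    ?_, hgsm_mem⟩
  · have := hperm1.length_eq
    rw [List.length_append] at this
    omega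
  · intro g hg
    have h3 : g ∈ gb := hperm1.mem_iff.mpr hg
    exact ⟨(hgb_mem g h3).1, hgran.2.1 g (hgb_mem g h3).1, (hgb_mem g h3).2⟩

/-- total length of a granular list -/
lemma gran_sum_le [Fintype τ] {X δ : ℝ} {N : ℕ} {g : List Pc} {w : τ → ℝ}
    (h : D.Gran X δ N g w) :
    (g.map (D.nl X)).sum ≤ ∑ t, w t + δ * Fintype.card τ := by
  rw [sum_mass X g]
  calc ∑ t, D.mass X g t ≤ ∑ t, (w t + δ) := by
        refine Finset.sum_le_sum fun t _ => ?_
        have := abs_le.1 (h.2.2 t)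
        linarith
    _ = ∑ t, w t + δ * Fintype.card τ := by
        rw [Finset.sum_add_distrib, Finset.sum_const, Finset.card_univ, nsmul_eq_mul]
        ring

/-- the size of a product of pieces -/
lemma size_le {X c δ a : ℝ} (hX1 : 1 < X) (hc : 0 ≤ c) {ps : List Pc} {L : ℝ}
    (hL : (ps.length : ℝ) ≤ L) (hexp : Real.exp (c * L) ≤ X ^ δ)
    (hs : (ps.map (D.nl X)).sum ≤ a) :
    (ps.map fun p => Real.exp (D.len p + c)).prod ≤ X ^ (a + δ) := by
  have hX0 : 0 < X := by linarith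
  rw [prod_exp ps X c hX1, Real.rpow_add hX0]
  refine mul_le_mul (Real.rpow_le_rpow_of_exponent_le hX1.le hs) ?_ (Real.exp_pos _).le
    (Real.rpow_nonneg hX0.le _)
  exact (Real.exp_le_exp.2 (mul_le_mul_of_nonneg_left hL hc)).trans hexp

lemma le_size {X c : ℝ} (hX1 : 1 < X) (hc : 0 ≤ c) {ps : List Pc} {a : ℝ}
    (hs : a ≤ (ps.map (D.nl X)).sum) :
    X ^ a ≤ (ps.map fun p => Real.exp (D.len p + c)).prod := by
  have hX0 : 0 < X := by linarith
  rw [prod_exp ps X c hX1]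
  calc X ^ a ≤ X ^ (ps.map (D.nl X)).sum := Real.rpow_le_rpow_of_exponent_le hX1.le hs
    _ = X ^ (ps.map (D.nl X)).sum * 1 := (mul_one _).symm
    _ ≤ _ := by
        refine mul_le_mul_of_nonneg_left ?_ (Real.rpow_nonneg hX0.le _)
        exact Real.one_le_exp (mul_nonneg hc (Nat.cast_nonneg _))

/-- dropping the small pieces -/
lemma small_le {cf : Pc → Eis → ℂ} {r : ℕ} {c : ℝ} (hI : PI D cf r c) {C2 : ℝ} (hC2 : 1 ≤ C2)
    (hl1 : ∀ (X : ℝ) (α : Eis → ℂ), 1 ≤ X → Cf r X α → ∀ k, ‖CS α k‖ ≤ C2 * X ^ (1 + (1 : ℝ)))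
    {X δ : ℝ} (hX1 : 1 < X) (hδ : 0 < δ) {N : ℕ} {gsm : List Pc} (hlen : gsm.length ≤ N)
    (h0 : ∀ g ∈ gsm, 0 ≤ D.len g)
    (hsm : ∀ g ∈ gsm, Real.exp (D.len g + c) < X ^ (δ / ((N : ℝ) + 1))) (k : Eis) :
    (gsm.map fun p => ‖CS (cf p) k‖ ^ 2).prod ≤ C2 ^ (2 * N) * X ^ (4 * δ) := by
  have hX0 : 0 < X := by linarith
  have hN0 : (0 : ℝ) ≤ N := Nat.cast_nonneg _
  set s := δ / ((N : ℝ) + 1) with hs
  have hs0 : 0 ≤ s := by positivity
  have hb : 1 ≤ C2 ^ 2 * X ^ (4 * s) := by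
    refine one_le_mul_of_one_le_of_one_le (one_le_pow₀ hC2) (Real.one_le_rpow hX1.le (by linarith))
  have h1 : (gsm.map fun p => ‖CS (cf p) k‖ ^ 2).prod ≤ (C2 ^ 2 * X ^ (4 * s)) ^ gsm.length := by
    refine prod_map_le_pow _ _ hb fun g hg => ⟨by positivity, ?_⟩
    have h2 : 1 ≤ Real.exp (D.len g + c) := Real.one_le_exp (add_nonneg (h0 g hg) hI.c0)
    have h3 := hl1 _ _ h2 (hI.cf g (h0 g hg)) k
    have h4 : Real.exp (D.len g + c) ^ (1 + (1 : ℝ)) ≤ (X ^ s) ^ (1 + (1 : ℝ)) :=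
      Real.rpow_le_rpow (Real.exp_pos _).le (hsm g hg).le (by norm_num)
    have h5 : (X ^ s) ^ (1 + (1 : ℝ)) = X ^ (2 * s) := by
      rw [← Real.rpow_mul hX0.le]; congr 1; ring
    rw [h5] at h4
    calc ‖CS (cf g) k‖ ^ 2 ≤ (C2 * X ^ (2 * s)) ^ 2 := by
          refine pow_le_pow_left₀ (norm_nonneg _) (h3.trans ?_) 2
          exact mul_le_mul_of_nonneg_left h4 (by linarith)
      _ = C2 ^ 2 * X ^ (4 * s) := by
          rw [mul_pow, ← Real.rpow_natCast (X ^ (2 * s)) 2, ← Real.rpow_mul hX0.le]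
          congr 2; push_cast; ring
  refine h1.trans ((pow_le_pow_right₀ hb hlen).trans (le_of_eq_of_le (mul_pow _ _ _) ?_))
  rw [← pow_mul, ← Real.rpow_natCast (X ^ (4 * s)) N, ← Real.rpow_mul hX0.le]
  refine mul_le_mul_of_nonneg_left ?_ (by positivity)
  refine Real.rpow_le_rpow_of_exponent_le hX1.le ?_
  have h6 : s * N ≤ δ := by
    rw [hs, div_mul_eq_mul_div, div_le_iff₀ (by positivity)]
    nlinarith
  linarith

/-- the inequality for one configuration -/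
theorem fam_bound {cf : Pc → Eis → ℂ} {Q : Eis → Prop} {r : ℕ} {c θ : ℝ}
    (hI : PI D cf r c) (hQ : ∀ k, Q k → CubeFree k) (hθ1 : 7 / 8 ≤ θ) (hθ2 : θ ≤ 1)
    {η d1 A : ℝ} {R N : ℕ} {Cl C2 : ℝ} (hlb : LBstat η d1 A R N Cl) (hrR : r ≤ R) (hC2 : 1 ≤ C2)
    (hCl : 1 ≤ Cl)
    (hl1 : ∀ (X : ℝ) (α : Eis → ℂ), 1 ≤ X → Cf r X α → ∀ k, ‖CS α k‖ ≤ C2 * X ^ (1 + (1 : ℝ)))
    {X K1 δ S Bb l : ℝ} (hX1 : 1 < X) (hδ : 0 < δ) (hK1 : 1 < K1) (hl : Real.exp l ≤ K1)
    (hS1 : 1 ≤ S) (hB1 : 1 ≤ Bb) {us g1 g2 gsm : List Pc}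
    (hus : (r + 1) * us.length ≤ R) (hlen : g1.length + g2.length ≤ N) (hlen' : gsm.length ≤ N)
    (hu0 : ∀ p ∈ us, 0 ≤ D.len p) (hg0 : ∀ p ∈ g1 ++ g2, 0 ≤ D.len p)
    (hs0 : ∀ p ∈ gsm, 0 ≤ D.len p)
    (hsm : ∀ g ∈ gsm, Real.exp (D.len g + c) < X ^ (δ / ((N : ℝ) + 1)))
    (hsz : ∀ g ∈ g1 ++ g2, K1 ^ d1 ≤ Real.exp (D.len g + c) ∧
      Real.exp (D.len g + c) ≤ K1 ^ (η ^ 2))
    (hsup : ∀ g ∈ g1 ++ g2, ∀ k, Q k → (nm k : ℝ) ≤ K1 →
      ‖CS (cf g) k‖ ≤ S * Real.exp (D.len g + c) ^ θ)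
    (hL : (us.map fun p => Real.exp (D.len p + c)).prod *
      ((g1.map fun p => Real.exp (D.len p + c)).prod *
        (g2.map fun p => Real.exp (D.len p + c)).prod) ≤ K1 ^ A)
    (hlump : (us.map fun p => Real.exp (D.len p + c)).prod ≤ K1 ^ ((4 : ℝ) / 3) ∨
      RQ cf Q l us ≤ Bb * K1 * (us.map fun p => Real.exp (D.len p + c)).prod) :
    RQ cf Q l (us ++ ((g1 ++ g2) ++ gsm)) ≤ (C2 ^ (2 * N) * X ^ (4 * δ)) *
      (Cl * S ^ (2 * N) * K1 ^ ((6 * A + 9) * η) *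
        ((g2.map fun p => Real.exp (D.len p + c)).prod ^ (5 / 3 : ℝ) * RQ cf Q l (us ++ g1) +
          Bb * (K1 ^ (4 / 9 : ℝ) * ((us.map fun p => Real.exp (D.len p + c)).prod *
            ((g1.map fun p => Real.exp (D.len p + c)).prod *
              (g2.map fun p => Real.exp (D.len p + c)).prod)) ^ (5 / 3 : ℝ) +
            K1 ^ (8 / 3 * (1 - θ)) * ((us.map fun p => Real.exp (D.len p + c)).prod *
            ((g1.map fun p => Real.exp (D.len p + c)).prod *
              (g2.map fun p => Real.exp (D.len p + c)).prod)) ^ (2 * θ)))) := by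
  classical
  have hX0 : 0 < X := by linarith
  have hK10 : 0 < K1 := by linarith
  obtain ⟨y, hy, hyv⟩ := lump_list cf (fun p => Real.exp (D.len p + c)) r us
    (fun p hp => hI.cf p (hu0 p hp))
  set Y := (us.map fun p => Real.exp (D.len p + c)).prod with hYdef
  set P1 := (g1.map fun p => Real.exp (D.len p + c)).prod with hP1def
  set P2 := (g2.map fun p => Real.exp (D.len p + c)).prod with hP2def
  have hY1 : 1 ≤ Y := by
    rw [hYdef, prod_exp us X c hX1]
    have hlog : 0 < Real.log X := Real.log_pos hX1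
    refine one_le_mul_of_one_le_of_one_le (Real.one_le_rpow hX1.le (List.sum_nonneg fun x hx => ?_))
      (Real.one_le_exp (mul_nonneg hI.c0 (Nat.cast_nonneg _)))
    obtain ⟨g, hg, rfl⟩ := List.mem_map.1 hx
    exact div_nonneg (hu0 g hg) hlog.le
  have hY0 : 0 ≤ Y := by linarith
  have hP10 : 0 ≤ P1 := prod_map_nonneg _ _ fun _ _ => (Real.exp_pos _).le
  have hP20 : 0 ≤ P2 := prod_map_nonneg _ _ fun _ _ => (Real.exp_pos _).le
  set Ds := (bl (Real.exp l)).filter Q with hDs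
  have hDs' : ∀ k' ∈ Ds, (k' ≠ 0 ∧ (nm k' : ℝ) ≤ Real.exp l) ∧ Q k' := by
    intro k' hk'
    rw [hDs, Finset.mem_filter, mem_bl (Real.exp_pos _).le] at hk'
    exact hk'
  have hRQ : ∀ ps : List Pc, RQ cf Q l ps = ∑ k ∈ Ds, (ps.map fun p => ‖CS (cf p) k‖ ^ 2).prod :=
    fun ps => rfl
  have hnm1 : ∀ k' ∈ Ds, (nm (dc k').m : ℝ) = 1 := by
    intro k' hk'
    rw [nm_m_of_cubeFree (hQ k' (hDs' k' hk').2)]
    norm_num
  have hsmall : ∀ k, (gsm.map fun p => ‖CS (cf p) k‖ ^ 2).prod ≤ C2 ^ (2 * N) * X ^ (4 * δ) :=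
    fun k => small_le hI hC2 hl1 hX1 hδ hlen' hs0 hsm k
  have hsm0 : 0 ≤ C2 ^ (2 * N) * X ^ (4 * δ) := by positivity
  have hv0 : ∀ (ps : List Pc) (k : Eis), 0 ≤ (ps.map fun p => ‖CS (cf p) k‖ ^ 2).prod :=
    fun ps k => prod_map_nonneg _ _ fun _ _ => by positivity
  set g1' : List ((Eis → ℂ) × ℝ) := g1.map fun p => (cf p, Real.exp (D.len p + c)) with hg1'
  set g2' : List ((Eis → ℂ) × ℝ) := g2.map fun p => (cf p, Real.exp (D.len p + c)) with hg2'
  have e1 : (g1'.map Prod.snd).prod = P1 := by rw [hg1', List.map_map]; rfl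
  have e2 : (g2'.map Prod.snd).prod = P2 := by rw [hg2', List.map_map]; rfl
  have e3 : ∀ k, (g1'.map fun x => ‖CS x.1 k‖ ^ 2).prod =
      (g1.map fun p => ‖CS (cf p) k‖ ^ 2).prod := fun k => by rw [hg1', List.map_map]; rfl
  have e4 : ∀ k, (g2'.map fun x => ‖CS x.1 k‖ ^ 2).prod =
      (g2.map fun p => ‖CS (cf p) k‖ ^ 2).prod := fun k => by rw [hg2', List.map_map]; rfl
  have hmem : ∀ {P : (Eis → ℂ) × ℝ → Prop}, (∀ g ∈ g1 ++ g2, P (cf g, Real.exp (D.len g + c))) →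
      ∀ x ∈ g1' ++ g2', P x := by
    intro P hP x hx
    rw [hg1', hg2', ← List.map_append] at hx
    obtain ⟨g, hg, rfl⟩ := List.mem_map.1 hx
    exact hP g hg
  have hlen12 : g1'.length + g2'.length ≤ N := by
    rw [hg1', hg2', List.length_map, List.length_map]
    exact hlen
  have hlist := hlb K1 θ S Bb Y K1 y g1' g2' Ds hlen12 hK1 hθ1 hθ2 hS1 hB1 hY1 (hy.mono hus le_rfl)
    (hmem fun g hg => ⟨(hI.cf g (hg0 g hg)).mono hrR le_rfl, (hsz g hg).1, (hsz g hg).2⟩)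
    (by rw [e1, e2]; exact hL) hK1.le
    (fun k hk => by rw [hnm1 k hk]; simp)
    (by
      intro k hk
      have h3 := hDs' k hk
      rw [mem_bl hK10.le]
      exact ⟨h3.1.1, h3.1.2.trans hl⟩)
    (hmem fun g hg k hk => hsup g hg k (hDs' k hk).2 ((hDs' k hk).1.2.trans hl))
    (by
      intro i j m hm hK hYK
      rcases Finset.eq_empty_or_nonempty (Ds ∩ Bk K1 i j m) with h0 | ⟨k, hk⟩
      · rw [h0, Finset.sum_empty]
        have : 0 ≤ K1 / (nm m : ℝ) ^ 3 := by linarith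
        have hB0 : 0 ≤ Bb := by linarith
        positivity
      · rw [Finset.mem_inter] at hk
        have h3 := ((mem_Bk hK10.le).mp hk.2).2.2.2
        have h4 := hnm1 k hk.1
        rw [h3] at h4
        rw [h4, one_pow, div_one] at hYK ⊢
        rcases hlump with h5 | h5
        · exact absurd h5 (not_le.mpr hYK)
        · refine le_trans ?_ h5
          rw [hRQ]
          refine (Finset.sum_le_sum_of_subset_of_nonneg Finset.inter_subset_left
            (fun k _ _ => by positivity)).trans (le_of_eq ?_)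
          exact Finset.sum_congr rfl fun k _ => hyv k)
  rw [e1, e2] at hlist
  simp only [e3, e4] at hlist
  have hKK : K1 ^ (1 / 3 : ℝ) * K1 ^ (8 / 3 * (1 - θ) - 1 / 3) = K1 ^ (8 / 3 * (1 - θ)) := by
    rw [← Real.rpow_add hK10]; congr 1; ring
  rw [hKK] at hlist
  have hR1 : ∑ k ∈ Ds, ‖CS y k‖ ^ 2 * (g1.map fun p => ‖CS (cf p) k‖ ^ 2).prod =
      RQ cf Q l (us ++ g1) := by
    rw [hRQ]
    refine Finset.sum_congr rfl fun k _ => ?_
    rw [List.map_append, List.prod_append, hyv k]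
  rw [hR1] at hlist
  refine le_trans ?_ (mul_le_mul_of_nonneg_left hlist hsm0)
  rw [hRQ, Finset.mul_sum]
  refine Finset.sum_le_sum fun k _ => ?_
  rw [List.map_append, List.prod_append, List.map_append, List.prod_append, List.map_append,
    List.prod_append, hyv k]
  have h6 := hsmall k
  have h7 := hv0 us k
  have h8 := hv0 g1 k
  have h9 := hv0 g2 k
  calc (us.map fun p => ‖CS (cf p) k‖ ^ 2).prod * ((g1.map fun p => ‖CS (cf p) k‖ ^ 2).prod *
        (g2.map fun p => ‖CS (cf p) k‖ ^ 2).prod * (gsm.map fun p => ‖CS (cf p) k‖ ^ 2).prod)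
      ≤ (us.map fun p => ‖CS (cf p) k‖ ^ 2).prod * ((g1.map fun p => ‖CS (cf p) k‖ ^ 2).prod *
        (g2.map fun p => ‖CS (cf p) k‖ ^ 2).prod * (C2 ^ (2 * N) * X ^ (4 * δ))) := by
        gcongr
    _ = _ := by ring

end Crest.Agent.R017.Lbc298
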