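import Crest.Agent.R017.CubeL_298

/-!
# Row 17, (LB) for lists of pieces (helper298)

* `lb_list` : `lb_fam2` for two lists of granular pieces (`g1` kept in the regular part, `g2` not)
* `lump_list` : the product of a list of lumps
-/

set_option autoImplicit false

noncomputable section

open Complex Finset
open scoped ComplexConjugate

namespace Crest.Agent.R017.Lbc298

open Crest.Agent.R012 Crest.Agent.R012.Eis Crest.Agent.R012.LS2 Crest.Agent.R012.Char766
open Crest.Agent.R017.CM106 Crest.Agent.R017.LV404 Crest.Agent.R017.HP842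

/-- product over a list as a product over `Fin` -/
lemma prod_get {β M : Type*} [CommMonoid M] (l : List β) (f : β → M) :
    ∏ i : Fin l.length, f (l.get i) = (l.map f).prod := by
  rw [← List.prod_ofFn]
  congr 1
  apply List.ext_getElem
  · simp
  · intro i h1 h2
    simp

/-- statement of (LB) for lists -/
def LBstat (η d1 A : ℝ) (r N : ℕ) (C : ℝ) : Prop :=
  ∀ (K β S B Y L0 : ℝ) (y : Eis → ℂ) (g1 g2 : List ((Eis → ℂ) × ℝ))
      (D : Finset Eis), g1.length + g2.length ≤ N →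
      1 < K → 7 / 8 ≤ β → β ≤ 1 → 1 ≤ S → 1 ≤ B → 1 ≤ Y → Cf r Y y →
      (∀ x ∈ g1 ++ g2, Cf r x.2 x.1 ∧ K ^ d1 ≤ x.2 ∧ x.2 ≤ K ^ (η ^ 2)) →
      Y * ((g1.map Prod.snd).prod * (g2.map Prod.snd).prod) ≤ K ^ A → 1 ≤ L0 →
      (∀ k ∈ D, L0 ≤ K / (nm (dc k).m : ℝ) ^ 3) →
      D ⊆ bl K → (∀ x ∈ g1 ++ g2, ∀ k ∈ D, ‖CS x.1 k‖ ≤ S * x.2 ^ β) →
      (∀ (i j : ℕ) (m : Eis), m ≠ 0 → 1 ≤ K / (nm m : ℝ) ^ 3 →
        (K / (nm m : ℝ) ^ 3) ^ ((4 : ℝ) / 3) < Y →
        ∑ k ∈ D ∩ Bk K i j m, ‖CS y k‖ ^ 2 ≤ B * (K / (nm m : ℝ) ^ 3) * Y) →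
      ∑ k ∈ D, ‖CS y k‖ ^ 2 * ((g1.map fun x => ‖CS x.1 k‖ ^ 2).prod *
          (g2.map fun x => ‖CS x.1 k‖ ^ 2).prod) ≤
        C * S ^ (2 * N) * K ^ ((6 * A + 9) * η) *
          ((g2.map Prod.snd).prod ^ (5 / 3 : ℝ) *
              ∑ k ∈ D, ‖CS y k‖ ^ 2 * (g1.map fun x => ‖CS x.1 k‖ ^ 2).prod +
            B * (K ^ (4 / 9 : ℝ) * (Y * ((g1.map Prod.snd).prod * (g2.map Prod.snd).prod)) ^
                (5 / 3 : ℝ) +
              K ^ (1 / 3 : ℝ) * L0 ^ (8 / 3 * (1 - β) - 1 / 3) *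
                (Y * ((g1.map Prod.snd).prod * (g2.map Prod.snd).prod)) ^ (2 * β)))

/-- **(LB) for lists.** -/
theorem lb_list (H : LVProp) {η d1 : ℝ} (hη : 0 < η) (hη1 : η ≤ 1 / 72) (hd : 0 < d1) (r N : ℕ)
    {A : ℝ} (hA0 : 0 ≤ A) :
    ∃ C : ℝ, 1 ≤ C ∧ LBstat η d1 A r N C := by
  classical
  choose C hC hfam using fun N' : ℕ => lb_fam2 H hη hη1 hd r N' hA0
  refine ⟨∑ N' ∈ range (N + 1), C N', ?_, ?_⟩
  · calc (1 : ℝ) ≤ C 0 := hC 0
      _ ≤ _ := Finset.single_le_sum (f := C) (fun N' _ => by linarith [hC N']) (by simp)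
  intro K β S B Y L0 y g1 g2 D hlen hK hβ7 hβ hS hB hY hy hg hL hL0 hcut hD hsup htf
  set N' := g1.length + g2.length with hN'
  set p : Fin (g1.length + g2.length) → Eis → ℂ :=
    Fin.append (fun i => (g1.get i).1) (fun i => (g2.get i).1) with hp
  set X : Fin (g1.length + g2.length) → ℝ :=
    Fin.append (fun i => (g1.get i).2) (fun i => (g2.get i).2) with hX
  have hall : ∀ {P : (Eis → ℂ) → ℝ → Prop}, (∀ x ∈ g1 ++ g2, P x.1 x.2) → ∀ a, P (p a) (X a) := by
    intro P hP a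
    refine Fin.addCases (fun i => ?_) (fun i => ?_) a
    · rw [hp, hX, Fin.append_left, Fin.append_left]
      exact hP _ (List.mem_append_left _ (List.get_mem g1 i))
    · rw [hp, hX, Fin.append_right, Fin.append_right]
      exact hP _ (List.mem_append_right _ (List.get_mem g2 i))
  set J0 : Finset (Fin (g1.length + g2.length)) := Finset.univ.map (Fin.castAddEmb g2.length)
    with hJ0
  have hcompl : Finset.univ \ J0 = Finset.univ.map (Fin.natAddEmb (m := g2.length) g1.length) := by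
    ext a
    refine Fin.addCases (fun i => ?_) (fun i => ?_) a
    · simp only [hJ0, Finset.mem_sdiff, Finset.mem_univ, Finset.mem_map, true_and]
      constructor
      · intro h; exact absurd ⟨i, rfl⟩ h
      · rintro ⟨j, hj⟩
        exfalso
        have := congrArg Fin.val hj
        simp at this
        have h2 := i.2
        omega
    · simp only [hJ0, Finset.mem_sdiff, Finset.mem_univ, Finset.mem_map, true_and]
      constructor
      · intro _; exact ⟨i, rfl⟩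
      · rintro _ ⟨j, hj⟩
        have := congrArg Fin.val hj
        simp at this
        have h2 := j.2
        omega
  have hprodX : ∏ a, X a = (g1.map Prod.snd).prod * (g2.map Prod.snd).prod := by
    rw [Fin.prod_univ_add]
    simp only [hX, Fin.append_left, Fin.append_right]
    rw [← prod_get g1 Prod.snd, ← prod_get g2 Prod.snd]
  have hprodp : ∀ k, ∏ a, ‖CS (p a) k‖ ^ 2 = (g1.map fun x => ‖CS x.1 k‖ ^ 2).prod *
      (g2.map fun x => ‖CS x.1 k‖ ^ 2).prod := by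
    intro k
    rw [Fin.prod_univ_add]
    simp only [hp, Fin.append_left, Fin.append_right]
    rw [← prod_get g1 (fun x => ‖CS x.1 k‖ ^ 2), ← prod_get g2 (fun x => ‖CS x.1 k‖ ^ 2)]
  have hprodJ : ∀ k, ∏ a ∈ J0, ‖CS (p a) k‖ ^ 2 = (g1.map fun x => ‖CS x.1 k‖ ^ 2).prod := by
    intro k
    rw [hJ0, Finset.prod_map, ← prod_get g1 (fun x => ‖CS x.1 k‖ ^ 2)]
    refine Finset.prod_congr rfl fun i _ => ?_
    rw [hp]
    simp only [Fin.castAddEmb_apply, Fin.append_left]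
  have hprodc : ∏ a ∈ Finset.univ \ J0, X a = (g2.map Prod.snd).prod := by
    rw [hcompl, Finset.prod_map, ← prod_get g2 Prod.snd]
    refine Finset.prod_congr rfl fun i _ => ?_
    rw [hX]
    simp only [Fin.natAddEmb_apply, Fin.append_right]
  have h := hfam (g1.length + g2.length) K β S B Y L0 y X p D J0 hK hβ7 hβ hS hB hY hy
    (hall (P := fun f x => Cf r x f) fun x hx => (hg x hx).1)
    (hall (P := fun _ x => K ^ d1 ≤ x) fun x hx => (hg x hx).2.1)
    (hall (P := fun _ x => x ≤ K ^ (η ^ 2)) fun x hx => (hg x hx).2.2)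
    (by rw [hprodX]; exact hL) hL0 hcut hD
    (hall (P := fun f x => ∀ k ∈ D, ‖CS f k‖ ≤ S * x ^ β) hsup) htf
  simp only [hprodp, hprodJ, hprodc, hprodX] at h
  refine h.trans ?_
  have hCle : C (g1.length + g2.length) ≤ ∑ N' ∈ range (N + 1), C N' :=
    Finset.single_le_sum (f := C) (fun N' _ => by linarith [hC N'])
      (Finset.mem_range.mpr (by omega))
  have hSle : S ^ (2 * (g1.length + g2.length)) ≤ S ^ (2 * N) :=
    pow_le_pow_right₀ hS (by omega)
  have hC0 : 0 ≤ C (g1.length + g2.length) := by linarith [hC (g1.length + g2.length)]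
  have hK0 : 0 < K := by linarith
  have hL00 : 0 < L0 := by linarith
  have hx0 : ∀ x ∈ g1 ++ g2, 0 ≤ x.2 := fun x hx =>
    (Real.rpow_nonneg hK0.le _).trans (hg x hx).2.1
  have hp1 : 0 ≤ (g1.map Prod.snd).prod := by
    refine List.prod_nonneg fun z hz => ?_
    obtain ⟨x, hx, rfl⟩ := List.mem_map.1 hz
    exact hx0 x (List.mem_append_left _ hx)
  have hp2 : 0 ≤ (g2.map Prod.snd).prod := by
    refine List.prod_nonneg fun z hz => ?_
    obtain ⟨x, hx, rfl⟩ := List.mem_map.1 hz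
    exact hx0 x (List.mem_append_right _ hx)
  have hsum : 0 ≤ ∑ k ∈ D, ‖CS y k‖ ^ 2 * (g1.map fun x => ‖CS x.1 k‖ ^ 2).prod := by
    refine Finset.sum_nonneg fun k _ => mul_nonneg (sq_nonneg _) ?_
    refine List.prod_nonneg fun z hz => ?_
    obtain ⟨x, _, rfl⟩ := List.mem_map.1 hz
    positivity
  have hY0 : 0 ≤ Y := by linarith
  have hB0 : 0 ≤ B := by linarith
  set P1 := (g1.map Prod.snd).prod with hP1
  set P2 := (g2.map Prod.snd).prod with hP2
  set SS := ∑ k ∈ D, ‖CS y k‖ ^ 2 * (g1.map fun x => ‖CS x.1 k‖ ^ 2).prod with hSS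
  have hb : 0 ≤ P2 ^ (5 / 3 : ℝ) * SS + B * (K ^ (4 / 9 : ℝ) * (Y * (P1 * P2)) ^ (5 / 3 : ℝ) +
      K ^ (1 / 3 : ℝ) * L0 ^ (8 / 3 * (1 - β) - 1 / 3) * (Y * (P1 * P2)) ^ (2 * β)) := by
    positivity
  refine mul_le_mul_of_nonneg_right ?_ hb
  have hCs : 0 ≤ ∑ N' ∈ range (N + 1), C N' := hC0.trans hCle
  gcongr

/-- the product of a list of lumps -/
theorem lump_list {ρ : Type*} (f : ρ → Eis → ℂ) (x : ρ → ℝ) (r : ℕ) (us : List ρ)
    (h : ∀ p ∈ us, Cf r (x p) (f p)) :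
    ∃ y : Eis → ℂ, Cf ((r + 1) * us.length) ((us.map x).prod) y ∧
      ∀ k, ‖CS y k‖ ^ 2 = (us.map fun p => ‖CS (f p) k‖ ^ 2).prod := by
  refine ⟨cv (fun i : Fin us.length => f (us.get i)), ?_, fun k => ?_⟩
  · have h1 := Cf.cv (ι := Fin us.length) (X := fun i => x (us.get i))
      (f := fun i => f (us.get i)) (r := r) fun i => h _ (List.get_mem us i)
    rw [Fintype.card_fin, prod_get us x] at h1
    exact h1
  · rw [CS_cv fun i => (h _ (List.get_mem us i)).fs, norm_prod, ← Finset.prod_pow,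
      prod_get us (fun p => ‖CS (f p) k‖ ^ 2)]

end Crest.Agent.R017.Lbc298
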