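import Crest.Agent.R017.XLB_298

/-!
# Row 17, (LB) as a rule for exponents, end (helper298)

* `fin_num` : the exponents
* `BG_lb`   : **(LB)**, cube-free families, `BG` form
-/

set_option autoImplicit false
set_option linter.unusedSectionVars false
set_option linter.unusedVariables false

noncomputable section

open Complex Finset
open scoped ComplexConjugate

namespace Crest.Agent.R017.Lbc298

open Crest.Agent.R012 Crest.Agent.R012.Eis Crest.Agent.R012.LS2 Crest.Agent.R012.Char766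
open Crest.Agent.R017.CM106 Crest.Agent.R017.LV404 Crest.Agent.R017.HP842
open Crest.Agent.R017.XG702

variable {Pc τ Lam : Type*} [DecidableEq τ] {D : Pcs Pc τ}

lemma fin_num {X κ δ1 δ ε εs η A θ M Tn n V b e0 E P2 R1 Λ Cl C2 : ℝ} {N : ℕ}
    (hX1 : 1 < X) (hκ : 0 ≤ κ) (hδ1 : 0 < δ1) (hδ : 0 < δ) (hε : 0 < ε) (hM : 0 ≤ M)
    (hTn : 0 ≤ Tn) (hθ1 : 7 / 8 ≤ θ) (hθ2 : θ ≤ 1) (hCl : 1 ≤ Cl) (hC2 : 1 ≤ C2)
    (hP20 : 0 ≤ P2) (hR10 : 0 ≤ R1) (hΛ0 : 0 ≤ Λ)
    (hP2 : P2 ≤ X ^ (V + 4 * δ * Tn + δ / 2)) (hR1 : R1 ≤ X ^ (e0 + ε / 8))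
    (hΛ : Λ ≤ X ^ (n + (M + 8 * Tn + 1) * δ))
    (hS : 2 * N * εs ≤ ε / 8) (hη : (6 * A + 9) * η * (κ + δ1) ≤ ε / 8) (hδ1b : δ1 ≤ ε / 8)
    (hδb : (3 * M + 16 * Tn + 10) * δ ≤ ε / 8) (hconst : 3 * Cl * C2 ^ (2 * N) ≤ X ^ (ε / 8))
    (hE1 : 5 / 3 * V + e0 ≤ E) (hE2 : b + (4 / 9 * κ + 5 / 3 * n) ≤ E)
    (hE3 : b + (8 / 3 * (1 - θ) * κ + 2 * θ * n) ≤ E) :
    (C2 ^ (2 * N) * X ^ (4 * δ)) * (Cl * (X ^ εs) ^ (2 * N) *
      (X ^ (κ + δ1)) ^ ((6 * A + 9) * η) * (P2 ^ (5 / 3 : ℝ) * R1 +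
        X ^ (b + ε / 8 + M * δ) * ((X ^ (κ + δ1)) ^ (4 / 9 : ℝ) * Λ ^ (5 / 3 : ℝ) +
          (X ^ (κ + δ1)) ^ (8 / 3 * (1 - θ)) * Λ ^ (2 * θ)))) ≤ X ^ (E + ε) := by
  have hX0 : 0 < X := by linarith
  have hmono : ∀ {a a' : ℝ}, a ≤ a' → X ^ a ≤ X ^ a' := fun h =>
    Real.rpow_le_rpow_of_exponent_le hX1.le h
  have hXp : ∀ a : ℝ, 0 < X ^ a := fun a => Real.rpow_pos_of_pos hX0 a
  have hpp : ∀ a b : ℝ, (X ^ a) ^ b = X ^ (a * b) := fun a b => (Real.rpow_mul hX0.le a b).symm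
  have hMδ : 0 ≤ M * δ := by positivity
  have hTδ : 0 ≤ Tn * δ := by positivity
  set G := E + ε / 8 + ε / 8 + (3 * M + 16 * Tn + 6) * δ with hG
  have t1 : P2 ^ (5 / 3 : ℝ) * R1 ≤ X ^ G := by
    calc P2 ^ (5 / 3 : ℝ) * R1 ≤ (X ^ (V + 4 * δ * Tn + δ / 2)) ^ (5 / 3 : ℝ) * X ^ (e0 + ε / 8) := by
          gcongr
      _ = X ^ ((V + 4 * δ * Tn + δ / 2) * (5 / 3) + (e0 + ε / 8)) := by
          rw [hpp, ← Real.rpow_add hX0]
      _ ≤ X ^ G := hmono (by rw [hG]; nlinarith)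
  have t2 : X ^ (b + ε / 8 + M * δ) * ((X ^ (κ + δ1)) ^ (4 / 9 : ℝ) * Λ ^ (5 / 3 : ℝ)) ≤ X ^ G := by
    calc X ^ (b + ε / 8 + M * δ) * ((X ^ (κ + δ1)) ^ (4 / 9 : ℝ) * Λ ^ (5 / 3 : ℝ))
        ≤ X ^ (b + ε / 8 + M * δ) * ((X ^ (κ + δ1)) ^ (4 / 9 : ℝ) *
          (X ^ (n + (M + 8 * Tn + 1) * δ)) ^ (5 / 3 : ℝ)) := by gcongr
      _ = X ^ (b + ε / 8 + M * δ + ((κ + δ1) * (4 / 9) + (n + (M + 8 * Tn + 1) * δ) * (5 / 3))) := by
          rw [hpp, hpp, ← Real.rpow_add hX0, ← Real.rpow_add hX0]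
      _ ≤ X ^ G := hmono (by rw [hG]; nlinarith)
  have t3 : X ^ (b + ε / 8 + M * δ) * ((X ^ (κ + δ1)) ^ (8 / 3 * (1 - θ)) * Λ ^ (2 * θ)) ≤ X ^ G := by
    have h2θ : 0 ≤ 2 * θ := by linarith
    have h4 : δ1 * (8 / 3 * (1 - θ)) ≤ ε / 8 := by nlinarith
    have h5 : (M + 8 * Tn + 1) * δ * (2 * θ) ≤ (M + 8 * Tn + 1) * δ * 2 :=
      mul_le_mul_of_nonneg_left (by linarith) (by positivity)
    calc X ^ (b + ε / 8 + M * δ) * ((X ^ (κ + δ1)) ^ (8 / 3 * (1 - θ)) * Λ ^ (2 * θ))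
        ≤ X ^ (b + ε / 8 + M * δ) * ((X ^ (κ + δ1)) ^ (8 / 3 * (1 - θ)) *
          (X ^ (n + (M + 8 * Tn + 1) * δ)) ^ (2 * θ)) := by gcongr
      _ = X ^ (b + ε / 8 + M * δ + ((κ + δ1) * (8 / 3 * (1 - θ)) +
            (n + (M + 8 * Tn + 1) * δ) * (2 * θ))) := by
          rw [hpp, hpp, ← Real.rpow_add hX0, ← Real.rpow_add hX0]
      _ ≤ X ^ G := hmono (by rw [hG]; linarith)
  have hbr : P2 ^ (5 / 3 : ℝ) * R1 + X ^ (b + ε / 8 + M * δ) *
      ((X ^ (κ + δ1)) ^ (4 / 9 : ℝ) * Λ ^ (5 / 3 : ℝ) +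
        (X ^ (κ + δ1)) ^ (8 / 3 * (1 - θ)) * Λ ^ (2 * θ)) ≤ 3 * X ^ G := by
    rw [mul_add]; linarith
  have hSp : (X ^ εs) ^ (2 * N) ≤ X ^ (ε / 8) := by
    rw [← Real.rpow_natCast (X ^ εs) (2 * N), hpp]
    refine hmono ?_
    push_cast
    linarith
  have hKη : (X ^ (κ + δ1)) ^ ((6 * A + 9) * η) ≤ X ^ (ε / 8) := by
    rw [hpp]
    refine hmono ?_
    linarith
  have hSp0 : 0 ≤ (X ^ εs) ^ (2 * N) := by positivity
  calc (C2 ^ (2 * N) * X ^ (4 * δ)) * (Cl * (X ^ εs) ^ (2 * N) *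
      (X ^ (κ + δ1)) ^ ((6 * A + 9) * η) * (P2 ^ (5 / 3 : ℝ) * R1 +
        X ^ (b + ε / 8 + M * δ) * ((X ^ (κ + δ1)) ^ (4 / 9 : ℝ) * Λ ^ (5 / 3 : ℝ) +
          (X ^ (κ + δ1)) ^ (8 / 3 * (1 - θ)) * Λ ^ (2 * θ))))
      ≤ (C2 ^ (2 * N) * X ^ (4 * δ)) * (Cl * X ^ (ε / 8) * X ^ (ε / 8) * (3 * X ^ G)) := by
        gcongr
    _ = (3 * Cl * C2 ^ (2 * N)) * (X ^ (4 * δ) * X ^ (ε / 8) * X ^ (ε / 8) * X ^ G) := by ring
    _ ≤ X ^ (ε / 8) * (X ^ (4 * δ) * X ^ (ε / 8) * X ^ (ε / 8) * X ^ G) := by gcongr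
    _ = X ^ (ε / 8 + (4 * δ + ε / 8 + ε / 8 + G)) := by
        rw [← Real.rpow_add hX0, ← Real.rpow_add hX0, ← Real.rpow_add hX0, ← Real.rpow_add hX0]
    _ ≤ X ^ (E + ε) := hmono (by rw [hG]; linarith)

/-- **(LB), cube-free families, `BG` form.** -/
theorem BG_lb [Fintype τ] (H : LVProp) {cf : Lam → Pc → Eis → ℂ} {Q : Lam → Eis → Prop}
    {r : Lam → ℕ} {c : Lam → ℝ} {θ : ℝ}
    (hI : ∀ lam, PI D (cf lam) (r lam) (c lam)) (hS : ∀ lam, SupI D (cf lam) (Q lam) θ)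
    (hQ : ∀ lam k, Q lam k → CubeFree k)
    (hθ1 : 7 / 8 ≤ θ) (hθ2 : θ ≤ 1)
    {κ : ℝ} {u : List ℝ} {w w0 : τ → ℝ} {e0 b : ℝ} (hκ : 0 ≤ κ) (hu : ∀ x ∈ u, 0 ≤ x)
    (hw0 : ∀ t, 0 ≤ w0 t) (hw : ∀ t, w0 t ≤ w t) (hb : 0 ≤ b)
    (h1 : BG D (fun lam => RQ (cf lam) (Q lam)) κ u w0 e0)
    (h2 : 4 * κ < 3 * u.sum →
      BG D (fun lam => RQ (cf lam) (Q lam)) κ u (fun _ => 0) (κ + u.sum + b)) :
    BG D (fun lam => RQ (cf lam) (Q lam)) κ u w (max (5 / 3 * (∑ t, w t - ∑ t, w0 t) + e0)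
      (b + max (4 / 9 * κ + 5 / 3 * (u.sum + ∑ t, w t))
        (8 / 3 * (1 - θ) * κ + 2 * θ * (u.sum + ∑ t, w t)))) := by
  classical
  intro ε hε
  set U := u.sum with hU
  set W := ∑ t, w t with hW
  set W0 := ∑ t, w0 t with hW0
  set M : ℝ := (u.length : ℝ) with hM
  set Tn : ℝ := (Fintype.card τ : ℝ) with hTn
  set E := max (5 / 3 * (W - W0) + e0) (b + max (4 / 9 * κ + 5 / 3 * (U + W))
        (8 / 3 * (1 - θ) * κ + 2 * θ * (U + W))) with hE
  have hM0 : 0 ≤ M := Nat.cast_nonneg _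
  have hTn0 : 0 ≤ Tn := Nat.cast_nonneg _
  have hU0 : 0 ≤ U := List.sum_nonneg hu
  have hW00 : 0 ≤ W0 := Finset.sum_nonneg fun t _ => hw0 t
  have hWW : W0 ≤ W := Finset.sum_le_sum fun t _ => hw t
  have hWn : 0 ≤ W := hW00.trans hWW
  set δ1 := min 1 (ε / 8) with hδ1
  have hδ1p : 0 < δ1 := lt_min one_pos (by linarith)
  have hδ1a : δ1 ≤ 1 := min_le_left _ _
  have hδ1b : δ1 ≤ ε / 8 := min_le_right _ _
  set A := (U + W + 2) / δ1 with hA
  have hA0 : 0 ≤ A := by positivity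
  set η := min (1 / 72) (ε / (8 * (6 * A + 9) * (κ + 1))) with hη
  have hηp : 0 < η := lt_min (by norm_num) (by positivity)
  have hη1 : η ≤ 1 / 72 := min_le_left _ _
  have hη2 : (6 * A + 9) * η * (κ + δ1) ≤ ε / 8 := by
    have h3 : η ≤ ε / (8 * (6 * A + 9) * (κ + 1)) := min_le_right _ _
    calc (6 * A + 9) * η * (κ + δ1) ≤ (6 * A + 9) * (ε / (8 * (6 * A + 9) * (κ + 1))) * (κ + 1) := by
          gcongr
      _ = ε / 8 := by field_simp
  obtain ⟨δa, hδa, La⟩ := h1 (ε / 8) (by linarith)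
  obtain ⟨δb, hδb, Lb⟩ : ∃ δb : ℝ, 0 < δb ∧ (4 * κ < 3 * U →
      Loc D (fun lam => RQ (cf lam) (Q lam)) κ u (fun _ => 0) δb (κ + U + b + ε / 8)) := by
    by_cases h : 4 * κ < 3 * U
    · obtain ⟨δb, hδb, L⟩ := h2 h (ε / 8) (by linarith)
      exact ⟨δb, hδb, fun _ => L⟩
    · exact ⟨1, one_pos, fun h' => absurd h' h⟩
  obtain ⟨δ, hδ, hd1, hd2, hd3, hd4, hd5, hd6⟩ : ∃ δ : ℝ, 0 < δ ∧ 4 * δ ≤ δa ∧ δ ≤ δb ∧
      (M + 1) * δ ≤ δ1 ∧ 2 * δ ≤ (κ + δ1) * η ^ 2 ∧ (3 * M + 16 * Tn + 10) * δ ≤ ε / 8 ∧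
      (M + 8 * Tn + 2) * δ ≤ 1 := by
    refine ⟨min (min (δa / 4) δb) (min (δ1 / (M + 1)) (min ((κ + δ1) * η ^ 2 / 2)
      (min (ε / 8 / (3 * M + 16 * Tn + 10)) (1 / (M + 8 * Tn + 2))))), ?_, ?_, ?_, ?_, ?_, ?_, ?_⟩
    · refine lt_min (lt_min (by linarith) hδb) (lt_min (by positivity) (lt_min (by positivity)
        (lt_min (by positivity) (by positivity))))
    · have := (min_le_left (min (δa / 4) δb) (min (δ1 / (M + 1)) (min ((κ + δ1) * η ^ 2 / 2)
        (min (ε / 8 / (3 * M + 16 * Tn + 10)) (1 / (M + 8 * Tn + 2)))))).trans (min_le_left _ _)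
      linarith
    · exact (min_le_left _ _).trans (min_le_right _ _)
    · have := (min_le_right (min (δa / 4) δb) (min (δ1 / (M + 1)) (min ((κ + δ1) * η ^ 2 / 2)
        (min (ε / 8 / (3 * M + 16 * Tn + 10)) (1 / (M + 8 * Tn + 2)))))).trans (min_le_left _ _)
      rw [le_div_iff₀ (by positivity)] at this
      linarith
    · have := ((min_le_right (min (δa / 4) δb) (min (δ1 / (M + 1)) (min ((κ + δ1) * η ^ 2 / 2)
        (min (ε / 8 / (3 * M + 16 * Tn + 10)) (1 / (M + 8 * Tn + 2)))))).trans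
        (min_le_right _ _)).trans (min_le_left _ _)
      linarith
    · have := (((min_le_right (min (δa / 4) δb) (min (δ1 / (M + 1)) (min ((κ + δ1) * η ^ 2 / 2)
        (min (ε / 8 / (3 * M + 16 * Tn + 10)) (1 / (M + 8 * Tn + 2)))))).trans
        (min_le_right _ _)).trans (min_le_right _ _)).trans (min_le_left _ _)
      rw [le_div_iff₀ (by positivity)] at this
      linarith
    · have := (((min_le_right (min (δa / 4) δb) (min (δ1 / (M + 1)) (min ((κ + δ1) * η ^ 2 / 2)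
        (min (ε / 8 / (3 * M + 16 * Tn + 10)) (1 / (M + 8 * Tn + 2)))))).trans
        (min_le_right _ _)).trans (min_le_right _ _)).trans (min_le_right _ _)
      rw [le_div_iff₀ (by positivity)] at this
      linarith
  refine ⟨δ, hδ, fun lam N B => ?_⟩
  replace hI := hI lam
  replace hS := hS lam
  replace hQ := hQ lam
  have hN0 : (0 : ℝ) ≤ N := Nat.cast_nonneg _
  set d1 := δ / ((N + 1) * (κ + δ1)) with hd1'
  have hκδ : 0 < κ + δ1 := by linarith
  have hd1p : 0 < d1 := by positivity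
  set εs := ε / (16 * ((N : ℝ) + 1)) with hεs
  have hεsp : 0 < εs := by positivity
  set B' := max B (κ + 2) with hB'
  obtain ⟨δs, hδs, Xs, hXs, KS⟩ := hS εs hεsp B'
  obtain ⟨δa', hδa', Xa, hXa, KA⟩ := La lam N B
  obtain ⟨δb', hδb', Xb, hXb, KB⟩ : ∃ δb' : ℝ, 0 < δb' ∧ ∃ Xb : ℝ, 1 < Xb ∧ (4 * κ < 3 * U →
      ∀ X : ℝ, Xb ≤ X → ∀ (k : ℝ) (us gs : List Pc), |k - κ| ≤ δb → D.Near X δb us u →
        D.Gran X δb N gs (fun _ => 0) → D.Good X δb' B (us ++ gs) →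
          RQ (cf lam) (Q lam) (k * Real.log X) (us ++ gs) ≤ X ^ (κ + U + b + ε / 8)) := by
    by_cases h : 4 * κ < 3 * U
    · obtain ⟨δ', hδ', X', hX', K'⟩ := Lb h lam N B
      exact ⟨δ', hδ', X', hX', fun _ => K'⟩
    · exact ⟨1, one_pos, 2, by norm_num, fun h' => absurd h' h⟩
  obtain ⟨Cl, hCl, hlb⟩ := lb_list H hηp hη1 hd1p (max (r lam) ((r lam + 1) * u.length)) N hA0
  obtain ⟨C2, hC2, hl1⟩ := Cf_l1 (r lam) (ε := 1) one_pos
  obtain ⟨Xc, hXc, hconst⟩ := const_le_rpow (3 * Cl * C2 ^ (2 * N)) (a := ε / 8) (by linarith)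
  obtain ⟨Xd, hXd, hexp⟩ := const_le_rpow (Real.exp (c lam * (M + N + 1))) (a := δ / 2) (by linarith)
  refine ⟨min δs (min δa' δb'), lt_min hδs (lt_min hδa' hδb'),
    max (max Xs Xa) (max Xb (max Xc Xd)), lt_of_lt_of_le hXs ((le_max_left _ _).trans
      (le_max_left _ _)), ?_⟩
  intro X hX k us gs hk hnear hgran hgood
  have hXXs : Xs ≤ X := ((le_max_left _ _).trans (le_max_left _ _)).trans hX
  have hXXa : Xa ≤ X := ((le_max_right _ _).trans (le_max_left _ _)).trans hX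
  have hXXb : Xb ≤ X := ((le_max_left _ _).trans (le_max_right _ _)).trans hX
  have hXXc : Xc ≤ X := (((le_max_left _ _).trans (le_max_right _ _)).trans
    (le_max_right _ _)).trans hX
  have hXXd : Xd ≤ X := (((le_max_right _ _).trans (le_max_right _ _)).trans
    (le_max_right _ _)).trans hX
  have hX1 : 1 < X := lt_of_lt_of_le hXs hXXs
  have hX0 : 0 < X := by linarith
  have hlog : 0 < Real.log X := Real.log_pos hX1
  replace hconst := hconst X hXXc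
  replace hexp := hexp X hXXd
  -- powers of `X`
  have hmono : ∀ {a a' : ℝ}, a ≤ a' → X ^ a ≤ X ^ a' := fun h =>
    Real.rpow_le_rpow_of_exponent_le hX1.le h
  set K1 := X ^ (κ + δ1) with hK1
  have hK1one : 1 < K1 := Real.one_lt_rpow hX1 hκδ
  have hK10 : 0 < K1 := by linarith
  have hK1pow : ∀ a : ℝ, K1 ^ a = X ^ ((κ + δ1) * a) := fun a => by
    rw [hK1, ← Real.rpow_mul hX0.le]
  have hδδ1 : δ ≤ δ1 := by nlinarith
  have hkκ := abs_le.1 hk
  have hexpk : Real.exp (k * Real.log X) = X ^ k := by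
    rw [Real.rpow_def_of_pos hX0, mul_comm]
  have hKle : Real.exp (k * Real.log X) ≤ K1 := by
    rw [hexpk]; exact hmono (by linarith)
  have hgs0 : ∀ g ∈ gs, 0 ≤ D.len g := fun g hg => (hgood g (List.mem_append_right _ hg)).2.2
  have hus0 : ∀ g ∈ us, 0 ≤ D.len g := fun g hg => (hgood g (List.mem_append_left _ hg)).2.2
  obtain ⟨g1, g2, gsm, hperm, hlen12, hlens, hG1, hG2, hg12, hgsm⟩ :=
    split_gran hX1 hδ hI.c0 hw0 hw hgs0 hgran
  have hlen_us : us.length = u.length := Near_length hnear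
  have hlen_usM : (us.length : ℝ) = M := by rw [hlen_us]
  have hsum_us := abs_le.1 (near_sum hnear)
  have hsum1 := gran_sum_le hG1
  have hsum2 := gran_sum_le hG2
  rw [Finset.sum_sub_distrib] at hsum2
  have hlen12' : (g1.length : ℝ) + g2.length ≤ N := by exact_mod_cast hlen12
  have hg1l0 : (0 : ℝ) ≤ g1.length := Nat.cast_nonneg _
  have hg2l0 : (0 : ℝ) ≤ g2.length := Nat.cast_nonneg _
  -- sizes
  have hP2 : (g2.map fun p => Real.exp (D.len p + c lam)).prod ≤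
      X ^ ((W - W0) + 4 * δ * Tn + δ / 2) :=
    size_le hX1 hI.c0 (L := M + N + 1) (by linarith) hexp hsum2
  have hΛ : (us.map fun p => Real.exp (D.len p + c lam)).prod *
      ((g1.map fun p => Real.exp (D.len p + c lam)).prod *
        (g2.map fun p => Real.exp (D.len p + c lam)).prod) ≤
      X ^ ((U + W) + (M + 8 * Tn + 1) * δ) := by
    have e : (us.map fun p => Real.exp (D.len p + c lam)).prod *
      ((g1.map fun p => Real.exp (D.len p + c lam)).prod *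
        (g2.map fun p => Real.exp (D.len p + c lam)).prod) =
        ((us ++ (g1 ++ g2)).map fun p => Real.exp (D.len p + c lam)).prod := by
      rw [List.map_append, List.map_append, List.prod_append, List.prod_append]
    rw [e]
    refine (size_le (a := U + δ * M + ((W0 + 4 * δ * Tn) + ((W - W0) + 4 * δ * Tn))) hX1 hI.c0
      (L := M + N + 1) ?_ hexp ?_).trans (hmono ?_)
    · rw [List.length_append, List.length_append]
      push_cast
      linarith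
    · rw [List.map_append, List.map_append, List.sum_append, List.sum_append]
      linarith [hsum_us.2]
    · linarith
  have hYhi : (us.map fun p => Real.exp (D.len p + c lam)).prod ≤ X ^ (U + δ * M + δ / 2) :=
    size_le hX1 hI.c0 (L := M + N + 1) (by linarith) hexp (by linarith [hsum_us.2])
  have hYlo : X ^ (U - δ * M) ≤ (us.map fun p => Real.exp (D.len p + c lam)).prod :=
    le_size hX1 hI.c0 (by linarith [hsum_us.1])
  have hΛA : (us.map fun p => Real.exp (D.len p + c lam)).prod *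
      ((g1.map fun p => Real.exp (D.len p + c lam)).prod *
        (g2.map fun p => Real.exp (D.len p + c lam)).prod) ≤ K1 ^ A := by
    refine hΛ.trans ?_
    rw [hK1pow]
    refine hmono ?_
    have e1 : δ1 * A = U + W + 2 := by rw [hA]; field_simp
    have e2 : δ1 * A ≤ (κ + δ1) * A := mul_le_mul_of_nonneg_right (by linarith) hA0
    linarith
  have hBX : K1 ≤ X ^ B' := hmono (by
    have : κ + 2 ≤ B' := le_max_right _ _
    linarith)
  -- the kept part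
  have hgoodall : ∀ p ∈ us ++ gs, D.s1 p ≤ X ^ min δs (min δa' δb') ∧ D.s2 p ≤ X ^ B ∧
      0 ≤ D.len p := hgood
  have hmem12 : ∀ g ∈ g1 ++ g2, g ∈ us ++ gs := fun g hg =>
    List.mem_append_right _ (hg12 g hg).1
  have hR1 : RQ (cf lam) (Q lam) (k * Real.log X) (us ++ g1) ≤ X ^ (e0 + ε / 8) := by
    refine KA X hXXa k us g1 (hk.trans (by linarith)) (Near_mono hnear (by linarith))
      (Gran_mono hG1 hd1 le_rfl) ?_
    intro p hp
    have hp' : p ∈ us ++ gs := by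
      rcases List.mem_append.1 hp with h | h
      · exact List.mem_append_left _ h
      · exact hmem12 p (List.mem_append_left _ h)
    have h3 := hgoodall p hp'
    exact ⟨h3.1.trans (hmono ((min_le_right _ _).trans (min_le_left _ _))), h3.2⟩
  have hlump : (us.map fun p => Real.exp (D.len p + c lam)).prod ≤ K1 ^ ((4 : ℝ) / 3) ∨
      RQ (cf lam) (Q lam) (k * Real.log X) us ≤ X ^ (b + ε / 8 + M * δ) * K1 *
        (us.map fun p => Real.exp (D.len p + c lam)).prod := by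
    by_cases hc : 4 * κ < 3 * U
    · right
      have h3 := KB hc X hXXb k us [] (hk.trans hd2) (Near_mono hnear hd2)
        ⟨by simp, by simp, fun t => by simpa using hδb.le⟩ (by
          intro p hp
          rw [List.append_nil] at hp
          have h4 := hgoodall p (List.mem_append_left _ hp)
          exact ⟨h4.1.trans (hmono ((min_le_right _ _).trans (min_le_right _ _))), h4.2⟩)
      rw [List.append_nil] at h3
      refine h3.trans ?_
      calc X ^ (κ + U + b + ε / 8) ≤ X ^ (b + ε / 8 + M * δ + (κ + δ1) + (U - δ * M)) :=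
            hmono (by linarith)
        _ = X ^ (b + ε / 8 + M * δ) * K1 * X ^ (U - δ * M) := by
            rw [Real.rpow_add hX0, Real.rpow_add hX0]
        _ ≤ _ := mul_le_mul_of_nonneg_left hYlo (by positivity)
    · left
      refine hYhi.trans ?_
      rw [hK1pow]
      refine hmono ?_
      push Not at hc
      linarith
  have hB1 : 1 ≤ X ^ (b + ε / 8 + M * δ) := Real.one_le_rpow hX1.le (by positivity)
  have hS1 : 1 ≤ X ^ εs := Real.one_le_rpow hX1.le hεsp.le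
  have hfam := fam_bound hI hQ hθ1 hθ2 hlb (le_max_left _ _) hC2 hCl hl1 hX1 hδ hK1one hKle
    hS1 hB1 (us := us) (g1 := g1) (g2 := g2) (gsm := gsm)
    (by rw [hlen_us]; exact le_max_right _ _) hlen12 hlens hus0
    (fun p hp => hgs0 p (hg12 p hp).1) (fun p hp => hgs0 p (hgsm p hp).1)
    (fun g hg => (hgsm g hg).2)
    (by
      intro g hg
      have h3 := hg12 g hg
      constructor
      · have e : K1 ^ d1 = X ^ (δ / ((N : ℝ) + 1)) := by
          rw [hK1pow, hd1']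
          congr 1
          field_simp
        rw [e]; exact h3.2.2
      · have h4 := h3.2.1
        unfold Pcs.nl at h4
        rw [div_le_iff₀ hlog] at h4
        have h5 : Real.exp (D.len g) ≤ X ^ δ := by
          rw [Real.rpow_def_of_pos hX0]
          exact Real.exp_le_exp.2 (by linarith)
        have h6 : Real.exp (c lam) ≤ X ^ (δ / 2) := by
          refine le_trans (Real.exp_le_exp.2 ?_) hexp
          have := hI.c0
          nlinarith
        calc Real.exp (D.len g + c lam) = Real.exp (D.len g) * Real.exp (c lam) := Real.exp_add _ _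
          _ ≤ X ^ δ * X ^ (δ / 2) := mul_le_mul h5 h6 (Real.exp_pos _).le (by positivity)
          _ = X ^ (δ + δ / 2) := by rw [← Real.rpow_add hX0]
          _ ≤ K1 ^ (η ^ 2) := by rw [hK1pow]; exact hmono (by linarith))
    (by
      intro g hg k' hk' hnk
      have h3 := hg12 g hg
      have h4 := hgoodall g (hmem12 g hg)
      have h5 : D.len g ≤ B' * Real.log X := by
        have h6 := h3.2.1
        unfold Pcs.nl at h6
        rw [div_le_iff₀ hlog] at h6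
        refine h6.trans (mul_le_mul_of_nonneg_right ?_ hlog.le)
        have : κ + 2 ≤ B' := le_max_right _ _
        linarith
      refine (KS X hXXs g (h4.1.trans (hmono (min_le_left _ _)))
        (h4.2.1.trans (hmono (le_max_left _ _))) h4.2.2 h5 k' hk' (hnk.trans hBX)).trans ?_
      refine mul_le_mul_of_nonneg_left ?_ (by positivity)
      rw [← Real.exp_mul]
      refine Real.exp_le_exp.2 ?_
      have h7 : 0 ≤ c lam * θ := mul_nonneg hI.c0 (by linarith)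
      linarith)
    hΛA hlump
  have hRperm : RQ (cf lam) (Q lam) (k * Real.log X) (us ++ gs) =
      RQ (cf lam) (Q lam) (k * Real.log X) (us ++ ((g1 ++ g2) ++ gsm)) :=
    RQ_perm _ _ _ _ _ (hperm.append_left us)
  have hSN : 2 * (N : ℝ) * εs ≤ ε / 8 := by
    rw [hεs, mul_div_assoc', div_le_iff₀ (by positivity)]
    nlinarith
  have hEm := le_max_right (5 / 3 * (W - W0) + e0) (b + max (4 / 9 * κ + 5 / 3 * (U + W))
        (8 / 3 * (1 - θ) * κ + 2 * θ * (U + W)))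
  have hE2 : b + (4 / 9 * κ + 5 / 3 * (U + W)) ≤ E := by
    have := le_max_left (4 / 9 * κ + 5 / 3 * (U + W)) (8 / 3 * (1 - θ) * κ + 2 * θ * (U + W))
    linarith
  have hE3 : b + (8 / 3 * (1 - θ) * κ + 2 * θ * (U + W)) ≤ E := by
    have := le_max_right (4 / 9 * κ + 5 / 3 * (U + W)) (8 / 3 * (1 - θ) * κ + 2 * θ * (U + W))
    linarith
  show RQ (cf lam) (Q lam) (k * Real.log X) (us ++ gs) ≤ X ^ (E + ε)
  rw [hRperm]
  refine hfam.trans ?_
  exact fin_num (V := W - W0) (n := U + W) (εs := εs) (E := E) hX1 hκ hδ1p hδ hε hM0 hTn0 hθ1 hθ2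
    hCl hC2 (prod_map_nonneg _ _ fun _ _ => (Real.exp_pos _).le) (RQ_nonneg _ _ _ _)
    (mul_nonneg (prod_map_nonneg _ _ fun _ _ => (Real.exp_pos _).le)
      (mul_nonneg (prod_map_nonneg _ _ fun _ _ => (Real.exp_pos _).le)
        (prod_map_nonneg _ _ fun _ _ => (Real.exp_pos _).le)))
    hP2 hR1 hΛ hSN hη2 hδ1b hd5 hconst (le_max_left _ _) hE2 hE3

end Crest.Agent.R017.Lbc298
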