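import Crest.Agent.R017.XLBi_298
import Crest.Agent.R017.XHE_411
import Crest.Agent.R017.XB_71

/-!
# Row 17, (LB): instances for any set of `k` and for the exceptional provider (helper298)

* `blb_Q`  : any set of admissible cube-free `k`
* `bg_idt` : the ideal extra term
* `blb_ex` : `RQ Q + idt Z` (the character side of the exceptional class)
-/

set_option autoImplicit false

noncomputable section

open Complex Finset
open scoped ComplexConjugate

namespace Crest.Agent.R017.Lbc298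

open Crest.Agent.R012 Crest.Agent.R012.Eis Crest.Agent.R012.LS2 Crest.Agent.R012.Char766
open Crest.Agent.R017.CM106 Crest.Agent.R017.LV404 Crest.Agent.R017.HP842
open Crest.Agent.R017.XG702
open Crest.Agent.R017.FE47 (PU cx)
open Crest.Agent.R017.B770 (DPar)
open Crest.Agent.R017.End699 (PF)
open Crest.Agent.R017.Prov71 (Pq Dq Rp Kd wt Qp Okl BLB)
open Crest.Agent.R017.XHB411 (idt idt_nonneg)

/-- **the B-line for the provider**, any set of admissible cube-free `k` -/
theorem blb_Q {θ : ℝ} (hθ : 7 / 8 ≤ θ) (hθ1 : θ ≤ 1) (hPF : PF Set.univ θ) {h : ℝ → ℝ} {c₀ : ℝ}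
    (hh : PU h c₀) {Lam : Type*} (π : Lam → DPar) (hP : ∀ lam, (π lam).OK)
    (Q : Lam → Eis → Prop) (hQ : ∀ lam k, Q lam k → Qp (π lam) k) :
    BLB θ Dq (fun lam l ps => Prov71.RQ (Q lam) h l (ps.map (Pq.pc (π lam)))) where
  lb := by
    intro e κ u m a m₀ a₀ he hκ hok huκ hm0 hm1 ha0 ha1 h56 h1 h2
    obtain ⟨R, hR0, hR⟩ := FE47.exists_R (FE47.cs_cx hh.cs)
    obtain ⟨H1, hH1⟩ := (FE47.cs_cx hh.cs).exists_bound_of_continuous
      (FE47.cd_cx hh.cd).continuous
    set H0 : ℝ := max 1 H1 with hH0d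
    have hH01 : 1 ≤ H0 := le_max_left _ _
    have hH0 : 0 < H0 := by linarith
    have hH : ∀ u, ‖cx h u‖ ≤ H0 := fun u => (hH1 u).trans (le_max_right _ _)
    have hR0' : 0 ≤ R := by linarith
    have hI : ∀ lam : Lam, PI Dq (cfq (π lam) h H0) 0 R := fun lam =>
      PI_cfq (hP lam) hH0 hR0' hH hR
    have hS : ∀ lam : Lam, SupI Dq (cfq (π lam) h H0) (Q lam) θ := fun lam =>
      SupI_cfq (by linarith) hθ1 hPF (hP lam) hh hH01 fun k hk =>
        ⟨(hQ lam k hk).1, (hQ lam k hk).2.1⟩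
    have hto : ∀ {u : List ℝ} {w : Kd → ℝ} {E : ℝ}, BG Dq (fun lam l ps => Prov71.RQ (Q lam) h l (ps.map (Pq.pc (π lam)))) κ u w E →
        BG Dq (fun lam => RQ (cfq (π lam) h H0) (Q lam)) κ u w E := by
      intro u w E hB
      refine hB.comp fun lam l ps => ?_
      show _ ≤ Prov71.RQ _ h l (ps.map (Pq.pc (π lam)))
      rw [RQ_cfq hH0]
      exact le_mul_of_one_le_left (RQ_nonneg _ _ _ _) (one_le_pow₀ (one_le_pow₀ hH01))
    have hfrom : ∀ {u : List ℝ} {w : Kd → ℝ} {E : ℝ},
        BG Dq (fun lam => RQ (cfq (π lam) h H0) (Q lam)) κ u w E →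
        BG Dq (fun lam l ps => Prov71.RQ (Q lam) h l (ps.map (Pq.pc (π lam)))) κ u w E := by
      intro u w E hB
      refine BG_scale (C0 := H0 ^ 2) (one_le_pow₀ hH01) (fun lam l ps => ?_)
        (fun lam l ps => RQ_nonneg _ _ _ _) hB
      exact (RQ_cfq hH0 _ _ _).le
    have hsum : ∀ x y : ℝ, ∑ t : Kd, wt x y t = x + y := by
      intro x y
      show ∑ t ∈ ({Kd.mo, Kd.am} : Finset Kd), wt x y t = x + y
      rw [Finset.sum_pair (by decide)]
      rfl
    have hU : 0 ≤ u.sum := List.sum_nonneg hok.1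
    have hmain := BG_lb LV164.lvProp hI hS (fun lam k hk => (hQ lam k hk).2) hθ hθ1 (κ := κ) (u := u)
      (w := wt m a) (w0 := wt m₀ a₀) (e0 := κ + (u.sum + m₀ + a₀) + e) (b := 0) hκ hok.1
      (Prov71.wt_nonneg hm0 ha0) (fun t => by cases t <;> assumption) le_rfl (hto h1)
      (fun h3 => by
        have h4 := hto (h2 h3)
        have e1 : wt 0 0 = fun _ => (0 : ℝ) := by funext t; cases t <;> rfl
        rw [e1] at h4
        rw [add_zero]
        exact h4)
    refine hfrom (hmain.mono ?_)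
    rw [hsum, hsum, zero_add]
    refine max_le ?_ (max_le ?_ ?_)
    · refine le_max_of_le_left ?_
      linarith
    · refine le_max_of_le_left ?_
      linarith
    · refine le_max_of_le_right ?_
      linarith


/-- the exponent of the ideal extra term -/
theorem bg_idt {Lam : Type*} (Z : ℝ → List Pq → Prop) (κ : ℝ) (u : List ℝ) (m a : ℝ) :
    BG Dq (fun _ : Lam => idt Z) κ u (wt m a) (κ + (u.sum + m + a)) := by
  classical
  have h1 := XHB411.BG_of_bound (D := Dq) (Ψ := fun _ : Lam => idt Z) (fun l L => l + L)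
    (fun l l' L L' => by
      have h1 := le_abs_self (l' - l)
      have h2 := le_abs_self (L' - L)
      have h3 := abs_nonneg (l' - l)
      have h4 := abs_nonneg (L' - L)
      show l' + L' ≤ l + L + 3 * (|l' - l| + |L' - L|)
      linarith)
    (fun c l L _ => by
      show c * l + c * L = c * (l + L)
      ring) ?_ ?_ κ u (wt m a)
  · have hsum : ∑ t : Kd, wt m a t = m + a := by
      show ∑ t ∈ ({Kd.mo, Kd.am} : Finset Kd), wt m a t = m + a
      rw [Finset.sum_pair (by decide)]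
      rfl
    rw [hsum] at h1
    have e : κ + (u.sum + m + a) = κ + (u.sum + (m + a)) := by ring
    rw [e]
    exact h1
  · intro _ n ε hε
    refine ⟨1, le_rfl, fun l ps hl _ hz => ?_⟩
    have htl : 0 ≤ XHB411.tl Dq ps := by
      unfold XHB411.tl
      apply List.sum_nonneg
      intro x hx
      obtain ⟨p, hp, rfl⟩ := List.mem_map.1 hx
      exact hz p hp
    have h2 : 1 ≤ Real.exp (ε * (l + XHB411.tl Dq ps)) := Real.one_le_exp (by positivity)
    rw [one_mul]
    unfold XHB411.idt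
    split_ifs
    · exact le_mul_of_one_le_left (Real.exp_pos _).le h2
    · positivity
  · intro _ l ps hl
    show idt Z l ps ≤ 0
    unfold XHB411.idt
    rw [if_neg (fun h0 => by linarith [h0.1])]

/-- **the B-line for the exceptional provider** -/
theorem blb_ex {θ : ℝ} (hθ : 7 / 8 ≤ θ) (hθ1 : θ ≤ 1) (hPF : PF Set.univ θ) {h : ℝ → ℝ} {c₀ : ℝ}
    (hh : PU h c₀) {Lam : Type*} (π : Lam → DPar) (hP : ∀ lam, (π lam).OK)
    (Q : Lam → Eis → Prop) (hQ : ∀ lam k, Q lam k → Qp (π lam) k) (Z : ℝ → List Pq → Prop) :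
    BLB θ Dq (fun lam l ps => Prov71.RQ (Q lam) h l (ps.map (Pq.pc (π lam))) + idt Z l ps) where
  lb := by
    intro e κ u m a m₀ a₀ he hκ hok huκ hm0 hm1 ha0 ha1 h56 h1 h2
    have hR := blb_Q hθ hθ1 hPF hh π hP Q hQ
    have hle : ∀ (lam : Lam) (l : ℝ) (ps : List Pq),
        Prov71.RQ (Q lam) h l (ps.map (Pq.pc (π lam))) ≤
          Prov71.RQ (Q lam) h l (ps.map (Pq.pc (π lam))) + idt Z l ps := fun lam l ps => by
      have := idt_nonneg Z l ps
      linarith
    have hA := hR.lb e κ u m a m₀ a₀ he hκ hok huκ hm0 hm1 ha0 ha1 h56 (h1.comp hle)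
      (fun h3 => (h2 h3).comp hle)
    have hB : BG Dq (fun _ : Lam => idt Z) κ u (wt m a) (max (5 / 3 * (u.sum + m + a) + 4 / 9 * κ + e)
      (2 * θ * (u.sum + m + a) + 8 / 3 * (1 - θ) * κ)) := by
      refine (bg_idt Z κ u m a).mono (le_max_of_le_left ?_)
      linarith
    exact Prov71.BG_add hA hB fun lam l ps => le_rfl

end Crest.Agent.R017.Lbc298
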