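import Mathlib

/-!
# Row 17, E4 (x-side, structured): the exponents of one class of cells (helper842)

* `rr3` : the bound of the R-number (770's version)
* `CE`  : the exponents of a class of cells and their relations to the exponents of the class
* `CE.diag`, `CE.th`, `CE.ln`, `CE.n1`, `CE.n2`, `CE.rp`, `CE.lb` : the inequalities of the terms
-/

set_option autoImplicit false

noncomputable section

namespace Crest.Agent.R017.XL842

/-- bound of the R-number of a list of length `n` with smallest lump `≤ u` at the family `i` -/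
def rr3 (d i n u : ℝ) : ℝ := n + max i (i / 3) + (3 / 4 + 2 * d) * max 0 (min u (i / 2))

lemma rr3_mono {d i i' n u : ℝ} (hd : 0 ≤ d) (h : i ≤ i') : rr3 d i n u ≤ rr3 d i' n u := by
  unfold rr3
  have h1 : max i (i / 3) ≤ max i' (i' / 3) := max_le_max h (by linarith)
  have h2 : max 0 (min u (i / 2)) ≤ max 0 (min u (i' / 2)) :=
    max_le_max le_rfl (min_le_min le_rfl (by linarith))
  have h3 : 0 ≤ 3 / 4 + 2 * d := by linarith
  have := mul_le_mul_of_nonneg_left h2 h3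
  linarith

lemma rr3_add_n (d i n c u : ℝ) : rr3 d i (n + c) u = rr3 d i n u + c := by
  unfold rr3; ring

/-- the slope in `i` is at most `2` -/
lemma rr3_lip {d i δ n u : ℝ} (hd0 : 0 ≤ d) (hd : d ≤ 1 / 8) (hδ : 0 ≤ δ) :
    rr3 d (i + δ) n u ≤ rr3 d i n u + 2 * δ := by
  unfold rr3
  have h1 : max (i + δ) ((i + δ) / 3) ≤ max i (i / 3) + δ := by
    refine max_le ?_ ?_
    · linarith [le_max_left i (i / 3)]
    · linarith [le_max_right i (i / 3)]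
  have h2 : max 0 (min u ((i + δ) / 2)) ≤ max 0 (min u (i / 2)) + δ / 2 := by
    refine max_le ?_ ?_
    · linarith [le_max_left (0 : ℝ) (min u (i / 2))]
    · rcases le_total u (i / 2) with h | h
      · have e : min u (i / 2) = u := min_eq_left h
        have := min_le_left u ((i + δ) / 2)
        rw [e]
        linarith [le_max_right (0 : ℝ) u]
      · have e : min u (i / 2) = i / 2 := min_eq_right h
        have := min_le_right u ((i + δ) / 2)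
        rw [e]
        linarith [le_max_right (0 : ℝ) (i / 2)]
  have h3 : 0 ≤ 3 / 4 + 2 * d := by linarith
  have h4 := mul_le_mul_of_nonneg_left h2 h3
  have h5 : (3 / 4 + 2 * d) * (δ / 2) ≤ δ := by nlinarith
  nlinarith

/-- the exponents of a class and of a class of cells:
`k = log κ`, `v` level, `lam`, `us` as in the real text, `v1` true length, `n = N - β`,
`s0 = log nm e₀`, `R1, R2`, `y1, y2` : mass of `p ∥ PP`, `p² ∥ PP`; `lq` = text's `lqt`;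
cell : `S ν P s σ u w g h δ μ` sizes, `q` = `log nk (QQ²)`, `c, g1, g2` = `c₀, g₁, g₂`,
`os` = part of `s` in `S`, `s1` = part of `s` in `R1`, `s2` = the rest -/
structure CE (τ k v lam us v1 n s0 R1 R2 y1 y2 lq x : ℝ)
    (S ν P s σ u w g h δ μ q c g1 g2 os s1 s2 : ℝ) : Prop where
  τ0 : 0 ≤ τ
  os0 : 0 ≤ os
  s10 : 0 ≤ s1
  s20 : 0 ≤ s2
  gp : 0 ≤ g
  hp : 0 ≤ h
  δp : 0 ≤ δ
  ct : |c| ≤ τ
  g1t : |g1| ≤ τ
  g2t : |g2| ≤ τ
  /-- `nm (S ν) = lam`, `PP / σ` -/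
  lamt : 4 / 3 * (S + ν) + 1 / 3 * (P - σ) ≤ 2 * lam - us / 3 + τ
  Pt : |P - (y1 + 2 * y2)| ≤ τ
  ut : |u - (R1 - s1 + s2)| ≤ τ
  wt : |w - (R2 + s1)| ≤ τ
  st : |s - (os + s1 + s2)| ≤ τ
  qt : q ≤ lq + os + s1 + s2 + τ
  xt : g + h + μ ≤ x + τ
  v1t : |v1 - (v - R1 - 2 * R2 - y1 - 2 * y2)| ≤ τ

section

variable {τ k v lam us v1 n s0 R1 R2 y1 y2 lq x : ℝ}
  {S ν P s σ u w g h δ μ q c g1 g2 os s1 s2 : ℝ}

/-- log of the divisor -/
def Ec (g2 w g δ : ℝ) : ℝ := g2 + w + g + δ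

/-- log of the frequency -/
def Jc (P h u : ℝ) : ℝ := P + h + u

/-- log of the length of the arrays -/
def Nc (v c P h u g2 w g δ : ℝ) : ℝ := v - c - Jc P h u - 2 * Ec g2 w g δ

/-- log of the dual length -/
def Lc (lt h s1 s2 g δ : ℝ) : ℝ := lt - (2 * h + 2 * (s1 + s2) + 4 * g + 4 * δ)

/-- log of the length of the coefficients -/
def Nbc (n s0 g2 w g δ h u : ℝ) : ℝ := n - s0 - Ec g2 w g δ + h + u

/-- log of `Th` -/
def Thc (N q k s L : ℝ) : ℝ := (2 * N + q - (k - 2 * s) - L) / 3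

/-- log of the factor in front of the moments, without `κ Mb Ek` -/
def Pre (v S ν c P g1 σ E s : ℝ) : ℝ :=
  -(v / 3) + (4 / 3 * (S + ν) + 1 / 3 * (c + P + 2 * E - g1 - σ)) - s

variable (H : CE τ k v lam us v1 n s0 R1 R2 y1 y2 lq x S ν P s σ u w g h δ μ q c g1 g2 os s1 s2)

include H

lemma CE.pre : Pre v S ν c P g1 σ (Ec g2 w g δ) s ≤
    2 * lam - us / 3 - v / 3 + 2 / 3 * Ec g2 w g δ - (os + s1 + s2) + 3 * τ := by
  have h1 := H.lamt
  have h2 := abs_le.mp H.ct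
  have h3 := abs_le.mp H.g1t
  have h4 := abs_le.mp H.st
  unfold Pre
  linarith [h2.1, h2.2, h3.1, h3.2, h4.1, h4.2, H.τ0]

lemma CE.nc : Nc v c P h u g2 w g δ ≤ v1 - (h + (s1 + s2) + 2 * g + 2 * δ) + 8 * τ ∧
    v1 - (h + (s1 + s2) + 2 * g + 2 * δ) - 8 * τ ≤ Nc v c P h u g2 w g δ := by
  have h2 := abs_le.mp H.ct
  have h3 := abs_le.mp H.Pt
  have h4 := abs_le.mp H.ut
  have h5 := abs_le.mp H.wt
  have h6 := abs_le.mp H.g2t
  have h7 := abs_le.mp H.v1t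
  unfold Nc Jc Ec
  constructor <;> linarith [h2.1, h2.2, h3.1, h3.2, h4.1, h4.2, h5.1, h5.2, h6.1, h6.2, h7.1, h7.2]

/-- the main term -/
lemma CE.diag {T0 ex t : ℝ} (ht : t ≤ T0 - 2 / 3 * Ec g2 w g δ - n / 3 + τ) (h1 : x ≤ ex) :
    k + x + Pre v S ν c P g1 σ (Ec g2 w g δ) s + t ≤
      k + 2 * lam + T0 - (v + us) / 3 - n / 3 + ex + 4 * τ := by
  have h2 := H.pre
  have h3 := H.os0
  have h4 := H.s10
  have h5 := H.s20
  linarith

/-- `3 (Th - s)` -/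
lemma CE.th3 {lt l : ℝ} (hl : |l - Lc lt h s1 s2 g δ| ≤ 6 * τ) :
    3 * Thc (Nc v c P h u g2 w g δ) q k s l -
    3 * (os + s1 + s2) ≤ 2 * v1 - k + lq - lt + 26 * τ := by
  obtain ⟨h1, -⟩ := H.nc
  have h2 := H.qt
  have h3 := abs_le.mp H.st
  have h4 := abs_le.mp hl
  unfold Lc at h4
  unfold Thc
  linarith [h3.1, h3.2, h4.1, h4.2]

/-- the term `Th` -/
lemma CE.th {T0 ex t f lt l : ℝ} (hl : |l - Lc lt h s1 s2 g δ| ≤ 6 * τ) (ht : t ≤ T0 + f - 2 / 3 * Ec g2 w g δ - n / 3 + τ)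
    (h1 : x + (2 * v1 - k + lq - lt) / 3 + f ≤ ex) :
    k + x + Pre v S ν c P g1 σ (Ec g2 w g δ) s +
      (Thc (Nc v c P h u g2 w g δ) q k s l + t) ≤
      k + 2 * lam + T0 - (v + us) / 3 - n / 3 + ex + 20 * τ := by
  have h2 := H.pre
  have h3 := H.th3 hl
  have h4 := H.τ0
  linarith

/-- the terms `Th L N^(-1/2)` -/
lemma CE.ln {T0 ex t f lt l : ℝ} (hl : |l - Lc lt h s1 s2 g δ| ≤ 6 * τ) (ht : t ≤ T0 + f - 2 / 3 * Ec g2 w g δ - n / 3 + τ)
    (h1 : x + (2 * v1 - k + lq - lt) / 3 + (lt - v1 / 2) + f ≤ ex) :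
    k + x + Pre v S ν c P g1 σ (Ec g2 w g δ) s +
      (Thc (Nc v c P h u g2 w g δ) q k s l + l - 1 / 2 * Nc v c P h u g2 w g δ + t) ≤
      k + 2 * lam + T0 - (v + us) / 3 - n / 3 + ex + 30 * τ := by
  have h2 := H.pre
  have h3 := H.th3 hl
  have h4 := H.τ0
  obtain ⟨-, h5⟩ := H.nc
  have h6 := abs_le.mp hl
  have e : Lc lt h s1 s2 g δ = lt - (2 * h + 2 * (s1 + s2) + 4 * g + 4 * δ) := rfl
  rw [e] at h6
  have := H.os0
  have := H.s10
  have := H.s20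
  have := H.gp
  have := H.hp
  have := H.δp
  linarith [h6.1, h6.2]

/-- the term `N m₀² / K` -/
lemma CE.n1 {T0 ex t f : ℝ} (ht : t ≤ T0 + f - 2 / 3 * Ec g2 w g δ - n / 3 + τ)
    (h1 : x + (v1 + 2 * x - k) + os + f ≤ ex) :
    k + x + Pre v S ν c P g1 σ (Ec g2 w g δ) s +
      (Nc v c P h u g2 w g δ + 2 * (δ + μ) - (k - 2 * s) + t) ≤
      k + 2 * lam + T0 - (v + us) / 3 - n / 3 + ex + 20 * τ := by
  have h2 := H.pre
  have h4 := H.τ0
  obtain ⟨h5, -⟩ := H.nc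
  have h6 := abs_le.mp H.st
  have h7 := H.xt
  have := H.os0
  have := H.s10
  have := H.s20
  have := H.gp
  have := H.hp
  have := H.δp
  linarith [h6.1, h6.2]

/-- the term `N m₀ / K^(2/3)` -/
lemma CE.n2 {T0 ex t f : ℝ} (ht : t ≤ T0 + f - 2 / 3 * Ec g2 w g δ - n / 3 + τ)
    (h1 : x + (v1 + x - 2 / 3 * k) + os / 3 + f ≤ ex) :
    k + x + Pre v S ν c P g1 σ (Ec g2 w g δ) s +
      (Nc v c P h u g2 w g δ + (δ + μ) - 2 / 3 * (k - 2 * s) + t) ≤
      k + 2 * lam + T0 - (v + us) / 3 - n / 3 + ex + 20 * τ := by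
  have h2 := H.pre
  have h4 := H.τ0
  obtain ⟨h5, -⟩ := H.nc
  have h6 := abs_le.mp H.st
  have h7 := H.xt
  have := H.os0
  have := H.s10
  have := H.s20
  have := H.gp
  have := H.hp
  have := H.δp
  linarith [h6.1, h6.2]

/-- the family of the R-number -/
lemma CE.is {lt l : ℝ} (hl : |l - Lc lt h s1 s2 g δ| ≤ 6 * τ) :
    Nbc n s0 g2 w g δ h u - Nc v c P h u g2 w g δ + l + (2 * y1 + y2) ≤
    (n - s0) + lt - v1 + (R1 - R2 + 2 * y1 + y2) + 17 * τ := by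
  have hl' := abs_le.mp hl
  unfold Lc at hl'
  obtain ⟨-, h5⟩ := H.nc
  have h3 := abs_le.mp H.ut
  have h4 := abs_le.mp H.wt
  have h6 := abs_le.mp H.g2t
  have := H.os0
  have := H.s10
  have := H.s20
  have := H.gp
  have := H.hp
  have := H.δp
  unfold Nbc Ec
  linarith [h3.1, h3.2, h4.1, h4.2, h6.1, h6.2, hl'.1, hl'.2]

/-- the R-part: `W` = log of the R-number -/
lemma CE.rp {T0 ex lt l d W u' t0 : ℝ} (hl : |l - Lc lt h s1 s2 g δ| ≤ 6 * τ) (hd0 : 0 ≤ d)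
    (hd : d ≤ 1 / 8)
    (hW : W ≤ rr3 d (Nbc n s0 g2 w g δ h u - Nc v c P h u g2 w g δ +
      l + (2 * y1 + y2)) (n - t0 - Ec g2 w g δ) u' -
      (n - Ec g2 w g δ) / 3 + τ)
    (h1 : (2 * v1 - k + lq - lt) / 3 + lt / 2 + max 0 ((v1 - (n - s0 - R2 + R1)) / 2) +
      (R1 + 2 * R2 + y1 + 2 * y2) +
      rr3 d (n - s0 + lt - v1 + (R1 - R2 + 2 * y1 + y2)) (n - t0 - R2) u' ≤ T0 + (ex - x)) :
    k + x + Pre v S ν c P g1 σ (Ec g2 w g δ) s +
      (Thc (Nc v c P h u g2 w g δ) q k s l +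
        (1 / 2 * l + max 0 (1 / 2 * (Nc v c P h u g2 w g δ -
          Nbc n s0 g2 w g δ h u))) + W + (Ec g2 w g δ + Jc P h u)) ≤
      k + 2 * lam + T0 - (v + us) / 3 - n / 3 + ex + 100 * τ := by
  have h2 := H.pre
  have h3 := H.th3 hl
  have hl' := abs_le.mp hl
  unfold Lc at hl'
  have hτ := H.τ0
  obtain ⟨h5, h5'⟩ := H.nc
  have hu := abs_le.mp H.ut
  have hw := abs_le.mp H.wt
  have hg2 := abs_le.mp H.g2t
  have hP := abs_le.mp H.Pt
  have hs := abs_le.mp H.st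
  have a1 := H.os0
  have a2 := H.s10
  have a3 := H.s20
  have a4 := H.gp
  have a5 := H.hp
  have a6 := H.δp
  -- the maximum
  have hmax : max 0 (1 / 2 * (Nc v c P h u g2 w g δ - Nbc n s0 g2 w g δ h u)) ≤
      max 0 ((v1 - (n - s0 - R2 + R1)) / 2) + s1 / 2 + 6 * τ := by
    refine max_le ?_ ?_
    · have := le_max_left (0 : ℝ) ((v1 - (n - s0 - R2 + R1)) / 2)
      linarith
    · have := le_max_right (0 : ℝ) ((v1 - (n - s0 - R2 + R1)) / 2)
      unfold Nbc Ec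
      linarith [hu.1, hu.2, hw.1, hw.2, hg2.1, hg2.2]
  -- the R-number
  have hR : rr3 d (Nbc n s0 g2 w g δ h u - Nc v c P h u g2 w g δ +
      l + (2 * y1 + y2)) (n - t0 - Ec g2 w g δ) u' ≤
      rr3 d (n - s0 + lt - v1 + (R1 - R2 + 2 * y1 + y2)) (n - t0 - R2) u' + 2 * (17 * τ) -
        (Ec g2 w g δ - R2) := by
    have i1 := H.is hl
    have i2 := rr3_mono (n := n - t0 - Ec g2 w g δ) (u := u') hd0 i1
    have i3 := rr3_lip (i := (n - s0) + lt - v1 + (R1 - R2 + 2 * y1 + y2))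
      (n := n - t0 - Ec g2 w g δ) (u := u') hd0 hd (show (0 : ℝ) ≤ 17 * τ by linarith)
    have e1 : n - t0 - Ec g2 w g δ = (n - t0 - R2) + (-(Ec g2 w g δ - R2)) := by ring
    have i4 := rr3_add_n d ((n - s0) + lt - v1 + (R1 - R2 + 2 * y1 + y2)) (n - t0 - R2)
      (-(Ec g2 w g δ - R2)) u'
    rw [← e1] at i4
    have e2 : (n - s0) + lt - v1 + (R1 - R2 + 2 * y1 + y2) =
      n - s0 + lt - v1 + (R1 - R2 + 2 * y1 + y2) := by ring
    rw [e2] at i2 i3 i4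
    linarith
  have eJ : Jc P h u = P + h + u := rfl
  have eE : Ec g2 w g δ = g2 + w + g + δ := rfl
  rw [eJ]
  rw [eE] at h2 hW hR ⊢
  linarith [hu.1, hu.2, hw.1, hw.2, hg2.1, hg2.2, hP.1, hP.2, hs.1, hs.2, hl'.1, hl'.2]

/-- `L < Nb` -/
lemma CE.lb {lt m l : ℝ} (hl : |l - Lc lt h s1 s2 g δ| ≤ 6 * τ)
    (h1 : lt + m ≤ n - s0 - R2 + R1) :
    l + m ≤ Nbc n s0 g2 w g δ h u + 9 * τ := by
  have hl' := abs_le.mp hl
  unfold Lc at hl'
  have hu := abs_le.mp H.ut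
  have hw := abs_le.mp H.wt
  have hg2 := abs_le.mp H.g2t
  have a1 := H.os0
  have a2 := H.s10
  have a3 := H.s20
  have a4 := H.gp
  have a5 := H.hp
  have a6 := H.δp
  unfold Nbc Ec
  linarith [hu.1, hu.2, hw.1, hw.2, hg2.1, hg2.2, hl'.1, hl'.2]

end

end Crest.Agent.R017.XL842
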