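import Crest.Agent.R017.XLa_842

/-!
# Row 17, E4 (x-side, structured): the number of one class of cells (helper842)

* `lx X y = log y / log X`
* `P0` : the factor in front of the moments, `A1`, `A2`, `A3` : 681's numbers of a cell
* `phi_diag`, `phi_T1`, `phi_T2`, `phi_R` : the four terms, `phi_le` : the number
-/

set_option autoImplicit false
set_option maxHeartbeats 400000

noncomputable section

namespace Crest.Agent.R017.XL842

/-- the exponent -/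
def lx (X y : ℝ) : ℝ := Real.log y / Real.log X

section

variable {X : ℝ}

lemma rpow_lx (hX : 1 < X) {y : ℝ} (hy : 0 < y) : X ^ lx X y = y := by
  have h0 : 0 < X := by linarith
  have hL := Real.log_pos hX
  unfold lx
  rw [Real.rpow_def_of_pos h0, mul_div_cancel₀ _ hL.ne', Real.exp_log hy]

lemma lx_mul {y z : ℝ} (hy : 0 < y) (hz : 0 < z) : lx X (y * z) = lx X y + lx X z := by
  unfold lx
  rw [Real.log_mul hy.ne' hz.ne', add_div]

lemma lx_div {y z : ℝ} (hy : 0 < y) (hz : 0 < z) : lx X (y / z) = lx X y - lx X z := by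
  unfold lx
  rw [Real.log_div hy.ne' hz.ne', sub_div]

lemma lx_rpow {y : ℝ} (hy : 0 < y) (a : ℝ) : lx X (y ^ a) = a * lx X y := by
  unfold lx
  rw [Real.log_rpow hy]
  ring

lemma lx_pow (y : ℝ) (a : ℕ) : lx X (y ^ a) = a * lx X y := by
  unfold lx
  rw [Real.log_pow]
  ring

lemma lx_sqrt {y : ℝ} (hy : 0 ≤ y) : lx X (Real.sqrt y) = 1 / 2 * lx X y := by
  unfold lx
  rw [Real.log_sqrt hy]
  ring

lemma le_rpow_of_lx (hX : 1 < X) {y a : ℝ} (hy : 0 < y) (h : lx X y ≤ a) : y ≤ X ^ a := by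
  rw [← rpow_lx hX hy]
  exact Real.rpow_le_rpow_of_exponent_le hX.le h

lemma lx_le_of (hX : 1 < X) {y a : ℝ} (hy : 0 < y) (h : y ≤ X ^ a) : lx X y ≤ a := by
  have h0 : 0 < X := by linarith
  have hL := Real.log_pos hX
  unfold lx
  rw [div_le_iff₀ hL, ← Real.log_rpow h0]
  exact Real.log_le_log hy h

lemma lx_mono (hX : 1 < X) {y z : ℝ} (hy : 0 < y) (h : y ≤ z) : lx X y ≤ lx X z := by
  have hL := Real.log_pos hX
  unfold lx
  gcongr

lemma lx_rpow_self (hX : 1 < X) (a : ℝ) : lx X (X ^ a) = a := by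
  have h0 : 0 < X := by linarith
  have hL := Real.log_pos hX
  unfold lx
  rw [Real.log_rpow h0, mul_div_cancel_right₀ _ hL.ne']

end

/-- the factor in front of the moments -/
def P0 (κ Mb Ek θ V S2 ν2 c0 P2 E g1 σ2 s2 : ℝ) : ℝ :=
  κ * (Mb * Ek * θ ^ 2 * V ^ (-(1 / 3) : ℝ) *
    ((S2 * ν2) ^ (4 / 3 : ℝ) * (c0 * P2 * E ^ 2 / (g1 * σ2)) ^ (1 / 3 : ℝ) / s2))

/-- `Th` of a cell -/
def Th (N q K L : ℝ) : ℝ := (N ^ 2 * q / (K * L)) ^ (1 / 3 : ℝ)

/-- the number in front of `TW 1` -/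
def A1 (N q K L m0 : ℝ) : ℝ :=
  Th N q K L + Th N q K L * (L * N ^ (-(1 / 2) : ℝ)) + N * m0 ^ 2 / K + N * m0 / K ^ (2 / 3 : ℝ)

/-- the number in front of `TW (1/2)` -/
def A2 (N q K L : ℝ) : ℝ := Th N q K L * (L * N ^ (-(1 / 2) : ℝ))

/-- the number in front of the R-part -/
def A3 (N q K L Nb : ℝ) : ℝ := Th N q K L * (Real.sqrt L + Real.sqrt (L * N / Nb))

section

variable {X : ℝ} (hX : 1 < X)

include hX

lemma lx_P0 {κ Mb Ek θ V S2 ν2 c0 P2 E g1 σ2 s2 : ℝ} (hκ : 0 < κ) (hMb : 0 < Mb) (hEk : 0 < Ek)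
    (hθ : 0 < θ) (hV : 0 < V) (hS : 0 < S2) (hν : 0 < ν2) (hc : 0 < c0) (hP : 0 < P2) (hE : 0 < E)
    (hg : 0 < g1) (hσ : 0 < σ2) (hs : 0 < s2) :
    lx X (P0 κ Mb Ek θ V S2 ν2 c0 P2 E g1 σ2 s2) =
      lx X κ + (lx X Mb + lx X Ek + 2 * lx X θ) +
        Pre (lx X V) (lx X S2) (lx X ν2) (lx X c0) (lx X P2) (lx X g1) (lx X σ2) (lx X E)
          (lx X s2) := by
  unfold P0 Pre
  rw [lx_mul hκ (by positivity), lx_mul (by positivity) (by positivity),
    lx_mul (by positivity) (by positivity), lx_mul (by positivity) (by positivity),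
    lx_mul hMb hEk, lx_pow, lx_rpow hV, lx_div (by positivity) hs,
    lx_mul (by positivity) (by positivity), lx_rpow (by positivity), lx_mul hS hν,
    lx_rpow (by positivity), lx_div (by positivity) (by positivity),
    lx_mul (by positivity) (by positivity), lx_mul hc hP, lx_pow, lx_mul hg hσ]
  push_cast
  ring

lemma lx_Th {N q K L : ℝ} (hN : 0 < N) (hq : 0 < q) (hK : 0 < K) (hL : 0 < L) :
    lx X (Th N q K L) = (2 * lx X N + lx X q - lx X K - lx X L) / 3 := by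
  unfold Th
  rw [lx_rpow (by positivity), lx_div (by positivity) (by positivity),
    lx_mul (by positivity) hq, lx_pow, lx_mul hK hL]
  push_cast
  ring

lemma term_le {P A T p a t e : ℝ} (hP : 0 < P) (hA : 0 < A) (hT : 0 ≤ T) (hp : lx X P ≤ p)
    (ha : lx X A ≤ a) (ht : T ≤ X ^ t) (he : p + (a + t) ≤ e) : P * (A * T) ≤ X ^ e := by
  have h0 : 0 < X := by linarith
  have h1 := le_rpow_of_lx hX hP hp
  have h2 := le_rpow_of_lx hX hA ha
  calc P * (A * T) ≤ X ^ p * (X ^ a * X ^ t) := by gcongr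
    _ = X ^ (p + (a + t)) := by rw [Real.rpow_add h0, Real.rpow_add h0]
    _ ≤ X ^ e := Real.rpow_le_rpow_of_exponent_le hX.le he

end

/-- the data of a class of cells, as positive numbers -/
structure PN (X : ℝ) (κ V S2 ν2 P2 s2 σ2 u2 w2 g' h2 δ2 μ2 q c0 g1 gg N K L Nb m0 : ℝ) : Prop where
  κ0 : 0 < κ
  V0 : 0 < V
  S0 : 0 < S2
  ν0 : 0 < ν2
  P0 : 0 < P2
  s0 : 0 < s2
  σ0 : 0 < σ2
  u0 : 0 < u2
  w0 : 0 < w2
  g0 : 0 < g'
  h0 : 0 < h2
  δ0 : 0 < δ2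
  μ0 : 0 < μ2
  q0 : 0 < q
  c00 : 0 < c0
  g10 : 0 < g1
  gg0 : 0 < gg
  L0 : 0 < L
  Nb0 : 0 < Nb
  m00 : 0 < m0
  N_eq : N = V / (c0 * (P2 * (h2 * u2)) * (gg * (w2 * (g' * δ2))) ^ 2)
  K_eq : K = κ / s2 ^ 2
  m0_le : lx X m0 ≤ lx X δ2 + lx X μ2

section

variable {X κ V S2 ν2 P2 s2 σ2 u2 w2 g' h2 δ2 μ2 q c0 g1 gg N K L Nb m0 : ℝ}

lemma PN.N0 (H : PN X κ V S2 ν2 P2 s2 σ2 u2 w2 g' h2 δ2 μ2 q c0 g1 gg N K L Nb m0) : 0 < N := by
  have := H.V0
  have := H.P0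
  have := H.h0
  have := H.u0
  have := H.w0
  have := H.g0
  have := H.δ0
  have := H.c00
  have := H.gg0
  rw [H.N_eq]
  positivity

lemma PN.K0 (H : PN X κ V S2 ν2 P2 s2 σ2 u2 w2 g' h2 δ2 μ2 q c0 g1 gg N K L Nb m0) : 0 < K := by
  have := H.κ0
  have := H.s0
  rw [H.K_eq]
  positivity

lemma PN.lxN (H : PN X κ V S2 ν2 P2 s2 σ2 u2 w2 g' h2 δ2 μ2 q c0 g1 gg N K L Nb m0) :
    lx X N = Nc (lx X V) (lx X c0) (lx X P2) (lx X h2) (lx X u2) (lx X gg) (lx X w2) (lx X g')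
      (lx X δ2) := by
  have h1 := H.V0
  have h2 := H.P0
  have h3 := H.h0
  have h4 := H.u0
  have h5 := H.w0
  have h6 := H.g0
  have h7 := H.δ0
  have h8 := H.c00
  have h9 := H.gg0
  rw [H.N_eq, lx_div h1 (by positivity), lx_mul (by positivity) (by positivity),
    lx_mul h8 (by positivity), lx_mul h2 (by positivity), lx_mul h3 h4, lx_pow,
    lx_mul h9 (by positivity), lx_mul h5 (by positivity), lx_mul h6 h7]
  unfold Nc Jc Ec
  push_cast
  ring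

lemma PN.lxE (H : PN X κ V S2 ν2 P2 s2 σ2 u2 w2 g' h2 δ2 μ2 q c0 g1 gg N K L Nb m0) :
    lx X (gg * (w2 * (g' * δ2))) = Ec (lx X gg) (lx X w2) (lx X g') (lx X δ2) := by
  have h5 := H.w0
  have h6 := H.g0
  have h7 := H.δ0
  have h9 := H.gg0
  rw [lx_mul h9 (by positivity), lx_mul h5 (by positivity), lx_mul h6 h7]
  unfold Ec
  ring

lemma PN.lxJ (H : PN X κ V S2 ν2 P2 s2 σ2 u2 w2 g' h2 δ2 μ2 q c0 g1 gg N K L Nb m0) :
    lx X (P2 * (h2 * u2)) = Jc (lx X P2) (lx X h2) (lx X u2) := by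
  have h2 := H.P0
  have h3 := H.h0
  have h4 := H.u0
  rw [lx_mul h2 (by positivity), lx_mul h3 h4]
  unfold Jc
  ring

lemma PN.lxK (H : PN X κ V S2 ν2 P2 s2 σ2 u2 w2 g' h2 δ2 μ2 q c0 g1 gg N K L Nb m0) :
    lx X K = lx X κ - 2 * lx X s2 := by
  have h1 := H.κ0
  have h2 := H.s0
  rw [H.K_eq, lx_div h1 (by positivity), lx_pow]
  push_cast
  ring

end

set_option maxHeartbeats 4000000 in
/-- **the number of a class of cells** -/
theorem phi_le {X κ V S2 ν2 P2 s2 σ2 u2 w2 g' h2 δ2 μ2 q c0 g1 gg N K L Nb m0 : ℝ} (hX : 1 < X)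
    (H : PN X κ V S2 ν2 P2 s2 σ2 u2 w2 g' h2 δ2 μ2 q c0 g1 gg N K L Nb m0)
    {τ lam us v1 n s0 R1 R2 y1 y2 lq x os s1 s2' : ℝ}
    (C : CE τ (lx X κ) (lx X V) lam us v1 n s0 R1 R2 y1 y2 lq x (lx X S2) (lx X ν2) (lx X P2)
      (lx X s2) (lx X σ2) (lx X u2) (lx X w2) (lx X g') (lx X h2) (lx X δ2) (lx X μ2) (lx X q)
      (lx X c0) (lx X g1) (lx X gg) os s1 s2')
    {lt : ℝ} (hL : |lx X L - Lc lt (lx X h2) s1 s2' (lx X g') (lx X δ2)| ≤ 6 * τ)
    (hNb : lx X Nb = Nbc n s0 (lx X gg) (lx X w2) (lx X g') (lx X δ2) (lx X h2) (lx X u2))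
    {Mb Ek θ : ℝ} (hMb : 0 < Mb) (hEk : 0 < Ek) (hθ : 0 < θ) (hM : lx X Mb ≤ x + τ)
    (hE : lx X Ek ≤ τ) (hθ' : lx X θ ≤ τ)
    {TD T1 T2 W1 T0 f fg ex d u' t0 : ℝ} (hfg : f ≤ fg) (hTD0 : 0 ≤ TD) (hT10 : 0 ≤ T1) (hT20 : 0 ≤ T2) (hW0 : 0 ≤ W1)
    (hTD : TD ≤ X ^ (T0 - 2 / 3 * Ec (lx X gg) (lx X w2) (lx X g') (lx X δ2) - n / 3 + τ))
    (hT1 : T1 ≤ X ^ (T0 + f - 2 / 3 * Ec (lx X gg) (lx X w2) (lx X g') (lx X δ2) - n / 3 + τ))
    (hT2 : T2 ≤ X ^ (T0 + fg - 2 / 3 * Ec (lx X gg) (lx X w2) (lx X g') (lx X δ2) - n / 3 + τ))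
    (hd0 : 0 ≤ d) (hd : d ≤ 1 / 8)
    (hW : W1 ≤ X ^ (rr3 d (Nbc n s0 (lx X gg) (lx X w2) (lx X g') (lx X δ2) (lx X h2) (lx X u2) -
      Nc (lx X V) (lx X c0) (lx X P2) (lx X h2) (lx X u2) (lx X gg) (lx X w2) (lx X g') (lx X δ2) +
      lx X L + (2 * y1 + y2)) (n - t0 - Ec (lx X gg) (lx X w2) (lx X g') (lx X δ2)) u' -
      (n - Ec (lx X gg) (lx X w2) (lx X g') (lx X δ2)) / 3 + τ))
    (c1 : x ≤ ex) (c2 : x + (2 * v1 - lx X κ + lq - lt) / 3 + f ≤ ex)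
    (c3 : x + (2 * v1 - lx X κ + lq - lt) / 3 + (lt - v1 / 2) + fg ≤ ex)
    (c4 : x + (v1 + 2 * x - lx X κ) + os + f ≤ ex)
    (c5 : x + (v1 + x - 2 / 3 * lx X κ) + os / 3 + f ≤ ex)
    (c6 : W1 = 0 ∨ (2 * v1 - lx X κ + lq - lt) / 3 + lt / 2 +
      max 0 ((v1 - (n - s0 - R2 + R1)) / 2) + (R1 + 2 * R2 + y1 + 2 * y2) +
      rr3 d (n - s0 + lt - v1 + (R1 - R2 + 2 * y1 + y2)) (n - t0 - R2) u' ≤ T0 + (ex - x)) :
    P0 κ Mb Ek θ V S2 ν2 c0 P2 (gg * (w2 * (g' * δ2))) g1 σ2 s2 *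
      (TD + A1 N q K L m0 * T1 + A2 N q K L * T2 +
        A3 N q K L Nb * (W1 * ((gg * (w2 * (g' * δ2))) * (P2 * (h2 * u2))))) ≤
      8 * X ^ (lx X κ + 2 * lam + T0 - (lx X V + us) / 3 - n / 3 + ex + 120 * τ) := by
  have hX0 : 0 < X := by linarith
  have hτ := C.τ0
  have k1 := H.κ0
  have k2 := H.V0
  have k3 := H.S0
  have k4 := H.ν0
  have k5 := H.P0
  have k6 := H.s0
  have k7 := H.σ0
  have k8 := H.u0
  have k9 := H.w0
  have k10 := H.g0
  have k11 := H.h0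
  have k12 := H.δ0
  have k14 := H.q0
  have k15 := H.c00
  have k16 := H.g10
  have k17 := H.gg0
  have k18 := H.L0
  have k19 := H.Nb0
  have k20 := H.m00
  have kN := H.N0
  have kK := H.K0
  have eN := H.lxN
  have eK := H.lxK
  have eE := H.lxE
  have eJ := H.lxJ
  set E : ℝ := gg * (w2 * (g' * δ2)) with hEd
  set J : ℝ := P2 * (h2 * u2) with hJd
  have kE : 0 < E := by positivity
  have kJ : 0 < J := by positivity
  set P : ℝ := P0 κ Mb Ek θ V S2 ν2 c0 P2 E g1 σ2 s2 with hPd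
  have kP : 0 < P := by
    rw [hPd]
    unfold P0
    positivity
  set p : ℝ := lx X κ + x + Pre (lx X V) (lx X S2) (lx X ν2) (lx X c0) (lx X P2) (lx X g1)
    (lx X σ2) (Ec (lx X gg) (lx X w2) (lx X g') (lx X δ2)) (lx X s2) with hp
  have hP : lx X P ≤ p + 4 * τ := by
    rw [hPd, lx_P0 hX k1 hMb hEk hθ k2 k3 k4 k15 k5 kE k16 k7 k6, eE, hp]
    linarith
  set tg : ℝ := lx X κ + 2 * lam + T0 - (lx X V + us) / 3 - n / 3 + ex with htg
  have kTh : 0 < Th N q K L := by unfold Th; positivity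
  have eTh : lx X (Th N q K L) = Thc (Nc (lx X V) (lx X c0) (lx X P2) (lx X h2) (lx X u2)
      (lx X gg) (lx X w2) (lx X g') (lx X δ2)) (lx X q) (lx X κ) (lx X s2) (lx X L) := by
    rw [lx_Th hX kN k14 kK k18, eN, eK]
    unfold Thc
    ring
  have kLN : 0 < L * N ^ (-(1 / 2) : ℝ) := by positivity
  have eLN : lx X (L * N ^ (-(1 / 2) : ℝ)) = lx X L - 1 / 2 * lx X N := by
    rw [lx_mul k18 (by positivity), lx_rpow kN]
    ring
  -- the terms
  have b1 : P * TD ≤ X ^ (tg + 120 * τ) := by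
    have h1 := C.diag (t := T0 - 2 / 3 * Ec (lx X gg) (lx X w2) (lx X g') (lx X δ2) - n / 3 + τ)
      le_rfl c1
    have h2 := term_le hX kP one_pos hTD0 hP (show lx X 1 ≤ 0 by unfold lx; simp) hTD
      (e := tg + 120 * τ) (by rw [htg, hp]; linarith)
    rwa [one_mul] at h2
  have b2 : P * (Th N q K L * T1) ≤ X ^ (tg + 120 * τ) := by
    have h1 := C.th (t := T0 + f - 2 / 3 * Ec (lx X gg) (lx X w2) (lx X g') (lx X δ2) - n / 3 + τ)
      hL le_rfl c2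
    exact term_le hX kP kTh hT10 hP eTh.le hT1 (by rw [htg, hp]; linarith)
  have b3' : ∀ T : ℝ, 0 ≤ T → T ≤ X ^ (T0 + fg - 2 / 3 * Ec (lx X gg) (lx X w2) (lx X g')
      (lx X δ2) - n / 3 + τ) →
      P * (Th N q K L * (L * N ^ (-(1 / 2) : ℝ)) * T) ≤ X ^ (tg + 120 * τ) := by
    intro T hT0 hT
    have h1 := C.ln (t := T0 + fg - 2 / 3 * Ec (lx X gg) (lx X w2) (lx X g') (lx X δ2) - n / 3 + τ)
      hL le_rfl c3
    refine term_le hX kP (by positivity) hT0 hP (le_of_eq ?_) hT (a := Thc (Nc (lx X V) (lx X c0)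
      (lx X P2) (lx X h2) (lx X u2) (lx X gg) (lx X w2) (lx X g') (lx X δ2)) (lx X q) (lx X κ)
      (lx X s2) (lx X L) + lx X L - 1 / 2 * Nc (lx X V) (lx X c0) (lx X P2) (lx X h2) (lx X u2)
      (lx X gg) (lx X w2) (lx X g') (lx X δ2)) (by rw [htg, hp]; linarith)
    rw [lx_mul kTh kLN, eTh, eLN, eN]
    ring
  have hT1' : T1 ≤ X ^ (T0 + fg - 2 / 3 * Ec (lx X gg) (lx X w2) (lx X g') (lx X δ2) -
      n / 3 + τ) := hT1.trans (Real.rpow_le_rpow_of_exponent_le hX.le (by linarith))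
  have b3 := b3' T1 hT10 hT1'
  have b6 := b3' T2 hT20 hT2
  have b4 : P * (N * m0 ^ 2 / K * T1) ≤ X ^ (tg + 120 * τ) := by
    have h1 := C.n1 (t := T0 + f - 2 / 3 * Ec (lx X gg) (lx X w2) (lx X g') (lx X δ2) - n / 3 + τ)
      le_rfl c4
    have hm := H.m0_le
    refine term_le hX kP (by positivity) hT10 hP ?_ hT1 (a := Nc (lx X V) (lx X c0)
      (lx X P2) (lx X h2) (lx X u2) (lx X gg) (lx X w2) (lx X g') (lx X δ2) +
      2 * (lx X δ2 + lx X μ2) - (lx X κ - 2 * lx X s2)) (by rw [htg, hp]; linarith)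
    rw [lx_div (by positivity) kK, lx_mul kN (by positivity), lx_pow, eN, eK]
    push_cast
    linarith
  have b5 : P * (N * m0 / K ^ (2 / 3 : ℝ) * T1) ≤ X ^ (tg + 120 * τ) := by
    have h1 := C.n2 (t := T0 + f - 2 / 3 * Ec (lx X gg) (lx X w2) (lx X g') (lx X δ2) - n / 3 + τ)
      le_rfl c5
    have hm := H.m0_le
    refine term_le hX kP (by positivity) hT10 hP ?_ hT1 (a := Nc (lx X V) (lx X c0)
      (lx X P2) (lx X h2) (lx X u2) (lx X gg) (lx X w2) (lx X g') (lx X δ2) +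
      (lx X δ2 + lx X μ2) - 2 / 3 * (lx X κ - 2 * lx X s2)) (by rw [htg, hp]; linarith)
    rw [lx_div (by positivity) (by positivity), lx_mul kN k20, lx_rpow kK, eN, eK]
    linarith
  have b7 : P * (A3 N q K L Nb * (W1 * (E * J))) ≤ 2 * X ^ (tg + 120 * τ) := by
    have hXp : 0 ≤ X ^ (tg + 120 * τ) := by positivity
    rcases c6 with c6 | c6
    · rw [c6]
      simp only [zero_mul, mul_zero]
      positivity
    · have h1 := C.rp hL hd0 hd (W := rr3 d (Nbc n s0 (lx X gg) (lx X w2) (lx X g') (lx X δ2)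
        (lx X h2) (lx X u2) - Nc (lx X V) (lx X c0) (lx X P2) (lx X h2) (lx X u2) (lx X gg)
        (lx X w2) (lx X g') (lx X δ2) + lx X L + (2 * y1 + y2))
        (n - t0 - Ec (lx X gg) (lx X w2) (lx X g') (lx X δ2)) u' -
        (n - Ec (lx X gg) (lx X w2) (lx X g') (lx X δ2)) / 3 + τ) le_rfl c6
      set Wt : ℝ := rr3 d (Nbc n s0 (lx X gg) (lx X w2) (lx X g') (lx X δ2)
        (lx X h2) (lx X u2) - Nc (lx X V) (lx X c0) (lx X P2) (lx X h2) (lx X u2) (lx X gg)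
        (lx X w2) (lx X g') (lx X δ2) + lx X L + (2 * y1 + y2))
        (n - t0 - Ec (lx X gg) (lx X w2) (lx X g') (lx X δ2)) u' -
        (n - Ec (lx X gg) (lx X w2) (lx X g') (lx X δ2)) / 3 + τ with hWt
      have hLN : 0 < L * N / Nb := by positivity
      have hA : A3 N q K L Nb ≤ 2 * X ^ (lx X (Th N q K L) + (1 / 2 * lx X L +
          max 0 (1 / 2 * (lx X N - lx X Nb)))) := by
        unfold A3
        have e1 : Real.sqrt L = X ^ (1 / 2 * lx X L) := by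
          rw [← lx_sqrt k18.le, rpow_lx hX (by positivity)]
        have e2 : Real.sqrt (L * N / Nb) = X ^ (1 / 2 * (lx X L + lx X N - lx X Nb)) := by
          have : lx X (Real.sqrt (L * N / Nb)) = 1 / 2 * (lx X L + lx X N - lx X Nb) := by
            rw [lx_sqrt hLN.le, lx_div (by positivity) k19, lx_mul k18 kN]
          rw [← this, rpow_lx hX (by positivity)]
        have e3 : Th N q K L = X ^ lx X (Th N q K L) := (rpow_lx hX kTh).symm
        have i1 : X ^ (1 / 2 * lx X L) ≤ X ^ (1 / 2 * lx X L +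
            max 0 (1 / 2 * (lx X N - lx X Nb))) :=
          Real.rpow_le_rpow_of_exponent_le hX.le (by
            linarith [le_max_left (0 : ℝ) (1 / 2 * (lx X N - lx X Nb))])
        have i2 : X ^ (1 / 2 * (lx X L + lx X N - lx X Nb)) ≤ X ^ (1 / 2 * lx X L +
            max 0 (1 / 2 * (lx X N - lx X Nb))) :=
          Real.rpow_le_rpow_of_exponent_le hX.le (by
            linarith [le_max_right (0 : ℝ) (1 / 2 * (lx X N - lx X Nb))])
        rw [e1, e2, Real.rpow_add hX0, ← e3]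
        nlinarith [kTh]
      have hWJ : W1 * (E * J) ≤ X ^ (Wt + (lx X E + lx X J)) := by
        rw [Real.rpow_add hX0 Wt, Real.rpow_add hX0 (lx X E), rpow_lx hX kE, rpow_lx hX kJ]
        exact mul_le_mul_of_nonneg_right hW (by positivity)
      have hP' := le_rpow_of_lx hX kP hP
      have hA0 : 0 ≤ A3 N q K L Nb := by
        unfold A3
        positivity
      calc P * (A3 N q K L Nb * (W1 * (E * J)))
          ≤ X ^ (p + 4 * τ) * ((2 * X ^ (lx X (Th N q K L) + (1 / 2 * lx X L +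
            max 0 (1 / 2 * (lx X N - lx X Nb))))) * X ^ (Wt + (lx X E + lx X J))) := by
            have : 0 ≤ W1 * (E * J) := by positivity
            gcongr
        _ = 2 * X ^ ((p + 4 * τ) + ((lx X (Th N q K L) + (1 / 2 * lx X L +
            max 0 (1 / 2 * (lx X N - lx X Nb)))) + (Wt + (lx X E + lx X J)))) := by
            rw [Real.rpow_add hX0 (p + 4 * τ), Real.rpow_add hX0 (lx X (Th N q K L) + _)]
            ring
        _ ≤ 2 * X ^ (tg + 120 * τ) := by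
            refine mul_le_mul_of_nonneg_left (Real.rpow_le_rpow_of_exponent_le hX.le ?_)
              (by norm_num)
            rw [eTh, eE, eJ, eN, hNb, hp, htg]
            linarith
  have e1 : P * (TD + A1 N q K L m0 * T1 + A2 N q K L * T2 + A3 N q K L Nb * (W1 * (E * J))) =
      P * TD + (P * (Th N q K L * T1) + P * (Th N q K L * (L * N ^ (-(1 / 2) : ℝ)) * T1) +
        P * (N * m0 ^ 2 / K * T1) + P * (N * m0 / K ^ (2 / 3 : ℝ) * T1)) +
        P * (Th N q K L * (L * N ^ (-(1 / 2) : ℝ)) * T2) +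
        P * (A3 N q K L Nb * (W1 * (E * J))) := by
    unfold A1 A2
    ring
  rw [e1]
  linarith

end Crest.Agent.R017.XL842
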