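import Crest.Agent.R017.XLb_842
import Crest.Agent.R017.E4Rd_70

/-!
# Row 17, E4 (x-side, structured): from the closers of a class to the number of its cells
(helper842)

* `Cel` : the facts of a cell against the class `z'`
* `Cel.ce` : the structure `CE` of XLa_842
* `lt_lines` : the closers `XLTX`, `XPV` give the six lines of `phi_le`
-/

set_option autoImplicit false
set_option maxHeartbeats 400000

noncomputable section

namespace Crest.Agent.R017.XL842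

open Crest.Agent.R017.E4R70

/-- the facts of a cell (exponents, base `X`) against the class `z'` (units of `log K`);
`kG` = size of the `(1,0)` primes of `S`, `r1, r2` = exponents of `R = r₁ r₂²`,
`os` = exponent of the part of `s` in `S`, `x` = moved length -/
structure Cel (τ κ₀ : ℝ) (z' : Cls) (kG r1 r2 x : ℝ)
    (S ν P s σ u w g h δ μ q c g1 g2 os V : ℝ) : Prop where
  τ0 : 0 ≤ τ
  os0 : 0 ≤ os
  gp : 0 ≤ g
  hp : 0 ≤ h
  δp : 0 ≤ δ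
  ct : |c| ≤ τ
  g1t : |g1| ≤ τ
  g2t : |g2| ≤ τ
  r1t : |r1 - κ₀ * z'.R1| ≤ τ
  r2t : |r2 - κ₀ * z'.R2| ≤ τ
  w0 : r2 ≤ w + τ
  s0 : os + (w - r2) ≤ s + τ
  ut : |u - (r1 + 2 * r2 + s - os - 2 * w)| ≤ τ
  S_le : S ≤ kG + κ₀ * (z'.Y0 + 2 * z'.Y1 + 2 * (z'.W + z'.sW) + z'.c02 + 2 * z'.c12) + τ
  ν_le : ν ≤ κ₀ * (z'.nu + z'.Y0 + (z'.W + z'.sW)) + τ
  P_le : |P - κ₀ * (z'.Y0 + z'.Y1 + 2 * (z'.c02 + z'.c12 + z'.nu))| ≤ τ
  σ_le : |σ - (kG + κ₀ * z'.c12)| ≤ τ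
  kG_le : kG ≤ κ₀ * (z'.G + z'.s0) + τ
  q_le : q ≤ 2 * σ + s + κ₀ * (z'.η + z'.b1 + z'.F + z'.lq) + τ
  xt : g + h + μ ≤ x + τ
  V_le : |V - κ₀ * z'.v| ≤ τ

/-- **the relations of XLa_842** -/
theorem Cel.ce {τ κ₀ : ℝ} {z' : Cls} {kG r1 r2 x : ℝ}
    {S ν P s σ u w g h δ μ q c g1 g2 os V k n s0 : ℝ}
    (H : Cel τ κ₀ z' kG r1 r2 x S ν P s σ u w g h δ μ q c g1 g2 os V) :
    CE (15 * τ) k V (κ₀ * z'.lam) (κ₀ * z'.us) (κ₀ * z'.v1) n s0 (κ₀ * z'.R1) (κ₀ * z'.R2)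
      (κ₀ * (z'.Y0 + z'.Y1)) (κ₀ * (z'.c02 + z'.c12 + z'.nu)) (κ₀ * z'.lqt) x
      S ν P s σ u w g h δ μ q c g1 g2 os (max 0 (w - r2)) (max 0 (s - os - (w - r2))) := by
  have hτ := H.τ0
  have h1 := abs_le.mp H.r1t
  have h2 := abs_le.mp H.r2t
  have h3 := abs_le.mp H.ut
  have h4 := H.S_le
  have h5 := H.ν_le
  have h6 := abs_le.mp H.P_le
  have h7 := abs_le.mp H.σ_le
  have h8 := H.kG_le
  have h9 := H.q_le
  have h10 := abs_le.mp H.V_le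
  have h11 := H.w0
  have h12 := H.s0
  have m1 : |max 0 (w - r2) - (w - r2)| ≤ τ := by
    rw [abs_le]
    constructor
    · linarith [le_max_right (0 : ℝ) (w - r2)]
    · have : max 0 (w - r2) ≤ w - r2 + τ := max_le (by linarith) (by linarith)
      linarith
  have m2 : |max 0 (s - os - (w - r2)) - (s - os - (w - r2))| ≤ τ := by
    rw [abs_le]
    constructor
    · linarith [le_max_right (0 : ℝ) (s - os - (w - r2))]
    · have : max 0 (s - os - (w - r2)) ≤ s - os - (w - r2) + τ :=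
        max_le (by linarith) (by linarith)
      linarith
  have m1' := abs_le.mp m1
  have m2' := abs_le.mp m2
  set s1 := max 0 (w - r2) with hs1
  set s2 := max 0 (s - os - (w - r2)) with hs2
  have e1 : κ₀ * z'.lam = κ₀ * z'.G + κ₀ * z'.s0 + 2 * (κ₀ * z'.Y0) + 2 * (κ₀ * z'.Y1) +
      κ₀ * z'.c02 + 2 * (κ₀ * z'.c12) + 3 * (κ₀ * z'.W + κ₀ * z'.sW) + κ₀ * z'.nu := by
    unfold Cls.lam; ring
  have e2 : κ₀ * z'.us = 3 * (κ₀ * z'.G + κ₀ * z'.s0 + κ₀ * z'.Y0 + κ₀ * z'.Y1 + κ₀ * z'.c12) +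
      6 * (κ₀ * z'.W + κ₀ * z'.sW) := by
    unfold Cls.us; ring
  have e3 : κ₀ * z'.v1 = κ₀ * z'.v - κ₀ * z'.R1 - 2 * (κ₀ * z'.R2) - κ₀ * z'.Y0 - κ₀ * z'.Y1 -
      2 * (κ₀ * z'.c02) - 2 * (κ₀ * z'.c12) - 2 * (κ₀ * z'.nu) := by
    unfold Cls.v1; ring
  have e4 : κ₀ * z'.lqt = κ₀ * (z'.η + z'.b1 + z'.F + z'.lq) + 2 * (κ₀ * (z'.G + z'.s0)) +
      2 * (κ₀ * z'.c12) := by
    unfold Cls.lqt; ring
  exact {
    τ0 := by linarith
    os0 := H.os0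
    s10 := le_max_left _ _
    s20 := le_max_left _ _
    gp := H.gp
    hp := H.hp
    δp := H.δp
    ct := H.ct.trans (by linarith)
    g1t := H.g1t.trans (by linarith)
    g2t := H.g2t.trans (by linarith)
    lamt := by
      rw [e1, e2]
      linarith [h6.1, h6.2, h7.1, h7.2]
    Pt := by
      rw [abs_le]
      constructor <;> linarith [h6.1, h6.2]
    ut := by
      rw [abs_le]
      constructor <;> linarith [h1.1, h1.2, h2.1, h2.2, h3.1, h3.2, m1'.1, m1'.2, m2'.1, m2'.2]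
    wt := by
      rw [abs_le]
      constructor <;> linarith [h2.1, h2.2, m1'.1, m1'.2]
    st := by
      rw [abs_le]
      constructor <;> linarith [m1'.1, m1'.2, m2'.1, m2'.2]
    qt := by
      rw [e4]
      linarith [h7.1, h7.2, m1'.1, m1'.2, m2'.1, m2'.2]
    xt := H.xt.trans (by linarith)
    v1t := by
      rw [e3, abs_le]
      constructor <;> linarith [h10.1, h10.2] }

/-- the lines of `phi_le` for a dual length `lt` -/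
structure Lines (d k v1 n s0 R1 R2 u' lq y1 y2 T0 ρ f fg x ex lt : ℝ) (W0 : Prop) : Prop where
  c1 : x ≤ ex
  c2 : x + (2 * v1 - k + lq - lt) / 3 + f ≤ ex
  c3 : x + (2 * v1 - k + lq - lt) / 3 + (lt - v1 / 2) + fg ≤ ex
  c4 : x + (v1 + 2 * x - k) + ρ + f ≤ ex
  c5 : x + (v1 + x - 2 / 3 * k) + ρ / 3 + f ≤ ex
  c6 : W0 ∨ (lt + 1 / 30 ≤ n - s0 - R2 + R1 ∧ (2 * v1 - k + lq - lt) / 3 + lt / 2 +
      max 0 ((v1 - (n - s0 - R2 + R1)) / 2) + (R1 + 2 * R2 + y1 + 2 * y2) +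
      rr3 d (n - s0 + lt - v1 + (R1 - R2 + 2 * y1 + y2)) (n - s0 - R2) u' ≤ T0 + (ex - x))

lemma rr_eq (d i n u : ℝ) : rr d i n u = rr3 d i n u := by
  unfold rr rr3; ring

lemma max_half (a : ℝ) : max 0 a / 2 = max 0 (a / 2) := by
  rcases le_total a 0 with h | h
  · rw [max_eq_left h, max_eq_left (by linarith)]; norm_num
  · rw [max_eq_right h, max_eq_right (by linarith)]

/-- helper918's `XLTX` (E4Hg_918), the same body -/
def XLTX (d k v1 N1 Nq R1 R2 u1 lqt sh cnt tT ρ f g x ex : ℝ) : Prop :=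
  ∃ lt : ℝ, lt + 1 / 25 ≤ N1 - R2 ∧ x ≤ ex ∧ x + (v1 + x - 2 / 3 * k) + f + ρ / 3 ≤ ex ∧
    x + (v1 + 2 * x - k) + f + ρ ≤ ex ∧
    x + (2 * v1 - k + lqt - lt) / 3 + f ≤ ex ∧
    x + (2 * v1 - k + lqt - lt) / 3 + (lt - v1 / 2) + g ≤ ex ∧
    x + (2 * v1 - k + lqt - lt) / 3 + lt / 2 + max 0 (v1 - (Nq - R2 + R1)) / 2 + cnt +
      rr d (Nq + lt - v1 + sh) (Nq - R2) u1 ≤ tT + ex

/-- **the closer `XLTX`** -/
theorem lines_LT {d x ex n τ : ℝ} (hτ : 20 * τ ≤ 1 / 25 - 1 / 30) (hτ0 : 0 ≤ τ)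
    (hd0 : 0 ≤ d) (hd : d ≤ 1 / 8) {k v1 R1 R2 u' lq sh cnt T0 ρ f fg N1 NB : ℝ}
    (H : XLTX d k v1 N1 NB R1 R2 u' lq sh cnt T0 ρ f fg x ex) {y1 y2 : ℝ} (hR1 : 0 ≤ R1)
    (hN1 : N1 ≤ NB) (hNB : |n - NB| ≤ τ) (hsh : sh = R1 - R2 + 2 * y1 + y2)
    (hcnt : cnt = R1 + 2 * R2 + y1 + 2 * y2) :
    ∃ lt : ℝ, Lines d k v1 n 0 R1 R2 u' lq y1 y2 T0 ρ f fg x (ex + 5 * τ) lt False := by
  obtain ⟨lt, h1, h2, h3, h4, h5, h6, h7⟩ := H
  have hN := abs_le.mp hNB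
  refine ⟨lt, ?_, ?_, ?_, ?_, ?_, Or.inr ⟨?_, ?_⟩⟩
  · linarith
  · linarith
  · linarith
  · linarith
  · linarith
  · linarith
  rw [max_half] at h7
  have i1 : rr3 d (n - 0 + lt - v1 + (R1 - R2 + 2 * y1 + y2)) (n - 0 - R2) u' ≤
      rr3 d (NB + lt - v1 + sh) (NB - R2) u' + 3 * τ := by
    have j1 : rr3 d (n - 0 + lt - v1 + (R1 - R2 + 2 * y1 + y2)) (n - 0 - R2) u' ≤
        rr3 d ((NB + lt - v1 + sh) + τ) (n - 0 - R2) u' := rr3_mono hd0 (by rw [hsh]; linarith)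
    have j2 := rr3_lip (i := NB + lt - v1 + sh) (n := n - 0 - R2) (u := u') hd0 hd hτ0
    have j3 := rr3_add_n d (NB + lt - v1 + sh) (NB - R2) (n - NB) u'
    have e : NB - R2 + (n - NB) = n - 0 - R2 := by ring
    rw [e] at j3
    linarith
  have i2 : max 0 ((v1 - (n - 0 - R2 + R1)) / 2) ≤ max 0 ((v1 - (NB - R2 + R1)) / 2) + τ := by
    refine max_le ?_ ?_
    · linarith [le_max_left (0 : ℝ) ((v1 - (NB - R2 + R1)) / 2)]
    · linarith [le_max_right (0 : ℝ) ((v1 - (NB - R2 + R1)) / 2)]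
  rw [rr_eq] at h7
  rw [hcnt] at h7
  linarith

/-- **the closer `XPV`** (`lt = - t`) -/
theorem lines_PV {d k v1 n R1 R2 u' lq y1 y2 T0 ρ f fg x ex t : ℝ} (ht : 0 ≤ t)
    (hv : fg - f ≤ v1 / 2) (H : XPV k v1 lq ρ f x ex) (W0 : Prop) (h0 : W0) :
    Lines d k v1 n 0 R1 R2 u' lq y1 y2 T0 ρ f fg x (ex + t) (-t) W0 := by
  obtain ⟨h1, h2, h3, h4, h5⟩ := H
  refine ⟨?_, ?_, ?_, ?_, ?_, Or.inl h0⟩
  · linarith
  · rw [h1]; linarith
  · rw [h1]; linarith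
  · rw [h1]; linarith
  · rw [h1]; linarith

end Crest.Agent.R017.XL842
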