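import Crest.Agent.R017.XLe_842

/-!
# Row 17, E4 (x-side, structured): the number of a class of cells, explicit form (helper842)

* `Ls` : the dual length of a class
* `Lines.shift`
* `phi_core` : helper92's `PhiR` at helper681's `AA`, all quantities as real numbers
-/

set_option autoImplicit false
set_option maxHeartbeats 2000000

noncomputable section

namespace Crest.Agent.R017.XL842

open Crest.Agent.R017.E4R70

/-- the dual length of a class -/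
def Ls (X lt : ℝ) (ρ1 ρ2 : ℕ) (n : Fin 12 → ℕ) : ℝ :=
  X ^ lt * ((2 : ℝ) ^ ρ1 * (2 ^ ρ2) ^ 2) ^ 2 /
    ((2 ^ n 9 * 2 ^ n 6) ^ 2 * (2 ^ n 8 * (2 ^ n 10 * 2 ^ n 7)) ^ 4)

lemma Ls_pos {X lt : ℝ} (hX : 0 < X) (ρ1 ρ2 : ℕ) (n : Fin 12 → ℕ) : 0 < Ls X lt ρ1 ρ2 n := by
  unfold Ls; positivity

lemma lx_Ls {X lt : ℝ} (hX : 1 < X) (ρ1 ρ2 : ℕ) (n : Fin 12 → ℕ) :
    lx X (Ls X lt ρ1 ρ2 n) = lt + 2 * (lx X ((2 : ℝ) ^ ρ1) + 2 * lx X ((2 : ℝ) ^ ρ2)) -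
      (2 * (lx X ((2 : ℝ) ^ n 9) + lx X ((2 : ℝ) ^ n 6)) +
        4 * (lx X ((2 : ℝ) ^ n 8) + (lx X ((2 : ℝ) ^ n 10) + lx X ((2 : ℝ) ^ n 7)))) := by
  have h0 : 0 < X := by linarith
  unfold Ls
  rw [lx_div (by positivity) (by positivity), lx_mul (by positivity) (by positivity),
    lx_rpow_self hX, lx_pow, lx_mul (by positivity) (by positivity), lx_pow ((2 : ℝ) ^ ρ2),
    lx_mul (by positivity) (by positivity), lx_pow ((2 : ℝ) ^ n 9 * 2 ^ n 6),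
    lx_mul (by positivity) (by positivity), lx_pow ((2 : ℝ) ^ n 8 * _),
    lx_mul (by positivity) (by positivity), lx_mul (by positivity) (by positivity)]
  push_cast
  ring

/-- the lines at a nearby `k` -/
lemma Lines.shift {d k k' v1 n s0 R1 R2 u' lq y1 y2 T0 ρ f fg x ex lt τ : ℝ} {W0 : Prop}
    (hk : |k - k'| ≤ τ)
    (H : Lines d k' v1 n s0 R1 R2 u' lq y1 y2 T0 ρ f fg x ex lt W0) :
    Lines d k v1 n s0 R1 R2 u' lq y1 y2 T0 ρ f fg x (ex + τ) lt W0 := by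
  have h := abs_le.mp hk
  have h0 : 0 ≤ τ := (abs_nonneg _).trans hk
  obtain ⟨c1, c2, c3, c4, c5, c6⟩ := H
  refine ⟨by linarith, by linarith, by linarith, by linarith, by linarith, ?_⟩
  rcases c6 with c6 | ⟨c6, c7⟩
  · exact Or.inl c6
  · exact Or.inr ⟨c6, by linarith⟩

/-- **the number of a class of cells**, explicit form -/
theorem phi_core {X : ℝ} (hX : 1 < X) {κ V c0 g1 g2 q Nα E_ L W1 TD T1 T2 k2 kA θ Mb Ek : ℝ}
    {n : Fin 12 → ℕ} {En Jn Nn Kc Nb mn Bs : ℝ} {τ κ₀ : ℝ} {z' : Cls} {kG r1 r2 mx os : ℝ}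
    {ρ1 ρ2 : ℕ}
    (hEn : En = g2 * (2 ^ n 7 * (2 ^ n 8 * 2 ^ n 10))) (hJn : Jn = 2 ^ n 3 * (2 ^ n 9 * 2 ^ n 6))
    (hNn : Nn = V / (c0 * Jn * En ^ 2)) (hKc : Kc = κ / ((2 : ℝ) ^ n 4) ^ 2)
    (hNb : Nb = Nα * (2 ^ n 9 * 2 ^ n 6) / En) (hmn : mn = 2 ^ n 10 * 2 ^ n 11)
    (hBs : Bs = ((2 : ℝ) ^ n 0 * 2 ^ n 1) ^ (4 / 3 : ℝ) *
      (c0 * 2 ^ n 3 * En ^ 2 / (g1 * 2 ^ n 5)) ^ (1 / 3 : ℝ) / 2 ^ n 4)
    (hκ0 : 0 < κ) (hV0 : 0 < V) (hc0 : 0 < c0) (hg1 : 0 < g1) (hg2 : 0 < g2)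
    (hq0 : 0 < q) (hNα : 0 < Nα) (hE_ : 0 ≤ E_)
    (C : Cel τ κ₀ z' kG r1 r2 mx (n 0 * lx X 2) (n 1 * lx X 2) (n 3 * lx X 2) (n 4 * lx X 2)
      (n 5 * lx X 2) (n 6 * lx X 2) (n 7 * lx X 2) (n 8 * lx X 2) (n 9 * lx X 2)
      (n 10 * lx X 2) (n 11 * lx X 2) (lx X q) (lx X c0) (lx X g1) (lx X g2) os (lx X V))
    (hr1 : r1 = ρ1 * lx X 2) (hr2 : r2 = ρ2 * lx X 2)
    (hMb : 0 ≤ Mb) (hMbX : Mb ≤ X ^ (mx + τ)) (hEk : 0 ≤ Ek) (hEkX : Ek ≤ X ^ τ)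
    (hθ0 : 0 ≤ θ) (hth : θ ≤ X ^ τ) (hk2 : 0 ≤ k2) (hkA : k2 ≤ kA) (hkA0 : 0 < kA)
    {d u' T0 f fg ex lt : ℝ} (hfg : f ≤ fg) (hd0 : 0 ≤ d) (hd : d ≤ 1 / 8)
    (hL : L = Ls X lt ρ1 ρ2 n) {W0 : Prop}
    (HL : Lines d (lx X κ) (κ₀ * z'.v1) (lx X Nα) 0 (κ₀ * z'.R1) (κ₀ * z'.R2) u' (κ₀ * z'.lqt)
      (κ₀ * (z'.Y0 + z'.Y1)) (κ₀ * (z'.c02 + z'.c12 + z'.nu)) T0 (κ₀ * (z'.c12 + z'.s1)) f fg mx ex
      lt W0)
    (hos : os ≤ κ₀ * (z'.c12 + z'.s1) + τ)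
    (hTD0 : 0 ≤ TD) (hT10 : 0 ≤ T1) (hT20 : 0 ≤ T2)
    (hTD : TD ≤ X ^ (T0 - 2 / 3 * lx X En - lx X Nα / 3 + τ))
    (hT1 : T1 ≤ X ^ (T0 + f - 2 / 3 * lx X En - lx X Nα / 3 + τ))
    (hT2 : T2 ≤ X ^ (T0 + fg - 2 / 3 * lx X En - lx X Nα / 3 + τ))
    (hW0 : 0 ≤ W1) (hWz : W0 → W1 = 0) (hWz' : ¬ 1 ≤ L → W1 = 0)
    {ih : ℝ} (hih : ih ≤ lx X Nb - lx X Nn + lx X L +
      (2 * (κ₀ * (z'.Y0 + z'.Y1)) + κ₀ * (z'.c02 + z'.c12 + z'.nu)) + 5 * τ)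
    (hW : 1 ≤ L → W1 ≤ X ^ (rr3 d ih (lx X Nα - lx X En) u' -
      (lx X Nα - lx X En) / 3 + τ)) :
    κ * (Mb * Ek * θ ^ 2 * V ^ (-(1 / 3) : ℝ) * Bs *
      (E_ * TD + E_ * ((Nn ^ 2 * q / (Kc * L)) ^ (1 / 3 : ℝ) * (1 + L * Nn ^ (-(1 / 2) : ℝ)) +
        Nn * mn ^ 2 / Kc + Nn * mn / Kc ^ (2 / 3 : ℝ)) * T1 +
        E_ * ((Nn ^ 2 * q / (Kc * L)) ^ (1 / 3 : ℝ) * (L * Nn ^ (-(1 / 2) : ℝ))) * T2 +
        k2 * (E_ * ((Nn ^ 2 * q / (Kc * L)) ^ (1 / 3 : ℝ) *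
          ((Real.sqrt L + Real.sqrt (L * Nn / Nb)) * W1)) * (En * (Jn / kA))))) ≤
      E_ * (8 * X ^ (lx X κ + 2 * (κ₀ * z'.lam) + T0 - (lx X V + κ₀ * z'.us) / 3 -
        lx X Nα / 3 + ex + 2000 * τ)) := by
  have hX0 : 0 < X := by linarith
  have hτ := C.τ0
  have CC := C.ce (k := lx X κ) (n := lx X Nα) (s0 := 0)
  have hLp : 0 < L := by rw [hL]; exact Ls_pos hX0 _ _ _
  have hEn0 : 0 < En := by rw [hEn]; positivity
  have hJn0 : 0 < Jn := by rw [hJn]; positivity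
  have hNb0 : 0 < Nb := by rw [hNb]; positivity
  have hmn0 : 0 < mn := by rw [hmn]; positivity
  have p2 : ∀ j : ℕ, lx X ((2 : ℝ) ^ j) = j * lx X 2 := fun j => by rw [lx_pow]
  have P : PN X κ V (2 ^ n 0) (2 ^ n 1) (2 ^ n 3) (2 ^ n 4) (2 ^ n 5) (2 ^ n 6) (2 ^ n 7)
      (2 ^ n 8) (2 ^ n 9) (2 ^ n 10) (2 ^ n 11) q c0 g1 g2 Nn Kc L Nb mn := by
    refine ⟨hκ0, hV0, by positivity, by positivity, by positivity, by positivity, by positivity,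
      by positivity, by positivity, by positivity, by positivity, by positivity, by positivity,
      hq0, hc0, hg1, hg2, hLp, hNb0, hmn0, ?_, hKc, ?_⟩
    · rw [hNn, hJn, hEn]
    · rw [hmn, lx_mul (by positivity) (by positivity)]
  have eE : lx X En = Ec (lx X g2) (n 7 * lx X 2) (n 8 * lx X 2) (n 10 * lx X 2) := by
    have := P.lxE
    rw [p2, p2, p2, ← hEn] at this
    exact this
  have eN : lx X Nn = Nc (lx X V) (lx X c0) (n 3 * lx X 2) (n 9 * lx X 2) (n 6 * lx X 2)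
      (lx X g2) (n 7 * lx X 2) (n 8 * lx X 2) (n 10 * lx X 2) := by
    have := P.lxN
    simp only [p2] at this
    exact this
  have eNb : lx X Nb = Nbc (lx X Nα) 0 (lx X g2) (n 7 * lx X 2) (n 8 * lx X 2) (n 10 * lx X 2)
      (n 9 * lx X 2) (n 6 * lx X 2) := by
    unfold Nbc
    rw [hNb, lx_div (by positivity) hEn0, lx_mul hNα (by positivity),
      lx_mul (by positivity) (by positivity), eE, p2, p2]
    ring
  -- the dual length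
  have a1 := abs_le.mp C.ut
  have a2 := C.w0
  have a3 := C.s0
  have hl : |lx X L - Lc lt (n 9 * lx X 2) (max 0 (n 7 * lx X 2 - r2))
      (max 0 (n 4 * lx X 2 - os - (n 7 * lx X 2 - r2))) (n 8 * lx X 2) (n 10 * lx X 2)| ≤
      6 * (15 * τ) := by
    rw [hL, lx_Ls hX]
    simp only [p2]
    unfold Lc
    have m1 : max 0 (n 7 * lx X 2 - r2) ≤ n 7 * lx X 2 - r2 + τ :=
      max_le (by linarith) (by linarith)
    have m1' := le_max_right 0 (n 7 * lx X 2 - r2)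
    have m2 : max 0 (n 4 * lx X 2 - os - (n 7 * lx X 2 - r2)) ≤
        n 4 * lx X 2 - os - (n 7 * lx X 2 - r2) + τ :=
      max_le (by linarith) (by linarith)
    have m2' := le_max_right 0 (n 4 * lx X 2 - os - (n 7 * lx X 2 - r2))
    rw [abs_le, ← hr1, ← hr2]
    constructor <;> linarith [a1.1, a1.2]
  -- the three coefficients
  have hMb' : 0 < X ^ (mx + τ) := by positivity
  have hXτ : 0 < X ^ τ := by positivity
  have up : ∀ a b : ℝ, a ≤ b → X ^ a ≤ X ^ b := fun a b h =>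
    Real.rpow_le_rpow_of_exponent_le hX.le h
  simp only [← p2] at CC hl eE eN eNb
  have key := phi_le hX P CC hl eNb (Mb := X ^ (mx + τ)) (Ek := X ^ τ) (θ := X ^ τ) hMb' hXτ hXτ
    (by rw [lx_rpow_self hX]; linarith) (by rw [lx_rpow_self hX]; linarith)
    (by rw [lx_rpow_self hX]; linarith) hfg (TD := TD) (T1 := T1) (T2 := T2) (W1 := W1)
    (T0 := T0) (ex := ex + 15 * τ) (d := d) (u' := u') (t0 := 0) hTD0 hT10 hT20 hW0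
    (by rw [← eE]; exact hTD.trans (up _ _ (by linarith)))
    (by rw [← eE]; exact hT1.trans (up _ _ (by linarith)))
    (by rw [← eE]; exact hT2.trans (up _ _ (by linarith))) hd0 hd
    (by
      by_cases h1 : 1 ≤ L
      · refine (hW h1).trans (up _ _ ?_)
        have i1 := rr3_mono (n := lx X Nα - lx X En) (u := u') hd0 hih
        have i2 := rr3_lip (i := lx X Nb - lx X Nn + lx X L +
          (2 * (κ₀ * (z'.Y0 + z'.Y1)) + κ₀ * (z'.c02 + z'.c12 + z'.nu)))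
          (n := lx X Nα - lx X En) (u := u') hd0 hd (show (0 : ℝ) ≤ 5 * τ by linarith)
        rw [← eNb, ← eN, ← eE, sub_zero]
        linarith
      · rw [hWz' h1]
        positivity)
    (HL.c1.trans (by linarith)) (HL.c2.trans (by linarith)) (HL.c3.trans (by linarith))
    (by have := HL.c4; linarith) (by have := HL.c5; linarith)
    (by
      rcases HL.c6 with h | ⟨-, h⟩
      · exact Or.inl (hWz h)
      · exact Or.inr (by linarith))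
  -- the identity
  have hN0 := P.N0
  have hK0 := P.K0
  have eE' : g2 * (2 ^ n 7 * (2 ^ n 8 * 2 ^ n 10)) = En := hEn.symm
  have eJ' : (2 : ℝ) ^ n 3 * (2 ^ n 9 * 2 ^ n 6) = Jn := hJn.symm
  rw [eE', eJ'] at key
  obtain ⟨A3', hA3'⟩ : ∃ a, a = A3 Nn q Kc L Nb := ⟨_, rfl⟩
  obtain ⟨A2', hA2'⟩ : ∃ a, a = A2 Nn q Kc L := ⟨_, rfl⟩
  obtain ⟨A1', hA1'⟩ : ∃ a, a = A1 Nn q Kc L mn := ⟨_, rfl⟩
  have hA30 : 0 ≤ A3' := by rw [hA3']; unfold A3 Th; positivity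
  have hA10 : 0 ≤ A1' := by rw [hA1']; unfold A1 Th; positivity
  have hA20 : 0 ≤ A2' := by rw [hA2']; unfold A2 Th; positivity
  rw [← hA1', ← hA2', ← hA3'] at key
  have e1 : κ * (Mb * Ek * θ ^ 2 * V ^ (-(1 / 3) : ℝ) * Bs *
      (E_ * TD + E_ * ((Nn ^ 2 * q / (Kc * L)) ^ (1 / 3 : ℝ) * (1 + L * Nn ^ (-(1 / 2) : ℝ)) +
        Nn * mn ^ 2 / Kc + Nn * mn / Kc ^ (2 / 3 : ℝ)) * T1 +
        E_ * ((Nn ^ 2 * q / (Kc * L)) ^ (1 / 3 : ℝ) * (L * Nn ^ (-(1 / 2) : ℝ))) * T2 +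
        k2 * (E_ * ((Nn ^ 2 * q / (Kc * L)) ^ (1 / 3 : ℝ) *
          ((Real.sqrt L + Real.sqrt (L * Nn / Nb)) * W1)) * (En * (Jn / kA))))) =
      E_ * (P0 κ Mb Ek θ V (2 ^ n 0) (2 ^ n 1) c0 (2 ^ n 3) En g1 (2 ^ n 5) (2 ^ n 4) *
        (TD + A1' * T1 + A2' * T2 + A3' * (W1 * (k2 * (En * (Jn / kA)))))) := by
    rw [hA1', hA2', hA3', hBs]
    unfold P0 A1 A2 A3 Th
    ring
  rw [e1]
  refine mul_le_mul_of_nonneg_left ?_ hE_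
  have hP0m : P0 κ Mb Ek θ V (2 ^ n 0) (2 ^ n 1) c0 (2 ^ n 3) En g1 (2 ^ n 5) (2 ^ n 4) ≤
      P0 κ (X ^ (mx + τ)) (X ^ τ) (X ^ τ) V (2 ^ n 0) (2 ^ n 1) c0 (2 ^ n 3) En g1 (2 ^ n 5)
        (2 ^ n 4) := by
    unfold P0
    gcongr
  have hcnt : k2 * (En * (Jn / kA)) ≤ En * Jn := by
    have : k2 / kA ≤ 1 := (div_le_one hkA0).mpr hkA
    calc k2 * (En * (Jn / kA)) = (k2 / kA) * (En * Jn) := by field_simp
      _ ≤ 1 * (En * Jn) := by gcongr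
      _ = _ := one_mul _
  refine le_trans (mul_le_mul hP0m (add_le_add le_rfl (mul_le_mul_of_nonneg_left
    (mul_le_mul_of_nonneg_left hcnt hW0) hA30)) ?_ (by unfold P0; positivity)) ?_
  · have : (0 : ℝ) ≤ k2 * (En * (Jn / kA)) := by positivity
    positivity
  · refine key.trans ?_
    refine mul_le_mul_of_nonneg_left (up _ _ (by linarith)) (by norm_num)

end Crest.Agent.R017.XL842
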