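import Crest.Agent.R017.E4znX_679

/-!
# Row 17, C70/E4, class E: `XNumCX` from one block and one twist (helper679)

helper681's `XLe_681` at the data of class E; the value `Vf` of the `T`-number is free.

* `XNC` : helper266's `XNumCX` with any value `Vf` (`xnc_Vx` : `Vf = StrD699.Vx`)
* `BlkCX` : the statement of one block, one twist, any closer
* **`xnc_of_blk`**, **`xnc_blk`** : `XNC` from `BlkCX`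
-/

set_option autoImplicit false

noncomputable section

open Complex Finset
open scoped ComplexConjugate

namespace Crest.Agent.R017.XLeX679

open Crest.Agent.R012 Crest.Agent.R012.Eis
open Crest.Agent.R012.Mob705 hiding pb mem_pb
open Crest.Agent.R017.Sx545 (Sm)
open Crest.Agent.R017.CM106 (FS CS)
open Crest.Agent.R017.FE47 (PU SM)
open Crest.Agent.R017.C70 (OKJ)
open Crest.Agent.R017.End699 (HC)
open Crest.Agent.R017.B770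
open Crest.Agent.R017.Prov71
open Crest.Agent.R017.E5B71
open Crest.Agent.R017.E5L770
open Crest.Agent.R017.E5LX770 (SqLX)
open Crest.Agent.R017.ExP960 hiding alX
open Crest.Agent.R017.E5k54 (alb)
open Crest.Agent.R017.E4D164 hiding E4L
open Crest.Agent.R017.E4J352 hiding Win
open Crest.Agent.R017.E4U164
open Crest.Agent.R017.E4Df372
open Crest.Agent.R017.E4R70
open Crest.Agent.R017.E4RH858 (Pf pf Facts kl)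
open Crest.Agent.R017.E4Dic352
open Crest.Agent.R017.E4St352
open Crest.Agent.R017.E4SE266
open Crest.Agent.R017.E4zl679 (XBk)
open Crest.Agent.R017.JxL679 (NatS)
open Crest.Agent.R017.JxS679 (sk)
open Crest.Agent.R017.XSd512 (XMo)
open Crest.Agent.R017.XHn512
open Crest.Agent.R017.YsU61 (TwOK)

section

variable {Λ : Type*} (π : Λ → DPar) (h : ℝ → ℝ)

/-- **helper266's `XNumCX` with any value `Vf`** -/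
def XNC (Vf : Cls → ℝ → ℝ → ℝ) (Cl : ℝ → Cls → ℝ → ℝ → ℝ → ℝ → ℝ → Prop) (A d bb e0 r : ℝ)
    (Bf : ℕ → ℝ → ℝ → ℝ → ℝ) (Jf : ℝ → ℝ → ℝ → Finset (Eis × Eis)) : Prop :=
  ∀ ε : ℝ, 0 < ε → ∃ η : ℝ, 0 < η ∧
    ∀ (lam : Λ × Eis) (N : ℕ) (B : ℝ) (T : Finset ((Eis → ℂ) × ℤ)), ¬ (π lam.1).CaseD →
    (∀ tt ∈ T, TwOK (π lam.1) tt) →
    ∃ (M₁ : ℕ) (δ' : ℝ), 0 < δ' ∧ ∃ X₀ : ℝ, 1 < X₀ ∧ ∀ X : ℝ, X₀ ≤ X →
    ∀ δ ε' : ℝ, δ ≤ η → ε' ≤ η →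
    ∀ (a : BdX × ℕ) (ps : List Pq) (q : (Option IX5 → ℝ) × (Kd → ℝ)),
      FrLX A d bb δ δ' B X N a ps q → a.1.ok → lam.2 ∈ SM (π lam.1).n → a.1.okP (π lam.1) →
    ∀ x : Dt, x.OK (π lam.1) (Bf a.2) e0 r ε' X a.1.toBd → XLowX d X q x →
      (x.I Jf (bl a)).Nonempty →
    ∀ (j : Fin 2) (h₁ : FS (b1 (π lam.1) h lam.2 ps))
      (h₂ : FS (b2X (π lam.1) h lam.2 a.1 ps j)),
    ∀ tt ∈ T, ∀ (ξ : ℝ) (G : Eis → ℂ), (∀ y, Sm (π lam.1).n₃ y → G y = E4J352.gx tt.1 tt.2 ξ y) →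
    ∀ (c : E4J352.Win) (P : Pf) (β : Eis) (τ : Eis × Eis × Eis)
      (𝒥 : Finset (Tm (x.O π lam Jf (bl a)))),
      (∀ t ∈ 𝒥, t.OK (π lam.1).n₃ 1 ∧
        t.val 1 lD (vE π h lam Jf a x) (wE π h lam Jf a ps x j h₁ h₂) G ≠ 0 ∧ t.In lD c ∧
        pf t = P ∧ bo3 t = β ∧ soL x (fN (π lam.1).n₃ (x.E a.1.toBd)) t = τ) →
    ∀ Oc : Finset (x.O π lam Jf (bl a)), (∀ o, o ∈ Oc ↔ ∃ t ∈ 𝒥, t.o = o) →
    ∀ t ∈ 𝒥, ∀ f1 f2 f3 D1' Z'' l' m : Eis,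
      Spl (π lam.1).n₃ (fN (π lam.1).n₃ (x.E a.1.toBd)) x.z t f1 f2 f3 D1' Z'' l' m →
    ∀ (z' : Cls) (sc mx ex : ℝ),
      Nm918.Near η (StrD699.zT (cκ (prX (dn q.1)) * Real.log X) a.2 x
        (fN (π lam.1).n₃ (x.E a.1.toBd)) t f1 f2 D1' l' m sc) z' →
      z'.Ok d (1 / cκ (prX (dn q.1))) (cN (prX (dn q.1)) / cκ (prX (dn q.1)))
        (cM (prX (dn q.1)) / cκ (prX (dn q.1))) (q.2 .mo / cκ (prX (dn q.1)))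
        (q.2 .am / cκ (prX (dn q.1))) (cx' (prX (dn q.1)) / cκ (prX (dn q.1))) →
      z'.ky ≤ 1 → 0 ≤ mx → mx ≤ 2 →
      Cl (cκ (prX (dn q.1))) z' d (cN (prX (dn q.1)) / cκ (prX (dn q.1)))
        (cu (prX (dn q.1)) 4 / cκ (prX (dn q.1))) mx ex →
    ∀ t' ∈ 𝒥, ∀ Bm : ℝ, 1 ≤ Bm → Bm ≤ X ^ (mx + η) →
      ∀ Bd : ℝ, Bd = ((1 + |ξ|) ^ M₁) ^ 2 * X ^ (cκ (prX (dn q.1)) * (z'.k + 2 * z'.lam) +
        (cκ (prX (dn q.1)) * Vf z' (cN (prX (dn q.1)) / cκ (prX (dn q.1)))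
            (cu (prX (dn q.1)) 4 / cκ (prX (dn q.1))) +
          cκ (prX (dn q.1)) * (2 / 3 * d * z'.N1 (cN (prX (dn q.1)) / cκ (prX (dn q.1)))) +
          ex + ε)) →
      (mx = 0 → XMo (π lam.1).n₃ (vE π h lam Jf a x) G P Oc c.nkk
        (fun k => kl (x.g * x.e₀ * x.t) k = τ.1) t'.D1 (E4RH858.b1 t') (fun _ _ => 1) ≤ Bd) ∧
      (∀ bm : x.O π lam Jf (bl a) → Eis → ℂ, (∀ o ∈ Oc, NatS Bm (X ^ η * Bm) (bm o)) →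
        XMo (π lam.1).n₃ (vE π h lam Jf a x) G P Oc c.nkk
          (fun k => kl (x.g * x.e₀ * x.t) k = τ.1) t'.D1 (E4RH858.b1 t')
          (fun o k => ‖CS (bm o) k‖ ^ 2) ≤ Bd)

lemma xnc_Vx (Cl : ℝ → Cls → ℝ → ℝ → ℝ → ℝ → ℝ → Prop) (A d bb e0 r : ℝ)
    (Bf : ℕ → ℝ → ℝ → ℝ → ℝ) (Jf : ℝ → ℝ → ℝ → Finset (Eis × Eis)) :
    XNC π h StrD699.Vx Cl A d bb e0 r Bf Jf = XNumCX π h Cl A d bb e0 r Bf Jf := rfl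

/-- **one block, one twist, any closer, class E** -/
def BlkCX (Vf : Cls → ℝ → ℝ → ℝ) (Cl : ℝ → Cls → ℝ → ℝ → ℝ → ℝ → ℝ → Prop) (A d bb e0 r : ℝ)
    (Bf : ℕ → ℝ → ℝ → ℝ → ℝ) (Jf : ℝ → ℝ → ℝ → Finset (Eis × Eis)) : Prop :=
  ∀ ε : ℝ, 0 < ε → ∃ η : ℝ, 0 < η ∧ η ≤ 1 / 2 ∧
    ∀ (lam : Λ × Eis) (N : ℕ) (B Bb : ℝ) (tt : (Eis → ℂ) × ℤ), ¬ (π lam.1).CaseD → 4 ≤ Bb →
    lam.2 ∈ SM (π lam.1).n → TwOK (π lam.1) tt →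
    ∃ (M₁ : ℕ) (δ' : ℝ), 0 < δ' ∧ ∃ X₀ : ℝ, 1 < X₀ ∧ ∀ X : ℝ, X₀ ≤ X →
    ∀ δ ε' : ℝ, δ ≤ η → ε' ≤ η →
    ∀ (a : BdX × ℕ) (ps : List Pq) (q : (Option IX5 → ℝ) × (Kd → ℝ)),
      FrLX A d bb δ δ' B X N a ps q → a.1.ok → a.1.okP (π lam.1) →
    ∀ x : Dt, x.OK (π lam.1) (Bf a.2) e0 r ε' X a.1.toBd → XLowX d X q x →
      (x.I Jf (bl a)).Nonempty →
    ∀ (j : Fin 2) (h₁ : FS (b1 (π lam.1) h lam.2 ps))
      (h₂ : FS (b2X (π lam.1) h lam.2 a.1 ps j)),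
    ∀ (ξ : ℝ) (G : Eis → ℂ), (∀ y, Sm (π lam.1).n₃ y → G y = E4J352.gx tt.1 tt.2 ξ y) →
    ∀ (c : E4J352.Win) (P : Pf) (β : Eis) (τ : Eis × Eis × Eis)
      (𝒥 : Finset (Tm (x.O π lam Jf (bl a)))),
      (∀ t ∈ 𝒥, t.OK (π lam.1).n₃ 1 ∧
        t.val 1 lD (vE π h lam Jf a x) (wE π h lam Jf a ps x j h₁ h₂) G ≠ 0 ∧ t.In lD c ∧
        pf t = P ∧ bo3 t = β ∧ soL x (fN (π lam.1).n₃ (x.E a.1.toBd)) t = τ) →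
    ∀ Oc : Finset (x.O π lam Jf (bl a)), (∀ o, o ∈ Oc ↔ ∃ t ∈ 𝒥, t.o = o) →
    ∀ t ∈ 𝒥, ∀ f1 f2 f3' D1' Z'' l' m : Eis,
      Spl (π lam.1).n₃ (fN (π lam.1).n₃ (x.E a.1.toBd)) x.z t f1 f2 f3' D1' Z'' l' m →
    ∀ (z' : Cls) (sc mx ex : ℝ),
      Nm918.Near η (StrD699.zT (cκ (prX (dn q.1)) * Real.log X) a.2 x
        (fN (π lam.1).n₃ (x.E a.1.toBd)) t f1 f2 D1' l' m sc) z' →
      z'.Ok d (1 / cκ (prX (dn q.1))) (cN (prX (dn q.1)) / cκ (prX (dn q.1)))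
        (cM (prX (dn q.1)) / cκ (prX (dn q.1))) (q.2 .mo / cκ (prX (dn q.1)))
        (q.2 .am / cκ (prX (dn q.1))) (cx' (prX (dn q.1)) / cκ (prX (dn q.1))) →
      z'.ky ≤ 1 → 0 ≤ mx → mx ≤ 2 →
      Cl (cκ (prX (dn q.1))) z' d (cN (prX (dn q.1)) / cκ (prX (dn q.1)))
        (cu (prX (dn q.1)) 4 / cκ (prX (dn q.1))) mx ex →
      BFrX π h lam Jf a x Bb X (cκ (prX (dn q.1))) η c P β τ.1 𝒥 t
        (zTr (cκ (prX (dn q.1)) * Real.log X) a.2 x (fN (π lam.1).n₃ (x.E a.1.toBd)) t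
          f1 f2 D1' l' m sc) z' →
    ∀ t' ∈ 𝒥, ∀ g₁ g₂ : Eis,
      XBk π lam Jf (bl a) x (E4Df372.alX (π lam.1) h lam.2 a.1 x.β) (4 * Bb + 1) X c.nkk c.nlam P
        (sk (x.g * x.e₀ * x.t) t.k) β Oc (fun k => kl (x.g * x.e₀ * x.t) k = τ.1) g₁ g₂ t'.D1
        (E4RH858.b1 t') (E4J352.gx tt.1 tt.2 ξ) →
    ∀ Bm : ℝ, 1 ≤ Bm → Bm ≤ X ^ (mx + η) →
      ∀ Bd : ℝ, Bd = ((1 + |ξ|) ^ M₁) ^ 2 * X ^ (cκ (prX (dn q.1)) * (z'.k + 2 * z'.lam) +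
        (cκ (prX (dn q.1)) * Vf z' (cN (prX (dn q.1)) / cκ (prX (dn q.1)))
            (cu (prX (dn q.1)) 4 / cκ (prX (dn q.1))) +
          cκ (prX (dn q.1)) * (2 / 3 * d * z'.N1 (cN (prX (dn q.1)) / cκ (prX (dn q.1)))) +
          ex + ε)) →
      (mx = 0 → XMo (π lam.1).n₃ (vG π lam Jf (bl a) x (E4Df372.alX (π lam.1) h lam.2 a.1 x.β)) G
        P Oc c.nkk (fun k => kl (x.g * x.e₀ * x.t) k = τ.1) t'.D1 (E4RH858.b1 t')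
        (fun _ _ => 1) ≤ Bd) ∧
      (∀ bm : x.O π lam Jf (bl a) → Eis → ℂ, (∀ o ∈ Oc, NatS Bm (X ^ η * Bm) (bm o)) →
        XMo (π lam.1).n₃ (vG π lam Jf (bl a) x (E4Df372.alX (π lam.1) h lam.2 a.1 x.β)) G P Oc
          c.nkk (fun k => kl (x.g * x.e₀ * x.t) k = τ.1) t'.D1 (E4RH858.b1 t')
          (fun o k => ‖CS (bm o) k‖ ^ 2) ≤ Bd)

end

/-- **`XNC` from one block and one twist** -/
theorem xnc_blk {Λ : Type*} {π : Λ → DPar} {h : ℝ → ℝ} {c₀ : ℝ} (hh : PU h c₀)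
    (hP : ∀ lam, (π lam).OK) {Vf : Cls → ℝ → ℝ → ℝ} {Cl : ℝ → Cls → ℝ → ℝ → ℝ → ℝ → ℝ → Prop}
    {A d bb e0 r : ℝ} (hA : 2 / 3 ≤ A) {Bf : ℕ → ℝ → ℝ → ℝ → ℝ}
    {Jf : ℝ → ℝ → ℝ → Finset (Eis × Eis)} (hJf : ∀ l N z, OKJ (Jf l N z))
    (hF : E4zf92.JFull Jf) (HB : BlkCX π h Vf Cl A d bb e0 r Bf Jf) :
    XNC π h Vf Cl A d bb e0 r Bf Jf := by
  classical
  intro ε hε
  obtain ⟨η₁, hη₁, hη₁b, K⟩ := HB ε hε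
  refine ⟨η₁, hη₁, ?_⟩
  intro lam N B T hD hT
  obtain ⟨Bb, X₂, hBb, hX₂, HU2⟩ := E4znX679.xbk_frameX (π := π) (h := h) hh hP hA d bb e0 r Bf
    hJf hF lam N B
  by_cases hSM : lam.2 ∈ SM (π lam.1).n
  swap
  · refine ⟨0, 1, one_pos, 2, by norm_num, ?_⟩
    intro X _ δ ε' _ _ a ps q _ _ hs
    exact absurd hs hSM
  have hK := fun (tt : (Eis → ℂ) × ℤ) (htt : tt ∈ T) => K lam N B Bb tt hD hBb hSM (hT tt htt)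
  choose! M₁ δ₁ hδ₁ X₁ hX₁ L using hK
  -- the number of twists is finite
  have hM : ∀ tt ∈ T, M₁ tt ≤ T.sup M₁ := fun tt htt => Finset.le_sup htt
  obtain ⟨δ', hδ', hδ'a, hδ'b⟩ : ∃ δ' : ℝ, 0 < δ' ∧ δ' ≤ 1 ∧ ∀ tt ∈ T, δ' ≤ δ₁ tt := by
    rcases T.eq_empty_or_nonempty with h0 | h0
    · exact ⟨1, one_pos, le_rfl, fun tt htt => by rw [h0] at htt; exact absurd htt (by simp)⟩
    · obtain ⟨t₀, ht₀, hmin⟩ := T.exists_min_image δ₁ h0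
      exact ⟨min 1 (δ₁ t₀), lt_min one_pos (hδ₁ t₀ ht₀), min_le_left _ _,
        fun tt htt => (min_le_right _ _).trans (hmin tt htt)⟩
  obtain ⟨X₀, hX₀, hX₀b⟩ : ∃ X₀ : ℝ, X₂ ≤ X₀ ∧ ∀ tt ∈ T, X₁ tt ≤ X₀ := by
    rcases T.eq_empty_or_nonempty with h0 | h0
    · exact ⟨X₂, le_rfl, fun tt htt => by rw [h0] at htt; exact absurd htt (by simp)⟩
    · obtain ⟨t₀, ht₀, hmax⟩ := T.exists_max_image X₁ h0
      exact ⟨max X₂ (X₁ t₀), le_max_left _ _, fun tt htt => (hmax tt htt).trans (le_max_right _ _)⟩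
  refine ⟨T.sup M₁, δ', hδ', X₀, by linarith, ?_⟩
  intro X hXX δ ε' hδ hε' a ps q hF ha hlam haP x hx hxl hne j h₁ h₂ tt htt ξ G hG c P β τ 𝒥 h𝒥
    Oc hOc t ht f1 f2 f3' D1' Z'' l' m hS z' sc mx ex hN hok hky hmx hmx2 hC t' ht' Bm hBm1 hBm
    Bd hBd
  have hXX₂ : X₂ ≤ X := hX₀.trans hXX
  have hX1 : 1 < X := by linarith
  obtain ⟨M', hM'⟩ : ∃ M' : Eis, HC M' tt.1 := by
    rcases hT tt htt with h1 | ⟨⟨M', -, -, -, h1⟩, -⟩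
    · rw [h1]
      exact ⟨_, End699.hc_prin0 (hP lam.1).χ₃.q0 (hP lam.1).χ₃.three⟩
    · exact ⟨M', h1⟩
  obtain ⟨hBFr, g₁, g₂, -, hXBk⟩ := HU2 X hXX₂ δ δ' ε' η₁ (hδ.trans hη₁b) hδ'a
    (by linarith) hη₁.le hη₁b a ps q hF ha hlam haP x hx hne j h₁ h₂ G c P β τ 𝒥 h𝒥 t ht f1 f2
    D1' l' m sc z' hN hok hky
  have key := L tt htt X ((hX₀b tt htt).trans hXX) δ ε' hδ hε' a ps q
    (hF.mono hX1.le le_rfl (hδ'b tt htt)) ha haP x hx hxl hne j h₁ h₂ ξ G hG c P β τ 𝒥 h𝒥 Oc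
    hOc t ht f1 f2 f3' D1' Z'' l' m hS z' sc mx ex hN hok hky hmx hmx2 hC hBFr t' ht' g₁ g₂
    (hXBk M' tt.1 tt.2 ξ hM' t' ht' Oc hOc) Bm hBm1 hBm _ rfl
  have hξ : 1 ≤ 1 + |ξ| := by
    have := abs_nonneg ξ
    linarith
  have hle : ((1 + |ξ|) ^ M₁ tt) ^ 2 * X ^ (cκ (prX (dn q.1)) * (z'.k + 2 * z'.lam) +
        (cκ (prX (dn q.1)) * Vf z' (cN (prX (dn q.1)) / cκ (prX (dn q.1)))
            (cu (prX (dn q.1)) 4 / cκ (prX (dn q.1))) +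
          cκ (prX (dn q.1)) * (2 / 3 * d * z'.N1 (cN (prX (dn q.1)) / cκ (prX (dn q.1)))) +
          ex + ε)) ≤ Bd := by
    rw [hBd]
    have h2 := pow_le_pow_right₀ hξ (hM tt htt)
    have h3 : (0 : ℝ) ≤ (1 + |ξ|) ^ M₁ tt := by positivity
    gcongr
  rw [← vG_vE] at key
  exact ⟨fun h0 => (key.1 h0).trans hle, fun bm hbm => (key.2 bm hbm).trans hle⟩

/-- **helper266's `XNumCX` from one block and one twist** -/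
theorem xnumCX_blk {Λ : Type*} {π : Λ → DPar} {h : ℝ → ℝ} {c₀ : ℝ} (hh : PU h c₀)
    (hP : ∀ lam, (π lam).OK) {Cl : ℝ → Cls → ℝ → ℝ → ℝ → ℝ → ℝ → Prop}
    {A d bb e0 r : ℝ} (hA : 2 / 3 ≤ A) {Bf : ℕ → ℝ → ℝ → ℝ → ℝ}
    {Jf : ℝ → ℝ → ℝ → Finset (Eis × Eis)} (hJf : ∀ l N z, OKJ (Jf l N z))
    (hF : E4zf92.JFull Jf) (HB : BlkCX π h StrD699.Vx Cl A d bb e0 r Bf Jf) :
    XNumCX π h Cl A d bb e0 r Bf Jf :=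
  xnc_blk hh hP hA hJf hF HB

end Crest.Agent.R017.XLeX679
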