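import Crest.Agent.R017.E4zn_679

/-!
# Row 17, C70/E4 (version 7): `XNumC` from one block and one twist (helper681)

* `BlkC` : the statement of one block, one twist, any closer
* `BFU` : the facts of a block from the premises of `XNumC` (helper512, helper679)
* **`xnumC_of_blk`** : `XNumC` from `BlkC`
-/

set_option autoImplicit false

noncomputable section

open Complex Finset
open scoped ComplexConjugate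

namespace Crest.Agent.R017.XLe681

open Crest.Agent.R012 Crest.Agent.R012.Eis
open Crest.Agent.R012.Mob705 hiding pb mem_pb
open Crest.Agent.R017.Sx545 (Sm)
open Crest.Agent.R017.CM106 (FS CS)
open Crest.Agent.R017.FE47 (PU SM)
open Crest.Agent.R017.C70 (OKJ)
open Crest.Agent.R017.End699 (HC)
open Crest.Agent.R017.B770
open Crest.Agent.R017.Prov71
open Crest.Agent.R017.E5B71
open Crest.Agent.R017.E5L770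
open Crest.Agent.R017.E5k54 (alb)
open Crest.Agent.R017.E4D164
open Crest.Agent.R017.E4J352
open Crest.Agent.R017.E4U164
open Crest.Agent.R017.E4R70
open Crest.Agent.R017.E4RH858 (Pf pf Facts kl)
open Crest.Agent.R017.E4Dic352
open Crest.Agent.R017.E4St352
open Crest.Agent.R017.E4zl679 (XBk)
open Crest.Agent.R017.JxL679 (NatS)
open Crest.Agent.R017.JxS679 (sk)
open Crest.Agent.R017.XSd512 (XMo)
open Crest.Agent.R017.XHn512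
open Crest.Agent.R017.YsU61 (TwOK)

section

variable {Λ : Type*} (π : Λ → DPar) (h : ℝ → ℝ)

/-- **one block, one twist, any closer** -/
def BlkC (Cl : ℝ → Cls → ℝ → ℝ → ℝ → ℝ → ℝ → Prop) (A d e0 r : ℝ) (Bf : ℝ → ℝ → ℝ → ℝ)
    (Jf : ℝ → ℝ → ℝ → Finset (Eis × Eis)) : Prop :=
  ∀ ε : ℝ, 0 < ε → ∃ η : ℝ, 0 < η ∧ η ≤ 1 / 2 ∧
    ∀ (lam : Λ × Eis) (N : ℕ) (B Bb : ℝ) (tt : (Eis → ℂ) × ℤ), ¬ (π lam.1).CaseD → 3 ≤ Bb →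
    lam.2 ∈ SM (π lam.1).n → TwOK (π lam.1) tt →
    ∃ (M₁ : ℕ) (δ' : ℝ), 0 < δ' ∧ ∃ X₀ : ℝ, 1 < X₀ ∧ ∀ X : ℝ, X₀ ≤ X →
    ∀ δ ε' : ℝ, δ ≤ η → ε' ≤ η →
    ∀ (a : Bd × ℕ) (ps : List Pq) (q : (Option (Fin 3 ⊕ Fin 5) → ℝ) × (Kd → ℝ)),
      FrL A d δ δ' B X N a ps q → a.1.ok → a.1.okP (π lam.1) →
    ∀ x : Dt, x.OK (π lam.1) Bf e0 r ε' X a.1 →
    ∀ (h₁ : FS (b1 (π lam.1) h lam.2 ps)) (h₂ : FS (b2 (π lam.1) h lam.2 a.1 ps)),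
    ∀ (ξ : ℝ) (G : Eis → ℂ), (∀ y, Sm (π lam.1).n₃ y → G y = E4J352.gx tt.1 tt.2 ξ y) →
    ∀ (c : E4J352.Win) (P : Pf) (β : Eis) (τ : Eis × Eis × Eis)
      (𝒥 : Finset (Tm (x.O π lam Jf a))),
      (∀ t ∈ 𝒥, t.OK (π lam.1).n₃ 1 ∧
        t.val 1 lD (x.v π h lam Jf a) (x.w π h lam Jf a ps h₁ h₂) G ≠ 0 ∧ t.In lD c ∧
        pf t = P ∧ bo3 t = β ∧ soL x (fN (π lam.1).n₃ (x.E a.1)) t = τ) →
    ∀ Oc : Finset (x.O π lam Jf a), (∀ o, o ∈ Oc ↔ ∃ t ∈ 𝒥, t.o = o) →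
    ∀ t ∈ 𝒥, ∀ f1 f2 f3' D1' Z'' l' m : Eis,
      Spl (π lam.1).n₃ (fN (π lam.1).n₃ (x.E a.1)) x.z t f1 f2 f3' D1' Z'' l' m →
    ∀ (z' : Cls) (mx ex : ℝ),
      Nm918.Near η (StrD699.zT (cκ (dn q.1) * Real.log X) a.2 x (fN (π lam.1).n₃ (x.E a.1)) t
        f1 f2 D1' l' m 0) z' →
      z'.Ok d (1 / cκ (dn q.1)) (cN (dn q.1) / cκ (dn q.1)) (cM (dn q.1) / cκ (dn q.1))
        (q.2 .mo / cκ (dn q.1)) (q.2 .am / cκ (dn q.1)) (cx' (dn q.1) / cκ (dn q.1)) →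
      z'.ky ≤ 1 → 0 ≤ mx → mx ≤ 2 →
      Cl (cκ (dn q.1)) z' d (cN (dn q.1) / cκ (dn q.1)) (cu (dn q.1) 4 / cκ (dn q.1)) mx ex →
      BFr π h lam Jf a x Bb X (cκ (dn q.1)) η c P β τ.1 𝒥 t
        (zTr (cκ (dn q.1) * Real.log X) a.2 x (fN (π lam.1).n₃ (x.E a.1)) t f1 f2 D1' l' m 0)
        z' →
    ∀ t' ∈ 𝒥, ∀ g₁ g₂ : Eis,
      XBk π lam Jf a x (alb (f3 (π lam.1) h lam.2 a.1) x.β) (4 * Bb + 1) X c.nkk c.nlam P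
        (sk (x.g * x.e₀ * x.t) t.k) β Oc (fun k => kl (x.g * x.e₀ * x.t) k = τ.1) g₁ g₂ t'.D1
        (E4RH858.b1 t') (E4J352.gx tt.1 tt.2 ξ) →
    ∀ Bm : ℝ, 1 ≤ Bm → Bm ≤ X ^ (mx + η) →
      ∀ Bd : ℝ, Bd = ((1 + |ξ|) ^ M₁) ^ 2 * X ^ (cκ (dn q.1) * (z'.k + 2 * z'.lam) +
        (cκ (dn q.1) * StrD699.Vx z' (cN (dn q.1) / cκ (dn q.1)) (cu (dn q.1) 4 / cκ (dn q.1)) +
          cκ (dn q.1) * (2 / 3 * d * z'.N1 (cN (dn q.1) / cκ (dn q.1))) + ex + ε)) →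
      (mx = 0 → XMo (π lam.1).n₃ (vG π lam Jf a x (alb (f3 (π lam.1) h lam.2 a.1) x.β)) G P Oc
        c.nkk (fun k => kl (x.g * x.e₀ * x.t) k = τ.1) t'.D1 (E4RH858.b1 t') (fun _ _ => 1) ≤
          Bd) ∧
      (∀ bm : x.O π lam Jf a → Eis → ℂ, (∀ o ∈ Oc, NatS Bm (X ^ η * Bm) (bm o)) →
        XMo (π lam.1).n₃ (vG π lam Jf a x (alb (f3 (π lam.1) h lam.2 a.1) x.β)) G P Oc c.nkk
          (fun k => kl (x.g * x.e₀ * x.t) k = τ.1) t'.D1 (E4RH858.b1 t')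
          (fun o k => ‖CS (bm o) k‖ ^ 2) ≤ Bd)

/-- **the facts of a block from the premises of `XNumC`** (helper512, helper679) -/
def BFU (A d e0 r : ℝ) (Bf : ℝ → ℝ → ℝ → ℝ) (Jf : ℝ → ℝ → ℝ → Finset (Eis × Eis)) : Prop :=
  ∀ (lam : Λ × Eis) (N : ℕ) (B : ℝ), ∃ Bb X₀ : ℝ, 3 ≤ Bb ∧ 2 ≤ X₀ ∧ ∀ X : ℝ, X₀ ≤ X →
    ∀ δ δ' ε' η : ℝ, δ ≤ 1 / 2 → δ' ≤ 1 → ε' ≤ 1 → 0 ≤ η → η ≤ 1 / 2 →
    ∀ (a : Bd × ℕ) (ps : List Pq) (q : (Option (Fin 3 ⊕ Fin 5) → ℝ) × (Kd → ℝ)),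
      FrL A d δ δ' B X N a ps q → a.1.ok → lam.2 ∈ SM (π lam.1).n → a.1.okP (π lam.1) →
    ∀ x : Dt, x.OK (π lam.1) Bf e0 r ε' X a.1 →
    ∀ (h₁ : FS (b1 (π lam.1) h lam.2 ps)) (h₂ : FS (b2 (π lam.1) h lam.2 a.1 ps)),
    ∀ (G : Eis → ℂ) (c : E4J352.Win) (P : Pf) (β : Eis) (τ : Eis × Eis × Eis)
      (𝒥 : Finset (Tm (x.O π lam Jf a))),
      (∀ t ∈ 𝒥, t.OK (π lam.1).n₃ 1 ∧
        t.val 1 lD (x.v π h lam Jf a) (x.w π h lam Jf a ps h₁ h₂) G ≠ 0 ∧ t.In lD c ∧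
        pf t = P ∧ bo3 t = β ∧ soL x (fN (π lam.1).n₃ (x.E a.1)) t = τ) →
    ∀ t ∈ 𝒥, ∀ (f1 f2 D1' l' m : Eis) (sc : ℝ) (z' : Cls),
      Nm918.Near η (zTr (cκ (dn q.1) * Real.log X) a.2 x (fN (π lam.1).n₃ (x.E a.1)) t
        f1 f2 D1' l' m sc) z' →
      z'.Ok d (1 / cκ (dn q.1)) (cN (dn q.1) / cκ (dn q.1)) (cM (dn q.1) / cκ (dn q.1))
        (q.2 .mo / cκ (dn q.1)) (q.2 .am / cκ (dn q.1)) (cx' (dn q.1) / cκ (dn q.1)) →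
      z'.ky ≤ 1 →
      BFr π h lam Jf a x Bb X (cκ (dn q.1)) η c P β τ.1 𝒥 t
        (zTr (cκ (dn q.1) * Real.log X) a.2 x (fN (π lam.1).n₃ (x.E a.1)) t
          f1 f2 D1' l' m sc) z' ∧
      ∃ g₁ g₂ : Eis, x.g' = g₁ * g₂ ^ 2 ∧ ∀ (M' : Eis) (χ : Eis → ℂ) (j : ℤ) (ξ : ℝ),
        HC M' χ → ∀ t' ∈ 𝒥, ∀ Oc : Finset (x.O π lam Jf a), (∀ o, o ∈ Oc ↔ ∃ t ∈ 𝒥, t.o = o) →
        XBk π lam Jf a x (alb (f3 (π lam.1) h lam.2 a.1) x.β) (4 * Bb + 1) X c.nkk c.nlam P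
          (sk (x.g * x.e₀ * x.t) t.k) β Oc (fun k => kl (x.g * x.e₀ * x.t) k = τ.1) g₁ g₂ t'.D1
          (E4RH858.b1 t') (E4J352.gx χ j ξ)

end

/-- **`XNumC` from one block and one twist** -/
theorem xnumC_of_blk {Λ : Type*} {π : Λ → DPar} {h : ℝ → ℝ} (hP : ∀ lam, (π lam).OK)
    {Cl : ℝ → Cls → ℝ → ℝ → ℝ → ℝ → ℝ → Prop} {A d e0 r : ℝ} {Bf : ℝ → ℝ → ℝ → ℝ}
    {Jf : ℝ → ℝ → ℝ → Finset (Eis × Eis)} (HU : BFU π h A d e0 r Bf Jf)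
    (HB : BlkC π h Cl A d e0 r Bf Jf) : XNumC π h Cl A d e0 r Bf Jf := by
  classical
  intro ε hε
  obtain ⟨η₁, hη₁, hη₁b, K⟩ := HB ε hε
  refine ⟨η₁, hη₁, ?_⟩
  intro lam N B T hD hT
  obtain ⟨Bb, X₂, hBb, hX₂, HU2⟩ := HU lam N B
  by_cases hSM : lam.2 ∈ SM (π lam.1).n
  swap
  · refine ⟨0, 1, one_pos, 2, by norm_num, ?_⟩
    intro X _ δ ε' _ _ a ps q _ _ hs
    exact absurd hs hSM
  have hK := fun (tt : (Eis → ℂ) × ℤ) (htt : tt ∈ T) => K lam N B Bb tt hD hBb hSM (hT tt htt)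
  choose! M₁ δ₁ hδ₁ X₁ hX₁ L using hK
  -- the number of twists is finite
  have hM : ∀ tt ∈ T, M₁ tt ≤ T.sup M₁ := fun tt htt => Finset.le_sup htt
  obtain ⟨δ', hδ', hδ'a, hδ'b⟩ : ∃ δ' : ℝ, 0 < δ' ∧ δ' ≤ 1 ∧ ∀ tt ∈ T, δ' ≤ δ₁ tt := by
    rcases T.eq_empty_or_nonempty with h0 | h0
    · exact ⟨1, one_pos, le_rfl, fun tt htt => by rw [h0] at htt; exact absurd htt (by simp)⟩
    · obtain ⟨t₀, ht₀, hmin⟩ := T.exists_min_image δ₁ h0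
      exact ⟨min 1 (δ₁ t₀), lt_min one_pos (hδ₁ t₀ ht₀), min_le_left _ _,
        fun tt htt => (min_le_right _ _).trans (hmin tt htt)⟩
  obtain ⟨X₀, hX₀, hX₀b⟩ : ∃ X₀ : ℝ, X₂ ≤ X₀ ∧ ∀ tt ∈ T, X₁ tt ≤ X₀ := by
    rcases T.eq_empty_or_nonempty with h0 | h0
    · exact ⟨X₂, le_rfl, fun tt htt => by rw [h0] at htt; exact absurd htt (by simp)⟩
    · obtain ⟨t₀, ht₀, hmax⟩ := T.exists_max_image X₁ h0
      exact ⟨max X₂ (X₁ t₀), le_max_left _ _, fun tt htt => (hmax tt htt).trans (le_max_right _ _)⟩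
  refine ⟨T.sup M₁, δ', hδ', X₀, by linarith, ?_⟩
  intro X hXX δ ε' hδ hε' a ps q hF ha hlam haP x hx h₁ h₂ tt htt ξ G hG c P β τ 𝒥 h𝒥 Oc hOc t ht
    f1 f2 f3' D1' Z'' l' m hS z' mx ex hN hok hky hmx hmx2 hC t' ht' Bm hBm1 hBm Bd hBd
  have hXX₂ : X₂ ≤ X := hX₀.trans hXX
  have hX1 : 1 < X := by linarith
  obtain ⟨M', hM'⟩ : ∃ M' : Eis, HC M' tt.1 := by
    rcases hT tt htt with h1 | ⟨⟨M', -, -, -, h1⟩, -⟩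
    · rw [h1]
      exact ⟨_, End699.hc_prin0 (hP lam.1).χ₃.q0 (hP lam.1).χ₃.three⟩
    · exact ⟨M', h1⟩
  obtain ⟨hBFr, g₁, g₂, -, hXBk⟩ := HU2 X hXX₂ δ δ' ε' η₁ (hδ.trans hη₁b) hδ'a
    (by linarith) hη₁.le hη₁b a ps q hF ha hlam haP x hx h₁ h₂ G c P β τ 𝒥 h𝒥 t ht f1 f2 D1' l' m
    0 z' hN hok hky
  have key := L tt htt X ((hX₀b tt htt).trans hXX) δ ε' hδ hε' a ps q
    (hF.mono hX1.le le_rfl (hδ'b tt htt)) ha haP x hx h₁ h₂ ξ G hG c P β τ 𝒥 h𝒥 Oc hOc t ht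
    f1 f2 f3' D1' Z'' l' m hS z' mx ex hN hok hky hmx hmx2 hC hBFr t' ht' g₁ g₂
    (hXBk M' tt.1 tt.2 ξ hM' t' ht' Oc hOc) Bm hBm1 hBm _ rfl
  have hξ : 1 ≤ 1 + |ξ| := by
    have := abs_nonneg ξ
    linarith
  have hle : ((1 + |ξ|) ^ M₁ tt) ^ 2 * X ^ (cκ (dn q.1) * (z'.k + 2 * z'.lam) +
        (cκ (dn q.1) * StrD699.Vx z' (cN (dn q.1) / cκ (dn q.1)) (cu (dn q.1) 4 / cκ (dn q.1)) +
          cκ (dn q.1) * (2 / 3 * d * z'.N1 (cN (dn q.1) / cκ (dn q.1))) + ex + ε)) ≤ Bd := by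
    rw [hBd]
    have h2 := pow_le_pow_right₀ hξ (hM tt htt)
    have h3 : (0 : ℝ) ≤ (1 + |ξ|) ^ M₁ tt := by positivity
    gcongr
  rw [← vG_v] at key
  exact ⟨fun h0 => (key.1 h0).trans hle, fun bm hbm => (key.2 bm hbm).trans hle⟩

/-- **`XNumC` from one block and one twist** -/
theorem xnumC_blk {Λ : Type*} {π : Λ → DPar} {h : ℝ → ℝ} {c₀ : ℝ} (hh : PU h c₀)
    (hP : ∀ lam, (π lam).OK) {Cl : ℝ → Cls → ℝ → ℝ → ℝ → ℝ → ℝ → Prop} {A d e0 r : ℝ}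
    (hA : 2 / 3 ≤ A) {Bf : ℝ → ℝ → ℝ → ℝ} {Jf : ℝ → ℝ → ℝ → Finset (Eis × Eis)}
    (hJf : ∀ l N z, OKJ (Jf l N z)) (hF : E4zf92.JFull Jf)
    (HB : BlkC π h Cl A d e0 r Bf Jf) : XNumC π h Cl A d e0 r Bf Jf :=
  xnumC_of_blk hP (fun lam N B => E4zn679.xbk_frame hh hP hA d e0 r Bf hJf hF lam N B) HB

end Crest.Agent.R017.XLe681
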