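import Crest.Agent.R017.RXg_770
import Crest.Agent.R017.E4Xk_681
import Crest.Agent.R017.Qg_681

/-!
# Row 17, block C70, leaf E4 (x-side): the R-part of a cell in the numbers of its class (helper347)

* `ihw` : the exponent of mesh times conductor;  `Wb` : the bound of the R-part
* `rx_cls` : **`RXk` at a cell of class N** from helper770's `rx_glueN` and helper681's `nk_PP`
-/

set_option autoImplicit false
set_option linter.unusedVariables false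
set_option maxHeartbeats 400000

noncomputable section

open Complex MeasureTheory
open scoped ComplexConjugate

namespace Crest.Agent.R017.XLg347

open Crest.Agent.R012 Crest.Agent.R012.Eis
open Crest.Agent.R012.LS2 (S mem_S)
open Crest.Agent.R017.CM106 (CS TG FS)
open Crest.Agent.R017.FE47
open Crest.Agent.R017.End699 Crest.Agent.R017.B770 Crest.Agent.R017.Sup271
open Crest.Agent.R017.Prov71
open Crest.Agent.R017.C70 (CbF JC)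
open Crest.Agent.R017.HP842 (Pc pc)
open Crest.Agent.R017.GrB829 (IsC)
open Crest.Agent.R017.E1551 (nmpos nm_ge_one)
open Crest.Agent.R017.Mode405 (OK3 nk)
open Crest.Agent.R017.E5k54 (alb)
open Crest.Agent.R017.E5B71 (Pt)
open Crest.Agent.R017.TEM792 (LD nL)
open Crest.Agent.R017.E4zz92 (Tu PP)
open Crest.Agent.R017.E4352 (PrI)
open Crest.Agent.R017.E4579 (SupB)
open Crest.Agent.R017.E4X92
open Crest.Agent.R017.E4Xb681 (XC cb Nb0 Zc FI cell_FI Nbn Nbn_pos nn_le_Nh Nh_cmp nk_PP)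
open Crest.Agent.R017.RXn770

/-- the exponent of mesh times conductor -/
def ihw (x : XF) (X Nα L G : ℝ) (n : Fin 12 → ℕ) : ℝ :=
  Real.log (8192 * (Nbn x Nα n * L / x.Nn n) * ((2 : ℝ) ^ n 3) ^ 2 / G) / Real.log X

/-- the bound of the R-part -/
def Wb (x : XF) (X H d u N ε ih : ℝ) (M : ℕ) (n : Fin 12 → ℕ) : ℝ :=
  H ^ M * X ^ (max ih (ih / 3) + g3 d u ih + 2 / 3 * (N - Real.log (x.En n) / Real.log X) + ε)

lemma Wb_nonneg (x : XF) {X H : ℝ} (hX : 0 ≤ X) (hH : 0 ≤ H) (d u N ε ih : ℝ) (M : ℕ)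
    (n : Fin 12 → ℕ) : 0 ≤ Wb x X H d u N ε ih M n := by
  unfold Wb
  have := Real.rpow_nonneg hX (max ih (ih / 3) + g3 d u ih +
    2 / 3 * (N - Real.log (x.En n) / Real.log X) + ε)
  positivity

lemma rpow_ihw {x : XF} {X Nα L G : ℝ} {n : Fin 12 → ℕ} (hX : 1 < X)
    (h : 0 < 8192 * (Nbn x Nα n * L / x.Nn n) * ((2 : ℝ) ^ n 3) ^ 2 / G) :
    X ^ ihw x X Nα L G n = 8192 * (Nbn x Nα n * L / x.Nn n) * ((2 : ℝ) ^ n 3) ^ 2 / G := by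
  unfold ihw
  have hX0 : 0 < X := by linarith
  have hL := Real.log_pos hX
  rw [Real.rpow_def_of_pos hX0]
  have : Real.log X * (Real.log (8192 * (Nbn x Nα n * L / x.Nn n) * ((2 : ℝ) ^ n 3) ^ 2 / G) /
      Real.log X) = Real.log (8192 * (Nbn x Nα n * L / x.Nn n) * ((2 : ℝ) ^ n 3) ^ 2 / G) := by
    field_simp
  rw [this, Real.exp_log h]

section cls

variable {x : XF} {a : Tu} {Nα Rw : ℝ} {nδ nμ : ℕ} {i : Eis × Eis}

/-- the length of a class -/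
lemma Nn_ge (hx : XC x a Nα Rw) (hi : i ∈ x.cell a nδ nμ) : 1 / 2 ≤ x.Nn (x.vec a nδ nμ) := by
  have f0 := cell_FI hx hi
  have hF := E4Xb681.FF_ne f0
  have hPP : PP (x.Sf a.q) x.g₁ a.ν (a.us * a.τ) ≠ 0 := by
    intro h0
    apply hF
    unfold XF.FFa
    rw [E4zz92.FF_eq, h0, mul_zero]
  obtain ⟨n1, n2⟩ := Nh_cmp (nδ := nδ) (nμ := nμ) hx f0 hPP
  exact (f0.nn.trans (nn_le_Nh hx f0)).trans n1

/-- the divisor of a class -/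
lemma En_le (hx : XC x a Nα Rw) (hi : i ∈ x.cell a nδ nμ) :
    1 ≤ x.En (x.vec a nδ nμ) ∧
      x.En (x.vec a nδ nμ) ≤ nm (x.g₂ * (a.w * (a.g * i.1))) := by
  have f0 := cell_FI hx hi
  have e : x.En (x.vec a nδ nμ) = nm x.g₂ * ((2 : ℝ) ^ lg a.w * (2 ^ lg a.g * 2 ^ nδ)) := rfl
  have g2 := nm_ge_one hx.g2.ne_zero
  have l7 := pow_lg_le hx.hs.hw.ne_zero
  have l8 := pow_lg_le hx.g.ne_zero
  have l9 := f0.a1
  rw [e]
  constructor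
  · have h1 : (1 : ℝ) ≤ 2 ^ lg a.w := one_le_pow₀ (by norm_num)
    have h2 : (1 : ℝ) ≤ 2 ^ lg a.g := one_le_pow₀ (by norm_num)
    have h3 : (1 : ℝ) ≤ 2 ^ nδ := one_le_pow₀ (by norm_num)
    exact one_le_mul_of_one_le_of_one_le g2
      (one_le_mul_of_one_le_of_one_le h1 (one_le_mul_of_one_le_of_one_le h2 h3))
  · rw [nm_mul, nm_mul, nm_mul]
    push_cast
    gcongr

/-- the length of the inner coefficients of a class -/
lemma Nbn_le (hx : XC x a Nα Rw) (hi : i ∈ x.cell a nδ nμ) :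
    Nbn x Nα (x.vec a nδ nμ) ≤ 2 * x.Y ^ 2 := by
  have f0 := cell_FI hx hi
  obtain ⟨hE, -⟩ := En_le hx hi
  have hY := hx.Y1
  have hY0 : 0 < x.Y := by linarith
  have e : Nbn x Nα (x.vec a nδ nμ) = Nα * ((2 : ℝ) ^ lg a.h * 2 ^ lg a.u) /
    x.En (x.vec a nδ nμ) := rfl
  have hN := hx.Nα0
  have l6 := pow_lg_le hx.hs.hu.ne_zero
  have l9 := pow_lg_le hx.h.ne_zero
  have hFne := E4Xb681.FF_ne f0
  have hn1 : ∀ {y : Eis}, y ≠ 0 → (1 : ℝ) ≤ nm y := fun hy => by exact_mod_cast nm_pos.2 hy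
  have hDp : IsPrim (x.g₂ * (a.w * (a.g * i.1))) := hx.g2.mul (hx.hs.hw.mul f0.gδ)
  have nF := hn1 hFne
  have nD := hn1 hDp.ne_zero
  have nu := hn1 hx.hs.hu.ne_zero
  have nh := hn1 hx.h.ne_zero
  have hnn := f0.nn
  unfold XF.nn at hnn
  have hpos : (0 : ℝ) < nm (x.FFa a) * (nm (x.g₂ * (a.w * (a.g * i.1))) : ℝ) ^ 2 *
    (nm a.u * nm a.h) := by positivity
  rw [div_le_div_iff₀ (by norm_num) hpos] at hnn
  have hV2 : (nm a.u : ℝ) * nm a.h ≤ 2 * x.Y := by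
    have h1 := hx.VY
    calc (nm a.u : ℝ) * nm a.h = 1 * 1 ^ 2 * (nm a.u * nm a.h) := by ring
      _ ≤ nm (x.FFa a) * (nm (x.g₂ * (a.w * (a.g * i.1))) : ℝ) ^ 2 * (nm a.u * nm a.h) := by
          gcongr
      _ ≤ 2 * x.Y := by linarith
  rw [e]
  refine (div_le_self (by positivity) hE).trans ?_
  calc Nα * ((2 : ℝ) ^ lg a.h * 2 ^ lg a.u) ≤ x.Y * (nm a.h * nm a.u) := by
        have := hx.NαY
        gcongr
    _ = x.Y * (nm a.u * nm a.h) := by ring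
    _ ≤ x.Y * (2 * x.Y) := by gcongr
    _ = _ := by ring

/-- the size of the mesh -/
lemma mesh_le {X K L : ℝ} (hX : 16384 ≤ X) (hK : 1 ≤ K) (hRw : 0 ≤ Rw) (hx : XC x a Nα Rw)
    (hi : i ∈ x.cell a nδ nμ) (hYK : x.Y ≤ X ^ K) (hL : 0 < L)
    (hLN : 8 * (L * Real.exp Rw) < Nbn x Nα (x.vec a nδ nμ)) :
    2048 * (Nbn x Nα (x.vec a nδ nμ) * L / x.Nn (x.vec a nδ nμ)) ≤ X ^ (37 * K) := by
  have hX0 : 0 < X := by linarith
  have hX1 : 1 ≤ X := by linarith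
  have hN := Nn_ge hx hi
  have hNb := Nbn_le hx hi
  have hY := hx.Y1
  have hY0 : 0 < x.Y := by linarith
  have hNb0 : 0 < Nbn x Nα (x.vec a nδ nμ) := by
    have := mul_pos hL (Real.exp_pos Rw)
    linarith
  have h1 : L ≤ Nbn x Nα (x.vec a nδ nμ) := by
    have h2 : (1 : ℝ) ≤ Real.exp Rw := Real.one_le_exp hRw
    have h3 : L * 1 ≤ L * Real.exp Rw := mul_le_mul_of_nonneg_left h2 hL.le
    linarith
  calc 2048 * (Nbn x Nα (x.vec a nδ nμ) * L / x.Nn (x.vec a nδ nμ))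
      ≤ 2048 * ((2 * x.Y ^ 2) * (2 * x.Y ^ 2) / (1 / 2)) := by
        have h4 := h1.trans hNb
        gcongr
    _ = 16384 * x.Y ^ 4 := by ring
    _ ≤ X * (X ^ K) ^ 4 := by gcongr
    _ = X ^ (1 + K * 4) := by
        rw [Real.rpow_add hX0, Real.rpow_one, Real.rpow_mul hX0.le]
        norm_cast
    _ ≤ _ := Real.rpow_le_rpow_of_exponent_le hX1 (by linarith)

end cls

/-- **the R-part of the cells**, with the number `Wf n G L` at the class `n`, the gain `G`, the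
parameter `L` -/
def RXC (x : XF) (ψ : Eis → ℂ) (aS A : ℕ) (c Nα Rw : ℝ) (Wf : (Fin 12 → ℕ) → ℝ → ℝ → ℝ) : Prop :=
  ∀ a : Tu, XC x a Nα Rw → SupB (a.us * a.τ) (x.Sf a.q) → JC (x.FFa a) →
    ∀ (nδ nμ : ℕ) (i : Eis × Eis), i ∈ x.cell a nδ nμ →
    ∀ A₁ : Eis, Squarefree A₁ → A₁ ^ 2 ∣ PP (x.Sf a.q) x.g₁ a.ν (a.us * a.τ) →
    ∀ G L W1 : ℝ, 0 < G → G ≤ (nm A₁ : ℝ) ^ 3 → 0 < L →
      8 * (L * Real.exp Rw) < Nbn x Nα (x.vec a nδ nμ) → Wf (x.vec a nδ nμ) G L ≤ W1 →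
      E3q681.RXk (a.h * a.u) OK3 ψ aS A c (Zc 3 x.Y ^ 3) (Nb0 x a Nα i.1)
        (2048 * (Nbn x Nα (x.vec a nδ nμ) * L / x.Nn (x.vec a nδ nμ)))
        (x.Rr a i) 1 (cb x a i.1) W1

/-- **`RXk` at the cells of class N** -/
theorem rx_cls {h : ℝ → ℝ} {c₀ : ℝ} (hpu : PU h c₀) {d : ℝ} (hd : 0 ≤ d) (hd8 : d ≤ 1 / 8)
    (HR : RCl (fun P : LamN => P.1) h d) (P : LamN) {M' : Eis} {η : Eis → ℂ}
    (hη : HC M' η) (j : ℤ) (hrad : ∀ p : Eis, Prime p → p ∣ M' → p ∣ P.1.n)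
    (hN : ∀ k : Eis, k ≠ 0 →
      NPm (rwP P.1 M' η j).n (rwP P.1 M' η j).ψ (rwP P.1 M' η j).l₂ k)
    {ε : ℝ} (hε : 0 < ε) {K : ℝ} (hK : 1 ≤ K) :
    ∃ M aS A₀ : ℕ, ∀ s : Eis, s ≠ 0 → ∀ cc : ℝ, 0 < cc → ∀ A : ℕ, A₀ ≤ A → 1 < A →
      ∃ X₀ : ℝ, 1 < X₀ ∧ ∀ X : ℝ, X₀ ≤ X → ∀ H : ℝ, 1 ≤ H →
      ∀ (us : Fin 3 → Pq) (β : Fin 3 → Eis), LD X K H us β →
      ∀ u : ℝ, (∃ i, (us i).z ≤ u * Real.log X) →
      ∀ (x : XF) (Nα Rw : ℝ), 0 ≤ Rw → x.α = alb (fun i => pc h (Pt P.1 s (us i))) β →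
      IsC x.c₀ → IsPrim x.e₀ → (nm x.e₀ : ℝ) ≤ X ^ K → x.Y ≤ X ^ K → PrI x.M x.g₁ →
      RXC x (BDh681.ps η j) aS A cc Nα Rw
        (fun n G L => Wb x X H d u (nL X us β) ε (ihw x X Nα L G n) M n) := by
  obtain ⟨M, aS, A₀, -, H1⟩ := rx_glueN hpu hd hd8 HR P hη j hrad hN hε hK
  refine ⟨M, aS, A₀, fun s hs cc hcc A hA hA1 => ?_⟩
  obtain ⟨X₁, hX₁, H2⟩ := H1 s hs cc 3 hcc A hA hA1
  refine ⟨max X₁ 16384, lt_of_lt_of_le hX₁ (le_max_left _ _), ?_⟩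
  intro X hX H hH us β hD u hu x Nα Rw hRw hα hc₀ he₀ he₀K hYK hg₁ a hx hσS hJ nδ nμ i hi A₁ hA₁
    hA₁P G L W1 hG hGA hL hLN hW
  have hXX : X₁ ≤ X := (le_max_left _ _).trans hX
  have hX1 : 1 < X := lt_of_lt_of_le hX₁ hXX
  have h16 : (16384 : ℝ) ≤ X := (le_max_right _ _).trans hX
  have hNb : 0 < Nbn x Nα (x.vec a nδ nμ) := Nbn_pos hx.Nα0 hx.g2.ne_zero _
  have hNn := Nn_ge hx hi
  have hNn0 : 0 < x.Nn (x.vec a nδ nμ) := by linarith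
  obtain ⟨hE1, hE2⟩ := En_le hx hi
  have hν : 0 < 2048 * (Nbn x Nα (x.vec a nδ nμ) * L / x.Nn (x.vec a nδ nμ)) := by positivity
  obtain ⟨p1, p2⟩ := nk_PP hx.S hg₁ hx.ν (hx.hs.hus.mul hx.τ) hσS hJ hx.c0 hA₁ hA₁P
  have e3 : (x.vec a nδ nμ) 3 = lg (PP (x.Sf a.q) x.g₁ a.ν (a.us * a.τ)) := rfl
  have hpos : 0 < 8192 * (Nbn x Nα (x.vec a nδ nμ) * L / x.Nn (x.vec a nδ nμ)) *
      ((2 : ℝ) ^ (x.vec a nδ nμ) 3) ^ 2 / G := by positivity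
  refine H2 X hXX H hH us β hD u hu x a Nα Rw hα hc₀ he₀ he₀K hYK hx nδ nμ i hi _
    (ihw x X Nα L G (x.vec a nδ nμ)) (x.En (x.vec a nδ nμ)) W1 hν
    (mesh_le h16 hK hRw hx hi hYK hL hLN) ?_ (by linarith) hE2 hW
  rw [rpow_ihw hX1 hpos, qg_eq p1, e3]
  calc 2048 * (Nbn x Nα (x.vec a nδ nμ) * L / x.Nn (x.vec a nδ nμ)) *
        nk (PP (x.Sf a.q) x.g₁ a.ν (a.us * a.τ) ^ 2)
      ≤ 2048 * (Nbn x Nα (x.vec a nδ nμ) * L / x.Nn (x.vec a nδ nμ)) *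
        (4 * ((2 : ℝ) ^ lg (PP (x.Sf a.q) x.g₁ a.ν (a.us * a.τ))) ^ 2 / G) := by
        refine mul_le_mul_of_nonneg_left (p2.trans ?_) hν.le
        gcongr
    _ = _ := by ring

end Crest.Agent.R017.XLg347
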