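import Crest.Agent.R017.XLgA_347
import Crest.Agent.R017.E4zk_92

/-!
# Row 17, block C70, leaf E4 (x-side): the cells of a block of class N (helper347)

* `gk` : the gain at a key;  `TF.gain` : the gain divides the conductor
* `Wn` : the numbers of the R-part
* `cells_LT` : **helper92's `Cells` from helper681's `cell_gx` and helper770's `rx_glueN`**
-/

set_option autoImplicit false
set_option linter.unusedVariables false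
set_option maxHeartbeats 400000

noncomputable section

open Complex MeasureTheory Finset
open scoped ComplexConjugate

namespace Crest.Agent.R017.XLg347

open Crest.Agent.R012 Crest.Agent.R012.Eis Crest.Agent.R012.Mob705
open Crest.Agent.R012.LS2 (S mem_S)
open Crest.Agent.R012.Div277 (dvs mem_dvs isPrim_of_mem_dvs dvd_of_mem_dvs nm_le_of_dvd)
open Crest.Agent.R017.CM106 (CS TG FS)
open Crest.Agent.R017.FE47 (PU)
open Crest.Agent.R017.End699 (HC)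
open Crest.Agent.R017.B770 (DPar)
open Crest.Agent.R017.Sup271 (NPm)
open Crest.Agent.R017.Prov71
open Crest.Agent.R017.C70 (CbF JC)
open Crest.Agent.R017.HP842 (Pc pc)
open Crest.Agent.R017.GrB829 (IsC)
open Crest.Agent.R017.E5k54 (alb)
open Crest.Agent.R017.E5B71 (Pt)
open Crest.Agent.R017.TEM792 (LD nL)
open Crest.Agent.R017.E4352 (PrI rd dvd_rd)
open Crest.Agent.R017.E4579 (SupB bpt bco bpt_prim bco_prim bpt_mul_bco bpt_sup bco_cop)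
open Crest.Agent.R017.E4v92 (FF)
open Crest.Agent.R017.E4z92 (OKs Ss mem_Ss)
open Crest.Agent.R017.E4zc92
open Crest.Agent.R017.E4RG858 (fm pow_dvd_iff dvd_iff_mult mult_mul mult_pow mult_eq_zero fac)
open Crest.Agent.R017.Str699 (b3 mult_sqf mult_JC mult_isC mult_self pS_prim ppSet_pp isC_ne)
open Crest.Agent.R017.E4U164 (pS)
open Crest.Agent.R017.E4zf92 (PC)
open Crest.Agent.R017.E4zz92
open Crest.Agent.R017.E4X92
open Crest.Agent.R017.E4zg92 hiding XC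
open Crest.Agent.R017.E4Xb681 (XS AA Nbn cell_gx)
open Crest.Agent.R017.RXn770

/-! ### the gain -/

/-- squarefree from the multiplicities -/
lemma sqf_of_mult {q : Eis} (hq : IsPrim q) (h : ∀ p, IsPP p → multiplicity p q ≤ 1) :
    Squarefree q := by
  rw [squarefree_iff_irreducible_sq_not_dvd_of_ne_zero hq.ne_zero]
  intro p0 hp0 hd
  have h1 : ¬ lam ∣ p0 := fun h' => hq.not_lam_dvd (h'.trans ((dvd_mul_right _ _).trans hd))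
  obtain ⟨p, hp, hpp⟩ := exists_pp_dvd h1 hp0.not_isUnit
  have h3 : p ^ 2 ∣ q := by
    rw [sq]
    exact (mul_dvd_mul hpp hpp).trans hd
  have h4 := (pow_dvd_iff hp.prime hq.ne_zero).mp h3
  have := h p hp
  omega

/-- the gain of a tuple -/
lemma tf_gain {S c₀ g₁ ν σ : Eis} (h : TF S c₀ g₁ ν σ) :
    Squarefree (bco S ν * pS 1 2 S (FF S c₀ g₁ ν σ) * pS 0 2 S (FF S c₀ g₁ ν σ)) ∧
    (bco S ν * pS 1 2 S (FF S c₀ g₁ ν σ) * pS 0 2 S (FF S c₀ g₁ ν σ)) ^ 2 ∣ PP S g₁ ν σ := by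
  set J := FF S c₀ g₁ ν σ with hJ
  have hb := bco_prim h.hS h.hν
  have q0 : ∀ b c, IsPrim (pS b c S J) := fun b c => pS_prim b c S J
  constructor
  · refine sqf_of_mult ((hb.mul (q0 1 2)).mul (q0 0 2)) fun p hp => ?_
    rw [mult_mul hp.prime (mul_ne_zero hb.ne_zero (q0 1 2).ne_zero) (q0 0 2).ne_zero,
      mult_mul hp.prime hb.ne_zero (q0 1 2).ne_zero, mult_pS h.hS.ne_zero hp,
      mult_pS h.hS.ne_zero hp]
    by_cases hd : p ∣ S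
    · rw [mult_bco h.hS h.hν hp hd]
      simp only [hd, true_and, Fin.val_zero, Fin.val_one, Fin.val_two]
      split_ifs <;> omega
    · rw [mult_bco' h.hS h.hν hp hd]
      have := mult_sqf h.hνq h.hν.ne_zero hp.prime
      simp only [hd, false_and, if_false]
      omega
  · rw [h.PPeq, h.A_eq, ← hJ]
    exact ⟨pS 0 1 S J * pS 1 1 S J * bco S g₁, by ring⟩

open Classical in
/-- the cube of the gain at a key -/
def gk (m : Fin 2 → Fin 3 → ℕ) (k : Eis × Eis) : ℝ :=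
  if k = (1, 1) then 1 else ((nm k.2 : ℝ) * 2 ^ m 0 2) ^ 3

lemma gk_eq {m : Fin 2 → Fin 3 → ℕ} {β₀ : Eis} {n : Fin 12 → ℕ} {k : Eis × Eis}
    (h : KRel m β₀ n k) : gk m k = ((nm k.2 : ℝ) * 2 ^ m 0 2) ^ 3 := by
  unfold gk
  split_ifs with hk
  · subst hk
    have h1 : 2 ^ (m 0 1 + 2 * m 0 2) ≤ nm (1 : Eis) := h.d1
    rw [nm_one] at h1
    have h2 : m 0 1 + 2 * m 0 2 = 0 := by
      by_contra h3
      have : 1 < 2 ^ (m 0 1 + 2 * m 0 2) := Nat.one_lt_two_pow h3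
      omega
    have h3 : m 0 2 = 0 := by omega
    show (1 : ℝ) = ((nm (1 : Eis) : ℝ) * 2 ^ m 0 2) ^ 3
    rw [h3, nm_one]
    norm_num
  · rfl

/-- the gain at a key -/
lemma gk_le {m : Fin 2 → Fin 3 → ℕ} {e b p : Eis} (hb : b ≠ 0) (hp : 2 ^ m 0 2 ≤ nm p) :
    0 < gk m (e, b) ∧ gk m (e, b) ≤ (nm (b * p) : ℝ) ^ 3 := by
  have nb : (1 : ℝ) ≤ nm b := by exact_mod_cast nm_pos.2 hb
  have np : ((2 : ℝ) ^ m 0 2) ≤ nm p := by exact_mod_cast hp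
  have n2 : (1 : ℝ) ≤ 2 ^ m 0 2 := one_le_pow₀ (by norm_num)
  have e1 : (nm (b * p) : ℝ) = nm b * nm p := by rw [nm_mul]; push_cast; ring
  have key : (nm b : ℝ) * 2 ^ m 0 2 ≤ nm (b * p) := by
    rw [e1]
    exact mul_le_mul_of_nonneg_left np (by linarith)
  have one : (1 : ℝ) ≤ nm (b * p) := by
    rw [e1]
    exact one_le_mul_of_one_le_of_one_le nb (n2.trans np)
  unfold gk
  split_ifs
  · exact ⟨zero_lt_one, one_le_pow₀ one⟩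
  · exact ⟨pow_pos (mul_pos (by linarith) (by linarith)) 3,
      pow_le_pow_left₀ (mul_nonneg (by linarith) (by linarith)) key 3⟩

/-- the numbers of the R-part -/
def Wn (x : XF) (X H d u N ε Nα : ℝ) (M : ℕ) (m : Fin 2 → Fin 3 → ℕ) (L : (Fin 12 → ℕ) → ℝ)
    (n : Fin 12 → ℕ) (k : Eis × Eis) : ℝ := by
  classical
  exact if 1 ≤ L n then Wb x X H d u N ε (ihw x X Nα (L n) (gk m k) n) M n else 0

lemma Wn_nonneg {x : XF} {X H : ℝ} (hX : 0 ≤ X) (hH : 0 ≤ H) (d u N ε Nα : ℝ) (M : ℕ)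
    (m : Fin 2 → Fin 3 → ℕ) (L : (Fin 12 → ℕ) → ℝ) (n : Fin 12 → ℕ) (k : Eis × Eis) :
    0 ≤ Wn x X H d u N ε Nα M m L n k := by
  unfold Wn
  split_ifs
  · exact Wb_nonneg x hX hH _ _ _ _ _ _ _
  · exact le_rfl

lemma Wn_eq {x : XF} {X H d u N ε Nα : ℝ} {M : ℕ} {m : Fin 2 → Fin 3 → ℕ}
    {L : (Fin 12 → ℕ) → ℝ} {n : Fin 12 → ℕ} {k : Eis × Eis} (h : 1 ≤ L n) :
    Wn x X H d u N ε Nα M m L n k = Wb x X H d u N ε (ihw x X Nα (L n) (gk m k) n) M n := by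
  unfold Wn
  rw [if_pos h]

/-! ### the cells -/

/-- **the cells of a block from the R-part `RXC`** (any class) -/
theorem cells_of_rx {Mη : Eis} {η : Eis → ℂ} (hη : HC Mη η) (j : ℤ) {Rw : ℝ} (hRw : 0 ≤ Rw)
    (aS A : ℕ) (hA : 1 < A) {ε : ℝ} (hε : 0 < ε) :
    ∃ (C c cw : ℝ) (A' : ℕ), 0 ≤ C ∧ 1 ≤ c ∧ 1 ≤ cw ∧ 1 < A' ∧
      ∀ (d : XD) (OO : Finset (Eis × Eis)) (m : Fin 2 → Fin 3 → ℕ) (β₀ s₁ : Eis) (l : ℕ)
        (ξ Nα : ℝ), E4zg92.XC d OO m β₀ → d.x.V = 2 ^ l → d.x.g₀ = E4Bd783.gx η j ξ →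
        d.x.Om = (fun t => ((E5L770.wL l (Real.log t) : ℝ) : ℂ)) → XS d.x Nα Rw →
        (∀ n, IsCoprime n d.x.M → IsCoprime n Mη) → (∀ n, d.x.α n ≠ 0 → IsCoprime n Mη) →
      ∀ (Wf : (Fin 12 → ℕ) → ℝ → ℝ → ℝ) (L : (Fin 12 → ℕ) → ℝ)
        (W1 : (Fin 12 → ℕ) → Eis × Eis → ℝ),
        RXC d.x (BDh681.ps η j) aS A c Nα Rw Wf →
        (∀ n, 0 < L n) → (∀ n k, 0 ≤ W1 n k) →
        (∀ n, 1 ≤ L n → 8 * (L n * Real.exp Rw) < Nbn d.x Nα n) →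
        (∀ n k, 1 ≤ L n → Wf n (gk m k) (L n) ≤ W1 n k) →
      ∀ (bm : Eis × Eis → Eis → ℂ) (Mb Ek : ℝ),
        d.x.HO cw OO (vC d.x d.P d.kk d.κ') bm d.kk d.κ' d.qc Mb Ek →
        Cells d cw OO bm
          (fun i n k => AA d.x (C * d.x.Y ^ ε * (1 + |ξ|) ^ A') Nα (L n) (W1 n k) n i) s₁ := by
  obtain ⟨C, c, cw, A', hC, hc, hcw, hA', H2⟩ := cell_gx hη j hRw aS A hA hε
  refine ⟨C, c, cw, A', hC, hc, hcw, hA', ?_⟩
  intro d OO m β₀ s₁ l ξ Nα hXC hV hg₀ hOm hS hcM hαc Wf L W1 H3 hL hW1 hLN hWb bm Mb Ek HO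
  refine H2 d.x l ξ OO (vC d.x d.P d.kk d.κ') bm d.kk d.κ' d.qc Mb Ek Nα d.Kf L W1
    (ClS d.x d.P s₁) (PsF d.x.F0 s₁) hV hg₀ hOm HO hS hcM hαc hL hW1
    (fun o ho s hs hPs τ hτ g hg h hh hc => dec_of (hd_of hXC.h hXC.ho) ho hc.1) ?_
  intro o ho s' hs' hPs τ hτ g hg h' hh' a ha hCl hx nδ nμ i hi hcz h1L
  refine ⟨hLN _ h1L, ?_⟩
  have e1 : d.x.Sf a.q = o.1 := by rw [ha]; exact (qc_spec hXC.ho ho).2
  have e3 : a.τ = τ := by rw [ha]; rfl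
  have hSo := o1_prim hXC.h hXC.ho ho
  have hσS : SupB (a.us * a.τ) (d.x.Sf a.q) := by
    refine hx.hs.husS.mul ?_
    rw [e1, e3]
    exact ((dvd_rd hSo.ne_zero (isPrim_of_mem_dvs hτ)).mp (dvd_of_mem_dvs hτ)).2
  obtain ⟨⟨hdec, hPC, hJ⟩, -⟩ := hCl
  -- the gain
  obtain ⟨A₁, q1, q2, q3, q4⟩ : ∃ A₁ : Eis, Squarefree A₁ ∧
      A₁ ^ 2 ∣ PP (d.x.Sf a.q) d.x.g₁ a.ν (a.us * a.τ) ∧ 0 < gk m (d.x.ky d.Kf a nδ nμ) ∧
      gk m (d.x.ky d.Kf a nδ nμ) ≤ (nm A₁ : ℝ) ^ 3 := by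
    by_cases hT : TF (d.sf a.q) d.c₀ d.g₁ a.ν (a.us * a.τ)
    · obtain ⟨t1, t2⟩ := tf_gain hT
      have ek : d.x.ky d.Kf a nδ nμ = (pS 0 1 (d.sf a.q) (FF (d.sf a.q) d.c₀ d.g₁ a.ν
          (a.us * a.τ)) * pS 0 2 (d.sf a.q) (FF (d.sf a.q) d.c₀ d.g₁ a.ν (a.us * a.τ)) ^ 2,
          bco (d.sf a.q) a.ν * pS 1 2 (d.sf a.q) (FF (d.sf a.q) d.c₀ d.g₁ a.ν (a.us * a.τ))) := by
        unfold XF.ky XD.Kf
        rw [if_pos hT]
      have q0 : ∀ b c, IsPrim (pS b c (d.sf a.q) (FF (d.sf a.q) d.c₀ d.g₁ a.ν (a.us * a.τ))) :=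
        fun b c => pS_prim b c _ _
      have hco := bco_prim hT.hS hT.hν
      have h3 : PC m (d.sf a.q) (FF (d.sf a.q) d.c₀ d.g₁ a.ν (a.us * a.τ)) := by
        have h4 := hPC
        rw [hXC.P] at h4
        exact h4
      obtain ⟨g1, g2⟩ := gk_le (m := m)
        (e := pS 0 1 (d.sf a.q) (FF (d.sf a.q) d.c₀ d.g₁ a.ν (a.us * a.τ)) *
          pS 0 2 (d.sf a.q) (FF (d.sf a.q) d.c₀ d.g₁ a.ν (a.us * a.τ)) ^ 2)
        (hco.mul (q0 1 2)).ne_zero (h3 0 2).1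
      rw [ek]
      exact ⟨_, t1, t2, g1, g2⟩
    · have ek : d.x.ky d.Kf a nδ nμ = (1, 1) := by
        unfold XF.ky XD.Kf
        rw [if_neg hT]
      refine ⟨1, squarefree_one, by rw [one_pow]; exact one_dvd _, ?_, ?_⟩
      · rw [ek]
        unfold gk
        rw [if_pos rfl]
        exact zero_lt_one
      · rw [ek]
        unfold gk
        rw [if_pos rfl, nm_one]
        norm_num
  exact H3 a hx hσS hJ nδ nμ i hi A₁ q1 q2 _ _ _ q3 q4 (hL _) (hLN _ h1L) (hWb _ _ h1L)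

/-- the sizes of `e₀` -/
lemma e0_le {d : XD} (h : d.OK) : (nm d.x.e₀ : ℝ) ≤ d.x.Y := by
  refine le_trans ?_ h.FY
  exact_mod_cast nm_le_of_dvd (F0_ne h) ⟨d.g * d.t, by
    show d.g * d.e₀ * d.t = d.e₀ * (d.g * d.t)
    ring⟩

/-- **the cells of a block of class N** -/
theorem cells_LT {h : ℝ → ℝ} {c₀ : ℝ} (hpu : PU h c₀) {d₀ : ℝ} (hd : 0 ≤ d₀) (hd8 : d₀ ≤ 1 / 8)
    (HR : RCl (fun P : LamN => P.1) h d₀) (P : LamN) {M' : Eis} {η : Eis → ℂ}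
    (hη : HC M' η) (j : ℤ) (hrad : ∀ p : Eis, Prime p → p ∣ M' → p ∣ P.1.n)
    (hN : ∀ k : Eis, k ≠ 0 →
      NPm (rwP P.1 M' η j).n (rwP P.1 M' η j).ψ (rwP P.1 M' η j).l₂ k)
    {ε : ℝ} (hε : 0 < ε) {K : ℝ} (hK : 1 ≤ K) {Rw : ℝ} (hRw : 0 ≤ Rw) :
    ∃ (M : ℕ) (C cw : ℝ) (A' : ℕ), 0 ≤ C ∧ 1 ≤ cw ∧ 1 < A' ∧ ∀ s : Eis, s ≠ 0 →
      ∃ X₀ : ℝ, 1 < X₀ ∧ ∀ X : ℝ, X₀ ≤ X → ∀ H : ℝ, 1 ≤ H →
      ∀ (us : Fin 3 → Pq) (β : Fin 3 → Eis), LD X K H us β →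
      ∀ u : ℝ, (∃ i, (us i).z ≤ u * Real.log X) →
      ∀ (d : XD) (OO : Finset (Eis × Eis)) (m : Fin 2 → Fin 3 → ℕ) (β₀ s₁ : Eis) (l : ℕ)
        (ξ Nα : ℝ), E4zg92.XC d OO m β₀ → d.x.V = 2 ^ l → d.x.g₀ = E4Bd783.gx η j ξ →
        d.x.Om = (fun t => ((E5L770.wL l (Real.log t) : ℝ) : ℂ)) → XS d.x Nα Rw →
        (∀ n, IsCoprime n d.x.M → IsCoprime n M') → (∀ n, d.x.α n ≠ 0 → IsCoprime n M') →
        d.x.α = alb (fun i => pc h (Pt P.1 s (us i))) β → d.x.Y ≤ X ^ K →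
      ∀ (L : (Fin 12 → ℕ) → ℝ) (W1 : (Fin 12 → ℕ) → Eis × Eis → ℝ),
        (∀ n, 0 < L n) → (∀ n k, 0 ≤ W1 n k) →
        (∀ n, 1 ≤ L n → 8 * (L n * Real.exp Rw) < Nbn d.x Nα n) →
        (∀ n k, 1 ≤ L n →
          Wb d.x X H d₀ u (nL X us β) ε (ihw d.x X Nα (L n) (gk m k) n) M n ≤ W1 n k) →
      ∀ (bm : Eis × Eis → Eis → ℂ) (Mb Ek : ℝ),
        d.x.HO cw OO (vC d.x d.P d.kk d.κ') bm d.kk d.κ' d.qc Mb Ek →
        Cells d cw OO bm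
          (fun i n k => AA d.x (C * d.x.Y ^ ε * (1 + |ξ|) ^ A') Nα (L n) (W1 n k) n i) s₁ := by
  obtain ⟨M, aS, A₀, H1⟩ := rx_cls hpu hd hd8 HR P hη j hrad hN hε hK
  have hA1 : 1 < max A₀ 2 := lt_of_lt_of_le (by norm_num) (le_max_right _ _)
  obtain ⟨C, c, cw, A', hC, hc, hcw, hA', H2⟩ := cells_of_rx hη j hRw aS (max A₀ 2) hA1 hε
  refine ⟨M, C, cw, A', hC, hcw, hA', fun s hs => ?_⟩
  obtain ⟨X₀, hX₀, H3⟩ := H1 s hs c (by linarith) (max A₀ 2) (le_max_left _ _) hA1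
  refine ⟨X₀, hX₀, ?_⟩
  intro X hX H hH us β hD u hu d OO m β₀ s₁ l ξ Nα hXC hV hg₀ hOm hS hcM hαc hα hYK L W1 hL hW1
    hLN hWb bm Mb Ek HO
  exact H2 d OO m β₀ s₁ l ξ Nα hXC hV hg₀ hOm hS hcM hαc _ L W1
    (H3 X hX H hH us β hD u hu d.x Nα Rw hRw hα hXC.h.c₀ hXC.h.e₀ ((e0_le hXC.h).trans hYK) hYK
      hXC.h.g₁) hL hW1 hLN hWb bm Mb Ek HO

end Crest.Agent.R017.XLg347
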