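import Crest.Agent.R017.XLgC_347
import Crest.Agent.R017.XLgL_347
import Crest.Agent.R017.E4Uz_512
import Crest.Agent.R017.P1DomS_918
import Crest.Agent.R017.XVNc_792

/-!
# Row 17, block C70, leaf E4 (x-side), class E: the data of one frame (helper347)

* **`tw_exc`** : in class E every dual twist is a cubic symbol (the twisted parameter is exceptional)
* `ldX_of` : `LD` of the three lumps and of the replaced ones, the sizes of `x`
* `svX_of` : `Sv`, the length of the difference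
-/

set_option autoImplicit false
set_option linter.unusedVariables false
set_option linter.unusedSectionVars false

noncomputable section

open Complex Finset
open scoped ComplexConjugate

namespace Crest.Agent.R017.XLgX347

open Crest.Agent.R012 Crest.Agent.R012.Eis
open Crest.Agent.R012.LS2 (S mem_S)
open Crest.Agent.R017.Sx545 (Sm)
open Crest.Agent.R017.CM106 (CS FS)
open Crest.Agent.R017.FE47 (PU SM cx)
open Crest.Agent.R017.XT71 (Sys Win mx le_mx)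
open Crest.Agent.R017.XG702 (Pcs)
open Crest.Agent.R017.End699 (HC hc_sy prin0)
open Crest.Agent.R017.Prov71
open Crest.Agent.R017.B770
open Crest.Agent.R017.E1551 (Adm)
open Crest.Agent.R017.E5B71
open Crest.Agent.R017.E5L770
open Crest.Agent.R017.E5LX770 (SqLX)
open Crest.Agent.R017.E4U164
open Crest.Agent.R017.E4Us512
open Crest.Agent.R017.E5k54 (alb)
open Crest.Agent.R017.TEM792 (nL LD)
open Crest.Agent.R017.TEX792 (Sv)
open Crest.Agent.R017.VFa436 (T3_spec)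
open Crest.Agent.R017.ExP960 (BdX S5X IX5 prX prQ u3 u3' stz ZR liftD)
open Crest.Agent.R017.E4Df372
open Crest.Agent.R017.Red848 (red Sh Exc exists_sh red_ok)
open Crest.Agent.R017.YsU61 (TwOK)

/-! ### the twists -/

/-- **in class E every dual twist is a cubic symbol** -/
theorem tw_exc {P : DPar} (hP : P.OK) (hE : Exc P) (hD : ¬ P.CaseD) {t : (Eis → ℂ) × ℤ}
    (ht : TwOK P t) : t.2 = 0 ∧ ∃ κ₀ ∈ SM P.n₃, ∀ b, Sm P.n₃ b → t.1 b = sy κ₀ b := by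
  obtain ⟨k₀, hk⟩ := exists_sh hP.ψ hE
  have h3 : P.l₃ = 0 := by
    rcases hP.cases with h | h | h | h
    · exact h.2.1
    · exact absurd hk.l₂ h.l₂ne
    · exact h.2.2.1
    · exact absurd h hD
  rcases ht with rfl | ⟨-, hl, -⟩
  · refine ⟨rfl, 1, ⟨one_ne_zero, fun p hp h1 => absurd (isUnit_of_dvd_one h1) hp.not_isUnit⟩,
      fun b hb => ?_⟩
    show prin0 P.n₃ b = sy 1 b
    rw [GaussLoc283.syAx.one_left hb.1]
    unfold prin0
    rw [if_pos hb.2]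
  · obtain ⟨h4, s, hs, he⟩ := hl (by rw [h3, neg_zero])
    exact ⟨h4, s, hs, he⟩

/-- the twist as a cubic symbol -/
lemma gx_exc {n : Eis} {t : (Eis → ℂ) × ℤ} {κ₀ : Eis} (h0 : t.2 = 0)
    (h : ∀ b, Sm n b → t.1 b = sy κ₀ b) (ξ : ℝ) {y : Eis} (hy : Sm n y) :
    E4Bd783.gx (fun b => sy κ₀ b) 0 ξ y = E4Bd783.gx t.1 t.2 ξ y := by
  unfold E4Bd783.gx End699.tw
  rw [h0, h y hy]

/-- the primes of the modulus -/
lemma rad_exc {P : DPar} (hP : P.OK) {κ₀ : Eis} (h : κ₀ ∈ SM P.n₃) :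
    ∀ p : Eis, Prime p → p ∣ 9 * κ₀ → p ∣ P.n₃ := by
  intro p hp hd
  rcases hp.dvd_or_dvd hd with h1 | h1
  · refine (hP.rad p hp).2 (h1.trans (dvd_trans ?_ hP.n36))
    exact ⟨4, by norm_num⟩
  · exact h.2 p hp h1

/-! ### the sizes -/

/-- the data of the three lumps, natural and replaced : `LD` at `K`, `H = X ^ δ'` -/
theorem ldX_of {A : ℝ} (hA : 2 / 3 ≤ A) (d bb e0 r : ℝ) (N : ℕ) (B : ℝ) :
    ∃ K X₀ : ℝ, 1 ≤ K ∧ 1 < X₀ ∧ ∀ X : ℝ, X₀ ≤ X → ∀ δ δ' : ℝ, δ ≤ 1 / 2 →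
      ∀ (a : BdX × ℕ) (ps : List Pq) (q : (Option IX5 → ℝ) × (Kd → ℝ)),
      FrLX A d bb δ δ' B X N a ps q → a.1.ok → ∀ P : DPar, a.1.okP P →
      ∀ (Bf : ℝ → ℝ → ℝ → ℝ) (ε X' : ℝ) (x : Dt), x.OK P Bf e0 r ε X' a.1.toBd →
        LD X K (X ^ δ') (u3 a.1) x.β ∧ LD X K (X ^ δ') (u3' a.1) x.β ∧ IsPrim x.e₀ ∧
        (nm x.e₀ : ℝ) ≤ X ^ K ∧ (nm (∏ i, x.β i) : ℝ) ≤ X ^ K ∧ IsPrim (∏ i, x.β i) := by
  obtain ⟨B₁, hB₁, hBB⟩ : ∃ B₁ : ℝ, 4 ≤ B₁ ∧ B ≤ B₁ := ⟨max B 4, le_max_right _ _, le_max_left _ _⟩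
  have hB0 : 0 ≤ B₁ := by linarith
  have he0B : 0 ≤ |e0| * B₁ := mul_nonneg (abs_nonneg e0) hB0
  obtain ⟨B', hB'⟩ : ∃ B' : ℝ, B' = 1 + B₁ + |e0| * B₁ := ⟨_, rfl⟩
  have hB'1 : 1 ≤ B' := by rw [hB']; linarith
  have hB'2 : B₁ ≤ B' := by rw [hB']; linarith
  have hB'3 : |e0| * B₁ ≤ B' := by rw [hB']; linarith
  have her := Real.exp_pos r
  refine ⟨12 * B' + 1, 100 + Real.exp r, by linarith, by linarith, ?_⟩
  intro X hX δ δ' hδ a ps q hF ha P haP Bf ε X' x hx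
  have hX100 : 100 ≤ X := by linarith
  have hX1' : 1 < X := by linarith
  have hX1 : 1 ≤ X := by linarith
  have hX0 : 0 < X := by linarith
  have hlog : 0 < Real.log X := Real.log_pos hX1'
  have hFX := fr_of_frLX hA hδ hX1' hF ha haP hBB hB₁
  have hFr := hFX.fr
  have HY := hFr.toY (e0 := e0) (r := r) hX100 (by linarith) hB'1 hB'2 hB'3
  have hmono : ∀ {y : ℝ}, y ≤ 12 * B' + 1 → X ^ y ≤ X ^ (12 * B' + 1) := fun h =>
    Real.rpow_le_rpow_of_exponent_le hX1 h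
  have hs1 : max (1 + |a.1.τ|) (mx Dq.s1 (List.ofFn a.1.us)) ≤ X ^ δ' := hF.win.s₁
  have hs2 : max (nm a.1.d₃ : ℝ) (mx Dq.s2 (List.ofFn a.1.us)) ≤ X ^ B := hF.win.s₂
  have hmem : ∀ j, a.1.us j ∈ List.ofFn a.1.us := fun j => by
    rw [List.mem_ofFn]; exact ⟨j, rfl⟩
  have hzu : ∀ j, (a.1.us j).z ≤ (12 * B' + 1) * Real.log X := fun j =>
    (hFr.u j).trans (mul_le_mul_of_nonneg_right (by linarith) hlog.le)
  have hzs : ∀ i, a.1.zs i ≤ (12 * B' + 1) * Real.log X := fun i =>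
    (hFX.zs i).trans (mul_le_mul_of_nonneg_right (by linarith) hlog.le)
  have hdu : ∀ j, (nm (a.1.us j).d : ℝ) ≤ X ^ (12 * B' + 1) := fun j =>
    (le_mx (f := Dq.s2) (hmem j)).trans ((le_max_right _ _).trans (hs2.trans
      (hmono (by linarith))))
  have htu : ∀ j, 1 + |(a.1.us j).t| ≤ X ^ δ' := fun j =>
    (le_mx (f := Dq.s1) (hmem j)).trans ((le_max_right _ _).trans hs1)
  have hb := T3_spec hx.β
  have he₀ := (mem_S (Real.exp_pos _).le).mp hx.e₀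
  have hY4 : ∀ i, (nm (x.β i) : ℝ) ≤ (X ^ B') ^ 4 := fun i => by
    refine le_trans ?_ (Y3_le HY)
    exact_mod_cast (mem_primBall.mp (mem_PT (SSb54.mem_PTb.mp hx.β).1 i)).1
  have e4 : (X ^ B') ^ 4 = X ^ (4 * B') := by
    rw [← Real.rpow_natCast, ← Real.rpow_mul hX0.le]
    congr 1
    push_cast
    ring
  have e12 : (X ^ B') ^ 12 = X ^ (12 * B') := by
    rw [← Real.rpow_natCast, ← Real.rpow_mul hX0.le]
    congr 1
    push_cast
    ring
  have hβK : ∀ i, (nm (x.β i) : ℝ) ≤ X ^ (12 * B' + 1) := fun i => by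
    refine (hY4 i).trans ?_
    rw [e4]
    exact hmono (by linarith)
  have hl := ha.base.1
  refine ⟨⟨?_, ?_, ?_, ?_, ?_, hb.1, hβK⟩, ⟨?_, ?_, ?_, ?_, ?_, hb.1, hβK⟩, he₀.2.1, ?_, ?_,
    T3_prim _ hx.β⟩
  · intro i
    fin_cases i
    exacts [(hl 2).1, (hl 3).1, (hl 4).1]
  · intro i
    fin_cases i
    exacts [(hl 2).2, (hl 3).2, (hl 4).2]
  · intro i
    fin_cases i
    exacts [hzu 2, hzu 3, hzu 4]
  · intro i
    fin_cases i
    exacts [hdu 2, hdu 3, hdu 4]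
  · intro i
    fin_cases i
    exacts [htu 2, htu 3, htu 4]
  · intro i
    fin_cases i
    exacts [(hl 2).1, (hl 3).1, (hl 4).1]
  · intro i
    fin_cases i
    exacts [ha.z0 2, ha.z0 3, (hl 4).2]
  · intro i
    fin_cases i
    exacts [hzs 2, hzs 3, hzu 4]
  · intro i
    fin_cases i
    exacts [hdu 2, hdu 3, hdu 4]
  · intro i
    fin_cases i
    exacts [htu 2, htu 3, htu 4]
  · exact (he₀.1.trans HY.e0l).trans (hmono (by linarith))
  · refine (nm_beta_le HY hx.β).trans ?_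
    rw [e12]
    exact hmono (by linarith)

/-- the last lump is in both lists -/
theorem botX {A d bb δ δ' B X : ℝ} {N : ℕ} {a : BdX × ℕ} {ps : List Pq}
    {q : (Option IX5 → ℝ) × (Kd → ℝ)} (hX : 1 < X) (H : FrLX A d bb δ δ' B X N a ps q) :
    (∃ i, (u3 a.1 i).z ≤ (cu (prX (dn q.1)) 4 + δ) * Real.log X) ∧
      ∃ i, (u3' a.1 i).z ≤ (cu (prX (dn q.1)) 4 + δ) * Real.log X := by
  have e2 : |(a.1.us 4).z / Real.log X - cu (prX (dn q.1)) 4| ≤ δ :=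
    H.win.ev (some (.inl (.inr 4)))
  have h := (abs_le.1 e2).2
  have hl := Real.log_pos hX
  have h1 : (a.1.us 4).z ≤ (cu (prX (dn q.1)) 4 + δ) * Real.log X := by
    rw [← div_le_iff₀ hl]
    linarith
  exact ⟨⟨2, h1⟩, 2, h1⟩

/-- **the length of the difference** -/
theorem svX_of {A d bb δ δ' B X : ℝ} (hd : 0 ≤ d) (hd8 : d ≤ 1 / 8) (hA1 : 16 * (1 - A) ≤ d)
    (hbb : bb ≤ 17 / 100) {N : ℕ} {a : BdX × ℕ} {ps : List Pq}
    {q : (Option IX5 → ℝ) × (Kd → ℝ)} (hX : 1 < X) (H : FrLX A d bb δ δ' B X N a ps q)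
    (ha : a.1.ok) {β : Fin 3 → Eis} (hb : ∀ i, IsPrim (β i)) :
    Sv X (bb * cκ (prX (dn q.1)) - 3 * δ - Real.log (nm (∏ i, β i)) / Real.log X) a.1 β := by
  have hL : 0 < Real.log X := Real.log_pos hX
  have hdom := H.dom
  unfold SqLX DomL at hdom
  obtain ⟨hq, -, hq2⟩ := hdom
  have hw : Sq5 A d (prX (dn q.1)) q.2 := hq.1
  have hZR : ZR bb (dn q.1) := hq.2
  have hκ := hw.κpos
  have NB := hw.nab hd hd8 hA1
  obtain ⟨f1, f2, f3, f4⟩ := NB.facts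
  rw [cN_div] at f3 f4
  obtain ⟨a1, a2, a3, a4⟩ := hw.anti
  rw [div_le_iff₀ hκ] at f3 f2
  rw [le_div_iff₀ hκ] at f4 f1
  have k0 := hw.κ0
  have k1 := hw.κ1
  have k31 := hw.κ31
  have hn1 : ∀ i, (1 : ℝ) ≤ nm (β i) := fun i => by exact_mod_cast nm_pos.2 (hb i).ne_zero
  have hl : ∀ i, 0 ≤ Real.log (nm (β i)) := fun i => Real.log_nonneg (hn1 i)
  have e : Real.log (nm (∏ i, β i)) =
      Real.log (nm (β 0)) + Real.log (nm (β 1)) + Real.log (nm (β 2)) := by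
    rw [VFa436.nm_prodF, Fin.prod_univ_three]
    push_cast
    have g0 := hn1 0
    have g1 := hn1 1
    have g2 := hn1 2
    rw [Real.log_mul (by positivity) (by positivity), Real.log_mul (by positivity) (by positivity)]
  have e' : (bb * cκ (prX (dn q.1)) - 3 * δ - Real.log (nm (∏ i, β i)) / Real.log X) *
      Real.log X = (bb * cκ (prX (dn q.1)) - 3 * δ) * Real.log X -
        Real.log (nm (∏ i, β i)) := by
    field_simp
  have hδ0 : 0 ≤ δ := (abs_nonneg _).trans (H.win.ev none)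
  have b2 : |(a.1.us 2).z / Real.log X - cu (prX (dn q.1)) 2| ≤ δ :=
    H.win.ev (some (.inl (.inr 2)))
  have b3 : |(a.1.us 3).z / Real.log X - cu (prX (dn q.1)) 3| ≤ δ :=
    H.win.ev (some (.inl (.inr 3)))
  have b4 : |a.1.zs 2 / Real.log X - (dn q.1) (.inr 1)| ≤ δ := H.win.ev (some (.inr 1))
  obtain ⟨b2l, b2r⟩ := abs_le.1 b2
  obtain ⟨b3l, b3r⟩ := abs_le.1 b3
  obtain ⟨b4l, b4r⟩ := abs_le.1 b4
  obtain ⟨z1, z2⟩ := hZR 1
  have eN : cN (prX (dn q.1)) = cu (prX (dn q.1)) 2 + cu (prX (dn q.1)) 3 +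
    cu (prX (dn q.1)) 4 := rfl
  have hbκ : bb * cκ (prX (dn q.1)) ≤ 17 / 100 * cκ (prX (dn q.1)) :=
    mul_le_mul_of_nonneg_right hbb hκ.le
  have z23 := ha.s23
  have z3' : a.1.zs 3 / Real.log X = (a.1.us 2).z / Real.log X + (a.1.us 3).z / Real.log X -
      a.1.zs 2 / Real.log X := by
    rw [← add_div, ← z23, ← sub_div]
    congr 1
    ring
  have key : ∀ y : ℝ, bb * cκ (prX (dn q.1)) - 3 * δ ≤ y / Real.log X →
      (bb * cκ (prX (dn q.1)) - 3 * δ) * Real.log X ≤ y := fun y hy => by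
    rwa [le_div_iff₀ hL] at hy
  have u2 : bb * cκ (prX (dn q.1)) - 3 * δ ≤ (a.1.us 2).z / Real.log X := by
    linarith
  have u3 : bb * cκ (prX (dn q.1)) - 3 * δ ≤ (a.1.us 3).z / Real.log X := by
    linarith
  have v2 : bb * cκ (prX (dn q.1)) - 3 * δ ≤ a.1.zs 2 / Real.log X := by
    linarith
  have v3 : bb * cκ (prX (dn q.1)) - 3 * δ ≤ a.1.zs 3 / Real.log X := by
    rw [z3']
    linarith
  have k2 := key _ u2
  have k3 := key _ u3
  have m2 := key _ v2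
  have m3 := key _ v3
  exact ⟨by rw [e', e]; linarith [hl 1, hl 2], by rw [e', e]; linarith [hl 0, hl 2],
    by rw [e', e]; linarith [hl 1, hl 2], by rw [e', e]; linarith [hl 0, hl 2]⟩

end Crest.Agent.R017.XLgX347
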