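import Crest.Agent.R017.XLi_92

/-!
# Row 17, E4 (x-side, structured), class E: the numbers of the classes (helper92)

* `Line8.shift`, `phi_clsE`
* `phis_LTE` : `phis_LT` with the cube class of the R-part (two numbers `W1`, `Wc` and their
  effective number `We`)
-/

set_option autoImplicit false
set_option maxHeartbeats 2000000

noncomputable section

namespace Crest.Agent.R017.XL842

open Crest.Agent.R012 Crest.Agent.R012.Eis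
open Crest.Agent.R017.E4R70
open Crest.Agent.R017.E4zc92
open Crest.Agent.R017.E4X92
open Crest.Agent.R017.E4zg92
open Crest.Agent.R017.PX764 (th)
open Crest.Agent.R017.E4Xb681 (AA Kc Nbn mn qn)
open Crest.Agent.R017.Mode405 (nk)

section

variable {X κ₀ τ N mx Nα Bm Bo Bo' cw E_ : ℝ} {z' : Cls} {m : Fin 2 → Fin 3 → ℕ} {β₀ s₁ : Eis}
  {d : XD}

lemma Line8.shift {k k' v1 n R1 R2 lq y1 y2 T0 sR x ex lt τ : ℝ} (hk : |k - k'| ≤ τ)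
    (H : Line8 k' v1 n R1 R2 lq y1 y2 T0 sR x ex lt) :
    Line8 k v1 n R1 R2 lq y1 y2 T0 sR x (ex + τ) lt := by
  have h := abs_le.mp hk
  unfold Line8 at H ⊢
  linarith

/-- **one class**, class E -/
lemma phi_clsE {lt T0 δ₀ u' f g ex L W1 Wc We S0 sR : ℝ} {W0 : Prop} (hX : 1 < X)
    (H : BSz X κ₀ τ z' N mx m (lg d.g₁) (lg (rrk 1 d.Pr)) (lg (rrk 2 d.Pr)) (lg s₁) Bo Bo' d.V
      d.κ Nα Bm (nk (d.b ^ 2) * nm d.D) (nm d.c₀) (nm d.g₁) (nm d.g₂))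
    (hd : d.OK) (hNα : 0 < Nα) (hE : 0 ≤ E_) (hth : ‖th d.c₀‖ ≤ X ^ τ)
    (hd0 : 0 ≤ δ₀) (hd8 : δ₀ ≤ 1 / 8)
    (HL : Lines δ₀ (κ₀ * z'.k) (κ₀ * z'.v1) (lx X Nα) 0 (κ₀ * z'.R1) (κ₀ * z'.R2) u'
      (κ₀ * z'.lqt) (κ₀ * (z'.Y0 + z'.Y1)) (κ₀ * (z'.c02 + z'.c12 + z'.nu)) T0
      (κ₀ * (z'.c12 + z'.s1)) f g mx ex lt W0)
    (c8 : Line8 (κ₀ * z'.k) (κ₀ * z'.v1) (lx X Nα) (κ₀ * z'.R1) (κ₀ * z'.R2) (κ₀ * z'.lqt)
      (κ₀ * (z'.Y0 + z'.Y1)) (κ₀ * (z'.c02 + z'.c12 + z'.nu)) T0 sR mx ex lt) (hfg : f ≤ g)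
    (hS0 : sR ≤ max 0 (S0 - κ₀ * z'.R2) + τ)
    {n : Fin 12 → ℕ} {k : Eis × Eis} {nus nR nU : ℕ}
    (R : Rel m (lg d.g₁) (lg (rrk 1 d.Pr)) (lg (rrk 2 d.Pr)) (lg s₁) n nus nR nU)
    (K : KRel m β₀ n k) (hBm : (2 : ℝ) ^ (n 8 + n 9 + n 11) ≤ Bm)
    (hBo : (2 : ℝ) ^ (n 0 + n 1) ≤ Bo) (hBo' : Bo' ≤ (2 : ℝ) ^ (n 0 + n 1 + 2))
    (hL : L = Ls X lt (lg (rrk 1 d.Pr)) (lg (rrk 2 d.Pr)) n)
    (hW0 : 0 ≤ W1) (hWz : W0 → W1 = 0) (hWz' : ¬ 1 ≤ L → W1 = 0)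
    (hW : 1 ≤ L → W1 ≤ X ^ (rr3 δ₀ (lx X (8192 * (Nbn d.x Nα n * L / d.x.Nn n) * (2 ^ n 3) ^ 2 /
        ((nm k.2 : ℝ) * 2 ^ m 0 2) ^ 3)) (lx X Nα - lx X (d.x.En n)) u' -
      (lx X Nα - lx X (d.x.En n)) / 3 + τ))
    (hC0 : 0 ≤ Wc) (hCz : ¬ 1 ≤ L → Wc = 0)
    (hWc : 1 ≤ L → Wc ≤ X ^ (lx X (8192 * (Nbn d.x Nα n * L / d.x.Nn n) * (2 ^ n 3) ^ 2 /
        ((nm k.2 : ℝ) * 2 ^ m 0 2) ^ 3) / 3 + 5 / 3 * (lx X Nα - lx X (d.x.En n)) -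
      max 0 (S0 - lx X (d.x.En n)) + τ))
    (hWe : (Real.sqrt L + Real.sqrt (L * d.x.Nn n / Nbn d.x Nα n)) * We ≤
      (Real.sqrt L + Real.sqrt (L * d.x.Nn n / Nbn d.x Nα n)) * W1 +
        L ^ (1 / 3 : ℝ) * (d.x.Nn n / Nbn d.x Nα n) ^ (2 / 3 : ℝ) * Wc)
    {TD T1 T2 M : ℝ} (hTD0 : 0 ≤ TD) (hT10 : 0 ≤ T1) (hT20 : 0 ≤ T2)
    (hTD : TD ≤ X ^ (T0 - 2 / 3 * lx X (d.x.En n) - lx X Nα / 3 + 20 * τ))
    (hT1 : T1 ≤ X ^ (T0 + f - 2 / 3 * lx X (d.x.En n) - lx X Nα / 3 + 20 * τ))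
    (hT2 : T2 ≤ X ^ (T0 + g - 2 / 3 * lx X (d.x.En n) - lx X Nα / 3 + 20 * τ))
    (hM : M ≤ AA d.x E_ Nα L We n 0 * TD + AA d.x E_ Nα L We n 1 * T1 +
      AA d.x E_ Nα L We n 2 * T2 +
        nm k.2 * (AA d.x E_ Nα L We n 3 * (d.x.En n * (d.x.Jn n / nm (Ak k))))) :
    d.κ * (1 * 1 * ‖th d.c₀‖ ^ 2 * d.V ^ (-(1 / 3) : ℝ) * d.x.Base n * M) ≤
      E_ * X ^ (κ₀ * (z'.k + 2 * z'.lam) + (T0 - κ₀ * (z'.v + z'.us) / 3 -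
        κ₀ * (N - z'.β) / 3) + ex - mx + 50000 * τ) := by
  have hX0 : 0 < X := by linarith
  have hτ := H.τ0
  have hc := lx2_pos hX
  have up : ∀ a b : ℝ, a ≤ b → X ^ a ≤ X ^ b := fun a b h =>
    Real.rpow_le_rpow_of_exponent_le hX.le h
  have pc0 : (0 : ℝ) < nm d.c₀ := by exact_mod_cast nm_pos.mpr (Str699.isC_ne hd.c₀)
  have pg1 : (0 : ℝ) < nm d.g₁ := by exact_mod_cast nm_pos.mpr hd.g₁.1.ne_zero
  have pg2 : (0 : ℝ) < nm d.g₂ := by exact_mod_cast nm_pos.mpr hd.g₂.1.ne_zero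
  have pD : (0 : ℝ) < nm d.D := by exact_mod_cast nm_pos.mpr hd.D.ne_zero
  have pb : (0 : ℝ) < nk (d.b ^ 2) :=
    lt_of_lt_of_le one_pos (Mode405.nk_ge_one (pow_ne_zero _ hd.b.ne_zero))
  have pk2 : (0 : ℝ) < nm k.2 := by exact_mod_cast nm_pos.mpr K.p2.ne_zero
  have pk1 : (0 : ℝ) < nm k.1 := by exact_mod_cast nm_pos.mpr K.p1.ne_zero
  have pV := hd.V0
  have pκ := hd.κ0
  have pE : 0 < d.x.En n := by
    show (0 : ℝ) < nm d.g₂ * (2 ^ n 7 * (2 ^ n 8 * 2 ^ n 10)); positivity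
  have pJ : 0 < d.x.Jn n := by unfold XF.Jn; positivity
  have pN : 0 < d.x.Nn n := by
    show 0 < d.V / (nm d.c₀ * d.x.Jn n * d.x.En n ^ 2); positivity
  have pNb : 0 < Nbn d.x Nα n := by unfold Nbn; positivity
  have pL : 0 < L := by rw [hL]; exact Ls_pos hX0 _ _ _
  have pq : 0 < qn d.x n := by
    show (0 : ℝ) < ((nm d.c₀ : ℝ) * nm d.g₁) ^ 2 * nk (d.b ^ 2) * (nm (1 : Eis) * nm d.D) *
      ((2 : ℝ) ^ n 5) ^ 2 * 2 ^ n 4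
    rw [nm_one]
    positivity
  have hq : lx X (qn d.x n) ≤ 2 * (n 5 * lx X 2) + n 4 * lx X 2 +
      lx X (nk (d.b ^ 2) * nm d.D) + 4 * τ := by
    have e : qn d.x n = (((nm d.c₀ : ℝ) * nm d.g₁) ^ 2 * (nk (d.b ^ 2) * nm d.D)) *
        (((2 : ℝ) ^ n 5) ^ 2 * 2 ^ n 4) := by
      show ((nm d.c₀ : ℝ) * nm d.g₁) ^ 2 * nk (d.b ^ 2) * (nm (1 : Eis) * nm d.D) *
        ((2 : ℝ) ^ n 5) ^ 2 * 2 ^ n 4 = _
      rw [nm_one]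
      push_cast
      ring
    have pQ : 0 < nk (d.b ^ 2) * (nm d.D : ℝ) := by positivity
    rw [e]
    generalize nk (d.b ^ 2) * (nm d.D : ℝ) = Q' at pQ ⊢
    rw [lx_mul (by positivity) (by positivity), lx_mul (by positivity) pQ,
      lx_pow, lx_mul pc0 pg1, lx_mul (by positivity) (by positivity), lx_pow ((2 : ℝ) ^ n 5),
      lx_pow (2 : ℝ) (n 5), lx_pow (2 : ℝ) (n 4)]
    have h1 := (abs_le.mp H.c₀).2
    have h2 := (abs_le.mp H.g₁).2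
    push_cast
    linarith
  obtain ⟨C, hos⟩ := cel_of hX H R.S1 R.S2 R.P1 R.P2 R.σ1 R.σ2 R.w1 R.w2 R.u1 R.u2 R.s1 R.s2
    R.us1 R.us2 hBm hBo hBo' hq
  have hk2A : (nm k.2 : ℝ) ≤ nm (Ak k) := by
    have : nm k.2 ≤ nm (Ak k) := by
      unfold Ak
      rw [nm_mul, nm_pow]
      have h1 : 1 ≤ nm k.1 := nm_pos.mpr K.p1.ne_zero
      have h2 : 1 ≤ nm k.2 := nm_pos.mpr K.p2.ne_zero
      nlinarith [Nat.mul_le_mul h1 (Nat.mul_le_mul h2 (le_refl (nm k.2))), pow_two (nm k.2)]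
    exact_mod_cast this
  have pA : (0 : ℝ) < nm (Ak k) := lt_of_lt_of_le pk2 hk2A
  have key := phi_coreE hX (κ := d.κ) (V := d.V) (c0 := nm d.c₀) (g1 := nm d.g₁) (g2 := nm d.g₂)
    (q := qn d.x n) (Nα := Nα) (E_ := E_) (L := L) (W1 := W1) (TD := TD) (T1 := T1) (T2 := T2)
    (k2 := nm k.2) (kA := nm (Ak k)) (θ := ‖th d.c₀‖) (Mb := X ^ mx) (Ek := 1) (n := n)
    (En := d.x.En n) (Jn := d.x.Jn n) (Nn := d.x.Nn n) (Kc := Kc d.x n) (Nb := Nbn d.x Nα n)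
    (mn := mn n) (Bs := d.x.Base n) (τ := 20 * τ) (ρ1 := lg (rrk 1 d.Pr))
    (ρ2 := lg (rrk 2 d.Pr)) (mx := mx) rfl rfl rfl rfl rfl rfl rfl pκ pV pc0 pg1 pg2 pq hNα hE C
    rfl rfl (by positivity) (up _ _ (by linarith)) zero_le_one
    (Real.one_le_rpow hX.le (by linarith)) (norm_nonneg _) (hth.trans (up _ _ (by linarith)))
    pk2.le hk2A pA hfg hd0 hd8 hL (HL.shift H.k)
    (c8.shift H.k) hos hTD0 hT10 hT20 hTD hT1 hT2 hW0 hWz hWz'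
    (ih := lx X (8192 * (Nbn d.x Nα n * L / d.x.Nn n) * (2 ^ n 3) ^ 2 /
        ((nm k.2 : ℝ) * 2 ^ m 0 2) ^ 3))
    (by
      have r1 : (2 : ℝ) ^ (n 1 + m 1 2) ≤ (nm k.2 : ℝ) * 2 ^ (n 2 + 1) := by exact_mod_cast K.r1
      have := ih_le hX H R.S1 R.b2 R.P1 R.σ1 hBo r1 pk2 pNb pL pN
      linarith)
    (fun h => (hW h).trans (up _ _ (by linarith))) hC0 hCz (hS0.trans (by linarith))
    (fun h => (hWc h).trans (up _ _ (by linarith)))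
  -- the bound of the class
  have hB0 : 0 ≤ d.x.Base n := by unfold XF.Base; positivity
  have e0 : d.κ * (X ^ mx * 1 * ‖th d.c₀‖ ^ 2 * d.V ^ (-(1 / 3) : ℝ) * d.x.Base n * M) ≤
      E_ * (9 * X ^ (lx X d.κ + 2 * (κ₀ * z'.lam) + T0 - (lx X d.V + κ₀ * z'.us) / 3 -
        lx X Nα / 3 + (ex + τ) + 2000 * (20 * τ))) := by
    refine le_trans ?_ key
    have pTh : 0 ≤ E4Xb681.Th (Kc d.x n) (d.x.Nn n) (qn d.x n) L := by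
      have : 0 < Kc d.x n := by unfold Kc; positivity
      unfold E4Xb681.Th; positivity
    have pcnt : (0 : ℝ) ≤ d.x.En n * (d.x.Jn n / nm (Ak k)) := by positivity
    have h3 : AA d.x E_ Nα L We n 3 ≤ E_ * (E4Xb681.Th (Kc d.x n) (d.x.Nn n) (qn d.x n) L *
        ((Real.sqrt L + Real.sqrt (L * d.x.Nn n / Nbn d.x Nα n)) * W1 +
          L ^ (1 / 3 : ℝ) * (d.x.Nn n / Nbn d.x Nα n) ^ (2 / 3 : ℝ) * Wc)) :=
      mul_le_mul_of_nonneg_left (mul_le_mul_of_nonneg_left hWe pTh) hE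
    have hM' : M ≤ AA d.x E_ Nα L We n 0 * TD + AA d.x E_ Nα L We n 1 * T1 +
        AA d.x E_ Nα L We n 2 * T2 +
        nm k.2 * (E_ * (E4Xb681.Th (Kc d.x n) (d.x.Nn n) (qn d.x n) L *
        ((Real.sqrt L + Real.sqrt (L * d.x.Nn n / Nbn d.x Nα n)) * W1 +
          L ^ (1 / 3 : ℝ) * (d.x.Nn n / Nbn d.x Nα n) ^ (2 / 3 : ℝ) * Wc)) *
            (d.x.En n * (d.x.Jn n / nm (Ak k)))) :=
      hM.trans (add_le_add le_rfl (mul_le_mul_of_nonneg_left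
        (mul_le_mul_of_nonneg_right h3 pcnt) pk2.le))
    have pB2 : 0 ≤ X ^ mx * 1 * ‖th d.c₀‖ ^ 2 * d.V ^ (-(1 / 3) : ℝ) * d.x.Base n := by positivity
    exact mul_le_mul_of_nonneg_left (mul_le_mul_of_nonneg_left hM' pB2) pκ.le
  have e8 : (9 : ℝ) ≤ X ^ τ := by
    refine (show (9 : ℝ) ≤ 16 by norm_num).trans (le_rpow_of_lx hX (by norm_num) ?_)
    rw [show (16 : ℝ) = 2 ^ 4 by norm_num, lx_pow]
    push_cast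
    linarith [H.c1]
  have h1 := abs_le.mp H.k
  have h2 := abs_le.mp H.V
  have h3 := abs_le.mp H.Nα
  have e1 : 9 * X ^ (lx X d.κ + 2 * (κ₀ * z'.lam) + T0 - (lx X d.V + κ₀ * z'.us) / 3 -
        lx X Nα / 3 + (ex + τ) + 2000 * (20 * τ)) ≤
      X ^ (κ₀ * (z'.k + 2 * z'.lam) + (T0 - κ₀ * (z'.v + z'.us) / 3 -
        κ₀ * (N - z'.β) / 3) + ex + 50000 * τ) := by
    calc _ ≤ X ^ τ * X ^ (lx X d.κ + 2 * (κ₀ * z'.lam) + T0 - (lx X d.V + κ₀ * z'.us) / 3 -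
        lx X Nα / 3 + (ex + τ) + 2000 * (20 * τ)) := by gcongr
      _ = X ^ (τ + (lx X d.κ + 2 * (κ₀ * z'.lam) + T0 - (lx X d.V + κ₀ * z'.us) / 3 -
        lx X Nα / 3 + (ex + τ) + 2000 * (20 * τ))) := by rw [← Real.rpow_add hX0]
      _ ≤ _ := up _ _ (by linarith [h1.2, h2.1, h3.1])
  have e2 : d.κ * (1 * 1 * ‖th d.c₀‖ ^ 2 * d.V ^ (-(1 / 3) : ℝ) * d.x.Base n * M) =
      X ^ (-mx) * (d.κ * (X ^ mx * 1 * ‖th d.c₀‖ ^ 2 * d.V ^ (-(1 / 3) : ℝ) * d.x.Base n * M)) := by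
    have : X ^ (-mx) * X ^ mx = 1 := by
      rw [← Real.rpow_add hX0]; simp
    calc _ = 1 * (d.κ * (1 * 1 * ‖th d.c₀‖ ^ 2 * d.V ^ (-(1 / 3) : ℝ) * d.x.Base n * M)) :=
          (one_mul _).symm
      _ = (X ^ (-mx) * X ^ mx) * (d.κ * (1 * 1 * ‖th d.c₀‖ ^ 2 * d.V ^ (-(1 / 3) : ℝ) *
        d.x.Base n * M)) := by rw [this]
      _ = _ := by ring
  rw [e2]
  calc X ^ (-mx) * (d.κ * (X ^ mx * 1 * ‖th d.c₀‖ ^ 2 * d.V ^ (-(1 / 3) : ℝ) * d.x.Base n * M)) ≤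
      X ^ (-mx) * (E_ * X ^ (κ₀ * (z'.k + 2 * z'.lam) + (T0 - κ₀ * (z'.v + z'.us) / 3 -
        κ₀ * (N - z'.β) / 3) + ex + 50000 * τ)) :=
        mul_le_mul_of_nonneg_left (e0.trans (mul_le_mul_of_nonneg_left e1 hE)) (by positivity)
    _ = E_ * (X ^ (-mx) * X ^ (κ₀ * (z'.k + 2 * z'.lam) + (T0 - κ₀ * (z'.v + z'.us) / 3 -
        κ₀ * (N - z'.β) / 3) + ex + 50000 * τ)) := by ring
    _ = _ := by
        rw [← Real.rpow_add hX0]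
        congr 2
        ring

/-- **the numbers of the classes**, closer `XLTEX` -/
theorem phis_LTE {lt T0 δ₀ u' F f g ex Rw S0 sR : ℝ} (hX : 1 < X) (hτ : 3000 * τ < 1 / 30)
    (H : BSz X κ₀ τ z' N mx m (lg d.g₁) (lg (rrk 1 d.Pr)) (lg (rrk 2 d.Pr)) (lg s₁) Bo Bo' d.V
      d.κ Nα Bm (nk (d.b ^ 2) * nm d.D) (nm d.c₀) (nm d.g₁) (nm d.g₂))
    (hd : d.OK) (hNα : 0 < Nα) (hE : 0 ≤ E_) (hth : ‖th d.c₀‖ ≤ X ^ τ)
    (hRw : Real.exp Rw ≤ X ^ τ) (hd0 : 0 ≤ δ₀) (hd8 : δ₀ ≤ 1 / 8)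
    (HL : Lines δ₀ (κ₀ * z'.k) (κ₀ * z'.v1) (lx X Nα) 0 (κ₀ * z'.R1) (κ₀ * z'.R2) u'
      (κ₀ * z'.lqt) (κ₀ * (z'.Y0 + z'.Y1)) (κ₀ * (z'.c02 + z'.c12 + z'.nu)) T0
      (κ₀ * (z'.c12 + z'.s1)) f g mx ex lt False)
    (c8 : Line8 (κ₀ * z'.k) (κ₀ * z'.v1) (lx X Nα) (κ₀ * z'.R1) (κ₀ * z'.R2) (κ₀ * z'.lqt)
      (κ₀ * (z'.Y0 + z'.Y1)) (κ₀ * (z'.c02 + z'.c12 + z'.nu)) T0 sR mx ex lt) (hfg : f ≤ g)
    (hS0 : sR ≤ max 0 (S0 - κ₀ * z'.R2) + τ)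
    (hf : min F (κ₀ * (z'.Y1 + z'.c12 + z'.nu)) ≤ f + τ)
    (hg : (F + min F (κ₀ * (z'.Y1 + z'.c12 + z'.nu))) / 2 ≤ g + τ)
    (HT : TNum d cw X T0 Nα F τ Bo m β₀ s₁)
    {W1 Wc We : (Fin 12 → ℕ) → Eis × Eis → ℝ} (hW0 : ∀ n k, 0 ≤ W1 n k)
    (hWz : ∀ n k, ¬ 1 ≤ Lf d.x X lt (lg (rrk 1 d.Pr)) (lg (rrk 2 d.Pr)) Nα Rw n → W1 n k = 0)
    (hW : ∀ n k, KRel m β₀ n k → 1 ≤ Lf d.x X lt (lg (rrk 1 d.Pr)) (lg (rrk 2 d.Pr)) Nα Rw n →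
      W1 n k ≤ X ^ (rr3 δ₀ (lx X (8192 * (Nbn d.x Nα n *
        Lf d.x X lt (lg (rrk 1 d.Pr)) (lg (rrk 2 d.Pr)) Nα Rw n / d.x.Nn n) * (2 ^ n 3) ^ 2 /
        ((nm k.2 : ℝ) * 2 ^ m 0 2) ^ 3)) (lx X Nα - lx X (d.x.En n)) u' -
      (lx X Nα - lx X (d.x.En n)) / 3 + τ))
    (hC0 : ∀ n k, 0 ≤ Wc n k)
    (hCz : ∀ n k, ¬ 1 ≤ Lf d.x X lt (lg (rrk 1 d.Pr)) (lg (rrk 2 d.Pr)) Nα Rw n → Wc n k = 0)
    (hWc : ∀ n k, KRel m β₀ n k → 1 ≤ Lf d.x X lt (lg (rrk 1 d.Pr)) (lg (rrk 2 d.Pr)) Nα Rw n →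
      Wc n k ≤ X ^ (lx X (8192 * (Nbn d.x Nα n *
        Lf d.x X lt (lg (rrk 1 d.Pr)) (lg (rrk 2 d.Pr)) Nα Rw n / d.x.Nn n) * (2 ^ n 3) ^ 2 /
        ((nm k.2 : ℝ) * 2 ^ m 0 2) ^ 3) / 3 + 5 / 3 * (lx X Nα - lx X (d.x.En n)) -
        max 0 (S0 - lx X (d.x.En n)) + τ))
    (hWe : ∀ n k, (Real.sqrt (Lf d.x X lt (lg (rrk 1 d.Pr)) (lg (rrk 2 d.Pr)) Nα Rw n) +
        Real.sqrt (Lf d.x X lt (lg (rrk 1 d.Pr)) (lg (rrk 2 d.Pr)) Nα Rw n * d.x.Nn n /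
          Nbn d.x Nα n)) * We n k ≤
      (Real.sqrt (Lf d.x X lt (lg (rrk 1 d.Pr)) (lg (rrk 2 d.Pr)) Nα Rw n) +
        Real.sqrt (Lf d.x X lt (lg (rrk 1 d.Pr)) (lg (rrk 2 d.Pr)) Nα Rw n * d.x.Nn n /
          Nbn d.x Nα n)) * W1 n k +
        Lf d.x X lt (lg (rrk 1 d.Pr)) (lg (rrk 2 d.Pr)) Nα Rw n ^ (1 / 3 : ℝ) *
          (d.x.Nn n / Nbn d.x Nα n) ^ (2 / 3 : ℝ) * Wc n k) :
    Phis d cw 1 1 Bm Bo Bo' m β₀ s₁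
      (fun j n k => AA d.x E_ Nα (Lf d.x X lt (lg (rrk 1 d.Pr)) (lg (rrk 2 d.Pr)) Nα Rw n)
        (We n k) n j)
      (E_ * X ^ (κ₀ * (z'.k + 2 * z'.lam) + (T0 - κ₀ * (z'.v + z'.us) / 3 -
        κ₀ * (N - z'.β) / 3) + ex - mx + 50000 * τ)) := by
  intro n k nus nR nU R K hPr hNn hs hBm hBo hBo'
  have hX0 : 0 < X := by linarith
  have hτ0 := H.τ0
  have hc := lx2_pos hX
  have up : ∀ a b : ℝ, a ≤ b → X ^ a ≤ X ^ b := fun a b h =>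
    Real.rpow_le_rpow_of_exponent_le hX.le h
  have pg2 : (0 : ℝ) < nm d.g₂ := by exact_mod_cast nm_pos.mpr hd.g₂.1.ne_zero
  have pE : 0 < d.x.En n := by
    show (0 : ℝ) < nm d.g₂ * (2 ^ n 7 * (2 ^ n 8 * 2 ^ n 10)); positivity
  have pNb : 0 < Nbn d.x Nα n := by unfold Nbn; positivity
  have hyb := yb_le hX H R hBo
  obtain ⟨t1, t2, t3⟩ := HT n k nus nR nU R K hNn hBo
  -- the dual length
  have hL : Lf d.x X lt (lg (rrk 1 d.Pr)) (lg (rrk 2 d.Pr)) Nα Rw n =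
      Ls X lt (lg (rrk 1 d.Pr)) (lg (rrk 2 d.Pr)) n := by
    unfold Lf
    refine if_pos (Or.inr ?_)
    rcases HL.c6 with h | ⟨h6, -⟩
    · exact h.elim
    obtain ⟨q', hq'⟩ : ∃ q' : ℝ, lx X q' ≤ 2 * (n 5 * lx X 2) + n 4 * lx X 2 +
        lx X (nk (d.b ^ 2) * nm d.D) + 4 * τ := by
      refine ⟨X ^ (2 * (n 5 * lx X 2) + n 4 * lx X 2 + lx X (nk (d.b ^ 2) * nm d.D) + 4 * τ), ?_⟩
      rw [lx_rpow_self hX]
    obtain ⟨C, -⟩ := cel_of hX H R.S1 R.S2 R.P1 R.P2 R.σ1 R.σ2 R.w1 R.w2 R.u1 R.u2 R.s1 R.s2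
      R.us1 R.us2 hBm hBo hBo' hq'
    have hl := ls_lc (lt := lt) hX C rfl rfl
    have CC := C.ce (k := lx X d.κ) (n := lx X Nα) (s0 := 0)
    have hlb := CE.lb CC (lt := lt) (m := 1 / 30) hl h6
    have eE : lx X (d.x.En n) = Ec (lx X (nm d.g₂)) (n 7 * lx X 2) (n 8 * lx X 2)
        (n 10 * lx X 2) := by
      show lx X ((nm d.g₂ : ℝ) * (2 ^ n 7 * (2 ^ n 8 * 2 ^ n 10))) = _
      rw [lx_mul pg2 (by positivity), lx_mul (by positivity) (by positivity),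
        lx_mul (by positivity) (by positivity), lx_pow, lx_pow, lx_pow]
      unfold Ec
      ring
    have eNb : lx X (Nbn d.x Nα n) = Nbc (lx X Nα) 0 (lx X (nm d.g₂)) (n 7 * lx X 2)
        (n 8 * lx X 2) (n 10 * lx X 2) (n 9 * lx X 2) (n 6 * lx X 2) := by
      unfold Nbn Nbc
      rw [lx_div (by positivity) pE, lx_mul hNα (by positivity),
        lx_mul (by positivity) (by positivity), eE, lx_pow, lx_pow]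
      ring
    refine lt_of_lx hX pNb ?_
    have hLp : 0 < Ls X lt (lg (rrk 1 d.Pr)) (lg (rrk 2 d.Pr)) n := Ls_pos hX0 _ _ _
    have e8 : lx X 8 = 3 * lx X 2 := by
      rw [show (8 : ℝ) = 2 ^ 3 by norm_num, lx_pow]
      push_cast
      ring
    have hR : lx X (Real.exp Rw) ≤ τ := lx_le_of hX (Real.exp_pos _) hRw
    rw [lx_mul (by norm_num) (by positivity), lx_mul hLp (Real.exp_pos _), e8, eNb]
    have := H.c1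
    linarith
  have key := phi_clsE (k := k) (W1 := W1 n k) (Wc := Wc n k) (We := We n k) hX H hd hNα hE hth hd0
    hd8 HL c8 hfg hS0 R K hBm hBo
    hBo' hL
    (hW0 n k) (fun h => h.elim) (hWz n k) (hW n k K) (hC0 n k) (hCz n k) (hWc n k K) (hWe n k)
    (TD := TSD d.x.α d.x.e₀ d.x.c₀ (d.x.Ee n) (d.x.Ln cw n))
    (T1 := TSR d.x.α d.x.e₀ d.x.c₀ 1 (d.x.Ee n) (YsC d.g₁ m n k.1) (d.x.Ln cw n))
    (T2 := TSR d.x.α d.x.e₀ d.x.c₀ (1 / 2) (d.x.Ee n) (YsC d.g₁ m n k.1) (d.x.Ln cw n))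
    (TSD_nonneg _ _ _ _ _) (TSR_nonneg _ _ _ _ _ _ _) (TSR_nonneg _ _ _ _ _ _ _)
    (t1.trans (up _ _ (by linarith)))
    (t2.trans (up _ _ (by
      have : min F (lx X ((2 : ℝ) ^ Yb m n)) ≤ min F (κ₀ * (z'.Y1 + z'.c12 + z'.nu)) + 10 * τ := by
        rcases le_total F (κ₀ * (z'.Y1 + z'.c12 + z'.nu)) with h | h
        · rw [min_eq_left h]
          exact (min_le_left _ _).trans (by linarith)
        · rw [min_eq_right h]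
          exact (min_le_right _ _).trans hyb
      linarith)))
    (t3.trans (up _ _ (by
      have : min F (lx X ((2 : ℝ) ^ Yb m n)) ≤ min F (κ₀ * (z'.Y1 + z'.c12 + z'.nu)) + 10 * τ := by
        rcases le_total F (κ₀ * (z'.Y1 + z'.c12 + z'.nu)) with h | h
        · rw [min_eq_left h]
          exact (min_le_left _ _).trans (by linarith)
        · rw [min_eq_right h]
          exact (min_le_right _ _).trans hyb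
      linarith)))
    (le_refl _)
  exact key


end

end Crest.Agent.R017.XL842
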