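import Crest.Agent.R017.XPdX_164
import Crest.Agent.R017.XLj_92
import Crest.Agent.R017.E4Bx_918
import Crest.Agent.R017.XLgB_347
import Crest.Agent.R017.E4Xhx_679

/-!
# Row 17, C70/E4 (version 7), class E: the closer with an R-part (helper518)

The class-E twin of helper681's `XLh_681`.

* `LTcE` : the closer, the middle of helper918's `ClXEX`
* `Wc3`, `WX` : the numbers of the R-part, the two classes
* `CelX` : the cells of class E (helper347's `cells_frX`)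
* **`blkCX_LT`** : one block, one twist, from helper164's `pre_E`, `bszX_blk`, `TPhX`, the cells,
  helper92's `phis_LTE`, helper679's `xmo_bk`
* **`xnc_LT`** : helper679's `XNC` for the closer `LTcE`
-/

set_option autoImplicit false
set_option linter.unusedVariables false

noncomputable section

open Complex Finset
open scoped ComplexConjugate

namespace Crest.Agent.R017.XLhX518

open Crest.Agent.R012 Crest.Agent.R012.Eis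
open Crest.Agent.R012.Mob705 hiding pb mem_pb kap
open Crest.Agent.R017.Sx545 (Sm)
open Crest.Agent.R017.CM106 (CS FS)
open Crest.Agent.R017.C70 (OKJ)
open Crest.Agent.R017.End699 (HC)
open Crest.Agent.R017.FE47 (PU SM)
open Crest.Agent.R017.E5B71
open Crest.Agent.R017.E4D164 hiding E4L
open Crest.Agent.R017.B770 (DPar)
open Crest.Agent.R017.Prov71
open Crest.Agent.R017.E5L770
open Crest.Agent.R017.E5LX770 (SqLX)
open Crest.Agent.R017.ExP960 hiding alX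
open Crest.Agent.R017.E5k54 (alb)
open Crest.Agent.R017.E4U164
open Crest.Agent.R017.E4J352 (Tm gx)
open Crest.Agent.R017.E4RH858 (Pf pf Facts kl)
open Crest.Agent.R017.E4R70 (Cls)
open Crest.Agent.R017.Bx918
open Crest.Agent.R017.E4Df372
open Crest.Agent.R017.E4SE266
open Crest.Agent.R017.E4zc92 (XD)
open Crest.Agent.R017.E4X92 (XF)
open Crest.Agent.R017.E4zg92 (rrk Cells Phis KRel Rel)
open Crest.Agent.R017.E4zl679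
open Crest.Agent.R017.E4zn679 (xmo_bk)
open Crest.Agent.R017.JxL679 (NatS)
open Crest.Agent.R017.JxS679 (sk sk_prim)
open Crest.Agent.R017.XHn512 (XNumC)
open Crest.Agent.R017.XSd512 (XMo)
open Crest.Agent.R017.YsU61 (TwOK)
open Crest.Agent.R017.TEM792 (nL)
open Crest.Agent.R017.E4Xb681 (XS AA Nbn AA_nonneg)
open Crest.Agent.R017.XLeX679 (XNC BlkCX xnc_blk)
open Crest.Agent.R017.XLg347 (Wn Wn_eq Wn_nonneg Wb ihw gk gk_eq)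
open Crest.Agent.R017.XP164 (pre_E Pre TPhX bszX_blk NαX_of nαX_164)
open Crest.Agent.R017.XL842 (lx Lf Lf_pos Lf_nbn TNum th_isC w_le rr3 phis_LTE lines_of_LTE)
open Crest.Agent.R017.PX764 (th)
open Crest.Agent.R017.E4Xhx679 (We We_mul We_nonneg)

/-- **the closer with an R-part, class E** (the middle of helper918's `ClXEX`) -/
def LTcE (κ₀ : ℝ) (z : Cls) (d N u x ex : ℝ) : Prop :=
  He918.XLTEX d (κ₀ * z.k) (κ₀ * z.v1) (κ₀ * z.N1 N) (κ₀ * (N - z.β)) (κ₀ * z.R1) (κ₀ * z.R2)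
    (κ₀ * u) (κ₀ * z.lqt) (κ₀ * z.sh) (κ₀ * z.cnt) (κ₀ * z.tE N u) (κ₀ * (z.c12 + z.s1))
    (κ₀ * z.ff N u) (κ₀ * ((z.fF N u + z.ff N u) / 2)) (κ₀ * z.sgR) x ex

/-- the bias at the frame -/
def s0X (X bb δ : ℝ) (q : (Option IX5 → ℝ) × (Kd → ℝ)) (x : Dt) : ℝ :=
  bb * cκ (prX (dn q.1)) - 3 * δ - Real.log (nm (∏ i, x.β i)) / Real.log X

/-- the numbers of the cube class -/
def Wc3 (x : XF) (X H s₀ N ε Nα : ℝ) (M : ℕ) (m : Fin 2 → Fin 3 → ℕ) (L : (Fin 12 → ℕ) → ℝ)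
    (n : Fin 12 → ℕ) (k : Eis × Eis) : ℝ := by
  classical
  exact if 1 ≤ L n then H ^ M * X ^ (ihw x X Nα (L n) (gk m k) n / 3 +
    (5 / 3 * (N - Real.log (x.En n) / Real.log X) -
      max 0 (s₀ - Real.log (x.En n) / Real.log X)) + ε) else 0

/-- the numbers of the R-part, the two classes -/
def WX (x : XF) (X H d u s₀ N ε Nα : ℝ) (M : ℕ) (m : Fin 2 → Fin 3 → ℕ)
    (L : (Fin 12 → ℕ) → ℝ) (n : Fin 12 → ℕ) (k : Eis × Eis) (jj : Bool) : ℝ :=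
  if jj = true then Wc3 x X H s₀ N ε Nα M m L n k else Wn x X H d u N ε Nα M m L n k

lemma Wc3_nonneg {x : XF} {X H : ℝ} (hX : 0 ≤ X) (hH : 0 ≤ H) (s₀ N ε Nα : ℝ) (M : ℕ)
    (m : Fin 2 → Fin 3 → ℕ) (L : (Fin 12 → ℕ) → ℝ) (n : Fin 12 → ℕ) (k : Eis × Eis) :
    0 ≤ Wc3 x X H s₀ N ε Nα M m L n k := by
  unfold Wc3
  split_ifs
  · exact mul_nonneg (pow_nonneg hH _) (Real.rpow_nonneg hX _)
  · exact le_rfl

lemma WX_nonneg {x : XF} {X H : ℝ} (hX : 0 ≤ X) (hH : 0 ≤ H) (d u s₀ N ε Nα : ℝ) (M : ℕ)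
    (m : Fin 2 → Fin 3 → ℕ) (L : (Fin 12 → ℕ) → ℝ) (n : Fin 12 → ℕ) (k : Eis × Eis)
    (jj : Bool) : 0 ≤ WX x X H d u s₀ N ε Nα M m L n k jj := by
  unfold WX
  split_ifs
  · exact Wc3_nonneg hX hH _ _ _ _ _ _ _ _ _
  · exact Wn_nonneg hX hH _ _ _ _ _ _ _ _ _ _

lemma WX_zero {x : XF} {X H d u s₀ N ε Nα : ℝ} {M : ℕ} {m : Fin 2 → Fin 3 → ℕ}
    {L : (Fin 12 → ℕ) → ℝ} {n : Fin 12 → ℕ} {k : Eis × Eis} {jj : Bool} (h : ¬ 1 ≤ L n) :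
    WX x X H d u s₀ N ε Nα M m L n k jj = 0 := by
  unfold WX Wc3 XLg347.Wn
  split_ifs <;> rfl

/-- **the cells of class E at the data of one frame** (helper347's `cells_frX`) -/
def CelX {Λ : Type*} (π : Λ → DPar) (h : ℝ → ℝ) (A d bb e0 r : ℝ)
    (Bf : ℕ → ℝ → ℝ → ℝ → ℝ) : Prop :=
  ∀ Rw : ℝ, 0 ≤ Rw → ∀ ε : ℝ, 0 < ε → ∀ (lam : Λ × Eis) (N : ℕ) (B A1 : ℝ)
    (tt : (Eis → ℂ) × ℤ), ¬ (π lam.1).CaseD → lam.2 ∈ SM (π lam.1).n → TwOK (π lam.1) tt →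
    ∃ (Mη : Eis) (χ : Eis → ℂ) (j : ℤ) (M : ℕ) (C cw : ℝ) (A' : ℕ) (X₀ : ℝ), HC Mη χ ∧
      (∀ p : Eis, Prime p → p ∣ Mη → p ∣ (π lam.1).n₃) ∧
      (∀ (ξ : ℝ) (y : Eis), Sm (π lam.1).n₃ y → gx tt.1 tt.2 ξ y = gx χ j ξ y) ∧
      0 ≤ C ∧ 1 ≤ cw ∧ 1 < A' ∧ 1 < X₀ ∧
      ∀ X : ℝ, X₀ ≤ X → ∀ δ δ' : ℝ, δ ≤ 1 / 2 → 0 ≤ δ' →
      ∀ (a : BdX × ℕ) (ps : List Pq) (q : (Option IX5 → ℝ) × (Kd → ℝ)),
      FrLX A d bb δ δ' B X N a ps q → a.1.ok → a.1.okP (π lam.1) →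
      ∀ (ε' X' : ℝ) (x : Dt), x.OK (π lam.1) (Bf a.2) e0 r ε' X' a.1.toBd →
      ∀ dd : XD, dd.x.α = E4Df372.alX (π lam.1) h lam.2 a.1 x.β → dd.x.Y ≤ (X ^ A1) ^ 3 →
      ∀ (OO : Finset (Eis × Eis)) (m : Fin 2 → Fin 3 → ℕ) (β₀ s₁ : Eis) (l : ℕ)
        (ξ Nα : ℝ), E4zg92.XC dd OO m β₀ → dd.x.V = 2 ^ l →
        dd.x.g₀ = E4Bd783.gx χ j ξ →
        dd.x.Om = (fun t => ((E5L770.wL l (Real.log t) : ℝ) : ℂ)) → XS dd.x Nα Rw →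
        (∀ n, IsCoprime n dd.x.M → IsCoprime n Mη) →
        (∀ n, dd.x.α n ≠ 0 → IsCoprime n Mη) →
      ∀ L : (Fin 12 → ℕ) → ℝ, (∀ n, 0 < L n) →
        (∀ n, 1 ≤ L n → 8 * (L n * Real.exp Rw) < Nbn dd.x Nα n) →
      ∀ (bm : Eis × Eis → Eis → ℂ) (Mb Ek : ℝ),
        dd.x.HO cw OO (E4zc92.vC dd.x dd.P dd.kk dd.κ') bm dd.kk dd.κ' dd.qc Mb Ek →
        Cells dd cw OO bm
          (fun i n k => AA dd.x (C * dd.x.Y ^ ε * (1 + |ξ|) ^ A') Nα (L n)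
            (We dd.x Nα (L n) (WX dd.x X (X ^ δ') d (cu (prX (dn q.1)) 4 + δ)
              (s0X X bb δ q x) (nL X (u3 a.1) x.β) ε Nα M m L n k) n) n i) s₁

/-- a constant below a power -/
lemma const_le {C τ : ℝ} (hτ : 0 < τ) : ∃ X₀ : ℝ, 1 < X₀ ∧ ∀ X : ℝ, X₀ ≤ X → C ≤ X ^ τ := by
  refine ⟨max 2 ((|C| + 1) ^ (1 / τ)), lt_max_of_lt_left (by norm_num), fun X hX => ?_⟩
  have h1 : (|C| + 1) ^ (1 / τ) ≤ X := (le_max_right _ _).trans hX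
  have hC := abs_nonneg C
  calc C ≤ |C| + 1 := by linarith [le_abs_self C]
    _ = ((|C| + 1) ^ (1 / τ)) ^ τ := by
        rw [← Real.rpow_mul (by linarith), one_div_mul_cancel hτ.ne', Real.rpow_one]
    _ ≤ X ^ τ := Real.rpow_le_rpow (by positivity) h1 hτ.le

/-- the constant of the cells -/
lemma cst_le {X τ A1 C Z : ℝ} (hX : 1 < X) (hA1 : 0 < A1) (hτ : 0 < τ) (hC : C ≤ X ^ (τ / 2))
    (hZ : 0 ≤ Z) : C * ((X ^ A1) ^ 3) ^ (τ / (6 * A1)) * Z ≤ X ^ τ * Z := by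
  have hX0 : 0 < X := by linarith
  refine mul_le_mul_of_nonneg_right ?_ hZ
  have e1 : ((X ^ A1) ^ 3) ^ (τ / (6 * A1)) = X ^ (τ / 2) := by
    rw [← Real.rpow_natCast, ← Real.rpow_mul hX0.le, ← Real.rpow_mul hX0.le]
    congr 1
    push_cast
    field_simp
    norm_num
  rw [e1]
  calc C * X ^ (τ / 2) ≤ X ^ (τ / 2) * X ^ (τ / 2) :=
        mul_le_mul_of_nonneg_right hC (by positivity)
    _ = X ^ τ := by
        rw [← Real.rpow_add hX0]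
        congr 1
        ring

/-- **the final estimate** -/
lemma fin_bd {X τ ε η mx Q Q' E_ Z Bm : ℝ} (hX : 1 < X) (hτ : 0 < τ) (hτε : 100000 * τ ≤ ε)
    (hη : 16 * η ≤ τ) (hZ : 1 ≤ Z) (hE0 : 0 ≤ E_) (hE : E_ ≤ X ^ τ * Z) (hBm : Bm ≤ X ^ (mx + η))
    (hQ : Q' ≤ Q - mx + 50010 * τ) :
    (mx = 0 → X ^ τ * (E_ * X ^ Q') ≤ Z ^ 2 * X ^ (Q + ε)) ∧
    X ^ τ * ((X ^ η * Bm) * (E_ * X ^ Q')) ≤ Z ^ 2 * X ^ (Q + ε) := by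
  have hX0 : 0 < X := by linarith
  have hZ2 : Z ≤ Z ^ 2 := by nlinarith
  have hZ0 : 0 ≤ Z := by linarith
  have up : ∀ a b : ℝ, a ≤ b → X ^ a ≤ X ^ b := fun a b h =>
    Real.rpow_le_rpow_of_exponent_le hX.le h
  have p1 : 0 < X ^ Q' := Real.rpow_pos_of_pos hX0 _
  have h1 : E_ * X ^ Q' ≤ Z * X ^ (Q - mx + 50011 * τ) := by
    calc E_ * X ^ Q' ≤ X ^ τ * Z * X ^ Q' := mul_le_mul_of_nonneg_right hE p1.le
      _ = Z * (X ^ τ * X ^ Q') := by ring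
      _ = Z * X ^ (τ + Q') := by rw [Real.rpow_add hX0]
      _ ≤ Z * X ^ (Q - mx + 50011 * τ) := by
          exact mul_le_mul_of_nonneg_left (up _ _ (by linarith)) hZ0
  constructor
  · intro hm
    calc X ^ τ * (E_ * X ^ Q') ≤ X ^ τ * (Z * X ^ (Q - mx + 50011 * τ)) :=
          mul_le_mul_of_nonneg_left h1 (Real.rpow_nonneg hX0.le _)
      _ = Z * X ^ (τ + (Q - mx + 50011 * τ)) := by rw [Real.rpow_add hX0 τ]; ring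
      _ ≤ Z ^ 2 * X ^ (Q + ε) := by
          refine mul_le_mul hZ2 (up _ _ ?_) (Real.rpow_nonneg hX0.le _) (by positivity)
          rw [hm]
          linarith
  · have h2 : X ^ η * Bm ≤ X ^ (mx + 2 * η) := by
      calc X ^ η * Bm ≤ X ^ η * X ^ (mx + η) :=
            mul_le_mul_of_nonneg_left hBm (Real.rpow_nonneg hX0.le _)
        _ = X ^ (mx + 2 * η) := by
            rw [← Real.rpow_add hX0]
            congr 1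
            ring
    have h3 : 0 ≤ Z * X ^ (Q - mx + 50011 * τ) := mul_nonneg hZ0 (Real.rpow_nonneg hX0.le _)
    have h4 : (X ^ η * Bm) * (E_ * X ^ Q') ≤
        X ^ (mx + 2 * η) * (Z * X ^ (Q - mx + 50011 * τ)) :=
      mul_le_mul h2 h1 (mul_nonneg hE0 p1.le) (Real.rpow_nonneg hX0.le _)
    calc X ^ τ * ((X ^ η * Bm) * (E_ * X ^ Q')) ≤
          X ^ τ * (X ^ (mx + 2 * η) * (Z * X ^ (Q - mx + 50011 * τ))) :=
          mul_le_mul_of_nonneg_left h4 (Real.rpow_nonneg hX0.le _)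
      _ = Z * X ^ (τ + ((mx + 2 * η) + (Q - mx + 50011 * τ))) := by
          rw [Real.rpow_add hX0 τ, Real.rpow_add hX0 (mx + 2 * η)]; ring
      _ ≤ Z ^ 2 * X ^ (Q + ε) := by
          refine mul_le_mul hZ2 (up _ _ (by linarith)) (Real.rpow_nonneg hX0.le _) (by positivity)

/-- the length of the coefficients after the `β i` -/
lemma nL_eqX (X : ℝ) (a : BdX) (x : Dt) :
    lx X (Real.exp (a3 a.toBd - Real.log (nm (∏ i, x.β i)))) = nL X (u3 a) x.β := by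
  unfold XL842.lx TEM792.nL
  rw [Real.log_exp, Fin.sum_univ_three]
  rfl

set_option maxHeartbeats 4000000 in
/-- **one block, one twist, closer `LTcE`, class E** -/
theorem blkCX_LT {Λ : Type*} {π : Λ → DPar} {h : ℝ → ℝ} {c₀ : ℝ} (hh : PU h c₀)
    (hP : ∀ lam, (π lam).OK) {A d bb e0 r : ℝ} (hd : 0 ≤ d) (hd8 : d ≤ 1 / 8)
    (hA0 : 2 / 3 ≤ A) (hA : A ≤ 1) (hA1 : 16 * (1 - A) ≤ d) (hbb : 17 / 100 ≤ bb)
    {Bf : ℕ → ℝ → ℝ → ℝ → ℝ} {Jf : ℝ → ℝ → ℝ → Finset (Eis × Eis)}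
    (hJf : ∀ l N z, OKJ (Jf l N z)) (HTP : TPhX π h (fun z N u => z.tE N u) A d bb e0 r Bf Jf)
    (HC0 : CelX π h A d bb e0 r Bf) :
    BlkCX π h (fun z N u => z.tE N u - (z.v + z.us) / 3 - (N - z.β) / 3) LTcE A d bb e0 r Bf
      Jf := by
  classical
  intro ε hε
  obtain ⟨τ, hτ, hτ1, hτ2⟩ : ∃ τ : ℝ, 0 < τ ∧ 100000 * τ ≤ ε ∧ τ ≤ 1 / 1000000 := by
    refine ⟨min (ε / 100000) (1 / 1000000), by positivity, ?_, min_le_right _ _⟩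
    have := min_le_left (ε / 100000) (1 / 1000000 : ℝ)
    linarith
  obtain ⟨Rw, hRw, HP⟩ := pre_E hh hP hA0 d bb e0 r Bf hJf
  obtain ⟨η₁, hη₁, HT⟩ := HTP τ hτ
  obtain ⟨η, hη, hηa, hηb, hηc⟩ : ∃ η : ℝ, 0 < η ∧ 16 * η ≤ η₁ ∧ 16 * η ≤ τ ∧ η ≤ 1 / 2 := by
    refine ⟨min (η₁ / 16) (min (τ / 16) (1 / 2)), by positivity, ?_, ?_, ?_⟩
    · have := min_le_left (η₁ / 16) (min (τ / 16) (1 / 2))
      linarith
    · have := (min_le_right (η₁ / 16) (min (τ / 16) (1 / 2))).trans (min_le_left _ _)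
      linarith
    · exact (min_le_right _ _).trans (min_le_right _ _)
  refine ⟨η, hη, hηc, ?_⟩
  intro lam N B Bb tt hD hBb hs htt
  obtain ⟨Bb', X₁, hBB, hBb', hX₁, HP1⟩ := HP lam N B Bb
  obtain ⟨A1, hA1e⟩ : ∃ A1 : ℝ, A1 = 4 * Bb' + 1 := ⟨_, rfl⟩
  have hA1p : 1 ≤ A1 := by rw [hA1e]; linarith
  have hA1p0 : 0 < A1 := by linarith
  have hε1 : 0 < τ / (6 * A1) := by positivity
  have hε1τ : τ / (6 * A1) ≤ τ / 6 := by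
    apply div_le_div_of_nonneg_left hτ.le (by norm_num)
    linarith
  obtain ⟨Mη, χ, j₀, M, C, cw, A', X₂, hMη, hrad, hgx, hC, hcw, hA', hX₂, HC1⟩ :=
    HC0 Rw hRw (τ / (6 * A1)) hε1 lam N B A1 tt hD hs htt
  obtain ⟨δ₁, hδ₁, X₃, hX₃, HT1⟩ := HT cw hcw lam N B A1 hD hs
  obtain ⟨X₄, hX₄, HS⟩ := bszX_blk (h := h) hP hJf hτ 0 lam
  obtain ⟨X₅, hX₅, HS'⟩ := bszX_blk (h := h) hP hJf hη₁ 0 lam
  obtain ⟨Ct, hCt, hth⟩ := th_isC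
  obtain ⟨X₆, hX₆, HM⟩ := xmo_bk hτ (Bb := Bb') (by linarith) hcw
  obtain ⟨X₇, hX₇, k1⟩ := const_le (C := C) (half_pos hτ)
  obtain ⟨X₈, hX₈, k2⟩ := const_le (C := Ct) hτ
  obtain ⟨X₉, hX₉, k3⟩ := const_le (C := Real.exp Rw) hτ
  have hM0 : (0 : ℝ) < 2 * ((M : ℝ) + 1) := by positivity
  have hδ0 : 0 < min (min δ₁ 1) (τ / (2 * ((M : ℝ) + 1))) :=
    lt_min (lt_min hδ₁ one_pos) (div_pos hτ hM0)
  obtain ⟨δ', hδ', hδa, hδb, hδc⟩ : ∃ δ' : ℝ, 0 < δ' ∧ δ' ≤ δ₁ ∧ δ' ≤ 1 ∧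
      δ' ≤ τ / (2 * ((M : ℝ) + 1)) :=
    ⟨_, hδ0, (min_le_left _ _).trans (min_le_left _ _), (min_le_left _ _).trans (min_le_right _ _),
      min_le_right _ _⟩
  refine ⟨A', δ', hδ', max (max (max X₁ X₂) (max X₃ X₄)) (max (max X₅ X₆) (max X₇ (max X₈ X₉))),
    lt_max_of_lt_left (lt_max_of_lt_left (lt_max_of_lt_left hX₁)), ?_⟩
  intro X hXX δ ε' hδ hε' a ps q hF ha haP x hx hxl hne jj h₁ h₂ ξ G hG c P β τ₁ 𝒥 h𝒥 Oc hOc t ht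
    f1 f2 f3' D1' Z'' l' m hS z' sc mx ex hN hok hky hmx hmx2 hCl hBF t' ht' g₁ g₂ hXB0 Bm hBm1
    hBm Bd hBd
  obtain ⟨hXa, hXb⟩ := max_le_iff.mp hXX
  obtain ⟨hXa1, hXa2⟩ := max_le_iff.mp hXa
  obtain ⟨hXX₁, hXX₂⟩ := max_le_iff.mp hXa1
  obtain ⟨hXX₃, hXX₄⟩ := max_le_iff.mp hXa2
  obtain ⟨hXb1, hXb2⟩ := max_le_iff.mp hXb
  obtain ⟨hXX₅, hXX₆⟩ := max_le_iff.mp hXb1
  obtain ⟨hXX₇, hXb3⟩ := max_le_iff.mp hXb2
  obtain ⟨hXX₈, hXX₉⟩ := max_le_iff.mp hXb3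
  have hX1 : 1 < X := hX₁.trans_le hXX₁
  have hX0 : 0 < X := by linarith
  have hL0 : 0 < Real.log X := Real.log_pos hX1
  have up : ∀ a b : ℝ, a ≤ b → X ^ a ≤ X ^ b := fun a b h =>
    Real.rpow_le_rpow_of_exponent_le hX1.le h
  obtain ⟨κ₀, hκ₀⟩ : ∃ κ₀ : ℝ, κ₀ = cκ (prX (dn q.1)) := ⟨_, rfl⟩
  obtain ⟨Nn, hNn⟩ : ∃ Nn : ℝ, Nn = cN (prX (dn q.1)) / cκ (prX (dn q.1)) := ⟨_, rfl⟩
  obtain ⟨un, hun⟩ : ∃ un : ℝ, un = cu (prX (dn q.1)) 4 / cκ (prX (dn q.1)) := ⟨_, rfl⟩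
  have hκ89 : 8 / 9 ≤ κ₀ := by rw [hκ₀]; exact hBF.κ0
  have hκ1 : κ₀ ≤ 1 := by rw [hκ₀]; exact hBF.κ1
  have hκ0 : 0 < κ₀ := by linarith
  -- the twist
  have hXB : XBk π lam Jf (bl a) x (E4Df372.alX (π lam.1) h lam.2 a.1 x.β) (4 * Bb + 1) X c.nkk
      c.nlam P (sk (x.g * x.e₀ * x.t) t.k) β Oc (fun k => kl (x.g * x.e₀ * x.t) k = τ₁.1) g₁ g₂
      t'.D1 (E4RH858.b1 t') (gx χ j₀ ξ) :=
    { hXB0 with hG := E4zh679.mul1_gx hMη j₀ ξ }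
  have hG' : ∀ y, Sm (π lam.1).n₃ y → G y = gx χ j₀ ξ y := fun y hy =>
    (hG y hy).trans (hgx ξ y hy)
  -- the terms
  obtain ⟨ok', val', -, hpf', -, -⟩ := h𝒥 t' ht'
  obtain ⟨-, val, -, -, -, -⟩ := h𝒥 t ht
  subst hpf'
  obtain ⟨hXB', hPre⟩ := HP1 X hXX₁ δ δ' ε' (hδ.trans hηc) hδb (by linarith) a ps q hF ha hs haP x
    hx hne jj h₁ h₂ G t' ok' val' Mη hMη.q0 hrad χ j₀ ξ c.nkk c.nlam
    (sk (x.g * x.e₀ * x.t) t.k) β Oc (fun k => kl (x.g * x.e₀ * x.t) k = τ₁.1) g₁ g₂ hXB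
  obtain ⟨Nα, hNα⟩ : ∃ Nα : ℝ, Nα = Real.exp (a3 a.1.toBd - Real.log (nm (∏ i, x.β i))) :=
    ⟨_, rfl⟩
  have hNα0 : 0 < Nα := by rw [hNα]; exact Real.exp_pos _
  rw [← hNα] at hPre
  obtain ⟨d₀, hd₀⟩ : ∃ d₀ : XD, d₀ = dBX π lam Jf (bl a) x
    (E4Df372.alX (π lam.1) h lam.2 a.1 x.β) (4 * Bb' + 1) X c.nkk (pf t') g₁ g₂ t'.D1
    (E4RH858.b1 t') (gx χ j₀ ξ) := ⟨_, rfl⟩
  have hXC := xc_blk hXB'
  have hdOK := hXB'.ok.1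
  rw [← hd₀] at hPre hXC hdOK
  -- the sizes
  have hSz := HS X hXX₄ δ δ' ε' η hδ hηb A d bb e0 r B N Bf a ps q hF ha haP x hx
    (wE π h lam Jf a ps x jj h₁ h₂) G c (pf t') β τ₁.1 𝒥 t ht val f1 f2 f3' D1' Z'' l' m hS z' sc
    Bb hN hBF t' ht' _ _ _ _ Oc _ g₁ g₂ _ hXB' d₀ hd₀ mx Bm hBm1 hBm Nα
    (by rw [hNα]; exact nαX_164 a.1 x)
  have hSz' := HS' X hXX₅ δ δ' ε' η hδ hηa A d bb e0 r B N Bf a ps q hF ha haP x hx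
    (wE π h lam Jf a ps x jj h₁ h₂) G c (pf t') β τ₁.1 𝒥 t ht val f1 f2 f3' D1' Z'' l' m hS z' sc
    Bb hN hBF t' ht' _ _ _ _ Oc _ g₁ g₂ _ hXB' d₀ hd₀ mx Bm hBm1 hBm Nα
    (by rw [hNα]; exact nαX_164 a.1 x)
  -- the `T`-numbers
  have hT1 := HT1 X hXX₃ δ ε' (by linarith) (by linarith) a ps q
    (hF.mono hX1.le le_rfl hδa) ha haP x hx hxl hne z' hok (hN.v.trans (by linarith))
    (hN.β.trans (by linarith)) (hN.s.trans (by linarith)) c.nkk c.nlam (pf t')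
    (sk (x.g * x.e₀ * x.t) t.k) β Oc _ g₁ g₂ t'.D1 (E4RH858.b1 t') _ (hA1e ▸ hXB') d₀
    (by rw [hd₀, hA1e]) Nα (by have := (abs_le.mp hSz'.Nα).2; linarith)
  rw [← hNn, ← hκ₀] at hSz
  rw [← hNn, ← hun, ← hκ₀] at hT1 hCl hBd
  rw [← hNn, ← hκ₀] at hok
  -- the lines
  have hN1 : 0 ≤ z'.N1 Nn := by
    have hSq : Sq5 A d (prX (dn q.1)) q.2 := hF.dom.1.1
    have hv0 : 0 ≤ q.1 none := hF.dom.2.1
    have BX := bx4 hd hd8 hA hA1 hSq hv0 hF.low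
    rw [← hκ₀] at BX
    have hx36 : cx' (prX (dn q.1)) / κ₀ ≤ 1 / 36 := by
      have := BX.d0
      rcases BX.shr with h | ⟨h, -, -⟩ <;> linarith
    have b1 := hok.hβ
    have b2 := hok.h64
    unfold Cls.N1
    linarith
  obtain ⟨T0, hT0⟩ : ∃ T0 : ℝ, T0 = κ₀ * (z'.tE Nn un + 2 / 3 * d * z'.N1 Nn) := ⟨_, rfl⟩
  have hTT0 : κ₀ * z'.tE Nn un ≤ T0 := by
    rw [hT0]
    refine mul_le_mul_of_nonneg_left ?_ hκ0.le
    have : 0 ≤ 2 / 3 * d * z'.N1 Nn := by positivity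
    linarith
  obtain ⟨lt, HL, HL8⟩ := lines_of_LTE (κ₀ := κ₀) (N := Nn) (Nα := Nα) (X := X) (τ := τ) (z' := z')
    (δ₀ := d) (T0 := T0) (by linarith) hτ.le hd hd8 hκ0.le hok.R1 hok.s hSz.Nα hTT0 hCl
  have hT2 : TNum d₀ cw X (κ₀ * (z'.tE Nn un + 2 / 3 * d * z'.N1 Nn)) Nα (κ₀ * z'.fF Nn un) τ
      (2 * 2 ^ c.nlam) x.m β (sk (x.g * x.e₀ * x.t) t.k) := hT1
  rw [← hT0] at hT2
  -- the numbers of the R-part
  obtain ⟨L, hL⟩ : ∃ L : (Fin 12 → ℕ) → ℝ, L = Lf d₀.x X lt (E4X92.lg (rrk 1 d₀.Pr))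
    (E4X92.lg (rrk 2 d₀.Pr)) Nα Rw := ⟨_, rfl⟩
  have hLp : ∀ n, 0 < L n := fun n => by rw [hL]; exact Lf_pos hX0 _ _ _ _ _ _ _
  have hLN : ∀ n, 1 ≤ L n → 8 * (L n * Real.exp Rw) < Nbn d₀.x Nα n := fun n h1 => by
    rw [hL] at h1 ⊢
    exact Lf_nbn _ _ _ _ _ _ _ h1
  obtain ⟨W, hWe⟩ : ∃ W : (Fin 12 → ℕ) → Eis × Eis → Bool → ℝ, W = WX d₀.x X (X ^ δ') d
    (cu (prX (dn q.1)) 4 + δ) (s0X X bb δ q x) (nL X (u3 a.1) x.β) (τ / (6 * A1)) Nα M x.m L :=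
    ⟨_, rfl⟩
  have hW0 : ∀ n k b, 0 ≤ W n k b := fun n k b => by
    rw [hWe]
    exact WX_nonneg hX0.le (Real.rpow_nonneg hX0.le _) _ _ _ _ _ _ _ _ _ _ _ _
  have hWz : ∀ n k b, ¬ 1 ≤ L n → W n k b = 0 := fun n k b h1 => by
    rw [hWe]
    exact WX_zero h1
  have hHM : (X ^ δ') ^ M ≤ X ^ (τ / 2) := by
    rw [← Real.rpow_natCast, ← Real.rpow_mul hX0.le]
    refine up _ _ ?_
    have h1 : δ' * M ≤ τ / (2 * ((M : ℝ) + 1)) * M :=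
      mul_le_mul_of_nonneg_right hδc (Nat.cast_nonneg _)
    have h2 : τ / (2 * ((M : ℝ) + 1)) * M ≤ τ / 2 := by
      rw [div_mul_eq_mul_div, div_le_div_iff₀ hM0 (by norm_num)]
      nlinarith
    linarith
  have hun' : cu (prX (dn q.1)) 4 + δ ≤ κ₀ * un + η := by
    rw [hun, ← hκ₀]
    have : κ₀ * (cu (prX (dn q.1)) 4 / κ₀) = cu (prX (dn q.1)) 4 := by field_simp
    rw [this]
    linarith
  have hnl : lx X Nα = nL X (u3 a.1) x.β := by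
    rw [hNα]; exact nL_eqX X a.1 x
  have eih : ∀ n k, KRel x.m β n k → ihw d₀.x X Nα (L n) (gk x.m k) n =
      lx X (8192 * (Nbn d₀.x Nα n * L n / d₀.x.Nn n) * (2 ^ n 3) ^ 2 /
        ((nm k.2 : ℝ) * 2 ^ x.m 0 2) ^ 3) := by
    intro n k hK
    rw [gk_eq hK]
    rfl
  have p0 : (0 : ℝ) ≤ (X ^ δ') ^ M := pow_nonneg (Real.rpow_nonneg hX0.le _) _
  have hW : ∀ n k, KRel x.m β n k → 1 ≤ L n →
      W n k false ≤ X ^ (rr3 d (lx X (8192 * (Nbn d₀.x Nα n * L n / d₀.x.Nn n) * (2 ^ n 3) ^ 2 /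
        ((nm k.2 : ℝ) * 2 ^ x.m 0 2) ^ 3)) (lx X Nα - lx X (d₀.x.En n)) (κ₀ * un) -
      (lx X Nα - lx X (d₀.x.En n)) / 3 + τ) := by
    intro n k hK h1
    have e0 : W n k false = Wn d₀.x X (X ^ δ') d (cu (prX (dn q.1)) 4 + δ) (nL X (u3 a.1) x.β)
        (τ / (6 * A1)) Nα M x.m L n k := by
      rw [hWe]; rfl
    rw [e0, Wn_eq h1]
    unfold XLg347.Wb
    rw [eih n k hK]
    have e2 : Real.log (d₀.x.En n) / Real.log X = lx X (d₀.x.En n) := rfl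
    rw [e2, ← hnl]
    have key := w_le (δ₀ := d) (u := cu (prX (dn q.1)) 4 + δ) (u' := κ₀ * un)
      (ih := lx X (8192 * (Nbn d₀.x Nα n * L n / d₀.x.Nn n) *
        (2 ^ n 3) ^ 2 / ((nm k.2 : ℝ) * 2 ^ x.m 0 2) ^ 3)) (N := lx X Nα) (n := lx X Nα)
      (e := lx X (d₀.x.En n)) (τ₁ := η) hd hd8 (by rw [sub_self, abs_zero]; exact hη.le) hun'
    refine (mul_le_mul_of_nonneg_right hHM (Real.rpow_nonneg hX0.le _)).trans ?_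
    rw [← Real.rpow_add hX0]
    refine up _ _ ?_
    unfold RXn770.g3
    linarith
  obtain ⟨S0, hS0e⟩ : ∃ S0 : ℝ, S0 = s0X X bb δ q x := ⟨_, rfl⟩
  have hWc : ∀ n k, KRel x.m β n k → 1 ≤ L n →
      W n k true ≤ X ^ (lx X (8192 * (Nbn d₀.x Nα n * L n / d₀.x.Nn n) * (2 ^ n 3) ^ 2 /
        ((nm k.2 : ℝ) * 2 ^ x.m 0 2) ^ 3) / 3 + 5 / 3 * (lx X Nα - lx X (d₀.x.En n)) -
      max 0 (S0 - lx X (d₀.x.En n)) + τ) := by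
    intro n k hK h1
    have e0 : W n k true = Wc3 d₀.x X (X ^ δ') (s0X X bb δ q x) (nL X (u3 a.1) x.β)
        (τ / (6 * A1)) Nα M x.m L n k := by
      rw [hWe]; rfl
    rw [e0]
    unfold Wc3
    rw [if_pos h1, eih n k hK]
    have e2 : Real.log (d₀.x.En n) / Real.log X = lx X (d₀.x.En n) := rfl
    rw [e2, ← hnl, ← hS0e]
    refine (mul_le_mul_of_nonneg_right hHM (Real.rpow_nonneg hX0.le _)).trans ?_
    rw [← Real.rpow_add hX0]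
    exact up _ _ (by linarith)
  -- the bias
  have hsR : κ₀ * z'.sgR ≤ max 0 (S0 - κ₀ * z'.R2) + τ := by
    have hb : κ₀ * (17 / 100 - z'.β - z'.s - z'.R1 - z'.R2) ≤ S0 - κ₀ * z'.R2 + 4 * η := by
      have hβ0 : |z'.β - E4Dic352.lg (∏ i, x.β i) / (cκ (prX (dn q.1)) * Real.log X)| ≤ η := hN.β
      rw [← hκ₀] at hβ0
      have hβ' := (abs_le.mp hβ0).1
      have e3 : Real.log (nm (∏ i, x.β i)) / Real.log X =
          κ₀ * (E4Dic352.lg (∏ i, x.β i) / (κ₀ * Real.log X)) := by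
        unfold E4Dic352.lg
        field_simp
      have h4 : κ₀ * (E4Dic352.lg (∏ i, x.β i) / (κ₀ * Real.log X)) ≤ κ₀ * (z'.β + η) := by
        refine mul_le_mul_of_nonneg_left ?_ hκ0.le
        linarith
      have h5 : κ₀ * η ≤ η := by nlinarith
      have h6 : 17 / 100 * κ₀ ≤ bb * κ₀ := mul_le_mul_of_nonneg_right hbb hκ0.le
      have h7 : 0 ≤ κ₀ * z'.s := mul_nonneg hκ0.le hok.s
      have h8 : 0 ≤ κ₀ * z'.R1 := mul_nonneg hκ0.le hok.R1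
      rw [hS0e]
      unfold s0X
      rw [e3, ← hκ₀]
      nlinarith
    have e5 : κ₀ * z'.sgR = max 0 (κ₀ * (17 / 100 - z'.β - z'.s - z'.R1 - z'.R2)) := by
      unfold Cls.sgR
      rw [mul_max_of_nonneg _ _ hκ0.le, mul_zero]
    rw [e5]
    refine max_le ?_ ?_
    · linarith [le_max_left 0 (S0 - κ₀ * z'.R2)]
    · linarith [le_max_right 0 (S0 - κ₀ * z'.R2)]
  -- the numbers of the classes
  obtain ⟨E_, hE_⟩ : ∃ E_ : ℝ, E_ = C * d₀.x.Y ^ (τ / (6 * A1)) * (1 + |ξ|) ^ A' := ⟨_, rfl⟩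
  have hY : d₀.x.Y = (X ^ A1) ^ 3 := by rw [hd₀, hA1e]; rfl
  have hξ : 1 ≤ 1 + |ξ| := by linarith [abs_nonneg ξ]
  have hZ : 1 ≤ (1 + |ξ|) ^ A' := one_le_pow₀ hξ
  have hE0 : 0 ≤ E_ := by
    rw [hE_, hY]
    positivity
  have hEle : E_ ≤ X ^ τ * (1 + |ξ|) ^ A' := by
    rw [hE_, hY]
    exact cst_le hX1 hA1p0 hτ (k1 X hXX₇) (by positivity)
  have hfm : min (κ₀ * z'.fF Nn un) (κ₀ * (z'.Y1 + z'.c12 + z'.nu)) = κ₀ * z'.ff Nn un := by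
    rw [← mul_min_of_nonneg _ _ hκ0.le]
    congr 1
    unfold Cls.ff
    congr 1
    ring
  have hfle : z'.ff Nn un ≤ z'.fF Nn un := min_le_left _ _
  have hphi := phis_LTE (d := d₀) (m := x.m) (β₀ := β) (s₁ := sk (x.g * x.e₀ * x.t) t.k)
    (cw := cw) (E_ := E_) (Rw := Rw) (W1 := fun n k => W n k false) (Wc := fun n k => W n k true)
    (We := fun n k => We d₀.x Nα (L n) (W n k) n) (F := κ₀ * z'.fF Nn un) (δ₀ := d)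
    (S0 := S0) (u' := κ₀ * un) (f := κ₀ * z'.ff Nn un)
    (g := κ₀ * ((z'.fF Nn un + z'.ff Nn un) / 2))
    hX1 (by linarith) hSz hdOK hNα0 hE0 ((hth _ hdOK.c₀).trans (k2 X hXX₈)) (k3 X hXX₉) hd hd8
    HL HL8 (mul_le_mul_of_nonneg_left (by linarith) hκ0.le) hsR (by rw [hfm]; linarith)
    (by rw [hfm]; linarith) hT2 (fun n k => hW0 n k false)
    (fun n k h => hWz n k false (by rw [hL]; exact h)) (by rw [← hL]; exact hW)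
    (fun n k => hW0 n k true) (fun n k h => hWz n k true (by rw [hL]; exact h))
    (by rw [← hL]; exact hWc)
    (fun n k => by rw [← hL]; exact (We_mul (hLp n) (W n k)).le)
  obtain ⟨Q, hQe⟩ : ∃ Q : ℝ, Q = κ₀ * (z'.k + 2 * z'.lam) + (κ₀ * (z'.tE Nn un -
    (z'.v + z'.us) / 3 - (Nn - z'.β) / 3) + κ₀ * (2 / 3 * d * z'.N1 Nn) + ex) := ⟨_, rfl⟩
  obtain ⟨Q', hQ'e⟩ : ∃ Q' : ℝ, Q' = κ₀ * (z'.k + 2 * z'.lam) + (T0 -
    κ₀ * (z'.v + z'.us) / 3 - κ₀ * (Nn - z'.β) / 3) + (ex + 5 * τ) - mx + 50000 * τ := ⟨_, rfl⟩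
  have hQQ : Q' ≤ Q - mx + 50010 * τ := by
    rw [hQ'e, hQe, hT0]
    linarith
  rw [← hL, ← hQ'e] at hphi
  have hS0 : 0 ≤ E_ * X ^ Q' := mul_nonneg hE0 (Real.rpow_nonneg hX0.le _)
  -- the cells
  have hδ2 : δ ≤ 1 / 2 := hδ.trans hηc
  have hcell : ∀ (Mb' Ek : ℝ) (bm' : Eis × Eis → Eis → ℂ),
      d₀.x.HO cw (Oc.image Subtype.val) (E4zc92.vC d₀.x d₀.P d₀.kk d₀.κ') bm' d₀.kk d₀.κ' d₀.qc
        Mb' Ek →
      Cells d₀ cw (Oc.image Subtype.val) bm'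
        (fun j n k => AA d₀.x E_ Nα (L n) (We d₀.x Nα (L n) (W n k) n) n j)
        (sk (x.g * x.e₀ * x.t) t.k) := by
    intro Mb' Ek bm' HO
    rw [hE_, hWe]
    exact HC1 X hXX₂ δ δ' hδ2 hδ'.le a ps q hF ha haP ε' X x hx d₀ (by rw [hd₀]; rfl)
      (by rw [hY]) (Oc.image Subtype.val) x.m β (sk (x.g * x.e₀ * x.t) t.k) a.2 ξ Nα hXC hPre.V
      hPre.g₀ hPre.Om hPre.xs hPre.cM hPre.cα L hLp hLN bm' Mb' Ek HO
  have hBmX : Bm ≤ X ^ (4 * Bb' + 1) := hBm.trans (up _ _ (by linarith))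
  have pc0 : d₀.x.c₀ ≠ 0 := Str699.isC_ne hdOK.c₀
  obtain ⟨m1, m2⟩ := HM X hXX₆ π lam Jf (bl a) x (E4Df372.alX (π lam.1) h lam.2 a.1 x.β) c.nkk
    c.nlam (pf t') (sk (x.g * x.e₀ * x.t) t.k) β Oc
    (fun k => kl (x.g * x.e₀ * x.t) k = τ₁.1) g₁ g₂ t'.D1
    (E4RH858.b1 t') (gx χ j₀ ξ) G hXB' hG' d₀ hd₀ Bm (E_ * X ^ Q')
    (fun j n k => AA d₀.x E_ Nα (L n) (We d₀.x Nα (L n) (W n k) n) n j) hBm1 hBmX hS0
    (fun j n k => AA_nonneg hdOK.κ0 hdOK.V0 pc0 hdOK.g₂.1.ne_zero hE0 hNα0 (hLp n)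
      (We_nonneg hdOK.V0 pc0 hdOK.g₂.1.ne_zero hNα0 (hLp n) (hW0 n k) n) n j)
    (fun j n e r hj => by
      fin_cases j
      · rfl
      · rfl
      · rfl
      · exact absurd rfl hj) hcell hphi
  have hBd' : Bd = ((1 + |ξ|) ^ A') ^ 2 * X ^ (κ₀ * (z'.k + 2 * z'.lam) + (κ₀ * (z'.tE Nn un -
    (z'.v + z'.us) / 3 - (Nn - z'.β) / 3) + κ₀ * (2 / 3 * d * z'.N1 Nn) + ex + ε)) := hBd
  have hQε : κ₀ * (z'.k + 2 * z'.lam) + (κ₀ * (z'.tE Nn un - (z'.v + z'.us) / 3 -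
    (Nn - z'.β) / 3) + κ₀ * (2 / 3 * d * z'.N1 Nn) + ex + ε) = Q + ε := by rw [hQe]; ring
  rw [hBd', hQε]
  obtain ⟨f1, f2⟩ := fin_bd hX1 hτ hτ1 hηb hZ hE0 hEle hBm hQQ
  refine ⟨fun h0 => m1.trans (f1 h0), fun bm hbm => (m2 _ ?_ bm hbm).trans f2⟩
  exact mul_nonneg (Real.rpow_nonneg hX0.le _) (by linarith)

/-- **helper679's `XNC` for the closer `LTcE`, class E** -/
theorem xnc_LT {Λ : Type*} {π : Λ → DPar} {h : ℝ → ℝ} {c₀ : ℝ} (hh : PU h c₀)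
    (hP : ∀ lam, (π lam).OK) {A d bb e0 r : ℝ} (hd : 0 ≤ d) (hd8 : d ≤ 1 / 8)
    (hA0 : 2 / 3 ≤ A) (hA : A ≤ 1) (hA1 : 16 * (1 - A) ≤ d) (hbb : 17 / 100 ≤ bb)
    {Bf : ℕ → ℝ → ℝ → ℝ → ℝ} {Jf : ℝ → ℝ → ℝ → Finset (Eis × Eis)}
    (hJf : ∀ l N z, OKJ (Jf l N z)) (hF : E4zf92.JFull Jf)
    (HTP : TPhX π h (fun z N u => z.tE N u) A d bb e0 r Bf Jf)
    (HC0 : CelX π h A d bb e0 r Bf) :
    XNC π h (fun z N u => z.tE N u - (z.v + z.us) / 3 - (N - z.β) / 3) LTcE A d bb e0 r Bf Jf :=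
  xnc_blk hh hP hA0 hJf hF (blkCX_LT hh hP hd hd8 hA0 hA hA1 hbb hJf HTP HC0)

end Crest.Agent.R017.XLhX518
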