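import Crest.Agent.R017.XLf_842
import Crest.Agent.R017.E4He_918

/-!
# Row 17, E4 (x-side, structured), class E: the cube class of the R-part (helper92)

* `CE.rq` : the cube line at a cell (helper842's exact cube line)
* `phi_cube` : the term of the cube class, `phi_coreE` : the number of a class of cells
* `Line8`, `lines_of_LTE` : from helper918's closer `XLTEX`
-/

set_option autoImplicit false
set_option maxHeartbeats 2000000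

noncomputable section

namespace Crest.Agent.R017.XL842

open Crest.Agent.R017.E4R70

section

variable {τ k v lam us v1 n s0 R1 R2 y1 y2 lq x : ℝ}
  {S ν P s σ u w g h δ μ q c g1 g2 os s1 s2 : ℝ}

/-- **the cube class of the R-part**: `W` = log of the R-number of the cube class -/
lemma CE.rq (H : CE τ k v lam us v1 n s0 R1 R2 y1 y2 lq x S ν P s σ u w g h δ μ q c g1 g2 os s1 s2)
    {T0 ex lt l W sR sn : ℝ} (hl : |l - Lc lt h s1 s2 g δ| ≤ 6 * τ)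
    (hW : W ≤ (Nbc n s0 g2 w g δ h u - Nc v c P h u g2 w g δ + l + (2 * y1 + y2)) / 3 +
      5 / 3 * (n - Ec g2 w g δ) - sn + 7 * τ)
    (hσ : sR ≤ sn + (Ec g2 w g δ - R2) + 7 * τ)
    (h1 : (2 * v1 - k + lq - lt) / 3 + lt / 3 + 2 / 3 * (v1 - (n - s0 - R2 + R1)) +
      (R1 + 2 * R2 + y1 + 2 * y2) +
      ((n - s0 + lt - v1 + (R1 - R2 + 2 * y1 + y2)) / 3 + 2 * (n - R2) - sR) ≤ T0 + (ex - x)) :
    k + x + Pre v S ν c P g1 σ (Ec g2 w g δ) s +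
      (Thc (Nc v c P h u g2 w g δ) q k s l +
        (1 / 3 * l + 2 / 3 * (Nc v c P h u g2 w g δ - Nbc n s0 g2 w g δ h u)) + W +
        (Ec g2 w g δ + Jc P h u)) ≤
      k + 2 * lam + T0 - (v + us) / 3 - n / 3 + ex + 100 * τ := by
  have h2 := H.pre
  have h3 := H.th3 hl
  have hl' := abs_le.mp hl
  unfold Lc at hl'
  have hτ := H.τ0
  obtain ⟨h5, h5'⟩ := H.nc
  have hu := abs_le.mp H.ut
  have hw := abs_le.mp H.wt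
  have hg2 := abs_le.mp H.g2t
  have hP := abs_le.mp H.Pt
  have hs := abs_le.mp H.st
  have a1 := H.os0
  have a2 := H.s10
  have a3 := H.s20
  have a4 := H.gp
  have a5 := H.hp
  have a6 := H.δp
  have eJ : Jc P h u = P + h + u := rfl
  have eE : Ec g2 w g δ = g2 + w + g + δ := rfl
  have eN : Nbc n s0 g2 w g δ h u = n - s0 - (g2 + w + g + δ) + h + u := rfl
  rw [eJ]
  rw [eN] at hW ⊢
  rw [eE] at h2 hW hσ ⊢
  linarith [hu.1, hu.2, hw.1, hw.2, hg2.1, hg2.2, hP.1, hP.2, hs.1, hs.2, hl'.1, hl'.2]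

end

/-- **the cube line** of the closer -/
def Line8 (k v1 n R1 R2 lq y1 y2 T0 sR x ex lt : ℝ) : Prop :=
  (2 * v1 - k + lq - lt) / 3 + lt / 3 + 2 / 3 * (v1 - (n - 0 - R2 + R1)) +
    (R1 + 2 * R2 + y1 + 2 * y2) +
    ((n - 0 + lt - v1 + (R1 - R2 + 2 * y1 + y2)) / 3 + 2 * (n - R2) - sR) ≤ T0 + (ex - x)

/-- **the term of the cube class** -/
theorem phi_cube {X κ V S2 ν2 P2 s2 σ2 u2 w2 g' h2 δ2 μ2 q c0 g1 gg N K L Nb m0 : ℝ} (hX : 1 < X)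
    (H : PN X κ V S2 ν2 P2 s2 σ2 u2 w2 g' h2 δ2 μ2 q c0 g1 gg N K L Nb m0)
    {τ lam us v1 n R1 R2 y1 y2 lq x os s1 s2' : ℝ}
    (C : CE τ (lx X κ) (lx X V) lam us v1 n 0 R1 R2 y1 y2 lq x (lx X S2) (lx X ν2) (lx X P2)
      (lx X s2) (lx X σ2) (lx X u2) (lx X w2) (lx X g') (lx X h2) (lx X δ2) (lx X μ2) (lx X q)
      (lx X c0) (lx X g1) (lx X gg) os s1 s2')
    {lt : ℝ} (hL : |lx X L - Lc lt (lx X h2) s1 s2' (lx X g') (lx X δ2)| ≤ 6 * τ)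
    (hNb : lx X Nb = Nbc n 0 (lx X gg) (lx X w2) (lx X g') (lx X δ2) (lx X h2) (lx X u2))
    {Mb Ek θ : ℝ} (hMb : 0 < Mb) (hEk : 0 < Ek) (hθ : 0 < θ) (hM : lx X Mb ≤ x + τ)
    (hE : lx X Ek ≤ τ) (hθ' : lx X θ ≤ τ)
    {Wc T0 ex sR sn : ℝ} (hW0 : 0 ≤ Wc)
    (hW : Wc ≤ X ^ ((Nbc n 0 (lx X gg) (lx X w2) (lx X g') (lx X δ2) (lx X h2) (lx X u2) -
      Nc (lx X V) (lx X c0) (lx X P2) (lx X h2) (lx X u2) (lx X gg) (lx X w2) (lx X g') (lx X δ2) +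
      lx X L + (2 * y1 + y2)) / 3 + 5 / 3 * (n - Ec (lx X gg) (lx X w2) (lx X g') (lx X δ2)) -
      sn + 7 * τ))
    (hσ : sR ≤ sn + (Ec (lx X gg) (lx X w2) (lx X g') (lx X δ2) - R2) + 7 * τ)
    (c8 : Line8 (lx X κ) v1 n R1 R2 lq y1 y2 T0 sR x ex lt) :
    P0 κ Mb Ek θ V S2 ν2 c0 P2 (gg * (w2 * (g' * δ2))) g1 σ2 s2 *
      (Th N q K L * (L ^ (1 / 3 : ℝ) * (N / Nb) ^ (2 / 3 : ℝ)) *
        (Wc * ((gg * (w2 * (g' * δ2))) * (P2 * (h2 * u2))))) ≤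
      X ^ (lx X κ + 2 * lam + T0 - (lx X V + us) / 3 - n / 3 + ex + 120 * τ) := by
  have hX0 : 0 < X := by linarith
  have hτ := C.τ0
  have k1 := H.κ0
  have k2 := H.V0
  have k3 := H.S0
  have k4 := H.ν0
  have k5 := H.P0
  have k6 := H.s0
  have k7 := H.σ0
  have k8 := H.u0
  have k9 := H.w0
  have k10 := H.g0
  have k11 := H.h0
  have k12 := H.δ0
  have k14 := H.q0
  have k15 := H.c00
  have k16 := H.g10
  have k17 := H.gg0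
  have k18 := H.L0
  have k19 := H.Nb0
  have k20 := H.m00
  have kN := H.N0
  have kK := H.K0
  have eN := H.lxN
  have eK := H.lxK
  have eE := H.lxE
  have eJ := H.lxJ
  set E : ℝ := gg * (w2 * (g' * δ2)) with hEd
  set J : ℝ := P2 * (h2 * u2) with hJd
  have kE : 0 < E := by positivity
  have kJ : 0 < J := by positivity
  set P : ℝ := P0 κ Mb Ek θ V S2 ν2 c0 P2 E g1 σ2 s2 with hPd
  have kP : 0 < P := by
    rw [hPd]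
    unfold P0
    positivity
  set p : ℝ := lx X κ + x + Pre (lx X V) (lx X S2) (lx X ν2) (lx X c0) (lx X P2) (lx X g1)
    (lx X σ2) (Ec (lx X gg) (lx X w2) (lx X g') (lx X δ2)) (lx X s2) with hp
  have hP : lx X P ≤ p + 4 * τ := by
    rw [hPd, lx_P0 hX k1 hMb hEk hθ k2 k3 k4 k15 k5 kE k16 k7 k6, eE, hp]
    linarith
  set tg : ℝ := lx X κ + 2 * lam + T0 - (lx X V + us) / 3 - n / 3 + ex with htg
  have kTh : 0 < Th N q K L := by unfold Th; positivity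
  have eTh : lx X (Th N q K L) = Thc (Nc (lx X V) (lx X c0) (lx X P2) (lx X h2) (lx X u2)
      (lx X gg) (lx X w2) (lx X g') (lx X δ2)) (lx X q) (lx X κ) (lx X s2) (lx X L) := by
    rw [lx_Th hX kN k14 kK k18, eN, eK]
    unfold Thc
    ring
  have h1 := C.rq hL (W := (Nbc n 0 (lx X gg) (lx X w2) (lx X g') (lx X δ2) (lx X h2) (lx X u2) -
      Nc (lx X V) (lx X c0) (lx X P2) (lx X h2) (lx X u2) (lx X gg) (lx X w2) (lx X g') (lx X δ2) +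
      lx X L + (2 * y1 + y2)) / 3 + 5 / 3 * (n - Ec (lx X gg) (lx X w2) (lx X g') (lx X δ2)) -
      sn + 7 * τ) le_rfl hσ c8
  set Wt : ℝ := (Nbc n 0 (lx X gg) (lx X w2) (lx X g') (lx X δ2) (lx X h2) (lx X u2) -
      Nc (lx X V) (lx X c0) (lx X P2) (lx X h2) (lx X u2) (lx X gg) (lx X w2) (lx X g') (lx X δ2) +
      lx X L + (2 * y1 + y2)) / 3 + 5 / 3 * (n - Ec (lx X gg) (lx X w2) (lx X g') (lx X δ2)) -
      sn + 7 * τ with hWt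
  have hA0 : 0 < Th N q K L * (L ^ (1 / 3 : ℝ) * (N / Nb) ^ (2 / 3 : ℝ)) := by positivity
  have hA : lx X (Th N q K L * (L ^ (1 / 3 : ℝ) * (N / Nb) ^ (2 / 3 : ℝ))) =
      lx X (Th N q K L) + (1 / 3 * lx X L + 2 / 3 * (lx X N - lx X Nb)) := by
    rw [lx_mul kTh (by positivity), lx_mul (by positivity) (by positivity), lx_rpow k18,
      lx_rpow (by positivity), lx_div kN k19]
  have hWJ : Wc * (E * J) ≤ X ^ (Wt + (lx X E + lx X J)) := by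
    rw [Real.rpow_add hX0 Wt, Real.rpow_add hX0 (lx X E), rpow_lx hX kE, rpow_lx hX kJ]
    exact mul_le_mul_of_nonneg_right hW (by positivity)
  refine term_le hX kP hA0 (by positivity) hP hA.le hWJ ?_
  rw [eTh, eE, eJ, eN, hNb, hp, htg]
  linarith

/-- **the number of a class of cells**, class E, explicit form -/
theorem phi_coreE {X : ℝ} (hX : 1 < X) {κ V c0 g1 g2 q Nα E_ L W1 Wc TD T1 T2 k2 kA θ Mb Ek : ℝ}
    {n : Fin 12 → ℕ} {En Jn Nn Kc Nb mn Bs : ℝ} {τ κ₀ : ℝ} {z' : Cls} {kG r1 r2 mx os : ℝ}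
    {ρ1 ρ2 : ℕ}
    (hEn : En = g2 * (2 ^ n 7 * (2 ^ n 8 * 2 ^ n 10))) (hJn : Jn = 2 ^ n 3 * (2 ^ n 9 * 2 ^ n 6))
    (hNn : Nn = V / (c0 * Jn * En ^ 2)) (hKc : Kc = κ / ((2 : ℝ) ^ n 4) ^ 2)
    (hNb : Nb = Nα * (2 ^ n 9 * 2 ^ n 6) / En) (hmn : mn = 2 ^ n 10 * 2 ^ n 11)
    (hBs : Bs = ((2 : ℝ) ^ n 0 * 2 ^ n 1) ^ (4 / 3 : ℝ) *
      (c0 * 2 ^ n 3 * En ^ 2 / (g1 * 2 ^ n 5)) ^ (1 / 3 : ℝ) / 2 ^ n 4)
    (hκ0 : 0 < κ) (hV0 : 0 < V) (hc0 : 0 < c0) (hg1 : 0 < g1) (hg2 : 0 < g2)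
    (hq0 : 0 < q) (hNα : 0 < Nα) (hE_ : 0 ≤ E_)
    (C : Cel τ κ₀ z' kG r1 r2 mx (n 0 * lx X 2) (n 1 * lx X 2) (n 3 * lx X 2) (n 4 * lx X 2)
      (n 5 * lx X 2) (n 6 * lx X 2) (n 7 * lx X 2) (n 8 * lx X 2) (n 9 * lx X 2)
      (n 10 * lx X 2) (n 11 * lx X 2) (lx X q) (lx X c0) (lx X g1) (lx X g2) os (lx X V))
    (hr1 : r1 = ρ1 * lx X 2) (hr2 : r2 = ρ2 * lx X 2)
    (hMb : 0 ≤ Mb) (hMbX : Mb ≤ X ^ (mx + τ)) (hEk : 0 ≤ Ek) (hEkX : Ek ≤ X ^ τ)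
    (hθ0 : 0 ≤ θ) (hth : θ ≤ X ^ τ) (hk2 : 0 ≤ k2) (hkA : k2 ≤ kA) (hkA0 : 0 < kA)
    {d u' T0 f fg ex lt sR S0 : ℝ} (hfg : f ≤ fg) (hd0 : 0 ≤ d) (hd : d ≤ 1 / 8)
    (hL : L = Ls X lt ρ1 ρ2 n) {W0 : Prop}
    (HL : Lines d (lx X κ) (κ₀ * z'.v1) (lx X Nα) 0 (κ₀ * z'.R1) (κ₀ * z'.R2) u' (κ₀ * z'.lqt)
      (κ₀ * (z'.Y0 + z'.Y1)) (κ₀ * (z'.c02 + z'.c12 + z'.nu)) T0 (κ₀ * (z'.c12 + z'.s1)) f fg mx ex
      lt W0)
    (c8 : Line8 (lx X κ) (κ₀ * z'.v1) (lx X Nα) (κ₀ * z'.R1) (κ₀ * z'.R2) (κ₀ * z'.lqt)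
      (κ₀ * (z'.Y0 + z'.Y1)) (κ₀ * (z'.c02 + z'.c12 + z'.nu)) T0 sR mx ex lt)
    (hos : os ≤ κ₀ * (z'.c12 + z'.s1) + τ)
    (hTD0 : 0 ≤ TD) (hT10 : 0 ≤ T1) (hT20 : 0 ≤ T2)
    (hTD : TD ≤ X ^ (T0 - 2 / 3 * lx X En - lx X Nα / 3 + τ))
    (hT1 : T1 ≤ X ^ (T0 + f - 2 / 3 * lx X En - lx X Nα / 3 + τ))
    (hT2 : T2 ≤ X ^ (T0 + fg - 2 / 3 * lx X En - lx X Nα / 3 + τ))
    (hW0 : 0 ≤ W1) (hWz : W0 → W1 = 0) (hWz' : ¬ 1 ≤ L → W1 = 0)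
    {ih : ℝ} (hih : ih ≤ lx X Nb - lx X Nn + lx X L +
      (2 * (κ₀ * (z'.Y0 + z'.Y1)) + κ₀ * (z'.c02 + z'.c12 + z'.nu)) + 5 * τ)
    (hW : 1 ≤ L → W1 ≤ X ^ (rr3 d ih (lx X Nα - lx X En) u' -
      (lx X Nα - lx X En) / 3 + τ))
    (hc0' : 0 ≤ Wc) (hcz : ¬ 1 ≤ L → Wc = 0) (hS0 : sR ≤ max 0 (S0 - κ₀ * z'.R2) + τ)
    (hWc : 1 ≤ L → Wc ≤ X ^ (ih / 3 + 5 / 3 * (lx X Nα - lx X En) - max 0 (S0 - lx X En) + τ)) :
    κ * (Mb * Ek * θ ^ 2 * V ^ (-(1 / 3) : ℝ) * Bs *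
      (E_ * TD + E_ * ((Nn ^ 2 * q / (Kc * L)) ^ (1 / 3 : ℝ) * (1 + L * Nn ^ (-(1 / 2) : ℝ)) +
        Nn * mn ^ 2 / Kc + Nn * mn / Kc ^ (2 / 3 : ℝ)) * T1 +
        E_ * ((Nn ^ 2 * q / (Kc * L)) ^ (1 / 3 : ℝ) * (L * Nn ^ (-(1 / 2) : ℝ))) * T2 +
        k2 * (E_ * ((Nn ^ 2 * q / (Kc * L)) ^ (1 / 3 : ℝ) *
          ((Real.sqrt L + Real.sqrt (L * Nn / Nb)) * W1 +
            L ^ (1 / 3 : ℝ) * (Nn / Nb) ^ (2 / 3 : ℝ) * Wc)) * (En * (Jn / kA))))) ≤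
      E_ * (9 * X ^ (lx X κ + 2 * (κ₀ * z'.lam) + T0 - (lx X V + κ₀ * z'.us) / 3 -
        lx X Nα / 3 + ex + 2000 * τ)) := by
  have hX0 : 0 < X := by linarith
  have hτ := C.τ0
  have hcore := phi_core hX hEn hJn hNn hKc hNb hmn hBs hκ0 hV0 hc0 hg1 hg2 hq0 hNα hE_ C hr1 hr2
    hMb hMbX hEk hEkX hθ0 hth hk2 hkA hkA0 hfg hd0 hd hL HL hos hTD0 hT10 hT20 hTD hT1 hT2 hW0
    hWz hWz' hih hW
  have CC := C.ce (k := lx X κ) (n := lx X Nα) (s0 := 0)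
  have hLp : 0 < L := by rw [hL]; exact Ls_pos hX0 _ _ _
  have hEn0 : 0 < En := by rw [hEn]; positivity
  have hJn0 : 0 < Jn := by rw [hJn]; positivity
  have hNb0 : 0 < Nb := by rw [hNb]; positivity
  have hmn0 : 0 < mn := by rw [hmn]; positivity
  have p2 : ∀ j : ℕ, lx X ((2 : ℝ) ^ j) = j * lx X 2 := fun j => by rw [lx_pow]
  have P : PN X κ V (2 ^ n 0) (2 ^ n 1) (2 ^ n 3) (2 ^ n 4) (2 ^ n 5) (2 ^ n 6) (2 ^ n 7)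
      (2 ^ n 8) (2 ^ n 9) (2 ^ n 10) (2 ^ n 11) q c0 g1 g2 Nn Kc L Nb mn := by
    refine ⟨hκ0, hV0, by positivity, by positivity, by positivity, by positivity, by positivity,
      by positivity, by positivity, by positivity, by positivity, by positivity, by positivity,
      hq0, hc0, hg1, hg2, hLp, hNb0, hmn0, ?_, hKc, ?_⟩
    · rw [hNn, hJn, hEn]
    · rw [hmn, lx_mul (by positivity) (by positivity)]
  have eE : lx X En = Ec (lx X g2) (n 7 * lx X 2) (n 8 * lx X 2) (n 10 * lx X 2) := by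
    have := P.lxE
    rw [p2, p2, p2, ← hEn] at this
    exact this
  have eN : lx X Nn = Nc (lx X V) (lx X c0) (n 3 * lx X 2) (n 9 * lx X 2) (n 6 * lx X 2)
      (lx X g2) (n 7 * lx X 2) (n 8 * lx X 2) (n 10 * lx X 2) := by
    have := P.lxN
    simp only [p2] at this
    exact this
  have eNb : lx X Nb = Nbc (lx X Nα) 0 (lx X g2) (n 7 * lx X 2) (n 8 * lx X 2) (n 10 * lx X 2)
      (n 9 * lx X 2) (n 6 * lx X 2) := by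
    unfold Nbc
    rw [hNb, lx_div (by positivity) hEn0, lx_mul hNα (by positivity),
      lx_mul (by positivity) (by positivity), eE, p2, p2]
    ring
  -- the dual length
  have a1 := abs_le.mp C.ut
  have a2 := C.w0
  have a3 := C.s0
  have a4 := C.gp
  have a5 := C.δp
  have a6 := abs_le.mp C.g2t
  have a7 := abs_le.mp C.r2t
  have hl : |lx X L - Lc lt (n 9 * lx X 2) (max 0 (n 7 * lx X 2 - r2))
      (max 0 (n 4 * lx X 2 - os - (n 7 * lx X 2 - r2))) (n 8 * lx X 2) (n 10 * lx X 2)| ≤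
      6 * (15 * τ) := by
    rw [hL, lx_Ls hX]
    simp only [p2]
    unfold Lc
    have m1 : max 0 (n 7 * lx X 2 - r2) ≤ n 7 * lx X 2 - r2 + τ :=
      max_le (by linarith) (by linarith)
    have m1' := le_max_right 0 (n 7 * lx X 2 - r2)
    have m2 : max 0 (n 4 * lx X 2 - os - (n 7 * lx X 2 - r2)) ≤
        n 4 * lx X 2 - os - (n 7 * lx X 2 - r2) + τ :=
      max_le (by linarith) (by linarith)
    have m2' := le_max_right 0 (n 4 * lx X 2 - os - (n 7 * lx X 2 - r2))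
    rw [abs_le, ← hr1, ← hr2]
    constructor <;> linarith [a1.1, a1.2]
  -- the bias
  have hER : κ₀ * z'.R2 - 3 * τ ≤ lx X En := by
    rw [eE]
    unfold Ec
    linarith [a6.1, a7.2]
  have hσ : sR ≤ max 0 (S0 - lx X En) + (lx X En - κ₀ * z'.R2) + 7 * (15 * τ) := by
    have hS0' : max 0 (S0 - κ₀ * z'.R2) ≤
        max 0 (S0 - lx X En) + (lx X En - κ₀ * z'.R2) + 6 * τ := by
      refine max_le ?_ ?_
      · have := le_max_left 0 (S0 - lx X En)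
        linarith
      · have := le_max_right 0 (S0 - lx X En)
        linarith
    linarith
  have hMb' : 0 < X ^ (mx + τ) := by positivity
  have hXτ : 0 < X ^ τ := by positivity
  have up : ∀ a b : ℝ, a ≤ b → X ^ a ≤ X ^ b := fun a b h =>
    Real.rpow_le_rpow_of_exponent_le hX.le h
  have c8' : Line8 (lx X κ) (κ₀ * z'.v1) (lx X Nα) (κ₀ * z'.R1) (κ₀ * z'.R2) (κ₀ * z'.lqt)
      (κ₀ * (z'.Y0 + z'.Y1)) (κ₀ * (z'.c02 + z'.c12 + z'.nu)) T0 sR mx (ex + 15 * τ) lt := by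
    unfold Line8 at c8 ⊢
    linarith
  simp only [← p2] at CC hl eE eN eNb
  have key := phi_cube hX P CC hl eNb (Mb := X ^ (mx + τ)) (Ek := X ^ τ) (θ := X ^ τ) hMb' hXτ hXτ
    (by rw [lx_rpow_self hX]; linarith) (by rw [lx_rpow_self hX]; linarith)
    (by rw [lx_rpow_self hX]; linarith) (Wc := Wc) (T0 := T0) (ex := ex + 15 * τ) (sR := sR)
    (sn := max 0 (S0 - lx X En)) hc0'
    (by
      by_cases h1 : 1 ≤ L
      · refine (hWc h1).trans (up _ _ ?_)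
        rw [← eNb, ← eN, ← eE]
        linarith
      · rw [hcz h1]
        positivity)
    (by rw [← eE]; exact hσ) c8'
  -- the identity
  have hN0 := P.N0
  have hK0 := P.K0
  have eE' : g2 * (2 ^ n 7 * (2 ^ n 8 * 2 ^ n 10)) = En := hEn.symm
  have eJ' : (2 : ℝ) ^ n 3 * (2 ^ n 9 * 2 ^ n 6) = Jn := hJn.symm
  rw [eE', eJ'] at key
  have hP0m : P0 κ Mb Ek θ V (2 ^ n 0) (2 ^ n 1) c0 (2 ^ n 3) En g1 (2 ^ n 5) (2 ^ n 4) ≤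
      P0 κ (X ^ (mx + τ)) (X ^ τ) (X ^ τ) V (2 ^ n 0) (2 ^ n 1) c0 (2 ^ n 3) En g1 (2 ^ n 5)
        (2 ^ n 4) := by
    unfold P0
    gcongr
  have hcnt : k2 * (En * (Jn / kA)) ≤ En * Jn := by
    have : k2 / kA ≤ 1 := (div_le_one hkA0).mpr hkA
    calc k2 * (En * (Jn / kA)) = (k2 / kA) * (En * Jn) := by field_simp
      _ ≤ 1 * (En * Jn) := by gcongr
      _ = _ := one_mul _
  obtain ⟨A', hA'⟩ : ∃ a, a = Th Nn q Kc L * (L ^ (1 / 3 : ℝ) * (Nn / Nb) ^ (2 / 3 : ℝ)) :=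
    ⟨_, rfl⟩
  have hA'0 : 0 ≤ A' := by rw [hA']; unfold Th; positivity
  rw [← hA'] at key
  have kcnt : (0 : ℝ) ≤ k2 * (En * (Jn / kA)) := by positivity
  have kP0 : 0 ≤ P0 κ Mb Ek θ V (2 ^ n 0) (2 ^ n 1) c0 (2 ^ n 3) En g1 (2 ^ n 5) (2 ^ n 4) := by
    unfold P0; positivity
  have key2 : P0 κ Mb Ek θ V (2 ^ n 0) (2 ^ n 1) c0 (2 ^ n 3) En g1 (2 ^ n 5) (2 ^ n 4) *
      (A' * (Wc * (k2 * (En * (Jn / kA))))) ≤
      X ^ (lx X κ + 2 * (κ₀ * z'.lam) + T0 - (lx X V + κ₀ * z'.us) / 3 - lx X Nα / 3 + ex +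
        2000 * τ) := by
    refine le_trans ?_ (key.trans (up _ _ (by linarith)))
    exact mul_le_mul hP0m (mul_le_mul_of_nonneg_left (mul_le_mul_of_nonneg_left hcnt hc0') hA'0)
      (by positivity) (by unfold P0; positivity)
  have e1 : κ * (Mb * Ek * θ ^ 2 * V ^ (-(1 / 3) : ℝ) * Bs *
      (E_ * TD + E_ * ((Nn ^ 2 * q / (Kc * L)) ^ (1 / 3 : ℝ) * (1 + L * Nn ^ (-(1 / 2) : ℝ)) +
        Nn * mn ^ 2 / Kc + Nn * mn / Kc ^ (2 / 3 : ℝ)) * T1 +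
        E_ * ((Nn ^ 2 * q / (Kc * L)) ^ (1 / 3 : ℝ) * (L * Nn ^ (-(1 / 2) : ℝ))) * T2 +
        k2 * (E_ * ((Nn ^ 2 * q / (Kc * L)) ^ (1 / 3 : ℝ) *
          ((Real.sqrt L + Real.sqrt (L * Nn / Nb)) * W1 +
            L ^ (1 / 3 : ℝ) * (Nn / Nb) ^ (2 / 3 : ℝ) * Wc)) * (En * (Jn / kA))))) =
      κ * (Mb * Ek * θ ^ 2 * V ^ (-(1 / 3) : ℝ) * Bs *
      (E_ * TD + E_ * ((Nn ^ 2 * q / (Kc * L)) ^ (1 / 3 : ℝ) * (1 + L * Nn ^ (-(1 / 2) : ℝ)) +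
        Nn * mn ^ 2 / Kc + Nn * mn / Kc ^ (2 / 3 : ℝ)) * T1 +
        E_ * ((Nn ^ 2 * q / (Kc * L)) ^ (1 / 3 : ℝ) * (L * Nn ^ (-(1 / 2) : ℝ))) * T2 +
        k2 * (E_ * ((Nn ^ 2 * q / (Kc * L)) ^ (1 / 3 : ℝ) *
          ((Real.sqrt L + Real.sqrt (L * Nn / Nb)) * W1)) * (En * (Jn / kA))))) +
      E_ * (P0 κ Mb Ek θ V (2 ^ n 0) (2 ^ n 1) c0 (2 ^ n 3) En g1 (2 ^ n 5) (2 ^ n 4) *
        (A' * (Wc * (k2 * (En * (Jn / kA)))))) := by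
    rw [hA', hBs]
    unfold P0 Th
    ring
  rw [e1]
  refine (add_le_add hcore (mul_le_mul_of_nonneg_left key2 hE_)).trans (le_of_eq ?_)
  ring

/-- the closer gives the lines, class E -/
theorem lines_of_LTE {X κ₀ τ N mx Nα : ℝ} {z' : Cls} {δ₀ u' T0 T ρ f g sR ex : ℝ}
    (hτ : 20 * τ ≤ 1 / 25 - 1 / 30) (hτ0 : 0 ≤ τ)
    (hd0 : 0 ≤ δ₀) (hd : δ₀ ≤ 1 / 8) (hκ : 0 ≤ κ₀) (hR1 : 0 ≤ z'.R1) (hs : 0 ≤ z'.s)
    (hN : |lx X Nα - κ₀ * (N - z'.β)| ≤ τ) (hT : T ≤ T0)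
    (HC : He918.XLTEX δ₀ (κ₀ * z'.k) (κ₀ * z'.v1) (κ₀ * z'.N1 N) (κ₀ * (N - z'.β)) (κ₀ * z'.R1)
      (κ₀ * z'.R2) u' (κ₀ * z'.lqt) (κ₀ * z'.sh) (κ₀ * z'.cnt) T ρ f g sR mx ex) :
    ∃ lt : ℝ, Lines δ₀ (κ₀ * z'.k) (κ₀ * z'.v1) (lx X Nα) 0 (κ₀ * z'.R1) (κ₀ * z'.R2) u'
      (κ₀ * z'.lqt) (κ₀ * (z'.Y0 + z'.Y1)) (κ₀ * (z'.c02 + z'.c12 + z'.nu)) T0 ρ f g mx
      (ex + 5 * τ) lt False ∧
      Line8 (κ₀ * z'.k) (κ₀ * z'.v1) (lx X Nα) (κ₀ * z'.R1) (κ₀ * z'.R2)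
      (κ₀ * z'.lqt) (κ₀ * (z'.Y0 + z'.Y1)) (κ₀ * (z'.c02 + z'.c12 + z'.nu)) T0 sR mx
      (ex + 5 * τ) lt := by
  have h1 : κ₀ * z'.N1 N ≤ κ₀ * (N - z'.β) := by
    have : z'.N1 N ≤ N - z'.β := by unfold Cls.N1; linarith
    exact mul_le_mul_of_nonneg_left this hκ
  obtain ⟨lt, g1, g2, g3, g4, g5, g6, g7, g8⟩ := HC
  have esh : κ₀ * z'.sh = κ₀ * z'.R1 - κ₀ * z'.R2 + 2 * (κ₀ * (z'.Y0 + z'.Y1)) +
      κ₀ * (z'.c02 + z'.c12 + z'.nu) := by unfold Cls.sh; ring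
  have ecnt : κ₀ * z'.cnt = κ₀ * z'.R1 + 2 * (κ₀ * z'.R2) + κ₀ * (z'.Y0 + z'.Y1) +
      2 * (κ₀ * (z'.c02 + z'.c12 + z'.nu)) := by unfold Cls.cnt; ring
  have hN' := abs_le.mp hN
  have hR1' : 0 ≤ κ₀ * z'.R1 := mul_nonneg hκ hR1
  refine ⟨lt, ⟨by linarith, by linarith, by linarith, by linarith, by linarith,
    Or.inr ⟨by linarith, ?_⟩⟩, ?_⟩
  · rw [max_half] at g7
    have i1 : rr3 δ₀ (lx X Nα - 0 + lt - κ₀ * z'.v1 + (κ₀ * z'.R1 - κ₀ * z'.R2 +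
        2 * (κ₀ * (z'.Y0 + z'.Y1)) + κ₀ * (z'.c02 + z'.c12 + z'.nu)))
        (lx X Nα - 0 - κ₀ * z'.R2) u' ≤
        rr3 δ₀ (κ₀ * (N - z'.β) + lt - κ₀ * z'.v1 + κ₀ * z'.sh) (κ₀ * (N - z'.β) - κ₀ * z'.R2) u' +
          3 * τ := by
      have j1 : rr3 δ₀ (lx X Nα - 0 + lt - κ₀ * z'.v1 + (κ₀ * z'.R1 - κ₀ * z'.R2 +
          2 * (κ₀ * (z'.Y0 + z'.Y1)) + κ₀ * (z'.c02 + z'.c12 + z'.nu)))
          (lx X Nα - 0 - κ₀ * z'.R2) u' ≤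
          rr3 δ₀ ((κ₀ * (N - z'.β) + lt - κ₀ * z'.v1 + κ₀ * z'.sh) + τ)
            (lx X Nα - 0 - κ₀ * z'.R2) u' := rr3_mono hd0 (by rw [esh]; linarith)
      have j2 := rr3_lip (i := κ₀ * (N - z'.β) + lt - κ₀ * z'.v1 + κ₀ * z'.sh)
        (n := lx X Nα - 0 - κ₀ * z'.R2) (u := u') hd0 hd hτ0
      have j3 := rr3_add_n δ₀ (κ₀ * (N - z'.β) + lt - κ₀ * z'.v1 + κ₀ * z'.sh)
        (κ₀ * (N - z'.β) - κ₀ * z'.R2) (lx X Nα - κ₀ * (N - z'.β)) u'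
      have e : κ₀ * (N - z'.β) - κ₀ * z'.R2 + (lx X Nα - κ₀ * (N - z'.β)) =
          lx X Nα - 0 - κ₀ * z'.R2 := by ring
      rw [e] at j3
      linarith
    have i2 : max 0 ((κ₀ * z'.v1 - (lx X Nα - 0 - κ₀ * z'.R2 + κ₀ * z'.R1)) / 2) ≤
        max 0 ((κ₀ * z'.v1 - (κ₀ * (N - z'.β) - κ₀ * z'.R2 + κ₀ * z'.R1)) / 2) + τ := by
      refine max_le ?_ ?_
      · linarith [le_max_left (0 : ℝ)
          ((κ₀ * z'.v1 - (κ₀ * (N - z'.β) - κ₀ * z'.R2 + κ₀ * z'.R1)) / 2)]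
      · linarith [le_max_right (0 : ℝ)
          ((κ₀ * z'.v1 - (κ₀ * (N - z'.β) - κ₀ * z'.R2 + κ₀ * z'.R1)) / 2)]
    rw [rr_eq] at g7
    linarith
  · unfold Line8
    unfold rP at g8
    linarith

end Crest.Agent.R017.XL842
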