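import Crest.Agent.R017.LBh_298
import Crest.Agent.R017.LVs_73
import Crest.Agent.R017.LVb_164
import Crest.Agent.R017.XHB4_411
import Crest.Agent.R012.CR2b_180

/-!
# Row 17, level rule: large values counting for cube-free `k` (helper702)

* `of_blocks` : cube-free `k` are in boundedly many blocks
* `lvA` : (LV) for all lengths (helper298 `count_any`, helper73 `lsS` above `K^2`)
* `lvB` : (LV') (helper73 `lvS`)
-/

set_option autoImplicit false

noncomputable section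

open Complex Finset
open scoped ComplexConjugate

namespace Crest.Agent.R017.XLvA702

open Crest.Agent.R012 Crest.Agent.R012.Eis Crest.Agent.R012.LS2 Crest.Agent.R012.Char766
open Crest.Agent.R017.CM106 Crest.Agent.R017.LV404 Crest.Agent.R017.LVs73
open Crest.Agent.R017.Lbc298
open Crest.Agent.R017.Prov71 (CubeFree)
open Crest.Agent.R012.CR2 (card_bl_le)
open Crest.Agent.R017.End699 (PF)
open Crest.Agent.R017.LV164 (lvProp)

lemma dc_m_unit {k : Eis} (hk : CubeFree k) : nm (dc k).m = 1 := by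
  by_contra hne
  have hm0 := m_ne_zero hk.1
  have hnu : ¬ IsUnit (dc k).m := fun h => hne (isUnit_iff.1 h)
  obtain ⟨p, hp, hpm⟩ := WfDvdMonoid.exists_irreducible_factor hnu hm0
  refine hk.2 p hp.prime ?_
  have h1 := red_mul hk.1
  rw [h1]
  exact (pow_dvd_pow_of_dvd hpm 3).trans (dvd_mul_left _ _)

open Classical in
/-- a bound on the blocks gives a bound for cube-free sets -/
theorem of_blocks {K : ℝ} (hK : 0 ≤ K) {T : Finset Eis} (hT : T ⊆ bl K)
    (hcf : ∀ k ∈ T, CubeFree k) {V A : ℝ}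
    (h : ∀ (i j : ℕ) (m : Eis), m ≠ 0 → nm m = 1 → ∀ T' : Finset Eis, T' ⊆ T → T' ⊆ Bk K i j m →
      (T'.card : ℝ) * V ≤ A) : (T.card : ℝ) * V ≤ 144 * A := by
  set B : Finset ((ℕ × ℕ) × Eis) := (Finset.range 3 ×ˢ Finset.range 3) ×ˢ bl 1 with hB
  set f : Eis → (ℕ × ℕ) × Eis := fun k => (((dc k).i, (dc k).j), (dc k).m) with hf
  have hA : 0 ≤ A := by
    have := h 0 0 1 one_ne_zero (by simp) ∅ (Finset.empty_subset _) (Finset.empty_subset _)
    simpa using this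
  have hfB : ∀ k ∈ T, f k ∈ B := by
    intro k hk
    have hk0 := (hcf k hk).1
    have hd := dc_spec hk0
    rw [hB, Finset.mem_product, Finset.mem_product]
    refine ⟨⟨Finset.mem_range.2 hd.hi, Finset.mem_range.2 hd.hj⟩, ?_⟩
    rw [mem_bl zero_le_one]
    exact ⟨m_ne_zero hk0, by rw [dc_m_unit (hcf k hk)]; simp⟩
  have h1 : (T.card : ℝ) = ∑ b ∈ B, ((T.filter (fun k => f k = b)).card : ℝ) := by
    exact_mod_cast Finset.card_eq_sum_card_fiberwise (s := T) (t := B) (f := f)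
      (fun k hk => hfB k (Finset.mem_coe.1 hk))
  have h2 : ∀ b ∈ B, ((T.filter (fun k => f k = b)).card : ℝ) * V ≤ A := by
    intro b _
    rcases (T.filter (fun k => f k = b)).eq_empty_or_nonempty with he | ⟨k0, hk0⟩
    · rw [he]; simpa using hA
    · obtain ⟨hk1, hk2⟩ := Finset.mem_filter.1 hk0
      have hm : b.2 = (dc k0).m := by rw [← hk2]
      refine h b.1.1 b.1.2 b.2 (by rw [hm]; exact m_ne_zero (hcf k0 hk1).1)
        (by rw [hm]; exact dc_m_unit (hcf k0 hk1)) _ (Finset.filter_subset _ _) ?_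
      intro k hk
      obtain ⟨hk3, hk4⟩ := Finset.mem_filter.1 hk
      rw [mem_Bk hK]
      refine ⟨(mem_bl hK).1 (hT hk3), ?_, ?_, ?_⟩ <;> rw [← hk4]
  have hcB : (B.card : ℝ) ≤ 144 := by
    have h3 := card_bl_le (Y := 1) zero_le_one
    rw [hB, Finset.card_product, Finset.card_product, Finset.card_range]
    push_cast
    linarith
  calc (T.card : ℝ) * V = ∑ b ∈ B, ((T.filter (fun k => f k = b)).card : ℝ) * V := by
        rw [h1, Finset.sum_mul]
    _ ≤ ∑ _b ∈ B, A := Finset.sum_le_sum h2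
    _ = (B.card : ℝ) * A := by rw [Finset.sum_const, nsmul_eq_mul]
    _ ≤ 144 * A := mul_le_mul_of_nonneg_right hcB hA

/-- the indices of a block -/
lemma blk_ix {K : ℝ} (hK : 0 ≤ K) {i j : ℕ} {m : Eis} (hm1 : nm m = 1) {T : Finset Eis}
    (hT : T ⊆ Bk K i j m) {α : Eis → ℂ} (hα : FS α) :
    ∃ Q : Finset Ix, Q.card = T.card ∧ (∀ q ∈ Q, Adm K q) ∧
      ∀ V : ℝ, (∀ k ∈ T, V ≤ ‖CS α k‖ ^ 2) →
        ∀ q ∈ Q, V ≤ ‖∑ n ∈ hα.fin.toFinset, cc α i j m n * ch q n‖ ^ 2 := by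
  classical
  have hT' : ∀ k ∈ T, (k ≠ 0 ∧ (nm k : ℝ) ≤ K) ∧ (dc k).i = i ∧ (dc k).j = j ∧ (dc k).m = m :=
    fun k hk => (mem_Bk hK).mp (hT hk)
  have hinj : Set.InjOn dq (T : Set Eis) := by
    intro a ha b hb hab
    have h1 := hT' a (Finset.mem_coe.mp ha)
    have h2 := hT' b (Finset.mem_coe.mp hb)
    exact dq_inj h1.1.1 h2.1.1 (h1.2.1.trans h2.2.1.symm) (h1.2.2.1.trans h2.2.2.1.symm)
      (h1.2.2.2.trans h2.2.2.2.symm) hab
  refine ⟨T.image dq, Finset.card_image_of_injOn hinj, ?_, ?_⟩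
  · intro q hq
    rw [Finset.mem_image] at hq
    obtain ⟨k, hk, rfl⟩ := hq
    have h1 := hT' k hk
    have h2 := adm_dq h1.1.1 h1.1.2
    rw [h1.2.2.2, hm1] at h2
    simpa using h2
  · intro V hV q hq
    rw [Finset.mem_image] at hq
    obtain ⟨k, hk, rfl⟩ := hq
    have h1 := hT' k hk
    have h2 := CS_class hα h1.1.1
    rw [h1.2.1, h1.2.2.1, h1.2.2.2] at h2
    have h3 : ∑' n : Eis, cc α i j m n * ch (dq k) n =
        ∑ n ∈ hα.fin.toFinset, cc α i j m n * ch (dq k) n := by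
      refine tsum_eq_sum fun n hn => ?_
      have h0 : α n = 0 := by
        by_contra h0
        exact hn (by rw [Set.Finite.mem_toFinset]; exact h0)
      unfold cc
      rw [h0, zero_mul, zero_mul]
    rw [← h3, ← h2]
    exact hV k hk

lemma cc_l2 {α : Eis → ℂ} (hα : FS α) (i j : ℕ) (m : Eis) :
    ∑ n ∈ hα.fin.toFinset, ‖cc α i j m n‖ ^ 2 ≤ ∑' n, ‖α n‖ ^ 2 :=
  ((FS.summable_sq (FS.cc hα i j m)).sum_le_tsum _ fun n _ => by positivity).trans
    (tsum_cc_le hα i j m)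

lemma supp_le {α : Eis → ℂ} {R : ℕ} {W Z : ℝ} (h : Cf R W α) (hZ : W ≤ Z) :
    ∀ n ∈ h.fs.fin.toFinset, (nm n : ℝ) ≤ Z := by
  intro n hn
  rw [Set.Finite.mem_toFinset] at hn
  exact (h.supp n hn).trans hZ

/-- **(LV)**, cube-free `k`, all lengths -/
theorem lvA {θ η : ℝ} (hθ : 1 / 2 < θ) (hθ1 : θ ≤ 1) (hPF : PF Set.univ θ) (hη : 0 < η)
    (hη1 : η ≤ 1 / 10) (R : ℕ) :
    ∃ C : ℝ, 1 ≤ C ∧ ∀ (K W : ℝ) (α : Eis → ℂ), 1 ≤ K → 1 ≤ W → Cf R W α →
      ∀ T : Finset Eis, T ⊆ bl K → (∀ k ∈ T, CubeFree k) → ∀ V : ℝ,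
      C * (K * W) ^ (4 * η) * (max W (K ^ ((4 : ℝ) / 3))) ^ ((2 : ℝ) / 3) * W ≤ V →
      (∀ k ∈ T, V ≤ ‖CS α k‖ ^ 2) →
      (T.card : ℝ) * V ≤ C * (K * W) ^ (4 * η) * max W (K ^ ((4 : ℝ) / 3)) * W := by
  obtain ⟨C0, hC0, h0⟩ := count_any lvProp hη hη1 R
  obtain ⟨C1, hC1, h1⟩ := lsS hθ hθ1 hPF hη
  obtain ⟨C2, hC2, h2⟩ := Cf_l2 R hη
  refine ⟨144 * (C0 + 17 * C1 * C2), by nlinarith [mul_pos hC1 (by linarith : (0:ℝ) < C2)], ?_⟩
  intro K W α hK1 hW1 hα T hT hcf V hV hTV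
  have hK0 : 0 < K := by linarith
  have hW0 : 0 < W := by linarith
  have hKW : 1 ≤ K * W := one_le_mul_of_one_le_of_one_le hK1 hW1
  set Z := max W (K ^ ((4 : ℝ) / 3)) with hZ
  have hZ0 : 0 < Z := lt_of_lt_of_le hW0 (le_max_left _ _)
  have hC12 : 0 ≤ 17 * C1 * C2 := by positivity
  have hKWη : 1 ≤ (K * W) ^ (4 * η) := Real.one_le_rpow hKW (by positivity)
  have hKle : K ^ (4 * η) ≤ (K * W) ^ (4 * η) :=
    Real.rpow_le_rpow hK0.le (le_mul_of_one_le_right hK0.le hW1) (by positivity)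
  have key : ∀ (i j : ℕ) (m : Eis), m ≠ 0 → nm m = 1 → ∀ T' : Finset Eis, T' ⊆ T →
      T' ⊆ Bk K i j m → (T'.card : ℝ) * V ≤ (C0 + 17 * C1 * C2) * (K * W) ^ (4 * η) * Z * W := by
    intro i j m hm hm1 T' hT' hTB
    have eL : K / (nm m : ℝ) ^ 3 = K := by rw [hm1]; simp
    rcases le_or_gt Z (K ^ (2 - η)) with hc | hc
    · have h3 := h0 K i j m W Z α hK0.le hm (by rw [eL]; exact hK1) hW1 (le_max_left _ _)
        (by rw [eL]; exact le_max_right _ _) (by rw [eL]; exact hc) hα T' hTB V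
        (by
          rw [eL]
          refine le_trans ?_ hV
          have a1 : C0 ≤ 144 * (C0 + 17 * C1 * C2) := by nlinarith
          gcongr) (fun k hk => hTV k (hT' hk))
      rw [eL] at h3
      refine h3.trans ?_
      have a1 : C0 ≤ C0 + 17 * C1 * C2 := by linarith
      gcongr
    · obtain ⟨Q, hQc, hQA, hQV⟩ := blk_ix hK0.le hm1 hTB hα.fs
      set Z' := max Z (K ^ (2 : ℝ)) with hZ'
      have hZ'0 : 0 < Z' := lt_of_lt_of_le hZ0 (le_max_left _ _)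
      have hZ'1 : 1 ≤ Z' := (hW1.trans (le_max_left _ _)).trans (le_max_left _ _)
      have h3 := h1 K Z' hK1 hZ'1 Q hQA hα.fs.fin.toFinset
        (supp_le hα ((le_max_left _ _).trans (le_max_left _ _))) (cc α i j m)
      have h4 := hQV V (fun k hk => hTV k (hT' hk))
      have h5 : (Q.card : ℝ) * V ≤ ∑ q ∈ Q, ‖∑ n ∈ hα.fs.fin.toFinset, cc α i j m n * ch q n‖ ^ 2 := by
        rw [← nsmul_eq_mul, ← Finset.sum_const]
        exact Finset.sum_le_sum h4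
      have h6 : ∑ n ∈ hα.fs.fin.toFinset, ‖cc α i j m n‖ ^ 2 ≤ C2 * W ^ (1 + η) :=
        (cc_l2 hα.fs i j m).trans (h2 W α hW1 hα)
      have hcard : (Q.card : ℝ) ≤ 16 * K := by
        rw [hQc]
        have h7 : T'.card ≤ (bl K).card := Finset.card_le_card (hT'.trans hT)
        exact le_trans (by exact_mod_cast h7) (card_bl_le hK0.le)
      have h8 : Z' ^ (1 - θ) * K ^ (2 * θ - 1) * (Q.card : ℝ) ≤ 16 * Z' := by
        calc Z' ^ (1 - θ) * K ^ (2 * θ - 1) * (Q.card : ℝ)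
            ≤ Z' ^ (1 - θ) * K ^ (2 * θ - 1) * (16 * K) := by gcongr
          _ = 16 * (Z' ^ (1 - θ) * (K ^ (2 * θ - 1) * K)) := by ring
          _ = 16 * (Z' ^ (1 - θ) * K ^ (2 * θ)) := by
              congr 2
              conv_lhs => rw [← Real.rpow_one K, ← Real.rpow_mul hK0.le, ← Real.rpow_add hK0]
              congr 1; ring
          _ = 16 * (Z' ^ (1 - θ) * (K ^ (2 : ℝ)) ^ θ) := by rw [← Real.rpow_mul hK0.le]
          _ ≤ 16 * (Z' ^ (1 - θ) * Z' ^ θ) := by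
              have : K ^ (2 : ℝ) ≤ Z' := le_max_right _ _
              have hθ0 : 0 ≤ θ := by linarith
              gcongr
          _ = 16 * Z' := by rw [← Real.rpow_add hZ'0]; simp
      have h9 : Z' ≤ Z * K ^ η := by
        have e1 : 1 ≤ K ^ η := Real.one_le_rpow hK1 hη.le
        refine max_le (le_mul_of_one_le_right hZ0.le e1) ?_
        calc K ^ (2 : ℝ) = K ^ (2 - η) * K ^ η := by rw [← Real.rpow_add hK0]; congr 1; ring
          _ ≤ Z * K ^ η := by gcongr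
      have hG0 : 0 ≤ ∑ n ∈ hα.fs.fin.toFinset, ‖cc α i j m n‖ ^ 2 :=
        Finset.sum_nonneg fun _ _ => by positivity
      rw [← hQc]
      calc (Q.card : ℝ) * V ≤ _ := h5
        _ ≤ _ := h3
        _ ≤ C1 * K ^ η * (Z' + 16 * Z') * (C2 * W ^ (1 + η)) := by gcongr
        _ = 17 * C1 * C2 * (K ^ η * W ^ η) * Z' * W := by
            rw [Real.rpow_add hW0, Real.rpow_one]; ring
        _ ≤ 17 * C1 * C2 * (K ^ η * W ^ η) * (Z * K ^ η) * W := by gcongr
        _ = 17 * C1 * C2 * (K ^ η * K ^ η * W ^ η) * Z * W := by ring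
        _ ≤ 17 * C1 * C2 * ((K * W) ^ (4 * η)) * Z * W := by
            have e1 : K ^ η * K ^ η * W ^ η ≤ (K * W) ^ (4 * η) := by
              rw [← Real.rpow_add hK0, Real.mul_rpow hK0.le hW0.le]
              have e2 : K ^ (η + η) ≤ K ^ (4 * η) :=
                Real.rpow_le_rpow_of_exponent_le hK1 (by linarith)
              have e3 : W ^ η ≤ W ^ (4 * η) :=
                Real.rpow_le_rpow_of_exponent_le hW1 (by linarith)
              gcongr
            gcongr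
        _ ≤ (C0 + 17 * C1 * C2) * (K * W) ^ (4 * η) * Z * W := by
            have a1 : 17 * C1 * C2 ≤ C0 + 17 * C1 * C2 := by linarith
            gcongr
  refine (of_blocks hK0.le hT hcf key).trans (le_of_eq ?_)
  ring

/-- **(LV')**, cube-free `k` -/
theorem lvB {θ η : ℝ} (hθ : 1 / 2 < θ) (hθ1 : θ ≤ 1) (hPF : PF Set.univ θ) (hη : 0 < η) (R : ℕ) :
    ∃ C : ℝ, 1 ≤ C ∧ ∀ (K W : ℝ) (α : Eis → ℂ), 1 ≤ K → 1 ≤ W → Cf R W α →
      ∀ T : Finset Eis, T ⊆ bl K → (∀ k ∈ T, CubeFree k) → ∀ V : ℝ,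
      C * (K * W) ^ η * (W ^ (1 - θ) * K ^ (2 * θ - 1)) * W ≤ V →
      (∀ k ∈ T, V ≤ ‖CS α k‖ ^ 2) →
      (T.card : ℝ) * V ≤ C * (K * W) ^ η * W * W := by
  obtain ⟨C1, hC1, h1⟩ := lvS hθ hθ1 hPF hη
  obtain ⟨C2, hC2, h2⟩ := Cf_l2 R hη
  have hC12 : 0 < C1 * C2 := by positivity
  refine ⟨144 * (1 + C1 * C2), by nlinarith, ?_⟩
  intro K W α hK1 hW1 hα T hT hcf V hV hTV
  have hK0 : 0 < K := by linarith
  have hW0 : 0 < W := by linarith
  have hG : ∀ i j m, ∑ n ∈ hα.fs.fin.toFinset, ‖cc α i j m n‖ ^ 2 ≤ C2 * W ^ (1 + η) :=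
    fun i j m => (cc_l2 hα.fs i j m).trans (h2 W α hW1 hα)
  have e0 : K ^ η * W ^ (1 + η) = (K * W) ^ η * W := by
    rw [Real.mul_rpow hK0.le hW0.le, Real.rpow_add hW0, Real.rpow_one]; ring
  have key : ∀ (i j : ℕ) (m : Eis), m ≠ 0 → nm m = 1 → ∀ T' : Finset Eis, T' ⊆ T →
      T' ⊆ Bk K i j m → (T'.card : ℝ) * V ≤ (1 + C1 * C2) * (K * W) ^ η * W * W := by
    intro i j m hm hm1 T' hT' hTB
    obtain ⟨Q, hQc, hQA, hQV⟩ := blk_ix hK0.le hm1 hTB hα.fs
    have h4 := hQV V (fun k hk => hTV k (hT' hk))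
    have h3 := h1 K W hK1 hW1 Q hQA hα.fs.fin.toFinset (supp_le hα le_rfl) (cc α i j m) V ?_ h4
    · rw [← hQc]
      calc (Q.card : ℝ) * V ≤ _ := h3
        _ ≤ C1 * K ^ η * W * (C2 * W ^ (1 + η)) := by gcongr; exact hG i j m
        _ = C1 * C2 * (K ^ η * W ^ (1 + η)) * W := by ring
        _ = C1 * C2 * (K * W) ^ η * W * W := by rw [e0]; ring
        _ ≤ _ := by
            have a1 : C1 * C2 ≤ 1 + C1 * C2 := by linarith
            gcongr
    · refine le_trans ?_ hV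
      calc _ ≤ C1 * K ^ η * (W ^ (1 - θ) * K ^ (2 * θ - 1)) * (C2 * W ^ (1 + η)) := by
            gcongr; exact hG i j m
        _ = C1 * C2 * (K ^ η * W ^ (1 + η)) * (W ^ (1 - θ) * K ^ (2 * θ - 1)) := by ring
        _ = C1 * C2 * (K * W) ^ η * (W ^ (1 - θ) * K ^ (2 * θ - 1)) * W := by rw [e0]; ring
        _ ≤ _ := by
            have a1 : C1 * C2 ≤ 144 * (1 + C1 * C2) := by linarith
            gcongr
  refine (of_blocks hK0.le hT hcf key).trans (le_of_eq ?_)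
  ring

end Crest.Agent.R017.XLvA702
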