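import Crest.Agent.R017.XG3_702

/-!
# Row 17: the level rule for granular sides (helper702)

`S l` finite families, `v p i ≥ 0` the value of the piece `p` at `i`.
* `FF S v c l ps = ∑_{i ∈ S l} (∏_{p ∈ ps} v p i)^c`
* `WG` : weak type input for a monomial (list of pieces with repetitions)
* `SupG` : pointwise bound
* `level` : the level rule
-/

set_option autoImplicit false
set_option linter.unusedSectionVars false
set_option linter.unusedVariables false

noncomputable section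

open Set Filter Topology

namespace Crest.Agent.R017.XG702

variable {Pc τ ι Lam : Type*} [DecidableEq τ] (D : Pcs Pc τ)

/-- value of a list of pieces -/
def pvl (v : Pc → ι → ℝ) (ps : List Pc) (i : ι) : ℝ := (ps.map fun p => v p i).prod

/-- the moment of order `c` -/
def FF (S : ℝ → Finset ι) (v : Pc → ι → ℝ) (c : ℕ) (l : ℝ) (ps : List Pc) : ℝ :=
  ∑ i ∈ S l, pvl v ps i ^ c

lemma pvl_nonneg {v : Pc → ι → ℝ} (hv : ∀ p i, 0 ≤ v p i) (ps : List Pc) (i : ι) :
    0 ≤ pvl v ps i := by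
  unfold pvl
  apply List.prod_nonneg
  intro a ha
  rw [List.mem_map] at ha
  obtain ⟨p, _, rfl⟩ := ha
  exact hv p i

lemma pvl_append (v : Pc → ι → ℝ) (ps qs : List Pc) (i : ι) :
    pvl v (ps ++ qs) i = pvl v ps i * pvl v qs i := by
  unfold pvl; rw [List.map_append, List.prod_append]

lemma pvl_perm {v : Pc → ι → ℝ} {ps qs : List Pc} (h : ps.Perm qs) (i : ι) :
    pvl v ps i = pvl v qs i := by
  unfold pvl; exact (h.map _).prod_eq

lemma FF_nonneg {S : ℝ → Finset ι} {v : Pc → ι → ℝ} (hv : ∀ p i, 0 ≤ v p i) (c : ℕ) (l : ℝ)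
    (ps : List Pc) : 0 ≤ FF S v c l ps :=
  Finset.sum_nonneg fun i _ => pow_nonneg (pvl_nonneg hv ps i) c

lemma FF_perm {S : ℝ → Finset ι} {v : Pc → ι → ℝ} {c : ℕ} (l : ℝ) (ps qs : List Pc)
    (h : ps.Perm qs) : FF S v c l ps = FF S v c l qs := by
  unfold FF; exact Finset.sum_congr rfl fun i _ => by rw [pvl_perm h]

/-- Cauchy-Schwarz -/
lemma FF_cauchy {S : ℝ → Finset ι} {v : Pc → ι → ℝ} (hv : ∀ p i, 0 ≤ v p i) (l : ℝ)
    (ps p₁ p₂ : List Pc) (h : ps.Perm (p₁ ++ p₂)) :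
    FF S v 1 l ps ≤ Real.sqrt (FF S v 2 l p₁) * Real.sqrt (FF S v 2 l p₂) := by
  rw [FF_perm l ps _ h]
  unfold FF
  have := Finset.sum_mul_sq_le_sq_mul_sq (S l) (fun i => pvl v p₁ i) (fun i => pvl v p₂ i)
  rw [← Real.sqrt_mul (Finset.sum_nonneg fun i _ => sq_nonneg _)]
  apply Real.le_sqrt_of_sq_le
  refine le_trans (le_of_eq ?_) this
  congr 1
  refine Finset.sum_congr rfl fun i _ => ?_
  rw [pow_one, pvl_append]

/-- weak type input -/
def WG (S : Lam → ℝ → Finset ι) (v : Lam → Pc → ι → ℝ) (κ : ℝ) (u : List ℝ) (w : τ → ℝ)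
    (t b : ℝ) : Prop :=
  ∀ ε : ℝ, 0 < ε → ∃ δ : ℝ, 0 < δ ∧ ∀ (lam : Lam) (N : ℕ) (B : ℝ), ∃ δ' : ℝ, 0 < δ' ∧
    ∃ X₀ : ℝ, 1 < X₀ ∧ ∀ X : ℝ, X₀ ≤ X → ∀ (k : ℝ) (us gs : List Pc), |k - κ| ≤ δ →
      D.Near X δ us u → D.Gran X δ N gs w → D.Good X δ' B (us ++ gs) →
        ∀ (T : Finset ι) (V : ℝ), T ⊆ S lam (k * Real.log X) → X ^ (t + ε) ≤ V →
          (∀ i ∈ T, V ≤ pvl (v lam) (us ++ gs) i ^ 2) → (T.card : ℝ) * V ≤ X ^ (b + ε)

/-- pointwise bound of single pieces -/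
def SupG (S : Lam → ℝ → Finset ι) (v : Lam → Pc → ι → ℝ) (θ : ℝ) : Prop :=
  ∀ ε : ℝ, 0 < ε → ∀ (lam : Lam) (B : ℝ), ∃ δ' : ℝ, 0 < δ' ∧ ∃ X₀ : ℝ, 1 < X₀ ∧
    ∀ X : ℝ, X₀ ≤ X → ∀ (k : ℝ) (p : Pc), k ≤ B → D.nl X p ≤ B → D.Good X δ' B [p] →
      ∀ i ∈ S lam (k * Real.log X), v lam p i ≤ X ^ (θ * D.nl X p + ε)

variable {D}

/-- a moment is a weak type input with any threshold -/
theorem WG.of_BG {S : Lam → ℝ → Finset ι} {v : Lam → Pc → ι → ℝ} {κ : ℝ} {u : List ℝ} {w : τ → ℝ}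
    {e : ℝ} (h : BG D (fun lam => FF (S lam) (v lam) 2) κ u w e) (t : ℝ) :
    WG D S v κ u w t e := by
  intro ε hε
  obtain ⟨δ, hδ, H⟩ := h ε hε
  refine ⟨δ, hδ, fun lam N B => ?_⟩
  obtain ⟨δ', hδ', X₀, hX₀, H1⟩ := H lam N B
  refine ⟨δ', hδ', X₀, hX₀, fun X hX k us gs h1 h2 h3 h4 T V hT _ hV => ?_⟩
  refine le_trans ?_ (H1 X hX k us gs h1 h2 h3 h4)
  calc (T.card : ℝ) * V = ∑ _i ∈ T, V := by rw [Finset.sum_const, nsmul_eq_mul]
    _ ≤ ∑ i ∈ T, pvl (v lam) (us ++ gs) i ^ 2 := Finset.sum_le_sum hV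
    _ ≤ _ := Finset.sum_le_sum_of_subset_of_nonneg hT fun i _ _ => sq_nonneg _

theorem WG.mono {S : Lam → ℝ → Finset ι} {v : Lam → Pc → ι → ℝ} {κ : ℝ} {u : List ℝ} {w : τ → ℝ}
    {t t' b b' : ℝ} (h : WG D S v κ u w t b) (ht : t ≤ t') (hb : b ≤ b') :
    WG D S v κ u w t' b' := by
  intro ε hε
  obtain ⟨δ, hδ, H⟩ := h ε hε
  refine ⟨δ, hδ, fun lam N B => ?_⟩
  obtain ⟨δ', hδ', X₀, hX₀, H1⟩ := H lam N B
  refine ⟨δ', hδ', X₀, hX₀, fun X hX k us gs h1 h2 h3 h4 T V hT hV1 hV => ?_⟩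
  have hX1 : (1:ℝ) ≤ X := by linarith
  refine (H1 X hX k us gs h1 h2 h3 h4 T V hT
    ((Real.rpow_le_rpow_of_exponent_le hX1 (by linarith)).trans hV1) hV).trans ?_
  exact Real.rpow_le_rpow_of_exponent_le hX1 (by linarith)

/-! ### lists with multiplicities -/

/-- `f j` repeated `N j` times -/
def rep {α : Type*} {n : ℕ} (N : Fin n → ℕ) (f : Fin n → α) : List α :=
  (List.ofFn fun j => List.replicate (N j) (f j)).flatten

lemma forall₂_replicate {α β : Type*} {R : α → β → Prop} {a : α} {b : β} (h : R a b) (n : ℕ) :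
    List.Forall₂ R (List.replicate n a) (List.replicate n b) := by
  induction n with
  | zero => exact List.Forall₂.nil
  | succ n ih => rw [List.replicate_succ, List.replicate_succ]; exact List.Forall₂.cons h ih

lemma forall₂_flatten {α β : Type*} {R : α → β → Prop} {l₁ : List (List α)} {l₂ : List (List β)}
    (h : List.Forall₂ (List.Forall₂ R) l₁ l₂) : List.Forall₂ R l₁.flatten l₂.flatten := by
  induction h with
  | nil => exact List.Forall₂.nil
  | cons h1 _ ih => rw [List.flatten_cons, List.flatten_cons]; exact List.rel_append h1 ih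

lemma forall₂_ofFn {α β : Type*} {R : α → β → Prop} {n : ℕ} {f : Fin n → α} {g : Fin n → β}
    (h : ∀ j, R (f j) (g j)) : List.Forall₂ R (List.ofFn f) (List.ofFn g) := by
  rw [List.forall₂_iff_get]
  refine ⟨by simp, fun i h1 h2 => ?_⟩
  simp only [List.get_eq_getElem, List.getElem_ofFn]
  exact h _

lemma Near_rep {X δ : ℝ} {n : ℕ} (N : Fin n → ℕ) {U : Fin n → Pc} {u : Fin n → ℝ}
    (h : ∀ j, D.lump (U j) ∧ |D.nl X (U j) - u j| ≤ δ) : D.Near X δ (rep N U) (rep N u) := by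
  unfold Pcs.Near rep
  exact forall₂_flatten (forall₂_ofFn fun j =>
    forall₂_replicate (R := fun p x => D.lump p ∧ |D.nl X p - x| ≤ δ) (h j) (N j))

lemma mem_rep {α : Type*} {n : ℕ} {N : Fin n → ℕ} {f : Fin n → α} {a : α} (h : a ∈ rep N f) :
    ∃ j, a = f j := by
  unfold rep at h
  rw [List.mem_flatten] at h
  obtain ⟨l, hl, ha⟩ := h
  rw [List.mem_ofFn] at hl
  obtain ⟨j, rfl⟩ := hl
  exact ⟨j, (List.mem_replicate.1 ha).2⟩

lemma pvl_flatten (v : Pc → ι → ℝ) (L : List (List Pc)) (i : ι) :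
    pvl v L.flatten i = (L.map fun l => pvl v l i).prod := by
  induction L with
  | nil => simp [pvl]
  | cons l L ih => rw [List.flatten_cons, pvl_append, ih]; simp

lemma pvl_replicate (v : Pc → ι → ℝ) (n : ℕ) (p : Pc) (i : ι) :
    pvl v (List.replicate n p) i = v p i ^ n := by
  unfold pvl; rw [List.map_replicate, List.prod_replicate]

lemma pvl_rep (v : Pc → ι → ℝ) {n : ℕ} (N : Fin n → ℕ) (U : Fin n → Pc) (i : ι) :
    pvl v (rep N U) i = ∏ j, v (U j) i ^ N j := by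
  unfold rep
  rw [pvl_flatten, List.map_ofFn, List.prod_ofFn]
  exact Finset.prod_congr rfl fun j _ => pvl_replicate v _ _ i

/-- copies of granular pieces -/
def cps [Fintype τ] (q : τ → ℕ) (G : τ → Pc) : List Pc :=
  ((Finset.univ : Finset τ).toList.map fun t => List.replicate (q t) (G t)).flatten

lemma mem_cps [Fintype τ] {q : τ → ℕ} {G : τ → Pc} {p : Pc} (h : p ∈ cps q G) :
    ∃ t, 0 < q t ∧ p = G t := by
  unfold cps at h
  rw [List.mem_flatten] at h
  obtain ⟨l, hl, hp⟩ := h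
  rw [List.mem_map] at hl
  obtain ⟨t, _, rfl⟩ := hl
  obtain ⟨h1, h2⟩ := List.mem_replicate.1 hp
  exact ⟨t, Nat.pos_of_ne_zero h1, h2⟩

lemma cps_length [Fintype τ] (q : τ → ℕ) (G : τ → Pc) : (cps q G).length = ∑ t, q t := by
  unfold cps
  rw [List.length_flatten, List.map_map]
  have : (List.length ∘ fun t => List.replicate (q t) (G t)) = q := by
    funext t; simp
  rw [this, Finset.sum_map_toList]

lemma pvl_cps [Fintype τ] (v : Pc → ι → ℝ) (q : τ → ℕ) (G : τ → Pc) (i : ι) :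
    pvl v (cps q G) i = ∏ t, v (G t) i ^ q t := by
  unfold cps
  rw [pvl_flatten, List.map_map]
  have : ((fun l => pvl v l i) ∘ fun t => List.replicate (q t) (G t)) =
      fun t => v (G t) i ^ q t := by
    funext t; simp [pvl_replicate]
  rw [this, Finset.prod_map_toList]

lemma mass_flatten (X : ℝ) (L : List (List Pc)) (t : τ) :
    D.mass X L.flatten t = (L.map fun l => D.mass X l t).sum := by
  induction L with
  | nil => simp
  | cons l L ih => rw [List.flatten_cons, D.mass_append, ih]; simp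

lemma mass_replicate (X : ℝ) (n : ℕ) (p : Pc) (t : τ) :
    D.mass X (List.replicate n p) t = n * (if D.kind p = t then D.nl X p else 0) := by
  unfold Pcs.mass; rw [List.map_replicate, List.sum_replicate, nsmul_eq_mul]

lemma mass_cps [Fintype τ] (X : ℝ) (q : τ → ℕ) (G : τ → Pc) (hG : ∀ t, 0 < q t → D.kind (G t) = t)
    (t : τ) : D.mass X (cps q G) t = q t * D.nl X (G t) := by
  unfold cps
  rw [mass_flatten, List.map_map]
  have : ((fun l => D.mass X l t) ∘ fun s => List.replicate (q s) (G s)) =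
      fun s => if s = t then (q t : ℝ) * D.nl X (G t) else 0 := by
    funext s
    simp only [Function.comp, mass_replicate]
    by_cases hs : s = t
    · subst hs
      rw [if_pos rfl]
      rcases Nat.eq_zero_or_pos (q s) with h | h
      · rw [h]; simp
      · rw [if_pos (hG s h)]
    · rw [if_neg hs]
      rcases Nat.eq_zero_or_pos (q s) with h | h
      · rw [h]; simp
      · rw [if_neg (by rw [hG s h]; exact hs), mul_zero]
  rw [this, Finset.sum_map_toList]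
  simp

/-! ### level data of one index -/

/-- level -/
def lam (v : Pc → ι → ℝ) (X : ℝ) (i : ι) (p : Pc) : ℝ := Real.log (v p i) / Real.log X

lemma rpow_lam {v : Pc → ι → ℝ} {X : ℝ} (hX : 1 < X) {i : ι} {p : Pc} (h : 0 < v p i) :
    X ^ lam v X i p = v p i := by
  have hlog : 0 < Real.log X := Real.log_pos hX
  rw [Real.rpow_def_of_pos (by linarith)]
  unfold lam
  rw [mul_div_cancel₀ _ hlog.ne', Real.exp_log h]

lemma lam_le {v : Pc → ι → ℝ} {X : ℝ} (hX : 1 < X) {i : ι} {p : Pc} (h : 0 < v p i) {a : ℝ}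
    (ha : v p i ≤ X ^ a) : lam v X i p ≤ a := by
  rw [← rpow_lam hX h] at ha
  exact (Real.rpow_le_rpow_left_iff hX).1 ha

lemma pvl_eq {v : Pc → ι → ℝ} {X : ℝ} (hX : 1 < X) {i : ι} {ps : List Pc}
    (h : ∀ p ∈ ps, 0 < v p i) : pvl v ps i = X ^ ((ps.map (lam v X i)).sum) := by
  have hX0 : (0:ℝ) < X := by linarith
  induction ps with
  | nil => simp [pvl]
  | cons p ps ih =>
    have e : pvl v (p :: ps) i = v p i * pvl v ps i := by simp [pvl]
    rw [e, ih fun q hq => h q (List.mem_cons_of_mem _ hq), List.map_cons, List.sum_cons,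
      Real.rpow_add hX0, rpow_lam hX (h p List.mem_cons_self)]

/-- points: levels of the lumps, levels of the granular parts -/
abbrev Pt (n : ℕ) (τ : Type*) := (Fin n → ℝ) × (τ → ℝ)

/-- the compact set of levels -/
def PB {n : ℕ} (B θ : ℝ) (u : Fin n → ℝ) (w : τ → ℝ) : Set (Pt n τ) :=
  (Set.univ.pi fun j => Set.Icc (-B) (θ * u j)) ×ˢ (Set.univ.pi fun s => Set.Icc (-B) (θ * w s))

lemma PB_compact [Fintype τ] {n : ℕ} (B θ : ℝ) (u : Fin n → ℝ) (w : τ → ℝ) :
    IsCompact (PB B θ u w) :=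
  (isCompact_univ_pi fun _ => isCompact_Icc).prod (isCompact_univ_pi fun _ => isCompact_Icc)

/-- level of a monomial -/
def lvF [Fintype τ] {n : ℕ} (w : τ → ℝ) (N : Fin n → ℕ) (f : τ → ℝ) (p : Pt n τ) : ℝ :=
  ∑ j, (N j : ℝ) * p.1 j + ∑ s, f s * (p.2 s / w s)

/-- level of the box -/
def smF [Fintype τ] {n : ℕ} (p : Pt n τ) : ℝ := ∑ j, p.1 j + ∑ s, p.2 s

/-- length of a monomial -/
def lenF [Fintype τ] {n : ℕ} (u : Fin n → ℝ) (N : Fin n → ℕ) (f : τ → ℝ) : ℝ :=
  ∑ j, (N j : ℝ) * u j + ∑ s, f s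

lemma lvF_continuous [Fintype τ] {n : ℕ} (w : τ → ℝ) (N : Fin n → ℕ) (f : τ → ℝ) :
    Continuous (lvF w N f : Pt n τ → ℝ) := by
  unfold lvF
  have c2 : ∀ j, Continuous fun p : Pt n τ => p.1 j := fun j =>
    (continuous_apply j).comp continuous_fst
  have c3 : ∀ s, Continuous fun p : Pt n τ => p.2 s := fun s =>
    (continuous_apply s).comp continuous_snd
  exact (continuous_finsetSum _ fun j _ => continuous_const.mul (c2 j)).add
    (continuous_finsetSum _ fun s _ => continuous_const.mul ((c3 s).div_const _))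

lemma smF_continuous [Fintype τ] {n : ℕ} : Continuous (smF : Pt n τ → ℝ) := by
  unfold smF
  have c2 : ∀ j, Continuous fun p : Pt n τ => p.1 j := fun j =>
    (continuous_apply j).comp continuous_fst
  have c3 : ∀ s, Continuous fun p : Pt n τ => p.2 s := fun s =>
    (continuous_apply s).comp continuous_snd
  exact (continuous_finsetSum _ fun j _ => c2 j).add (continuous_finsetSum _ fun s _ => c3 s)

/-- **the densest granular piece** -/
theorem gran {β : Type*} (G : Finset β) (nl la : β → ℝ) {w B₂ f θ e η' ε₄ : ℝ}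
    (hw : 0 < w) (hB : 0 ≤ B₂) (hf : 0 ≤ f) (hθ : 0 ≤ θ) (he : 0 < e) (hew : e ≤ w / 4)
    (hη : 0 < η') (h40 : 0 ≤ ε₄) (h4 : ε₄ ≤ η') (hnl0 : ∀ g ∈ G, 0 ≤ nl g)
    (hnl : ∀ g ∈ G, nl g ≤ e) (hla : ∀ g ∈ G, la g ≤ θ * nl g + ε₄)
    (hW : |∑ g ∈ G, nl g - w| ≤ e) (hG1 : (G.card : ℝ) * (θ * η' + ε₄) ≤ e)
    (hG2 : (G.card : ℝ) * η' ≤ e) (hT : |∑ g ∈ G, la g| ≤ B₂) :
    ∃ g ∈ G, η' ≤ nl g ∧
      f * ((∑ g ∈ G, la g) / w) - e * (f * (4 * B₂ / w ^ 2 + 2 / w) + θ + 1) ≤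
        (⌊f / nl g⌋₊ : ℝ) * la g := by
  classical
  set T := ∑ g ∈ G, la g with hTdef
  set K := G.filter fun g => η' ≤ nl g with hK
  set K' := G.filter fun g => ¬ η' ≤ nl g with hK'
  set a := ∑ g ∈ K, la g with ha
  set b := ∑ g ∈ K, nl g with hb
  have hsa : a + ∑ g ∈ K', la g = T := Finset.sum_filter_add_sum_filter_not G _ _
  have hsb : b + ∑ g ∈ K', nl g = ∑ g ∈ G, nl g := Finset.sum_filter_add_sum_filter_not G _ _
  have hcK' : (K'.card : ℝ) ≤ G.card := by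
    have : K'.card ≤ G.card := Finset.card_le_card (Finset.filter_subset _ _)
    exact_mod_cast this
  have hη0 : 0 ≤ θ * η' := mul_nonneg hθ hη.le
  have h1 : ∑ g ∈ K', la g ≤ e := by
    calc ∑ g ∈ K', la g ≤ ∑ _g ∈ K', (θ * η' + ε₄) := by
          refine Finset.sum_le_sum fun g hg => ?_
          obtain ⟨hg1, hg2⟩ := Finset.mem_filter.1 hg
          push Not at hg2
          have := mul_le_mul_of_nonneg_left hg2.le hθ
          linarith [hla g hg1]
      _ = (K'.card : ℝ) * (θ * η' + ε₄) := by rw [Finset.sum_const, nsmul_eq_mul]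
      _ ≤ (G.card : ℝ) * (θ * η' + ε₄) := mul_le_mul_of_nonneg_right hcK' (by linarith)
      _ ≤ e := hG1
  have h2 : ∑ g ∈ K', nl g ≤ e := by
    calc ∑ g ∈ K', nl g ≤ ∑ _g ∈ K', η' := by
          refine Finset.sum_le_sum fun g hg => ?_
          obtain ⟨_, hg2⟩ := Finset.mem_filter.1 hg
          push Not at hg2
          exact hg2.le
      _ = (K'.card : ℝ) * η' := by rw [Finset.sum_const, nsmul_eq_mul]
      _ ≤ (G.card : ℝ) * η' := mul_le_mul_of_nonneg_right hcK' hη.le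
      _ ≤ e := hG2
  have h3 : 0 ≤ ∑ g ∈ K', nl g := Finset.sum_nonneg fun g hg => hnl0 g (Finset.mem_filter.1 hg).1
  have hWl := (abs_le.1 hW).1
  have hWr := (abs_le.1 hW).2
  have hbl : w - 2 * e ≤ b := by linarith
  have hbr : b ≤ w + e := by linarith
  have hb0 : w / 2 ≤ b := by linarith
  have hbpos : 0 < b := by linarith
  have ha1 : T - e ≤ a := by linarith
  have ha2 : a ≤ (θ + 1) * b := by
    rw [ha, hb, Finset.mul_sum]
    refine Finset.sum_le_sum fun g hg => ?_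
    obtain ⟨hg1, hg2⟩ := Finset.mem_filter.1 hg
    linarith [hla g hg1]
  have hne : K.Nonempty := by
    rw [Finset.nonempty_iff_ne_empty]
    intro h
    rw [h, Finset.sum_empty] at hb
    linarith
  obtain ⟨g, hg, hle⟩ := Finset.exists_le_of_sum_le hne
    (f := fun g => a * nl g) (g := fun g => la g * b) (by
      rw [← Finset.mul_sum, ← Finset.sum_mul])
  obtain ⟨hg1, hg2⟩ := Finset.mem_filter.1 hg
  refine ⟨g, hg1, hg2, ?_⟩
  have hnlg : 0 < nl g := lt_of_lt_of_le hη hg2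
  set d := a / b with hd
  have hlag : nl g * d ≤ la g := by
    rw [hd, ← mul_div_assoc, div_le_iff₀ hbpos]
    linarith
  have hd1 : d ≤ θ + 1 := by rw [hd, div_le_iff₀ hbpos]; exact ha2
  set q : ℝ := (⌊f / nl g⌋₊ : ℝ) with hq
  have hq0 : 0 ≤ q := Nat.cast_nonneg _
  have hq1 : q * nl g ≤ f := by
    have := Nat.floor_le (div_nonneg hf hnlg.le)
    rwa [le_div_iff₀ hnlg] at this
  have hq2 : f - e ≤ q * nl g := by
    have := Nat.lt_floor_add_one (f / nl g)
    rw [div_lt_iff₀ hnlg] at this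
    have := hnl g hg1
    nlinarith
  have h5 : f * d - e * (θ + 1) ≤ q * la g := by
    have h6 : q * nl g * d ≤ q * la g := by
      have := mul_le_mul_of_nonneg_left hlag hq0
      linarith
    refine le_trans ?_ h6
    rcases le_total 0 d with hd0 | hd0
    · have h7 := mul_le_mul_of_nonneg_right hq2 hd0
      have h8 := mul_le_mul_of_nonneg_left hd1 he.le
      nlinarith
    · have h7 := mul_le_mul_of_nonpos_right hq1 hd0
      have h8 : 0 ≤ e * (θ + 1) := by positivity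
      linarith
  -- density
  have h6 : T / w - e * (4 * B₂ / w ^ 2 + 2 / w) ≤ d := by
    have hT1 := (abs_le.1 hT).1
    have hT2 := (abs_le.1 hT).2
    have e1 : T / w - e * (4 * B₂ / w ^ 2 + 2 / w) =
        (T * w - 4 * B₂ * e - 2 * e * w) / w ^ 2 := by field_simp; ring
    rw [e1, hd, div_le_div_iff₀ (by positivity) hbpos]
    have h7 : (T - e) * w ^ 2 ≤ a * w ^ 2 := mul_le_mul_of_nonneg_right ha1 (by positivity)
    refine le_trans ?_ h7
    -- (T w - 4 B e - 2 e w) b ≤ (T - e) w²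
    have h8 : T * (b - w) ≤ B₂ * (2 * e) := by
      have h9 : |b - w| ≤ 2 * e := by rw [abs_le]; constructor <;> linarith
      calc T * (b - w) ≤ |T * (b - w)| := le_abs_self _
        _ = |T| * |b - w| := abs_mul _ _
        _ ≤ B₂ * (2 * e) := mul_le_mul hT h9 (abs_nonneg _) hB
    have h10 : T * w * (b - w) ≤ B₂ * (2 * e) * w := by
      have := mul_le_mul_of_nonneg_right h8 hw.le
      linarith
    have h11 : B₂ * e * (w / 2) ≤ B₂ * e * b := mul_le_mul_of_nonneg_left hb0 (by positivity)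
    have h12 : e * w * (w / 2) ≤ e * w * b := mul_le_mul_of_nonneg_left hb0 (by positivity)
    have e2 : (T - e) * w ^ 2 - (T * w - 4 * B₂ * e - 2 * e * w) * b =
        (B₂ * (2 * e) * w - T * w * (b - w)) + 4 * (B₂ * e * b - B₂ * e * (w / 2)) +
          2 * (e * w * b - e * w * (w / 2)) := by ring
    linarith
  have h7 := mul_le_mul_of_nonneg_left h6 hf
  calc f * (T / w) - e * (f * (4 * B₂ / w ^ 2 + 2 / w) + θ + 1)
      = f * (T / w - e * (4 * B₂ / w ^ 2 + 2 / w)) - e * (θ + 1) := by ring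
    _ ≤ f * d - e * (θ + 1) := by linarith
    _ ≤ q * la g := h5

/-! ### the local datum -/

/-- the certificate at `P` with all tolerances -/
structure Cel [Fintype τ] (D : Pcs Pc τ) (S : Lam → ℝ → Finset ι) (v : Lam → Pc → ι → ℝ)
    (κ : ℝ) {n : ℕ}
    (u : Fin n → ℝ) (w : τ → ℝ) (c : ℕ) (E ε ε₂ : ℝ) (P : Pt n τ) (N : Fin n → ℕ) (f : τ → ℝ)
    (b vP σ r δ : ℝ) : Prop where
  f0 : ∀ s, 0 ≤ f s
  fw : ∀ s, w s = 0 → f s = 0
  σ0 : 0 < σ
  r0 : 0 < r
  δ0 : 0 < δ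
  wt : ∀ (lam : Lam) (N' : ℕ) (B : ℝ), ∃ δ' : ℝ, 0 < δ' ∧ ∃ X₀ : ℝ, 1 < X₀ ∧ ∀ X : ℝ, X₀ ≤ X →
    ∀ (k : ℝ) (us gs : List Pc), |k - κ| ≤ δ → D.Near X δ us (rep N u) → D.Gran X δ N' gs f →
      D.Good X δ' B (us ++ gs) → ∀ (T : Finset ι) (V : ℝ), T ⊆ S lam (k * Real.log X) →
        X ^ vP ≤ V → (∀ i ∈ T, V ≤ pvl (v lam) (us ++ gs) i ^ 2) →
          (T.card : ℝ) * V ≤ X ^ (b + σ)
  lev : ∀ Q : Pt n τ, dist Q P < r → vP + σ ≤ 2 * (lvF w N f Q + ε₂ * lenF u N f)
  val : ∀ Q : Pt n τ, dist Q P < r → b + σ - vP + c * smF Q ≤ E + ε / 2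

theorem cell [Fintype τ] {S : Lam → ℝ → Finset ι} {v : Lam → Pc → ι → ℝ} {κ : ℝ} {n : ℕ} {u : Fin n → ℝ}
    {w : τ → ℝ} (hu : ∀ j, 0 ≤ u j) {c : ℕ} {E ε ε₂ : ℝ} (hε : 0 < ε) (hε₂ : 0 < ε₂) {P : Pt n τ}
    {N : Fin n → ℕ} {f : τ → ℝ} {t b : ℝ} (hf : ∀ s, 0 ≤ f s) (hfw : ∀ s, w s = 0 → f s = 0)
    (hW : WG D S v κ (rep N u) f t b)
    (hsl : t < 2 * lvF w N f P ∨ (t ≤ 2 * lvF w N f P ∧ 0 < lenF u N f))
    (hE : b - 2 * lvF w N f P + c * smF P ≤ E) :
    ∃ vP σ r δ : ℝ, Cel D S v κ u w c E ε ε₂ P N f b vP σ r δ := by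
  have hlen : 0 ≤ lenF u N f := by
    unfold lenF
    exact add_nonneg (Finset.sum_nonneg fun j _ => mul_nonneg (Nat.cast_nonneg _) (hu j))
      (Finset.sum_nonneg fun s _ => hf s)
  have hc0 : (0:ℝ) ≤ c := Nat.cast_nonneg c
  set sl := 2 * lvF w N f P + 2 * ε₂ * lenF u N f - t with hsldef
  have hslpos : 0 < sl := by
    rcases hsl with h | ⟨h1, h2⟩
    · have : 0 ≤ 2 * ε₂ * lenF u N f := by positivity
      linarith
    · have : 0 < 2 * ε₂ * lenF u N f := by positivity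
      linarith
  set σ := min (sl / 3) (ε / (2 * (c + 3))) with hσ
  have hσ0 : 0 < σ := lt_min (by positivity) (by positivity)
  have hσ1 : 3 * σ ≤ sl := by
    have := min_le_left (sl / 3) (ε / (2 * (c + 3)))
    rw [← hσ] at this; linarith
  have hσ2 : (c + 3) * σ ≤ ε / 2 := by
    have := min_le_right (sl / 3) (ε / (2 * (c + 3)))
    rw [← hσ] at this
    calc (c + 3) * σ ≤ (c + 3) * (ε / (2 * (c + 3))) := mul_le_mul_of_nonneg_left this (by linarith)
      _ = ε / 2 := by field_simp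
  have c1 : ContinuousAt (lvF w N f : Pt n τ → ℝ) P := (lvF_continuous w N f).continuousAt
  have c2 : ContinuousAt (smF : Pt n τ → ℝ) P := smF_continuous.continuousAt
  obtain ⟨r₁, hr₁, H₁⟩ := Metric.continuousAt_iff.1 c1 (σ / 2) (by positivity)
  obtain ⟨r₂, hr₂, H₂⟩ := Metric.continuousAt_iff.1 c2 σ hσ0
  obtain ⟨δ, hδ, HW⟩ := hW σ hσ0
  refine ⟨2 * lvF w N f P + 2 * ε₂ * lenF u N f - 2 * σ, σ, min r₁ r₂, δ, ⟨hf, hfw, hσ0,
    lt_min hr₁ hr₂, hδ, ?_, ?_, ?_⟩⟩
  · intro lam N' B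
    obtain ⟨δ', hδ', X₀, hX₀, H⟩ := HW lam N' B
    refine ⟨δ', hδ', X₀, hX₀, fun X hX k us gs h1 h2 h3 h4 T V hT hV hi =>
      H X hX k us gs h1 h2 h3 h4 T V hT (le_trans ?_ hV) hi⟩
    refine Real.rpow_le_rpow_of_exponent_le (by linarith) ?_
    linarith
  · intro Q hQ
    have h1 := H₁ (lt_of_lt_of_le hQ (min_le_left _ _))
    rw [Real.dist_eq] at h1
    have h2 := (abs_lt.1 h1).1
    linarith
  · intro Q hQ
    have h1 := H₂ (lt_of_lt_of_le hQ (min_le_right _ _))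
    rw [Real.dist_eq] at h1
    have h2 := (abs_lt.1 h1).2
    have h3 : (c:ℝ) * smF Q ≤ c * (smF P + σ) := mul_le_mul_of_nonneg_left (by linarith) hc0
    have h4 : 0 ≤ 2 * ε₂ * lenF u N f := by positivity
    nlinarith

/-! ### monomials in the pieces -/

/-- multiplicity of one piece -/
def mu1 (D : Pcs Pc τ) (X : ℝ) (gs : List Pc) (a : ℝ) : Option (Fin gs.length) → ℕ
  | none => 0
  | some j => ⌊a / D.nl X (gs.get j)⌋₊

/-- one piece -/
def pc1 (p₀ : Pc) (gs : List Pc) : Option (Fin gs.length) → Pc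
  | none => p₀
  | some j => gs.get j

/-- multiplicities of the chosen granular pieces -/
def qf (D : Pcs Pc τ) (X : ℝ) (gs : List Pc) (f : τ → ℝ) (g : τ → Option (Fin gs.length))
    (s : τ) : ℕ := mu1 D X gs (f s) (g s)

/-- the chosen granular pieces -/
def Gf (p₀ : Pc) (gs : List Pc) (g : τ → Option (Fin gs.length)) (s : τ) : Pc :=
  pc1 p₀ gs (g s)

lemma pvl_mono_eq [Fintype τ] {v : Pc → ι → ℝ} {X : ℝ} (hX : 1 < X) {i : ι} {n : ℕ}
    {N : Fin n → ℕ} {U : Fin n → Pc} {q : τ → ℕ} {G : τ → Pc} (hU : ∀ j, 0 < v (U j) i)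
    (hG : ∀ s, 0 < q s → 0 < v (G s) i) :
    pvl v (rep N U ++ cps q G) i =
      X ^ (∑ j, (N j : ℝ) * lam v X i (U j) + ∑ s, (q s : ℝ) * lam v X i (G s)) := by
  have hX0 : (0:ℝ) < X := by linarith
  rw [pvl_append, pvl_rep, pvl_cps, Real.rpow_add hX0, Real.rpow_sum_of_pos hX0,
    Real.rpow_sum_of_pos hX0]
  congr 1
  · refine Finset.prod_congr rfl fun j _ => ?_
    rw [mul_comm, Real.rpow_mul hX0.le, rpow_lam hX (hU j), Real.rpow_natCast]
  · refine Finset.prod_congr rfl fun s _ => ?_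
    rcases Nat.eq_zero_or_pos (q s) with h | h
    · rw [h]; simp
    · rw [mul_comm, Real.rpow_mul hX0.le, rpow_lam hX (hG s h), Real.rpow_natCast]

lemma near_iff {X δ : ℝ} {n : ℕ} {us : List Pc} {u : Fin n → ℝ}
    (h : D.Near X δ us (List.ofFn u)) :
    ∃ U : Fin n → Pc, us = List.ofFn U ∧ ∀ j, D.lump (U j) ∧ |D.nl X (U j) - u j| ≤ δ := by
  unfold Pcs.Near at h
  have hl : us.length = n := by have := h.length_eq; simpa using this
  rw [List.forall₂_iff_get] at h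
  refine ⟨fun j => us.get (Fin.cast hl.symm j), ?_, fun j => ?_⟩
  · apply List.ext_getElem
    · simp [hl]
    · intro i h1 h2
      simp
  · have := h.2 j.1 (by rw [hl]; exact j.2) (by simp)
    simpa using this

lemma sum_kinds [Fintype τ] (F : Pc → ℝ) (gs : List Pc) :
    (gs.map F).sum = ∑ s, ∑ j ∈ (Finset.univ : Finset (Fin gs.length)).filter
      (fun j => D.kind (gs.get j) = s), F (gs.get j) := by
  have e1 : (gs.map F).sum = ∑ j : Fin gs.length, F (gs.get j) :=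
    (Fin.sum_univ_fun_getElem gs F).symm
  rw [e1]
  exact (Finset.sum_fiberwise_of_maps_to (fun j _ => Finset.mem_univ (D.kind (gs.get j)))
    (fun j => F (gs.get j))).symm

lemma mass_eq (X : ℝ) (gs : List Pc) (s : τ) :
    D.mass X gs s = ∑ j ∈ (Finset.univ : Finset (Fin gs.length)).filter
      (fun j => D.kind (gs.get j) = s), D.nl X (gs.get j) := by
  unfold Pcs.mass
  rw [← Fin.sum_univ_fun_getElem gs (fun p => if D.kind p = s then D.nl X p else 0),
    Finset.sum_filter]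
  rfl

lemma exists_lower [Fintype τ] (h : τ → ℝ) (hpos : ∀ s, 0 < h s) :
    ∃ m : ℝ, 0 < m ∧ ∀ s, m ≤ h s := by
  rcases isEmpty_or_nonempty τ with he | he
  · exact ⟨1, one_pos, fun s => isEmptyElim s⟩
  · refine ⟨Finset.univ.inf' Finset.univ_nonempty h, ?_, fun s => Finset.inf'_le _ (Finset.mem_univ s)⟩
    rw [Finset.lt_inf'_iff]; exact fun s _ => hpos s

lemma sum_le_add_single {β : Type*} (G : Finset β) {a b : β → ℝ} (hab : ∀ g ∈ G, a g ≤ b g)
    (hb : ∀ g ∈ G, 0 ≤ b g) {g : β} (hg : g ∈ G) : ∑ x ∈ G, a x ≤ ∑ x ∈ G, b x + a g := by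
  classical
  rw [← Finset.add_sum_erase _ _ hg, ← Finset.add_sum_erase _ b hg]
  have : ∑ x ∈ G.erase g, a x ≤ ∑ x ∈ G.erase g, b x :=
    Finset.sum_le_sum fun x hx => hab x (Finset.mem_of_mem_erase hx)
  linarith [hb g hg]

set_option maxHeartbeats 2000000 in
/-- **the classification of one index** -/
theorem classify [Fintype τ] {v : Pc → ι → ℝ} (hv : ∀ p i, 0 ≤ v p i) {X : ℝ} (hX : 1 < X)
    {θ B₁ ε₂ ε₄ η' δ M rm : ℝ} {n : ℕ} {u : Fin n → ℝ} {w : τ → ℝ} {c : ℕ} (hc : 1 ≤ c)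
    (hu : ∀ j, 0 ≤ u j) (hw : ∀ s, 0 ≤ w s) (hθ : 0 ≤ θ) (hε₂ : 0 ≤ ε₂) (hε₄ : 0 ≤ ε₄)
    (hη : 0 < η') (h4η : ε₄ ≤ η') (hδ : 0 < δ) (hδ1 : (n + Fintype.card τ : ℝ) * δ ≤ 1)
    (hδw : ∀ s, 0 < w s → δ ≤ w s / 4) (hM : 0 ≤ M)
    (hB₁ : M + θ * (∑ j, u j + ∑ s, w s + 1) + 1 + ε₂ * (∑ j, u j + ∑ s, w s) ≤ B₁)
    (p₀ : Pc) {U : Fin n → Pc} {gs : List Pc} {i : ι}
    (h41 : (n + gs.length : ℝ) * ε₄ ≤ 1) (hg1 : (gs.length : ℝ) * (θ * η' + ε₄) ≤ δ)
    (hg2 : (gs.length : ℝ) * η' ≤ δ) (hrm : θ * δ + (gs.length + 1) * ε₄ < rm)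
    (hU : ∀ j, |D.nl X (U j) - u j| ≤ δ) (hU0 : ∀ j, 0 ≤ D.nl X (U j))
    (hg0 : ∀ g ∈ gs, 0 ≤ D.nl X g) (hgδ : ∀ g ∈ gs, D.nl X g ≤ δ)
    (hgm : ∀ s, |D.mass X gs s - w s| ≤ δ)
    (hsU : ∀ j, v (U j) i ≤ X ^ (θ * D.nl X (U j) + ε₄))
    (hsg : ∀ g ∈ gs, v g i ≤ X ^ (θ * D.nl X g + ε₄)) :
    pvl v (List.ofFn U ++ gs) i ^ c ≤ X ^ (-M) ∨
    ∃ Q R : Pt n τ, R ∈ PB B₁ θ u w ∧ dist Q R < rm ∧
      pvl v (List.ofFn U ++ gs) i = X ^ (smF Q + ε₂ * (∑ j, u j + ∑ s, w s)) ∧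
      ∀ (N : Fin n → ℕ) (f : τ → ℝ), (∀ s, 0 ≤ f s) → (∀ s, w s = 0 → f s = 0) →
        ∃ g : τ → Option (Fin gs.length),
          (∀ s, 0 < f s → ∃ j, g s = some j ∧ D.kind (gs.get j) = s ∧ η' ≤ D.nl X (gs.get j)) ∧
          X ^ (2 * (lvF w N f Q + ε₂ * lenF u N f - δ * ∑ s, (f s * (4 * (B₁ + θ *
            (∑ j, u j + ∑ s, w s + 1) + 1) / w s ^ 2 + 2 / w s) + θ + 1))) ≤
            pvl v (rep N U ++ cps (qf D X gs f g) (Gf p₀ gs g)) i ^ 2 := by
  classical
  have hX0 : (0:ℝ) < X := by linarith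
  set L := ∑ j, u j + ∑ s, w s with hL
  have hL0 : 0 ≤ L := add_nonneg (Finset.sum_nonneg fun j _ => hu j)
    (Finset.sum_nonneg fun s _ => hw s)
  have hXM : 0 ≤ X ^ (-M) := Real.rpow_nonneg hX0.le _
  by_cases hpos : (∀ j, 0 < v (U j) i) ∧ ∀ g ∈ gs, 0 < v g i
  swap
  · left
    have : pvl v (List.ofFn U ++ gs) i = 0 := by
      unfold pvl
      apply List.prod_eq_zero
      rw [not_and_or] at hpos
      rcases hpos with h | h
      · push Not at h
        obtain ⟨j, hj⟩ := h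
        rw [List.mem_map]
        exact ⟨U j, List.mem_append_left _ (by rw [List.mem_ofFn]; exact ⟨j, rfl⟩),
          le_antisymm hj (hv _ _)⟩
      · push Not at h
        obtain ⟨g, hg, hj⟩ := h
        rw [List.mem_map]
        exact ⟨g, List.mem_append_right _ hg, le_antisymm hj (hv _ _)⟩
    rw [this, zero_pow (by omega)]
    exact hXM
  obtain ⟨hpU, hpg⟩ := hpos
  have hgmem : ∀ j : Fin gs.length, gs.get j ∈ gs := fun j => List.get_mem gs j
  -- levels
  set G : τ → Finset (Fin gs.length) := fun s =>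
    Finset.univ.filter fun j => D.kind (gs.get j) = s with hG
  set Λ : τ → ℝ := fun s => ∑ j ∈ G s, lam v X i (gs.get j) with hΛ
  set tt := ∑ j, lam v X i (U j) + ∑ s, Λ s with htt
  have hval : pvl v (List.ofFn U ++ gs) i = X ^ tt := by
    rw [pvl_eq hX (by
      intro p hp
      rcases List.mem_append.1 hp with h | h
      · rw [List.mem_ofFn] at h
        obtain ⟨j, rfl⟩ := h
        exact hpU j
      · exact hpg p h)]
    congr 1
    rw [List.map_append, List.sum_append, List.map_ofFn, List.sum_ofFn,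
      sum_kinds (D := D) (lam v X i) gs]
    rfl
  have hlU : ∀ j, lam v X i (U j) ≤ θ * D.nl X (U j) + ε₄ := fun j => lam_le hX (hpU j) (hsU j)
  have hlg : ∀ g ∈ gs, lam v X i g ≤ θ * D.nl X g + ε₄ := fun g hg =>
    lam_le hX (hpg g hg) (hsg g hg)
  have hbU : ∀ j, 0 ≤ θ * D.nl X (U j) + ε₄ := fun j =>
    add_nonneg (mul_nonneg hθ (hU0 j)) hε₄
  have hbg : ∀ g ∈ gs, 0 ≤ θ * D.nl X g + ε₄ := fun g hg =>
    add_nonneg (mul_nonneg hθ (hg0 g hg)) hε₄
  -- total of the upper bounds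
  have hcardG : ∀ s, ((G s).card : ℝ) ≤ gs.length := by
    intro s
    have : (G s).card ≤ (Finset.univ : Finset (Fin gs.length)).card :=
      Finset.card_le_card (Finset.filter_subset _ _)
    rw [Finset.card_univ, Fintype.card_fin] at this
    exact_mod_cast this
  have hmG : ∀ s, |∑ j ∈ G s, D.nl X (gs.get j) - w s| ≤ δ := by
    intro s
    have := hgm s
    rwa [mass_eq] at this
  set bU := ∑ j, (θ * D.nl X (U j) + ε₄) with hbUdef
  set bG : τ → ℝ := fun s => ∑ j ∈ G s, (θ * D.nl X (gs.get j) + ε₄) with hbGdef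
  have hbU0 : 0 ≤ bU := Finset.sum_nonneg fun j _ => hbU j
  have hbG0 : ∀ s, 0 ≤ bG s := fun s => Finset.sum_nonneg fun j _ => hbg _ (hgmem j)
  have hUle : ∑ j, lam v X i (U j) ≤ bU := Finset.sum_le_sum fun j _ => hlU j
  have hGle : ∀ s, Λ s ≤ bG s := fun s => Finset.sum_le_sum fun j _ => hlg _ (hgmem j)
  have hlenG : ∑ s, ((G s).card : ℝ) = gs.length := by
    have h1 := Finset.card_eq_sum_card_fiberwise (f := fun j : Fin gs.length => D.kind (gs.get j))
      (s := Finset.univ) (t := (Finset.univ : Finset τ)) (fun j _ => Finset.mem_univ _)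
    rw [Finset.card_univ, Fintype.card_fin] at h1
    rw [← Nat.cast_sum]
    exact_mod_cast h1.symm
  have htotal : bU + ∑ s, bG s ≤ θ * (L + 1) + 1 := by
    have e1 : bU = θ * ∑ j, D.nl X (U j) + n * ε₄ := by
      rw [hbUdef, Finset.sum_add_distrib, ← Finset.mul_sum]
      simp
    have e2 : ∑ s, bG s = θ * ∑ s, ∑ j ∈ G s, D.nl X (gs.get j) + gs.length * ε₄ := by
      rw [← hlenG, Finset.sum_mul, Finset.mul_sum, ← Finset.sum_add_distrib]
      refine Finset.sum_congr rfl fun s _ => ?_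
      rw [hbGdef]
      simp only
      rw [Finset.sum_add_distrib, ← Finset.mul_sum, Finset.sum_const, nsmul_eq_mul]
    have e3 : ∑ j, D.nl X (U j) ≤ ∑ j, u j + n * δ := by
      have : ∑ j, D.nl X (U j) ≤ ∑ j, (u j + δ) :=
        Finset.sum_le_sum fun j _ => by linarith [(abs_le.1 (hU j)).2]
      refine this.trans (le_of_eq ?_)
      rw [Finset.sum_add_distrib]; simp
    have e4 : ∑ s, ∑ j ∈ G s, D.nl X (gs.get j) ≤ ∑ s, w s + Fintype.card τ * δ := by
      have : ∑ s, ∑ j ∈ G s, D.nl X (gs.get j) ≤ ∑ s, (w s + δ) :=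
        Finset.sum_le_sum fun s _ => by linarith [(abs_le.1 (hmG s)).2]
      refine this.trans (le_of_eq ?_)
      rw [Finset.sum_add_distrib]; simp
    have e5 : ∑ j, D.nl X (U j) + ∑ s, ∑ j ∈ G s, D.nl X (gs.get j) ≤ L + 1 := by
      rw [hL]; nlinarith
    have e6 := mul_le_mul_of_nonneg_left e5 hθ
    rw [e1, e2]
    nlinarith
  -- the point
  set Q : Pt n τ := (fun j => lam v X i (U j) - ε₂ * u j, fun s => Λ s - ε₂ * w s) with hQ
  have htQ : tt = smF Q + ε₂ * L := by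
    unfold smF
    rw [htt, hQ, hL]
    simp only
    rw [Finset.sum_sub_distrib, Finset.sum_sub_distrib, ← Finset.mul_sum, ← Finset.mul_sum]
    ring
  have hsmall : tt ≤ -M → pvl v (List.ofFn U ++ gs) i ^ c ≤ X ^ (-M) := by
    intro h
    rw [hval, ← Real.rpow_natCast, ← Real.rpow_mul hX0.le]
    refine Real.rpow_le_rpow_of_exponent_le hX.le ?_
    have hc1 : (1:ℝ) ≤ c := by exact_mod_cast hc
    nlinarith
  by_cases hlow : (∀ j, -B₁ ≤ Q.1 j) ∧ ∀ s, -B₁ ≤ Q.2 s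
  swap
  · left
    apply hsmall
    rw [not_and_or] at hlow
    rcases hlow with h | h
    · push Not at h
      obtain ⟨j, hj⟩ := h
      have h1 := sum_le_add_single Finset.univ (fun j _ => hlU j) (fun j _ => hbU j)
        (Finset.mem_univ j)
      have h2 : ∑ s, Λ s ≤ ∑ s, bG s := Finset.sum_le_sum fun s _ => hGle s
      have h3 : lam v X i (U j) < -B₁ + ε₂ * u j := by
        have : Q.1 j = lam v X i (U j) - ε₂ * u j := rfl
        linarith
      have h4 : u j ≤ L := by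
        have := Finset.single_le_sum (f := u) (fun j _ => hu j) (Finset.mem_univ j)
        have h5 : 0 ≤ ∑ s, w s := Finset.sum_nonneg fun s _ => hw s
        rw [hL]; linarith
      have h5 := mul_le_mul_of_nonneg_left h4 hε₂
      rw [htt]
      linarith
    · push Not at h
      obtain ⟨s, hs⟩ := h
      have h1 := sum_le_add_single Finset.univ (fun s _ => hGle s) (fun s _ => hbG0 s)
        (Finset.mem_univ s)
      have h3 : Λ s < -B₁ + ε₂ * w s := by
        have : Q.2 s = Λ s - ε₂ * w s := rfl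
        linarith
      have h4 : w s ≤ L := by
        have := Finset.single_le_sum (f := w) (fun s _ => hw s) (Finset.mem_univ s)
        have h5 : 0 ≤ ∑ j, u j := Finset.sum_nonneg fun j _ => hu j
        rw [hL]; linarith
      have h5 := mul_le_mul_of_nonneg_left h4 hε₂
      rw [htt]
      linarith
  obtain ⟨hQ1, hQ2⟩ := hlow
  right
  have hB₁0 : 0 ≤ B₁ := by
    have : 0 ≤ θ * (L + 1) := mul_nonneg hθ (by linarith)
    have : 0 ≤ ε₂ * L := mul_nonneg hε₂ hL0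
    linarith
  have hux : ∀ j, Q.1 j ≤ θ * u j + (θ * δ + ε₄) := by
    intro j
    have h1 := hlU j
    have h2 : D.nl X (U j) ≤ u j + δ := by linarith [(abs_le.1 (hU j)).2]
    have h3 := mul_le_mul_of_nonneg_left h2 hθ
    have h4 : 0 ≤ ε₂ * u j := mul_nonneg hε₂ (hu j)
    show lam v X i (U j) - ε₂ * u j ≤ _
    linarith
  have hΛle : ∀ s, Λ s ≤ θ * w s + (θ * δ + gs.length * ε₄) := by
    intro s
    have h1 := hGle s
    have h2 : bG s = θ * ∑ j ∈ G s, D.nl X (gs.get j) + (G s).card * ε₄ := by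
      rw [hbGdef]
      simp only
      rw [Finset.sum_add_distrib, ← Finset.mul_sum, Finset.sum_const, nsmul_eq_mul]
    have h3 := mul_le_mul_of_nonneg_right (hcardG s) hε₄
    have h4 : ∑ j ∈ G s, D.nl X (gs.get j) ≤ w s + δ := by linarith [(abs_le.1 (hmG s)).2]
    have h5 := mul_le_mul_of_nonneg_left h4 hθ
    linarith
  have hwx : ∀ s, Q.2 s ≤ θ * w s + (θ * δ + gs.length * ε₄) := by
    intro s
    have h4 : 0 ≤ ε₂ * w s := mul_nonneg hε₂ (hw s)
    show Λ s - ε₂ * w s ≤ _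
    linarith [hΛle s]
  have hLε : 0 ≤ (gs.length : ℝ) * ε₄ := by positivity
  have hθδ : 0 ≤ θ * δ := by positivity
  refine ⟨Q, (fun j => min (Q.1 j) (θ * u j), fun s => min (Q.2 s) (θ * w s)), ?_, ?_, ?_, ?_⟩
  · refine ⟨fun j _ => ⟨le_min (hQ1 j) ?_, min_le_right _ _⟩,
      fun s _ => ⟨le_min (hQ2 s) ?_, min_le_right _ _⟩⟩
    · have := mul_nonneg hθ (hu j); linarith
    · have := mul_nonneg hθ (hw s); linarith
  · refine lt_of_le_of_lt ?_ hrm
    have hE : 0 ≤ θ * δ + (gs.length + 1) * ε₄ := by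
      have : (gs.length + 1 : ℝ) * ε₄ = gs.length * ε₄ + ε₄ := by ring
      linarith
    rw [Prod.dist_eq]
    refine max_le ?_ ?_
    · rw [dist_pi_le_iff hE]
      intro j
      rw [Real.dist_eq]
      have h1 := hux j
      rcases le_total (Q.1 j) (θ * u j) with h | h
      · show |Q.1 j - min (Q.1 j) (θ * u j)| ≤ _
        rw [min_eq_left h, sub_self, abs_zero]; exact hE
      · show |Q.1 j - min (Q.1 j) (θ * u j)| ≤ _
        rw [min_eq_right h, abs_of_nonneg (by linarith)]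
        nlinarith
    · rw [dist_pi_le_iff hE]
      intro s
      rw [Real.dist_eq]
      have h1 := hwx s
      rcases le_total (Q.2 s) (θ * w s) with h | h
      · show |Q.2 s - min (Q.2 s) (θ * w s)| ≤ _
        rw [min_eq_left h, sub_self, abs_zero]; exact hE
      · show |Q.2 s - min (Q.2 s) (θ * w s)| ≤ _
        rw [min_eq_right h, abs_of_nonneg (by linarith)]
        nlinarith
  · rw [hval, htQ]
  intro N f hf hfw
  set B₂ := B₁ + θ * (L + 1) + 1 with hB₂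
  have hθL : 0 ≤ θ * (L + 1) := mul_nonneg hθ (by linarith)
  have hB₂0 : 0 ≤ B₂ := by rw [hB₂]; linarith
  -- the densest pieces
  have hdens : ∀ s, ∃ gg : Option (Fin gs.length), (0 < f s → ∃ j, gg = some j ∧
      D.kind (gs.get j) = s ∧ η' ≤ D.nl X (gs.get j)) ∧
      f s * (Λ s / w s) - δ * (f s * (4 * B₂ / w s ^ 2 + 2 / w s) + θ + 1) ≤
        (mu1 D X gs (f s) gg : ℝ) * lam v X i (pc1 p₀ gs gg) := by
    intro s
    by_cases hs : 0 < f s
    · have hws : 0 < w s := by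
        rcases (hw s).eq_or_lt with h | h
        · exact absurd (hfw s h.symm) hs.ne'
        · exact h
      have hΛabs : |Λ s| ≤ B₂ := by
        rw [abs_le]
        constructor
        · have h1 := hQ2 s
          have h2 : Q.2 s = Λ s - ε₂ * w s := rfl
          have h3 : 0 ≤ ε₂ * w s := mul_nonneg hε₂ (hw s)
          rw [hB₂]; linarith
        · have h1 := hΛle s
          have h2 : w s ≤ L := by
            have := Finset.single_le_sum (f := w) (fun s _ => hw s) (Finset.mem_univ s)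
            have h5 : 0 ≤ ∑ j, u j := Finset.sum_nonneg fun j _ => hu j
            rw [hL]; linarith
          have h3 : δ ≤ 1 := by
            have hτ : (1:ℝ) ≤ n + Fintype.card τ := by
              have : 1 ≤ Fintype.card τ := Fintype.card_pos_iff.2 ⟨s⟩
              have h4 : (1:ℝ) ≤ Fintype.card τ := by exact_mod_cast this
              have h5 : (0:ℝ) ≤ n := Nat.cast_nonneg n
              linarith
            nlinarith
          have h4 : θ * (w s + δ) ≤ θ * (L + 1) := mul_le_mul_of_nonneg_left (by linarith) hθ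
          have h5 : (gs.length : ℝ) * ε₄ ≤ 1 := by
            have : 0 ≤ (n:ℝ) * ε₄ := by positivity
            nlinarith
          rw [hB₂]; nlinarith
      obtain ⟨j, hj, hj1, hj2⟩ := gran (G s) (fun j => D.nl X (gs.get j))
        (fun j => lam v X i (gs.get j)) hws hB₂0 (hf s) hθ hδ (hδw s hws) hη hε₄ h4η
        (fun j _ => hg0 _ (hgmem j)) (fun j _ => hgδ _ (hgmem j)) (fun j _ => hlg _ (hgmem j))
        (hmG s) ((mul_le_mul_of_nonneg_right (hcardG s) (by positivity)).trans hg1)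
        ((mul_le_mul_of_nonneg_right (hcardG s) hη.le).trans hg2) hΛabs
      refine ⟨some j, fun _ => ⟨j, rfl, (Finset.mem_filter.1 hj).2, hj1⟩, ?_⟩
      exact hj2
    · have hfs : f s = 0 := le_antisymm (not_lt.1 hs) (hf s)
      refine ⟨none, fun h => absurd h hs, ?_⟩
      rw [hfs]
      have : 0 ≤ δ * (θ + 1) := by positivity
      simp only [mu1, Nat.cast_zero, zero_mul, zero_add]
      linarith
  choose g hg1' hg2' using hdens
  refine ⟨g, hg1', ?_⟩
  have hqG : ∀ s, f s * (Λ s / w s) - δ * (f s * (4 * B₂ / w s ^ 2 + 2 / w s) + θ + 1) ≤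
      (qf D X gs f g s : ℝ) * lam v X i (Gf p₀ gs g s) := fun s => hg2' s
  have hGpos : ∀ s, 0 < qf D X gs f g s → 0 < v (Gf p₀ gs g s) i := by
    intro s hs
    unfold qf at hs
    unfold Gf
    cases hgs : g s with
    | none => rw [hgs] at hs; simp [mu1] at hs
    | some j => exact hpg _ (hgmem j)
  rw [pvl_mono_eq hX hpU hGpos, ← Real.rpow_natCast, ← Real.rpow_mul hX0.le]
  refine Real.rpow_le_rpow_of_exponent_le hX.le ?_
  push_cast
  have h1 : ∑ s, (f s * (Λ s / w s) - δ * (f s * (4 * B₂ / w s ^ 2 + 2 / w s) + θ + 1)) ≤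
      ∑ s, (qf D X gs f g s : ℝ) * lam v X i (Gf p₀ gs g s) := Finset.sum_le_sum fun s _ => hqG s
  rw [Finset.sum_sub_distrib, ← Finset.mul_sum] at h1
  have h2 : lvF w N f Q + ε₂ * lenF u N f =
      ∑ j, (N j : ℝ) * lam v X i (U j) + ∑ s, f s * (Λ s / w s) := by
    unfold lvF lenF
    rw [mul_add, Finset.mul_sum, Finset.mul_sum, add_add_add_comm, ← Finset.sum_add_distrib,
      ← Finset.sum_add_distrib]
    congr 1
    · refine Finset.sum_congr rfl fun j _ => ?_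
      show (N j : ℝ) * (lam v X i (U j) - ε₂ * u j) + ε₂ * (N j * u j) = _
      ring
    · refine Finset.sum_congr rfl fun s _ => ?_
      show f s * ((Λ s - ε₂ * w s) / w s) + ε₂ * f s = _
      rcases (hw s).eq_or_lt with h | h
      · rw [hfw s h.symm]; ring
      · field_simp; ring
  rw [h2]
  linarith

end Crest.Agent.R017.XG702
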