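import Crest.Agent.R017.FNEv_708
import Crest.Agent.R017.P10e_146

/-!
# Row 17, R8/P1: the flat claims at the constant family on helper146's domain (helper54)

* **`fe2V_near`** : `FE2V s₀ D5 (3/4 d κ)` from the field of near-equal lists
-/

set_option autoImplicit false

noncomputable section

namespace Crest.Agent.R017.XMh54

open Crest.Agent.R017.ER911 Crest.Agent.R017.SC777
open Crest.Agent.R017.TM708 (T5 K5 R5)
open Crest.Agent.R017.FN708
open Crest.Agent.R017.P10146 (D5)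
open Crest.Agent.R017.NE73 (NearDom NEF)

variable {d : ℝ} {r s s₀ : EF}

/-- **the flat claims, constant family** -/
theorem fe2V_near (R : ExpRules (7 / 8 + d) r s) (Rm : ExpRGFz (7 / 8 + d) r s s₀)
    (hd : 0 ≤ d) (hd8 : 8 * d ≤ 1) 
    (hG : ∀ κ S y₁ y₂ y₃ : ℝ, NearDom κ S y₁ y₂ y₃ → NEF s₀ κ S y₁ y₂ y₃ (2 * d * y₃)) :
    FE2V s₀ D5 fun b => 3 / 4 * d * b 0 := by
  refine fe2V_of_ne R Rm hd hd8 (fun b hb => hb.1) (fun b hb => hb.2.1) ?_ ?_ hG
  · rintro b ⟨-, -, -, -, b32, b21, hb1⟩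
    have : max (b 1) (max (b 2) (b 3)) ≤ b 1 := max_le le_rfl (max_le b21 (b32.trans b21))
    linarith
  · rintro b ⟨hR5, -⟩
    obtain ⟨k0, y1, y2, y3, x0, hN', x1, adm⟩ := hR5
    have h4 : d * ((b 1 + b 2 + b 3) / 3 + b 4) ≤ d * (3 / 8 * b 0) :=
      mul_le_mul_of_nonneg_left (by linarith) hd
    show _ ≤ 3 / 4 * d * b 0
    linarith

end Crest.Agent.R017.XMh54
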