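import Crest.Agent.R017.P1XM_176

/-!
# Row 17, exceptional class (helper72): the mains of the mismatch, real lines

`k`, `N`, `x` : the parent (exact), `ex` the excess, `q = LN qs`, `γ = log N(g)`, `ℓ` what the lumps
lost, `p` the total length of the child, `v` the level of the class, `t` the tolerance.

* `XH` : the frame
* `xh_lo`, `xh_hi`, `xh_2z` : structured entry (176's `NVx`), the three kinds of types
* `xh_b` : bias entry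
-/

set_option autoImplicit false
set_option linter.unusedVariables false

noncomputable section

namespace Crest.Agent.R017.XMl72

open Crest.Agent.R017.P1XM176

/-- the frame of the mains -/
structure XH (k N x ex q γ ℓ p t : ℝ) : Prop where
  k0 : 0 < k
  N0 : 3 / 4 * k ≤ N
  N1 : N ≤ 84 / 103 * k
  x0 : 0 ≤ x
  adm : x = 0 ∨ (x ≤ 1 / 36 * k ∧ x + 7 / 10 * N ≤ 199 / 360 * k ∧ N + x ≤ 15 / 19 * k)
  ex0 : 0 ≤ ex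
  ex1 : 5 / 4 * N - k ≤ ex
  q1 : q ≤ x + t
  g0 : 0 ≤ γ
  g1 : γ ≤ q + t
  l0 : 0 ≤ ℓ
  p0 : k / 2 - 2 * x - t ≤ p
  p1 : p ≤ N - ℓ + q - 2 * γ + t
  t0 : 0 ≤ t

set_option maxHeartbeats 4000000 in
/-- **types 0, 1** -/
theorem ch_lo {k N x ex q γ ℓ p t v δ b l n w K T : ℝ} (H : XH k N x ex q γ ℓ p t)
    (hK : K ≤ k + ex + t) (hT : TX K l n w T) (δ0 : 0 ≤ δ) (b0 : 0 ≤ b) (w0 : 0 ≤ w)
    (w1 : w ≤ q + t) (hl : l ≤ v - 2 * δ + b + t) (n1 : n ≤ p - δ - b + t)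
    (v1 : v ≤ min (2 * N - k) (3 / 4 * N) + 11 / 5 * x + t)
    (v0 : min (2 * N - k) (3 / 4 * N) + 11 / 5 * x - 2 * ℓ - x - γ - t ≤ v)
    (hw : q - γ - (x + γ) / 3 - b - t ≤ w) :
    2 / 3 * k - v / 3 - p / 3 + 2 * δ + T ≤ k + p + ex + 20 * t := by
  obtain ⟨k0, N0, N1, x0, adm, ex0, ex1, q1, g0, g1, l0, p0, p1, t0⟩ := H
  obtain ⟨hA, hB⟩ := hT
  have hmn : (min (2 * N - k) (3 / 4 * N) = 2 * N - k ∧ 2 * N - k ≤ 3 / 4 * N) ∨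
      (min (2 * N - k) (3 / 4 * N) = 3 / 4 * N ∧ 3 / 4 * N ≤ 2 * N - k) := by
    rcases le_total (2 * N - k) (3 / 4 * N) with h | h
    · exact Or.inl ⟨min_eq_left h, h⟩
    · exact Or.inr ⟨min_eq_right h, h⟩
  rcases hB with hB | hB
  · rcases hmn with ⟨e, he⟩ | ⟨e, he⟩ <;> rw [e] at v0 v1 <;>
      rcases adm with rfl | ⟨a1, a2, a3⟩ <;> rcases hA with hA | hA | hA | hA | hA <;> linarith
  · rcases hmn with ⟨e, he⟩ | ⟨e, he⟩ <;> rw [e] at v0 v1 <;>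
      rcases adm with rfl | ⟨a1, a2, a3⟩ <;> linarith

set_option maxHeartbeats 4000000 in
/-- **types 2, 3** -/
theorem ch_hi {k N x ex q γ ℓ p t v δ b l n w K T : ℝ} (H : XH k N x ex q γ ℓ p t)
    (hK : K ≤ k + ex + t) (hT : TX K l n w T) (δ0 : 0 ≤ δ) (b0 : 0 ≤ b) (w0 : 0 ≤ w)
    (w1 : w ≤ q + t) (hl : l ≤ v - 2 * δ + b + t) (n1 : n ≤ p - δ - b + t)
    (v1 : v ≤ min (2 * N - k) (3 / 4 * N) + 21 / 5 * x - γ + t)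
    (v0 : min (2 * N - k) (3 / 4 * N) + 11 / 5 * x - 2 * ℓ - t ≤ v) :
    2 / 3 * k - v / 3 - p / 3 + 2 * δ + T ≤ k + p + ex + 20 * t := by
  obtain ⟨k0, N0, N1, x0, adm, ex0, ex1, q1, g0, g1, l0, p0, p1, t0⟩ := H
  obtain ⟨hA, hB⟩ := hT
  have hmn : (min (2 * N - k) (3 / 4 * N) = 2 * N - k ∧ 2 * N - k ≤ 3 / 4 * N) ∨
      (min (2 * N - k) (3 / 4 * N) = 3 / 4 * N ∧ 3 / 4 * N ≤ 2 * N - k) := by
    rcases le_total (2 * N - k) (3 / 4 * N) with h | h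
    · exact Or.inl ⟨min_eq_left h, h⟩
    · exact Or.inr ⟨min_eq_right h, h⟩
  rcases hB with hB | hB
  · rcases hmn with ⟨e, he⟩ | ⟨e, he⟩ <;> rw [e] at v0 v1 <;>
      rcases adm with rfl | ⟨a1, a2, a3⟩ <;> rcases hA with hA | hA | hA | hA | hA <;> linarith
  · rcases hmn with ⟨e, he⟩ | ⟨e, he⟩ <;> rw [e] at v0 v1 <;>
      rcases adm with rfl | ⟨a1, a2, a3⟩ <;> linarith

set_option maxHeartbeats 4000000 in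
/-- **type 4** (`cc = log N(g/h)`) -/
theorem ch_2z {k N x ex q γ ℓ p t v δ b l n w K T cc : ℝ} (H : XH k N x ex q γ ℓ p t)
    (hK : K ≤ k + ex + t) (hT : TX K l n w T) (δ0 : 0 ≤ δ) (b0 : 0 ≤ b) (w0 : 0 ≤ w)
    (w1 : w ≤ q + t) (hl : l ≤ v - 2 * δ + b + t) (n1 : n ≤ p - δ - b + t)
    (v1 : v ≤ min (2 * N - k) (3 / 4 * N) + 21 / 5 * x - γ + t)
    (c1 : cc ≤ γ + t) (hb : k / 64 - cc - t ≤ b) :
    2 / 3 * k - v / 3 - p / 3 + 2 * δ + T - k / 64 ≤ k + p + ex + 20 * t := by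
  obtain ⟨k0, N0, N1, x0, adm, ex0, ex1, q1, g0, g1, l0, p0, p1, t0⟩ := H
  obtain ⟨hA, hB⟩ := hT
  have hmn : (min (2 * N - k) (3 / 4 * N) = 2 * N - k ∧ 2 * N - k ≤ 3 / 4 * N) ∨
      (min (2 * N - k) (3 / 4 * N) = 3 / 4 * N ∧ 3 / 4 * N ≤ 2 * N - k) := by
    rcases le_total (2 * N - k) (3 / 4 * N) with h | h
    · exact Or.inl ⟨min_eq_left h, h⟩
    · exact Or.inr ⟨min_eq_right h, h⟩
  rcases hB with hB | hB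
  · rcases hmn with ⟨e, he⟩ | ⟨e, he⟩ <;> rw [e] at v1 <;>
      rcases adm with rfl | ⟨a1, a2, a3⟩ <;> rcases hA with hA | hA | hA | hA | hA <;> linarith
  · rcases hmn with ⟨e, he⟩ | ⟨e, he⟩ <;> rw [e] at v1 <;>
      rcases adm with rfl | ⟨a1, a2, a3⟩ <;> linarith

/-- **the bias entry**, all types (`m` the saving) -/
theorem xh_b {k N x ex q γ ℓ p t v δ b l n m s₀ : ℝ} (H : XH k N x ex q γ ℓ p t)
    (t1 : t ≤ k / 2000) (δ0 : 0 ≤ δ) (b0 : 0 ≤ b) (hl : l ≤ v - 2 * δ + b + t)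
    (n1 : n ≤ p - δ - b + t)
    (v1 : v ≤ min (2 * N - k) (3 / 4 * N) + 21 / 5 * x - 2 * ℓ + k / 50 + t)
    (hs : 17 / 100 * k - ℓ - t ≤ s₀) (m0 : 0 ≤ m) (m1 : s₀ - γ - δ - b ≤ m) :
    2 / 3 * k - v / 3 - p / 3 + 2 * δ + (2 / 3 * l + 5 / 3 * n - m) + k / 100 ≤
      k + p + ex + 20 * t := by
  obtain ⟨k0, N0, N1, x0, adm, ex0, ex1, q1, g0, g1, l0, p0, p1, t0⟩ := H
  have hm1 := min_le_left (2 * N - k) (3 / 4 * N)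
  have hm2 := min_le_right (2 * N - k) (3 / 4 * N)
  rcases adm with rfl | ⟨a1, a2, a3⟩ <;> linarith

/-- types 0, 1 -/
theorem xh_lo {d k N x ex q γ ℓ p t v δ b l n w K lo z₁ z₂ z₃ : ℝ} (H : XH k N x ex q γ ℓ p t)
    (hK : K ≤ k + ex + t) (lo0 : 0 ≤ lo) (h1 : 0 ≤ z₁) (h2 : 0 ≤ z₂) (h3 : 0 ≤ z₃)
    (w0 : 0 ≤ w) (hs : z₁ + z₂ + z₃ + w = n) (δ0 : 0 ≤ δ) (b0 : 0 ≤ b)
    (w1 : w ≤ q + t) (hl : l ≤ v - 2 * δ + b + t) (n1 : n ≤ p - δ - b + t)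
    (v1 : v ≤ min (2 * N - k) (3 / 4 * N) + 11 / 5 * x + t)
    (v0 : min (2 * N - k) (3 / 4 * N) + 11 / 5 * x - 2 * ℓ - x - γ - t ≤ v)
    (hw : q - γ - (x + γ) / 3 - b - t ≤ w) :
    2 / 3 * k - v / 3 - p / 3 + 2 * δ + NVx d K lo l n z₁ z₂ z₃ w ≤ k + p + ex + lo + 20 * t := by
  have := ch_lo H hK (tx_of (d := d) (K := K) (l := l) lo0 h1 h2 h3 w0 hs) δ0 b0 w0 w1 hl n1 v1
    v0 hw
  linarith

/-- types 2, 3 -/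
theorem xh_hi {d k N x ex q γ ℓ p t v δ b l n w K lo z₁ z₂ z₃ : ℝ} (H : XH k N x ex q γ ℓ p t)
    (hK : K ≤ k + ex + t) (lo0 : 0 ≤ lo) (h1 : 0 ≤ z₁) (h2 : 0 ≤ z₂) (h3 : 0 ≤ z₃)
    (w0 : 0 ≤ w) (hs : z₁ + z₂ + z₃ + w = n) (δ0 : 0 ≤ δ) (b0 : 0 ≤ b)
    (w1 : w ≤ q + t) (hl : l ≤ v - 2 * δ + b + t) (n1 : n ≤ p - δ - b + t)
    (v1 : v ≤ min (2 * N - k) (3 / 4 * N) + 21 / 5 * x - γ + t)
    (v0 : min (2 * N - k) (3 / 4 * N) + 11 / 5 * x - 2 * ℓ - t ≤ v) :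
    2 / 3 * k - v / 3 - p / 3 + 2 * δ + NVx d K lo l n z₁ z₂ z₃ w ≤ k + p + ex + lo + 20 * t := by
  have := ch_hi H hK (tx_of (d := d) (K := K) (l := l) lo0 h1 h2 h3 w0 hs) δ0 b0 w0 w1 hl n1 v1
    v0
  linarith

/-- type 4 (`cc = log N(g/h)`) -/
theorem xh_2z {d k N x ex q γ ℓ p t v δ b l n w K lo z₁ z₂ z₃ cc : ℝ}
    (H : XH k N x ex q γ ℓ p t)
    (hK : K ≤ k + ex + t) (lo0 : 0 ≤ lo) (h1 : 0 ≤ z₁) (h2 : 0 ≤ z₂) (h3 : 0 ≤ z₃)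
    (w0 : 0 ≤ w) (hs : z₁ + z₂ + z₃ + w = n) (δ0 : 0 ≤ δ) (b0 : 0 ≤ b)
    (w1 : w ≤ q + t) (hl : l ≤ v - 2 * δ + b + t) (n1 : n ≤ p - δ - b + t)
    (v1 : v ≤ min (2 * N - k) (3 / 4 * N) + 21 / 5 * x - γ + t)
    (c1 : cc ≤ γ + t) (hb : k / 64 - cc - t ≤ b) :
    2 / 3 * k - v / 3 - p / 3 + 2 * δ + NVx d K lo l n z₁ z₂ z₃ w - k / 64 ≤
      k + p + ex + lo + 20 * t := by
  have := ch_2z H hK (tx_of (d := d) (K := K) (l := l) lo0 h1 h2 h3 w0 hs) δ0 b0 w0 w1 hl n1 v1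
    c1 hb
  linarith

end Crest.Agent.R017.XMl72
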