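import Crest.Agent.R017.XPs_828
import Crest.Agent.R017.GrZ_404

/-!
# Row 17, R8/P1: the mismatch, the mains from `CoreB` (helper828)

* **`XPH`** : the mains `XE` for the whole double sum over `d`, `e`, any `η`, `α`
-/

set_option autoImplicit false

noncomputable section

open Finset MeasureTheory
open scoped ComplexConjugate

namespace Crest.Agent.R017.Xp828

open Crest.Agent.R012 Crest.Agent.R012.Eis
open Crest.Agent.R012.Div277 (tau dvs mem_dvs tau_le_rpow)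
open Crest.Agent.R012.LS2 (S mem_S bl mem_bl)
open Crest.Agent.R012.Weight600 (osc norm_osc pw norm_pw)
open Crest.Agent.R017.CM106 (CS TG FS)
open Crest.Agent.R017.C70 (JC OKJ JW okJ_JW)
open Crest.Agent.R017.FE47 (PU cx hD)
open Crest.Agent.R017.StA828 Crest.Agent.R017.StC828 Crest.Agent.R017.StF828
open Crest.Agent.R017.StB828 (one_le_nmR)
open Crest.Agent.R017.StD828 (ln)
open Crest.Agent.R017.StE828 (wD wD_ne)
open Crest.Agent.R017.GrC828 Crest.Agent.R017.GrT828 Crest.Agent.R017.StG828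
open Crest.Agent.R017.StJ319 Crest.Agent.R017.GrG404 Crest.Agent.R017.GrK404
open Crest.Agent.R017.E3F548 (XE)
open Crest.Agent.R017.E3D579 (TE0)
open Crest.Agent.R017.E3T829 (cg)
open Crest.Agent.R017.E1551 (Adm CF exists_cf BF mem_BF)
open Crest.Agent.R017.DgA829 (lc lc_prim lc_dvd lc_unique)

set_option maxHeartbeats 1000000 in
open Classical in
/-- **the mains of a class of the mismatch**, any sequences -/
theorem XPH {R' : ℝ} (hR' : 0 ≤ R') {J : ℝ} (hJ : 0 ≤ J) {B₀ : ℝ} (hB₀ : 0 ≤ B₀) {ε : ℝ}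
    (hε : 0 < ε) : ∃ C : ℝ, 1 ≤ C ∧ ∀ X : ℝ, 3 ≤ X →
    ∀ (η α : Eis → ℂ) (L₁ L₂ r₁ r₂ : ℝ), SWin η L₁ r₁ → SWin α L₂ r₂ → 2 * (r₁ + r₂) ≤ R' →
    ∀ Z : ℝ, 0 ≤ Z →
    ∀ (E0 : ℝ) (c : Fin 5) (s : ℝ) (g hh c₁ : Eis), IsPrim g → IsPrim hh → IsPrim c₁ →
    (nm g : ℝ) ≤ X ^ B₀ → ∀ (i : ℕ) (V : ℝ), 0 < V →
    nm c₁ * V ≤ Real.exp (Real.log 2 * (i + 1)) → V ≤ X ^ B₀ →
    (∀ d ∈ (JB (Real.sqrt V)).image Prod.fst, (nm (hh * d) : ℝ) ≤ X ^ B₀) →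
    ∀ Es : Finset Eis, (∀ e ∈ Es, IsPrim e ∧ (nm e : ℝ) ≤ X ^ B₀) →
    ∀ (ω : Eis → ℝ) (Ω : Eis → ℕ → ℝ), (∀ e ∈ Es, 0 ≤ ω e) → (∀ d b, 0 ≤ Ω d b) →
    (∀ d ∈ (JB (Real.sqrt V)).image Prod.fst, IsCoprime d g → ∀ e ∈ Es, ∀ b : ℕ,
      Real.log (nm (lc (cc g (hh * d)) e / cc g (hh * d))) ≤ b + 1 → ω e ≤ Ω d b) →
    ∀ (Bf : Eis → ℕ → ℝ → ℝ) (m : ℝ), (∀ d b k, 0 ≤ Bf d b k) →
    (∀ d ∈ (JB (Real.sqrt V)).image Prod.fst, IsCoprime d g → ∀ (b : ℕ) (k : ℝ),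
      (b : ℝ) ≤ 4 * B₀ * Real.log X → 0 ≤ k →
      k ≤ Real.log (V / (nm d : ℝ) ^ 2) + Real.log (nm (cc g (hh * d))) →
      CoreB (fun e => Ae Z E0 η α g c s e (hh * d)) (cc g (hh * d)) b k J (Bf d b k)) →
    (∀ d ∈ (JB (Real.sqrt V)).image Prod.fst, IsCoprime d g → ∀ b : ℕ,
      (b : ℝ) ≤ 4 * B₀ * Real.log X →
      Ω d b * Bf d b (Real.log (V / (nm d : ℝ) ^ 2) + Real.log (nm (cc g (hh * d)))) *
        (nm d : ℝ) ^ 2 ≤ Real.exp m) →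
    ∑ e ∈ Es, ω e * XE (JB (Real.sqrt V)) (omp c₁ i s) (StF828.T3 (afrb (gt5 E0 Z g c) (q5 g c) Z
        η α g hh s)) e ≤
      C * X ^ ε * (V ^ (-(1 / 3) : ℝ) * Real.exp (-((L₁ + L₂) / 3)) *
        (nm g * nm hh) ^ (1 / 3 : ℝ) * Real.exp m) := by
  obtain ⟨C, hC, H⟩ := TPdPH hR' hJ hB₀ (half_pos hε)
  obtain ⟨C₂, hC₂, hinv⟩ := sum_inv hB₀ (half_pos hε)
  refine ⟨4 * C * C₂, ?_, ?_⟩
  · nlinarith
  intro X hX η α L₁ L₂ r₁ r₂ hηw hαw hrr Z hZ E0 c s g hh c₁ hg hhp hc₁ hgX i V hV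
    hVi hVX hdX Es hEs ω Ω hω0 hΩ hωΩ Bf m hBf hyp hline
  have hX0 : 0 < X := by linarith
  have hX1 : 1 ≤ X := by linarith
  have hsV : Real.sqrt V ^ 2 = V := Real.sq_sqrt hV.le
  have hsV0 : 0 ≤ Real.sqrt V := Real.sqrt_nonneg V
  have hmem : ∀ x ∈ JB (Real.sqrt V), IsPrim x.1 ∧ Squarefree x.1 ∧ JC x.2 ∧
      (nm (ln x) : ℝ) ≤ V := by
    intro x hx
    have h1 := (mem_JB hsV0).1 hx
    rwa [hsV] at h1
  have hln : ∀ x : Eis × Eis, (nm (ln x) : ℝ) = nm x.2 * (nm x.1 : ℝ) ^ 2 := by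
    intro x
    unfold StD828.ln
    rw [nm_mul, nm_pow]; push_cast; ring
  have hX1B : 1 ≤ X ^ B₀ := Real.one_le_rpow hX1 hB₀
  set af := afrb (gt5 E0 Z g c) (q5 g c) Z η α g hh s with haf
  set Ds := (JB (Real.sqrt V)).image Prod.fst with hDs
  set Jd : Eis → Finset Eis := fun d => ((JB (Real.sqrt V)).filter fun x => x.1 = d).image Prod.snd
    with hJd
  have hdm : ∀ d ∈ Ds, IsPrim d ∧ (nm d : ℝ) ^ 2 ≤ V := by
    intro d hd
    obtain ⟨x, hx, rfl⟩ := mem_image.1 hd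
    obtain ⟨a1, a2, a3, a4⟩ := hmem x hx
    refine ⟨a1, ?_⟩
    rw [hln] at a4
    have h6 : (1 : ℝ) ≤ nm x.2 := by
      have := nm_pos.2 (JC_ne_zero a3)
      exact_mod_cast this
    nlinarith [mul_nonneg (sub_nonneg.2 h6) (sq_nonneg (nm x.1 : ℝ))]
  have hjm : ∀ d ∈ Ds, ∀ j ∈ Jd d, CF j ∧ (nm j : ℝ) ≤ V / (nm d : ℝ) ^ 2 := by
    intro d hd j hj
    obtain ⟨x, hx, rfl⟩ := mem_image.1 hj
    obtain ⟨hx1, hx2⟩ := mem_filter.1 hx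
    obtain ⟨a1, a2, a3, a4⟩ := hmem x hx1
    refine ⟨E5b54.JC_cf a3, ?_⟩
    rw [hln, hx2] at a4
    have h7 : (0 : ℝ) < nm d := by linarith [one_le_nmR (hdm d hd).1]
    rw [le_div_iff₀ (by positivity)]
    exact a4
  -- one term
  have hterm : ∀ x ∈ JB (Real.sqrt V), ∀ e, ‖omp c₁ i s x‖ ^ 2 * ((nm x.2 : ℝ) ^ (-(1 : ℝ) / 3) *
      ‖StF828.T3 af x.1 e x.2‖ ^ 2) ≤ (4 * (V ^ (-(1 / 3) : ℝ) * (nm x.1 : ℝ) ^ (2 / 3 : ℝ))) *
        ‖TE0 (cg 1 (af e x.1)) x.1 x.2 e‖ ^ 2 := by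
    intro x hx e
    obtain ⟨a1, a2, a3, a4⟩ := hmem x hx
    by_cases h0 : omp c₁ i s x = 0
    · rw [h0]
      simp only [norm_zero, ne_eq, OfNat.ofNat_ne_zero, not_false_eq_true, zero_pow, zero_mul]
      positivity
    rw [T3_eq]
    have h3 := omp_low hc₁.ne_zero hVi a1 a3 h0
    rw [hln] at h3
    have d0 : (0 : ℝ) < nm x.1 := by linarith [one_le_nmR a1]
    have j0 : (0 : ℝ) < nm x.2 := by
      have := nm_pos.2 (JC_ne_zero a3)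
      exact_mod_cast this
    have h4 : ‖omp c₁ i s x‖ ^ 2 ≤ 1 := pow_le_one₀ (norm_nonneg _) (norm_omp_le c₁ i s x)
    have h5 : (nm x.2 : ℝ) ^ (-(1 : ℝ) / 3) ≤ 4 * (V ^ (-(1 / 3) : ℝ) * (nm x.1 : ℝ) ^ (2 / 3 : ℝ)) := by
      have e1 : V / (4 * (nm x.1 : ℝ) ^ 2) ≤ nm x.2 := by
        rw [div_le_iff₀ (by positivity)]
        linarith
      have e2 : (nm x.2 : ℝ) ^ (-(1 : ℝ) / 3) ≤ (V / (4 * (nm x.1 : ℝ) ^ 2)) ^ (-(1 : ℝ) / 3) :=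
        Real.rpow_le_rpow_of_nonpos (by positivity) e1 (by norm_num)
      refine e2.trans ?_
      rw [Real.div_rpow hV.le (by positivity), Real.mul_rpow (by norm_num) (by positivity),
        ← Real.rpow_natCast (nm x.1 : ℝ) 2, ← Real.rpow_mul d0.le, div_eq_mul_inv, mul_inv,
        ← Real.rpow_neg (by norm_num), ← Real.rpow_neg d0.le]
      have e3 : (4 : ℝ) ^ (-(-(1 : ℝ) / 3)) ≤ 4 := by
        calc (4 : ℝ) ^ (-(-(1 : ℝ) / 3)) ≤ 4 ^ (1 : ℝ) :=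
              Real.rpow_le_rpow_of_exponent_le (by norm_num) (by norm_num)
          _ = 4 := Real.rpow_one 4
      have e4 : (-(((2 : ℕ) : ℝ) * (-(1 : ℝ) / 3))) = 2 / 3 := by norm_num
      have e5 : (-(1 : ℝ) / 3) = (-(1 / 3) : ℝ) := by norm_num
      rw [e4, e5]
      have p1 : 0 ≤ V ^ (-(1 / 3) : ℝ) := by positivity
      have p2 : 0 ≤ (nm x.1 : ℝ) ^ (2 / 3 : ℝ) := by positivity
      rw [e5] at e3
      calc V ^ (-(1 / 3) : ℝ) * (4 ^ (-(-(1 / 3)) : ℝ) * (nm x.1 : ℝ) ^ (2 / 3 : ℝ))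
          ≤ V ^ (-(1 / 3) : ℝ) * (4 * (nm x.1 : ℝ) ^ (2 / 3 : ℝ)) :=
            mul_le_mul_of_nonneg_left (mul_le_mul_of_nonneg_right e3 p2) p1
        _ = _ := by ring
    have h6 : 0 ≤ ‖TE0 (cg 1 (af e x.1)) x.1 x.2 e‖ ^ 2 := sq_nonneg _
    have h7 : (0 : ℝ) ≤ (nm x.2 : ℝ) ^ (-(1 : ℝ) / 3) := by positivity
    calc _ ≤ 1 * ((nm x.2 : ℝ) ^ (-(1 : ℝ) / 3) * ‖TE0 (cg 1 (af e x.1)) x.1 x.2 e‖ ^ 2) :=
          mul_le_mul_of_nonneg_right h4 (mul_nonneg h7 h6)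
      _ ≤ _ := by
          rw [one_mul]
          exact mul_le_mul_of_nonneg_right h5 h6
  have hXE : ∀ e, XE (JB (Real.sqrt V)) (omp c₁ i s) (StF828.T3 af) e ≤
      ∑ d ∈ Ds, 4 * (V ^ (-(1 / 3) : ℝ) * (nm d : ℝ) ^ (2 / 3 : ℝ)) *
        ∑ j ∈ Jd d, ‖TE0 (cg 1 (af e d)) d j e‖ ^ 2 := by
    intro e
    unfold XE
    refine (sum_le_sum fun x hx => hterm x hx e).trans (le_of_eq ?_)
    rw [sum_fib (JB (Real.sqrt V)) (fun d j => 4 * (V ^ (-(1 / 3) : ℝ) * (nm d : ℝ) ^ (2 / 3 : ℝ)) *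
      ‖TE0 (cg 1 (af e d)) d j e‖ ^ 2)]
    refine sum_congr rfl fun d _ => ?_
    rw [mul_sum]
  have hXp : 0 < Real.exp (L₁ + L₂) := Real.exp_pos _
  have g0 : (0 : ℝ) < nm g := by linarith [one_le_nmR hg]
  have hh0 : (0 : ℝ) < nm hh := by linarith [one_le_nmR hhp]
  have hccX : ∀ d, (nm (cc g (hh * d)) : ℝ) ≤ X ^ B₀ := fun d => by
    refine le_trans ?_ hgX
    exact_mod_cast Div277.nm_le_of_dvd hg.ne_zero (cc_dvd hg)
  have hX'0 : ∀ d ∈ Ds, 0 < Real.exp (L₁ + L₂) / (nm g * nm (hh * d) : ℝ) := fun d hd => by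
    have h4 : (0 : ℝ) < nm (hh * d) := by
      exact_mod_cast nm_pos.2 (hhp.mul (hdm d hd).1).ne_zero
    positivity
  have hadm : ∀ d ∈ Ds, ∀ e, ∃ Y, 0 ≤ Y ∧ Adm Y (Real.exp (L₁ + L₂) / (nm g * nm (hh * d))) R'
      (Ae Z E0 η α g c s e (hh * d)) := fun d hd e => by
    obtain ⟨Y, hY, h3⟩ := afW_admG hηw hαw (Wb (gt5 E0 Z g c) (q5 g c) s) hZ hg
      (hhp.mul (hdm d hd).1) e
    exact ⟨Y, hY, h3.sup, fun n hn => (h3.win n hn).trans (by linarith)⟩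
  -- one `d`
  have hd1 : ∀ d ∈ Ds, ∑ e ∈ Es, ω e * ∑ j ∈ Jd d, ‖TE0 (cg 1 (af e d)) d j e‖ ^ 2 ≤
      C * X ^ (ε / 2) *
        (Real.exp (-((L₁ + L₂) / 3)) * (nm g * nm hh) ^ (1 / 3 : ℝ) *
          (nm d : ℝ) ^ (1 / 3 : ℝ)) * (Real.exp m / (nm d : ℝ) ^ 2) := by
    intro d hd
    obtain ⟨d1, d2⟩ := hdm d hd
    have d0 : (0 : ℝ) < nm d := by linarith [one_le_nmR d1]
    by_cases hdg : IsCoprime d g
    swap
    · have hz : ∀ e, cg 1 (af e d) = 0 := by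
        intro e
        rw [cg_one]
        funext m
        rw [haf]
        unfold afrb afd
        rw [if_neg hdg, mul_zero]
        rfl
      have hz2 : ∀ e, ∑ j ∈ Jd d, ‖TE0 (cg 1 (af e d)) d j e‖ ^ 2 = 0 := by
        intro e
        refine sum_eq_zero fun j _ => ?_
        rw [hz e]
        have : TE0 (0 : Eis → ℂ) d j e = 0 := by
          unfold TE0
          simp
        rw [this]
        simp
      simp only [hz2, mul_zero, sum_const_zero]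
      positivity
    have hW : V / (nm d : ℝ) ^ 2 ≤ X ^ B₀ := by
      refine le_trans ?_ hVX
      exact div_le_self hV.le (one_le_pow₀ (one_le_nmR d1))
    have key := H X hX (fun e => Ae Z E0 η α g c s e (hh * d)) (cc g (hh * d)) 1 (cc_prim hg)
      isPrim_one (hccX d) (by simpa using hX1B) _ (hX'0 d hd) (hadm d hd)
      (fun e m hm => afW_c hZ hg hm) Es (Jd d) hEs (V / (nm d : ℝ) ^ 2) hW
      (fun j hj => ⟨(hjm d hd j hj).1.1, (hjm d hd j hj).2⟩) (fun n => n = 0)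
      (fun j hj κ' c' hjc => by
        obtain ⟨hj0, hcf⟩ := (hjm d hd j hj).1
        have hc0 : c' ≠ 0 := by
          rintro rfl
          exact hj0 (by rw [hjc]; simp)
        have hu : IsUnit c' := by
          by_contra hnu
          obtain ⟨p, hp, hpc⟩ := WfDvdMonoid.exists_irreducible_factor hnu hc0
          exact hcf p hp.prime (hjc ▸ (pow_dvd_pow_of_dvd hpc 3).mul_left κ')
        have h3 : nm c' = 1 := Crest.Agent.R012.Eis.isUnit_iff.1 hu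
        rw [h3]
        simp) ω (Ω d) hω0 (hΩ d) (hωΩ d hd hdg) (Bf d) (Real.exp m / (nm d : ℝ) ^ 2) (hBf d)
      (by positivity) (fun b k hb hk hkW => hyp d hd hdg b k hb hk hkW)
      (fun b n hb hn hn3 hn0 => by
        subst hn0
        rw [mul_zero, sub_zero, neg_zero, Real.exp_zero, mul_one, le_div_iff₀ (by positivity)]
        exact hline d hd hdg b hb) d
    have key2 : ∑ e ∈ Es, ω e * ∑ j ∈ Jd d, ‖TE0 (cg 1 (af e d)) d j e‖ ^ 2 ≤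
        C * X ^ (ε / 2) * (Real.exp (L₁ + L₂) / (nm g * nm (hh * d))) ^ (-(1 / 3) : ℝ) *
          (Real.exp m / (nm d : ℝ) ^ 2) :=
      (sum_le_sum fun e he => mul_le_mul_of_nonneg_left (sum_le_sum fun j _ =>
        pow_le_pow_left₀ (norm_nonneg _) (norm_TE0_afrb_le E0 Z η α g hh c s e d 1 d j e) 2)
        (hω0 e he)).trans key
    refine key2.trans (le_of_eq ?_)
    have e1 : (Real.exp (L₁ + L₂) / (nm g * nm (hh * d))) ^ (-(1 / 3) : ℝ) =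
        Real.exp (-((L₁ + L₂) / 3)) * (nm g * nm hh) ^ (1 / 3 : ℝ) *
          (nm d : ℝ) ^ (1 / 3 : ℝ) := by
      rw [nm_mul]
      push_cast
      rw [Real.rpow_neg (by positivity), ← Real.inv_rpow (by positivity), inv_div,
        show (nm g : ℝ) * ((nm hh : ℝ) * nm d) = (nm g * nm hh) * nm d by ring,
        Real.div_rpow (by positivity) (Real.exp_pos _).le, Real.mul_rpow (by positivity) d0.le,
        ← Real.exp_mul, div_eq_mul_inv, ← Real.exp_neg]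
      rw [show -((L₁ + L₂) * (1 / 3)) = -((L₁ + L₂) / 3) by ring]
      ring
    rw [e1]
  set P := Real.exp (-((L₁ + L₂) / 3)) * (nm g * nm hh : ℝ) ^ (1 / 3 : ℝ) with hP
  have hP0 : 0 ≤ P := by positivity
  set Q := C * X ^ (ε / 2) with hQ
  have hQ0 : 0 ≤ Q := by positivity
  have hV3 : 0 ≤ V ^ (-(1 / 3) : ℝ) := by positivity
  have hDX : ∀ d ∈ Ds, IsPrim d ∧ (nm d : ℝ) ≤ X ^ B₀ := by
    intro d hd
    refine ⟨(hdm d hd).1, le_trans ?_ (hdX d hd)⟩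
    rw [nm_mul]
    push_cast
    exact le_mul_of_one_le_left (Nat.cast_nonneg _) (one_le_nmR hhp)
  calc ∑ e ∈ Es, ω e * XE (JB (Real.sqrt V)) (omp c₁ i s) (StF828.T3 af) e
      ≤ ∑ e ∈ Es, ω e * ∑ d ∈ Ds, 4 * (V ^ (-(1 / 3) : ℝ) * (nm d : ℝ) ^ (2 / 3 : ℝ)) *
        ∑ j ∈ Jd d, ‖TE0 (cg 1 (af e d)) d j e‖ ^ 2 :=
        sum_le_sum fun e he => mul_le_mul_of_nonneg_left (hXE e) (hω0 e he)
    _ = ∑ d ∈ Ds, 4 * (V ^ (-(1 / 3) : ℝ) * (nm d : ℝ) ^ (2 / 3 : ℝ)) *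
        ∑ e ∈ Es, ω e * ∑ j ∈ Jd d, ‖TE0 (cg 1 (af e d)) d j e‖ ^ 2 := by
        simp_rw [mul_sum]
        rw [sum_comm]
        refine sum_congr rfl fun d _ => sum_congr rfl fun e _ => sum_congr rfl fun j _ => ?_
        ring
    _ ≤ ∑ d ∈ Ds, 4 * (V ^ (-(1 / 3) : ℝ) * (nm d : ℝ) ^ (2 / 3 : ℝ)) *
        (Q * (P * (nm d : ℝ) ^ (1 / 3 : ℝ)) * (Real.exp m / (nm d : ℝ) ^ 2)) :=
        sum_le_sum fun d hd => mul_le_mul_of_nonneg_left (hd1 d hd) (by positivity)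
    _ = ∑ d ∈ Ds, (4 * Q * (V ^ (-(1 / 3) : ℝ) * P * Real.exp m)) * (nm d : ℝ)⁻¹ := by
        refine sum_congr rfl fun d hd => ?_
        have d0 : (0 : ℝ) < nm d := by linarith [one_le_nmR (hdm d hd).1]
        have e1 : (nm d : ℝ) ^ (2 / 3 : ℝ) * (nm d : ℝ) ^ (1 / 3 : ℝ) = nm d := by
          rw [← Real.rpow_add d0]
          norm_num
        have e2 : (nm d : ℝ) ^ (2 / 3 : ℝ) * (nm d : ℝ) ^ (1 / 3 : ℝ) / (nm d : ℝ) ^ 2 =
            (nm d : ℝ)⁻¹ := by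
          rw [e1]
          field_simp
        calc _ = (4 * Q * (V ^ (-(1 / 3) : ℝ) * P * Real.exp m)) *
              ((nm d : ℝ) ^ (2 / 3 : ℝ) * (nm d : ℝ) ^ (1 / 3 : ℝ) / (nm d : ℝ) ^ 2) := by ring
          _ = _ := by rw [e2]
    _ = (4 * Q * (V ^ (-(1 / 3) : ℝ) * P * Real.exp m)) * ∑ d ∈ Ds, (nm d : ℝ)⁻¹ := by
        rw [mul_sum]
    _ ≤ (4 * Q * (V ^ (-(1 / 3) : ℝ) * P * Real.exp m)) * (C₂ * X ^ (ε / 2)) :=
        mul_le_mul_of_nonneg_left (hinv X hX1 Ds hDX) (by positivity)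
    _ = 4 * C * C₂ * (X ^ (ε / 2) * X ^ (ε / 2)) *
        (V ^ (-(1 / 3) : ℝ) * P * Real.exp m) := by
        rw [hQ]; ring
    _ = _ := by
        rw [← Real.rpow_add hX0, add_halves, hP]
        ring

end Crest.Agent.R017.Xp828
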