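import Crest.Agent.R017.CR9_72
import Crest.Agent.R017.XMl_72
import Crest.Agent.R017.XMf_54
import Crest.Agent.R017.XPH_828

/-!
# Row 17, exceptional class (helper72): the mains of the mismatch from `CoreG`

* `xh_of` : the real frame from `Fr9X`;  `tO_nearX`, `lev_X` : the levels
* `line_MX` : the line of a child, structured entry; `line_BX` : the bias entry
* **`xmG_of`** : `XMG` from `CoreG`
-/

set_option autoImplicit false

noncomputable section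

open Finset Filter
open scoped ComplexConjugate

namespace Crest.Agent.R017.XMm72

open Crest.Agent.R012 Crest.Agent.R012.Eis Crest.Agent.R012.Div277
open Crest.Agent.R012.LS2 (S mem_S)
open Crest.Agent.R017.CM106 Crest.Agent.R017.C70
open Crest.Agent.R017.StF828 (T3)
open Crest.Agent.R017.StB828 (one_le_nmR)
open Crest.Agent.R017.StD828 (ln)
open Crest.Agent.R017.StA828 (gp gp_eq)
open Crest.Agent.R017.GrT828 (cc)
open Crest.Agent.R017.DgA829 (lc lc_prim lc_dvd)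
open Crest.Agent.R017.StG828 (JB omp I1z I2z mem_JB)
open Crest.Agent.R017.StJ319 (afrb gt5 q5 I5 Ilo Ihi gtb)
open Crest.Agent.R017.P1e54 Crest.Agent.R017.P1f54 Crest.Agent.R017.P1k54
open Crest.Agent.R017.P1l54 (ParOK oN)
open Crest.Agent.R017.Sf770 (nO)
open Crest.Agent.R017.P1u54
open Crest.Agent.R017.P1v54 (ηC supp_list FS_list)
open Crest.Agent.R017.HP842 (Pc pc al alL sqc)
open Crest.Agent.R017.FE47 (PU cx SM)
open Crest.Agent.R017.B770 Crest.Agent.R017.Prov71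
open Crest.Agent.R017.E5B71 Crest.Agent.R017.E5L770
open Crest.Agent.R017.ExBox960 Crest.Agent.R017.ExP960
open Crest.Agent.R017.P1X960
open Crest.Agent.R017.I1146 (LN)
open Crest.Agent.R017.P1MU960
open Crest.Agent.R017.Mm828 (Vb XMn)
open Crest.Agent.R017.E3F548 (XE)
open Crest.Agent.R017.GrG404 (y5 Ae)
open Crest.Agent.R017.GrK404 (CoreB SWin)
open Crest.Agent.R017.P1XM176 (NVx)
open Crest.Agent.R017.XMl72
open Crest.Agent.R017.XMf54 (I5_lev cc_cop wt_le T3_four NV_crude)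
open Crest.Agent.R017.P1yX72

/-- the facts of the parent -/
def SqF (p : Fin 3 ⊕ Fin 5 → ℝ) : Prop :=
  3 / 4 * cκ p ≤ cN p ∧ cN p ≤ 84 / 103 * cκ p ∧ 0 ≤ cx' p ∧
    (cx' p = 0 ∨ (cx' p ≤ 1 / 36 * cκ p ∧ cx' p + 7 / 10 * cN p ≤ 199 / 360 * cκ p ∧
      cN p + cx' p ≤ 15 / 19 * cκ p))

/-- logarithm of the length of the child -/
def pX (a : BmX) (qs : List Pq) : ℝ := LN (clM a qs) - 2 * Real.log (nm a.2.1)

section
variable {c β : ℝ} {p : IX5 → ℝ} {X τ B H : ℝ} {N : ℕ} {a : BmX} {qs : List Pq}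

lemma lM_near (hτ : 0 ≤ τ) (F : Fr9X c β p X τ B H N a qs) :
    |lM a - (cN (prX p) * Real.log X - a.1.2.2)| ≤ 2 * (τ * Real.log X) := by
  obtain ⟨A1, A2⟩ := abs_le.1 F.A
  obtain ⟨b1, b2⟩ := abs_le.1 F.b
  have e1 : lM a = (a.1.2.1 0).z + (a.1.2.1 1).z + (a.1.2.1 2).z := rfl
  rw [abs_le]
  constructor <;> linarith

lemma xh_of (hsq : SqF (prX p)) (hτ : 0 ≤ τ) (F : Fr9X c β p X τ B H N a qs) {t : ℝ}
    (ht : 3 * (τ * Real.log X) ≤ t) :
    XH (cκ (prX p) * Real.log X) (cN (prX p) * Real.log X) (cx' (prX p) * Real.log X)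
      (max 0 (5 / 4 * cN (prX p) - cκ (prX p)) * Real.log X) (LN qs) (Real.log (nm a.2.1))
      a.1.2.2 (pX a qs) t := by
  obtain ⟨n0, n1, x0, hx⟩ := hsq
  have hL := F.L
  have hL0 := hL.le
  have hτL : 0 ≤ τ * Real.log X := by positivity
  have k0 : 0 < cκ (prX p) := by linarith [F.par.κ0]
  have m1 := le_max_left 0 (5 / 4 * cN (prX p) - cκ (prX p))
  have m2 := le_max_right 0 (5 / 4 * cN (prX p) - cκ (prX p))
  have n0L := mul_le_mul_of_nonneg_right n0 hL0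
  have n1L := mul_le_mul_of_nonneg_right n1 hL0
  have m2L := mul_le_mul_of_nonneg_right m2 hL0
  have hlo := F.lo
  have hcl := F.cl
  obtain ⟨q1, q2⟩ := abs_le.1 (lM_near hτ F)
  have e1 : lM a = (a.1.2.1 0).z + (a.1.2.1 1).z + (a.1.2.1 2).z := rfl
  refine ⟨by positivity, by linarith, by linarith, by positivity, ?_, by positivity, by linarith,
    by linarith [F.qs1], F.g0, by linarith [F.g1], F.b0, ?_, ?_, by linarith⟩
  · rcases hx with hx | ⟨h1, h2, h3⟩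
    · left; rw [hx, zero_mul]
    · right
      have h1L := mul_le_mul_of_nonneg_right h1 hL0
      have h2L := mul_le_mul_of_nonneg_right h2 hL0
      have h3L := mul_le_mul_of_nonneg_right h3 hL0
      exact ⟨by linarith, by linarith, by linarith⟩
  · unfold pX; linarith
  · unfold pX; linarith

lemma tO_nearX (F : Fr9X c β p X τ B H N a qs) :
    |Sf770.tO a.1.1.toBd - (min (2 * (cN (prX p) * Real.log X) - cκ (prX p) * Real.log X)
      (3 / 4 * (cN (prX p) * Real.log X)) + 11 / 5 * (cx' (prX p) * Real.log X))| ≤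
      6 * (τ * Real.log X) := by
  have hτL : 0 ≤ τ * Real.log X := (abs_nonneg _).trans F.l
  obtain ⟨l1, l2⟩ := abs_le.1 F.l
  obtain ⟨z1, z2⟩ := abs_le.1 F.z
  obtain ⟨A1, A2⟩ := abs_le.1 F.A
  have e0 : Sf770.tO a.1.1.toBd = min (2 * a3 a.1.1.toBd - a.1.1.l) (3 / 4 * a3 a.1.1.toBd) +
    11 / 5 * a.1.1.z := rfl
  rw [e0]
  have h1 : |min (2 * a3 a.1.1.toBd - a.1.1.l) (3 / 4 * a3 a.1.1.toBd) -
      min (2 * (cN (prX p) * Real.log X) - cκ (prX p) * Real.log X)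
        (3 / 4 * (cN (prX p) * Real.log X))| ≤ 3 * (τ * Real.log X) := by
    refine (abs_min_sub_min_le_max _ _ _ _).trans (max_le ?_ ?_)
    · rw [abs_le]; constructor <;> linarith
    · rw [abs_le]; constructor <;> linarith
  obtain ⟨m1, m2⟩ := abs_le.1 h1
  rw [abs_le]
  constructor <;> linarith

/-- **the levels of a class** -/
lemma lev_X (hc0 : 0 ≤ c) (hc1 : c ≤ 1 / 100) (hsq : SqF (prX p)) (hτ : 0 ≤ τ)
    (hτ1 : τ ≤ 1 / 100)
    (F : Fr9X c β p X τ B H N a qs) {t : ℝ}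
    (ht : 9 * (τ * Real.log X) + 9 * Real.log 2 ≤ t) {c5 : Fin 5} {i : ℕ}
    (hi : i ∈ I5 a.2.1 (nM (nO a.1.1.toBd) a.2.2) (nW c a.1.1.toBd a.1.2.2)
      (Real.exp a.2.2) c5) {k N' x : ℝ} (hk : k = cκ (prX p) * Real.log X)
    (hN' : N' = cN (prX p) * Real.log X) (hx : x = cx' (prX p) * Real.log X) :
    Real.log 2 * (i + 1) ≤ min (2 * N' - k) (3 / 4 * N') + 21 / 5 * x -
      Real.log (nm a.2.1) + t ∧
    Real.log 2 * (i + 1) ≤ min (2 * N' - k) (3 / 4 * N') + 21 / 5 * x - 2 * a.1.2.2 + k / 50 + t ∧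
    ((c5 = 0 ∨ c5 = 1) → Real.log 2 * (i + 1) ≤ min (2 * N' - k) (3 / 4 * N') + 11 / 5 * x + t ∧
      min (2 * N' - k) (3 / 4 * N') + 11 / 5 * x - 2 * a.1.2.2 - x - Real.log (nm a.2.1) - t ≤
        Real.log 2 * (i + 1)) ∧
    ((c5 = 2 ∨ c5 = 3) →
      min (2 * N' - k) (3 / 4 * N') + 11 / 5 * x - 2 * a.1.2.2 - t ≤ Real.log 2 * (i + 1)) := by
  have hL := F.L
  have hτL : 0 ≤ τ * Real.log X := mul_nonneg hτ hL.le
  have hl2 : 0 < Real.log 2 := Real.log_pos (by norm_num)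
  obtain ⟨T1, T2⟩ := abs_le.1 (tO_nearX F)
  rw [← hk, ← hN', ← hx] at T1 T2
  obtain ⟨ζ1, ζ2⟩ := abs_le.1 F.ζ
  rw [← hx] at ζ1 ζ2
  obtain ⟨l1, l2⟩ := abs_le.1 F.l
  rw [← hk] at l1 l2
  have hw0 := F.w0
  have hw1 := F.w1
  have hb0 := F.b0
  have hg0 := F.g0
  have hb1 := F.b1
  have htop : (top5 (prX p) + 2 * c * cκ (prX p)) * Real.log X =
      min (2 * N' - k) (3 / 4 * N') + 11 / 5 * x + 2 * (c * k) := by
    unfold top5
    rw [add_mul, add_mul, min_mul_of_nonneg _ _ hL.le, hk, hN', hx]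
    congr 1
    · congr 1
      · congr 1 <;> ring
      · ring
    · ring
  rw [htop] at hb1
  have k0 : 0 < k := by
    rw [hk]
    have := F.par.κ0
    positivity
  have hl0 : 0 ≤ a.1.1.l := by
    have h1 : 8 / 9 * Real.log X ≤ k := by
      rw [hk]
      exact mul_le_mul_of_nonneg_right F.par.κ0 hL.le
    have h2 : τ * Real.log X ≤ 1 / 100 * Real.log X := mul_le_mul_of_nonneg_right hτ1 hL.le
    linarith
  have hN0 : 3 / 4 * k ≤ N' := by
    have := mul_le_mul_of_nonneg_right hsq.1 hL.le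
    rw [hk, hN']
    linarith
  have hx0 : 0 ≤ x := by
    rw [hx]
    exact mul_nonneg hsq.2.2.1 hL.le
  have hm0 : 0 ≤ min (2 * N' - k) (3 / 4 * N') := le_min (by linarith) (by linarith)
  have hcl : 0 ≤ c * a.1.1.l := mul_nonneg hc0 hl0
  have hcl1 : c * a.1.1.l ≤ 1 / 100 * a.1.1.l := mul_le_mul_of_nonneg_right hc1 hl0
  have hck : c * k ≤ 1 / 100 * k := mul_le_mul_of_nonneg_right hc1 k0.le
  set mn := min (2 * N' - k) (3 / 4 * N') with hmn
  set W := min (Sf770.tO a.1.1.toBd) (Sf770.tO a.1.1.toBd + 2 * (c * a.1.1.l) - 2 * a.1.2.2)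
    with hW
  have W1 : W ≤ Sf770.tO a.1.1.toBd := min_le_left _ _
  have W2 : W ≤ Sf770.tO a.1.1.toBd + 2 * (c * a.1.1.l) - 2 * a.1.2.2 := min_le_right _ _
  have W3 : Sf770.tO a.1.1.toBd - 2 * a.1.2.2 ≤ W := le_min (by linarith) (by linarith)
  have W4 : max 0 W ≤ mn + 11 / 5 * x + 6 * (τ * Real.log X) := max_le (by positivity)
    (by linarith)
  have W5 : max 0 W ≤ mn + 11 / 5 * x - 2 * a.1.2.2 + k / 50 + 7 * (τ * Real.log X) := by
    have h3 : 1 / 50 * (τ * Real.log X) ≤ τ * Real.log X := by linarith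
    exact max_le (by linarith) (by linarith)
  obtain ⟨L1, L2, L3⟩ := I5_lev hi
  rw [Real.log_exp] at L1 L2
  refine ⟨by linarith, by linarith, ?_, ?_⟩
  · intro h01
    obtain ⟨M1, M2'⟩ := L2 h01
    have M2 : (i : ℝ) + 3 ≤ nW c a.1.1.toBd a.1.2.2 := by exact_mod_cast M2'
    have M3 := mul_le_mul_of_nonneg_left M2 hl2.le
    constructor <;> linarith
  · intro h23
    have M1' := L3 h23
    have M2 : (nW c a.1.1.toBd a.1.2.2 : ℝ) ≤ i + 2 := by
      have : nW c a.1.1.toBd a.1.2.2 ≤ i + 2 := by omega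
      exact_mod_cast this
    have M3 := mul_le_mul_of_nonneg_left M2 hl2.le
    linarith

set_option maxHeartbeats 1000000 in
/-- **the line of one child, structured entry** -/
lemma line_MX (hc0 : 0 ≤ c) (hc1 : c ≤ 1 / 100) (hsq : SqF (prX p)) (hτ : 0 ≤ τ)
    (hτ1 : τ ≤ 1 / 100)
    (F : Fr9X c β p X τ B H N a qs) {t : ℝ}
    (ht : 9 * (τ * Real.log X) + 9 * Real.log 2 ≤ t) {c5 : Fin 5} {i : ℕ}
    (hi : i ∈ I5 a.2.1 (nM (nO a.1.1.toBd) a.2.2) (nW c a.1.1.toBd a.1.2.2)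
      (Real.exp a.2.2) c5)
    {d K lo l n w z₁ z₂ z₃ δ bb : ℝ}
    (hK : K ≤ cκ (prX p) * Real.log X +
      max 0 (5 / 4 * cN (prX p) - cκ (prX p)) * Real.log X + t)
    (lo0 : 0 ≤ lo) (h1 : 0 ≤ z₁) (h2 : 0 ≤ z₂) (h3 : 0 ≤ z₃) (w0 : 0 ≤ w)
    (hs : z₁ + z₂ + z₃ + w = n) (δ0 : 0 ≤ δ) (b0 : 0 ≤ bb) (w1 : w ≤ LN qs + t)
    (hl : l ≤ Real.log 2 * (i + 1) - 2 * δ + bb + t) (n1 : n ≤ pX a qs - δ - bb + t) {y' : ℝ}
    (hw : LN qs - Real.log (nm a.2.1) - min (y5 (Real.exp a.2.2) a.2.1 c5) y' - bb -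
      τ * Real.log X ≤ w)
    {γc : ℝ} (hγc : γc ≤ Real.log (nm a.2.1))
    (hb : c5 = 4 → cκ (prX p) * Real.log X / 64 - γc - t ≤ bb) :
    2 / 3 * (cκ (prX p) * Real.log X) - Real.log 2 * (i + 1) / 3 - pX a qs / 3 + 2 * δ +
      NVx d K lo l n z₁ z₂ z₃ w - (if c5 = 4 then cκ (prX p) * Real.log X / 64 else 0) ≤
      cκ (prX p) * Real.log X + pX a qs +
        max 0 (5 / 4 * cN (prX p) - cκ (prX p)) * Real.log X + lo + 20 * t := by
  have hτL : 0 ≤ τ * Real.log X := mul_nonneg hτ F.L.le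
  have hl2 : 0 < Real.log 2 := Real.log_pos (by norm_num)
  have HX := xh_of hsq hτ F (t := t) (by linarith)
  obtain ⟨ζ1, ζ2⟩ := abs_le.1 F.ζ
  obtain ⟨V1, V2, V3, V4⟩ := lev_X hc0 hc1 hsq hτ hτ1 F ht hi rfl rfl rfl
  by_cases c01 : c5 = 0 ∨ c5 = 1
  · have hc4 : ¬ c5 = 4 := by rcases c01 with rfl | rfl <;> decide
    rw [if_neg hc4, sub_zero]
    have hy : y5 (Real.exp a.2.2) a.2.1 c5 = (a.2.2 + Real.log (nm a.2.1)) / 3 := by
      rcases c01 with rfl | rfl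
      · show (Real.log (Real.exp a.2.2) + Real.log (nm a.2.1)) / 3 = _
        rw [Real.log_exp]
      · show (Real.log (Real.exp a.2.2) + Real.log (nm a.2.1)) / 3 = _
        rw [Real.log_exp]
    rw [hy] at hw
    have hm := min_le_left ((a.2.2 + Real.log (nm a.2.1)) / 3) y'
    exact xh_lo HX hK lo0 h1 h2 h3 w0 hs δ0 b0 w1 hl n1 (V3 c01).1 (V3 c01).2 (by linarith)
  · by_cases c23 : c5 = 2 ∨ c5 = 3
    · have hc4 : ¬ c5 = 4 := by rcases c23 with rfl | rfl <;> decide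
      rw [if_neg hc4, sub_zero]
      exact xh_hi HX hK lo0 h1 h2 h3 w0 hs δ0 b0 w1 hl n1 V1 (V4 c23)
    · have hc4 : c5 = 4 := by
        fin_cases c5
        · exact absurd (Or.inl rfl) c01
        · exact absurd (Or.inr rfl) c01
        · exact absurd (Or.inl rfl) c23
        · exact absurd (Or.inr rfl) c23
        · rfl
      rw [if_pos hc4]
      exact xh_2z HX hK lo0 h1 h2 h3 w0 hs δ0 b0 w1 hl n1 V1 (cc := γc) (by linarith) (hb hc4)

/-- **the line of one child, bias entry** -/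
lemma line_BX (hc0 : 0 ≤ c) (hc1 : c ≤ 1 / 100) (hsq : SqF (prX p)) (hτ : 0 ≤ τ)
    (hτ1 : τ ≤ 1 / 100)
    (F : Fr9X c β p X τ B H N a qs) {t : ℝ}
    (ht : 9 * (τ * Real.log X) + 9 * Real.log 2 ≤ t)
    (ht1 : t ≤ cκ (prX p) * Real.log X / 2000) {c5 : Fin 5} {i : ℕ}
    (hi : i ∈ I5 a.2.1 (nM (nO a.1.1.toBd) a.2.2) (nW c a.1.1.toBd a.1.2.2)
      (Real.exp a.2.2) c5)
    {l n δ bb m s₀ : ℝ} (δ0 : 0 ≤ δ) (b0 : 0 ≤ bb)
    (hl : l ≤ Real.log 2 * (i + 1) - 2 * δ + bb + t) (n1 : n ≤ pX a qs - δ - bb + t)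
    (hs : 17 / 100 * (cκ (prX p) * Real.log X) - a.1.2.2 - t ≤ s₀) (m0 : 0 ≤ m)
    (m1 : s₀ - Real.log (nm a.2.1) - δ - bb ≤ m) :
    2 / 3 * (cκ (prX p) * Real.log X) - Real.log 2 * (i + 1) / 3 - pX a qs / 3 + 2 * δ +
      (2 / 3 * l + 5 / 3 * n - m) + cκ (prX p) * Real.log X / 100 ≤
      cκ (prX p) * Real.log X + pX a qs +
        max 0 (5 / 4 * cN (prX p) - cκ (prX p)) * Real.log X + 20 * t := by
  have hτL : 0 ≤ τ * Real.log X := mul_nonneg hτ F.L.le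
  have hl2 : 0 < Real.log 2 := Real.log_pos (by norm_num)
  have HX := xh_of hsq hτ F (t := t) (by linarith)
  obtain ⟨V1, V2, V3, V4⟩ := lev_X hc0 hc1 hsq hτ hτ1 F ht hi rfl rfl rfl
  exact xh_b HX ht1 δ0 b0 hl n1 V2 hs m0 m1

end

end Crest.Agent.R017.XMm72
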