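import Crest.Agent.R017.XMm_72

/-!
# Row 17, exceptional class (helper72): the mains of the mismatch from `CoreG`, part 2

* **`xmG_of`** : `XMG` from `CoreG`
-/

set_option autoImplicit false

noncomputable section

open Finset Filter
open scoped ComplexConjugate

namespace Crest.Agent.R017.XMm72

open Crest.Agent.R012 Crest.Agent.R012.Eis Crest.Agent.R012.Div277
open Crest.Agent.R012.LS2 (S mem_S)
open Crest.Agent.R017.CM106 Crest.Agent.R017.C70
open Crest.Agent.R017.StF828 (T3)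
open Crest.Agent.R017.StB828 (one_le_nmR)
open Crest.Agent.R017.StD828 (ln)
open Crest.Agent.R017.StA828 (gp gp_eq)
open Crest.Agent.R017.GrT828 (cc)
open Crest.Agent.R017.DgA829 (lc lc_prim lc_dvd)
open Crest.Agent.R017.StG828 (JB omp I1z I2z mem_JB)
open Crest.Agent.R017.StJ319 (afrb gt5 q5 I5 Ilo Ihi gtb)
open Crest.Agent.R017.P1e54 Crest.Agent.R017.P1f54 Crest.Agent.R017.P1k54
open Crest.Agent.R017.P1l54 (ParOK oN)
open Crest.Agent.R017.Sf770 (nO)
open Crest.Agent.R017.P1u54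
open Crest.Agent.R017.P1v54 (ηC supp_list FS_list)
open Crest.Agent.R017.HP842 (Pc pc al alL sqc)
open Crest.Agent.R017.FE47 (PU cx SM)
open Crest.Agent.R017.B770 Crest.Agent.R017.Prov71
open Crest.Agent.R017.E5B71 Crest.Agent.R017.E5L770
open Crest.Agent.R017.ExBox960 Crest.Agent.R017.ExP960
open Crest.Agent.R017.P1X960
open Crest.Agent.R017.I1146 (LN)
open Crest.Agent.R017.P1MU960
open Crest.Agent.R017.Mm828 (Vb XMn)
open Crest.Agent.R017.E3F548 (XE)
open Crest.Agent.R017.GrG404 (y5 Ae)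
open Crest.Agent.R017.GrK404 (CoreB SWin)
open Crest.Agent.R017.P1XM176 (NVx)
open Crest.Agent.R017.XMl72
open Crest.Agent.R017.XMf54 (I5_lev cc_cop wt_le T3_four NV_crude)
open Crest.Agent.R017.P1yX72
open Crest.Agent.R017.Xp828 (XPH)

variable {Λ : Type*} {π : Λ → DPar} {h : ℝ → ℝ}

set_option maxHeartbeats 4000000 in
open Classical in
/-- **the mains of the mismatch from `CoreG`** -/
theorem xmG_of (hP : ∀ lam, (π lam).OK) {Rh : ℝ} (hRh0 : 0 ≤ Rh)
    (hRh : ∀ u, cx h u ≠ 0 → |u| ≤ Rh) {c β : ℝ} (hc0 : 0 ≤ c) (hc1 : c ≤ 1 / 100)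
    {ok : Λ × Eis → BmX → List Pq → Prop} {α : Λ × Eis → BmX → Eis → ℂ}
    {Fx : (IX5 → ℝ) → ℝ → ℝ → ℝ → ℝ → ℕ → BmX → List Pq → Prop}
    {Par : Set (Fin 3 ⊕ Fin 5 → ℝ)} {L0 : (Fin 3 ⊕ Fin 5 → ℝ) → ℝ}
    {Kf Tf ℓ : (Fin 5 → ℝ) → ℝ} {dA : ℝ} {S0 : BmX → ℝ}
    (hwin : ∀ lam a n, α lam a n ≠ 0 → IsPrim n ∧ Squarefree n ∧
      |Real.log (nm n) - lM a| ≤ 3 * Rh)
    (hlen : ∀ (p : IX5 → ℝ) (X τ B H : ℝ) (N : ℕ) (a : BmX) (qs : List Pq),
      Fx p X τ B H N a qs → qs.length ≤ N)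
    (hmono : ∀ (p : IX5 → ℝ) (X τ τ' B H : ℝ) (N : ℕ) (a : BmX) (qs : List Pq),
      0 ≤ Real.log X → τ ≤ τ' → Fx p X τ B H N a qs → Fx p X τ' B H N a qs)
    (hS0 : ∀ (p : IX5 → ℝ) (X τ B H : ℝ) (N : ℕ) (a : BmX) (qs : List Pq), prX p ∈ Par → 0 ≤ τ →
      Fr9X c β p X τ B H N a qs → Fx p X τ B H N a qs →
      17 / 100 * (cκ (prX p) * Real.log X) - a.1.2.2 - 9 * (τ * Real.log X) ≤ S0 a)
    (hsq : ∀ p ∈ Par, SqF p)
    (hKf : ∀ p : IX5 → ℝ, prX p ∈ Par → ZR β p → ∀ bb, bb = bNx p ∨ bb = bRx p →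
      Kf bb ≤ max (cκ (prX p)) (5 / 4 * cN (prX p)))
    (hTf : ∀ p : IX5 → ℝ, prX p ∈ Par → ZR β p → ∀ bb, bb = bNx p ∨ bb = bRx p →
      min (2 * cN (prX p) - cκ (prX p)) (3 / 4 * cN (prX p)) + 5 * cx' (prX p) ≤ Tf bb)
    (hℓ : ∀ p : IX5 → ℝ, prX p ∈ Par → ZR β p → ∀ bb, bb = bNx p ∨ bb = bRx p →
      0 ≤ ℓ bb ∧ max 0 (5 / 4 * cN (prX p) - cκ (prX p)) + ℓ bb ≤ L0 (prX p))
    (hL0 : ∀ p ∈ Par, L0 p ≤ 10)
    (hC : CoreG π h (1 / 64) c ok α Fx β Par Kf Tf ℓ dA S0) :
    XMG π h (1 / 64) c ok α Fx β Par L0 := by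
  intro ε hε
  obtain ⟨τ', hτ', hC⟩ := hC (ε / 4) (by positivity)
  obtain ⟨τ, hτ, hττ, hτε, hτ1⟩ : ∃ τ : ℝ, 0 < τ ∧ 100 * τ ≤ τ' ∧ 2000 * τ ≤ ε ∧
      1000000 * τ ≤ 1 := by
    refine ⟨min (τ' / 100) (min (ε / 2000) (1 / 1000000)), by positivity, ?_, ?_, ?_⟩
    · linarith [min_le_left (τ' / 100) (min (ε / 2000) (1 / 1000000))]
    · linarith [(min_le_right (τ' / 100) (min (ε / 2000) (1 / 1000000))).trans (min_le_left _ _)]
    · linarith [(min_le_right (τ' / 100) (min (ε / 2000) (1 / 1000000))).trans (min_le_right _ _)]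
  refine ⟨τ, hτ, ?_⟩
  intro lam N B hB
  obtain ⟨J, M, r, hr, X₁, hX₁, hC⟩ := hC lam N B hB 24 (by norm_num)
  obtain ⟨C, hC1, HX⟩ := XPH (R' := 2 * (N * Rh + 3 * Rh)) (by positivity) (J := (J : ℝ))
    (Nat.cast_nonneg _) (B₀ := 6) (by norm_num) (ε := ε / 4) (by positivity)
  set c₁ : ℝ := r + 20 with hc₁
  have hc₁0 : 20 ≤ c₁ := by rw [hc₁]; linarith
  have hC3 : 0 ≤ Real.log (3 * C) := Real.log_nonneg (by linarith)
  refine ⟨J, M, max X₁ (Real.exp (max (c₁ / τ) (8 / ε * Real.log (3 * C)))),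
    lt_of_lt_of_le hX₁ (le_max_left _ _), ?_⟩
  intro X hX H hH p hp a qs c5 i b s hyp
  have F := hyp.fr
  have hXX1 : X₁ ≤ X := (le_max_left _ _).trans hX
  have hXe : Real.exp (max (c₁ / τ) (8 / ε * Real.log (3 * C))) ≤ X := (le_max_right _ _).trans hX
  have hX3 := F.X3
  have hX0 : 0 < X := by linarith
  have hX1 : 1 ≤ X := by linarith
  set L := Real.log X with hLdef
  have hL : 0 < L := F.L
  have hLL : max (c₁ / τ) (8 / ε * Real.log (3 * C)) ≤ L := (Real.le_log_iff_exp_le hX0).2 hXe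
  have hcL : c₁ ≤ τ * L := by
    have h1 := (le_max_left _ _).trans hLL
    rw [div_le_iff₀ hτ] at h1
    linarith
  have hCL : Real.log (3 * C) ≤ ε / 8 * L := by
    have h1 := (le_max_right _ _).trans hLL
    have e : 8 / ε * Real.log (3 * C) = Real.log (3 * C) / (ε / 8) := by field_simp
    rw [e, div_le_iff₀ (by positivity)] at h1
    linarith
  have hrp : ∀ y : ℝ, X ^ y = Real.exp (y * L) := fun y => by
    rw [Real.rpow_def_of_pos hX0, mul_comm]
  have hl2 : Real.log 2 ≤ 1 := by linarith [Real.log_two_lt_d9]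
  have hl20 : 0 < Real.log 2 := Real.log_pos (by norm_num)
  have hτL : 0 < τ * L := mul_pos hτ hL
  have hτL1 : 1000000 * (τ * L) ≤ L := by nlinarith
  have hrL : r ≤ τ * L := by linarith
  -- the objects
  have hgp := hyp.gp
  have hgs := hyp.gs
  have hb := hyp.hb
  have hi := hyp.hi
  have hbp : IsPrim b := isPrim_of_mem_dvs hb
  have hbg : b ∣ a.2.1 := dvd_of_mem_dvs hb
  have eg : b * (a.2.1 / b) = a.2.1 := EuclideanDomain.mul_div_cancel' hbp.ne_zero hbg
  have hcg : IsPrim (a.2.1 / b) := by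
    have e2 : IsPrim (b * (a.2.1 / b)) := by rw [eg]; exact hgp
    exact e2.of_mul_left hbp
  have g1 := one_le_nmR hgp
  have b1 := one_le_nmR hbp
  have cg1 := one_le_nmR hcg
  have g0 : (0 : ℝ) < nm a.2.1 := by linarith
  have b0 : (0 : ℝ) < nm b := by linarith
  have cg0 : (0 : ℝ) < nm (a.2.1 / b) := by linarith
  set γ := Real.log (nm a.2.1) with hγ
  set η := Real.log (nm b) with hη
  have hγcg : Real.log (nm (a.2.1 / b)) = γ - η := by
    have e3 : (nm a.2.1 : ℝ) = nm b * nm (a.2.1 / b) := by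
      rw [← Nat.cast_mul, ← nm_mul, eg]
    rw [hγ, e3, Real.log_mul b0.ne' cg0.ne']
    ring
  have hβ0 : 0 ≤ η := Real.log_nonneg b1
  have hcg' : 0 ≤ Real.log (nm (a.2.1 / b)) := Real.log_nonneg cg1
  have hSq := hsq _ hp
  set k := cκ (prX p) * L with hk
  set Nn := cN (prX p) * L with hNn
  set x := cx' (prX p) * L with hx
  set exx := max 0 (5 / 4 * cN (prX p) - cκ (prX p)) * L with hexx
  set P := pX a qs with hPdef
  set v := Real.log 2 * ((i : ℝ) + 1) with hv
  have hv0 : 0 ≤ v := by positivity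
  set V := Vb (a.2.1 / b) i with hVdef
  have hV0 : 0 < V := div_pos (Real.exp_pos _) cg0
  have hlV : Real.log V = v - (γ - η) := by
    rw [hVdef]
    unfold Vb
    rw [Real.log_div (Real.exp_pos _).ne' cg0.ne', Real.log_exp, hγcg]
  set t := 20 * (τ * L) with htdef
  have HF := xh_of hSq hτ.le F (t := t) (by rw [htdef]; linarith)
  obtain ⟨k0', N0', N1', x0', adm', ex0', ex1', q1', g0', g1', l0', p0', p1', t0'⟩ := HF
  obtain ⟨l1, l2⟩ := abs_le.1 F.l
  obtain ⟨ζ1, ζ2⟩ := abs_le.1 F.ζ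
  have hκ0 := F.par.κ0
  have hκ1 := F.par.κ1
  have hk8 : 8 / 9 * L ≤ k := mul_le_mul_of_nonneg_right hκ0 hL.le
  have hk1 : k ≤ L := by
    have := mul_le_mul_of_nonneg_right hκ1 hL.le
    linarith
  have hx36 : x ≤ 1 / 36 * k := by
    rcases adm' with h1 | ⟨h1, h2, h3⟩ <;> linarith
  have hqs0 := F.qs0
  have hqs1 := F.qs1
  have hL0p := mul_le_mul_of_nonneg_right (hL0 _ hp) hL.le
  -- the level
  obtain ⟨V1, V2, V3, V4⟩ := lev_X hc0 hc1 hSq hτ.le (by linarith) F (t := t)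
    (by rw [htdef]; linarith) hi hk hNn hx
  have hvm : min (2 * Nn - k) (3 / 4 * Nn) ≤ 3 / 4 * Nn := min_le_right _ _
  have hvL : v ≤ 2 * L := by linarith
  have hPL : P ≤ 2 * L := by linarith
  -- the mains as a weighted sum
  set K := Real.exp a.1.1.l with hKdef
  set E1 := Real.exp (a.1.1.l / 20) with hE1
  set ω : Eis → ℝ := fun e => (nm e : ℝ) ^ (-1 : ℝ) + (V / K ^ 2) ^ (1 / 6 : ℝ) *
    (nm e : ℝ) ^ (1 / 2 : ℝ) + E1 ^ 2 * (1 : ℝ) ^ 2 * V / K with hω
  set β₀ : ℝ := if c5 = 4 then a.1.1.l / 64 else 0 with hβ₀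
  have hβ₀0 : 0 ≤ β₀ := by
    rw [hβ₀]; split_ifs
    · linarith
    · exact le_rfl
  have hβ₀1 : β₀ ≤ (if c5 = 4 then k / 64 else 0) + τ * L := by
    rw [hβ₀]; split_ifs <;> linarith
  have hβ₀2 : (if c5 = 4 then k / 64 else 0) ≤ β₀ + τ * L := by
    rw [hβ₀]; split_ifs <;> linarith
  set m₀ := k + P + L0 (prX p) * L + 20 * t - 2 / 3 * k + v / 3 + P / 3 + τ * L with hm₀
  set m := (M : ℝ) * Real.log H + ε / 4 * L + (J : ℝ) * Real.log (1 + |s|) + m₀ + Real.log 3
    with hm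
  set E0' := EM (1 / 64) a with hE0'
  have hE0pos : 0 ≤ E0' := by rw [hE0']; unfold EM; positivity
  set Es := (S E0').filter fun e => Real.exp β₀ ≤ (nm e : ℝ) with hEs
  have hemem : ∀ e ∈ S E0', IsPrim e ∧ 1 ≤ (nm e : ℝ) ∧
      Real.log (nm e) ≤ k / 64 + x + 2 * (τ * L) := by
    intro e he
    have h1 := (mem_S hE0pos).1 he
    have he1 := one_le_nmR h1.2.1
    refine ⟨h1.2.1, he1, ?_⟩
    have h2 : Real.log (nm e) ≤ 1 / 64 * a.1.1.l + a.2.2 := by
      rw [Real.log_le_iff_le_exp (by linarith), Real.exp_add]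
      exact h1.1
    linarith
  have hωe : ∀ e ∈ S E0', ω e ≤ 3 * (nm e : ℝ) ^ (-1 : ℝ) := by
    intro e he
    obtain ⟨e1, e2, e3⟩ := hemem e he
    refine wt_le e2 hV0 ?_ ?_
    · rw [hlV]; linarith
    · rw [hlV]; linarith
  have hω0 : ∀ e, 0 ≤ ω e := by
    intro e
    rw [hω]
    positivity
  have hωEs : ∀ e ∈ Es, ω e ≤ 3 * Real.exp (-β₀) := by
    intro e he
    obtain ⟨h1, h2⟩ := mem_filter.1 he
    refine (hωe e h1).trans (mul_le_mul_of_nonneg_left ?_ (by norm_num))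
    have e1 : (0 : ℝ) < nm e := lt_of_lt_of_le (Real.exp_pos _) h2
    rw [Real.rpow_neg_one, Real.exp_neg]
    exact inv_anti₀ (Real.exp_pos _) h2
  have hsum : XMn (a.2.1 / b) i s V E0' E1 K (afM π h (1 / 64) α lam a qs c5 b s) =
      ∑ e ∈ Es, ω e * XE (JB (Real.sqrt V)) (omp (a.2.1 / b) i s)
        (T3 (afM π h (1 / 64) α lam a qs c5 b s)) e := by
    unfold XMn
    rw [hEs, Finset.sum_filter]
    refine Finset.sum_congr rfl fun e he => ?_
    split_ifs with h1
    · rfl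
    · obtain ⟨e1, e2, e3⟩ := hemem e he
      have hc4 : c5 = 4 := by
        by_contra hc
        apply h1
        rw [hβ₀, if_neg hc, Real.exp_zero]
        exact e2
      subst hc4
      rw [hβ₀, if_pos rfl] at h1
      have h2 : XE (JB (Real.sqrt V)) (omp (a.2.1 / b) i s)
          (T3 (afM π h (1 / 64) α lam a qs 4 b s)) e = 0 := by
        unfold XE afM
        refine Finset.sum_eq_zero fun y _ => ?_
        rw [T3_four]
        · simp
        · have h3 := (not_le.1 h1).le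
          rwa [show 1 / 64 * a.1.1.l = a.1.1.l / 64 by ring]
      rw [h2, mul_zero]
  -- the windows
  have hLY : LN qs + lM a = P + 2 * γ := by
    rw [hPdef]
    unfold pX lM
    rw [F.cl]
    ring
  have hηw : SWin (ηC π h lam qs) (LN qs) (N * Rh) := fun n hn => by
    obtain ⟨h1, h2, h3⟩ := supp_list h hRh (hP lam.1) lam.2 qs hn
    refine ⟨h1, h2, h3.trans ?_⟩
    exact mul_le_mul_of_nonneg_right (by exact_mod_cast hlen _ _ _ _ _ _ _ _ hyp.fx) hRh0
  have hαw : SWin (α lam a) (lM a) (3 * Rh) := fun n hn => hwin lam a n hn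
  set Th : Eis → ℕ → Prop := fun d' bb => β₀ ≤ bb + 1 + Real.log (nm (cc a.2.1 (b * d'))) with hTh
  set Ω : Eis → ℕ → ℝ := fun d' bb => if Th d' bb then 3 * Real.exp (-β₀) else 0 with hΩ
  set Wf : Eis → ℕ → ℝ := fun d' bb => if Th d' bb then m₀ + β₀ - 2 * Real.log (nm d')
    else 1000 * L with hWf
  set Bf : Eis → ℕ → ℝ → ℝ := fun d' bb _ => H ^ M * X ^ (ε / 4) * (1 + |s|) ^ J *
    Real.exp (Wf d' bb) with hBf
  have hH0 : 0 < H := by linarith
  have hH1 : 0 < H ^ M := pow_pos hH0 _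
  have hs1 : (0 : ℝ) < 1 + |s| := by positivity
  have hs2 : (0 : ℝ) < (1 + |s|) ^ J := pow_pos hs1 _
  have hXe4 : 0 < X ^ (ε / 4) := Real.rpow_pos_of_pos hX0 _
  have hX6 : X ^ (6 : ℝ) = Real.exp (6 * L) := hrp 6
  have hexp6 : ∀ y : ℝ, y ≤ 6 * L → Real.exp y ≤ X ^ (6 : ℝ) := fun y hy => by
    rw [hX6]; exact Real.exp_le_exp.2 hy
  have hle6 : ∀ y : ℝ, 0 < y → Real.log y ≤ 6 * L → y ≤ X ^ (6 : ℝ) := fun y hy hy2 => by
    rw [← Real.exp_log hy]; exact hexp6 _ hy2
  have hγL : γ ≤ L / 10 := by linarith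
  have hβγ : η ≤ γ := by linarith
  have hdb : ∀ d', IsPrim d' → (nm d' : ℝ) ^ 2 ≤ V → 0 ≤ Real.log (nm d') ∧
      2 * Real.log (nm d') ≤ v - (γ - η) := by
    intro d' h1 h2
    have h3 := one_le_nmR h1
    refine ⟨Real.log_nonneg h3, ?_⟩
    have h4 := Real.log_le_log (by positivity) h2
    rw [Real.log_pow, hlV] at h4
    push_cast at h4
    exact h4
  have hccd : ∀ d', IsCoprime d' a.2.1 → cc a.2.1 (b * d') = a.2.1 / b := fun d' h1 =>
    cc_cop hgp hb h1
  have hdmem : ∀ d' ∈ (JB (Real.sqrt V)).image Prod.fst, IsPrim d' ∧ (nm d' : ℝ) ^ 2 ≤ V := by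
    intro d' hd'
    obtain ⟨y, hy, rfl⟩ := mem_image.1 hd'
    obtain ⟨y1, y2, y3, y4⟩ := (mem_JB (Real.sqrt_nonneg _)).1 hy
    rw [Real.sq_sqrt hV0.le] at y4
    refine ⟨y1, le_trans ?_ y4⟩
    have h6 : (1 : ℝ) ≤ nm y.2 := by
      have := nm_pos.2 (StA828.JC_ne_zero y3)
      exact_mod_cast this
    unfold ln
    rw [nm_mul, nm_pow]
    push_cast
    nlinarith [sq_nonneg (nm y.1 : ℝ)]
  have hbd6 : ∀ d' ∈ (JB (Real.sqrt V)).image Prod.fst, (nm (b * d') : ℝ) ≤ X ^ (6 : ℝ) := by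
    intro d' hd'
    obtain ⟨y1, y5'⟩ := hdmem d' hd'
    obtain ⟨q1, q2⟩ := hdb _ y1 y5'
    have y0 : (0 : ℝ) < nm d' := by linarith [one_le_nmR y1]
    refine hle6 _ (by rw [nm_mul]; push_cast; positivity) ?_
    rw [nm_mul]
    push_cast
    rw [Real.log_mul b0.ne' y0.ne']
    linarith
  have hyp' : Hyp9 π h c ok Fx β lam p X τ' B H N a qs c5 i b :=
    ⟨Fr9X.mono' F (by linarith), hmono _ _ _ _ _ _ _ _ _ hL.le (by linarith) hyp.fx, hyp.ok,
      hyp.gp, hyp.gs, hyp.ζ0, hyp.sup, hyp.gS, hyp.hi, hyp.hb⟩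
  have key := HX X hX3 (ηC π h lam qs) (α lam a) (LN qs) (lM a) (N * Rh) (3 * Rh) hηw hαw le_rfl
    (Real.exp a.2.2) (Real.exp_pos _).le
    (Real.exp (1 / 64 * a.1.1.l)) c5 s a.2.1 b (a.2.1 / b) hgp hbp hcg
    (hle6 _ g0 (by linarith)) i V hV0 (le_of_eq (by
      rw [hVdef]; unfold Vb; rw [mul_div_cancel₀ _ cg0.ne'])) (hle6 _ hV0 (by rw [hlV]; linarith))
    hbd6
    Es (fun e he => by
      obtain ⟨e1, e2, e3⟩ := hemem e (mem_filter.1 he).1
      exact ⟨e1, hle6 _ (by linarith) (by linarith)⟩) ω Ω (fun e _ => hω0 e)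
    (fun d' bb => by
      rw [hΩ]
      simp only
      split_ifs
      · positivity
      · exact le_rfl)
    (fun d' h1 h3 e he bb hbb => by
      have hth : Th d' bb := by
        rw [hTh]
        simp only
        obtain ⟨e1, e2, e3⟩ := hemem e (mem_filter.1 he).1
        have h4 := (mem_filter.1 he).2
        rw [hccd d' h3] at hbb ⊢
        have e0 : (0 : ℝ) < nm e := by linarith
        have h5 : β₀ ≤ Real.log (nm e) := (Real.le_log_iff_exp_le e0).2 h4
        obtain ⟨⟨y, hy⟩, ⟨y', hy'⟩⟩ := (lc_dvd hcg e1 (lc (a.2.1 / b) e)).1 dvd_rfl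
        have hlc : IsPrim (lc (a.2.1 / b) e) := lc_prim hcg e1
        have hy1 : IsPrim y := by
          have := hlc
          rw [hy] at this
          exact this.of_mul_left hcg
        have hy1' : IsPrim y' := by
          have := hlc
          rw [hy'] at this
          exact this.of_mul_left e1
        have h6 : lc (a.2.1 / b) e / (a.2.1 / b) = y := by
          conv_lhs => rw [hy]
          exact mul_div_cancel_left₀ y hcg.ne_zero
        rw [h6] at hbb
        have h7 : (nm e : ℝ) * nm y' = nm (a.2.1 / b) * nm y := by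
          rw [← Nat.cast_mul, ← Nat.cast_mul, ← nm_mul, ← nm_mul, ← hy, ← hy']
        have h8 := one_le_nmR hy1
        have h9 := one_le_nmR hy1'
        have h10 : Real.log (nm e) ≤ Real.log (nm (a.2.1 / b)) + Real.log (nm y) := by
          rw [← Real.log_mul cg0.ne' (by linarith), ← h7]
          exact Real.log_le_log e0 (le_mul_of_one_le_right e0.le h9)
        linarith
      rw [hΩ]
      simp only
      rw [if_pos hth]
      exact hωEs e he)
    Bf m (fun _ _ _ => by rw [hBf]; positivity)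
    (fun d' hd' h3 bb k' q1 q2 q3 => by
      obtain ⟨h1, h2⟩ := hdmem d' hd'
      have hcc := hccd d' h3
      obtain ⟨δ0, δ1⟩ := hdb d' h1 h2
      have d1 := one_le_nmR h1
      have d0 : (0 : ℝ) < nm d' := by linarith
      have hlogD : Real.log (nm (b * d') * nm (cc a.2.1 (b * d'))) = γ + Real.log (nm d') := by
        rw [hcc, nm_mul]
        push_cast
        rw [Real.log_mul (by positivity) cg0.ne', Real.log_mul b0.ne' d0.ne', hγcg]
        ring
      have hk' : k' ≤ v - 2 * Real.log (nm d') := by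
        refine q3.trans (le_of_eq ?_)
        rw [hcc, hγcg, Real.log_div hV0.ne' (by positivity), Real.log_pow, hlV]
        push_cast
        ring
      have hbb0 : (0 : ℝ) ≤ bb := Nat.cast_nonneg _
      have hnD : nD a qs (b * d') bb = P - Real.log (nm d') - bb := by
        unfold nD
        rw [hlogD, ← hγ]
        linarith
      have hbL : (bb : ℝ) ≤ 24 * L := by linarith
      refine hC X hXX1 H hH p hp a qs c5 i b s hyp' (b * d') (hbp.mul h1)
        ((hbd6 d' hd').trans (Real.rpow_le_rpow_of_exponent_le hX1 (by norm_num))) bb k' hbb0 hbL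
        q2 (by linarith) ?_ (Wf d' bb) ?_ ?_
      · -- the level of the claims
        intro bq hbq
        have hT := mul_le_mul_of_nonneg_right (hTf p hp F.zr bq hbq) hL.le
        have hT5 : (min (2 * cN (prX p) - cκ (prX p)) (3 / 4 * cN (prX p)) +
            5 * cx' (prX p)) * L = min (2 * Nn - k) (3 / 4 * Nn) + 5 * x := by
          rw [add_mul, min_mul_of_nonneg _ _ hL.le, hNn, hk, hx]
          congr 1
          · congr 1 <;> ring
          · ring
        rw [hT5] at hT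
        have hsumb : (bq 1 + bq 2 + bq 3 + bq 4) * L = Nn + x := by
          rcases hbq with rfl | rfl
          · show (cu (prX p) 2 + cu (prX p) 3 + cu (prX p) 4 + cx' (prX p)) * L = _
            rw [hNn, hx]
            unfold cN
            ring
          · show (p (.inr 1) + (cu (prX p) 2 + cu (prX p) 3 - p (.inr 1)) + cu (prX p) 4 +
              cx' (prX p)) * L = _
            rw [hNn, hx]
            unfold cN
            ring
        have hτ'L : 100 * (τ * L) ≤ τ' * L := by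
          have := mul_le_mul_of_nonneg_right hττ hL.le
          linarith
        rw [hnD]
        have e1 : (Tf bq + (bq 1 + bq 2 + bq 3 + bq 4) + τ') * L =
            Tf bq * L + (bq 1 + bq 2 + bq 3 + bq 4) * L + τ' * L := by ring
        rw [e1, hsumb]
        linarith
      · -- structured entry
        intro bq hbq l z₁ z₂ z₃ w c1 c2 c3 c4 c5' c6 c7 c8 c9
        obtain ⟨c2a, c2b⟩ := abs_le.1 c2
        rw [hnD] at c7
        obtain ⟨c7a, c7b⟩ := abs_le.1 c7
        have hK5 : L * Kf bq ≤ k + exx := by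
          have h5 := mul_le_mul_of_nonneg_left (hKf p hp F.zr bq hbq) hL.le
          refine h5.trans ?_
          rw [mul_max_of_nonneg _ _ hL.le]
          refine max_le (by linarith) ?_
          linarith
        obtain ⟨hlo0, hlo1⟩ := hℓ p hp F.zr bq hbq
        have hlo0' : 0 ≤ L * ℓ bq := by positivity
        have hlo1' : exx + L * ℓ bq ≤ L0 (prX p) * L := by
          have := mul_le_mul_of_nonneg_right hlo1 hL.le
          rw [hexx]
          linarith
        rw [hWf]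
        simp only
        split_ifs with hth
        · have hline := line_MX hc0 hc1 hSq hτ.le (by linarith) F (t := t) (by
              rw [htdef]; linarith) hi (d := dA) (K := L * Kf bq)
            (lo := L * ℓ bq) (l := l) (n := z₁ + z₂ + z₃ + w) (w := w)
            (δ := Real.log (nm d')) (bb := (bb : ℝ)) (by linarith) hlo0'
            c3 c4 c5' c6 rfl δ0 (Nat.cast_nonneg _) (by linarith) (by linarith) (by linarith)
            (y' := Real.log (nm (b * d'))) (by linarith) (γc := γ - η) (by linarith)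
            (fun hc4 => by
              have hth' : β₀ ≤ bb + 1 + Real.log (nm (cc a.2.1 (b * d'))) := hth
              rw [hcc, hγcg, hβ₀, if_pos hc4] at hth'
              linarith)
          rw [hm₀]
          linarith
        · have h9 : NVx dA (L * Kf bq) (L * ℓ bq) l (z₁ + z₂ + z₃ + w) z₁ z₂ z₃ w ≤
              10 * (60 * L) :=
            NV_crude (R := 60 * L) (by linarith) (by linarith) c1 (by linarith) (by linarith)
              (by linarith)
          linarith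
      · -- bias entry
        rw [hnD, hlogD]
        rw [hWf]
        simp only
        have hs0 := hS0 p X τ B H N a qs hp hτ.le F hyp.fx
        split_ifs with hth
        · have hline := line_BX hc0 hc1 hSq hτ.le (by linarith) F (t := t) (by
              rw [htdef]; linarith) (by rw [htdef]; linarith) hi (l := k' + bb)
            (n := P - Real.log (nm d') - bb) (δ := Real.log (nm d')) (bb := (bb : ℝ))
            (m := max 0 (S0 a - (γ + Real.log (nm d')) - bb)) (s₀ := S0 a) δ0 hbb0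
            (by linarith) (by linarith) (by linarith) (le_max_left _ _)
            ((le_of_eq (by ring)).trans (le_max_right _ _))
          have hlo := (hℓ p hp F.zr (bNx p) (Or.inl rfl))
          have hlo1' : exx ≤ L0 (prX p) * L := by
            rw [hexx]
            exact mul_le_mul_of_nonneg_right (by linarith) hL.le
          rw [hm₀]
          linarith
        · have h9 := le_max_left 0 (S0 a - (γ + Real.log (nm d')) - bb)
          linarith)
    (fun d' hd' h3 bb q1 => by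
      obtain ⟨h1, h2⟩ := hdmem d' hd'
      have d1 := one_le_nmR h1
      have d0 : (0 : ℝ) < nm d' := by linarith
      rw [hΩ, hBf]
      simp only
      split_ifs with hth
      · rw [hWf]
        simp only
        rw [if_pos hth]
        have e1 : H ^ M = Real.exp ((M : ℝ) * Real.log H) := by
          rw [← Real.log_pow, Real.exp_log hH1]
        have e1' : (1 + |s|) ^ J = Real.exp ((J : ℝ) * Real.log (1 + |s|)) := by
          rw [← Real.log_pow, Real.exp_log hs2]
        have e2 : (nm d' : ℝ) ^ 2 = Real.exp (2 * Real.log (nm d')) := by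
          rw [two_mul, Real.exp_add, Real.exp_log d0]; ring
        have e3 : (3 : ℝ) = Real.exp (Real.log 3) := (Real.exp_log (by norm_num)).symm
        rw [hrp, e1, e1', e2]
        nth_rewrite 1 [e3]
        rw [← Real.exp_add, ← Real.exp_add, ← Real.exp_add, ← Real.exp_add, ← Real.exp_add,
          ← Real.exp_add]
        refine Real.exp_le_exp.2 (le_of_eq ?_)
        rw [hm]
        ring
      · rw [zero_mul, zero_mul]
        exact (Real.exp_pos _).le)
  have haf : afM π h (1 / 64) α lam a qs c5 b s = afrb (gt5 (Real.exp (1 / 64 * a.1.1.l))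
      (Real.exp a.2.2) a.2.1 c5) (q5 a.2.1 c5) (Real.exp a.2.2) (ηC π h lam qs)
      (α lam a) a.2.1 b s := rfl
  rw [show VM a i b = V from rfl, hsum, haf]
  have hK23 : K ^ (2 / 3 : ℝ) = Real.exp (2 / 3 * a.1.1.l) := by
    rw [hKdef, ← Real.exp_mul, mul_comm]
  have hV3 : V ^ (-(1 / 3) : ℝ) = Real.exp (-(v - (γ - η)) / 3) := by
    rw [Real.rpow_def_of_pos hV0, hlV]; congr 1; ring
  have hgb3 : ((nm a.2.1 : ℝ) * nm b) ^ (1 / 3 : ℝ) = Real.exp ((γ + η) / 3) := by
    rw [Real.rpow_def_of_pos (mul_pos g0 b0), Real.log_mul g0.ne' b0.ne']; congr 1; ring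
  have hC0 : 0 < C := by linarith
  have htg : tgX (L0 (prX p)) X a qs = a.1.1.l + P + L0 (prX p) * L := by
    unfold tgX
    rw [hPdef]
    unfold pX
    ring
  have h3C : Real.log (3 * C) = Real.log 3 + Real.log C := Real.log_mul (by norm_num) hC0.ne'
  have hτεL : 2000 * (τ * L) ≤ ε * L := by
    have := mul_le_mul_of_nonneg_right hτε hL.le
    linarith
  have hHM : H ^ M = Real.exp ((M : ℝ) * Real.log H) := by
    rw [← Real.log_pow, Real.exp_log hH1]
  have hsJ : (1 + |s|) ^ J = Real.exp ((J : ℝ) * Real.log (1 + |s|)) := by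
    rw [← Real.log_pow, Real.exp_log hs2]
  calc K ^ (2 / 3 : ℝ) * ∑ e ∈ Es, ω e * XE (JB (Real.sqrt V)) (omp (a.2.1 / b) i s)
        (T3 (afrb (gt5 (Real.exp (1 / 64 * a.1.1.l)) (Real.exp a.2.2) a.2.1 c5) (q5 a.2.1 c5)
          (Real.exp a.2.2) (ηC π h lam qs) (α lam a) a.2.1 b s)) e
      ≤ K ^ (2 / 3 : ℝ) * (C * X ^ (ε / 4) *
        (V ^ (-(1 / 3) : ℝ) * Real.exp (-((LN qs + lM a) / 3)) *
          ((nm a.2.1 : ℝ) * nm b) ^ (1 / 3 : ℝ) * Real.exp m)) :=
        mul_le_mul_of_nonneg_left key (by positivity)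
    _ = Real.exp (Real.log C + (2 / 3 * a.1.1.l + ε / 4 * L - (v - (γ - η)) / 3 -
          (P + 2 * γ) / 3 + (γ + η) / 3 + m)) := by
        rw [hK23, hV3, hgb3, hLY, hrp (ε / 4)]
        clear_value m
        nth_rewrite 1 [← Real.exp_log hC0]
        have e1 : Real.log C + (2 / 3 * a.1.1.l + ε / 4 * L - (v - (γ - η)) / 3 -
          (P + 2 * γ) / 3 + (γ + η) / 3 + m) = 2 / 3 * a.1.1.l + (Real.log C + ε / 4 * L +
          (-(v - (γ - η)) / 3 + -((P + 2 * γ) / 3) + (γ + η) / 3 + m)) := by ring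
        rw [e1, Real.exp_add, Real.exp_add, Real.exp_add (Real.log C), Real.exp_add _ m,
          Real.exp_add _ ((γ + η) / 3), Real.exp_add (-(v - (γ - η)) / 3)]
    _ ≤ Real.exp ((M : ℝ) * Real.log H + ε * L + (a.1.1.l + P + L0 (prX p) * L) +
          (J : ℝ) * Real.log (1 + |s|)) := by
        refine Real.exp_le_exp.2 ?_
        rw [hm, hm₀, htdef]
        linarith
    _ = _ := by
        unfold BdM
        rw [htg, hHM, hrp ε, hsJ, Real.exp_add, Real.exp_add, Real.exp_add]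

end Crest.Agent.R017.XMm72
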