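import Crest.Agent.R017.XMo_72
import Crest.Agent.R017.P10e_146

/-!
# Row 17, exceptional class (helper72): the mains of the mismatch over the exact square

* **`xmG_D`**, **`xmG_S`** : `XMG` over `ParS A d` with the loss `LS0 d` from `CoreG` at the family
  `K5`, the level bound `T5`, the loss `3/4 d b₀`
-/

set_option autoImplicit false

noncomputable section

namespace Crest.Agent.R017.XMm72

open Crest.Agent.R012 Crest.Agent.R012.Eis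
open Crest.Agent.R017.FE47 (PU cx SM)
open Crest.Agent.R017.B770 Crest.Agent.R017.Prov71
open Crest.Agent.R017.E5B71 (cκ cu cN cM cx')
open Crest.Agent.R017.ExP960 (IX5 prX ZR)
open Crest.Agent.R017.P1X960
open Crest.Agent.R017.P1MU960
open Crest.Agent.R017.P1yX72
open Crest.Agent.R017.TM708 (K5)
open Crest.Agent.R017.P1t54 (ParS LS0)

lemma sqF_S {A d : ℝ} (hd : 0 ≤ d) (hd1 : d ≤ 1 / 8) (hA1 : 16 * (1 - A) ≤ d) :
    ∀ p ∈ ParS A d, SqF p := fun p hp => by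
  obtain ⟨-, -, -, -, -, -, h1, h2, h0, h3⟩ := P10146.sq_facts hd hd1 hA1 hp
  exact ⟨h1, h2, h0, h3⟩

lemma u23_S {A d : ℝ} (hd : 0 ≤ d) (hd1 : d ≤ 1 / 8) (hA1 : 16 * (1 - A) ≤ d) :
    ∀ p ∈ ParS A d, 11 / 50 * cκ p ≤ cu p 2 ∧ 11 / 50 * cκ p ≤ cu p 3 := fun p hp => by
  obtain ⟨k0, -, u4, u34, u23, y27, n0, -⟩ := P10146.sq_facts hd hd1 hA1 hp
  have eN : cN p = cu p 2 + cu p 3 + cu p 4 := rfl
  rw [eN] at n0
  constructor <;> linarith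

lemma K5_S (p : IX5 → ℝ) (bb : Fin 5 → ℝ) (hb : bb = bNx p ∨ bb = bRx p) :
    K5 bb = max (cκ (prX p)) (5 / 4 * cN (prX p)) := by
  rcases hb with rfl | rfl
  · rfl
  · show max (cκ (prX p)) (5 / 4 * (p (.inr 1) + (cu (prX p) 2 + cu (prX p) 3 - p (.inr 1)) +
      cu (prX p) 4)) = max (cκ (prX p)) (5 / 4 * (cu (prX p) 2 + cu (prX p) 3 + cu (prX p) 4))
    congr 1; ring

lemma T5_S (p : IX5 → ℝ) (bb : Fin 5 → ℝ) (hb : bb = bNx p ∨ bb = bRx p) :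
    TM708.T5 bb = min (2 * cN (prX p) - cκ (prX p)) (3 / 4 * cN (prX p)) + 5 * cx' (prX p) := by
  rcases hb with rfl | rfl
  · rfl
  · show min (2 * (p (.inr 1) + (cu (prX p) 2 + cu (prX p) 3 - p (.inr 1)) + cu (prX p) 4) -
      cκ (prX p)) (3 / 4 * (p (.inr 1) + (cu (prX p) 2 + cu (prX p) 3 - p (.inr 1)) +
        cu (prX p) 4)) + 5 * cx' (prX p) =
      min (2 * (cu (prX p) 2 + cu (prX p) 3 + cu (prX p) 4) - cκ (prX p))
        (3 / 4 * (cu (prX p) 2 + cu (prX p) 3 + cu (prX p) 4)) + 5 * cx' (prX p)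
    have e : p (.inr 1) + (cu (prX p) 2 + cu (prX p) 3 - p (.inr 1)) + cu (prX p) 4 =
      cu (prX p) 2 + cu (prX p) 3 + cu (prX p) 4 := by ring
    rw [e]

lemma b0_S (p : IX5 → ℝ) (bb : Fin 5 → ℝ) (hb : bb = bNx p ∨ bb = bRx p) :
    bb 0 = cκ (prX p) := by
  rcases hb with rfl | rfl <;> rfl

lemma LS0_S {A d : ℝ} (hd : 0 ≤ d) (hd1 : d ≤ 1 / 8) (hA1 : 16 * (1 - A) ≤ d) :
    ∀ p ∈ ParS A d, 0 ≤ 3 / 4 * d * cκ p ∧ LS0 d p ≤ 10 := fun p hp => by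
  obtain ⟨k0, k1, -, -, -, -, n0, n1, -⟩ := P10146.sq_facts hd hd1 hA1 hp
  have h1 : 0 ≤ 3 / 4 * d * cκ p := by
    apply mul_nonneg <;> linarith
  have h2 : 3 / 4 * d * cκ p ≤ 3 / 4 * (1 / 8) * 1 := by
    apply mul_le_mul _ k1 (by linarith) (by norm_num)
    linarith
  refine ⟨h1, ?_⟩
  show max 0 (5 / 4 * cN p - cκ p) + 3 / 4 * d * cκ p ≤ 10
  have h3 : max 0 (5 / 4 * cN p - cκ p) ≤ 5 := max_le (by norm_num) (by linarith)
  linarith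

section
variable {Λ : Type*} {π : Λ → DPar} {h : ℝ → ℝ}

/-- **`XMG` of the differences over the exact square** -/
theorem xmG_D {c d dA A : ℝ} (hP : ∀ lam, (π lam).OK) {Rh : ℝ} (hRh0 : 0 ≤ Rh)
    (hRh : ∀ u, cx h u ≠ 0 → |u| ≤ Rh) (hd : 0 ≤ d) (hd1 : d ≤ 1 / 8)
    (hA1 : 16 * (1 - A) ≤ d) (hc0 : 0 ≤ c) (hc1 : c ≤ 1 / 100)
    (HC : CoreG π h (1 / 64) c (okX π) (αX π h) FrD (17 / 100) (ParS A d) K5 TM708.T5
      (fun b => 3 / 4 * d * b 0) dA S0D) :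
    XMG π h (1 / 64) c (okX π) (αX π h) FrD (17 / 100) (ParS A d) (LS0 d) :=
  xmD_of hP hRh0 hRh hc0 hc1 (le_refl _) (by norm_num) (sqF_S hd hd1 hA1) (u23_S hd hd1 hA1)
    (fun p _ _ bb hb => (K5_S p bb hb).le) (fun p _ _ bb hb => (T5_S p bb hb).ge)
    (fun p hp _ bb hb => by
      rw [b0_S p bb hb]
      exact ⟨(LS0_S hd hd1 hA1 _ hp).1, le_refl _⟩)
    (fun p hp => (LS0_S hd hd1 hA1 p hp).2) HC

/-- **`XMG` of the single lists over the exact square** -/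
theorem xmG_S {c d dA A : ℝ} (hP : ∀ lam, (π lam).OK) {Rh : ℝ} (hRh0 : 0 ≤ Rh)
    (hRh : ∀ u, cx h u ≠ 0 → |u| ≤ Rh) (hd : 0 ≤ d) (hd1 : d ≤ 1 / 8)
    (hA1 : 16 * (1 - A) ≤ d) (hc0 : 0 ≤ c) (hc1 : c ≤ 1 / 100)
    (HC : CoreG π h (1 / 64) c (okS π) (αS π h) (FrS (17 / 100)) (17 / 100) (ParS A d) K5
      TM708.T5 (fun b => 3 / 4 * d * b 0) dA fun _ => 0) :
    XMG π h (1 / 64) c (okS π) (αS π h) (FrS (17 / 100)) (17 / 100) (ParS A d) (LS0 d) :=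
  xmS_of hP hRh0 hRh hc0 hc1 (le_refl _) (sqF_S hd hd1 hA1)
    (fun p _ _ bb hb => (K5_S p bb hb).le) (fun p _ _ bb hb => (T5_S p bb hb).ge)
    (fun p hp _ bb hb => by
      rw [b0_S p bb hb]
      exact ⟨(LS0_S hd hd1 hA1 _ hp).1, le_refl _⟩)
    (fun p hp => (LS0_S hd hd1 hA1 p hp).2) HC

end

end Crest.Agent.R017.XMm72
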