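import Crest.Agent.R017.Prov_71
import Crest.Agent.R017.XF1_71

/-!
# Row 17: the clean Poisson rules at the level of robust exponents (helper699), part A

* `BG_usc`, `BG_mono_l`, `BG_add`, `usc_unif` : semicontinuity, monotonicity, compactness
* `Raw` : the raw rules (P), (P'), cubes, monotonicity
-/

set_option autoImplicit false

noncomputable section

open Set Filter Topology

namespace Crest.Agent.R017.XP699

open Crest.Agent.R017.XG702 (Pcs BG)
open Crest.Agent.R017.Prov71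

variable {Lam Pc : Type*} {D : Pcs Pc Kd} {Ψ Φ : Lam → ℝ → List Pc → ℝ}

/-- upper semicontinuity of robust exponents -/
theorem BG_usc {κ : ℝ} {u : List ℝ} {w : Kd → ℝ} {e : ℝ} (h : BG D Ψ κ u w e) {ε : ℝ}
    (hε : 0 < ε) : ∃ δ : ℝ, 0 < δ ∧ ∀ (κ' : ℝ) (u' : List ℝ) (w' : Kd → ℝ), |κ' - κ| ≤ δ →
      List.Forall₂ (fun a b => |a - b| ≤ δ) u' u → (∀ t, |w' t - w t| ≤ δ) →
      BG D Ψ κ' u' w' (e + ε) := by
  obtain ⟨δ, hδ, hL⟩ := h (ε / 2) (by linarith)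
  refine ⟨δ / 2, by linarith, fun κ' u' w' h1 h2 h3 => ?_⟩
  intro ε' hε'
  refine ⟨δ / 2, by linarith, fun lam N B => ?_⟩
  obtain ⟨η, hη, X₀, hX₀, K⟩ := hL lam N B
  refine ⟨η, hη, X₀, hX₀, fun X hX k us gs hk hnear hgran hgood => ?_⟩
  have hX1 : 1 ≤ X := by linarith
  have := K X hX k us gs ?_ ?_ ?_ hgood
  · refine this.trans (Real.rpow_le_rpow_of_exponent_le hX1 (by linarith))
  · calc |k - κ| ≤ |k - κ'| + |κ' - κ| := abs_sub_le _ _ _
      _ ≤ δ := by linarith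
  · unfold Pcs.Near at hnear ⊢
    rw [List.forall₂_iff_get] at hnear h2 ⊢
    refine ⟨hnear.1.trans h2.1, fun i hi hi' => ?_⟩
    have hi2 : i < u'.length := hnear.1 ▸ hi
    have a1 := hnear.2 i hi hi2
    have a2 := h2.2 i hi2 hi'
    refine ⟨a1.1, ?_⟩
    calc _ ≤ |D.nl X (us.get ⟨i, hi⟩) - u'.get ⟨i, hi2⟩| + |u'.get ⟨i, hi2⟩ - u.get ⟨i, hi'⟩| :=
          abs_sub_le _ _ _
      _ ≤ δ := by linarith [a1.2]
  · refine ⟨hgran.1, fun g hg => (hgran.2.1 g hg).trans (by linarith), fun t => ?_⟩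
    calc _ ≤ |D.mass X gs t - w' t| + |w' t - w t| := abs_sub_le _ _ _
      _ ≤ δ := by linarith [hgran.2.2 t, h3 t]

/-- monotonicity in the family -/
theorem BG_mono_l (hΨ : ∀ lam l l' ps, l ≤ l' → Ψ lam l ps ≤ Ψ lam l' ps) {κ κ' : ℝ} {u : List ℝ}
    {w : Kd → ℝ} {e : ℝ} (h : BG D Ψ κ u w e) (hκ : κ' ≤ κ) : BG D Ψ κ' u w e := by
  intro ε hε
  obtain ⟨δ, hδ, hL⟩ := h ε hε
  refine ⟨δ, hδ, fun lam N B => ?_⟩
  obtain ⟨η, hη, X₀, hX₀, K⟩ := hL lam N B
  refine ⟨η, hη, X₀, hX₀, fun X hX k us gs hk hnear hgran hgood => ?_⟩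
  have hlog : 0 < Real.log X := Real.log_pos (by linarith)
  refine (hΨ _ _ _ _ ?_).trans (K X hX (k + (κ - κ')) us gs ?_ hnear hgran hgood)
  · exact mul_le_mul_of_nonneg_right (by linarith) hlog.le
  · have : k + (κ - κ') - κ = k - κ' := by ring
    rw [this]; exact hk

theorem BG_add {κ : ℝ} {u : List ℝ} {w : Kd → ℝ} {e : ℝ} (h : BG D Ψ κ u w e)
    (h' : BG D Φ κ u w e) : BG D (fun lam l ps => Ψ lam l ps + Φ lam l ps) κ u w e := by
  intro ε hε
  obtain ⟨δ, hδ, hL⟩ := h (ε / 2) (by linarith)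
  obtain ⟨δ₂, hδ₂, hL₂⟩ := h' (ε / 2) (by linarith)
  refine ⟨min δ δ₂, lt_min hδ hδ₂, fun lam N B => ?_⟩
  obtain ⟨η, hη, X₀, hX₀, K⟩ := hL lam N B
  obtain ⟨η₂, hη₂, X₂, hX₂, K₂⟩ := hL₂ lam N B
  obtain ⟨X₃, hX₃, H3⟩ := XF71.const_le_rpow (C := 2) (ε := ε / 2) (by linarith)
  refine ⟨min η η₂, lt_min hη hη₂, max X₀ (max X₂ X₃), lt_of_lt_of_le hX₀ (le_max_left _ _),
    fun X hX k us gs hk hnear hgran hgood => ?_⟩
  have x0 : X₀ ≤ X := (le_max_left _ _).trans hX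
  have x2 : X₂ ≤ X := ((le_max_left _ _).trans (le_max_right _ _)).trans hX
  have x3 : X₃ ≤ X := ((le_max_right _ _).trans (le_max_right _ _)).trans hX
  have hX1 : 1 ≤ X := by linarith
  have hXp : 0 < X := by linarith
  have a1 := K X x0 k us gs (hk.trans (min_le_left _ _)) (XG702.Near_mono hnear (min_le_left _ _))
    (XG702.Gran_mono hgran (min_le_left _ _) le_rfl) (XG702.Good_mono hX1 hgood (min_le_left _ _))
  have a2 := K₂ X x2 k us gs (hk.trans (min_le_right _ _))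
    (XG702.Near_mono hnear (min_le_right _ _))
    (XG702.Gran_mono hgran (min_le_right _ _) le_rfl)
    (XG702.Good_mono hX1 hgood (min_le_right _ _))
  have hp : 0 ≤ X ^ (e + ε / 2) := Real.rpow_nonneg hXp.le _
  calc Ψ lam (k * Real.log X) (us ++ gs) + Φ lam (k * Real.log X) (us ++ gs)
      ≤ 2 * X ^ (e + ε / 2) := by linarith
    _ ≤ X ^ (ε / 2) * X ^ (e + ε / 2) := mul_le_mul_of_nonneg_right (H3 X x3) hp
    _ = X ^ (e + ε) := by rw [← Real.rpow_add hXp]; congr 1; ring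

/-- comparison with a sum of two functionals -/
theorem BG_of_add {Θ : Lam → ℝ → List Pc → ℝ}
    (H : ∀ lam l ps, Θ lam l ps ≤ Ψ lam l ps + Φ lam l ps) {κ : ℝ}
    {u : List ℝ} {w : Kd → ℝ} {e : ℝ} (h : BG D Ψ κ u w e) (h' : BG D Φ κ u w e) :
    BG D Θ κ u w e := (BG_add h h').comp H

/-- parameters of a side: lumps and the two masses -/
abbrev Pm (n : ℕ) := (Fin n → ℝ) × ℝ × ℝ

/-- compactness, perturbation of the family -/
theorem usc_unif {n : ℕ} {K : Set (Pm n)} (hK : IsCompact K) {f T : Pm n → ℝ}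
    (hf : Continuous f) (hT : Continuous T)
    (h : ∀ p ∈ K, BG D Ψ (f p) (List.ofFn p.1) (wt p.2.1 p.2.2) (T p)) {ν : ℝ} (hν : 0 < ν) :
    ∃ η : ℝ, 0 < η ∧ ∀ p ∈ K, ∀ l : ℝ, |l - f p| ≤ η →
      BG D Ψ l (List.ofFn p.1) (wt p.2.1 p.2.2) (T p + ν) := by
  refine hK.induction_on (p := fun s => ∃ η : ℝ, 0 < η ∧ ∀ p ∈ s, ∀ l : ℝ, |l - f p| ≤ η →
      BG D Ψ l (List.ofFn p.1) (wt p.2.1 p.2.2) (T p + ν)) ?_ ?_ ?_ ?_
  · exact ⟨1, one_pos, fun p hp => absurd hp (Set.notMem_empty p)⟩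
  · rintro s t hst ⟨η, hη, H⟩
    exact ⟨η, hη, fun p hp => H p (hst hp)⟩
  · rintro s t ⟨η, hη, H⟩ ⟨η', hη', H'⟩
    refine ⟨min η η', lt_min hη hη', fun p hp l hl => ?_⟩
    rcases hp with hp | hp
    · exact H p hp l (hl.trans (min_le_left _ _))
    · exact H' p hp l (hl.trans (min_le_right _ _))
  · intro p hp
    obtain ⟨δ, hδ, H⟩ := BG_usc (h p hp) (ε := ν / 2) (by linarith)
    have e1 : ∀ᶠ q in 𝓝 p, |f q - f p| < δ / 2 := by
      have := (hf.tendsto p).eventually (Metric.ball_mem_nhds (f p) (by linarith : 0 < δ / 2))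
      filter_upwards [this] with q hq
      rwa [Real.dist_eq] at hq
    have e2 : ∀ᶠ q in 𝓝 p, |T q - T p| < ν / 2 := by
      have := (hT.tendsto p).eventually (Metric.ball_mem_nhds (T p) (by linarith : 0 < ν / 2))
      filter_upwards [this] with q hq
      rwa [Real.dist_eq] at hq
    have e3 : ∀ᶠ q in 𝓝 p, dist q p < δ := Metric.ball_mem_nhds p hδ
    refine ⟨{q | |f q - f p| < δ / 2 ∧ |T q - T p| < ν / 2 ∧ dist q p < δ},
      mem_nhdsWithin_of_mem_nhds (e1.and (e2.and e3)), δ / 2, by linarith, ?_⟩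
    rintro q ⟨h1, h2, h3⟩ l hl
    have hd1 : dist q.1 p.1 < δ := lt_of_le_of_lt (by rw [Prod.dist_eq]; exact le_max_left _ _) h3
    have hd2 : dist q.2 p.2 < δ := lt_of_le_of_lt (by
      rw [Prod.dist_eq (x := q)]; exact le_max_right _ _) h3
    have hd21 : |q.2.1 - p.2.1| < δ := by
      rw [← Real.dist_eq]
      exact lt_of_le_of_lt (by rw [Prod.dist_eq]; exact le_max_left _ _) hd2
    have hd22 : |q.2.2 - p.2.2| < δ := by
      rw [← Real.dist_eq]
      exact lt_of_le_of_lt (by rw [Prod.dist_eq]; exact le_max_right _ _) hd2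
    have := H l (List.ofFn q.1) (wt q.2.1 q.2.2) ?_ ?_ ?_
    · refine this.mono ?_
      have := (abs_lt.1 h2).1
      linarith
    · calc |l - f p| ≤ |l - f q| + |f q - f p| := abs_sub_le _ _ _
        _ ≤ δ := by linarith
    · rw [List.forall₂_iff_get]
      refine ⟨by simp, fun i hi hi' => ?_⟩
      simp only [List.get_eq_getElem, List.getElem_ofFn]
      have := dist_le_pi_dist q.1 p.1 ⟨i, by simpa using hi⟩
      rw [Real.dist_eq] at this
      linarith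
    · intro t
      cases t
      · exact hd21.le
      · exact hd22.le

end Crest.Agent.R017.XP699
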