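import Crest.Agent.R017.DFin_702

/-!
# Row 17: transfer of analytic if-then rules to exponents (helper71), part 1: abstract windows

`Sys A ι` : data `a : A` with an exponent vector `ev X a : ι → ℝ` at every scale `X`, the size
`g a` of the largest granular piece, the number `n a` of granular pieces and two sizes.

`Win S p δ N B ρ X a` : `a` is in the window of `p`.
`EG S Ψ p e` : robust exponent of a family `Ψ : Λ → A → ℝ`, order of quantifiers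
`ε → δ → lam, N, B → ρ → X₀`.

* `EG.mono, of_forall, comp, add, mul, cauchy, smul`
* `EG.unif` : compactness
* `near` : constraints satisfied up to `ρ` near a base point `p`
* `child` : children near a compact polytope
* `transfer` : an if-then rule with kernel `cost^M` gives an inequality between exponents
-/

set_option autoImplicit false

noncomputable section

open Set Filter Topology

namespace Crest.Agent.R017.XT71

open Crest.Agent.R017.XF71 (const_le_rpow Nr)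

variable {A A' ι ι' Λ : Type*}

/-- data with exponent vectors -/
structure Sys (A ι : Type*) where
  /-- exponent vector at scale `X` -/
  ev : ℝ → A → ι → ℝ
  /-- size of the largest granular piece -/
  g : A → ℝ
  /-- number of granular pieces -/
  n : A → ℕ
  /-- first size: only powers `X^ρ` allowed -/
  s₁ : A → ℝ
  /-- second size: any power allowed -/
  s₂ : A → ℝ

/-- the window of `p` -/
structure Win (S : Sys A ι) (p : ι → ℝ) (δ : ℝ) (N : ℕ) (B ρ X : ℝ) (a : A) : Prop where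
  ev : ∀ i, |S.ev X a i - p i| ≤ δ
  g : S.g a ≤ X ^ δ
  n : S.n a ≤ N
  s₁ : S.s₁ a ≤ X ^ ρ
  s₂ : S.s₂ a ≤ X ^ B

theorem Win.mono {S : Sys A ι} {p : ι → ℝ} {δ δ' : ℝ} {N N' : ℕ} {B B' ρ ρ' X : ℝ} {a : A}
    (h : Win S p δ N B ρ X a) (hX : 1 ≤ X) (hδ : δ ≤ δ') (hN : N ≤ N') (hB : B ≤ B')
    (hρ : ρ ≤ ρ') : Win S p δ' N' B' ρ' X a :=
  ⟨fun i => (h.ev i).trans hδ, h.g.trans (Real.rpow_le_rpow_of_exponent_le hX hδ), h.n.trans hN,
    h.s₁.trans (Real.rpow_le_rpow_of_exponent_le hX hρ),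
    h.s₂.trans (Real.rpow_le_rpow_of_exponent_le hX hB)⟩

theorem Win.move {S : Sys A ι} {p p' : ι → ℝ} {δ δ' : ℝ} {N : ℕ} {B ρ X : ℝ} {a : A}
    (h : Win S p δ N B ρ X a) (hX : 1 ≤ X) (hδ' : 0 ≤ δ') (hp : ∀ i, |p i - p' i| ≤ δ') :
    Win S p' (δ + δ') N B ρ X a :=
  ⟨fun i => by
      have := abs_sub_le (S.ev X a i) (p i) (p' i)
      linarith [h.ev i, hp i],
    h.g.trans (Real.rpow_le_rpow_of_exponent_le hX (by linarith)), h.n, h.s₁, h.s₂⟩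

/-- robust exponent -/
def EG (S : Sys A ι) (Ψ : Λ → A → ℝ) (p : ι → ℝ) (e : ℝ) : Prop :=
  ∀ ε : ℝ, 0 < ε → ∃ δ : ℝ, 0 < δ ∧ ∀ (lam : Λ) (N : ℕ) (B : ℝ), ∃ ρ : ℝ, 0 < ρ ∧
    ∃ X₀ : ℝ, 1 < X₀ ∧ ∀ X : ℝ, X₀ ≤ X → ∀ a : A, Win S p δ N B ρ X a → Ψ lam a ≤ X ^ (e + ε)

/-- general form: a property which may depend on `X`, eventually true in the windows -/
def Loc (S : Sys A ι) (p : ι → ℝ) (Φ : Λ → ℝ → A → Prop) : Prop :=
  ∃ δ : ℝ, 0 < δ ∧ ∀ (lam : Λ) (N : ℕ) (B : ℝ), ∃ ρ : ℝ, 0 < ρ ∧ ∃ X₀ : ℝ, 1 < X₀ ∧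
    ∀ X : ℝ, X₀ ≤ X → ∀ a : A, Win S p δ N B ρ X a → Φ lam X a

theorem EG.loc {S : Sys A ι} {Ψ : Λ → A → ℝ} {p : ι → ℝ} {e : ℝ} (h : EG S Ψ p e) {ε : ℝ}
    (hε : 0 < ε) : Loc S p (fun lam X a => Ψ lam a ≤ X ^ (e + ε)) := h ε hε

theorem EG.of_loc {S : Sys A ι} {Ψ : Λ → A → ℝ} {p : ι → ℝ} {e : ℝ}
    (h : ∀ ε : ℝ, 0 < ε → Loc S p (fun lam X a => Ψ lam a ≤ X ^ (e + ε))) : EG S Ψ p e := h

theorem Loc.mono {S : Sys A ι} {p : ι → ℝ} {Φ Φ' : Λ → ℝ → A → Prop} (h : Loc S p Φ)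
    (H : ∀ lam X a, 1 < X → Φ lam X a → Φ' lam X a) : Loc S p Φ' := by
  obtain ⟨δ, hδ, h1⟩ := h
  refine ⟨δ, hδ, fun lam N B => ?_⟩
  obtain ⟨ρ, hρ, X₀, hX₀, h2⟩ := h1 lam N B
  exact ⟨ρ, hρ, X₀, hX₀, fun X hX a ha => H lam X a (by linarith) (h2 X hX a ha)⟩

theorem Loc.and {S : Sys A ι} {p : ι → ℝ} {Φ Φ' : Λ → ℝ → A → Prop} (h : Loc S p Φ)
    (h' : Loc S p Φ') : Loc S p (fun lam X a => Φ lam X a ∧ Φ' lam X a) := by
  obtain ⟨δ, hδ, h1⟩ := h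
  obtain ⟨δ', hδ', h1'⟩ := h'
  refine ⟨min δ δ', lt_min hδ hδ', fun lam N B => ?_⟩
  obtain ⟨ρ, hρ, X₀, hX₀, h2⟩ := h1 lam N B
  obtain ⟨ρ', hρ', X₀', hX₀', h2'⟩ := h1' lam N B
  refine ⟨min ρ ρ', lt_min hρ hρ', max X₀ X₀', lt_of_lt_of_le hX₀ (le_max_left _ _), ?_⟩
  intro X hX a ha
  have e1 : X₀ ≤ X := (le_max_left _ _).trans hX
  have e2 : X₀' ≤ X := (le_max_right _ _).trans hX
  have hX1 : 1 ≤ X := by linarith
  exact ⟨h2 X e1 a (ha.mono hX1 (min_le_left _ _) le_rfl le_rfl (min_le_left _ _)),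
    h2' X e2 a (ha.mono hX1 (min_le_right _ _) le_rfl le_rfl (min_le_right _ _))⟩

/-- facts which only need `X` large -/
theorem Loc.of_large {S : Sys A ι} {p : ι → ℝ} {Φ : Λ → ℝ → A → Prop} (X₀ : ℝ)
    (h : ∀ lam X a, X₀ ≤ X → Φ lam X a) : Loc S p Φ :=
  ⟨1, one_pos, fun lam _ _ => ⟨1, one_pos, max X₀ 2, by simp, fun X hX a _ =>
    h lam X a ((le_max_left _ _).trans hX)⟩⟩

theorem EG.mono {S : Sys A ι} {Ψ : Λ → A → ℝ} {p : ι → ℝ} {e e' : ℝ} (h : EG S Ψ p e)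
    (he : e ≤ e') : EG S Ψ p e' := EG.of_loc fun ε hε => (h.loc hε).mono fun lam X a hX h1 =>
  h1.trans (Real.rpow_le_rpow_of_exponent_le hX.le (by linarith))

theorem EG.of_forall {S : Sys A ι} {Ψ : Λ → A → ℝ} {p : ι → ℝ} {e : ℝ}
    (h : ∀ e' : ℝ, e < e' → EG S Ψ p e') : EG S Ψ p e := EG.of_loc fun ε hε =>
  ((h (e + ε / 2) (by linarith)).loc (ε := ε / 2) (by linarith)).mono fun lam X a hX h1 =>
    h1.trans (Real.rpow_le_rpow_of_exponent_le hX.le (by linarith))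

/-- pointwise comparison -/
theorem EG.comp {S : Sys A ι} {Ψ Φ : Λ → A → ℝ} {p : ι → ℝ} {e e' : ℝ} (h : EG S Φ p e)
    (H : ∀ ε : ℝ, 0 < ε → Loc S p (fun lam X a => Ψ lam a ≤ X ^ (e' - e + ε) * Φ lam a)) : EG S Ψ p e' := by
  refine EG.of_loc fun ε hε => ?_
  refine ((h.loc (ε := ε / 2) (by linarith)).and (H (ε / 2) (by linarith))).mono ?_
  rintro lam X a hX ⟨h1, h2⟩
  have hXpos : (0 : ℝ) < X := by linarith
  calc Ψ lam a ≤ X ^ (e' - e + ε / 2) * Φ lam a := h2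
    _ ≤ X ^ (e' - e + ε / 2) * X ^ (e + ε / 2) :=
        mul_le_mul_of_nonneg_left h1 (Real.rpow_nonneg hXpos.le _)
    _ = X ^ (e' + ε) := by rw [← Real.rpow_add hXpos]; congr 1; ring

theorem EG.add {S : Sys A ι} {Ψ Φ : Λ → A → ℝ} {p : ι → ℝ} {e : ℝ} (h : EG S Ψ p e)
    (h' : EG S Φ p e) : EG S (fun lam a => Ψ lam a + Φ lam a) p e := by
  refine EG.of_loc fun ε hε => ?_
  obtain ⟨X₂, hX₂, H3⟩ := const_le_rpow (C := 2) (ε := ε / 2) (by linarith)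
  refine ((h.loc (ε := ε / 2) (by linarith)).and ((h'.loc (ε := ε / 2) (by linarith)).and
    (Loc.of_large X₂ (Φ := fun _ X _ => (2 : ℝ) ≤ X ^ (ε / 2)) fun _ X _ hX => H3 X hX))).mono ?_
  rintro lam X a hX ⟨h1, h2, h3⟩
  have hXpos : (0 : ℝ) < X := by linarith
  have hp : 0 ≤ X ^ (e + ε / 2) := Real.rpow_nonneg hXpos.le _
  calc Ψ lam a + Φ lam a ≤ 2 * X ^ (e + ε / 2) := by linarith
    _ ≤ X ^ (ε / 2) * X ^ (e + ε / 2) := mul_le_mul_of_nonneg_right h3 hp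
    _ = X ^ (e + ε) := by rw [← Real.rpow_add hXpos]; congr 1; ring

theorem EG.mul {S : Sys A ι} {Ψ Φ : Λ → A → ℝ} {p : ι → ℝ} {e f : ℝ} (hnn : ∀ lam a, 0 ≤ Φ lam a)
    (h : EG S Ψ p e) (h' : EG S Φ p f) : EG S (fun lam a => Ψ lam a * Φ lam a) p (e + f) := by
  refine EG.of_loc fun ε hε => ?_
  refine ((h.loc (ε := ε / 2) (by linarith)).and (h'.loc (ε := ε / 2) (by linarith))).mono ?_
  rintro lam X a hX ⟨h1, h2⟩
  have hXpos : (0 : ℝ) < X := by linarith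
  calc Ψ lam a * Φ lam a ≤ X ^ (e + ε / 2) * X ^ (f + ε / 2) :=
        mul_le_mul h1 h2 (hnn _ _) (Real.rpow_nonneg hXpos.le _)
    _ = X ^ (e + f + ε) := by rw [← Real.rpow_add hXpos]; congr 1; ring

/-- Cauchy-Schwarz -/
theorem EG.cauchy {S : Sys A ι} {Ψ Φ₁ Φ₂ : Λ → A → ℝ} {p : ι → ℝ} {e₁ e₂ : ℝ}
    (h1 : EG S Φ₁ p e₁) (h2 : EG S Φ₂ p e₂)
    (H : ∀ lam a, Ψ lam a ≤ Real.sqrt (Φ₁ lam a) * Real.sqrt (Φ₂ lam a)) : EG S Ψ p ((e₁ + e₂) / 2) := by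
  refine EG.of_loc fun ε hε => ?_
  refine ((h1.loc hε).and (h2.loc hε)).mono ?_
  rintro lam X a hX ⟨g1, g2⟩
  have hpos : (0 : ℝ) < X := by linarith
  have r1 : Real.sqrt (Φ₁ lam a) ≤ X ^ ((e₁ + ε) / 2) := by
    refine (Real.sqrt_le_sqrt g1).trans (le_of_eq ?_)
    rw [Real.sqrt_eq_rpow, ← Real.rpow_mul hpos.le]; congr 1; ring
  have r2 : Real.sqrt (Φ₂ lam a) ≤ X ^ ((e₂ + ε) / 2) := by
    refine (Real.sqrt_le_sqrt g2).trans (le_of_eq ?_)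
    rw [Real.sqrt_eq_rpow, ← Real.rpow_mul hpos.le]; congr 1; ring
  calc Ψ lam a ≤ Real.sqrt (Φ₁ lam a) * Real.sqrt (Φ₂ lam a) := H lam a
    _ ≤ X ^ ((e₁ + ε) / 2) * X ^ ((e₂ + ε) / 2) :=
        mul_le_mul r1 r2 (Real.sqrt_nonneg _) (Real.rpow_nonneg hpos.le _)
    _ = X ^ ((e₁ + e₂) / 2 + ε) := by rw [← Real.rpow_add hpos]; congr 1; ring

/-- homogeneity: `ev` is homogeneous in `log X` -/
theorem EG.smul {S : Sys A ι} {Ψ : Λ → A → ℝ} {p : ι → ℝ} {e l : ℝ} (hl : 0 < l)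
    (hev : ∀ X : ℝ, 1 < X → ∀ a i, S.ev X a i = l * S.ev (X ^ l) a i)
    (h : EG S Ψ p e) : EG S Ψ (fun i => l * p i) (l * e) := by
  intro ε hε
  obtain ⟨δ, hδ, h1⟩ := h (ε / l) (by positivity)
  refine ⟨l * δ, by positivity, fun lam N B => ?_⟩
  obtain ⟨ρ, hρ, X₀, hX₀, h2⟩ := h1 lam N (B / l)
  refine ⟨l * ρ, by positivity, X₀ ^ (1 / l), Real.one_lt_rpow hX₀ (by positivity), ?_⟩
  intro X hX a ha
  have hX00 : 0 ≤ X₀ ^ (1 / l) := Real.rpow_nonneg (by linarith) _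
  have hX1 : 1 < X := lt_of_lt_of_le (Real.one_lt_rpow hX₀ (by positivity)) hX
  have hXpos : 0 < X := by linarith
  have hY : X₀ ≤ X ^ l := by
    have := Real.rpow_le_rpow hX00 hX hl.le
    rwa [← Real.rpow_mul (by linarith : (0:ℝ) ≤ X₀), one_div, inv_mul_cancel₀ hl.ne',
      Real.rpow_one] at this
  have hw : Win S p δ N (B / l) ρ (X ^ l) a := by
    refine ⟨fun i => ?_, ?_, ha.n, ?_, ?_⟩
    · have := ha.ev i
      rw [hev X hX1, ← mul_sub, abs_mul, abs_of_pos hl] at this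
      exact le_of_mul_le_mul_left this hl
    · rw [← Real.rpow_mul hXpos.le]; exact ha.g
    · rw [← Real.rpow_mul hXpos.le]; exact ha.s₁
    · rw [← Real.rpow_mul hXpos.le]
      have e1 : l * (B / l) = B := by field_simp
      rw [e1]; exact ha.s₂
  have := h2 (X ^ l) hY a hw
  rw [← Real.rpow_mul hXpos.le] at this
  have e2 : l * (e + ε / l) = l * e + ε := by field_simp
  rwa [e2] at this

/-! ### compactness -/

/-- compactness of local properties: uniform windows -/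
theorem Loc.unif [Fintype ι] {S : Sys A ι} {K : Set (ι → ℝ)} (hK : IsCompact K)
    {Φ : Λ → ℝ → A → Prop} (H : ∀ p ∈ K, Loc S p Φ) :
    ∃ δ : ℝ, 0 < δ ∧ ∀ (lam : Λ) (N : ℕ) (B : ℝ), ∃ ρ : ℝ, 0 < ρ ∧ ∃ X₀ : ℝ, 1 < X₀ ∧ ∀ X : ℝ, X₀ ≤ X →
      ∀ a : A, (∃ p ∈ K, Win S p δ N B ρ X a) → Φ lam X a := by
  classical
  choose! δ hδ K1 using H
  obtain ⟨T, hTS, hT⟩ := hK.elim_nhds_subcover (fun p => Metric.ball p (δ p / 2))
    (fun p hp => Metric.ball_mem_nhds p (by linarith [hδ p hp]))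
  by_cases hne : T.Nonempty
  · set d := T.inf' hne (fun p => δ p / 2) with hd
    have hdpos : 0 < d := by
      rw [hd, Finset.lt_inf'_iff]; intro p hp; linarith [hδ p (hTS p hp)]
    refine ⟨d, hdpos, fun lam N B => ?_⟩
    choose! ρ hρ X₀ hX₀ K2 using fun p (hp : p ∈ K) => K1 p hp lam N B
    set r := T.inf' hne ρ with hr
    have hrpos : 0 < r := by
      rw [hr, Finset.lt_inf'_iff]; intro p hp; exact hρ p (hTS p hp)
    set Y := T.sup' hne X₀ with hY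
    obtain ⟨p0, hp0⟩ := hne
    have hY1 : 1 < Y := lt_of_lt_of_le (hX₀ p0 (hTS p0 hp0)) (Finset.le_sup' X₀ hp0)
    refine ⟨r, hrpos, Y, hY1, ?_⟩
    rintro X hX a ⟨p, hp, hw⟩
    have hpT := hT hp
    rw [Set.mem_iUnion₂] at hpT
    obtain ⟨p1, hp1, hb⟩ := hpT
    have hX1 : (1:ℝ) ≤ X := by linarith
    have hd1 : d ≤ δ p1 / 2 := Finset.inf'_le _ hp1
    have hr1 : r ≤ ρ p1 := Finset.inf'_le _ hp1
    have hpos1 := hδ p1 (hTS p1 hp1)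
    have hb' : ∀ i, |p i - p1 i| ≤ δ p1 / 2 := fun i => by
      have := (dist_le_pi_dist p p1 i).trans (Metric.mem_ball.1 hb).le
      rwa [Real.dist_eq] at this
    have hw1 := hw.move hX1 (by linarith) hb'
    exact K2 p1 (hTS p1 hp1) X ((Finset.le_sup' X₀ hp1).trans hX) a
      (hw1.mono hX1 (by linarith) le_rfl le_rfl hr1)
  · rw [Finset.not_nonempty_iff_eq_empty] at hne
    refine ⟨1, one_pos, fun lam N B => ⟨1, one_pos, 2, by norm_num, ?_⟩⟩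
    rintro X hX a ⟨p, hp, hw⟩
    have := hT hp
    simp [hne] at this

/-- compactness for exponents: `E - h p` at every point of `K` -/
theorem EG.unif [Fintype ι] {S : Sys A ι} {Ψ : Λ → A → ℝ} {K : Set (ι → ℝ)} (hK : IsCompact K)
    {h : (ι → ℝ) → ℝ} (hh : Continuous h) {E : ℝ} (H : ∀ p ∈ K, EG S Ψ p (E - h p))
    {ε : ℝ} (hε : 0 < ε) :
    ∃ δ : ℝ, 0 < δ ∧ ∀ (lam : Λ) (N : ℕ) (B : ℝ), ∃ ρ : ℝ, 0 < ρ ∧ ∃ X₀ : ℝ, 1 < X₀ ∧ ∀ X : ℝ, X₀ ≤ X →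
      ∀ a : A, (∃ p ∈ K, Win S p δ N B ρ X a) → X ^ h (S.ev X a) * Ψ lam a ≤ X ^ (E + ε) := by
  refine Loc.unif hK (fun p hp => ?_)
  obtain ⟨δ, hδ, H1⟩ := H p hp (ε / 2) (by linarith)
  obtain ⟨η, hη, H2⟩ := Metric.continuousAt_iff.1 (hh.continuousAt (x := p)) (ε / 2) (by linarith)
  refine ⟨min δ (η / 2), lt_min hδ (by linarith), fun lam N B => ?_⟩
  obtain ⟨ρ, hρ, X₀, hX₀, H3⟩ := H1 lam N B
  refine ⟨ρ, hρ, X₀, hX₀, fun X hX a ha => ?_⟩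
  have hX1 : (1:ℝ) ≤ X := by linarith
  have hXpos : (0:ℝ) < X := by linarith
  have h1 := H3 X hX a (ha.mono hX1 (min_le_left _ _) le_rfl le_rfl le_rfl)
  have hd : dist (S.ev X a) p < η := by
    refine lt_of_le_of_lt ((dist_pi_le_iff (by linarith : (0:ℝ) ≤ η / 2)).2 fun i => ?_)
      (by linarith : η / 2 < η)
    rw [Real.dist_eq]; exact (ha.ev i).trans (min_le_right _ _)
  have h2 := H2 hd
  rw [Real.dist_eq] at h2
  have h3 : h (S.ev X a) ≤ h p + ε / 2 := by linarith [(abs_lt.1 h2).2]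
  calc X ^ h (S.ev X a) * Ψ lam a ≤ X ^ h (S.ev X a) * X ^ (E - h p + ε / 2) :=
        mul_le_mul_of_nonneg_left h1 (Real.rpow_nonneg hXpos.le _)
    _ = X ^ (h (S.ev X a) + (E - h p + ε / 2)) := by rw [← Real.rpow_add hXpos]
    _ ≤ X ^ (E + ε) := Real.rpow_le_rpow_of_exponent_le hX1 (by linarith)

/-- constraints `f (q, q') ≤ ρ`, `q` near `p`, `q'` in a compact set: `q'` is near the
polytope of `p`. -/
theorem near [Fintype ι] [Fintype ι'] {D : Set (ι' → ℝ)} (hD : IsCompact D)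
    {f : (ι → ℝ) × (ι' → ℝ) → ℝ} (hf : Continuous f) (p : ι → ℝ) {δ : ℝ} (hδ : 0 < δ) :
    ∃ ρ : ℝ, 0 < ρ ∧ ∀ q : ι → ℝ, (∀ i, |q i - p i| ≤ ρ) → ∀ q' ∈ D, f (q, q') ≤ ρ →
      ∃ p' ∈ {p' | p' ∈ D ∧ f (p, p') ≤ 0}, ∀ i, |q' i - p' i| ≤ δ := by
  classical
  obtain ⟨ρ₁, hρ₁, H1⟩ := DFin702.near_of_slack hD (f := fun q' => f (p, q'))
    (hf.comp (Continuous.prodMk_right p)) hδ
  -- uniform continuity on the compact set `closedBall p 1 × D`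
  have hcomp : IsCompact ((Metric.closedBall p 1) ×ˢ D) :=
    (isCompact_closedBall p 1).prod hD
  have huc := hcomp.uniformContinuousOn_of_continuous hf.continuousOn
  rw [Metric.uniformContinuousOn_iff] at huc
  obtain ⟨η, hη, H2⟩ := huc (ρ₁ / 2) (by linarith)
  refine ⟨min (ρ₁ / 2) (min 1 (η / 2)), lt_min (by linarith) (lt_min one_pos (by linarith)), ?_⟩
  intro q hq q' hq' hfq
  have hr1 : min (ρ₁ / 2) (min 1 (η / 2)) ≤ ρ₁ / 2 := min_le_left _ _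
  have hr2 : min (ρ₁ / 2) (min 1 (η / 2)) ≤ 1 := (min_le_right _ _).trans (min_le_left _ _)
  have hr3 : min (ρ₁ / 2) (min 1 (η / 2)) ≤ η / 2 := (min_le_right _ _).trans (min_le_right _ _)
  have hqp : dist q p ≤ min (ρ₁ / 2) (min 1 (η / 2)) :=
    (dist_pi_le_iff (by positivity)).2 fun i => by rw [Real.dist_eq]; exact hq i
  have hmem : (q, q') ∈ (Metric.closedBall p 1) ×ˢ D := ⟨by
    rw [Metric.mem_closedBall]; exact hqp.trans hr2, hq'⟩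
  have hmem' : (p, q') ∈ (Metric.closedBall p 1) ×ˢ D := ⟨by
    rw [Metric.mem_closedBall, dist_self]; norm_num, hq'⟩
  have hdist : dist (p, q') (q, q') < η := by
    rw [Prod.dist_eq, dist_self]
    have : dist p q < η := by rw [dist_comm]; linarith
    exact max_lt this hη
  have h3 := H2 _ hmem' _ hmem hdist
  rw [Real.dist_eq] at h3
  have h4 : f (p, q') ≤ ρ₁ := by linarith [(abs_lt.1 h3).2]
  exact H1 q' hq' h4

end Crest.Agent.R017.XT71
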