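import Crest.Agent.R017.Prov_71
import Crest.Agent.R017.XT1_71

/-!
# Row 17: transfer of analytic shortening rules to robust exponents (helper699)

`ruleBG` : an analytic rule for lists of pieces (the children are shortenings of the parent up to
`O(1) + ε log X`, their heights are arbitrary with a power of the cost) gives a rule for `BG`.
-/

set_option autoImplicit false

noncomputable section

open Set Filter Topology

namespace Crest.Agent.R017.XP699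

open Crest.Agent.R017.XG702 (Pcs BG)
open Crest.Agent.R017.Prov71
open Crest.Agent.R017.XF71 (const_le_rpow)

variable {Lam Pc : Type*} {D : Pcs Pc Kd}

/-- a linear form -/
def lf (c : Fin 4 → ℝ) (k n l n' : ℝ) : ℝ := c 0 * k + c 1 * n + c 2 * l + c 3 * n'

/-- total length of a list -/
def LL (D : Pcs Pc Kd) (ps : List Pc) : ℝ := (ps.map D.len).sum

/-- children of pieces -/
structure Chd (D : Pcs Pc Kd) (cost : Pc → Pc → ℝ) (r b : ℝ) (p' p : Pc) : Prop where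
  kind : D.kind p' = D.kind p
  lump : D.lump p → D.lump p'
  len0 : 0 ≤ D.len p'
  len : D.len p' ≤ D.len p + r
  s1 : D.s1 p' ≤ D.s1 p * cost p' p
  s2 : D.s2 p' ≤ D.s2 p * b

/-- total cost -/
def cst (cost : Pc → Pc → ℝ) (ps' ps : List Pc) : ℝ := (List.zipWith cost ps' ps).prod

/-- vectors -/
def vec {n : ℕ} (κ : ℝ) (u : Fin n → ℝ) (w : Kd → ℝ) : Unit ⊕ Fin n ⊕ Kd → ℝ :=
  Sum.elim (fun _ => κ) (Sum.elim u w)

/-- total mass of a vector -/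
def smv {n : ℕ} (q : Unit ⊕ Fin n ⊕ Kd → ℝ) : ℝ := ∑ i : Fin n ⊕ Kd, q (Sum.inr i)

lemma sum_Kd (f : Kd → ℝ) : ∑ t, f t = f .mo + f .am := by
  have h : (Finset.univ : Finset Kd) = {Kd.mo, Kd.am} := rfl
  rw [h, Finset.sum_pair (by decide)]

lemma smv_vec {n : ℕ} (κ : ℝ) (u : Fin n → ℝ) (w : Kd → ℝ) :
    smv (vec κ u w) = (∑ i, u i) + (w .mo + w .am) := by
  unfold smv vec
  rw [Fintype.sum_sum_type, sum_Kd]
  rfl

lemma abs_smv_sub {n : ℕ} {q q' : Unit ⊕ Fin n ⊕ Kd → ℝ} {δ : ℝ} (h : ∀ i, |q i - q' i| ≤ δ) :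
    |smv q - smv q'| ≤ (n + 2) * δ := by
  unfold smv
  rw [← Finset.sum_sub_distrib]
  refine (Finset.abs_sum_le_sum_abs _ _).trans ?_
  refine (Finset.sum_le_sum fun i _ => h (Sum.inr i)).trans ?_
  rw [Finset.sum_const, nsmul_eq_mul, Finset.card_univ, Fintype.card_sum, Fintype.card_fin]
  have : Fintype.card Kd = 2 := rfl
  rw [this]
  push_cast
  exact le_rfl

/-- size of a form -/
def lfn (c : Fin 4 → ℝ) : ℝ := |c 0| + |c 1| + |c 2| + |c 3|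

lemma lfn_nonneg (c : Fin 4 → ℝ) : 0 ≤ lfn c := by unfold lfn; positivity

lemma abs_lf_sub {c : Fin 4 → ℝ} {k n l n' k₁ n₁ l₁ n₁' δ : ℝ} (h1 : |k - k₁| ≤ δ)
    (h2 : |n - n₁| ≤ δ) (h3 : |l - l₁| ≤ δ) (h4 : |n' - n₁'| ≤ δ) :
    |lf c k n l n' - lf c k₁ n₁ l₁ n₁'| ≤ lfn c * δ := by
  unfold lf lfn
  have e : c 0 * k + c 1 * n + c 2 * l + c 3 * n' - (c 0 * k₁ + c 1 * n₁ + c 2 * l₁ + c 3 * n₁') =
      c 0 * (k - k₁) + c 1 * (n - n₁) + c 2 * (l - l₁) + c 3 * (n' - n₁') := by ring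
  rw [e]
  calc _ ≤ |c 0 * (k - k₁)| + |c 1 * (n - n₁)| + |c 2 * (l - l₁)| + |c 3 * (n' - n₁')| := by
        refine (abs_add_le _ _).trans (add_le_add_left ((abs_add_le _ _).trans
          (add_le_add_left (abs_add_le _ _) _)) _)
    _ ≤ |c 0| * δ + |c 1| * δ + |c 2| * δ + |c 3| * δ := by
        simp only [abs_mul]; gcongr
    _ = _ := by ring

lemma abs_lf_le {c : Fin 4 → ℝ} {k n l n' b : ℝ} (h1 : |k| ≤ b) (h2 : |n| ≤ b) (h3 : |l| ≤ b)
    (h4 : |n'| ≤ b) : |lf c k n l n'| ≤ lfn c * b := by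
  have := abs_lf_sub (c := c) (k := k) (n := n) (l := l) (n' := n') (k₁ := 0) (n₁ := 0) (l₁ := 0)
    (n₁' := 0) (δ := b) (by simpa using h1) (by simpa using h2) (by simpa using h3)
    (by simpa using h4)
  have e : lf c 0 0 0 0 = 0 := by unfold lf; ring
  rwa [e, sub_zero] at this

lemma lf_div (c : Fin 4 → ℝ) (k n l n' L : ℝ) :
    lf c (k / L) (n / L) (l / L) (n' / L) = lf c k n l n' / L := by
  unfold lf; ring

/-! ### lists -/

lemma LL_append (ps qs : List Pc) : LL D (ps ++ qs) = LL D ps + LL D qs := by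
  unfold LL; rw [List.map_append, List.sum_append]

lemma LL_nonneg {ps : List Pc} (h : ∀ p ∈ ps, 0 ≤ D.len p) : 0 ≤ LL D ps := by
  unfold LL
  refine List.sum_nonneg fun x hx => ?_
  obtain ⟨p, hp, rfl⟩ := List.mem_map.1 hx
  exact h p hp

lemma mass_sum (X : ℝ) (ps : List Pc) : D.mass X ps .mo + D.mass X ps .am = LL D ps / Real.log X := by
  induction ps with
  | nil => simp [LL]
  | cons p ps ih =>
    have e : LL D (p :: ps) = D.len p + LL D ps := by unfold LL; rw [List.map_cons, List.sum_cons]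
    rw [Pcs.mass_cons, Pcs.mass_cons, e, add_div, ← ih]
    have h : (if D.kind p = Kd.mo then D.nl X p else 0) + (if D.kind p = Kd.am then D.nl X p else 0)
        = D.len p / Real.log X := by
      cases hk : D.kind p <;> simp [Pcs.nl]
    rw [← h]; ring

lemma ofFn_nl_sum {n : ℕ} (X : ℝ) (us : Fin n → Pc) :
    ∑ i, D.nl X (us i) = LL D (List.ofFn us) / Real.log X := by
  unfold LL Pcs.nl
  rw [List.map_ofFn, List.sum_ofFn, Finset.sum_div]
  rfl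

variable {cost : Pc → Pc → ℝ}

lemma one_le_cst (hcost : ∀ p' p, 1 ≤ cost p' p) (ps' ps : List Pc) : 1 ≤ cst cost ps' ps := by
  unfold cst
  induction ps' generalizing ps with
  | nil => simp
  | cons p' ps' ih =>
    cases ps with
    | nil => simp
    | cons p ps =>
      rw [List.zipWith_cons_cons, List.prod_cons]
      exact one_le_mul_of_one_le_of_one_le (hcost _ _) (ih ps)

/-- children of lists are good -/
lemma good_child (hcost : ∀ p' p, 1 ≤ cost p' p) {r b : ℝ} {ps' ps : List Pc}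
    (h : List.Forall₂ (Chd D cost r b) ps' ps) {s : ℝ} (hs : cst cost ps' ps ≤ s) :
    ∀ p' ∈ ps', ∃ p ∈ ps, Chd D cost r b p' p ∧ cost p' p ≤ s := by
  induction h with
  | nil => intro p' hp'; simp at hp'
  | @cons a c l₁ l₂ h1 h2 ih =>
    unfold cst at hs
    rw [List.zipWith_cons_cons, List.prod_cons] at hs
    have h3 : 1 ≤ (List.zipWith cost l₁ l₂).prod := one_le_cst hcost l₁ l₂
    have h4 : 1 ≤ cost a c := hcost a c
    intro p' hp'
    rcases List.mem_cons.1 hp' with rfl | hp'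
    · exact ⟨c, List.mem_cons_self, h1, (le_mul_of_one_le_right (by linarith) h3).trans hs⟩
    · have h7 : cst cost l₁ l₂ ≤ s := by
        unfold cst
        exact (le_mul_of_one_le_left (by linarith) h4).trans hs
      obtain ⟨p, hp, h5, h6⟩ := ih h7 p' hp'
      exact ⟨p, List.mem_cons_of_mem _ hp, h5, h6⟩

lemma mass_child {X r b : ℝ} (hX : 0 < Real.log X) (hr : 0 ≤ r) {ps' ps : List Pc}
    (h : List.Forall₂ (Chd D cost r b) ps' ps) (t : Kd) :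
    D.mass X ps' t ≤ D.mass X ps t + ps.length * (r / Real.log X) := by
  induction h with
  | nil => simp
  | @cons a c l₁ l₂ h1 _ ih =>
    rw [Pcs.mass_cons, Pcs.mass_cons, List.length_cons, h1.kind]
    push_cast
    have h2 : D.nl X a ≤ D.nl X c + r / Real.log X := by
      unfold Pcs.nl
      rw [← add_div]
      exact div_le_div_of_nonneg_right h1.len hX.le
    have h3 : 0 ≤ r / Real.log X := by positivity
    split_ifs <;> linarith


/-! ### the transfer theorem -/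

/-- the constraint function -/
def fcon (n : ℕ) (Gs : Finset (Fin 4 → ℝ))
    (x : (Unit ⊕ Fin n ⊕ Kd → ℝ) × (Unit ⊕ Fin n ⊕ Kd → ℝ)) : ℝ :=
  (∑ c ∈ Gs, max 0 (lf c (x.1 (Sum.inl ())) (smv x.1) (x.2 (Sum.inl ())) (smv x.2))) +
    ∑ i : Fin n ⊕ Kd, max 0 (x.2 (Sum.inr i) - x.1 (Sum.inr i))

lemma continuous_smv {n : ℕ} : Continuous (smv (n := n)) := by
  unfold smv
  fun_prop

lemma continuous_fcon (n : ℕ) (Gs : Finset (Fin 4 → ℝ)) : Continuous (fcon n Gs) := by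
  have h1 : Continuous (fun x : (Unit ⊕ Fin n ⊕ Kd → ℝ) × (Unit ⊕ Fin n ⊕ Kd → ℝ) => smv x.1) :=
    continuous_smv.comp continuous_fst
  have h2 : Continuous (fun x : (Unit ⊕ Fin n ⊕ Kd → ℝ) × (Unit ⊕ Fin n ⊕ Kd → ℝ) => smv x.2) :=
    continuous_smv.comp continuous_snd
  unfold fcon lf
  refine Continuous.add (continuous_finsetSum _ fun c _ => ?_) (continuous_finsetSum _ fun i _ => ?_)
  · exact continuous_const.max (by fun_prop)
  · exact continuous_const.max (by fun_prop)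

lemma fcon_le_zero {n : ℕ} {Gs : Finset (Fin 4 → ℝ)}
    {x : (Unit ⊕ Fin n ⊕ Kd → ℝ) × (Unit ⊕ Fin n ⊕ Kd → ℝ)} (h : fcon n Gs x ≤ 0) :
    (∀ c ∈ Gs, lf c (x.1 (Sum.inl ())) (smv x.1) (x.2 (Sum.inl ())) (smv x.2) ≤ 0) ∧
      ∀ i, x.2 (Sum.inr i) ≤ x.1 (Sum.inr i) := by
  unfold fcon at h
  have h1 : 0 ≤ ∑ c ∈ Gs, max 0 (lf c (x.1 (Sum.inl ())) (smv x.1) (x.2 (Sum.inl ())) (smv x.2)) :=
    Finset.sum_nonneg fun _ _ => le_max_left _ _
  have h2 : 0 ≤ ∑ i : Fin n ⊕ Kd, max 0 (x.2 (Sum.inr i) - x.1 (Sum.inr i)) :=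
    Finset.sum_nonneg fun _ _ => le_max_left _ _
  constructor
  · intro c hc
    have h3 : max 0 (lf c (x.1 (Sum.inl ())) (smv x.1) (x.2 (Sum.inl ())) (smv x.2)) ≤
        ∑ c ∈ Gs, max 0 (lf c (x.1 (Sum.inl ())) (smv x.1) (x.2 (Sum.inl ())) (smv x.2)) :=
      Finset.single_le_sum (f := fun c => max 0 (lf c (x.1 (Sum.inl ())) (smv x.1)
        (x.2 (Sum.inl ())) (smv x.2))) (fun _ _ => le_max_left _ _) hc
    exact (le_max_right _ _).trans (h3.trans (by linarith))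
  · intro i
    have h3 : max 0 (x.2 (Sum.inr i) - x.1 (Sum.inr i)) ≤
        ∑ i : Fin n ⊕ Kd, max 0 (x.2 (Sum.inr i) - x.1 (Sum.inr i)) :=
      Finset.single_le_sum (f := fun i => max 0 (x.2 (Sum.inr i) - x.1 (Sum.inr i)))
        (fun _ _ => le_max_left _ _) (Finset.mem_univ i)
    have h4 := (le_max_right 0 (x.2 (Sum.inr i) - x.1 (Sum.inr i))).trans h3
    linarith

lemma fcon_le {n : ℕ} {Gs : Finset (Fin 4 → ℝ)}
    {x : (Unit ⊕ Fin n ⊕ Kd → ℝ) × (Unit ⊕ Fin n ⊕ Kd → ℝ)} {s₁ s₂ : ℝ} (hs₁ : 0 ≤ s₁)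
    (hs₂ : 0 ≤ s₂)
    (h1 : ∀ c ∈ Gs, lf c (x.1 (Sum.inl ())) (smv x.1) (x.2 (Sum.inl ())) (smv x.2) ≤ s₁)
    (h2 : ∀ i, x.2 (Sum.inr i) - x.1 (Sum.inr i) ≤ s₂) :
    fcon n Gs x ≤ Gs.card * s₁ + (n + 2) * s₂ := by
  unfold fcon
  refine add_le_add ?_ ?_
  · refine (Finset.sum_le_sum fun c hc => max_le hs₁ (h1 c hc)).trans ?_
    rw [Finset.sum_const, nsmul_eq_mul]
  · refine (Finset.sum_le_sum fun i _ => max_le hs₂ (h2 i)).trans ?_
    rw [Finset.sum_const, nsmul_eq_mul, Finset.card_univ, Fintype.card_sum, Fintype.card_fin]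
    have : Fintype.card Kd = 2 := rfl
    rw [this]
    push_cast
    exact le_rfl

/-- the compact set of the children, as a set of parameters of `unifG` -/
def toX {n : ℕ} (q : Unit ⊕ Fin n ⊕ Kd → ℝ) : ℝ × (Fin n → ℝ) × (Kd → ℝ) :=
  (q (Sum.inl ()), fun i => q (Sum.inr (Sum.inl i)), fun t => q (Sum.inr (Sum.inr t)))

lemma continuous_toX {n : ℕ} : Continuous (toX (n := n)) := by
  unfold toX
  fun_prop

lemma smv_eq {n : ℕ} (q : Unit ⊕ Fin n ⊕ Kd → ℝ) :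
    smv q = (∑ i, (toX q).2.1 i) + ((toX q).2.2 .mo + (toX q).2.2 .am) := by
  unfold smv toX
  rw [Fintype.sum_sum_type, sum_Kd]

lemma forall₂_ofFn_iff {α β : Type*} {R : α → β → Prop} {n : ℕ} {f : Fin n → α} {g : Fin n → β} :
    List.Forall₂ R (List.ofFn f) (List.ofFn g) ↔ ∀ i, R (f i) (g i) := by
  rw [List.forall₂_iff_get]
  constructor
  · rintro ⟨_, h⟩ i
    have := h i.1 (by simp) (by simp)
    simpa using this
  · intro h
    refine ⟨by simp, fun i h1 h2 => ?_⟩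
    simp only [List.get_eq_getElem, List.getElem_ofFn]
    exact h _

lemma exists_eq_ofFn {α : Type*} {n : ℕ} (l : List α) (h : l.length = n) :
    ∃ f : Fin n → α, l = List.ofFn f := by
  subst h
  exact ⟨l.get, (List.ofFn_get l).symm⟩

/-- exponent vector of the data -/
def evv (D : Pcs Pc Kd) {n : ℕ} (X k : ℝ) (f : Fin n → Pc) (gs : List Pc) :
    Unit ⊕ Fin n ⊕ Kd → ℝ := vec (k / Real.log X) (fun i => D.nl X (f i)) (D.mass X gs)

lemma smv_evv {n : ℕ} (X k : ℝ) (f : Fin n → Pc) (gs : List Pc) :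
    smv (evv D X k f gs) = LL D (List.ofFn f ++ gs) / Real.log X := by
  unfold evv
  rw [smv_vec, ofFn_nl_sum, mass_sum, LL_append, add_div]

/-- the child is in the window: `f (q, q') ≤ s` and `q'` in the box -/
lemma child_win {n : ℕ} {Gs : Finset (Fin 4 → ℝ)} {cL c₀ X k l r b slack δ : ℝ} {N : ℕ}
    (hcost : ∀ p' p, 1 ≤ cost p' p)
    (hX : 0 < Real.log X) (hcL : 0 ≤ cL) (hr : 0 ≤ r) (hc₀ : 0 ≤ c₀) (hslack : 0 ≤ slack)
    (hGs : ∀ k n l n' s : ℝ, 0 ≤ k → 0 ≤ n → 0 ≤ l → 0 ≤ n' → 0 ≤ s →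
      (∀ c ∈ Gs, lf c k n l n' ≤ s) → l ≤ cL * (k + n + s))
    {f f' : Fin n → Pc} {gs gs' : List Pc} (hk : 0 ≤ k) (hl : 0 ≤ l)
    (hgN : gs.length ≤ N) (hδ : 0 ≤ δ)
    (h1 : ∀ i, Chd D cost r b (f' i) (f i)) (h2 : List.Forall₂ (Chd D cost r b) gs' gs)
    (hG : ∀ c ∈ Gs, lf c k (LL D (List.ofFn f ++ gs)) l (LL D (List.ofFn f' ++ gs')) ≤
      slack * Real.log X)
    (hlen0 : ∀ i, 0 ≤ D.len (f i)) (hgs0 : ∀ g ∈ gs, 0 ≤ D.len g)
    (hrX : (N + 1) * (r / Real.log X) ≤ δ)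
    (hkc : k / Real.log X ≤ c₀) (hlc : LL D (List.ofFn f ++ gs) / Real.log X ≤ c₀)
    (hfi : ∀ i, D.nl X (f i) ≤ c₀) (hms : ∀ t, D.mass X gs t ≤ c₀) :
    evv D X l f' gs' ∈ Set.Icc (0 : Unit ⊕ Fin n ⊕ Kd → ℝ)
        (fun _ => (c₀ + δ) + cL * (c₀ + c₀ + slack)) ∧
      fcon n Gs (evv D X k f gs, evv D X l f' gs') ≤ Gs.card * slack + (n + 2) * δ := by
  have hgs'0 : ∀ g ∈ gs', 0 ≤ D.len g := by
    intro g hg
    obtain ⟨p, _, h3, _⟩ := good_child hcost h2 (le_refl _) g hg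
    exact h3.len0
  have hN : (0 : ℝ) ≤ N := Nat.cast_nonneg N
  have hrX0 : 0 ≤ r / Real.log X := by positivity
  have hrX1 : r / Real.log X ≤ δ := by nlinarith
  have hn0 : 0 ≤ LL D (List.ofFn f ++ gs) := by
    apply LL_nonneg
    intro p hp
    rcases List.mem_append.1 hp with h | h
    · obtain ⟨i, rfl⟩ := (List.mem_ofFn' _ _).1 h
      exact hlen0 i
    · exact hgs0 p h
  have hn'0 : 0 ≤ LL D (List.ofFn f' ++ gs') := by
    apply LL_nonneg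
    intro p hp
    rcases List.mem_append.1 hp with h | h
    · obtain ⟨i, rfl⟩ := (List.mem_ofFn' _ _).1 h
      exact (h1 i).len0
    · exact hgs'0 p h
  have hdiff : ∀ i, (evv D X l f' gs') (Sum.inr i) - (evv D X k f gs) (Sum.inr i) ≤ δ := by
    rintro (i | t)
    · show D.nl X (f' i) - D.nl X (f i) ≤ δ
      have h3 : D.nl X (f' i) ≤ D.nl X (f i) + r / Real.log X := by
        unfold Pcs.nl
        rw [← add_div]
        exact div_le_div_of_nonneg_right (h1 i).len hX.le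
      linarith
    · show D.mass X gs' t - D.mass X gs t ≤ δ
      have h3 := mass_child hX hr h2 t
      have h4 : (gs.length : ℝ) * (r / Real.log X) ≤ N * (r / Real.log X) := by
        have : (gs.length : ℝ) ≤ N := by exact_mod_cast hgN
        exact mul_le_mul_of_nonneg_right this hrX0
      nlinarith
  have hcon : ∀ c ∈ Gs, lf c ((evv D X k f gs) (Sum.inl ())) (smv (evv D X k f gs))
      ((evv D X l f' gs') (Sum.inl ())) (smv (evv D X l f' gs')) ≤ slack := by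
    intro c hc
    rw [smv_evv, smv_evv]
    show lf c (k / Real.log X) _ (l / Real.log X) _ ≤ slack
    rw [lf_div, div_le_iff₀ hX]
    exact hG c hc
  have hl' : l / Real.log X ≤ cL * (c₀ + c₀ + slack) := by
    have h3 := hGs (k / Real.log X) (LL D (List.ofFn f ++ gs) / Real.log X) (l / Real.log X)
      (LL D (List.ofFn f' ++ gs') / Real.log X) slack (by positivity) (by positivity)
      (by positivity) (by positivity) hslack (by
        intro c hc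
        rw [lf_div, div_le_iff₀ hX]
        exact hG c hc)
    refine h3.trans (mul_le_mul_of_nonneg_left ?_ hcL)
    linarith
  have hb0 : 0 ≤ cL * (c₀ + c₀ + slack) := by positivity
  refine ⟨⟨fun i => ?_, fun i => ?_⟩, fcon_le hslack hδ hcon hdiff⟩
  · rcases i with ⟨⟩ | i | t
    · show 0 ≤ l / Real.log X
      positivity
    · show 0 ≤ D.nl X (f' i)
      exact div_nonneg (h1 i).len0 hX.le
    · show 0 ≤ D.mass X gs' t
      exact XG702.mass_nonneg (fun p hp => div_nonneg (hgs'0 p hp) hX.le) t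
  · rcases i with ⟨⟩ | i | t
    · show l / Real.log X ≤ _
      linarith
    · have := hdiff (Sum.inl i)
      have e1 : (evv D X l f' gs') (Sum.inr (Sum.inl i)) = D.nl X (f' i) := rfl
      have e2 : (evv D X k f gs) (Sum.inr (Sum.inl i)) = D.nl X (f i) := rfl
      rw [e1, e2] at this
      show D.nl X (f' i) ≤ _
      linarith [hfi i]
    · have := hdiff (Sum.inr t)
      have e1 : (evv D X l f' gs') (Sum.inr (Sum.inr t)) = D.mass X gs' t := rfl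
      have e2 : (evv D X k f gs) (Sum.inr (Sum.inr t)) = D.mass X gs t := rfl
      rw [e1, e2] at this
      show D.mass X gs' t ≤ _
      linarith [hms t]

lemma shl_ofFn' {u : List ℝ} {x : Fin u.length → ℝ} (h0 : ∀ i, 0 ≤ x i)
    (h1 : ∀ i, x i ≤ u.get i) : Shl (List.ofFn x) u := by
  unfold Shl
  rw [List.forall₂_iff_get]
  refine ⟨by simp, fun i hi hi' => ?_⟩
  simp only [List.get_eq_getElem, List.getElem_ofFn]
  exact ⟨h0 _, h1 ⟨i, hi'⟩⟩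

lemma one_le_prod_s1 (hs1 : ∀ p, 1 ≤ D.s1 p) (ps : List Pc) : 1 ≤ (ps.map D.s1).prod := by
  induction ps with
  | nil => simp
  | cons p ps ih =>
    rw [List.map_cons, List.prod_cons]
    exact one_le_mul_of_one_le_of_one_le (hs1 p) ih

lemma prod_s1_le (hs1 : ∀ p, 1 ≤ D.s1 p) {X δ' : ℝ} (hX : 1 ≤ X) (hδ' : 0 ≤ δ') {N : ℕ}
    (ps : List Pc) (h : ∀ p ∈ ps, D.s1 p ≤ X ^ δ') (hN : ps.length ≤ N) :
    (ps.map D.s1).prod ≤ X ^ (N * δ') := by
  have hX0 : 0 < X := by linarith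
  have h1 : (ps.map D.s1).prod ≤ X ^ (ps.length * δ') := by
    clear hN
    induction ps with
    | nil => simp
    | cons p ps ih =>
      rw [List.map_cons, List.prod_cons, List.length_cons]
      push_cast
      have e : X ^ (((ps.length : ℝ) + 1) * δ') = X ^ δ' * X ^ (ps.length * δ') := by
        rw [← Real.rpow_add hX0]; congr 1; ring
      rw [e]
      exact mul_le_mul (h p List.mem_cons_self) (ih fun q hq => h q (List.mem_cons_of_mem _ hq))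
        (by linarith [one_le_prod_s1 hs1 ps]) (Real.rpow_nonneg hX0.le _)
  refine h1.trans (Real.rpow_le_rpow_of_exponent_le hX ?_)
  have : (ps.length : ℝ) ≤ N := by exact_mod_cast hN
  exact mul_le_mul_of_nonneg_right this hδ'


lemma evv_nonneg {n : ℕ} {X k : ℝ} (hX : 0 < Real.log X) (hk : 0 ≤ k) {f : Fin n → Pc}
    {gs : List Pc} (hf : ∀ i, 0 ≤ D.len (f i)) (hg : ∀ g ∈ gs, 0 ≤ D.len g) :
    ∀ i, 0 ≤ evv D X k f gs i := by
  rintro (⟨⟩ | i | t)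
  · exact div_nonneg hk hX.le
  · exact div_nonneg (hf i) hX.le
  · exact XG702.mass_nonneg (fun p hp => div_nonneg (hg p hp) hX.le) t

lemma le_smv {n : ℕ} {q : Unit ⊕ Fin n ⊕ Kd → ℝ} (h : ∀ i, 0 ≤ q i) (i : Fin n ⊕ Kd) :
    q (Sum.inr i) ≤ smv q :=
  Finset.single_le_sum (f := fun i : Fin n ⊕ Kd => q (Sum.inr i)) (fun i _ => h _)
    (Finset.mem_univ i)

lemma exp_eq_rpow {X : ℝ} (hX : 0 < X) (hl : 0 < Real.log X) (y : ℝ) :
    Real.exp y = X ^ (y / Real.log X) := by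
  rw [Real.rpow_def_of_pos hX]; congr 1; field_simp

lemma num1 {n σ δ₂ : ℝ} (hn : 0 ≤ n) (h0 : 0 < δ₂) (h1 : 0 < σ) (h : σ ≤ δ₂ / 2) :
    σ ≤ (n + 3) * δ₂ ∧ (n + 2) * σ ≤ (n + 3) * δ₂ ∧ δ₂ ≤ (n + 3) * δ₂ ∧
      (n + 2) * δ₂ ≤ (n + 3) * δ₂ := by
  have h2 : 0 ≤ n * δ₂ := by positivity
  have h3 : n * σ ≤ n * δ₂ := mul_le_mul_of_nonneg_left (by linarith) hn
  refine ⟨?_, ?_, ?_, ?_⟩ <;> linarith

lemma num2 {N r' σ : ℝ} (hN : 0 ≤ N) (hr : 0 ≤ r') (h : (N + 1) * r' ≤ σ / 2) : r' ≤ σ / 2 := by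
  have : 0 ≤ N * r' := by positivity
  linarith

lemma num3 {r εr c₀ σ L : ℝ} (hL : 0 < L) (h1 : r / L ≤ σ / 2) (h2 : εr * c₀ ≤ σ / 2) :
    r + εr * (c₀ * L) ≤ σ * L := by
  rw [div_le_iff₀ hL] at h1
  have h4 := mul_le_mul_of_nonneg_right h2 hL.le
  linarith

set_option maxHeartbeats 1000000 in
/-- the bound of one child -/
lemma child_bound {n N : ℕ} {Φl : ℝ → List Pc → ℝ} {cF : Fin 4 → ℝ} {Gs : Finset (Fin 4 → ℝ)}
    {E ε κ n₀ c₀ cL cB Bx δ₁ δ₂ s σ ρ' δ' B B₀ Cb Ct T' M X k l r εr : ℝ}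
    {p : Unit ⊕ Fin n ⊕ Kd → ℝ} (hcost : ∀ p' p, 1 ≤ cost p' p) (hs1 : ∀ p, 1 ≤ D.s1 p)
    (hcL : 0 ≤ cL)
    (hGs : ∀ k n l n' s : ℝ, 0 ≤ k → 0 ≤ n → 0 ≤ l → 0 ≤ n' → 0 ≤ s →
      (∀ c ∈ Gs, lf c k n l n' ≤ s) → l ≤ cL * (k + n + s))
    (hX1 : 1 < X) (hlog : 0 < Real.log X) (hε : 0 < ε) (hpκ : p (Sum.inl ()) = κ)
    (hsp : smv p = n₀)
    (hc₀ : κ + n₀ + 3 ≤ c₀) (hκ : 0 ≤ κ) (hn₀0 : 0 ≤ n₀)
    (hBx : (c₀ + 1) + cL * (c₀ + c₀ + 1) ≤ Bx)
    (hnear : ∀ q : Unit ⊕ Fin n ⊕ Kd → ℝ, (∀ i, |q i - p i| ≤ s) →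
      ∀ q' ∈ Set.Icc (0 : Unit ⊕ Fin n ⊕ Kd → ℝ) (fun _ => Bx), fcon n Gs (q, q') ≤ s →
      ∃ p' ∈ {p' | p' ∈ Set.Icc (0 : Unit ⊕ Fin n ⊕ Kd → ℝ) (fun _ => Bx) ∧
        fcon n Gs (p, p') ≤ 0}, ∀ i, |q' i - p' i| ≤ δ₂)
    (hun : ∀ (k : ℝ) (us gs : List Pc), ∀ x ∈ toX '' {p' | p' ∈ Set.Icc
        (0 : Unit ⊕ Fin n ⊕ Kd → ℝ) (fun _ => Bx) ∧ fcon n Gs (p, p') ≤ 0},
      |k - x.1| ≤ δ₁ → D.Near X δ₁ us (List.ofFn x.2.1) → D.Gran X δ₁ N gs x.2.2 →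
      D.Good X ρ' (B + c₀ * B₀ + 1) (us ++ gs) → Φl (k * Real.log X) (us ++ gs) ≤
        X ^ (E + lf cF κ n₀ x.1 ((∑ i, x.2.1 i) + (x.2.2 .mo + x.2.2 .am)) + ε / 8))
    (hδ₂0 : 0 < δ₂) (hδ₂1 : δ₂ ≤ δ₁) (hδ₂3 : lfn cF * ((n + 3) * δ₂) ≤ ε / 8)
    (hσ0 : 0 < σ) (hσ1 : Gs.card * σ ≤ s / 4) (hσ2 : (n + 2) * σ ≤ s / 4) (hσ3 : σ ≤ δ₂ / 2)
    (hσ4 : (n + 3) * σ ≤ 1) (hσ5 : σ ≤ 1) (hσs : σ ≤ s)
    (hcB : cB = lfn cF * ((n + 3) * Bx + c₀))
    (hM : M = 2 * (T' * ((n + 3) * Bx) + |E| + cB + 1) / ρ') (hM0 : 0 ≤ M) (hρ' : 0 < ρ')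
    (hT' : 0 ≤ T') (hr : 0 ≤ r)
    (hεr1 : εr * c₀ ≤ σ / 2) (hδ'1 : δ' ≤ ρ' / 2)
    (hrlog : (N + 1) * (r / Real.log X) ≤ σ / 2) (hC3 : Ct ≤ X ^ (1 : ℝ)) (hCt : 0 ≤ Ct)
    (htriv : ∀ (l : ℝ) (ps : List Pc), 0 ≤ l →
      ps.length ≤ n + N → (∀ p ∈ ps, 0 ≤ D.len p) → Φl l ps ≤ Ct * Real.exp (T' * (l + LL D ps)))
    {f : Fin n → Pc} {gs : List Pc} (hk : 0 ≤ k)
    (hq : ∀ i, |evv D X k f gs i - p i| ≤ σ) (hlump : ∀ i, D.lump (f i)) (hgN : gs.length ≤ N)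
    (hgσ : ∀ g ∈ gs, D.nl X g ≤ σ)
    (hgood : ∀ q ∈ List.ofFn f ++ gs, D.s1 q ≤ X ^ δ' ∧ D.s2 q ≤ X ^ B ∧ 0 ≤ D.len q)
    (hl : 0 ≤ l) {ps' : List Pc}
    (hCb0 : 0 ≤ Cb) (hCbX : Cb ≤ X)
    (hps' : List.Forall₂ (Chd D cost r (Cb * (X ^ c₀) ^ B₀)) ps' (List.ofFn f ++ gs))
    (hG : ∀ c ∈ Gs, lf c k (LL D (List.ofFn f ++ gs)) l (LL D ps') ≤
      r + εr * Real.log (X ^ c₀)) :
    Φl l ps' ≤ X ^ (E + ε / 2) * cst cost ps' (List.ofFn f ++ gs) ^ M *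
      Real.exp (lf cF k (LL D (List.ofFn f ++ gs)) l (LL D ps')) := by
  have hX0 : 0 < X := by linarith
  have hn2 : (0 : ℝ) ≤ n := Nat.cast_nonneg n
  have hN2 : (0 : ℝ) ≤ N := Nat.cast_nonneg N
  have hf0 : ∀ i, 0 ≤ D.len (f i) := fun i =>
    (hgood (f i) (List.mem_append_left _ ((List.mem_ofFn' _ _).2 ⟨i, rfl⟩))).2.2
  have hg0 : ∀ g ∈ gs, 0 ≤ D.len g := fun g hg => (hgood g (List.mem_append_right _ hg)).2.2
  -- the lists
  have h1 := List.forall₂_take_append _ _ _ hps'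
  have h2 := List.forall₂_drop_append _ _ _ hps'
  rw [List.length_ofFn] at h1 h2
  have hlen1 : (List.take n ps').length = n := by
    rw [List.Forall₂.length_eq h1, List.length_ofFn]
  obtain ⟨f', hf'⟩ := exists_eq_ofFn (List.take n ps') hlen1
  obtain ⟨gs', hgs'⟩ : ∃ g, g = List.drop n ps' := ⟨_, rfl⟩
  have hsplit : ps' = List.ofFn f' ++ gs' := by rw [← hf', hgs', List.take_append_drop]
  rw [hf', forall₂_ofFn_iff] at h1
  rw [← hgs'] at h2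
  clear hf' hgs'
  subst hsplit
  have hr0 : 0 ≤ r / Real.log X := by positivity
  have hrσ : r / Real.log X ≤ σ / 2 := num2 hN2 hr0 hrlog
  obtain ⟨nm1, nm2, nm3, nm4⟩ := num1 hn2 hδ₂0 hσ0 hσ3
  have hslack : r + εr * Real.log (X ^ c₀) ≤ σ * Real.log X := by
    rw [Real.log_rpow hX0]
    exact num3 hlog hrσ hεr1
  have hq0 := evv_nonneg (D := D) (gs := gs) hlog hk hf0 hg0
  have hsmq : smv (evv D X k f gs) ≤ n₀ + 1 := by
    have h3 := abs_smv_sub (q := evv D X k f gs) (q' := p) hq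
    rw [hsp] at h3
    have := (abs_le.1 h3).2
    linarith
  have hlc : LL D (List.ofFn f ++ gs) / Real.log X ≤ n₀ + 1 := by rw [← smv_evv]; exact hsmq
  have hkc : k / Real.log X ≤ κ + 1 := by
    have h3 := hq (Sum.inl ())
    rw [hpκ] at h3
    have e : evv D X k f gs (Sum.inl ()) = k / Real.log X := rfl
    rw [e] at h3
    linarith [(abs_le.1 h3).2]
  obtain ⟨w1, w2⟩ := child_win (c₀ := c₀) (δ := σ) (slack := σ) (Gs := Gs) hcost hlog hcL hr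
    (by linarith) hσ0.le hGs hk hl hgN hσ0.le h1 h2 (fun c hc => (hG c hc).trans hslack) hf0 hg0
    (by linarith) (by linarith) (by linarith)
    (fun i => (le_smv hq0 (Sum.inl i)).trans (by linarith))
    (fun t => (le_smv hq0 (Sum.inr t)).trans (by linarith))
  have hBx2 : (c₀ + σ) + cL * (c₀ + c₀ + σ) ≤ Bx := by
    refine le_trans ?_ hBx
    have := mul_le_mul_of_nonneg_left (show c₀ + c₀ + σ ≤ c₀ + c₀ + 1 by linarith) hcL
    linarith
  have hmem : evv D X l f' gs' ∈ Set.Icc (0 : Unit ⊕ Fin n ⊕ Kd → ℝ) (fun _ => Bx) :=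
    ⟨w1.1, fun i => (w1.2 i).trans hBx2⟩
  obtain ⟨p', hp'K, hpp⟩ := hnear (evv D X k f gs) (fun i => (hq i).trans hσs) _ hmem
    (w2.trans (by linarith))
  have hg'0 : ∀ g ∈ gs', 0 ≤ D.len g := by
    intro g hg
    obtain ⟨_, _, h3, _⟩ := good_child hcost h2 (le_refl _) g hg
    exact h3.len0
  have hq'0 := evv_nonneg (D := D) (gs := gs') hlog hl (fun i => (h1 i).len0) hg'0
  obtain ⟨cs, hcs⟩ : ∃ x, x = cst cost (List.ofFn f' ++ gs') (List.ofFn f ++ gs) := ⟨_, rfl⟩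
  have hcs1 : 1 ≤ cs := hcs ▸ one_le_cst hcost _ _
  obtain ⟨y, hy⟩ : ∃ x, x = lf cF k (LL D (List.ofFn f ++ gs)) l (LL D (List.ofFn f' ++ gs')) :=
    ⟨_, rfl⟩
  have hyl : y / Real.log X = lf cF (k / Real.log X) (smv (evv D X k f gs)) (l / Real.log X)
      (smv (evv D X l f' gs')) := by
    rw [smv_evv, smv_evv, lf_div, hy]
  rw [← hcs, ← hy, exp_eq_rpow hX0 hlog]
  rcases le_or_gt cs (X ^ (ρ' / 2)) with hc | hc
  · -- the good case
    have hgood' : D.Good X ρ' (B + c₀ * B₀ + 1) (List.ofFn f' ++ gs') := by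
      intro q hq'
      obtain ⟨q0, hq0, h3, h4⟩ := good_child hcost hps' (le_refl _) q hq'
      rw [← hcs] at h4
      have g := hgood q0 hq0
      have h5 : 1 ≤ D.s1 q0 := hs1 q0
      have h6 : 1 ≤ cost q q0 := hcost q q0
      refine ⟨?_, ?_, h3.len0⟩
      · calc D.s1 q ≤ D.s1 q0 * cost q q0 := h3.s1
          _ ≤ X ^ δ' * X ^ (ρ' / 2) := mul_le_mul g.1 (h4.trans hc) (by linarith)
              (Real.rpow_nonneg hX0.le _)
          _ = X ^ (δ' + ρ' / 2) := (Real.rpow_add hX0 _ _).symm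
          _ ≤ X ^ ρ' := Real.rpow_le_rpow_of_exponent_le hX1.le (by linarith)
      · have h7 : 0 ≤ (X ^ c₀) ^ B₀ := Real.rpow_nonneg (Real.rpow_nonneg hX0.le _) _
        calc D.s2 q ≤ D.s2 q0 * (Cb * (X ^ c₀) ^ B₀) := h3.s2
          _ ≤ X ^ B * (Cb * (X ^ c₀) ^ B₀) := mul_le_mul_of_nonneg_right g.2.1
              (mul_nonneg hCb0 h7)
          _ ≤ X ^ B * (X * (X ^ c₀) ^ B₀) := mul_le_mul_of_nonneg_left
              (mul_le_mul_of_nonneg_right hCbX h7) (Real.rpow_nonneg hX0.le _)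
          _ = X ^ (B + c₀ * B₀ + 1) := by
              rw [← Real.rpow_mul hX0.le, Real.rpow_add hX0, Real.rpow_add hX0, Real.rpow_one]
              ring
    have h3 := hun (l / Real.log X) (List.ofFn f') gs' (toX p') ⟨p', hp'K, rfl⟩
      ((hpp (Sum.inl ())).trans hδ₂1) (by
        unfold Pcs.Near
        rw [forall₂_ofFn_iff]
        exact fun i => ⟨(h1 i).lump (hlump i), (hpp (Sum.inr (Sum.inl i))).trans hδ₂1⟩) (by
        refine ⟨by rw [List.Forall₂.length_eq h2]; exact hgN, ?_, ?_⟩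
        · intro g hg
          obtain ⟨g0, hg0', h4, _⟩ := good_child hcost h2 (le_refl _) g hg
          have h5 : D.nl X g ≤ D.nl X g0 + r / Real.log X := by
            unfold Pcs.nl
            rw [← add_div]
            exact div_le_div_of_nonneg_right h4.len hlog.le
          linarith [hgσ g0 hg0']
        · exact fun t => (hpp (Sum.inr (Sum.inr t))).trans hδ₂1) hgood'
    rw [div_mul_cancel₀ _ hlog.ne'] at h3
    rw [← smv_eq] at h3
    have hb1 : |κ - k / Real.log X| ≤ (n + 3) * δ₂ := by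
      have h4 := hq (Sum.inl ())
      rw [hpκ] at h4
      rw [abs_sub_comm]
      exact h4.trans nm1
    have hb2 : |n₀ - smv (evv D X k f gs)| ≤ (n + 3) * δ₂ := by
      have h4 := abs_smv_sub (q := evv D X k f gs) (q' := p) hq
      rw [hsp] at h4
      rw [abs_sub_comm]
      exact h4.trans nm2
    have hb3 : |(toX p').1 - l / Real.log X| ≤ (n + 3) * δ₂ := by
      have h4 := hpp (Sum.inl ())
      rw [abs_sub_comm] at h4
      exact le_trans h4 nm3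
    have hb4 : |smv p' - smv (evv D X l f' gs')| ≤ (n + 3) * δ₂ := by
      have h4 := abs_smv_sub (q := evv D X l f' gs') (q' := p') hpp
      rw [abs_sub_comm]
      exact h4.trans nm4
    have h6 := abs_lf_sub (c := cF) hb1 hb2 hb3 hb4
    rw [← hyl] at h6
    have h7 := (abs_le.1 (h6.trans hδ₂3)).2
    have h8 : 1 ≤ cs ^ M := Real.one_le_rpow hcs1 hM0
    calc Φl l (List.ofFn f' ++ gs') ≤ X ^ (E + ε / 2 + y / Real.log X) := by
          refine h3.trans (Real.rpow_le_rpow_of_exponent_le hX1.le ?_)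
          linarith
      _ = X ^ (E + ε / 2) * 1 * X ^ (y / Real.log X) := by rw [Real.rpow_add hX0]; ring
      _ ≤ X ^ (E + ε / 2) * cs ^ M * X ^ (y / Real.log X) := by gcongr
  · -- the expensive case
    have hmem2 := hmem.2
    have hBx0 : 0 ≤ Bx := le_trans (hq'0 (Sum.inl ())) (hmem2 (Sum.inl ()))
    have hl' : l / Real.log X ≤ Bx := hmem2 (Sum.inl ())
    have hsm' : smv (evv D X l f' gs') ≤ (n + 2) * Bx := by
      unfold smv
      refine (Finset.sum_le_sum fun i _ => hmem2 (Sum.inr i)).trans ?_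
      rw [Finset.sum_const, nsmul_eq_mul, Finset.card_univ, Fintype.card_sum, Fintype.card_fin]
      have : Fintype.card Kd = 2 := rfl
      rw [this]
      push_cast
      exact le_rfl
    have hsm0 : 0 ≤ smv (evv D X l f' gs') := Finset.sum_nonneg fun i _ => hq'0 _
    have hsm1 : 0 ≤ smv (evv D X k f gs) := Finset.sum_nonneg fun i _ => hq0 _
    have hnB : 0 ≤ (n : ℝ) * Bx := by positivity
    have h3 : Φl l (List.ofFn f' ++ gs') ≤ X ^ (1 + T' * ((n + 3) * Bx)) := by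
      refine (htriv l _ hl ?_ ?_).trans ?_
      · rw [List.Forall₂.length_eq hps', List.length_append, List.length_ofFn]
        omega
      · intro q hq'
        obtain ⟨_, _, h3, _⟩ := good_child hcost hps' (le_refl _) q hq'
        exact h3.len0
      · rw [exp_eq_rpow hX0 hlog, Real.rpow_add hX0]
        refine mul_le_mul hC3 (Real.rpow_le_rpow_of_exponent_le hX1.le ?_)
          (Real.rpow_nonneg hX0.le _) (Real.rpow_nonneg hX0.le _)
        rw [mul_div_assoc, add_div, ← smv_evv]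
        refine mul_le_mul_of_nonneg_left ?_ hT'
        linarith
    have h4 : -cB ≤ y / Real.log X := by
      rw [hyl, hcB]
      have h5 := abs_lf_le (c := cF) (k := k / Real.log X) (n := smv (evv D X k f gs))
        (l := l / Real.log X) (n' := smv (evv D X l f' gs')) (b := (n + 3) * Bx + c₀)
        (by rw [abs_of_nonneg (div_nonneg hk hlog.le)]; linarith)
        (by rw [abs_of_nonneg hsm1]; linarith)
        (by rw [abs_of_nonneg (div_nonneg hl hlog.le)]; linarith)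
        (by rw [abs_of_nonneg hsm0]; linarith)
      exact (abs_le.1 h5).1
    have h5 : X ^ (T' * ((n + 3) * Bx) + |E| + cB + 1) ≤ cs ^ M := by
      have e : X ^ (T' * ((n + 3) * Bx) + |E| + cB + 1) = (X ^ (ρ' / 2)) ^ M := by
        rw [← Real.rpow_mul hX0.le, hM]
        congr 1
        field_simp
      rw [e]
      exact Real.rpow_le_rpow (Real.rpow_nonneg hX0.le _) hc.le hM0
    calc Φl l (List.ofFn f' ++ gs') ≤ X ^ (1 + T' * ((n + 3) * Bx)) := h3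
      _ ≤ X ^ ((E + ε / 2) + (T' * ((n + 3) * Bx) + |E| + cB + 1) + y / Real.log X) := by
          refine Real.rpow_le_rpow_of_exponent_le hX1.le ?_
          linarith [neg_abs_le E]
      _ = X ^ (E + ε / 2) * X ^ (T' * ((n + 3) * Bx) + |E| + cB + 1) * X ^ (y / Real.log X) := by
          rw [Real.rpow_add hX0, Real.rpow_add hX0]
      _ ≤ _ := by gcongr

/-- the final count -/
lemma final_count {X E ε κ n₀ σ c₀ εr C Jr Nr δ' S1 k L Ψv : ℝ} {nn : ℝ} (hX1 : 1 < X)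
    (hε : 0 < ε) (hC : 0 ≤ C) (hJ : 0 ≤ Jr) (hS1 : 1 ≤ S1) (hE : κ + n₀ ≤ E)
    (hk : k / Real.log X ≤ κ + σ) (hL : L / Real.log X ≤ n₀ + (nn + 2) * σ)
    (hσ : (nn + 3) * σ ≤ ε / 8) (hεr2 : c₀ * εr ≤ ε / 8) (hδ'2 : Nr * δ' * Jr ≤ ε / 8)
    (hS : S1 ≤ X ^ (Nr * δ')) (hC2 : 2 * C ≤ X ^ (ε / 8))
    (h : Ψv ≤ C * (X ^ c₀) ^ εr * S1 ^ Jr * (Real.exp (k + L) + X ^ (E + ε / 2))) :
    Ψv ≤ X ^ (E + ε) := by
  have hX0 : 0 < X := by linarith
  have hlog : 0 < Real.log X := Real.log_pos hX1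
  have h1 : (X ^ c₀) ^ εr ≤ X ^ (ε / 8) := by
    rw [← Real.rpow_mul hX0.le]
    exact Real.rpow_le_rpow_of_exponent_le hX1.le hεr2
  have h2 : S1 ^ Jr ≤ X ^ (ε / 8) := by
    calc S1 ^ Jr ≤ (X ^ (Nr * δ')) ^ Jr := Real.rpow_le_rpow (by linarith) hS hJ
      _ = X ^ (Nr * δ' * Jr) := (Real.rpow_mul hX0.le _ _).symm
      _ ≤ _ := Real.rpow_le_rpow_of_exponent_le hX1.le hδ'2
  have h3 : Real.exp (k + L) ≤ X ^ (E + ε / 2) := by
    rw [exp_eq_rpow hX0 hlog]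
    refine Real.rpow_le_rpow_of_exponent_le hX1.le ?_
    rw [add_div]
    linarith
  have hE0 : 0 ≤ X ^ (E + ε / 2) := Real.rpow_nonneg hX0.le _
  have hS0 : 0 ≤ S1 ^ Jr := Real.rpow_nonneg (by linarith) _
  calc Ψv ≤ C * (X ^ c₀) ^ εr * S1 ^ Jr * (Real.exp (k + L) + X ^ (E + ε / 2)) := h
    _ ≤ C * X ^ (ε / 8) * X ^ (ε / 8) * (X ^ (E + ε / 2) + X ^ (E + ε / 2)) := by gcongr
    _ = (2 * C) * X ^ (ε / 8) * X ^ (ε / 8) * X ^ (E + ε / 2) := by ring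
    _ ≤ X ^ (ε / 8) * X ^ (ε / 8) * X ^ (ε / 8) * X ^ (E + ε / 2) := by gcongr
    _ = X ^ (ε / 8 + ε / 8 + ε / 8 + (E + ε / 2)) := by
        rw [Real.rpow_add hX0 (ε / 8 + ε / 8 + ε / 8), Real.rpow_add hX0 (ε / 8 + ε / 8),
          Real.rpow_add hX0 (ε / 8) (ε / 8)]
    _ ≤ X ^ (E + ε) := Real.rpow_le_rpow_of_exponent_le hX1.le (by linarith)

set_option maxHeartbeats 2000000 in
/-- **Transfer of analytic shortening rules.** -/
theorem ruleBG {Ψ Φ : Lam → ℝ → List Pc → ℝ} (hcost : ∀ p' p, 1 ≤ cost p' p)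
    (hs1 : ∀ p, 1 ≤ D.s1 p)
    {cF : Fin 4 → ℝ} {Gs : Finset (Fin 4 → ℝ)} {cL : ℝ} (hcL : 0 ≤ cL)
    (hGs : ∀ k n l n' s : ℝ, 0 ≤ k → 0 ≤ n → 0 ≤ l → 0 ≤ n' → 0 ≤ s →
      (∀ c ∈ Gs, lf c k n l n' ≤ s) → l ≤ cL * (k + n + s))
    (hmono : ∀ lam l l' ps, l ≤ l' → Ψ lam l ps ≤ Ψ lam l' ps)
    (hrule : ∀ (lam : Lam) (N : ℕ), ∃ B₀ : ℝ, 0 ≤ B₀ ∧ ∀ (ε M : ℝ), 0 < ε → 0 ≤ M →
      ∃ C r J : ℝ, 0 ≤ C ∧ 0 ≤ r ∧ 0 ≤ J ∧
      ∀ X : ℝ, 3 ≤ X → ∀ (k : ℝ) (ps : List Pc), 0 ≤ k → k ≤ Real.log X → ps.length ≤ N →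
      (∀ p ∈ ps, 0 ≤ D.len p ∧ D.len p ≤ Real.log X) → ∀ Bd : ℝ, 0 ≤ Bd →
      (∀ (l : ℝ) (ps' : List Pc), 0 ≤ l → List.Forall₂ (Chd D cost r (C * X ^ B₀)) ps' ps →
        (∀ c ∈ Gs, lf c k (LL D ps) l (LL D ps') ≤ r + ε * Real.log X) →
        Φ lam l ps' ≤ Bd * cst cost ps' ps ^ M * Real.exp (lf cF k (LL D ps) l (LL D ps'))) →
      Ψ lam k ps ≤ C * X ^ ε * (ps.map D.s1).prod ^ J * (Real.exp (k + LL D ps) + Bd))
    (triv : ∀ (lam : Lam) (N : ℕ), ∃ C T : ℝ, 0 ≤ C ∧ 0 ≤ T ∧ ∀ (l : ℝ) (ps : List Pc), 0 ≤ l →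
      ps.length ≤ N → (∀ p ∈ ps, 0 ≤ D.len p) → Φ lam l ps ≤ C * Real.exp (T * (l + LL D ps)))
    {κ : ℝ} {u : List ℝ} {m a E : ℝ} (hκ : 0 ≤ κ) (hu : Okl u m a)
    (hE : κ + (u.sum + m + a) ≤ E)
    (hch : ∀ (u' : List ℝ) (m' a' l : ℝ), Shl u' u → 0 ≤ m' → m' ≤ m → 0 ≤ a' → a' ≤ a → 0 ≤ l →
      (∀ c ∈ Gs, lf c κ (u.sum + m + a) l (u'.sum + m' + a') ≤ 0) →
      BG D Φ l u' (wt m' a') (E + lf cF κ (u.sum + m + a) l (u'.sum + m' + a'))) :
    BG D Ψ κ u (wt m a) E := by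
  intro ε hε
  obtain ⟨hu0, hm, ha⟩ := hu
  set n := u.length with hn
  set n₀ : ℝ := u.sum + m + a with hn₀
  have husum : 0 ≤ u.sum := List.sum_nonneg hu0
  have hn₀0 : 0 ≤ n₀ := by rw [hn₀]; linarith
  obtain ⟨c₀, hc₀⟩ : ∃ x : ℝ, x = κ + n₀ + 3 := ⟨_, rfl⟩
  have hc₀3 : 3 ≤ c₀ := by rw [hc₀]; linarith
  obtain ⟨Bx, hBx⟩ : ∃ x : ℝ, x = (c₀ + 1) + cL * (c₀ + c₀ + 1) := ⟨_, rfl⟩
  have hBx0 : 0 ≤ Bx := by rw [hBx]; positivity
  -- the compact set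
  set p : Unit ⊕ Fin n ⊕ Kd → ℝ := vec κ u.get (wt m a) with hp
  have hsp : smv p = n₀ := by
    rw [hp, smv_vec, hn₀]
    have : ∑ i, u.get i = u.sum := by
      conv_rhs => rw [← List.ofFn_get u]
      rw [List.sum_ofFn]
    rw [this]
    show u.sum + (m + a) = _
    ring
  set Dm : Set (Unit ⊕ Fin n ⊕ Kd → ℝ) := Set.Icc 0 (fun _ => Bx) with hDm
  have hDc : IsCompact Dm := isCompact_Icc
  set K : Set (Unit ⊕ Fin n ⊕ Kd → ℝ) := {p' | p' ∈ Dm ∧ fcon n Gs (p, p') ≤ 0} with hK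
  have hKc : IsCompact K := hDc.inter_right
    (isClosed_le ((continuous_fcon n Gs).comp (Continuous.prodMk_right p)) continuous_const)
  set T : ℝ × (Fin n → ℝ) × (Kd → ℝ) → ℝ :=
    fun x => E + lf cF κ n₀ x.1 ((∑ i, x.2.1 i) + (x.2.2 .mo + x.2.2 .am)) with hT
  have hTc : Continuous T := by
    rw [hT]; unfold lf; fun_prop
  have hBGs : ∀ x ∈ toX '' K, BG D Φ x.1 (List.ofFn x.2.1) x.2.2 (T x) := by
    rintro _ ⟨q, ⟨hq1, hq2⟩, rfl⟩
    obtain ⟨h1, h2⟩ := fcon_le_zero hq2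
    have hq0 : ∀ i, 0 ≤ q i := fun i => hq1.1 i
    have hwt : (toX q).2.2 = wt (q (Sum.inr (Sum.inr .mo))) (q (Sum.inr (Sum.inr .am))) := by
      funext t; cases t <;> rfl
    have hsum : (List.ofFn (toX q).2.1).sum + q (Sum.inr (Sum.inr .mo)) +
        q (Sum.inr (Sum.inr .am)) = smv q := by
      rw [smv_eq, List.sum_ofFn]
      show _ = _ + (q (Sum.inr (Sum.inr .mo)) + q (Sum.inr (Sum.inr .am)))
      ring
    have h3 := hch (List.ofFn (toX q).2.1) (q (Sum.inr (Sum.inr .mo)))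
      (q (Sum.inr (Sum.inr .am))) (q (Sum.inl ())) (shl_ofFn' (fun i => hq0 _) (fun i => h2 _))
      (hq0 _) (h2 (Sum.inr .mo)) (hq0 _) (h2 (Sum.inr .am)) (hq0 _) (by
        intro c hc
        rw [hsum]
        have := h1 c hc
        rw [hsp] at this
        exact this)
    rw [hsum] at h3
    rw [hwt]
    have e : T (toX q) = E + lf cF κ n₀ (q (Sum.inl ())) (smv q) := by
      rw [hT, smv_eq]; rfl
    rw [e]
    exact h3
  -- compactness
  obtain ⟨δ₁, hδ₁, hun⟩ := XG702.unifG (hKc.image continuous_toX) hTc.continuousOn hBGs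
    (ε := ε / 8) (by linarith)
  have hlfn := lfn_nonneg cF
  have hn2 : (0 : ℝ) ≤ n := Nat.cast_nonneg n
  obtain ⟨δ₂, hδ₂⟩ : ∃ x : ℝ, x = min δ₁ (ε / (8 * (lfn cF + 1) * (n + 3))) := ⟨_, rfl⟩
  have hδ₂0 : 0 < δ₂ := hδ₂ ▸ lt_min hδ₁ (by positivity)
  have hδ₂1 : δ₂ ≤ δ₁ := hδ₂ ▸ min_le_left _ _
  have hδ₂2 : δ₂ ≤ ε / (8 * (lfn cF + 1) * (n + 3)) := hδ₂ ▸ min_le_right _ _
  have hδ₂3 : lfn cF * ((n + 3) * δ₂) ≤ ε / 8 := by
    rw [le_div_iff₀ (by positivity)] at hδ₂2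
    have : 0 ≤ (n + 3) * δ₂ := by positivity
    nlinarith
  have hδ₂4 : (n + 3) * δ₂ ≤ ε / 8 := by
    rw [le_div_iff₀ (by positivity)] at hδ₂2
    have : 0 ≤ (n + 3) * δ₂ * lfn cF := by positivity
    nlinarith
  obtain ⟨s, hs, hnear⟩ := XT71.near hDc (continuous_fcon n Gs) p hδ₂0
  obtain ⟨cG, hcG⟩ : ∃ x : ℝ, x = (Gs.card : ℝ) + 1 := ⟨_, rfl⟩
  have hcG1 : 1 ≤ cG := by rw [hcG]; linarith [Nat.cast_nonneg (α := ℝ) Gs.card]
  -- the slack
  obtain ⟨σ, hσ⟩ : ∃ x : ℝ, x = min (min (s / (4 * cG)) (s / (4 * (n + 2))))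
    (min (δ₂ / 2) (1 / (n + 3))) := ⟨_, rfl⟩
  have hσ0 : 0 < σ := hσ ▸ lt_min (lt_min (by positivity) (by positivity))
    (lt_min (by positivity) (by positivity))
  have hσ1 : cG * σ ≤ s / 4 := by
    have h1 : σ ≤ s / (4 * cG) := hσ ▸ (min_le_left _ _).trans (min_le_left _ _)
    rw [le_div_iff₀ (by positivity)] at h1
    linarith
  have hσ2 : (n + 2) * σ ≤ s / 4 := by
    have h1 : σ ≤ s / (4 * (n + 2)) := hσ ▸ (min_le_left _ _).trans (min_le_right _ _)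
    rw [le_div_iff₀ (by positivity)] at h1
    linarith
  have hσ3 : σ ≤ δ₂ / 2 := hσ ▸ (min_le_right _ _).trans (min_le_left _ _)
  have hσ4 : (n + 3) * σ ≤ 1 := by
    have h1 : σ ≤ 1 / (n + 3) := hσ ▸ (min_le_right _ _).trans (min_le_right _ _)
    rw [le_div_iff₀ (by positivity)] at h1
    linarith
  have hσ5 : σ ≤ 1 := by nlinarith
  have hσs : σ ≤ s := by nlinarith
  refine ⟨σ, hσ0, fun lam N B => ?_⟩
  obtain ⟨B₀, hB₀, hr1⟩ := hrule lam (n + N)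
  obtain ⟨ρ', hρ', X₁, hX₁, hun2⟩ := hun lam N (B + c₀ * B₀ + 1)
  obtain ⟨Ct, T', hCt, hT', htriv⟩ := triv lam (n + N)
  obtain ⟨cB, hcB⟩ : ∃ x : ℝ, x = lfn cF * ((n + 3) * Bx + c₀) := ⟨_, rfl⟩
  have hcB0 : 0 ≤ cB := by rw [hcB]; positivity
  obtain ⟨M, hM⟩ : ∃ x : ℝ, x = 2 * (T' * ((n + 3) * Bx) + |E| + cB + 1) / ρ' := ⟨_, rfl⟩
  have hM0 : 0 ≤ M := by rw [hM]; positivity
  obtain ⟨εr, hεr⟩ : ∃ x : ℝ, x = min (σ / (2 * c₀)) (ε / (8 * c₀)) := ⟨_, rfl⟩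
  have hεr0 : 0 < εr := hεr ▸ lt_min (by positivity) (by positivity)
  have hεr1 : εr * c₀ ≤ σ / 2 := by
    have h1 : εr ≤ σ / (2 * c₀) := hεr ▸ min_le_left _ _
    rw [le_div_iff₀ (by positivity)] at h1
    linarith
  have hεr2 : c₀ * εr ≤ ε / 8 := by
    have h1 : εr ≤ ε / (8 * c₀) := hεr ▸ min_le_right _ _
    rw [le_div_iff₀ (by positivity)] at h1
    linarith
  obtain ⟨C, r, J, hC, hr, hJ, hR⟩ := hr1 εr M hεr0 hM0
  have hNn : (0 : ℝ) ≤ ((n + N : ℕ) : ℝ) := Nat.cast_nonneg _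
  obtain ⟨δ', hδ'⟩ : ∃ x : ℝ, x = min (ρ' / 2) (ε / (8 * (J + 1) * (((n + N : ℕ) : ℝ) + 1))) :=
    ⟨_, rfl⟩
  have hδ'0 : 0 < δ' := hδ' ▸ lt_min (by positivity) (by positivity)
  have hδ'1 : δ' ≤ ρ' / 2 := hδ' ▸ min_le_left _ _
  have hδ'2 : ((n + N : ℕ) : ℝ) * δ' * J ≤ ε / 8 := by
    have h1 : δ' ≤ ε / (8 * (J + 1) * (((n + N : ℕ) : ℝ) + 1)) := hδ' ▸ min_le_right _ _
    rw [le_div_iff₀ (by positivity)] at h1
    have h2 : ((n + N : ℕ) : ℝ) * J ≤ (J + 1) * (((n + N : ℕ) : ℝ) + 1) := by nlinarith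
    have h3 := mul_le_mul_of_nonneg_left h2 hδ'0.le
    nlinarith
  obtain ⟨X₂, hX₂, hC2⟩ := const_le_rpow (C := 2 * C) (ε := ε / 8) (by linarith)
  obtain ⟨X₃, hX₃, hC3⟩ := const_le_rpow (C := Ct) (ε := 1) one_pos
  obtain ⟨X₄, hX₄⟩ : ∃ x : ℝ, x = Real.exp (2 * (N + 1) * r / σ) := ⟨_, rfl⟩
  refine ⟨δ', hδ'0, max (max X₁ X₂) (max X₃ (max X₄ (max 3 C))), ?_, ?_⟩
  · exact lt_of_lt_of_le hX₁ ((le_max_left _ _).trans (le_max_left _ _))
  intro X hX k us gs hk hnr hgran hgood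
  have x1 : X₁ ≤ X := ((le_max_left _ _).trans (le_max_left _ _)).trans hX
  have x2 : X₂ ≤ X := ((le_max_right _ _).trans (le_max_left _ _)).trans hX
  have x3 : X₃ ≤ X := ((le_max_left _ _).trans (le_max_right _ _)).trans hX
  have x4 : X₄ ≤ X :=
    ((le_max_left _ _).trans ((le_max_right _ _).trans (le_max_right _ _))).trans hX
  have x56 : max 3 C ≤ X :=
    ((le_max_right _ _).trans ((le_max_right _ _).trans (le_max_right _ _))).trans hX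
  have x5 : 3 ≤ X := (le_max_left _ _).trans x56
  have x6 : C ≤ X := (le_max_right _ _).trans x56
  have hX1 : (1 : ℝ) < X := by linarith
  have hX0 : (0 : ℝ) < X := by linarith
  have hlog : 0 < Real.log X := Real.log_pos hX1
  have hrlog : (N + 1) * (r / Real.log X) ≤ σ / 2 := by
    have h1 : 2 * (N + 1) * r / σ ≤ Real.log X := by
      rw [Real.le_log_iff_exp_le hX0, ← hX₄]; exact x4
    rw [div_le_iff₀ hσ0] at h1
    rw [← mul_div_assoc, div_le_iff₀ hlog]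
    linarith
  -- the parent
  have hlenus : us.length = n := by
    have := List.Forall₂.length_eq hnr
    rw [this]
  obtain ⟨f, rfl⟩ := exists_eq_ofFn us hlenus
  have hnr' : D.Near X σ (List.ofFn f) (List.ofFn u.get) := by rwa [List.ofFn_get]
  unfold Pcs.Near at hnr'
  rw [forall₂_ofFn_iff] at hnr'
  obtain ⟨k₁, hk₁⟩ : ∃ x : ℝ, x = max k 0 * Real.log X := ⟨_, rfl⟩
  have hk₁0 : 0 ≤ k₁ := by rw [hk₁]; exact mul_nonneg (le_max_right _ _) hlog.le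
  have hkk : k * Real.log X ≤ k₁ := by
    rw [hk₁]; exact mul_le_mul_of_nonneg_right (le_max_left _ _) hlog.le
  have hk₁l : k₁ / Real.log X = max k 0 := by rw [hk₁, mul_div_cancel_right₀ _ hlog.ne']
  have hmaxk : |max k 0 - κ| ≤ σ := by
    rw [abs_le] at hk ⊢
    constructor
    · linarith [hk.1, le_max_left k 0]
    · have := max_le (show k ≤ κ + σ by linarith [hk.2]) (show 0 ≤ κ + σ by linarith)
      linarith
  have hq : ∀ i, |evv D X k₁ f gs i - p i| ≤ σ := by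
    rintro (⟨⟩ | i | t)
    · show |k₁ / Real.log X - κ| ≤ σ
      rw [hk₁l]; exact hmaxk
    · exact (hnr' i).2
    · exact hgran.2.2 t
  have hg1 : ∀ q ∈ List.ofFn f ++ gs, 0 ≤ D.len q := fun q hq => (hgood q hq).2.2
  have hf0 : ∀ i, 0 ≤ D.len (f i) := fun i =>
    hg1 (f i) (List.mem_append_left _ ((List.mem_ofFn' _ _).2 ⟨i, rfl⟩))
  have hg0 : ∀ g ∈ gs, 0 ≤ D.len g := fun g hg => hg1 g (List.mem_append_right _ hg)
  have hsm : |smv (evv D X k₁ f gs) - n₀| ≤ (n + 2) * σ := by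
    have h3 := abs_smv_sub (q := evv D X k₁ f gs) (q' := p) hq
    rwa [hsp] at h3
  have hsm1 := (abs_le.1 hsm).2
  have hLL : LL D (List.ofFn f ++ gs) / Real.log X ≤ n₀ + (n + 2) * σ := by
    rw [← smv_evv]; linarith
  have hLLi : ∀ q ∈ List.ofFn f ++ gs, D.len q ≤ LL D (List.ofFn f ++ gs) := by
    intro q hq
    unfold LL
    exact List.single_le_sum (fun x hx => by
      obtain ⟨y, hy, rfl⟩ := List.mem_map.1 hx
      exact hg1 y hy) _ (List.mem_map.2 ⟨q, hq, rfl⟩)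
  have hlogc : Real.log (X ^ c₀) = c₀ * Real.log X := Real.log_rpow hX0 _
  have hLLc : LL D (List.ofFn f ++ gs) ≤ c₀ * Real.log X := by
    rw [div_le_iff₀ hlog] at hLL
    refine hLL.trans (mul_le_mul_of_nonneg_right ?_ hlog.le)
    rw [hc₀]
    linarith
  have hcnt : (List.ofFn f ++ gs).length ≤ n + N := by
    rw [List.length_append, List.length_ofFn]
    exact Nat.add_le_add_left hgran.1 n
  have hfinal := hR (X ^ c₀) (by
      calc (3 : ℝ) ≤ X := x5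
        _ = X ^ (1 : ℝ) := (Real.rpow_one X).symm
        _ ≤ X ^ c₀ := Real.rpow_le_rpow_of_exponent_le hX1.le (by linarith)) k₁
    (List.ofFn f ++ gs) hk₁0 (by
      rw [hlogc, hk₁]
      refine mul_le_mul_of_nonneg_right ?_ hlog.le
      rw [hc₀]
      linarith [(abs_le.1 hmaxk).2]) hcnt (fun q hq => ⟨hg1 q hq, by
        rw [hlogc]; exact (hLLi q hq).trans hLLc⟩) (X ^ (E + ε / 2))
    (Real.rpow_nonneg hX0.le _) (fun l ps' hl hps' hG =>
      child_bound (N := N) (E := E) (ε := ε) (κ := κ) (n₀ := n₀) (c₀ := c₀) (cL := cL) (cB := cB)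
        (Bx := Bx) (δ₁ := δ₁) (δ₂ := δ₂) (s := s) (σ := σ) (ρ' := ρ') (δ' := δ') (B := B)
        (B₀ := B₀) (Cb := C) (Ct := Ct) (T' := T') (M := M) (Gs := Gs) (p := p) hcost hs1 hcL hGs hX1 hlog
        hε rfl hsp (by rw [hc₀]) hκ hn₀0 (by rw [hBx]) hnear
        (fun k us gs x hx h1 h2 h3 h4 => hun2 X x1 k us gs x hx h1 h2 h3 h4) hδ₂0 hδ₂1 hδ₂3 hσ0
        (by have : (Gs.card : ℝ) ≤ cG := by rw [hcG]; linarith
            exact (mul_le_mul_of_nonneg_right this hσ0.le).trans hσ1) hσ2 hσ3 hσ4 hσ5 hσs hcB hM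
        hM0 hρ' hT' hr hεr1 hδ'1 hrlog (hC3 X x3) hCt htriv hk₁0 hq (fun i => (hnr' i).1) hgran.1
        hgran.2.1 hgood hl hC x6 hps' hG)
  refine (hmono lam _ _ _ hkk).trans ?_
  refine final_count (nn := n) (σ := σ) (κ := κ) (n₀ := n₀) hX1 hε hC hJ
    (one_le_prod_s1 hs1 _) hE ?_ hLL ?_ hεr2 hδ'2
    (prod_s1_le hs1 hX1.le hδ'0.le _ (fun q hq => (hgood q hq).1) hcnt) (hC2 X x2) hfinal
  · rw [hk₁l]; linarith [(abs_le.1 hmaxk).2]
  · have h1 : (n + 3) * σ ≤ (n + 3) * δ₂ :=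
      mul_le_mul_of_nonneg_left (by linarith) (by positivity)
    linarith

end Crest.Agent.R017.XP699
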