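import Crest.Agent.R017.XRG2_106

/-!
# Row 17, provider: the raw dual rule (P') in BG form (helper106), part 3

* `near_child`, `gran_child`, `good_child` : the lists of the children
* `core` : (P') with exponents, for a fixed parameter
-/

set_option autoImplicit false
set_option maxHeartbeats 400000

noncomputable section

open Complex
open scoped ComplexConjugate

namespace Crest.Agent.R017.XRG106

open Crest.Agent.R012 Crest.Agent.R012.Eis Crest.Agent.R012.LS2
open Crest.Agent.R017.CM106 Crest.Agent.R017.FE47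
open Crest.Agent.R017.B770
open Crest.Agent.R017.Prov71
open Crest.Agent.R017.XG702
open Crest.Agent.R017.HP842 (UT pc)
open Crest.Agent.R017.XHB411 (tl near_sum sum_nl_eq_mass hbL_C EHB alL0 alL0_eq LL_pc ok_map
  one_le_map bl_neg)

/-- normalized total length -/
def nls (X : ℝ) (ps : List Pq) : ℝ := (ps.map (Dq.nl X)).sum

lemma nls_append (X : ℝ) (ps qs : List Pq) : nls X (ps ++ qs) = nls X ps + nls X qs := by
  unfold nls; rw [List.map_append, List.sum_append]

lemma nls_cons (X : ℝ) (p : Pq) (ps : List Pq) : nls X (p :: ps) = Dq.nl X p + nls X ps := by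
  unfold nls; rw [List.map_cons, List.sum_cons]

lemma nls_gran {X : ℝ} (gs : List Pq) : nls X gs = Dq.mass X gs .mo + Dq.mass X gs .am := by
  unfold nls
  rw [sum_nl_eq_mass]
  have : (Finset.univ : Finset Kd) = {Kd.mo, Kd.am} := rfl
  rw [this, Finset.sum_pair (by decide)]

lemma nl_child {X C W : ℝ} (hl : 0 < Real.log X) {p' p : Pq} (h : Rl C W p' p) :
    Dq.nl X p' ≤ Dq.nl X p + C / Real.log X := by
  unfold Pcs.nl
  rw [Dq_len, Dq_len, ← add_div]
  exact div_le_div_of_nonneg_right h.zle hl.le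

lemma nl_nonneg {X : ℝ} (hl : 0 < Real.log X) {p : Pq} (h : 0 ≤ p.z) : 0 ≤ Dq.nl X p := by
  unfold Pcs.nl
  rw [Dq_len]
  positivity

/-- the lumps of the children -/
lemma near_child {X C W δ₁ δ₂ : ℝ} (hl : 0 < Real.log X) (hd0 : 0 ≤ δ₂)
    (hd : δ₁ + C / Real.log X ≤ δ₂)
    {us : List Pq} {u : List ℝ} (hn : Dq.Near X δ₁ us u) (hu : ∀ y ∈ u, 0 ≤ y) :
    ∀ {us' : List Pq}, List.Forall₂ (Rl C W) us' us →
      ∃ u', Shl u' u ∧ Dq.Near X δ₂ us' u' ∧ u'.sum ≤ nls X us' := by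
  unfold Pcs.Near at hn
  induction hn with
  | nil =>
    intro us' h
    cases h
    exact ⟨[], List.Forall₂.nil, List.Forall₂.nil, by simp [nls]⟩
  | @cons p x us u h1 _ ih =>
    intro us' h
    obtain ⟨p', us'', hp, hus, rfl⟩ := List.forall₂_cons_right_iff.1 h
    obtain ⟨u', h2, h3, h4⟩ := ih (fun y hy => hu y (List.mem_cons_of_mem _ hy)) hus
    have hx := hu x List.mem_cons_self
    have hp0 := nl_nonneg hl hp.z0
    have hp1 := nl_child hl hp
    have h5 := (abs_le.1 h1.2).2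
    refine ⟨min x (Dq.nl X p') :: u', List.Forall₂.cons ⟨le_min hx hp0, min_le_left _ _⟩ h2,
      List.Forall₂.cons ⟨⟨?_, ?_⟩, ?_⟩ h3, ?_⟩
    · exact hp.kd.trans h1.1.1
    · exact hp.one h1.1.2
    · rw [abs_le]
      rcases min_cases x (Dq.nl X p') with ⟨e, _⟩ | ⟨e, _⟩ <;> rw [e] <;> constructor <;> linarith
    · rw [List.sum_cons, nls_cons]
      exact add_le_add (min_le_right _ _) h4

lemma mass_child {X C W : ℝ} (hl : 0 < Real.log X) (hC : 0 ≤ C) {gs' gs : List Pq}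
    (h : List.Forall₂ (Rl C W) gs' gs) (t : Kd) :
    Dq.mass X gs' t ≤ Dq.mass X gs t + gs.length * (C / Real.log X) := by
  have hc : 0 ≤ C / Real.log X := by positivity
  induction h with
  | nil => simp
  | @cons p' p gs' gs h1 _ ih =>
    rw [Pcs.mass_cons, Pcs.mass_cons, List.length_cons]
    push_cast
    have h2 := nl_child hl h1
    have e : Dq.kind p' = Dq.kind p := h1.kd
    rw [e]
    split_ifs <;> nlinarith

/-- the granular part of the children -/
lemma gran_child {X C W δ₁ δ₂ : ℝ} (hl : 0 < Real.log X) (hC : 0 ≤ C) (hd0 : 0 ≤ δ₂)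
    {N : ℕ} (hd : δ₁ + (N + 1) * (C / Real.log X) ≤ δ₂)
    {gs : List Pq} {m a : ℝ} (hm : 0 ≤ m) (ha : 0 ≤ a) (hg : Dq.Gran X δ₁ N gs (wt m a))
    {gs' : List Pq} (h : List.Forall₂ (Rl C W) gs' gs) :
    ∃ m' a', 0 ≤ m' ∧ m' ≤ m ∧ 0 ≤ a' ∧ a' ≤ a ∧ Dq.Gran X δ₂ N gs' (wt m' a') ∧
      m' + a' ≤ nls X gs' := by
  have hc : 0 ≤ C / Real.log X := by positivity
  have hz : ∀ g ∈ gs', 0 ≤ Dq.nl X g := by
    intro g hg'
    obtain ⟨i, hi, rfl⟩ := List.mem_iff_getElem.1 hg'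
    have := (List.forall₂_iff_get.1 h)
    exact nl_nonneg hl (this.2 i hi (this.1 ▸ hi)).z0
  have hmass : ∀ t, Dq.mass X gs' t ≤ wt m a t + δ₂ := by
    intro t
    have h1 := mass_child hl hC h t
    have h2 := (abs_le.1 (hg.2.2 t)).2
    have h3 : (gs.length : ℝ) ≤ N := by exact_mod_cast hg.1
    have h4 : (gs.length : ℝ) * (C / Real.log X) ≤ N * (C / Real.log X) := by gcongr
    nlinarith
  have hm0 : ∀ t, 0 ≤ Dq.mass X gs' t := fun t => XG702.mass_nonneg hz t
  refine ⟨min m (Dq.mass X gs' .mo), min a (Dq.mass X gs' .am), le_min hm (hm0 _),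
    min_le_left _ _, le_min ha (hm0 _), min_le_left _ _, ⟨?_, ?_, ?_⟩, ?_⟩
  · rw [h.length_eq]; exact hg.1
  · intro g hg'
    obtain ⟨i, hi, rfl⟩ := List.mem_iff_getElem.1 hg'
    have h1 := (List.forall₂_iff_get.1 h)
    have h2 := h1.2 i hi (h1.1 ▸ hi)
    have h3 := nl_child hl h2
    have h4 := hg.2.1 (gs.get ⟨i, h1.1 ▸ hi⟩) (List.get_mem _ _)
    simp only [List.get_eq_getElem] at h3 h4 ⊢
    have h5 : (0 : ℝ) ≤ N := Nat.cast_nonneg N
    nlinarith
  · intro t
    have h1 := hmass t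
    cases t
    · show |Dq.mass X gs' .mo - min m (Dq.mass X gs' .mo)| ≤ δ₂
      have h2 : Dq.mass X gs' .mo ≤ m + δ₂ := h1
      rw [abs_le]
      rcases min_cases m (Dq.mass X gs' .mo) with ⟨e, _⟩ | ⟨e, _⟩ <;> rw [e] <;>
        constructor <;> linarith
    · show |Dq.mass X gs' .am - min a (Dq.mass X gs' .am)| ≤ δ₂
      have h2 : Dq.mass X gs' .am ≤ a + δ₂ := h1
      rw [abs_le]
      rcases min_cases a (Dq.mass X gs' .am) with ⟨e, _⟩ | ⟨e, _⟩ <;> rw [e] <;>
        constructor <;> linarith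
  · rw [nls_gran]
    exact add_le_add (min_le_right _ _) (min_le_right _ _)

/-- total length of the children -/
lemma nls_child {X C W : ℝ} (hl : 0 < Real.log X) {ps' ps : List Pq}
    (h : List.Forall₂ (Rl C W) ps' ps) : nls X ps' ≤ nls X ps + ps.length * (C / Real.log X) := by
  induction h with
  | nil => simp [nls]
  | @cons p' p gs' gs h1 _ ih =>
    rw [nls_cons, nls_cons, List.length_cons]
    push_cast
    have h2 := nl_child hl h1
    linarith

lemma nls_nonneg {X : ℝ} (hl : 0 < Real.log X) {ps : List Pq} (h : ∀ p ∈ ps, 0 ≤ p.z) :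
    0 ≤ nls X ps := by
  unfold nls
  refine List.sum_nonneg fun x hx => ?_
  obtain ⟨p, hp, rfl⟩ := List.mem_map.1 hx
  exact nl_nonneg hl (h p hp)

lemma nl_le_nls {X : ℝ} (hl : 0 < Real.log X) {ps : List Pq} (h : ∀ p ∈ ps, 0 ≤ p.z) :
    ∀ p ∈ ps, Dq.nl X p ≤ nls X ps := by
  intro p hp
  unfold nls
  refine List.single_le_sum ?_ _ (List.mem_map.2 ⟨p, hp, rfl⟩)
  intro x hx
  obtain ⟨p, hp, rfl⟩ := List.mem_map.1 hx
  exact nl_nonneg hl (h p hp)

lemma tl_nls {X : ℝ} (hX : 1 < X) (ps : List Pq) : tl Dq ps = nls X ps * Real.log X :=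
  XHB411.tl_eq hX ps

lemma exp_mul_log {X : ℝ} (hX : 0 < X) (y : ℝ) : Real.exp (y * Real.log X) = X ^ y := by
  rw [Real.rpow_def_of_pos hX, mul_comm]

/-- the sizes of the children -/
lemma good_child {X C W η δ' B B' b : ℝ} (hX : 1 < X) (hC : 0 ≤ C) {ps ps' : List Pq}
    (hg : Dq.Good X η B ps) (h : List.Forall₂ (Rl C W) ps' ps) (hW : W ≤ X ^ η)
    (hη : 2 * η ≤ δ') (hb : nls X ps ≤ b) (hB : C * X ^ (B + b) ≤ X ^ B') :
    Dq.Good X δ' B' ps' := by
  have hX0 : 0 < X := by linarith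
  have hl : 0 < Real.log X := Real.log_pos hX
  intro p' hp'
  obtain ⟨i, hi, rfl⟩ := List.mem_iff_getElem.1 hp'
  have h1 := (List.forall₂_iff_get.1 h)
  have h2 := h1.2 i hi (h1.1 ▸ hi)
  simp only [List.get_eq_getElem] at h2
  have hi2 : i < ps.length := h1.1 ▸ hi
  set p := ps[i] with hp
  have hpm : p ∈ ps := List.getElem_mem _
  obtain ⟨g1, g2, g3⟩ := hg p hpm
  have hz : ∀ q ∈ ps, 0 ≤ q.z := fun q hq => (hg q hq).2.2
  refine ⟨?_, ?_, h2.z0⟩
  · rw [Dq_s1] at g1 ⊢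
    calc 1 + |(ps'[i]).t| ≤ W * (1 + |p.t|) := h2.ht
      _ ≤ X ^ η * X ^ η := by
          have : 0 ≤ 1 + |p.t| := by positivity
          gcongr
      _ = X ^ (2 * η) := by rw [← Real.rpow_add hX0]; congr 1; ring
      _ ≤ X ^ δ' := Real.rpow_le_rpow_of_exponent_le hX.le hη
  · rw [Dq_s2] at g2 ⊢
    have h3 : Real.exp p.z ≤ X ^ b := by
      have h4 : p.z = Dq.nl X p * Real.log X := by
        unfold Pcs.nl
        rw [Dq_len]
        field_simp
      rw [h4, exp_mul_log hX0]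
      exact Real.rpow_le_rpow_of_exponent_le hX.le ((nl_le_nls hl hz p hpm).trans hb)
    calc (nm (ps'[i]).d : ℝ) ≤ C * nm p.d * Real.exp p.z := h2.dd
      _ ≤ C * X ^ B * X ^ b := by
          have := Real.exp_pos p.z
          gcongr
      _ = C * X ^ (B + b) := by rw [Real.rpow_add hX0]; ring
      _ ≤ X ^ B' := hB

lemma EHB_le {l L : ℝ} (hl : 0 ≤ l) (hL : 0 ≤ L) : EHB l L ≤ 2 * (l + L) := by
  unfold XHB411.EHB
  refine max_le (by linarith) (max_le (by linarith) (by linarith))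

/-- the trivial bound for the complete family -/
lemma triv_RFp {h : ℝ → ℝ} {c : ℝ} (hpu : PU h c) (n : ℕ) : ∃ C : ℝ, 1 ≤ C ∧
    ∀ P : DPar, P.OK → ∀ (l : ℝ) (ps : List Pq), ps.length ≤ n → (∀ p ∈ ps, 0 ≤ p.z) →
      RFp P h l ps ≤ C * Real.exp (3 * (max l 0 + tl Dq ps)) := by
  classical
  obtain ⟨C, hC, hb⟩ := hbL_C hpu n one_pos
  refine ⟨C, hC, fun P hP l ps hlen hz => ?_⟩
  rcases lt_or_ge l 0 with hl | hl
  · unfold RFp RQ
    rw [bl_neg hl, Finset.filter_empty, Finset.sum_empty]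
    positivity
  have h2 := hb l (ps.map (Pq.pc P)) hl (by rw [List.length_map]; exact hlen) (ok_map hP ps)
    (one_le_map hz)
  rw [LL_pc] at h2
  have htl : 0 ≤ tl Dq ps := by
    unfold XHB411.tl
    refine List.sum_nonneg fun x hx => ?_
    obtain ⟨p, hp, rfl⟩ := List.mem_map.1 hx
    exact hz p hp
  have h3 : RFp P h l ps ≤ C * Real.exp (1 * (l + tl Dq ps)) * Real.exp (EHB l (tl Dq ps)) := by
    refine le_trans ?_ h2
    unfold RFp
    rw [RQ_eq (bump_of_cs hpu.cs) l (ok_map hP ps), alL0_eq]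
    exact Finset.sum_le_sum_of_subset_of_nonneg (Finset.filter_subset _ _)
      fun _ _ _ => by positivity
  refine h3.trans ?_
  rw [mul_assoc, ← Real.exp_add, max_eq_left hl]
  have := EHB_le hl htl
  gcongr
  linarith

end Crest.Agent.R017.XRG106
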