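import Crest.Agent.R017.XPR_699
import Crest.Agent.R017.XRG3_106
import Crest.Agent.R017.XHE_411

/-!
# Row 17, exceptional class: the raw rules in BG form (helper241), part 1

* `ruleBGx` : 699's `ruleBG` with the bound `s2 ≤ X ^ Bs` in the analytic rule
* `bg_idt`, `triv_RN`, `triv_SI` : the ideal term and trivial bounds
-/

set_option autoImplicit false

noncomputable section

open Set Filter Topology

namespace Crest.Agent.R017.XPX241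

open Crest.Agent.R017.XG702 (Pcs BG)
open Crest.Agent.R017.Prov71
open Crest.Agent.R017.XF71 (const_le_rpow)
open Crest.Agent.R017.XP699

variable {Lam Pc : Type*} {D : Pcs Pc Kd} {cost : Pc → Pc → ℝ}

set_option maxHeartbeats 2000000 in
/-- **Transfer of analytic shortening rules**, with a bound for `s2` in the hypothesis -/
theorem ruleBGx {Ψ Φ : Lam → ℝ → List Pc → ℝ} (hcost : ∀ p' p, 1 ≤ cost p' p)
    (hs1 : ∀ p, 1 ≤ D.s1 p)
    {cF : Fin 4 → ℝ} {Gs : Finset (Fin 4 → ℝ)} {cL : ℝ} (hcL : 0 ≤ cL)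
    (hGs : ∀ k n l n' s : ℝ, 0 ≤ k → 0 ≤ n → 0 ≤ l → 0 ≤ n' → 0 ≤ s →
      (∀ c ∈ Gs, lf c k n l n' ≤ s) → l ≤ cL * (k + n + s))
    (hmono : ∀ lam l l' ps, l ≤ l' → Ψ lam l ps ≤ Ψ lam l' ps)
    (hrule : ∀ (lam : Lam) (N : ℕ) (Bs : ℝ), 0 ≤ Bs → ∃ B₀ : ℝ, 0 ≤ B₀ ∧ ∀ (ε M : ℝ), 0 < ε → 0 ≤ M →
      ∃ C r J : ℝ, 0 ≤ C ∧ 0 ≤ r ∧ 0 ≤ J ∧
      ∀ X : ℝ, 3 ≤ X → ∀ (k : ℝ) (ps : List Pc), 0 ≤ k → k ≤ Real.log X → ps.length ≤ N →
      (∀ p ∈ ps, 0 ≤ D.len p ∧ D.len p ≤ Real.log X) → (∀ p ∈ ps, D.s2 p ≤ X ^ Bs) →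
      ∀ Dd : ℝ, 1 ≤ Dd → (∀ p ∈ ps, ¬ D.lump p → Real.exp (D.len p) ≤ Dd) →
      ∀ Bd : ℝ, 0 ≤ Bd →
      (∀ (l : ℝ) (ps' : List Pc), 0 ≤ l → List.Forall₂ (Chd D cost r (C * X ^ B₀)) ps' ps →
        (∀ c ∈ Gs, lf c k (LL D ps) l (LL D ps') ≤ r + ε * Real.log X) →
        Φ lam l ps' ≤ Bd * cst cost ps' ps ^ M * Real.exp (lf cF k (LL D ps) l (LL D ps'))) →
      Ψ lam k ps ≤ C * X ^ ε * (ps.map D.s1).prod ^ J * Dd ^ 2 * (Real.exp (k + LL D ps) + Bd))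
    (triv : ∀ (lam : Lam) (N : ℕ), ∃ C T : ℝ, 0 ≤ C ∧ 0 ≤ T ∧ ∀ (l : ℝ) (ps : List Pc), 0 ≤ l →
      ps.length ≤ N → (∀ p ∈ ps, 0 ≤ D.len p) → Φ lam l ps ≤ C * Real.exp (T * (l + LL D ps)))
    {κ : ℝ} {u : List ℝ} {m a E : ℝ} (hκ : 0 ≤ κ) (hu : Okl u m a)
    (hE : κ + (u.sum + m + a) ≤ E)
    (hch : ∀ (u' : List ℝ) (m' a' l : ℝ), Shl u' u → 0 ≤ m' → m' ≤ m → 0 ≤ a' → a' ≤ a → 0 ≤ l →
      (∀ c ∈ Gs, lf c κ (u.sum + m + a) l (u'.sum + m' + a') ≤ 0) →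
      BG D Φ l u' (wt m' a') (E + lf cF κ (u.sum + m + a) l (u'.sum + m' + a'))) :
    BG D Ψ κ u (wt m a) E := by
  intro ε hε
  obtain ⟨hu0, hm, ha⟩ := hu
  set n := u.length with hn
  set n₀ : ℝ := u.sum + m + a with hn₀
  have husum : 0 ≤ u.sum := List.sum_nonneg hu0
  have hn₀0 : 0 ≤ n₀ := by rw [hn₀]; linarith
  obtain ⟨c₀, hc₀⟩ : ∃ x : ℝ, x = κ + n₀ + 3 := ⟨_, rfl⟩
  have hc₀3 : 3 ≤ c₀ := by rw [hc₀]; linarith
  obtain ⟨Bx, hBx⟩ : ∃ x : ℝ, x = (c₀ + 1) + cL * (c₀ + c₀ + 1) := ⟨_, rfl⟩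
  have hBx0 : 0 ≤ Bx := by rw [hBx]; positivity
  -- the compact set
  set p : Unit ⊕ Fin n ⊕ Kd → ℝ := vec κ u.get (wt m a) with hp
  have hsp : smv p = n₀ := by
    rw [hp, smv_vec, hn₀]
    have : ∑ i, u.get i = u.sum := by
      conv_rhs => rw [← List.ofFn_get u]
      rw [List.sum_ofFn]
    rw [this]
    show u.sum + (m + a) = _
    ring
  set Dm : Set (Unit ⊕ Fin n ⊕ Kd → ℝ) := Set.Icc 0 (fun _ => Bx) with hDm
  have hDc : IsCompact Dm := isCompact_Icc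
  set K : Set (Unit ⊕ Fin n ⊕ Kd → ℝ) := {p' | p' ∈ Dm ∧ fcon n Gs (p, p') ≤ 0} with hK
  have hKc : IsCompact K := hDc.inter_right
    (isClosed_le ((continuous_fcon n Gs).comp (Continuous.prodMk_right p)) continuous_const)
  set T : ℝ × (Fin n → ℝ) × (Kd → ℝ) → ℝ :=
    fun x => E + lf cF κ n₀ x.1 ((∑ i, x.2.1 i) + (x.2.2 .mo + x.2.2 .am)) with hT
  have hTc : Continuous T := by
    rw [hT]; unfold lf; fun_prop
  have hBGs : ∀ x ∈ toX '' K, BG D Φ x.1 (List.ofFn x.2.1) x.2.2 (T x) := by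
    rintro _ ⟨q, ⟨hq1, hq2⟩, rfl⟩
    obtain ⟨h1, h2⟩ := fcon_le_zero hq2
    have hq0 : ∀ i, 0 ≤ q i := fun i => hq1.1 i
    have hwt : (toX q).2.2 = wt (q (Sum.inr (Sum.inr .mo))) (q (Sum.inr (Sum.inr .am))) := by
      funext t; cases t <;> rfl
    have hsum : (List.ofFn (toX q).2.1).sum + q (Sum.inr (Sum.inr .mo)) +
        q (Sum.inr (Sum.inr .am)) = smv q := by
      rw [smv_eq, List.sum_ofFn]
      show _ = _ + (q (Sum.inr (Sum.inr .mo)) + q (Sum.inr (Sum.inr .am)))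
      ring
    have h3 := hch (List.ofFn (toX q).2.1) (q (Sum.inr (Sum.inr .mo)))
      (q (Sum.inr (Sum.inr .am))) (q (Sum.inl ())) (shl_ofFn' (fun i => hq0 _) (fun i => h2 _))
      (hq0 _) (h2 (Sum.inr .mo)) (hq0 _) (h2 (Sum.inr .am)) (hq0 _) (by
        intro c hc
        rw [hsum]
        have := h1 c hc
        rw [hsp] at this
        exact this)
    rw [hsum] at h3
    rw [hwt]
    have e : T (toX q) = E + lf cF κ n₀ (q (Sum.inl ())) (smv q) := by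
      rw [hT, smv_eq]; rfl
    rw [e]
    exact h3
  -- compactness
  obtain ⟨δ₁, hδ₁, hun⟩ := XG702.unifG (hKc.image continuous_toX) hTc.continuousOn hBGs
    (ε := ε / 8) (by linarith)
  have hlfn := lfn_nonneg cF
  have hn2 : (0 : ℝ) ≤ n := Nat.cast_nonneg n
  obtain ⟨δ₂, hδ₂⟩ : ∃ x : ℝ, x = min δ₁ (ε / (8 * (lfn cF + 1) * (n + 3))) := ⟨_, rfl⟩
  have hδ₂0 : 0 < δ₂ := hδ₂ ▸ lt_min hδ₁ (by positivity)
  have hδ₂1 : δ₂ ≤ δ₁ := hδ₂ ▸ min_le_left _ _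
  have hδ₂2 : δ₂ ≤ ε / (8 * (lfn cF + 1) * (n + 3)) := hδ₂ ▸ min_le_right _ _
  have hδ₂3 : lfn cF * ((n + 3) * δ₂) ≤ ε / 8 := by
    rw [le_div_iff₀ (by positivity)] at hδ₂2
    have : 0 ≤ (n + 3) * δ₂ := by positivity
    nlinarith
  have hδ₂4 : (n + 3) * δ₂ ≤ ε / 8 := by
    rw [le_div_iff₀ (by positivity)] at hδ₂2
    have : 0 ≤ (n + 3) * δ₂ * lfn cF := by positivity
    nlinarith
  obtain ⟨s, hs, hnear⟩ := XT71.near hDc (continuous_fcon n Gs) p hδ₂0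
  obtain ⟨cG, hcG⟩ : ∃ x : ℝ, x = (Gs.card : ℝ) + 1 := ⟨_, rfl⟩
  have hcG1 : 1 ≤ cG := by rw [hcG]; linarith [Nat.cast_nonneg (α := ℝ) Gs.card]
  -- the slack
  obtain ⟨σ, hσ⟩ : ∃ x : ℝ, x = min (min (s / (4 * cG)) (s / (4 * (n + 2))))
    (min (δ₂ / 2) (min (1 / (n + 3)) (ε / 32))) := ⟨_, rfl⟩
  have hσ0 : 0 < σ := hσ ▸ lt_min (lt_min (by positivity) (by positivity))
    (lt_min (by positivity) (lt_min (by positivity) (by positivity)))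
  have hσε : σ ≤ ε / 32 := hσ ▸ (min_le_right _ _).trans ((min_le_right _ _).trans
    (min_le_right _ _))
  have hσ1 : cG * σ ≤ s / 4 := by
    have h1 : σ ≤ s / (4 * cG) := hσ ▸ (min_le_left _ _).trans (min_le_left _ _)
    rw [le_div_iff₀ (by positivity)] at h1
    linarith
  have hσ2 : (n + 2) * σ ≤ s / 4 := by
    have h1 : σ ≤ s / (4 * (n + 2)) := hσ ▸ (min_le_left _ _).trans (min_le_right _ _)
    rw [le_div_iff₀ (by positivity)] at h1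
    linarith
  have hσ3 : σ ≤ δ₂ / 2 := hσ ▸ (min_le_right _ _).trans (min_le_left _ _)
  have hσ4 : (n + 3) * σ ≤ 1 := by
    have h1 : σ ≤ 1 / (n + 3) := hσ ▸ (min_le_right _ _).trans ((min_le_right _ _).trans
      (min_le_left _ _))
    rw [le_div_iff₀ (by positivity)] at h1
    linarith
  have hσ5 : σ ≤ 1 := by nlinarith
  have hσs : σ ≤ s := by nlinarith
  refine ⟨σ, hσ0, fun lam N B => ?_⟩
  obtain ⟨B₀, hB₀, hr1⟩ := hrule lam (n + N) |B| (abs_nonneg B)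
  obtain ⟨ρ', hρ', X₁, hX₁, hun2⟩ := hun lam N (B + c₀ * B₀ + 1)
  obtain ⟨Ct, T', hCt, hT', htriv⟩ := triv lam (n + N)
  obtain ⟨cB, hcB⟩ : ∃ x : ℝ, x = lfn cF * ((n + 3) * Bx + c₀) := ⟨_, rfl⟩
  have hcB0 : 0 ≤ cB := by rw [hcB]; positivity
  obtain ⟨M, hM⟩ : ∃ x : ℝ, x = 2 * (T' * ((n + 3) * Bx) + |E| + cB + 1) / ρ' := ⟨_, rfl⟩
  have hM0 : 0 ≤ M := by rw [hM]; positivity
  obtain ⟨εr, hεr⟩ : ∃ x : ℝ, x = min (σ / (2 * c₀)) (ε / (8 * c₀)) := ⟨_, rfl⟩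
  have hεr0 : 0 < εr := hεr ▸ lt_min (by positivity) (by positivity)
  have hεr1 : εr * c₀ ≤ σ / 2 := by
    have h1 : εr ≤ σ / (2 * c₀) := hεr ▸ min_le_left _ _
    rw [le_div_iff₀ (by positivity)] at h1
    linarith
  have hεr2 : c₀ * εr ≤ ε / 8 := by
    have h1 : εr ≤ ε / (8 * c₀) := hεr ▸ min_le_right _ _
    rw [le_div_iff₀ (by positivity)] at h1
    linarith
  obtain ⟨C, r, J, hC, hr, hJ, hR⟩ := hr1 εr M hεr0 hM0
  have hNn : (0 : ℝ) ≤ ((n + N : ℕ) : ℝ) := Nat.cast_nonneg _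
  obtain ⟨δ', hδ'⟩ : ∃ x : ℝ, x = min (ρ' / 2) (ε / (8 * (J + 1) * (((n + N : ℕ) : ℝ) + 1))) :=
    ⟨_, rfl⟩
  have hδ'0 : 0 < δ' := hδ' ▸ lt_min (by positivity) (by positivity)
  have hδ'1 : δ' ≤ ρ' / 2 := hδ' ▸ min_le_left _ _
  have hδ'2 : ((n + N : ℕ) : ℝ) * δ' * J ≤ ε / 8 := by
    have h1 : δ' ≤ ε / (8 * (J + 1) * (((n + N : ℕ) : ℝ) + 1)) := hδ' ▸ min_le_right _ _
    rw [le_div_iff₀ (by positivity)] at h1
    have h2 : ((n + N : ℕ) : ℝ) * J ≤ (J + 1) * (((n + N : ℕ) : ℝ) + 1) := by nlinarith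
    have h3 := mul_le_mul_of_nonneg_left h2 hδ'0.le
    nlinarith
  obtain ⟨X₂, hX₂, hC2⟩ := const_le_rpow (C := 2 * C) (ε := ε / 16) (by linarith)
  obtain ⟨X₃, hX₃, hC3⟩ := const_le_rpow (C := Ct) (ε := 1) one_pos
  obtain ⟨X₄, hX₄⟩ : ∃ x : ℝ, x = Real.exp (2 * (N + 1) * r / σ) := ⟨_, rfl⟩
  refine ⟨δ', hδ'0, max (max X₁ X₂) (max X₃ (max X₄ (max 3 C))), ?_, ?_⟩
  · exact lt_of_lt_of_le hX₁ ((le_max_left _ _).trans (le_max_left _ _))
  intro X hX k us gs hk hnr hgran hgood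
  have x1 : X₁ ≤ X := ((le_max_left _ _).trans (le_max_left _ _)).trans hX
  have x2 : X₂ ≤ X := ((le_max_right _ _).trans (le_max_left _ _)).trans hX
  have x3 : X₃ ≤ X := ((le_max_left _ _).trans (le_max_right _ _)).trans hX
  have x4 : X₄ ≤ X :=
    ((le_max_left _ _).trans ((le_max_right _ _).trans (le_max_right _ _))).trans hX
  have x56 : max 3 C ≤ X :=
    ((le_max_right _ _).trans ((le_max_right _ _).trans (le_max_right _ _))).trans hX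
  have x5 : 3 ≤ X := (le_max_left _ _).trans x56
  have x6 : C ≤ X := (le_max_right _ _).trans x56
  have hX1 : (1 : ℝ) < X := by linarith
  have hX0 : (0 : ℝ) < X := by linarith
  have hlog : 0 < Real.log X := Real.log_pos hX1
  have hrlog : (N + 1) * (r / Real.log X) ≤ σ / 2 := by
    have h1 : 2 * (N + 1) * r / σ ≤ Real.log X := by
      rw [Real.le_log_iff_exp_le hX0, ← hX₄]; exact x4
    rw [div_le_iff₀ hσ0] at h1
    rw [← mul_div_assoc, div_le_iff₀ hlog]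
    linarith
  -- the parent
  have hlenus : us.length = n := by
    have := List.Forall₂.length_eq hnr
    rw [this]
  obtain ⟨f, rfl⟩ := exists_eq_ofFn us hlenus
  have hnr' : D.Near X σ (List.ofFn f) (List.ofFn u.get) := by rwa [List.ofFn_get]
  unfold Pcs.Near at hnr'
  rw [forall₂_ofFn_iff] at hnr'
  obtain ⟨k₁, hk₁⟩ : ∃ x : ℝ, x = max k 0 * Real.log X := ⟨_, rfl⟩
  have hk₁0 : 0 ≤ k₁ := by rw [hk₁]; exact mul_nonneg (le_max_right _ _) hlog.le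
  have hkk : k * Real.log X ≤ k₁ := by
    rw [hk₁]; exact mul_le_mul_of_nonneg_right (le_max_left _ _) hlog.le
  have hk₁l : k₁ / Real.log X = max k 0 := by rw [hk₁, mul_div_cancel_right₀ _ hlog.ne']
  have hmaxk : |max k 0 - κ| ≤ σ := by
    rw [abs_le] at hk ⊢
    constructor
    · linarith [hk.1, le_max_left k 0]
    · have := max_le (show k ≤ κ + σ by linarith [hk.2]) (show 0 ≤ κ + σ by linarith)
      linarith
  have hq : ∀ i, |evv D X k₁ f gs i - p i| ≤ σ := by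
    rintro (⟨⟩ | i | t)
    · show |k₁ / Real.log X - κ| ≤ σ
      rw [hk₁l]; exact hmaxk
    · exact (hnr' i).2
    · exact hgran.2.2 t
  have hg1 : ∀ q ∈ List.ofFn f ++ gs, 0 ≤ D.len q := fun q hq => (hgood q hq).2.2
  have hf0 : ∀ i, 0 ≤ D.len (f i) := fun i =>
    hg1 (f i) (List.mem_append_left _ ((List.mem_ofFn' _ _).2 ⟨i, rfl⟩))
  have hg0 : ∀ g ∈ gs, 0 ≤ D.len g := fun g hg => hg1 g (List.mem_append_right _ hg)
  have hsm : |smv (evv D X k₁ f gs) - n₀| ≤ (n + 2) * σ := by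
    have h3 := abs_smv_sub (q := evv D X k₁ f gs) (q' := p) hq
    rwa [hsp] at h3
  have hsm1 := (abs_le.1 hsm).2
  have hLL : LL D (List.ofFn f ++ gs) / Real.log X ≤ n₀ + (n + 2) * σ := by
    rw [← smv_evv]; linarith
  have hLLi : ∀ q ∈ List.ofFn f ++ gs, D.len q ≤ LL D (List.ofFn f ++ gs) := by
    intro q hq
    unfold LL
    exact List.single_le_sum (fun x hx => by
      obtain ⟨y, hy, rfl⟩ := List.mem_map.1 hx
      exact hg1 y hy) _ (List.mem_map.2 ⟨q, hq, rfl⟩)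
  have hlogc : Real.log (X ^ c₀) = c₀ * Real.log X := Real.log_rpow hX0 _
  have hLLc : LL D (List.ofFn f ++ gs) ≤ c₀ * Real.log X := by
    rw [div_le_iff₀ hlog] at hLL
    refine hLL.trans (mul_le_mul_of_nonneg_right ?_ hlog.le)
    rw [hc₀]
    linarith
  have hcnt : (List.ofFn f ++ gs).length ≤ n + N := by
    rw [List.length_append, List.length_ofFn]
    exact Nat.add_le_add_left hgran.1 n
  have hfinal := hR (X ^ c₀) (by
      calc (3 : ℝ) ≤ X := x5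
        _ = X ^ (1 : ℝ) := (Real.rpow_one X).symm
        _ ≤ X ^ c₀ := Real.rpow_le_rpow_of_exponent_le hX1.le (by linarith)) k₁
    (List.ofFn f ++ gs) hk₁0 (by
      rw [hlogc, hk₁]
      refine mul_le_mul_of_nonneg_right ?_ hlog.le
      rw [hc₀]
      linarith [(abs_le.1 hmaxk).2]) hcnt (fun q hq => ⟨hg1 q hq, by
        rw [hlogc]; exact (hLLi q hq).trans hLLc⟩) (fun q hq => by
        refine (hgood q hq).2.1.trans ?_
        rw [← Real.rpow_mul hX0.le]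
        refine Real.rpow_le_rpow_of_exponent_le hX1.le ?_
        have h1 := le_abs_self B
        have h2 : 1 * |B| ≤ c₀ * |B| :=
          mul_le_mul_of_nonneg_right (by linarith) (abs_nonneg B)
        linarith) (X ^ σ) (Real.one_le_rpow hX1.le hσ0.le) (fun q hq hnl => by
        rcases List.mem_append.1 hq with h | h
        · obtain ⟨i, rfl⟩ := (List.mem_ofFn' _ _).1 h
          exact absurd (hnr' i).1 hnl
        · have h1 := hgran.2.1 q h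
          unfold Pcs.nl at h1
          rw [div_le_iff₀ hlog] at h1
          rw [Real.rpow_def_of_pos hX0, mul_comm]
          exact Real.exp_le_exp.2 h1) (X ^ (E + ε / 2))
    (Real.rpow_nonneg hX0.le _) (fun l ps' hl hps' hG =>
      child_bound (N := N) (E := E) (ε := ε) (κ := κ) (n₀ := n₀) (c₀ := c₀) (cL := cL) (cB := cB)
        (Bx := Bx) (δ₁ := δ₁) (δ₂ := δ₂) (s := s) (σ := σ) (ρ' := ρ') (δ' := δ') (B := B)
        (B₀ := B₀) (Cb := C) (Ct := Ct) (T' := T') (M := M) (Gs := Gs) (p := p) hcost hs1 hcL hGs hX1 hlog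
        hε rfl hsp (by rw [hc₀]) hκ hn₀0 (by rw [hBx]) hnear
        (fun k us gs x hx h1 h2 h3 h4 => hun2 X x1 k us gs x hx h1 h2 h3 h4) hδ₂0 hδ₂1 hδ₂3 hσ0
        (by have : (Gs.card : ℝ) ≤ cG := by rw [hcG]; linarith
            exact (mul_le_mul_of_nonneg_right this hσ0.le).trans hσ1) hσ2 hσ3 hσ4 hσ5 hσs hcB hM
        hM0 hρ' hT' hr hεr1 hδ'1 hrlog (hC3 X x3) hCt htriv hk₁0 hq (fun i => (hnr' i).1) hgran.1
        hgran.2.1 hgood hl hC x6 hps' hG)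
  refine (hmono lam _ _ _ hkk).trans ?_
  have hσσ : (X ^ σ) ^ 2 ≤ X ^ (ε / 16) := by
    rw [← Real.rpow_natCast, ← Real.rpow_mul hX0.le]
    refine Real.rpow_le_rpow_of_exponent_le hX1.le ?_
    push_cast
    linarith
  have hC2' : 2 * (C * (X ^ σ) ^ 2) ≤ X ^ (ε / 8) := by
    have h1 := hC2 X x2
    calc 2 * (C * (X ^ σ) ^ 2) = (2 * C) * (X ^ σ) ^ 2 := by ring
      _ ≤ X ^ (ε / 16) * X ^ (ε / 16) := mul_le_mul h1 hσσ (by positivity)
          (Real.rpow_nonneg hX0.le _)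
      _ = X ^ (ε / 8) := by rw [← Real.rpow_add hX0]; congr 1; ring
  have hfinal' := hfinal.trans (le_of_eq (show _ = C * (X ^ σ) ^ 2 * (X ^ c₀) ^ εr *
    (List.map D.s1 (List.ofFn f ++ gs)).prod ^ J *
    (Real.exp (k₁ + LL D (List.ofFn f ++ gs)) + X ^ (E + ε / 2)) by ring))
  refine final_count (nn := n) (σ := σ) (κ := κ) (n₀ := n₀) hX1 hε
    (show 0 ≤ C * (X ^ σ) ^ 2 by positivity) hJ
    (one_le_prod_s1 hs1 _) hE ?_ hLL ?_ hεr2 hδ'2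
    (prod_s1_le hs1 hX1.le hδ'0.le _ (fun q hq => (hgood q hq).1) hcnt) hC2' hfinal'
  · rw [hk₁l]; linarith [(abs_le.1 hmaxk).2]
  · have h1 : (n + 3) * σ ≤ (n + 3) * δ₂ :=
      mul_le_mul_of_nonneg_left (by linarith) (by positivity)
    linarith

end Crest.Agent.R017.XPX241
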