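import Crest.Agent.R017.XPX2_241

/-!
# Row 17, exceptional class: the raw rules in BG form (helper241), part 3

* `ruleG_at` : (P'_ex) as an analytic rule for `r` pieces
-/

set_option autoImplicit false
set_option maxHeartbeats 8000000

noncomputable section

open Complex
open scoped ComplexConjugate

namespace Crest.Agent.R017.XPX241

open Crest.Agent.R012 Crest.Agent.R012.Eis Crest.Agent.R012.LS2 Crest.Agent.R012.Gauss880
open Crest.Agent.R012.Div277 Crest.Agent.R012.Weight600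
open Crest.Agent.R017.CM106 Crest.Agent.R017.FE47 Crest.Agent.R017.End699
open Crest.Agent.R017.B770
open Crest.Agent.R017.Prov71
open Crest.Agent.R017.HP842 (UT pc KS sqc Kg uv alL al ssub norm_uv_le pc_support sq_nat_pc)
open Crest.Agent.R017.XP699 (Chd cst LL lf)
open Crest.Agent.R017.XHB411 (tl idt bl_neg)
open Crest.Agent.R017.GE241 (VQ VCN KCr VK GE_rule VK_le_VR VQ_mono)
open Crest.Agent.R017.PE241 (CRs VKn HypK)
open Crest.Agent.R017.PX764 (Dk)
open Crest.Agent.R017.TPOk571 (IP FP SD SD_w SD_len SD_ht sd_ok relU)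
open Crest.Agent.R017.XRG106 (tl_ofFn alL_ofFn ip ip_pc chd chd_pc CS_al rep exists_rep CS_eq_zero
  one_add_mul)
open Crest.Agent.R012.T411 (NCube)

lemma lf_G (k n l n' : ℝ) : lf ![-1, 0, 0, 1] k n l n' = -k + n' := by
  unfold XP699.lf
  simp

lemma lf_G1 (k n l n' : ℝ) : lf ![1, -2, 1, 0] k n l n' = k - 2 * n + l := by
  unfold XP699.lf
  simp
  ring

/-- the index of a family of pieces -/
def jx {P : DPar} (hP : P.OK) {r : ℕ} (s : Fin r → Pq) : Fin r → IP := fun i => ip hP (s i)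

lemma SD_jx_w {P : DPar} (hP : P.OK) {r : ℕ} (h : ℝ → ℝ) (μ : ℝ) (s : Fin r → Pq) :
    (SD h μ r).w (jx hP s) = al h (fun i => (s i).pc P) := by
  rw [SD_w]
  congr 1
  funext i
  exact ip_pc hP (s i)

lemma SD_jx_len {P : DPar} (hP : P.OK) {r : ℕ} (h : ℝ → ℝ) (μ : ℝ) (s : Fin r → Pq) :
    (SD h μ r).len (jx hP s) = ∑ i, (s i).z := by
  rw [SD_len]; rfl

lemma SD_jx_ht {P : DPar} (hP : P.OK) {r : ℕ} (h : ℝ → ℝ) (μ : ℝ) (s : Fin r → Pq) :
    (SD h μ r).ht (jx hP s) = 1 := by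
  rw [SD_ht]
  refine Finset.prod_eq_one fun i _ => ?_
  show (1 + |(0 : ℝ)|) ^ μ = 1
  rw [abs_zero, add_zero, Real.one_rpow]

lemma xl_le (S k : ℝ) {Rt : ℝ} (h : 0 ≤ Rt) :
    Real.exp (S + Rt) * (Real.exp (S + Rt) + Real.exp k) ≤
      Real.exp Rt ^ 2 * (Real.exp S * Real.exp S + Real.exp (k + S)) := by
  have h1 : 1 ≤ Real.exp Rt := Real.one_le_exp h
  have e1 : Real.exp (S + Rt) * (Real.exp (S + Rt) + Real.exp k) =
      Real.exp Rt ^ 2 * (Real.exp S * Real.exp S) + Real.exp Rt * Real.exp (k + S) := by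
    rw [Real.exp_add, Real.exp_add k S]; ring
  have h2 : Real.exp Rt * Real.exp (k + S) ≤ Real.exp Rt ^ 2 * Real.exp (k + S) := by
    refine mul_le_mul_of_nonneg_right ?_ (Real.exp_pos _).le
    rw [pow_two]
    exact le_mul_of_one_le_left (by linarith) h1
  rw [e1, mul_add]
  linarith

/-- the cross term, (P'_ex) -/
lemma crossG {r : ℕ} {Bs ε₂ e' X k C4 A4 Rt S Dd S1 Dm cr : ℝ} (hX : 1 ≤ X)
    (hkX : k ≤ Real.log X) (hRt : 0 ≤ Rt) (hC4 : 0 ≤ C4) (hS1 : 0 ≤ S1 ^ A4) (hD0 : 0 ≤ Dm)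
    (hε : 0 < ε₂) (he' : 2 * e' ≤ ε₂) (hS : 0 ≤ S) (hSX : Real.exp S ≤ X ^ (r : ℝ))
    (hD : Dm ≤ X ^ (r * Bs))
    (h1 : cr ≤ C4 * (Real.exp (S + Rt) * Real.exp k * Dm) ^ ε₂ * Dd ^ 2 *
      (Real.exp (S + Rt) ^ e') ^ 2 * S1 ^ A4 *
      (Real.exp (S + Rt) * (Real.exp (S + Rt) + Real.exp k))) :
    cr ≤ (C4 * (Real.exp Rt ^ 2) ^ ε₂ * Real.exp Rt ^ 2) * X ^ ((2 * r + 1 + r * Bs) * ε₂) *
      S1 ^ A4 * Dd ^ 2 * (Real.exp S * Real.exp S + Real.exp (k + S)) := by
  have hXp : 0 < X := by linarith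
  have hLX : Real.exp k ≤ X := by
    rw [← Real.exp_log hXp]
    exact Real.exp_le_exp.2 hkX
  have hE : 1 ≤ Real.exp (S + Rt) := Real.one_le_exp (by linarith)
  have hY : (Real.exp (S + Rt) ^ e') ^ 2 ≤ Real.exp (S + Rt) ^ ε₂ := by
    rw [← Real.rpow_natCast, ← Real.rpow_mul (by linarith)]
    refine Real.rpow_le_rpow_of_exponent_le hE ?_
    push_cast
    linarith
  have hSR : Real.exp (S + Rt) ≤ X ^ (r : ℝ) * Real.exp Rt := by
    rw [Real.exp_add]
    exact mul_le_mul_of_nonneg_right hSX (Real.exp_pos _).le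
  have hXr : 0 ≤ X ^ (r : ℝ) := Real.rpow_nonneg hXp.le _
  have hb0 : 0 ≤ Real.exp (S + Rt) * Real.exp k * Dm := by positivity
  have hb : (Real.exp (S + Rt) * Real.exp k * Dm) ^ ε₂ * (Real.exp (S + Rt) ^ e') ^ 2 ≤
      (Real.exp Rt ^ 2) ^ ε₂ * X ^ ((2 * r + 1 + r * Bs) * ε₂) := by
    have h2 : Real.exp (S + Rt) * Real.exp k * Dm * Real.exp (S + Rt) ≤
        Real.exp Rt ^ 2 * X ^ (2 * (r : ℝ) + 1 + r * Bs) := by
      calc Real.exp (S + Rt) * Real.exp k * Dm * Real.exp (S + Rt)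
          ≤ (X ^ (r : ℝ) * Real.exp Rt) * X * X ^ (r * Bs) * (X ^ (r : ℝ) * Real.exp Rt) := by
            have h3 : 0 ≤ X ^ (r * Bs) := Real.rpow_nonneg hXp.le _
            have h4 : 0 ≤ X ^ (r : ℝ) * Real.exp Rt := mul_nonneg hXr (Real.exp_pos _).le
            exact mul_le_mul (mul_le_mul (mul_le_mul hSR hLX (Real.exp_pos _).le h4) hD hD0
              (mul_nonneg h4 hXp.le)) hSR (Real.exp_pos _).le
              (mul_nonneg (mul_nonneg h4 hXp.le) h3)
        _ = Real.exp Rt ^ 2 * X ^ (2 * (r : ℝ) + 1 + r * Bs) := by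
            have e : (2 * (r : ℝ) + 1 + r * Bs) = r + r + 1 + r * Bs := by ring
            rw [e, Real.rpow_add hXp, Real.rpow_add hXp, Real.rpow_add hXp, Real.rpow_one]
            ring
    calc (Real.exp (S + Rt) * Real.exp k * Dm) ^ ε₂ * (Real.exp (S + Rt) ^ e') ^ 2
        ≤ (Real.exp (S + Rt) * Real.exp k * Dm) ^ ε₂ * Real.exp (S + Rt) ^ ε₂ :=
          mul_le_mul_of_nonneg_left hY (Real.rpow_nonneg hb0 _)
      _ = (Real.exp (S + Rt) * Real.exp k * Dm * Real.exp (S + Rt)) ^ ε₂ :=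
          (Real.mul_rpow hb0 (Real.exp_pos _).le).symm
      _ ≤ (Real.exp Rt ^ 2 * X ^ (2 * (r : ℝ) + 1 + r * Bs)) ^ ε₂ :=
          Real.rpow_le_rpow (by positivity) h2 hε.le
      _ = _ := by
          rw [Real.mul_rpow (by positivity) (Real.rpow_nonneg hXp.le _), ← Real.rpow_mul hXp.le]
  have hXL := xl_le S k hRt
  refine h1.trans ?_
  have h9 : 0 ≤ Real.exp (S + Rt) * (Real.exp (S + Rt) + Real.exp k) := by positivity
  have h10 : 0 ≤ (Real.exp Rt ^ 2) ^ ε₂ * X ^ ((2 * r + 1 + r * Bs) * ε₂) :=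
    mul_nonneg (Real.rpow_nonneg (by positivity) _) (Real.rpow_nonneg hXp.le _)
  have h11 : 0 ≤ C4 * (S1 ^ A4 * Dd ^ 2) := mul_nonneg hC4 (mul_nonneg hS1 (by positivity))
  calc C4 * (Real.exp (S + Rt) * Real.exp k * Dm) ^ ε₂ * Dd ^ 2 *
      (Real.exp (S + Rt) ^ e') ^ 2 * S1 ^ A4 *
      (Real.exp (S + Rt) * (Real.exp (S + Rt) + Real.exp k))
      = (C4 * (S1 ^ A4 * Dd ^ 2)) * ((Real.exp (S + Rt) * Real.exp k * Dm) ^ ε₂ *
        (Real.exp (S + Rt) ^ e') ^ 2) * (Real.exp (S + Rt) * (Real.exp (S + Rt) + Real.exp k)) := by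
        ring
    _ ≤ (C4 * (S1 ^ A4 * Dd ^ 2)) * ((Real.exp Rt ^ 2) ^ ε₂ *
        X ^ ((2 * r + 1 + r * Bs) * ε₂)) *
        (Real.exp Rt ^ 2 * (Real.exp S * Real.exp S + Real.exp (k + S))) :=
        mul_le_mul (mul_le_mul_of_nonneg_left hb h11) hXL h9 (mul_nonneg h11 h10)
    _ = _ := by ring

/-- **(P'_ex), `r` pieces** -/
theorem ruleG_at {h : ℝ → ℝ} {c : ℝ} (hpu : PU h c) {P : DPar} (hP : P.OK) (HC : CrG h P)
    {Z : ℝ → List Pq → Prop} (hZ : ∀ l ps, (∀ p ∈ ps, Dq.lump p → Dq.len p ≤ l) → Z l ps)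
    {Bs : ℝ} (hBs : 0 ≤ Bs) {ε M : ℝ} (hε : 0 < ε) (hM : 0 ≤ M) (r : ℕ) :
    ∃ C ρ J : ℝ, 0 ≤ C ∧ 0 ≤ ρ ∧ 0 ≤ J ∧
      RuleAt (SDk P h) (fun l ps => RN P h l ps + idt Z l ps)
        {![1, -2, 1, 0]} ![-1, 0, 0, 1] r Bs 1 ε M C ρ J := by
  classical
  obtain ⟨R, hR0, hR⟩ := exists_R (cs_cx hpu.cs)
  obtain ⟨T, C1, hC1, hT, hrep⟩ := exists_rep hpu hR
  set μ : ℝ := M / 2 with hμd
  have hμ : 0 ≤ μ := by positivity
  have hΦ := sd_ok hpu hR0 hR hμ r
  set Rt : ℝ := r * (2 * R + 3) with hRt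
  have hr0 : (0 : ℝ) ≤ r := Nat.cast_nonneg r
  have hRt0 : 0 ≤ Rt := by positivity
  have hRRt : r * R ≤ Rt := by rw [hRt]; nlinarith
  set Dn : ℝ := 2 * r + 1 + r * Bs with hDn
  have hrBs : 0 ≤ r * Bs := by positivity
  have hDn1 : 1 ≤ Dn := by rw [hDn]; linarith
  set ε₂ : ℝ := ε / (3 * Dn) with hε₂
  have hε₂0 : 0 < ε₂ := by positivity
  have hDε : 3 * Dn * ε₂ = ε := by rw [hε₂]; field_simp
  obtain ⟨C2, hC2, hG⟩ := GE_rule hΦ (ε := ε₂) (ε' := min (ε₂ / 40) (1 / 40)) hε₂0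
    (lt_min (by positivity) (by norm_num)) (min_le_left _ _) (min_le_right _ _)
  obtain ⟨C3, hC3, hS⟩ := sq_nat_pc r hR0 hε₂0
  obtain ⟨C4, A4, hC4, hA4, hK⟩ := HC r ε₂ Rt hε₂0 hRt0
  have hE1 : 1 ≤ Real.exp Rt := Real.one_le_exp hRt0
  set Kr : ℝ := (C1 ^ 2) ^ r * Real.exp (r * (R + C1)) with hKr
  have hKr1 : 1 ≤ Kr := by
    refine one_le_mul_of_one_le_of_one_le (one_le_pow₀ (one_le_pow₀ hC1)) ?_
    exact Real.one_le_exp (by positivity)
  set Kc : ℝ := C3 * C2 ^ ε₂ * Real.exp Rt ^ ε₂ * Kr with hKc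
  have hKc1 : 1 ≤ Kc := by
    refine one_le_mul_of_one_le_of_one_le (one_le_mul_of_one_le_of_one_le
      (one_le_mul_of_one_le_of_one_le hC3 (Real.one_le_rpow hC2 hε₂0.le))
      (Real.one_le_rpow hE1 hε₂0.le)) hKr1
  set K4 : ℝ := C4 * (Real.exp Rt ^ 2) ^ ε₂ * Real.exp Rt ^ 2 with hK4
  have hK40 : 0 ≤ K4 := by positivity
  set C : ℝ := Real.exp 1 * C2 * (2 + Kc + 2 * K4) + Real.exp Rt + C1 with hCdef
  have he1 : 1 ≤ Real.exp 1 := Real.one_le_exp zero_le_one
  have hCa : 0 ≤ Real.exp 1 * C2 * (2 + Kc + 2 * K4) := by positivity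
  have hC0 : 0 ≤ C := by rw [hCdef]; positivity
  have hCe : Real.exp Rt ≤ C := by rw [hCdef]; linarith
  have hCC1 : C1 ≤ C := by rw [hCdef]; linarith
  set ρ : ℝ := Real.log C2 + Rt + C1 with hρ
  have hlC2 : 0 ≤ Real.log C2 := Real.log_nonneg hC2
  have hρ0 : 0 ≤ ρ := by rw [hρ]; linarith
  refine ⟨C, ρ, A4, hC0, hρ0, hA4, ?_⟩
  intro X hX k s hk hkX hs hd Dd hDd hDl Bd hBd hyp
  have hXp : 0 < X := by linarith
  have hX1 : 1 ≤ X := by linarith
  have hl : 0 < Real.log X := Real.log_pos (by linarith)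
  have hC1' : 1 ≤ C := by linarith
  -- lengths
  set S : ℝ := ∑ i, (s i).z with hSdef
  have hSL : LL Dq (List.ofFn s) = S := LL_ofFn s
  have hSt : tl Dq (List.ofFn s) = S := tl_ofFn s
  have hs0 : ∀ i, 0 ≤ (s i).z := fun i => (hs i).1
  have hS0 : 0 ≤ S := Finset.sum_nonneg fun i _ => hs0 i
  have hzS : ∀ i, (s i).z ≤ S := fun i =>
    Finset.single_le_sum (f := fun i => (s i).z) (fun i _ => hs0 i) (Finset.mem_univ i)
  have hSr : S ≤ r * Real.log X := by
    calc S ≤ ∑ _i : Fin r, Real.log X := Finset.sum_le_sum fun i _ => (hs i).2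
      _ = _ := by rw [Finset.sum_const, Finset.card_univ, Fintype.card_fin, nsmul_eq_mul]
  rw [hSL] at hyp ⊢
  -- the diagonal term
  have hdiag : Real.exp S * Real.exp S ≤ Real.exp (k + S) + Bd := by
    rw [← Real.exp_add]
    by_cases hz : 0 ≤ 2 * S - k ∧ ∀ p ∈ List.ofFn s, Dq.lump p → Dq.len p ≤ 2 * S - k
    · have h1 := hyp (2 * S - k) s hz.1 (fun i => chd_mk rfl (fun h => h) (hs0 i) (by linarith) (by
          have h2 : (0 : ℝ) ≤ nm (s i).d := Nat.cast_nonneg _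
          rw [Real.rpow_one]
          exact le_mul_of_one_le_right h2 (one_le_mul_of_one_le_of_one_le hC1' hX1))) (by
          intro c hc
          rw [Finset.mem_singleton] at hc
          rw [hc, lf_G1]
          have : 0 ≤ ε * Real.log X := by positivity
          linarith)
      have h2 : cst cq (List.ofFn s) (List.ofFn s) = 1 := by
        rw [cst_ofFn]
        exact Finset.prod_eq_one fun i _ => cq_self _
      rw [h2, Real.one_rpow, mul_one, lf_G, hSL] at h1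
      have h3 : idt Z (2 * S - k) (List.ofFn s) = Real.exp (2 * S - k + S) := by
        unfold XHB411.idt
        rw [if_pos ⟨hz.1, hZ _ _ hz.2⟩, hSt]
      have h4 := RN_nonneg P h (2 * S - k) (List.ofFn s)
      have h5 : Real.exp (2 * S - k + S) ≤ Bd * Real.exp (-k + S) := by
        rw [← h3]; linarith
      have h6 : Real.exp (2 * S - k + S) = Real.exp (S + S) * Real.exp (-k + S) := by
        rw [← Real.exp_add]; congr 1; ring
      rw [h6] at h5
      have h7 := le_of_mul_le_mul_right h5 (Real.exp_pos _)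
      have h8 := Real.exp_pos (k + S)
      linarith
    · have h1 : S + S ≤ k + S := by
        by_contra h2
        push Not at h2
        apply hz
        refine ⟨by linarith, fun p hp _ => ?_⟩
        obtain ⟨i, rfl⟩ := (List.mem_ofFn' _ _).1 hp
        have := hzS i
        rw [Dq_len]
        linarith
      have h2 := Real.exp_le_exp.2 h1
      linarith
  -- parameters
  set X0 : ℝ := X ^ ((r : ℝ) + 1) with hX0
  have hX01 : 1 ≤ X0 := Real.one_le_rpow hX1 (by positivity)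
  have hX0p : 0 < X0 := by linarith
  have hX0e : ∀ y : ℝ, X0 ^ y = X ^ (((r : ℝ) + 1) * y) := fun y => by
    rw [hX0, ← Real.rpow_mul hXp.le]
  set L : ℝ := Real.exp k with hLdef
  have hL1 : 1 ≤ L := Real.one_le_exp hk
  have hL0 : 0 < L := by linarith
  have hLX : L ≤ X := by
    rw [hLdef, ← Real.exp_log hXp]
    exact Real.exp_le_exp.2 hkX
  have hXX0 : X ≤ X0 := by
    calc X = X ^ (1 : ℝ) := (Real.rpow_one X).symm
      _ ≤ X0 := Real.rpow_le_rpow_of_exponent_le hX1 (by linarith)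
  have hSX : Real.exp S ≤ X ^ (r : ℝ) := by
    rw [Real.rpow_def_of_pos hXp, mul_comm]
    exact Real.exp_le_exp.2 hSr
  have hSX0 : Real.exp S ≤ X0 :=
    hSX.trans (Real.rpow_le_rpow_of_exponent_le hX1 (by linarith))
  have hlen : (SD h μ r).len (jx hP s) = S := SD_jx_len hP h μ s
  have hht : (SD h μ r).ht (jx hP s) = 1 := SD_jx_ht hP h μ s
  have hwj : (SD h μ r).w (jx hP s) = al h (fun i => (s i).pc P) := SD_jx_w hP h μ s
  have hq : 1 ≤ X0 ^ ε₂ * X0 ^ ε₂ := by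
    have := Real.one_le_rpow hX01 hε₂0.le
    exact one_le_mul_of_one_le_of_one_le this this
  set a0 : ℝ := Kc * (X0 ^ ε₂ * X0 ^ ε₂) * Bd * Real.exp (-S) with ha0
  have ha00 : 0 ≤ a0 := by positivity
  have key := hG X0 L a0 hX01 hL1 (hLX.trans hXX0) ha00 (jx hP s) (by rw [hlen]; exact hSX0) 1
    isPrim_one ?_
  · -- the conclusion
    rw [hht, hlen, one_pow, mul_one] at key
    have hsq : TP320.sq 1 ((SD h μ r).w (jx hP s)) = sqc 1 (al h fun i => (s i).pc P) := by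
      rw [HP842.sq_eq_sqc (fun n => hΦ.prim (jx hP s) n), hwj]
    rw [hsq] at key
    have hsupp : PA842.Supp (sqc 1 (al h fun i => (s i).pc P)) (Real.exp (S + Rt)) := by
      rw [← hsq]
      exact TP320.supp_sq hΦ 1 (jx hP s) (by rw [hlen])
    have e1 : SDk P h k (List.ofFn s) = VK L (sqc 1 (al h fun i => (s i).pc P)) := SDk_ofFn P h s k
    have h1 := VK_le_VR (Real.exp_pos (S + Rt)).le hL0 hsupp
    have hcr := hK s (Real.exp (S + Rt)) L (Real.exp (S + Rt) ^ min (ε₂ / 40) (1 / 40)) Dd hDd hDl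
      (fun i => by linarith [hs0 i]) (Real.one_le_exp (by linarith)) hL1
      (Real.one_le_rpow (Real.one_le_exp (by linarith)) (le_min (by positivity) (by norm_num)))
      (by rw [add_comm]) hsupp
    -- the cross term
    set S1 : ℝ := ∏ i, (1 + |(s i).t|) with hS1
    have hS11 : 1 ≤ S1 := by
      rw [hS1]
      exact Finset.one_le_prod fun i _ => by linarith [abs_nonneg (s i).t]
    have hSA : 1 ≤ S1 ^ A4 := Real.one_le_rpow hS11 hA4
    have hDd2 : 1 ≤ Dd ^ 2 := one_le_pow₀ hDd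
    have hdp : ∏ i, (nm (s i).d : ℝ) ≤ X ^ (r * Bs) := by
      calc ∏ i, (nm (s i).d : ℝ) ≤ ∏ _i : Fin r, X ^ Bs :=
            Finset.prod_le_prod (fun i _ => Nat.cast_nonneg _) fun i _ => hd i
        _ = X ^ (r * Bs) := by
            rw [Finset.prod_const, Finset.card_univ, Fintype.card_fin, ← Real.rpow_natCast,
              ← Real.rpow_mul hXp.le, mul_comm]
    have hdp0 : 0 ≤ ∏ i, (nm (s i).d : ℝ) := Finset.prod_nonneg fun i _ => Nat.cast_nonneg _
    have hcr1 := crossG (r := r) (Bs := Bs) (S := S) hX1 hkX hRt0 hC4 (by linarith : 0 ≤ S1 ^ A4)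
      hdp0 hε₂0 (by
        have := min_le_left (ε₂ / 40) (1 / 40 : ℝ)
        linarith) hS0 hSX hdp hcr
    rw [← hK4, ← hDn] at hcr1
    have hcr2 : KCr (Real.exp (S + Rt)) L (Real.exp (S + Rt) ^ min (ε₂ / 40) (1 / 40))
        (sqc 1 (al h fun i => (s i).pc P)) ≤
        2 * K4 * X ^ (Dn * ε₂) * S1 ^ A4 * Dd ^ 2 * (Real.exp (k + S) + Bd) := by
      refine hcr1.trans ?_
      have h9 : Real.exp S * Real.exp S + Real.exp (k + S) ≤ 2 * (Real.exp (k + S) + Bd) := by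
        linarith
      have h10 : 0 ≤ K4 * X ^ (Dn * ε₂) * S1 ^ A4 * Dd ^ 2 := by
        have : 0 ≤ X ^ (Dn * ε₂) := Real.rpow_nonneg hXp.le _
        positivity
      have h11 := mul_le_mul_of_nonneg_left h9 h10
      linarith
    have h5 : a0 * Real.exp S = Kc * (X0 ^ ε₂ * X0 ^ ε₂) * Bd := by
      rw [ha0, mul_assoc, ← Real.exp_add, neg_add_cancel, Real.exp_zero, mul_one]
    have hTot : (Real.exp S + L + a0) * Real.exp S ≤
        (2 + Kc) * (X0 ^ ε₂ * X0 ^ ε₂) * (Real.exp (k + S) + Bd) := by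
      have h6 : L * Real.exp S = Real.exp (k + S) := by rw [Real.exp_add]
      have h7 : 0 ≤ Real.exp (k + S) := (Real.exp_pos _).le
      calc (Real.exp S + L + a0) * Real.exp S
          = Real.exp S * Real.exp S + L * Real.exp S + a0 * Real.exp S := by ring
        _ ≤ (Real.exp (k + S) + Bd) + Real.exp (k + S) + Kc * (X0 ^ ε₂ * X0 ^ ε₂) * Bd := by
            rw [h5, h6]; linarith
        _ ≤ 2 * (Real.exp (k + S) + Bd) +
            Kc * (X0 ^ ε₂ * X0 ^ ε₂) * (Real.exp (k + S) + Bd) := by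
            have h8 : 0 ≤ Kc * (X0 ^ ε₂ * X0 ^ ε₂) := by positivity
            have h9 : Kc * (X0 ^ ε₂ * X0 ^ ε₂) * Bd ≤
              Kc * (X0 ^ ε₂ * X0 ^ ε₂) * (Real.exp (k + S) + Bd) :=
              mul_le_mul_of_nonneg_left (by linarith) h8
            linarith
        _ ≤ 2 * (X0 ^ ε₂ * X0 ^ ε₂) * (Real.exp (k + S) + Bd) +
            Kc * (X0 ^ ε₂ * X0 ^ ε₂) * (Real.exp (k + S) + Bd) := by
            have h8 : 0 ≤ Real.exp (k + S) + Bd := by positivity
            have h9 : 2 * (Real.exp (k + S) + Bd) ≤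
                2 * (X0 ^ ε₂ * X0 ^ ε₂) * (Real.exp (k + S) + Bd) := by
              refine mul_le_mul_of_nonneg_right ?_ h8
              linarith
            linarith
        _ = _ := by ring
    -- exponents
    have hexp3 : X0 ^ ε₂ * (X0 ^ ε₂ * X0 ^ ε₂) ≤ X ^ ε := by
      rw [hX0e, ← Real.rpow_add hXp, ← Real.rpow_add hXp]
      refine Real.rpow_le_rpow_of_exponent_le hX1 ?_
      have h6 : ((r : ℝ) + 1) * ε₂ ≤ Dn * ε₂ := by
        refine mul_le_mul_of_nonneg_right ?_ hε₂0.le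
        rw [hDn]; linarith
      linarith
    have hexp4 : X0 ^ ε₂ * X ^ (Dn * ε₂) ≤ X ^ ε := by
      rw [hX0e, ← Real.rpow_add hXp]
      refine Real.rpow_le_rpow_of_exponent_le hX1 ?_
      have h6 : ((r : ℝ) + 1) * ε₂ ≤ Dn * ε₂ := by
        refine mul_le_mul_of_nonneg_right ?_ hε₂0.le
        rw [hDn]; linarith
      have h7 : 0 ≤ Dn * ε₂ := by positivity
      linarith
    have hF : 0 ≤ Real.exp (k + S) + Bd := by positivity
    rw [s1_ofFn, ← hS1]
    have hXε : 0 ≤ X ^ ε := Real.rpow_nonneg hXp.le _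
    have hSD : 1 ≤ S1 ^ A4 * Dd ^ 2 := one_le_mul_of_one_le_of_one_le hSA hDd2
    calc SDk P h k (List.ofFn s)
        ≤ Real.exp 1 * PX764.VR (Real.exp (S + Rt)) L (sqc 1 (al h fun i => (s i).pc P)) := by
          rw [e1]; exact h1
      _ ≤ Real.exp 1 * (C2 * X0 ^ ε₂ * ((2 + Kc) * (X0 ^ ε₂ * X0 ^ ε₂) * (Real.exp (k + S) + Bd) +
            2 * K4 * X ^ (Dn * ε₂) * S1 ^ A4 * Dd ^ 2 * (Real.exp (k + S) + Bd))) := by
          refine mul_le_mul_of_nonneg_left (key.trans ?_) (Real.exp_pos _).le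
          refine mul_le_mul_of_nonneg_left (add_le_add hTot hcr2) (by positivity)
      _ = Real.exp 1 * C2 * ((2 + Kc) * (X0 ^ ε₂ * (X0 ^ ε₂ * X0 ^ ε₂)) * 1 +
            2 * K4 * (X0 ^ ε₂ * X ^ (Dn * ε₂)) * (S1 ^ A4 * Dd ^ 2)) *
            (Real.exp (k + S) + Bd) := by ring
      _ ≤ Real.exp 1 * C2 * ((2 + Kc) * X ^ ε * (S1 ^ A4 * Dd ^ 2) +
            2 * K4 * X ^ ε * (S1 ^ A4 * Dd ^ 2)) * (Real.exp (k + S) + Bd) := by gcongr
      _ = (Real.exp 1 * C2 * (2 + Kc + 2 * K4)) * (X ^ ε * (S1 ^ A4 * Dd ^ 2) *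
            (Real.exp (k + S) + Bd)) := by ring
      _ ≤ C * (X ^ ε * (S1 ^ A4 * Dd ^ 2) * (Real.exp (k + S) + Bd)) := by
          have h20 : Real.exp 1 * C2 * (2 + Kc + 2 * K4) ≤ C := by
            rw [hCdef]; linarith [Real.exp_pos Rt]
          exact mul_le_mul_of_nonneg_right h20 (by positivity)
      _ = C * X ^ ε * S1 ^ A4 * Dd ^ 2 * (Real.exp (k + S) + Bd) := by ring
  -- the children
  intro j' q' hgood hdom hlen' hq' _ hnq'
  have hgood' : ∀ i, 0 ≤ (j' i).z := hgood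
  have hdom' : ∀ i, (j' i).z ≤ (s i).z + Rt ∧ (j' i).t0 = (s i).t ∧ (j' i).ψ = (ip hP (s i)).ψ ∧
      relU (j' i).u (s i).u := hdom
  set Λ : ℝ := C2 * X0 ^ ε₂ * Real.exp ((SD h μ r).len (jx hP s)) ^ 2 / L with hΛ
  have hΛ0 : 0 < Λ := by positivity
  set W : ℝ := ∏ i, (1 + |(j' i).s|) with hW
  have hW1' : ∀ i, (1 : ℝ) ≤ 1 + |(j' i).s| := fun i => by linarith [abs_nonneg (j' i).s]
  have hW1 : 1 ≤ W := by
    rw [hW]
    exact Finset.one_le_prod fun i _ => hW1' i
  have hht' : (SD h μ r).ht j' ^ 2 = W ^ M := by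
    rw [SD_ht, Real.finset_prod_rpow _ _ fun i _ => by linarith [hW1' i], ← hW,
      ← Real.rpow_natCast, ← Real.rpow_mul (by linarith)]
    congr 1
    push_cast
    rw [hμd]; ring
  have hRHS : 0 ≤ a0 / L * Real.exp ((SD h μ r).len (jx hP s) + (SD h μ r).len j') *
      (SD h μ r).ht j' ^ 2 := by positivity
  have eVC : VCN Λ (TP320.sq q' ((SD h μ r).w j')) =
      ∑ k ∈ (bl Λ).filter NCube, (1 : ℝ) * ‖CS (sqc q' (al h (fun i => (j' i).pc))) k‖ ^ 2 := by
    unfold GE241.VCN GE241.VQ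
    rw [HP842.sq_eq_sqc (fun n => hΦ.prim j' n), SD_w]
    exact Finset.sum_congr rfl fun k _ => (one_mul _).symm
  rw [eVC]
  by_cases hΛ1 : Λ < 1
  · have h1 : bl Λ = ∅ := by
      have := bl_neg (Real.log_neg hΛ0 hΛ1)
      rwa [Real.exp_log hΛ0] at this
    rw [h1, Finset.filter_empty, Finset.sum_empty]
    exact hRHS
  push Not at hΛ1
  have hlΛ : 0 ≤ Real.log Λ := Real.log_nonneg hΛ1
  have hlogΛ : Real.log Λ = Real.log C2 + ((r : ℝ) + 1) * ε₂ * Real.log X + 2 * S - k := by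
    rw [hΛ, hlen, Real.log_div (by positivity) hL0.ne', Real.log_mul (by positivity) (by positivity),
      Real.log_mul (by positivity) (by positivity), hX0e, Real.log_rpow hXp, Real.log_pow,
      Real.log_exp, hLdef, Real.log_exp]
    push_cast
    ring
  rw [hht', hlen]
  have hlenj' : (SD h μ r).len j' = ∑ i, (j' i).z := SD_len h μ r j'
  set B : ℝ := Bd * W ^ M * Real.exp (-k) * Kr with hB
  have hW0 : 0 < W := by linarith
  have hB0 : 0 ≤ B := by positivity
  have hq'0 : (0 : ℝ) < nm q' := by exact_mod_cast nm_pos.2 hq'.ne_zero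
  have key2 := hS h hR (Fin r) (by simp) (fun i => (j' i).pc) (fun i => (j' i).pc_OK)
    (Real.exp Rt * X0) (one_le_mul_of_one_le_of_one_le hE1 hX01) (fun i => by
      show Real.exp (j' i).z ≤ _
      calc Real.exp (j' i).z ≤ Real.exp (S + Rt) :=
            Real.exp_le_exp.2 ((hdom' i).1.trans (by linarith [hzS i]))
        _ = Real.exp S * Real.exp Rt := Real.exp_add _ _
        _ ≤ X0 * Real.exp Rt := by gcongr
        _ = _ := mul_comm _ _) q' hq'.ne_zero ((bl Λ).filter NCube) (fun _ => 1)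
      (fun _ _ => zero_le_one) B hB0 ?_
  · refine key2.trans ?_
    have e1 : ∏ i, ((j' i).pc).Y = Real.exp ((SD h μ r).len j') := by
      rw [hlenj', Real.exp_sum]
      rfl
    rw [e1]
    have h6 : (nm q' : ℝ) ^ ε₂ ≤ C2 ^ ε₂ * X0 ^ ε₂ := by
      rw [← Real.mul_rpow (by linarith) hX0p.le]
      refine Real.rpow_le_rpow hq'0.le ?_ hε₂0.le
      rw [nm_one] at hnq'
      simpa using hnq'
    have h7 : (Real.exp Rt * X0) ^ ε₂ = Real.exp Rt ^ ε₂ * X0 ^ ε₂ :=
      Real.mul_rpow (Real.exp_pos _).le hX0p.le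
    rw [h7]
    have hp : 0 ≤ B * Real.exp ((SD h μ r).len j') := by positivity
    calc C3 * (nm q' : ℝ) ^ ε₂ * (Real.exp Rt ^ ε₂ * X0 ^ ε₂) *
          (B * Real.exp ((SD h μ r).len j'))
        ≤ C3 * (C2 ^ ε₂ * X0 ^ ε₂) * (Real.exp Rt ^ ε₂ * X0 ^ ε₂) *
          (B * Real.exp ((SD h μ r).len j')) := by gcongr
      _ = Kc * (X0 ^ ε₂ * X0 ^ ε₂) * Bd * (Real.exp (-k) * Real.exp ((SD h μ r).len j')) *
            W ^ M := by
          rw [hB, hKc]; ring
      _ = a0 / L * Real.exp (S + (SD h μ r).len j') * W ^ M := by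
          have h8 : Real.exp (-k) * Real.exp ((SD h μ r).len j') =
              Real.exp (-S) / L * Real.exp (S + (SD h μ r).len j') := by
            rw [hLdef, div_eq_mul_inv, ← Real.exp_neg, ← Real.exp_add, ← Real.exp_add,
              ← Real.exp_add]
            congr 1; ring
          rw [h8, ha0]; ring
  -- the grandchildren
  intro b hb
  have hb0 : ∀ i, b i ≠ 0 := fun i => (hb i).ne_zero
  set g : Fin r → Pq := fun i => (chd (s i) (j' i)).sub (b i) (hb0 i) with hg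
  have hgz : ∀ i, (g i).z = (j' i).z - Real.log (nm (b i)) := fun i => rfl
  have hlogb : ∀ i, 0 ≤ Real.log (nm (b i)) := fun i =>
    Real.log_nonneg (by exact_mod_cast nm_pos.2 (hb0 i))
  have hgpc : ∀ i, (g i).pc P = ((j' i).pc).sub (b i) := by
    intro i
    rw [← chd_pc hP (hdom' i).2.2.1]
    exact HP842.Pq_sub_pc P _ (hb0 i)
  have e2 : ssub (fun i => (j' i).pc) b = fun i => (g i).pc P := by
    funext i
    rw [hgpc]
    rfl
  have hh : Bump h := ⟨R, hR⟩
  have hY : ∏ i, (ssub (fun i => (j' i).pc) b i).Y = ∏ i, Real.exp (g i).z := by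
    rw [e2]
    rfl
  rw [hY, e2]
  have hr0' : 0 ≤ B * ∏ i, Real.exp (g i).z :=
    mul_nonneg hB0 (Finset.prod_nonneg fun i _ => (Real.exp_pos _).le)
  by_cases hneg : ∃ i, (g i).z < -R
  · obtain ⟨i, hi⟩ := hneg
    rw [Finset.sum_eq_zero]
    · exact hr0'
    intro k _
    rw [CS_al hh hP, Finset.prod_eq_zero (Finset.mem_univ i) (CS_eq_zero hR hP hi k)]
    simp
  push Not at hneg
  have hChd : ∀ i, Chd Dq cq ρ (C * X ^ (1 : ℝ)) (rep T (g i)) (s i) := by
    intro i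
    have hd' := hdom' i
    have hd1 : (1 : ℝ) ≤ nm (s i).d := by exact_mod_cast nm_pos.2 (s i).d0
    have hz1 : Real.exp (s i).z ≤ X := by
      rw [← Real.exp_log hXp]; exact Real.exp_le_exp.2 (hs i).2
    rw [Real.rpow_one]
    unfold rep
    by_cases hz : (g i).z < 0
    · rw [if_pos hz]
      obtain ⟨t1, t2, t3, t4, t5, t6⟩ := hT (g i).kd
      refine chd_mk t1 (fun _ => t2) t3 ?_ ?_
      · rw [hρ]; linarith [hs0 i]
      · refine t6.trans ?_
        calc C1 ≤ 1 * (C * 1) := by linarith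
          _ ≤ nm (s i).d * (C * X) := by gcongr
    · rw [if_neg hz]
      push Not at hz
      refine chd_mk rfl (fun h1 => ?_) hz ?_ ?_
      · have h2 : (j' i).u = .one := by
          rcases hd'.2.2.2 with h3 | h3
          · rw [h3, h1]
          · rw [h1] at h3
            exact absurd h3.1 (by decide)
        show ((j' i).u).sub (b i) = .one
        rw [h2]
        unfold HP842.UT.sub
        rw [if_neg]
        rintro ⟨h3, _⟩
        exact absurd h3 (by decide)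
      · rw [hgz, hρ]
        linarith [hd'.1, hlogb i]
      · have h3 : (nm (g i).d : ℝ) ≤ nm (s i).d * nm (b i) := by
          have hb1 : (1 : ℝ) ≤ nm (b i) := by exact_mod_cast nm_pos.2 (hb0 i)
          have e5 : (g i).d = if (j' i).u = .mu ∨ (j' i).u = .sq then (s i).d * b i else (s i).d := by
            rfl
          rw [e5]
          split_ifs
          · rw [nm_mul]; push_cast; exact le_rfl
          · exact le_mul_of_one_le_right (Nat.cast_nonneg _) hb1
        have h4 : (nm (b i) : ℝ) ≤ Real.exp Rt * X := by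
          have hbp : (0 : ℝ) < nm (b i) := by exact_mod_cast nm_pos.2 (hb0 i)
          refine le_trans ?_ (mul_le_mul_of_nonneg_left hz1 (Real.exp_pos Rt).le)
          rw [← Real.exp_add, ← Real.exp_log hbp]
          refine Real.exp_le_exp.2 ?_
          rw [hgz] at hz
          linarith [hd'.1]
        calc (nm (g i).d : ℝ) ≤ nm (s i).d * nm (b i) := h3
          _ ≤ nm (s i).d * (Real.exp Rt * X) := by gcongr
          _ ≤ nm (s i).d * (C * X) := by gcongr
  have hcst : cst cq (List.ofFn fun i => rep T (g i)) (List.ofFn s) ≤ W := by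
    refine cst_le hW1' fun i => ?_
    have h0 := abs_nonneg (s i).t
    have h1 := hW1' i
    unfold rep
    by_cases hz : (g i).z < 0
    · rw [if_pos hz]
      obtain ⟨t1, t2, t3, t4, t5, t6⟩ := hT (g i).kd
      rw [t5, abs_zero, add_zero]
      exact one_le_mul_of_one_le_of_one_le h1 (by linarith)
    · rw [if_neg hz]
      show 1 + |(j' i).t0 + (j' i).s| ≤ _
      rw [(hdom' i).2.1]
      exact one_add_mul le_rfl
  have hcst0 : 0 ≤ cst cq (List.ofFn fun i => rep T (g i)) (List.ofFn s) := by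
    rw [cst_ofFn]
    exact Finset.prod_nonneg fun i _ => by linarith [one_le_cq (rep T (g i)) (s i)]
  have h8 := hyp (Real.log Λ) (fun i => rep T (g i)) hlΛ hChd (by
    intro c hc
    rw [Finset.mem_singleton] at hc
    rw [hc, lf_G1, hlogΛ, hρ]
    have h9 : ((r : ℝ) + 1) * ε₂ ≤ ε := by
      have h6 : ((r : ℝ) + 1) * ε₂ ≤ Dn * ε₂ := by
        refine mul_le_mul_of_nonneg_right ?_ hε₂0.le
        rw [hDn]; linarith
      have h7 : 0 ≤ Dn * ε₂ := by positivity
      linarith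
    have h10 := mul_le_mul_of_nonneg_right h9 hl.le
    linarith)
  rw [lf_G] at h8
  have hidt := XHB411.idt_nonneg Z (Real.log Λ) (List.ofFn fun i => rep T (g i))
  beta_reduce at h8
  rw [LL_ofFn, RN_ofFn, Real.exp_log hΛ0] at h8
  have h9 : ∑ i, (rep T (g i)).z ≤ (∑ i, (g i).z) + r * (R + C1) := by
    calc ∑ i, (rep T (g i)).z ≤ ∑ i, ((g i).z + (R + C1)) := by
          refine Finset.sum_le_sum fun i _ => ?_
          unfold rep
          by_cases hz : (g i).z < 0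
          · rw [if_pos hz]
            have := (hT (g i).kd).2.2.2.1
            linarith [hneg i]
          · rw [if_neg hz]
            linarith
      _ = _ := by
          rw [Finset.sum_add_distrib, Finset.sum_const, Finset.card_univ, Fintype.card_fin,
            nsmul_eq_mul]
  calc ∑ k ∈ (bl Λ).filter NCube, (1 : ℝ) * ‖CS (al h fun i => (g i).pc P) k‖ ^ 2
      ≤ ∑ k ∈ (bl Λ).filter NCube, (C1 ^ 2) ^ r *
          ∏ i, ‖CS (pc h ((rep T (g i)).pc P)) k‖ ^ 2 := by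
        refine Finset.sum_le_sum fun k _ => ?_
        rw [one_mul, CS_al hh hP, norm_prod, ← Finset.prod_pow]
        calc ∏ i, ‖CS (pc h ((g i).pc P)) k‖ ^ 2
            ≤ ∏ i, (C1 ^ 2 * ‖CS (pc h ((rep T (g i)).pc P)) k‖ ^ 2) := by
              refine Finset.prod_le_prod (fun i _ => by positivity) fun i _ => ?_
              rw [← mul_pow]
              exact pow_le_pow_left₀ (norm_nonneg _) (hrep P hP (g i) k) 2
          _ = _ := by
              rw [Finset.prod_mul_distrib, Finset.prod_const, Finset.card_univ, Fintype.card_fin]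
    _ = (C1 ^ 2) ^ r * ∑ k ∈ (bl Λ).filter NCube,
          ∏ i, ‖CS (pc h ((rep T (g i)).pc P)) k‖ ^ 2 := by
        rw [Finset.mul_sum]
    _ ≤ (C1 ^ 2) ^ r * (Bd * W ^ M * Real.exp (-k + ((∑ i, (g i).z) + r * (R + C1)))) := by
        refine mul_le_mul_of_nonneg_left ?_ (by positivity)
        have h10 : cst cq (List.ofFn fun i => rep T (g i)) (List.ofFn s) ^ M ≤ W ^ M :=
          Real.rpow_le_rpow hcst0 hcst hM
        have h11 : Real.exp (-k + ∑ i, (rep T (g i)).z) ≤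
            Real.exp (-k + ((∑ i, (g i).z) + r * (R + C1))) :=
          Real.exp_le_exp.2 (by linarith)
        have h12 : Bd * cst cq (List.ofFn fun i => rep T (g i)) (List.ofFn s) ^ M *
            Real.exp (-k + ∑ i, (rep T (g i)).z) ≤
            Bd * W ^ M * Real.exp (-k + ((∑ i, (g i).z) + r * (R + C1))) := by gcongr
        linarith
    _ = B * ∏ i, Real.exp (g i).z := by
        rw [hB, hKr, ← Real.exp_sum, Real.exp_add, Real.exp_add]
        ring

end Crest.Agent.R017.XPX241
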