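import Crest.Agent.R017.XPX3_241

/-!
# Row 17, exceptional class: the raw rules in BG form (helper241), part 4

* `ruleP_at` : (P_ex) as an analytic rule for `r` pieces
-/

set_option autoImplicit false
set_option maxHeartbeats 8000000

noncomputable section

open Complex
open scoped ComplexConjugate

namespace Crest.Agent.R017.XPX241

open Crest.Agent.R012 Crest.Agent.R012.Eis Crest.Agent.R012.LS2 Crest.Agent.R012.Gauss880
open Crest.Agent.R012.Div277 Crest.Agent.R012.Weight600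
open Crest.Agent.R017.CM106 Crest.Agent.R017.FE47 Crest.Agent.R017.End699
open Crest.Agent.R017.B770
open Crest.Agent.R017.Prov71
open Crest.Agent.R017.HP842 (UT pc KS sqc Kg uv alL al ssub norm_uv_le pc_support nat_sq_pc cv
  sqc_absorb Pq_sub_pc Pq_cop_pc)
open Crest.Agent.R017.XP699 (Chd cst LL lf)
open Crest.Agent.R017.XHB411 (tl idt bl_neg)
open Crest.Agent.R017.GE241 (VQ VCN KCr VK)
open Crest.Agent.R017.PE241 (CRs VKn HypK PE_rule VKn_nonneg)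
open Crest.Agent.R017.PX764 (Dk)
open Crest.Agent.R017.TPOk571 (IP FP SD SD_w SD_len SD_ht sd_ok relU)
open Crest.Agent.R017.XRG106 (tl_ofFn alL_ofFn ip ip_pc chd chd_pc one_add_mul)
open Crest.Agent.R012.T411 (NCube)

lemma lf_P (k n l n' : ℝ) : lf ![-1 / 3, -1, 2 / 3, 2 / 3] k n l n' =
    -k / 3 - n + 2 / 3 * (l + n') := by
  unfold XP699.lf
  simp
  ring

lemma lf_P1 (k n l n' : ℝ) : lf ![-1, 0, -1, 2] k n l n' = -k - l + 2 * n' := by
  unfold XP699.lf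
  simp
  ring

lemma lf_P2 (k n l n' : ℝ) : lf ![1, -3, 1, 1] k n l n' = k - 3 * n + l + n' := by
  unfold XP699.lf
  simp
  ring

/-- short pieces vanish -/
lemma pc_eq_zero {h : ℝ → ℝ} {R : ℝ} (hR : ∀ u, cx h u ≠ 0 → |u| ≤ R) {P : DPar} (hP : P.OK)
    {p : Pq} (hp : p.z < -R) (m : Eis) : pc h (p.pc P) m = 0 := by
  by_contra h0
  obtain ⟨h1, h2⟩ := pc_support hR (Pq.ok hP p).Y0 h0
  simp only [Pq.pc_Y] at h2
  have h3 : (1 : ℝ) ≤ nm m := by exact_mod_cast nm_pos.2 h1.ne_zero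
  have h4 : Real.exp R * Real.exp p.z < 1 := by
    rw [← Real.exp_add, Real.exp_lt_one_iff]
    linarith
  linarith

lemma al_eq_zero {h : ℝ → ℝ} {R : ℝ} (hR : ∀ u, cx h u ≠ 0 → |u| ≤ R) {P : DPar} (hP : P.OK)
    {r : ℕ} {s : Fin r → Pq} {i : Fin r} (hi : (s i).z < -R) :
    al h (fun i => (s i).pc P) = 0 := by
  classical
  funext n
  show cv (fun i => pc h ((s i).pc P)) n = 0
  unfold HP842.cv
  refine Finset.sum_eq_zero fun x _ => Finset.prod_eq_zero (Finset.mem_univ i) ?_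
  exact pc_eq_zero hR hP hi _

lemma S_empty {X : ℝ} (hX : X < 1) : S X = ∅ := by
  rw [Finset.eq_empty_iff_forall_notMem]
  intro n hn
  have h1 : n ∈ S 1 ∨ True := Or.inr trivial
  by_cases h0 : 0 ≤ X
  · have h2 := (mem_S h0).1 hn
    have h3 : (1 : ℝ) ≤ nm n := by exact_mod_cast nm_pos.2 h2.2.1.ne_zero
    linarith [h2.1]
  · push Not at h0
    have h2 : n ∈ S 0 := by
      have e : S X = S 0 := by
        unfold LS2.S
        rw [Nat.floor_of_nonpos h0.le, Nat.floor_zero]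
      rwa [← e]
    have h3 := (mem_S le_rfl).1 h2
    have h4 : (1 : ℝ) ≤ nm n := by exact_mod_cast nm_pos.2 h3.2.1.ne_zero
    linarith [h3.1]

lemma CRs_small {X : ℝ} (hX : X < 1) (Z Y : ℝ) (w : Eis → ℂ) : CRs X Z Y w = 0 := by
  unfold PE241.CRs
  rw [S_empty hX, Finset.sum_empty]


/-! ### the hypothesis on the children -/

/-- the child hypothesis of (P_ex), `r` pieces -/
def ChP (P : DPar) (h : ℝ → ℝ) {r : ℕ} (s : Fin r → Pq) (X k Bd B₀ ε M C ρ : ℝ) : Prop :=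
  ∀ (l : ℝ) (s' : Fin r → Pq), 0 ≤ l → (∀ i, Chd Dq cq ρ (C * X ^ B₀) (s' i) (s i)) →
    (-k - l + 2 * LL Dq (List.ofFn s') ≤ ρ + ε * Real.log X) →
    (k - 3 * LL Dq (List.ofFn s) + l + LL Dq (List.ofFn s') ≤ ρ + ε * Real.log X) →
    SDk P h l (List.ofFn s') + idt (fun _ _ => True) l (List.ofFn s') ≤
      Bd * cst cq (List.ofFn s') (List.ofFn s) ^ M *
        Real.exp (-k / 3 - LL Dq (List.ofFn s) + 2 / 3 * (l + LL Dq (List.ofFn s')))

lemma diagP {P : DPar} {h : ℝ → ℝ} {r : ℕ} {s : Fin r → Pq} {X k Bd B₀ ε M C ρ : ℝ}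
    (hyp : ChP P h s X k Bd B₀ ε M C ρ) (hX : 3 ≤ X) (hBd : 0 ≤ Bd) (hB₀ : 0 ≤ B₀) (hC : 1 ≤ C)
    (hε : 0 < ε) (hρ : 0 ≤ ρ) (hs0 : ∀ i, 0 ≤ (s i).z) :
    Real.exp (∑ i, (s i).z) * Real.exp (∑ i, (s i).z) ≤ Real.exp (k + ∑ i, (s i).z) + Bd := by
  have hSL : LL Dq (List.ofFn s) = ∑ i, (s i).z := LL_ofFn s
  have hSt : tl Dq (List.ofFn s) = ∑ i, (s i).z := tl_ofFn s
  have hS0 : 0 ≤ ∑ i, (s i).z := Finset.sum_nonneg fun i _ => hs0 i
  have hXB : 1 ≤ X ^ B₀ := Real.one_le_rpow (by linarith) hB₀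
  have hl : 0 < Real.log X := Real.log_pos (by linarith)
  unfold ChP at hyp
  rw [hSL] at hyp
  generalize (∑ i, (s i).z) = S at *
  rw [← Real.exp_add]
  by_cases hz : 0 ≤ 2 * S - k
  · have h0 : 0 ≤ ε * Real.log X := by positivity
    have h1 := hyp (2 * S - k) s hz (fun i => chd_mk rfl (fun h => h) (hs0 i) (by linarith) (by
        have h2 : (0 : ℝ) ≤ nm (s i).d := Nat.cast_nonneg _
        exact le_mul_of_one_le_right h2 (one_le_mul_of_one_le_of_one_le hC hXB)))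
        (by rw [hSL]; linarith) (by rw [hSL]; linarith)
    have h2 : cst cq (List.ofFn s) (List.ofFn s) = 1 := by
      rw [cst_ofFn]
      exact Finset.prod_eq_one fun i _ => cq_self _
    rw [h2, Real.one_rpow, mul_one, hSL] at h1
    have h3 : idt (fun _ _ => True) (2 * S - k) (List.ofFn s) = Real.exp (2 * S - k + S) := by
      unfold XHB411.idt
      rw [if_pos ⟨hz, trivial⟩, hSt]
    have h4 := SDk_nonneg P h (2 * S - k) (List.ofFn s)
    have h9 : -k / 3 - S + 2 / 3 * (2 * S - k + S) = -k + S := by ring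
    rw [h9] at h1
    have h5 : Real.exp (2 * S - k + S) ≤ Bd * Real.exp (-k + S) := by
      rw [← h3]; linarith
    have h6 : Real.exp (2 * S - k + S) = Real.exp (S + S) * Real.exp (-k + S) := by
      rw [← Real.exp_add]; congr 1; ring
    rw [h6] at h5
    have h7 := le_of_mul_le_mul_right h5 (Real.exp_pos _)
    have h8 := Real.exp_pos (k + S)
    linarith
  · push Not at hz
    have h1 : S + S ≤ k + S := by linarith
    have h2 := Real.exp_le_exp.2 h1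
    linarith

/-- numbers of the child -/
lemma numP {C2 e k S φ n1 S' ρ₂ : ℝ} (h : n1 - φ - ρ₂ - e ≤ S') :
    Real.exp (-k / 3 - S + 2 / 3 * (Real.log C2 + e + (φ + 2 * n1) - k + S')) ≤
      Real.exp (2 / 3 * Real.log C2 + ρ₂ / 3) * Real.exp e * Real.exp (-k - S) *
        Real.exp (φ + n1 + S') := by
  rw [← Real.exp_add, ← Real.exp_add, ← Real.exp_add]
  refine Real.exp_le_exp.2 ?_
  linarith

/-- one child -/
lemma childP {h : ℝ → ℝ} {P : DPar} (hP : P.OK) {r : ℕ} {s v : Fin r → Pq} {a : Fin r → Eis}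
    {X k Bd B₀ ε ε₂ M C C2 ρ ρ₂ Rt : ℝ} (hyp : ChP P h s X k Bd B₀ ε M C ρ)
    (ha : ∀ i, a i ≠ 0) (hv : v = fun i => (s i).sub (a i) (ha i))
    (hX : 3 ≤ X) (hBd : 0 ≤ Bd) (hM : 0 ≤ M) (hε₂ : 0 < ε₂) (hεε : ((r : ℝ) + 1) * ε₂ ≤ ε)
    (hC2 : 1 ≤ C2) (hρ₂ : 0 ≤ ρ₂) (hρ : Real.log C2 + 4 * ρ₂ ≤ ρ)
    (hC : C2 * Real.exp Rt ^ 2 ≤ C) (hB₀ : 4 * (r : ℝ) + 2 ≤ B₀) {q : Eis}
    (hvS : ∑ i, (v i).z ≤ ∑ i, (s i).z) (hnma : ∀ i, (nm (a i) : ℝ) ≤ nm q)
    (hnmq : (nm q : ℝ) ≤ Real.exp Rt * X ^ (r : ℝ)) {j' : Fin r → IP} {q' : Eis} {n1 φ : ℝ}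
    (hgood' : ∀ i, 0 ≤ (j' i).z)
    (hdom' : ∀ i, (j' i).z ≤ (v i).z + ρ₂ ∧ (j' i).t0 = (v i).t ∧ (j' i).ψ = (ip hP (v i)).ψ ∧
      relU (j' i).u (v i).u) (hφ : 0 ≤ φ) (hn1 : n1 ≤ (∑ i, (v i).z) + ρ₂)
    (hlen1 : (∑ i, (j' i).z) ≤ n1 - φ + ρ₂)
    (hlen2 : n1 - φ - ρ₂ - ((r : ℝ) + 1) * ε₂ * Real.log X ≤ ∑ i, (j' i).z)
    (hq' : IsPrim q') (hnq' : (nm q' : ℝ) ≤ C2 * nm q * (X ^ ((r : ℝ) + 1)) ^ 2)
    {Λ : ℝ} (hΛ0 : 0 < Λ) (hlogΛ : Real.log Λ = Real.log C2 + ((r : ℝ) + 1) * ε₂ * Real.log X +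
      (φ + 2 * n1) - k) :
    VKn Dk Λ (sqc q' (al h fun i => (j' i).pc)) ≤
      Real.exp (2 / 3 * Real.log C2 + ρ₂ / 3) * (X ^ ((r : ℝ) + 1)) ^ ε₂ * Bd *
        Real.exp (-k - ∑ i, (s i).z) * Real.exp (φ + n1 + ∑ i, (j' i).z) *
        (∏ i, (1 + |(j' i).s|)) ^ M := by
  classical
  have hXp : 0 < X := by linarith
  have hX1 : 1 ≤ X := by linarith
  have hl : 0 < Real.log X := Real.log_pos (by linarith)
  have hW1' : ∀ i, (1 : ℝ) ≤ 1 + |(j' i).s| := fun i => by linarith [abs_nonneg (j' i).s]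
  have hW1 : 1 ≤ ∏ i, (1 + |(j' i).s|) := Finset.one_le_prod fun i _ => hW1' i
  have hW0 : 0 < ∏ i, (1 + |(j' i).s|) := by linarith
  have hRHS : 0 ≤ Real.exp (2 / 3 * Real.log C2 + ρ₂ / 3) * (X ^ ((r : ℝ) + 1)) ^ ε₂ * Bd *
        Real.exp (-k - ∑ i, (s i).z) * Real.exp (φ + n1 + ∑ i, (j' i).z) *
        (∏ i, (1 + |(j' i).s|)) ^ M := by
    have h1 : 0 ≤ (X ^ ((r : ℝ) + 1)) ^ ε₂ := Real.rpow_nonneg (Real.rpow_nonneg hXp.le _) _
    have h2 : 0 ≤ (∏ i, (1 + |(j' i).s|)) ^ M := Real.rpow_nonneg hW0.le _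
    exact mul_nonneg (mul_nonneg (mul_nonneg (mul_nonneg (mul_nonneg (Real.exp_pos _).le h1) hBd)
      (Real.exp_pos _).le) (Real.exp_pos _).le) h2
  rcases lt_or_ge Λ 1 with hΛ1 | hΛ1
  · have h1 : bl Λ = ∅ := by
      have := bl_neg (Real.log_neg hΛ0 hΛ1)
      rwa [Real.exp_log hΛ0] at this
    unfold PE241.VKn
    rw [h1, Finset.sum_empty]
    exact hRHS
  have hlΛ : 0 ≤ Real.log Λ := Real.log_nonneg hΛ1
  have hloga : ∀ i, 0 ≤ Real.log (nm (a i)) := fun i =>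
    Real.log_nonneg (by exact_mod_cast nm_pos.2 (ha i))
  have hvz : ∀ i, (v i).z = (s i).z - Real.log (nm (a i)) := fun i => by rw [hv]; rfl
  have hvt : ∀ i, (v i).t = (s i).t := fun i => by rw [hv]; rfl
  have hvd : ∀ i, (nm (v i).d : ℝ) ≤ nm (s i).d * nm (a i) := by
    intro i
    have hb1 : (1 : ℝ) ≤ nm (a i) := by exact_mod_cast nm_pos.2 (ha i)
    have e5 : (v i).d = if (s i).u = .mu ∨ (s i).u = .sq then (s i).d * a i else (s i).d := by
      rw [hv]; rfl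
    rw [e5]
    split_ifs
    · rw [nm_mul]; push_cast; exact le_rfl
    · exact le_mul_of_one_le_right (Nat.cast_nonneg _) hb1
  have hq'0 : q' ≠ 0 := hq'.ne_zero
  obtain ⟨s', hs'⟩ : ∃ s' : Fin r → Pq, s' = fun i => (chd (v i) (j' i)).cop q' hq'0 := ⟨_, rfl⟩
  have hs'z : ∀ i, (s' i).z = (j' i).z := fun i => by rw [hs']; rfl
  have hs'pc : (fun i => (s' i).pc P) = fun i => ((j' i).pc).cop q' := by
    funext i
    rw [← chd_pc hP (hdom' i).2.2.1, hs']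
    exact Pq_cop_pc P _ hq'0
  have hsq' : sqc q' (al h fun i => (j' i).pc) = sqc 1 (al h fun i => (s' i).pc P) := by
    rw [hs'pc]
    have := sqc_absorb h (fun i => (j' i).pc) 1 q'
    rw [one_mul] at this
    exact this
  have eSD : VKn Dk Λ (sqc q' (al h fun i => (j' i).pc)) =
      SDk P h (Real.log Λ) (List.ofFn s') := by
    rw [SDk_ofFn, Real.exp_log hΛ0, hsq']
  rw [eSD]
  have hChd : ∀ i, Chd Dq cq ρ (C * X ^ B₀) (s' i) (s i) := by
    intro i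
    have hd' := hdom' i
    refine chd_mk (by rw [hs', hv]; rfl) (fun h1 => ?_) (by rw [hs'z]; exact hgood' i) ?_ ?_
    · have h0 : (v i).u = .one := by
        rw [hv]
        show ((s i).u).sub (a i) = .one
        rw [h1]
        unfold HP842.UT.sub
        rw [if_neg]
        rintro ⟨h3, _⟩
        exact absurd h3 (by decide)
      rw [hs']
      show (j' i).u = .one
      rcases hd'.2.2.2 with h3 | h3
      · rw [h3, h0]
      · rw [h0] at h3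
        exact absurd h3.1 (by decide)
    · rw [hs'z]
      have h2 := hd'.1
      rw [hvz] at h2
      have h3 := Real.log_nonneg hC2
      linarith [hloga i]
    · have e5 : (nm (s' i).d : ℝ) = nm (v i).d * nm q' := by
        have : (s' i).d = (v i).d * q' := by rw [hs']; rfl
        rw [this, nm_mul]; push_cast; ring
      rw [e5]
      have hXr : 0 ≤ X ^ (r : ℝ) := Real.rpow_nonneg hXp.le _
      have h2 : (nm (v i).d : ℝ) ≤ nm (s i).d * (Real.exp Rt * X ^ (r : ℝ)) :=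
        (hvd i).trans (mul_le_mul_of_nonneg_left ((hnma i).trans hnmq) (Nat.cast_nonneg _))
      have h3 : (nm q' : ℝ) ≤ C2 * (Real.exp Rt * X ^ (r : ℝ)) * (X ^ ((r : ℝ) + 1)) ^ 2 := by
        refine hnq'.trans (mul_le_mul_of_nonneg_right (mul_le_mul_of_nonneg_left hnmq
          (by linarith)) (by positivity))
      calc (nm (v i).d : ℝ) * nm q'
          ≤ (nm (s i).d * (Real.exp Rt * X ^ (r : ℝ))) *
            (C2 * (Real.exp Rt * X ^ (r : ℝ)) * (X ^ ((r : ℝ) + 1)) ^ 2) :=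
            mul_le_mul h2 h3 (Nat.cast_nonneg _) (by positivity)
        _ = nm (s i).d * (C2 * Real.exp Rt ^ 2 * X ^ (4 * (r : ℝ) + 2)) := by
            have e : X ^ (4 * (r : ℝ) + 2) =
                X ^ (r : ℝ) * X ^ (r : ℝ) * (X ^ ((r : ℝ) + 1)) ^ 2 := by
              rw [← Real.rpow_natCast (X ^ ((r : ℝ) + 1)) 2, ← Real.rpow_mul hXp.le,
                ← Real.rpow_add hXp, ← Real.rpow_add hXp]
              congr 1
              push_cast; ring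
            rw [e]; ring
        _ ≤ nm (s i).d * (C * X ^ B₀) := by
            have h4 := Real.rpow_le_rpow_of_exponent_le hX1 hB₀
            have h5 : 0 ≤ C2 * Real.exp Rt ^ 2 := by positivity
            refine mul_le_mul_of_nonneg_left (mul_le_mul hC h4 (Real.rpow_nonneg hXp.le _)
              (h5.trans hC)) (Nat.cast_nonneg _)
  have hcst : cst cq (List.ofFn s') (List.ofFn s) ≤ ∏ i, (1 + |(j' i).s|) := by
    refine cst_le hW1' fun i => ?_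
    have e : (s' i).t = (j' i).t0 + (j' i).s := by rw [hs']; rfl
    rw [e, (hdom' i).2.1, hvt]
    exact one_add_mul le_rfl
  have hcst0 : 0 ≤ cst cq (List.ofFn s') (List.ofFn s) := by
    rw [cst_ofFn]
    exact Finset.prod_nonneg fun i _ => by linarith [one_le_cq (s' i) (s i)]
  have hLLs' : LL Dq (List.ofFn s') = ∑ i, (j' i).z := by
    rw [LL_ofFn]
    exact Finset.sum_congr rfl fun i _ => hs'z i
  have hLLs : LL Dq (List.ofFn s) = ∑ i, (s i).z := LL_ofFn s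
  have h10 := mul_le_mul_of_nonneg_right hεε hl.le
  have h11 : 0 ≤ ((r : ℝ) + 1) * ε₂ * Real.log X := by positivity
  have h14 := Real.log_nonneg hC2
  have h8 := hyp (Real.log Λ) s' hlΛ hChd (by rw [hlogΛ, hLLs']; linarith)
    (by rw [hlogΛ, hLLs', hLLs]; linarith)
  rw [hLLs', hLLs] at h8
  have hidt := XHB411.idt_nonneg (fun _ _ => True) (Real.log Λ) (List.ofFn s')
  have h12 := numP (C2 := C2) (k := k) (S := ∑ i, (s i).z) hlen2
  have h13 : cst cq (List.ofFn s') (List.ofFn s) ^ M ≤ (∏ i, (1 + |(j' i).s|)) ^ M :=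
    Real.rpow_le_rpow hcst0 hcst hM
  have eX : (X ^ ((r : ℝ) + 1)) ^ ε₂ = Real.exp (((r : ℝ) + 1) * ε₂ * Real.log X) := by
    rw [← Real.rpow_mul hXp.le, Real.rpow_def_of_pos hXp, mul_comm]
  rw [eX]
  have h15 : SDk P h (Real.log Λ) (List.ofFn s') ≤
      Bd * cst cq (List.ofFn s') (List.ofFn s) ^ M *
        Real.exp (-k / 3 - ∑ i, (s i).z + 2 / 3 * (Real.log Λ + ∑ i, (j' i).z)) := by linarith
  refine h15.trans ?_
  rw [hlogΛ]
  calc Bd * cst cq (List.ofFn s') (List.ofFn s) ^ M *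
        Real.exp (-k / 3 - ∑ i, (s i).z + 2 / 3 * (Real.log C2 +
          ((r : ℝ) + 1) * ε₂ * Real.log X + (φ + 2 * n1) - k + ∑ i, (j' i).z))
      ≤ Bd * (∏ i, (1 + |(j' i).s|)) ^ M *
        (Real.exp (2 / 3 * Real.log C2 + ρ₂ / 3) *
          Real.exp (((r : ℝ) + 1) * ε₂ * Real.log X) *
          Real.exp (-k - ∑ i, (s i).z) * Real.exp (φ + n1 + ∑ i, (j' i).z)) := by
        have h16 : 0 ≤ (∏ i, (1 + |(j' i).s|)) ^ M := Real.rpow_nonneg hW0.le _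
        exact mul_le_mul (mul_le_mul_of_nonneg_left h13 hBd) h12 (Real.exp_pos _).le
          (mul_nonneg hBd h16)
    _ = _ := by ring

/-- the base of the cross term -/
lemma baseP {r Bs ε₂ X L e1 Er nq Dd : ℝ} (hX : 1 ≤ X) (hr : 0 ≤ r) (he1 : 0 ≤ e1) (hEr : 0 ≤ Er)
    (hL0 : 0 ≤ L) (hnq0 : 0 ≤ nq) (hD0 : 0 ≤ Dd) (hε : 0 < ε₂) (h1 : e1 ≤ X ^ r * Er) (hL : L ≤ X)
    (hnq : nq ≤ Er * X ^ r) (hD : Dd ≤ X ^ (r * Bs) * (Er * X ^ r)) :
    (e1 * L * nq * Dd) ^ ε₂ ≤ (Er ^ 3) ^ ε₂ * X ^ ((3 * r + 1 + r * Bs) * ε₂) := by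
  have hXp : 0 < X := by linarith
  have hXr : 0 ≤ X ^ r := Real.rpow_nonneg hXp.le _
  have h2 : e1 * L * nq * Dd ≤ Er ^ 3 * X ^ (3 * r + 1 + r * Bs) := by
    calc e1 * L * nq * Dd ≤ (X ^ r * Er) * X * (Er * X ^ r) * (X ^ (r * Bs) * (Er * X ^ r)) := by
          have h3 : 0 ≤ X ^ (r * Bs) := Real.rpow_nonneg hXp.le _
          exact mul_le_mul (mul_le_mul (mul_le_mul h1 hL hL0 (mul_nonneg hXr hEr)) hnq hnq0
            (mul_nonneg (mul_nonneg hXr hEr) hXp.le)) hD hD0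
            (mul_nonneg (mul_nonneg (mul_nonneg hXr hEr) hXp.le) (mul_nonneg hEr hXr))
      _ = Er ^ 3 * X ^ (3 * r + 1 + r * Bs) := by
          have e : (3 * r + 1 + r * Bs) = r + r + r + 1 + r * Bs := by ring
          rw [e, Real.rpow_add hXp, Real.rpow_add hXp, Real.rpow_add hXp, Real.rpow_add hXp,
            Real.rpow_one]
          ring
  have h3 : 0 ≤ e1 * L * nq * Dd := by positivity
  calc (e1 * L * nq * Dd) ^ ε₂ ≤ (Er ^ 3 * X ^ (3 * r + 1 + r * Bs)) ^ ε₂ :=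
        Real.rpow_le_rpow h3 h2 hε.le
    _ = _ := by
        rw [Real.mul_rpow (by positivity) (Real.rpow_nonneg hXp.le _), ← Real.rpow_mul hXp.le]

/-- the cross term -/
lemma crossP {r : ℕ} {Bs ε₂ X k C4 SA Rt S Sv nq Dd cr : ℝ} (hX : 1 ≤ X) (hk0 : 0 ≤ k)
    (hkX : k ≤ Real.log X)
    (hRt : 0 ≤ Rt) (hC4 : 0 ≤ C4) (hS1 : 0 ≤ SA) (hnq0 : 0 ≤ nq) (hD0 : 0 ≤ Dd)
    (hε : 0 < ε₂) (hSv : Sv ≤ S) (hSX : Real.exp S ≤ X ^ (r : ℝ))
    (hnq : nq ≤ Real.exp Rt * X ^ (r : ℝ))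
    (hD : Dd ≤ X ^ (r * Bs) * (Real.exp Rt * X ^ (r : ℝ)))
    (h1 : cr ≤ C4 * (Real.exp (Sv + Rt) * Real.exp k * nq * Dd) ^ ε₂ * SA *
      (Real.exp (Sv + Rt) * (Real.exp (Sv + Rt) + Real.exp k))) :
    cr ≤ (C4 * (Real.exp Rt ^ 3) ^ ε₂ * Real.exp Rt ^ 2) * X ^ ((3 * r + 1 + r * Bs) * ε₂) *
      SA * (Real.exp S + Real.exp k) * Real.exp Sv := by
  have hXp : 0 < X := by linarith
  have hes : Real.exp Sv ≤ Real.exp S := Real.exp_le_exp.2 hSv
  have hLX : Real.exp k ≤ X := by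
    rw [← Real.exp_log hXp]
    exact Real.exp_le_exp.2 hkX
  have hb := baseP (r := r) (Bs := Bs) (e1 := Real.exp (Sv + Rt)) (L := Real.exp k) hX
    (Nat.cast_nonneg r) (Real.exp_pos _).le (Real.exp_pos Rt).le (Real.exp_pos _).le hnq0 hD0 hε
    (by rw [Real.exp_add]; exact mul_le_mul_of_nonneg_right (hes.trans hSX) (Real.exp_pos _).le)
    hLX hnq hD
  have hXL : Real.exp (Sv + Rt) * (Real.exp (Sv + Rt) + Real.exp k) ≤
      Real.exp Rt ^ 2 * ((Real.exp S + Real.exp k) * Real.exp Sv) := by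
    refine (xl_le Sv k hRt).trans (mul_le_mul_of_nonneg_left ?_ (by positivity))
    rw [Real.exp_add k Sv, add_mul]
    have : Real.exp Sv * Real.exp Sv ≤ Real.exp S * Real.exp Sv :=
      mul_le_mul_of_nonneg_right hes (Real.exp_pos _).le
    linarith
  refine h1.trans ?_
  have h9 : 0 ≤ Real.exp (Sv + Rt) * (Real.exp (Sv + Rt) + Real.exp k) := by positivity
  have h10 : 0 ≤ (Real.exp Rt ^ 3) ^ ε₂ * X ^ ((3 * r + 1 + r * Bs) * ε₂) :=
    mul_nonneg (Real.rpow_nonneg (by positivity) _) (Real.rpow_nonneg hXp.le _)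
  calc C4 * (Real.exp (Sv + Rt) * Real.exp k * nq * Dd) ^ ε₂ * SA *
        (Real.exp (Sv + Rt) * (Real.exp (Sv + Rt) + Real.exp k))
      ≤ C4 * ((Real.exp Rt ^ 3) ^ ε₂ * X ^ ((3 * r + 1 + r * Bs) * ε₂)) * SA *
        (Real.exp Rt ^ 2 * ((Real.exp S + Real.exp k) * Real.exp Sv)) :=
        mul_le_mul (mul_le_mul_of_nonneg_right (mul_le_mul_of_nonneg_left hb hC4) hS1) hXL h9
          (mul_nonneg (mul_nonneg hC4 h10) hS1)
    _ = _ := by ring

end Crest.Agent.R017.XPX241
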