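import Crest.Agent.R017.XPX4_241

/-!
# Row 17, exceptional class: the raw rules in BG form (helper241), part 5

* `ruleP_at` : (P_ex) as an analytic rule for `r` pieces
-/

set_option autoImplicit false
set_option maxHeartbeats 4000000

noncomputable section

open Complex
open scoped ComplexConjugate

namespace Crest.Agent.R017.XPX241

open Crest.Agent.R012 Crest.Agent.R012.Eis Crest.Agent.R012.LS2 Crest.Agent.R012.Gauss880
open Crest.Agent.R012.Div277 Crest.Agent.R012.Weight600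
open Crest.Agent.R017.CM106 Crest.Agent.R017.FE47 Crest.Agent.R017.End699
open Crest.Agent.R017.B770
open Crest.Agent.R017.Prov71
open Crest.Agent.R017.HP842 (UT pc KS sqc Kg uv alL al ssub norm_uv_le pc_support nat_sq_pc cv
  sqc_absorb Pq_sub_pc Pq_cop_pc)
open Crest.Agent.R017.XP699 (Chd cst LL lf)
open Crest.Agent.R017.XHB411 (tl idt bl_neg)
open Crest.Agent.R017.GE241 (VQ VCN KCr VK)
open Crest.Agent.R017.PE241 (CRs VKn HypK PE_rule VKn_nonneg)
open Crest.Agent.R017.PX764 (Dk)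
open Crest.Agent.R017.TPOk571 (IP FP SD SD_w SD_len SD_ht sd_ok relU)
open Crest.Agent.R017.XRG106 (tl_ofFn alL_ofFn ip ip_pc chd chd_pc one_add_mul)
open Crest.Agent.R012.T411 (NCube)

/-- the final count -/
lemma finalP {r : ℕ} {X ε ε₂ Bs C2 C3 ca K4 k S Bd SA : ℝ} (hX : 1 ≤ X) (hε₂ : 0 < ε₂)
    (hε : (4 * (r : ℝ) + 3 + r * Bs) * ε₂ = ε) (hBs : 0 ≤ r * Bs) (hC2 : 1 ≤ C2) (hC3 : 1 ≤ C3)
    (hca : 1 ≤ ca) (hK4 : 0 ≤ K4) (hSA : 1 ≤ SA) (hBd : 0 ≤ Bd)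
    (hdiag : Real.exp S * Real.exp S ≤ Real.exp (k + S) + Bd) :
    C3 * X ^ ε₂ * ((C2 * (X ^ ((r : ℝ) + 1)) ^ ε₂ * ((Real.exp S + Real.exp k + Real.exp k *
      (ca * (X ^ ((r : ℝ) + 1)) ^ ε₂ * Bd * Real.exp (-k - S))) +
      K4 * X ^ ((3 * (r : ℝ) + 1 + r * Bs) * ε₂) * SA * (Real.exp S + Real.exp k))) *
      Real.exp S) + Real.exp (k + S) ≤
      (1 + C3 * C2 * (2 + ca + 2 * K4)) * X ^ ε * SA * (Real.exp (k + S) + Bd) := by
  have hXp : 0 < X := by linarith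
  have hr0 : (0 : ℝ) ≤ r := Nat.cast_nonneg r
  have eX0 : (X ^ ((r : ℝ) + 1)) ^ ε₂ = X ^ (((r : ℝ) + 1) * ε₂) := (Real.rpow_mul hXp.le _ _).symm
  rw [eX0]
  have hF : 0 ≤ Real.exp (k + S) + Bd := by positivity
  have h6 : Real.exp k * Real.exp S = Real.exp (k + S) := by rw [Real.exp_add]
  have hX0ε : 1 ≤ X ^ (((r : ℝ) + 1) * ε₂) := Real.one_le_rpow hX (by positivity)
  have hexp3 : X ^ ε₂ * (X ^ (((r : ℝ) + 1) * ε₂) * X ^ (((r : ℝ) + 1) * ε₂)) ≤ X ^ ε := by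
    rw [← Real.rpow_add hXp, ← Real.rpow_add hXp]
    refine Real.rpow_le_rpow_of_exponent_le hX ?_
    rw [← hε]
    have h7 : (0 : ℝ) ≤ r * ε₂ := by positivity
    have h8 : 0 ≤ r * Bs * ε₂ := by positivity
    linarith
  have hexp4 : X ^ ε₂ * (X ^ (((r : ℝ) + 1) * ε₂) * X ^ ((3 * (r : ℝ) + 1 + r * Bs) * ε₂)) ≤
      X ^ ε := by
    rw [← Real.rpow_add hXp, ← Real.rpow_add hXp]
    refine Real.rpow_le_rpow_of_exponent_le hX ?_
    rw [← hε]
    linarith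
  have hXε : 1 ≤ X ^ ε := by
    refine Real.one_le_rpow hX ?_
    rw [← hε]; positivity
  have hp4 : 0 ≤ X ^ ((3 * (r : ℝ) + 1 + r * Bs) * ε₂) := Real.rpow_nonneg hXp.le _
  have hpe : 0 ≤ X ^ ε₂ := Real.rpow_nonneg hXp.le _
  generalize X ^ (((r : ℝ) + 1) * ε₂) = A at *
  generalize X ^ ((3 * (r : ℝ) + 1 + r * Bs) * ε₂) = A' at *
  generalize X ^ ε₂ = A'' at *
  generalize X ^ ε = Aε at *
  have hA0 : 0 ≤ A := by linarith
  have h5 : Real.exp k * (ca * A * Bd * Real.exp (-k - S)) * Real.exp S = ca * A * Bd := by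
    have : Real.exp k * Real.exp (-k - S) * Real.exp S = 1 := by
      rw [← Real.exp_add, ← Real.exp_add, Real.exp_eq_one_iff]; ring
    calc Real.exp k * (ca * A * Bd * Real.exp (-k - S)) * Real.exp S
        = ca * A * Bd * (Real.exp k * Real.exp (-k - S) * Real.exp S) := by ring
      _ = _ := by rw [this, mul_one]
  have hT2 : (Real.exp S + Real.exp k) * Real.exp S ≤ 2 * (Real.exp (k + S) + Bd) := by
    calc (Real.exp S + Real.exp k) * Real.exp S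
        = Real.exp S * Real.exp S + Real.exp k * Real.exp S := by ring
      _ ≤ _ := by rw [h6]; linarith
  have hT1 : (Real.exp S + Real.exp k + Real.exp k * (ca * A * Bd * Real.exp (-k - S))) *
      Real.exp S ≤ (2 + ca) * A * (Real.exp (k + S) + Bd) := by
    have e : (Real.exp S + Real.exp k + Real.exp k * (ca * A * Bd * Real.exp (-k - S))) *
        Real.exp S = (Real.exp S + Real.exp k) * Real.exp S + ca * A * Bd := by
      rw [add_mul, h5]
    rw [e]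
    have h8 : 0 ≤ ca * A := by positivity
    have h9 : ca * A * Bd ≤ ca * A * (Real.exp (k + S) + Bd) :=
      mul_le_mul_of_nonneg_left (by linarith [Real.exp_pos (k + S)]) h8
    have h10 : 2 * (Real.exp (k + S) + Bd) ≤ 2 * A * (Real.exp (k + S) + Bd) := by
      refine mul_le_mul_of_nonneg_right ?_ hF
      linarith
    linarith
  have hFe : Real.exp (k + S) ≤ Real.exp (k + S) + Bd := by linarith
  generalize Real.exp k * (ca * A * Bd * Real.exp (-k - S)) = q1 at *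
  generalize hFd : Real.exp (k + S) + Bd = F at *
  have hSA0 : 0 ≤ SA := by linarith
  have hC20 : 0 ≤ C2 := by linarith
  have hC30 : 0 ≤ C3 := by linarith
  have hca0 : 0 ≤ ca := by linarith
  have hAε0 : 0 ≤ Aε := by linarith
  calc C3 * A'' * ((C2 * A * ((Real.exp S + Real.exp k + q1) +
        K4 * A' * SA * (Real.exp S + Real.exp k))) * Real.exp S) + Real.exp (k + S)
      = C3 * A'' * (C2 * A * ((Real.exp S + Real.exp k + q1) * Real.exp S +
        K4 * A' * SA * ((Real.exp S + Real.exp k) * Real.exp S))) + Real.exp (k + S) := by ring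
    _ ≤ C3 * A'' * (C2 * A * ((2 + ca) * A * F + K4 * A' * SA * (2 * F))) + F := by
        have h1 : 0 ≤ K4 * A' * SA := by positivity
        have h2 := mul_le_mul_of_nonneg_left hT2 h1
        have h3 : 0 ≤ C2 * A := by positivity
        have h4 : 0 ≤ C3 * A'' := by positivity
        exact add_le_add (mul_le_mul_of_nonneg_left (mul_le_mul_of_nonneg_left
          (add_le_add hT1 h2) h3) h4) hFe
    _ = (C3 * C2 * ((2 + ca) * (A'' * (A * A)) * 1 + 2 * K4 * (A'' * (A * A')) * SA) + 1 * 1) * F := by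
        ring
    _ ≤ (C3 * C2 * ((2 + ca) * Aε * SA + 2 * K4 * Aε * SA) + Aε * SA) * F := by gcongr
    _ = (1 + C3 * C2 * (2 + ca + 2 * K4)) * Aε * SA * F := by ring

/-- **(P_ex), `r` pieces** -/
theorem ruleP_at {h : ℝ → ℝ} {c : ℝ} (hpu : PU h c) {P : DPar} (hP : P.OK) (HC : CrP h P)
    (Z : ℝ → List Pq → Prop) {Bs : ℝ} (hBs : 0 ≤ Bs) {ε M : ℝ} (hε : 0 < ε) (hM : 0 ≤ M) (r : ℕ)
    {B₀ : ℝ} (hB₀ : 4 * (r : ℝ) + 2 ≤ B₀) :
    ∃ C ρ J : ℝ, 0 ≤ C ∧ 0 ≤ ρ ∧ 0 ≤ J ∧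
      RuleAt (fun l ps => RN P h l ps + idt Z l ps)
        (fun l ps => SDk P h l ps + idt (fun _ _ => True) l ps)
        {![-1, 0, -1, 2], ![1, -3, 1, 1]} ![-1 / 3, -1, 2 / 3, 2 / 3] r Bs B₀ ε M C ρ J := by
  classical
  obtain ⟨R, hR0, hR⟩ := exists_R (cs_cx hpu.cs)
  obtain ⟨μ, hμd⟩ : ∃ μ : ℝ, μ = M / 2 := ⟨_, rfl⟩
  have hμ : 0 ≤ μ := by rw [hμd]; positivity
  have hΦ := sd_ok hpu hR0 hR hμ r
  obtain ⟨Rt, hRt⟩ : ∃ Rt : ℝ, Rt = r * (2 * R + 3) := ⟨_, rfl⟩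
  rw [← hRt] at hΦ
  have hr0 : (0 : ℝ) ≤ r := Nat.cast_nonneg r
  have hRt0 : 0 ≤ Rt := by rw [hRt]; positivity
  have hrR : r * R ≤ Rt := by rw [hRt]; nlinarith
  have hrBs : 0 ≤ r * Bs := by positivity
  obtain ⟨ε₂, hε₂⟩ : ∃ e : ℝ, e = ε / (4 * r + 3 + r * Bs) := ⟨_, rfl⟩
  have hε₂0 : 0 < ε₂ := by rw [hε₂]; positivity
  have hDε : (4 * (r : ℝ) + 3 + r * Bs) * ε₂ = ε := by rw [hε₂]; field_simp
  obtain ⟨C2, ρ₂, hC2, hρ₂, hPE⟩ := PE_rule hΦ (ε := ε₂) (δ := min (ε₂ / 20) (1 / 20))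
    (lt_min (by positivity) (by norm_num)) (by
      have := min_le_left (ε₂ / 20) (1 / 20 : ℝ)
      linarith) (min_le_right _ _)
  obtain ⟨C3, hC3, hS⟩ := nat_sq_pc r hR0 hε₂0
  obtain ⟨C4, A4, hC4, hA4, hK⟩ := HC r ε₂ (R + Rt) hε₂0 (by linarith)
  have hlC2 : 0 ≤ Real.log C2 := Real.log_nonneg hC2
  obtain ⟨ca, hca⟩ : ∃ ca : ℝ, ca = Real.exp (2 / 3 * Real.log C2 + ρ₂ / 3) := ⟨_, rfl⟩
  have hca1 : 1 ≤ ca := by rw [hca]; exact Real.one_le_exp (by positivity)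
  obtain ⟨K4, hK4⟩ : ∃ K4 : ℝ, K4 = C4 * (Real.exp Rt ^ 3) ^ ε₂ * Real.exp Rt ^ 2 := ⟨_, rfl⟩
  have hK40 : 0 ≤ K4 := by rw [hK4]; positivity
  have hCa : 0 ≤ C3 * C2 * (2 + ca + 2 * K4) := by positivity
  have hCb : 0 ≤ C2 * Real.exp Rt ^ 2 := by positivity
  obtain ⟨C, hCdef⟩ : ∃ C : ℝ, C = 1 + C3 * C2 * (2 + ca + 2 * K4) + C2 * Real.exp Rt ^ 2 :=
    ⟨_, rfl⟩
  have hC0 : 0 ≤ C := by rw [hCdef]; positivity
  have hC1' : 1 ≤ C := by rw [hCdef]; linarith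
  have hCe : C2 * Real.exp Rt ^ 2 ≤ C := by rw [hCdef]; linarith
  obtain ⟨ρ, hρ⟩ : ∃ ρ : ℝ, ρ = Real.log C2 + 4 * ρ₂ := ⟨_, rfl⟩
  have hρ0 : 0 ≤ ρ := by rw [hρ]; linarith
  refine ⟨C, ρ, A4, hC0, hρ0, hA4, ?_⟩
  intro X hX k s hk hkX hs hd Dd hDd hDl Bd hBd hyp0
  have hXp : 0 < X := by linarith
  have hX1 : 1 ≤ X := by linarith
  have hs0 : ∀ i, 0 ≤ (s i).z := fun i => (hs i).1
  have hSL : LL Dq (List.ofFn s) = ∑ i, (s i).z := LL_ofFn s
  have hSt : tl Dq (List.ofFn s) = ∑ i, (s i).z := tl_ofFn s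
  have hyp : ChP P h s X k Bd B₀ ε M C ρ := by
    intro l s' hl hch h1 h2
    have := hyp0 l s' hl hch (by
      intro c hc
      rw [Finset.mem_insert, Finset.mem_singleton] at hc
      rcases hc with hc | hc
      · rw [hc, lf_P1]; exact h1
      · rw [hc, lf_P2]; exact h2)
    rw [lf_P] at this
    exact this
  have hdiag := diagP hyp hX hBd (by linarith) hC1' hε hρ0 hs0
  have hSr : ∑ i, (s i).z ≤ r * Real.log X := by
    calc ∑ i, (s i).z ≤ ∑ _i : Fin r, Real.log X := Finset.sum_le_sum fun i _ => (hs i).2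
      _ = _ := by rw [Finset.sum_const, Finset.card_univ, Fintype.card_fin, nsmul_eq_mul]
  have hSX : Real.exp (∑ i, (s i).z) ≤ X ^ (r : ℝ) := by
    rw [Real.rpow_def_of_pos hXp, mul_comm]
    exact Real.exp_le_exp.2 hSr
  have hX01 : 1 ≤ X ^ ((r : ℝ) + 1) := Real.one_le_rpow hX1 (by positivity)
  have hX0p : 0 < X ^ ((r : ℝ) + 1) := by linarith
  have hL1 : 1 ≤ Real.exp k := Real.one_le_exp hk
  have hLX : Real.exp k ≤ X := by
    rw [← Real.exp_log hXp]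
    exact Real.exp_le_exp.2 hkX
  have hXX0 : X ≤ X ^ ((r : ℝ) + 1) := by
    calc X = X ^ (1 : ℝ) := (Real.rpow_one X).symm
      _ ≤ X ^ ((r : ℝ) + 1) := Real.rpow_le_rpow_of_exponent_le hX1 (by linarith)
  have hSX0 : Real.exp (∑ i, (s i).z) ≤ X ^ ((r : ℝ) + 1) :=
    hSX.trans (Real.rpow_le_rpow_of_exponent_le hX1 (by linarith))
  have hlogX0 : Real.log (X ^ ((r : ℝ) + 1)) = ((r : ℝ) + 1) * Real.log X := Real.log_rpow hXp _
  have hS11 : 1 ≤ ∏ i, (1 + |(s i).t|) :=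
    Finset.one_le_prod fun i _ => by linarith [abs_nonneg (s i).t]
  have hSA : 1 ≤ Dd ^ 2 * (∏ i, (1 + |(s i).t|)) ^ A4 :=
    one_le_mul_of_one_le_of_one_le (one_le_pow₀ hDd) (Real.one_le_rpow hS11 hA4)
  obtain ⟨S, hSd⟩ : ∃ S : ℝ, S = ∑ i, (s i).z := ⟨_, rfl⟩
  obtain ⟨SA, hSAd⟩ : ∃ SA : ℝ, SA = Dd ^ 2 * (∏ i, (1 + |(s i).t|)) ^ A4 := ⟨_, rfl⟩
  rw [← hSAd] at hSA
  rw [← hSd] at hSL hSt hdiag hSX hSX0
  have hfin := finalP (r := r) (X := X) (Bs := Bs) hX1 hε₂0 hDε hrBs hC2 hC3 hca1 hK40 hSA hBd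
    hdiag
  obtain ⟨B, hB⟩ : ∃ B : ℝ, B = (C2 * (X ^ ((r : ℝ) + 1)) ^ ε₂ * ((Real.exp S + Real.exp k +
      Real.exp k * (ca * (X ^ ((r : ℝ) + 1)) ^ ε₂ * Bd * Real.exp (-k - S))) +
      K4 * X ^ ((3 * (r : ℝ) + 1 + r * Bs) * ε₂) * SA * (Real.exp S + Real.exp k))) := ⟨_, rfl⟩
  rw [← hB] at hfin
  have hX0ε0 : 0 ≤ (X ^ ((r : ℝ) + 1)) ^ ε₂ := Real.rpow_nonneg hX0p.le _
  have hp4 : 0 ≤ X ^ ((3 * (r : ℝ) + 1 + r * Bs) * ε₂) := Real.rpow_nonneg hXp.le _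
  have hB0 : 0 ≤ B := by rw [hB]; positivity
  have hh : Bump h := ⟨R, hR⟩
  have key := hS h hR (Fin r) (by simp) (fun i => (s i).pc P) (fun i => Pq.ok hP (s i)) X hX1
    (fun i => by
      show Real.exp (s i).z ≤ X
      rw [← Real.exp_log hXp]; exact Real.exp_le_exp.2 (hs i).2)
    ((bl (Real.exp k)).filter NCube) (fun _ => 1) (fun _ _ => zero_le_one) B hB0 ?_
  · -- the conclusion
    have eY : ∏ i, ((s i).pc P).Y = Real.exp S := by
      rw [hSd, Real.exp_sum]; rfl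
    rw [eY] at key
    have e1 : RN P h k (List.ofFn s) =
        ∑ x ∈ (bl (Real.exp k)).filter NCube, (1 : ℝ) *
          ‖CS (al h fun i => (s i).pc P) x‖ ^ 2 := by
      rw [RN_ofFn' hh hP]
      unfold GE241.VCN GE241.VQ
      exact Finset.sum_congr rfl fun k _ => (one_mul _).symm
    have hidt : idt Z k (List.ofFn s) ≤ Real.exp (k + S) := by
      unfold XHB411.idt
      split_ifs
      · rw [hSt]
      · exact (Real.exp_pos _).le
    have eSA : ∀ a b : ℝ, a * (∏ i, (1 + |(s i).t|)) ^ A4 * Dd ^ 2 * b = a * SA * b := by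
      intro a b
      rw [hSAd]; ring
    rw [s1_ofFn, hSL, eSA]
    show RN P h k (List.ofFn s) + idt Z k (List.ofFn s) ≤ _
    calc RN P h k (List.ofFn s) + idt Z k (List.ofFn s)
        ≤ C3 * X ^ ε₂ * (B * Real.exp S) + Real.exp (k + S) := by
          rw [e1]; exact add_le_add key hidt
      _ ≤ (1 + C3 * C2 * (2 + ca + 2 * K4)) * X ^ ε * SA * (Real.exp (k + S) + Bd) := hfin
      _ ≤ C * X ^ ε * SA * (Real.exp (k + S) + Bd) := by
          have h1 : 1 + C3 * C2 * (2 + ca + 2 * K4) ≤ C := by rw [hCdef]; linarith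
          have h2 : 0 ≤ X ^ ε := Real.rpow_nonneg hXp.le _
          have h3 : 0 ≤ SA := by linarith
          have h4 : 0 ≤ Real.exp (k + S) + Bd := by positivity
          exact mul_le_mul_of_nonneg_right (mul_le_mul_of_nonneg_right
            (mul_le_mul_of_nonneg_right h1 h2) h3) h4
  -- the sub-families
  intro a ha _
  have ha0' : ∀ i, a i ≠ 0 := fun i => (ha i).ne_zero
  obtain ⟨v, hv⟩ : ∃ v : Fin r → Pq, v = fun i => (s i).sub (a i) (ha0' i) := ⟨_, rfl⟩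
  have hvz : ∀ i, (v i).z = (s i).z - Real.log (nm (a i)) := fun i => by rw [hv]; rfl
  have hvt : ∀ i, (v i).t = (s i).t := fun i => by rw [hv]; rfl
  have hloga : ∀ i, 0 ≤ Real.log (nm (a i)) := fun i =>
    Real.log_nonneg (by exact_mod_cast nm_pos.2 (ha0' i))
  have e2 : ssub (fun i => (s i).pc P) a = fun i => (v i).pc P := by
    funext i
    rw [hv]
    exact (Pq_sub_pc P (s i) (ha0' i)).symm
  have hY : ∏ i, (ssub (fun i => (s i).pc P) a i).Y = ∏ i, Real.exp (v i).z := by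
    rw [e2]
    rfl
  rw [hY, e2]
  have hr0' : 0 ≤ B * ∏ i, Real.exp (v i).z :=
    mul_nonneg hB0 (Finset.prod_nonneg fun i _ => (Real.exp_pos _).le)
  by_cases hneg : ∃ i, (v i).z < -R
  · obtain ⟨i, hi⟩ := hneg
    rw [al_eq_zero hR hP hi]
    rw [Finset.sum_eq_zero]
    · exact hr0'
    intro k _
    have : sqc (∏ i, a i) (0 : Eis → ℂ) = 0 := by
      funext n
      simp [HP842.sqc]
    rw [this, TP320.CS_zero_seq]
    simp
  push Not at hneg
  have hq : IsPrim (∏ i, a i) := HP842.isPrim_prod ha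
  obtain ⟨q, hqd⟩ : ∃ q, q = ∏ i, a i := ⟨_, rfl⟩
  rw [← hqd] at hq ⊢
  have hlen : (SD h μ r).len (jx hP v) = ∑ i, (v i).z := SD_jx_len hP h μ v
  have hht : (SD h μ r).ht (jx hP v) = 1 := SD_jx_ht hP h μ v
  have hwj : (SD h μ r).w (jx hP v) = al h (fun i => (v i).pc P) := SD_jx_w hP h μ v
  have hSvS' : ∑ i, (v i).z ≤ ∑ i, (s i).z :=
    Finset.sum_le_sum fun i _ => by rw [hvz]; linarith [hloga i]
  have hSvL : ∑ i, (v i).z = ∑ i, (s i).z - ∑ i, Real.log (nm (a i)) := by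
    rw [Finset.sum_congr rfl fun i _ => hvz i, Finset.sum_sub_distrib]
  have hSvR : -(r * R) ≤ ∑ i, (v i).z := by
    calc -(r * R) = ∑ _i : Fin r, (-R) := by
          rw [Finset.sum_const, Finset.card_univ, Fintype.card_fin, nsmul_eq_mul]; ring
      _ ≤ ∑ i, (v i).z := Finset.sum_le_sum fun i _ => hneg i
  have hnmq : (nm q : ℝ) = Real.exp (∑ i, Real.log (nm (a i))) := by
    rw [Real.exp_sum, hqd, HP842.nm_prod_cast]
    exact Finset.prod_congr rfl fun i _ =>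
      (Real.exp_log (by exact_mod_cast nm_pos.2 (ha0' i))).symm
  have hnmq2 : (nm q : ℝ) ≤ Real.exp Rt * X ^ (r : ℝ) := by
    rw [hnmq]
    calc Real.exp (∑ i, Real.log (nm (a i))) ≤ Real.exp (Rt + S) :=
          Real.exp_le_exp.2 (by rw [hSd]; linarith)
      _ = Real.exp Rt * Real.exp S := Real.exp_add _ _
      _ ≤ _ := mul_le_mul_of_nonneg_left hSX (Real.exp_pos _).le
  have hnma : ∀ i, (nm (a i) : ℝ) ≤ nm q := by
    intro i
    rw [hnmq, ← Real.exp_log (show (0 : ℝ) < nm (a i) by exact_mod_cast nm_pos.2 (ha0' i))]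
    exact Real.exp_le_exp.2 (Finset.single_le_sum (f := fun i => Real.log (nm (a i)))
      (fun i _ => hloga i) (Finset.mem_univ i))
  have hvd : ∀ i, (nm (v i).d : ℝ) ≤ nm (s i).d * nm (a i) := by
    intro i
    have hb1 : (1 : ℝ) ≤ nm (a i) := by exact_mod_cast nm_pos.2 (ha0' i)
    have e5 : (v i).d = if (s i).u = .mu ∨ (s i).u = .sq then (s i).d * a i else (s i).d := by
      rw [hv]; rfl
    rw [e5]
    split_ifs
    · rw [nm_mul]; push_cast; exact le_rfl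
    · exact le_mul_of_one_le_right (Nat.cast_nonneg _) hb1
  have hsq : ∀ q', TP320.sq q' ((SD h μ r).w (jx hP v)) =
      sqc q' (al h fun i => (v i).pc P) := fun q' => by
    rw [HP842.sq_eq_sqc (fun n => hΦ.prim (jx hP v) n), hwj]
  have eV : ∑ x ∈ (bl (Real.exp k)).filter NCube, (1 : ℝ) *
      ‖CS (sqc q (al h fun i => (v i).pc P)) x‖ ^ 2 =
      VCN (Real.exp k) (TP320.sq q ((SD h μ r).w (jx hP v))) := by
    rw [hsq]
    unfold GE241.VCN GE241.VQ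
    exact Finset.sum_congr rfl fun k _ => one_mul _
  rw [eV, ← Real.exp_sum]
  have hE := hPE (X ^ ((r : ℝ) + 1)) (Real.exp k)
    (ca * (X ^ ((r : ℝ) + 1)) ^ ε₂ * Bd * Real.exp (-k - S)) (hX.trans hXX0) hL1
    (hLX.trans hXX0) (by positivity) (jx hP v)
    (by rw [hlen]; exact (Real.exp_le_exp.2 (hSvS'.trans hSd.ge)).trans hSX0) q hq ?_
  · -- the bound
    rw [hht, hlen, one_pow, mul_one] at hE
    refine hE.trans ?_
    have hes : Real.exp (∑ i, (v i).z) ≤ Real.exp S := Real.exp_le_exp.2 (hSvS'.trans hSd.ge)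
    have hsupp : PA842.Supp (sqc q (al h fun i => (v i).pc P))
        (Real.exp ((∑ i, (v i).z) + Rt)) := by
      rw [← hsq]
      exact TP320.supp_sq hΦ q (jx hP v) (by rw [hlen])
    have hdp0 : 0 ≤ ∏ i, (nm (v i).d : ℝ) := Finset.prod_nonneg fun i _ => Nat.cast_nonneg _
    have hdp : ∏ i, (nm (v i).d : ℝ) ≤ X ^ (r * Bs) * (Real.exp Rt * X ^ (r : ℝ)) := by
      calc ∏ i, (nm (v i).d : ℝ) ≤ ∏ i, (X ^ Bs * (nm (a i) : ℝ)) :=
            Finset.prod_le_prod (fun i _ => Nat.cast_nonneg _) fun i _ =>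
              (hvd i).trans (mul_le_mul_of_nonneg_right (hd i) (Nat.cast_nonneg _))
        _ = X ^ (r * Bs) * nm q := by
            rw [Finset.prod_mul_distrib, Finset.prod_const, Finset.card_univ, Fintype.card_fin,
              ← Real.rpow_natCast, ← Real.rpow_mul hXp.le, mul_comm Bs, hqd, HP842.nm_prod_cast]
        _ ≤ _ := mul_le_mul_of_nonneg_left hnmq2 (Real.rpow_nonneg hXp.le (r * Bs))
    have hcr : Real.exp k * CRs (Real.exp ((∑ i, (v i).z) + Rt)) (Real.exp k)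
        (Real.exp ((∑ i, (v i).z) + Rt) ^ min (ε₂ / 20) (1 / 20))
        (TP320.sq q ((SD h μ r).w (jx hP v))) ≤
        K4 * X ^ ((3 * (r : ℝ) + 1 + r * Bs) * ε₂) * SA * (Real.exp S + Real.exp k) *
          Real.exp (∑ i, (v i).z) := by
      rw [hsq, hK4, hSAd]
      have hSA0 : 0 ≤ Dd ^ 2 * (∏ i, (1 + |(s i).t|)) ^ A4 := by rw [← hSAd]; linarith
      refine crossP hX1 hk hkX hRt0 hC4 hSA0 (Nat.cast_nonneg (nm q)) hdp0 hε₂0
        (hSvS'.trans hSd.ge) hSX hnmq2 hdp ?_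
      rcases lt_or_ge (Real.exp ((∑ i, (v i).z) + Rt)) 1 with hx | hx
      · rw [CRs_small hx, mul_zero]
        have h1 : 0 ≤ (Real.exp ((∑ i, (v i).z) + Rt) * Real.exp k * nm q *
          ∏ i, (nm (v i).d : ℝ)) ^ ε₂ := Real.rpow_nonneg (by positivity) _
        positivity
      have h1 := hK v q (Real.exp ((∑ i, (v i).z) + Rt)) (Real.exp k)
        (Real.exp ((∑ i, (v i).z) + Rt) ^ min (ε₂ / 20) (1 / 20)) Dd hq hDd (fun i hnl => by
          refine le_trans (Real.exp_le_exp.2 ?_) (hDl i fun hl => hnl ?_)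
          · rw [hvz]; linarith [hloga i]
          · rw [hv]
            refine ⟨hl.1, ?_⟩
            show ((s i).u).sub (a i) = .one
            rw [hl.2]
            unfold HP842.UT.sub
            rw [if_neg]
            rintro ⟨h3, _⟩
            exact absurd h3 (by decide))
        (fun i => by linarith [hneg i]) hx hL1 (Real.one_le_rpow hx (le_min (by positivity)
          (by norm_num))) (Real.exp_le_exp.2 (by linarith)) hsupp
      have e3 : ∏ i, (1 + |(v i).t|) = ∏ i, (1 + |(s i).t|) :=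
        Finset.prod_congr rfl fun i _ => by rw [hvt]
      rw [e3] at h1
      refine h1.trans (le_of_eq ?_)
      ring
    have h0 : 0 ≤ C2 * (X ^ ((r : ℝ) + 1)) ^ ε₂ := by positivity
    have h2 := mul_le_mul_of_nonneg_left (add_le_add (mul_le_mul_of_nonneg_right
      (show Real.exp (∑ i, (v i).z) + Real.exp k + Real.exp k *
        (ca * (X ^ ((r : ℝ) + 1)) ^ ε₂ * Bd * Real.exp (-k - S)) ≤
        Real.exp S + Real.exp k + Real.exp k *
        (ca * (X ^ ((r : ℝ) + 1)) ^ ε₂ * Bd * Real.exp (-k - S)) by linarith)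
      (Real.exp_pos (∑ i, (v i).z)).le) hcr) h0
    refine h2.trans (le_of_eq ?_)
    rw [hB]; ring
  -- the children
  intro j' q' n1 φ hgood hdom hφ hn1 hlen1 hlen2 hq' hqq' hnq' _
  have hgood' : ∀ i, 0 ≤ (j' i).z := hgood
  have hdom' : ∀ i, (j' i).z ≤ (v i).z + ρ₂ ∧ (j' i).t0 = (v i).t ∧ (j' i).ψ = (ip hP (v i)).ψ ∧
      relU (j' i).u (v i).u := hdom
  rw [hlen] at hn1
  have hlenj' : (SD h μ r).len j' = ∑ i, (j' i).z := SD_len h μ r j'
  rw [hlenj'] at hlen1 hlen2 ⊢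
  rw [hlogX0, ← mul_assoc, mul_comm ε₂] at hlen2
  have hW1' : ∀ i, (1 : ℝ) ≤ 1 + |(j' i).s| := fun i => by linarith [abs_nonneg (j' i).s]
  have hW1 : 1 ≤ ∏ i, (1 + |(j' i).s|) := Finset.one_le_prod fun i _ => hW1' i
  have hht' : (SD h μ r).ht j' ^ 2 = (∏ i, (1 + |(j' i).s|)) ^ M := by
    rw [SD_ht, Real.finset_prod_rpow _ _ fun i _ => by linarith [hW1' i],
      ← Real.rpow_natCast, ← Real.rpow_mul (by linarith)]
    congr 1
    push_cast
    rw [hμd]; ring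
  have hsq' : TP320.sq q' ((SD h μ r).w j') = sqc q' (al h fun i => (j' i).pc) := by
    rw [HP842.sq_eq_sqc (fun n => hΦ.prim j' n), SD_w]
  rw [hht', hsq']
  have hΛ0 : 0 < C2 * (X ^ ((r : ℝ) + 1)) ^ ε₂ * Real.exp (φ + 2 * n1) / Real.exp k := by
    have : 0 < (X ^ ((r : ℝ) + 1)) ^ ε₂ := Real.rpow_pos_of_pos hX0p _
    positivity
  have hlogΛ : Real.log (C2 * (X ^ ((r : ℝ) + 1)) ^ ε₂ * Real.exp (φ + 2 * n1) / Real.exp k) =
      Real.log C2 + ((r : ℝ) + 1) * ε₂ * Real.log X + (φ + 2 * n1) - k := by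
    have h1 : 0 < (X ^ ((r : ℝ) + 1)) ^ ε₂ := Real.rpow_pos_of_pos hX0p _
    rw [Real.log_div (by positivity) (Real.exp_pos k).ne',
      Real.log_mul (by positivity) (Real.exp_pos _).ne',
      Real.log_mul (by linarith) h1.ne', ← Real.rpow_mul hXp.le, Real.log_rpow hXp,
      Real.log_exp, Real.log_exp]
  have hε9 : ((r : ℝ) + 1) * ε₂ ≤ ε := by
    rw [← hDε]
    refine mul_le_mul_of_nonneg_right ?_ hε₂0.le
    linarith
  have := childP hP hyp ha0' hv hX hBd hM hε₂0 hε9 hC2 hρ₂ hρ.ge hCe hB₀ hSvS' hnma hnmq2 hgood'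
    hdom' hφ hn1 hlen1 hlen2 hq' hnq' hΛ0 hlogΛ
  rw [← hca, ← hSd] at this
  exact this

end Crest.Agent.R017.XPX241
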