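import Crest.Agent.R017.XPX5_241
import Crest.Agent.R017.XPA_699

/-!
# Row 17, exceptional class: the raw rules in BG form (helper241), part 6

* `rawG_ex` : the field `rawG` for `SK Dk` and `RQ NCube + idt Z`
* `rawP_ex` : the field `rawP` for `SK Dk` and `RQ NCube + idt Z` (with `2 n ≤ E`)
-/

set_option autoImplicit false
set_option maxHeartbeats 400000

noncomputable section

open Complex
open scoped ComplexConjugate

namespace Crest.Agent.R017.XPX241

open Crest.Agent.R012 Crest.Agent.R012.Eis Crest.Agent.R012.LS2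
open Crest.Agent.R017.CM106 Crest.Agent.R017.FE47
open Crest.Agent.R017.B770
open Crest.Agent.R017.Prov71
open Crest.Agent.R017.XG702 (Pcs BG)
open Crest.Agent.R017.HP842 (pc)
open Crest.Agent.R017.XP699 (Chd cst LL lf BG_add BG_mono_l)
open Crest.Agent.R017.XHB411 (tl idt idt_nonneg bl_neg EHB hbL_C hbL_D BG_of_bound ok_map one_le_map
  LL_pc alL0_eq)
open Crest.Agent.R017.PX764 (Dk)
open Crest.Agent.R012.T411 (NCube)

variable {Lam : Type*}

/-- the noncube character side with the ideal term -/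
def RT (Z : ℝ → List Pq → Prop) (P : DPar) (h : ℝ → ℝ) (l : ℝ) (ps : List Pq) : ℝ :=
  RN P h l ps + idt Z l ps

lemma tl_nonneg' {ps : List Pq} (h : ∀ p ∈ ps, 0 ≤ Dq.len p) : 0 ≤ tl Dq ps := by
  unfold XHB411.tl
  refine List.sum_nonneg fun x hx => ?_
  obtain ⟨p, hp, rfl⟩ := List.mem_map.1 hx
  exact h p hp

/-- the ideal term is ideal -/
theorem bg_idt' (Z : ℝ → List Pq → Prop) (κ : ℝ) (u : List ℝ) (m a : ℝ) :
    BG Dq (fun _ : Lam => idt Z) κ u (wt m a) (κ + (u.sum + m + a)) := by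
  have h1 := BG_of_bound (Lam := Lam) (D := Dq) (Ψ := fun _ => idt Z) (fun l L => l + L)
    (fun l l' L L' => by
      have h1 := le_abs_self (l' - l)
      have h2 := le_abs_self (L' - L)
      have h3 := abs_nonneg (l' - l)
      have h4 := abs_nonneg (L' - L)
      linarith) (fun c l L _ => by ring) ?_ ?_ κ u (wt m a)
  · rw [XHB411.sum_wt] at h1
    refine h1.mono (le_of_eq ?_)
    ring
  · intro _ n ε hε
    refine ⟨1, le_rfl, fun l ps hl _ hz => ?_⟩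
    have h0 := tl_nonneg' hz
    show idt Z l ps ≤ _
    unfold XHB411.idt
    split_ifs
    · rw [one_mul]
      refine le_mul_of_one_le_left (Real.exp_pos _).le (Real.one_le_exp (by positivity))
    · positivity
  · intro _ l ps hl
    show idt Z l ps ≤ 0
    unfold XHB411.idt
    rw [if_neg (fun h0 => by linarith [h0.1])]

lemma triv_RT {h : ℝ → ℝ} {c : ℝ} (hpu : PU h c) {P : DPar} (hP : P.OK)
    (Z : ℝ → List Pq → Prop) (N : ℕ) : ∃ C T : ℝ, 0 ≤ C ∧ 0 ≤ T ∧ ∀ (l : ℝ) (ps : List Pq), 0 ≤ l →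
      ps.length ≤ N → (∀ p ∈ ps, 0 ≤ Dq.len p) → RT Z P h l ps ≤ C * Real.exp (T * (l + LL Dq ps)) := by
  classical
  obtain ⟨C, hC, hb⟩ := hbL_C hpu N one_pos
  refine ⟨C + 1, 3, by linarith, by norm_num, fun l ps hl hlen hz => ?_⟩
  have h2 := hb l (ps.map (Pq.pc P)) hl (by rw [List.length_map]; exact hlen) (ok_map hP ps)
    (one_le_map hz)
  rw [LL_pc] at h2
  have htl := tl_nonneg' hz
  have hE := XRG106.EHB_le hl htl
  have h3 : RN P h l ps ≤ C * Real.exp (1 * (l + tl Dq ps)) * Real.exp (EHB l (tl Dq ps)) := by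
    refine le_trans ?_ h2
    unfold RN
    rw [RQ_eq (bump_of_cs hpu.cs) l (ok_map hP ps), alL0_eq]
    exact Finset.sum_le_sum_of_subset_of_nonneg (Finset.filter_subset _ _)
      fun _ _ _ => by positivity
  have h4 : RN P h l ps ≤ C * Real.exp (3 * (l + tl Dq ps)) := by
    refine h3.trans ?_
    rw [mul_assoc, ← Real.exp_add]
    refine mul_le_mul_of_nonneg_left (Real.exp_le_exp.2 ?_) (by linarith)
    linarith
  have h5 : idt Z l ps ≤ Real.exp (3 * (l + tl Dq ps)) := by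
    unfold XHB411.idt
    split_ifs
    · exact Real.exp_le_exp.2 (by linarith)
    · exact (Real.exp_pos _).le
  show RN P h l ps + idt Z l ps ≤ (C + 1) * Real.exp (3 * (l + tl Dq ps))
  linarith

lemma triv_SI {h : ℝ → ℝ} {c : ℝ} (hpu : PU h c) {P : DPar} (hP : P.OK)
    (Z : ℝ → List Pq → Prop) (N : ℕ) : ∃ C T : ℝ, 0 ≤ C ∧ 0 ≤ T ∧ ∀ (l : ℝ) (ps : List Pq), 0 ≤ l →
      ps.length ≤ N → (∀ p ∈ ps, 0 ≤ Dq.len p) →
        SDk P h l ps + idt Z l ps ≤ C * Real.exp (T * (l + LL Dq ps)) := by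
  classical
  obtain ⟨C, hC, hb⟩ := hbL_D hpu N one_pos
  refine ⟨C + 1, 3, by linarith, by norm_num, fun l ps hl hlen hz => ?_⟩
  have h2 := hb 1 l (ps.map (Pq.pc P)) hl (by rw [List.length_map]; exact hlen) (ok_map hP ps)
    (one_le_map hz)
  rw [LL_pc, alL0_eq] at h2
  have htl := tl_nonneg' hz
  have hE := XRG106.EHB_le hl htl
  have h4 : SDk P h l ps ≤ C * Real.exp (3 * (l + tl Dq ps)) := by
    refine le_trans h2 ?_
    rw [mul_assoc, ← Real.exp_add]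
    refine mul_le_mul_of_nonneg_left (Real.exp_le_exp.2 ?_) (by linarith)
    linarith
  have h5 : idt Z l ps ≤ Real.exp (3 * (l + tl Dq ps)) := by
    unfold XHB411.idt
    split_ifs
    · exact Real.exp_le_exp.2 (by linarith)
    · exact (Real.exp_pos _).le
  show SDk P h l ps + idt Z l ps ≤ (C + 1) * Real.exp (3 * (l + tl Dq ps))
  linarith

lemma bl_mono {K L : ℝ} (hK : 0 ≤ K) (h : K ≤ L) : bl K ⊆ bl L := fun x hx => by
  rw [mem_bl hK] at hx
  rw [mem_bl (hK.trans h)]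
  exact ⟨hx.1, hx.2.trans h⟩

lemma SDk_mono (P : DPar) (h : ℝ → ℝ) {l l' : ℝ} (hl : l ≤ l') (ps : List Pq) :
    SDk P h l ps ≤ SDk P h l' ps := by
  unfold SDk SK
  exact Finset.sum_le_sum_of_subset_of_nonneg (bl_mono (Real.exp_pos _).le (Real.exp_le_exp.2 hl))
    fun _ _ _ => by positivity

lemma RN_mono (P : DPar) (h : ℝ → ℝ) {l l' : ℝ} (hl : l ≤ l') (ps : List Pq) :
    RN P h l ps ≤ RN P h l' ps := by
  classical
  unfold RN RQ
  refine Finset.sum_le_sum_of_subset_of_nonneg (Finset.filter_subset_filter _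
    (bl_mono (Real.exp_pos _).le (Real.exp_le_exp.2 hl))) fun k _ _ => List.prod_nonneg ?_
  intro a ha
  obtain ⟨p, _, rfl⟩ := List.mem_map.1 ha
  positivity

lemma idt_mono {Z : ℝ → List Pq → Prop} (hZ : ∀ l l' ps, l ≤ l' → Z l ps → Z l' ps) {l l' : ℝ}
    (hl : l ≤ l') (ps : List Pq) : idt Z l ps ≤ idt Z l' ps := by
  unfold XHB411.idt
  by_cases h : 0 ≤ l ∧ Z l ps
  · rw [if_pos h, if_pos ⟨h.1.trans hl, hZ _ _ _ hl h.2⟩]
    exact Real.exp_le_exp.2 (by linarith)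
  · rw [if_neg h]
    split_ifs <;> positivity

lemma RT_mono {Z : ℝ → List Pq → Prop} (hZ : ∀ l l' ps, l ≤ l' → Z l ps → Z l' ps) (P : DPar)
    (h : ℝ → ℝ) {l l' : ℝ} (hl : l ≤ l') (ps : List Pq) : RT Z P h l ps ≤ RT Z P h l' ps :=
  add_le_add (RN_mono P h hl ps) (idt_mono hZ hl ps)

/-- **(P'_ex) in BG form** -/
theorem rawG_ex {h : ℝ → ℝ} {c : ℝ} (hpu : PU h c) (π : Lam → DPar) (hP : ∀ lam, (π lam).OK)
    (HC : ∀ lam, CrG h (π lam)) {Z : ℝ → List Pq → Prop}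
    (hZ : ∀ l ps, (∀ p ∈ ps, Dq.lump p → Dq.len p ≤ l) → Z l ps)
    (hZm : ∀ l l' ps, l ≤ l' → Z l ps → Z l' ps)
    (κ : ℝ) (u : List ℝ) (m a E : ℝ) (hκ : 0 ≤ κ) (hu : Okl u m a)
    (hE : κ + (u.sum + m + a) ≤ E)
    (H : ∀ (u' : List ℝ) (m' a' : ℝ), Shl u' u → 0 ≤ m' → m' ≤ m → 0 ≤ a' → a' ≤ a →
      κ ≤ 2 * (u.sum + m + a) →
      BG Dq (fun lam l ps => RQ NCube h l (ps.map (Pq.pc (π lam))) + idt Z l ps)
        (2 * (u.sum + m + a) - κ) u' (wt m' a') (E - κ + (u'.sum + m' + a'))) :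
    BG Dq (fun lam l ps => SK Dk h l (ps.map (Pq.pc (π lam)))) κ u (wt m a) E := by
  refine ruleBGx (D := Dq) (cost := cq) (Ψ := fun lam => SDk (π lam) h)
    (Φ := fun lam => RT Z (π lam) h) (cF := ![-1, 0, 0, 1]) (Gs := {![1, -2, 1, 0]}) (cL := 2)
    one_le_cq one_le_s1 (by norm_num) ?_ (fun lam l l' ps hl => SDk_mono _ _ hl ps) ?_
    (fun lam N => triv_RT hpu (hP lam) Z N) hκ hu hE ?_
  · intro k n l n' s hk hn hl hn' hs hc
    have := hc _ (Finset.mem_singleton_self _)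
    rw [lf_G1] at this
    linarith
  · intro lam N Bs hBs
    refine ⟨1, zero_le_one, fun ε M hε hM => ?_⟩
    exact rule_of_at fun r _ => ruleG_at hpu (hP lam) (HC lam) hZ hBs hε hM r
  · intro u' m' a' l hsh hm0 hm1 ha0 ha1 hl hc
    have h1 := hc _ (Finset.mem_singleton_self _)
    rw [lf_G1] at h1
    have h2 := H u' m' a' hsh hm0 hm1 ha0 ha1 (by linarith)
    rw [lf_G]
    have h3 := BG_mono_l (fun lam l l' ps hl => RT_mono hZm (π lam) h hl ps) h2
      (show l ≤ 2 * (u.sum + m + a) - κ by linarith)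
    refine h3.mono (le_of_eq ?_)
    ring

/-- **(P_ex) in BG form** -/
theorem rawP_ex {h : ℝ → ℝ} {c : ℝ} (hpu : PU h c) (π : Lam → DPar) (hP : ∀ lam, (π lam).OK)
    (HC : ∀ lam, CrP h (π lam)) {Z : ℝ → List Pq → Prop}
    (hZm : ∀ l l' ps, l ≤ l' → Z l ps → Z l' ps)
    (κ : ℝ) (u : List ℝ) (m a E : ℝ) (hκ : 0 ≤ κ) (hu : Okl u m a)
    (hE : κ + (u.sum + m + a) ≤ E) (hE2 : 2 * (u.sum + m + a) ≤ E)
    (H : ∀ (u' : List ℝ) (m' a' l : ℝ), Shl u' u → 0 ≤ m' → m' ≤ m → 0 ≤ a' → a' ≤ a → 0 ≤ l →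
      2 * (u'.sum + m' + a') - κ ≤ l → l + (u'.sum + m' + a') ≤ 3 * (u.sum + m + a) - κ →
      BG Dq (fun lam l ps => SK Dk h l (ps.map (Pq.pc (π lam)))) l u' (wt m' a')
        (E - (u.sum + m + a) - κ / 3 + 2 / 3 * (l + (u'.sum + m' + a')))) :
    BG Dq (fun lam l ps => RQ NCube h l (ps.map (Pq.pc (π lam))) + idt Z l ps) κ u (wt m a) E := by
  refine ruleBGx (D := Dq) (cost := cq) (Ψ := fun lam => RT Z (π lam) h)
    (Φ := fun lam l ps => SDk (π lam) h l ps + idt (fun _ _ => True) l ps)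
    (cF := ![-1 / 3, -1, 2 / 3, 2 / 3]) (Gs := {![-1, 0, -1, 2], ![1, -3, 1, 1]}) (cL := 3)
    one_le_cq one_le_s1 (by norm_num) ?_ (fun lam l l' ps hl => RT_mono hZm _ _ hl ps) ?_
    (fun lam N => triv_SI hpu (hP lam) _ N) hκ hu hE ?_
  · intro k n l n' s hk hn hl hn' hs hc
    have := hc ![1, -3, 1, 1] (by simp)
    rw [lf_P2] at this
    linarith
  · intro lam N Bs hBs
    refine ⟨4 * (N : ℝ) + 2, by positivity, fun ε M hε hM => ?_⟩
    refine rule_of_at fun r hr => ruleP_at hpu (hP lam) (HC lam) Z hBs hε hM r ?_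
    have : (r : ℝ) ≤ N := by exact_mod_cast hr
    linarith
  · intro u' m' a' l hsh hm0 hm1 ha0 ha1 hl hc
    have h1 := hc ![-1, 0, -1, 2] (by simp)
    have h2 := hc ![1, -3, 1, 1] (by simp)
    rw [lf_P1] at h1
    rw [lf_P2] at h2
    have h3 := H u' m' a' l hsh hm0 hm1 ha0 ha1 hl (by linarith) (by linarith)
    rw [lf_P]
    refine BG_add (h3.mono (le_of_eq ?_)) ((bg_idt' (Lam := Lam) (fun _ _ => True) l u' m' a').mono ?_)
    · ring
    · linarith

end Crest.Agent.R017.XPX241
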