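import Crest.Agent.R017.XPX6_241
import Crest.Agent.R017.XCr_792
import Crest.Agent.R017.X6T_502
import Crest.Agent.R017.DkB_848

/-!
# Row 17, exceptional class: the raw rules from the lump theorem (helper241)

* `rawG_lp`, `rawP_lp` : `(P'_ex)` and `(P_ex)` in BG form, only input `LumpProv`
-/

set_option autoImplicit false

noncomputable section

namespace Crest.Agent.R017.XPX241

open Crest.Agent.R012 Crest.Agent.R012.Eis Crest.Agent.R012.Gauss880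
open Crest.Agent.R017.CM106
open Crest.Agent.R017.B770
open Crest.Agent.R017.Prov71
open Crest.Agent.R017.FE47
open Crest.Agent.R012.T411 (NCube)
open Crest.Agent.R017.XHB411 (idt)
open Crest.Agent.R017.XG702 (Pcs BG)
open Crest.Agent.R017.HP842 (pc)
open Crest.Agent.R017.PX764 (Dk)

variable {Lam : Type*}

lemma crG_of_792 {h : ℝ → ℝ} {P : DPar} (H : XCr792.CrG h P) : CrG h P := H

lemma crP_of_792 {h : ℝ → ℝ} {P : DPar} (H : XCr792.CrP h P) : CrP h P := by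
  intro r ε R₀ hε hR
  obtain ⟨C, A, hC, hA, H1⟩ := H r ε R₀ hε hR
  exact ⟨C, A, hC, hA, fun s q X K Y D hq hD hs hz hX hK _ hXs hsu =>
    H1 s q X K Y D hq hD hs hz hX hK hXs hsu⟩

lemma crG_lp {h : ℝ → ℝ} {c : ℝ} (hpu : PU h c) {P : DPar} (hP : P.OK)
    (hL : XCr792.LumpProv h P) : CrG h P :=
  crG_of_792 (XCr792.crG_of_pu X6T502.xG2 hpu (fun k => Prov71.isChar_chK hP k) hL)

lemma crP_lp {h : ℝ → ℝ} {c : ℝ} (hpu : PU h c) {P : DPar} (hP : P.OK)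
    (hL : XCr792.LumpProv h P) : CrP h P :=
  crP_of_792 (XCr792.crP_of_pu hpu (fun k => Prov71.isChar_chK hP k) hL)

lemma bg_le_of {Ψ Φ : Lam → ℝ → List Pq → ℝ} {κ : ℝ} {u : List ℝ} {w : Kd → ℝ} {e : ℝ}
    (h : BG Dq Φ κ u w e) (H : ∀ lam l ps, Ψ lam l ps ≤ Φ lam l ps) : BG Dq Ψ κ u w e := by
  intro ε hε
  obtain ⟨δ, hδ, L⟩ := h ε hε
  refine ⟨δ, hδ, fun lam N B => ?_⟩
  obtain ⟨δ', hδ', X₀, hX₀, K⟩ := L lam N B
  exact ⟨δ', hδ', X₀, hX₀, fun X hX k us gs a b c d => (H _ _ _).trans (K X hX k us gs a b c d)⟩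

/-- the two functionals are the same -/
lemma skq_eq (π : Lam → DPar) (h : ℝ → ℝ) :
    (fun (lam : Lam) (l : ℝ) (ps : List Pq) => SK Dk h l (ps.map (Pq.pc (π lam)))) =
      fun lam => XC858.SKq Dk (π lam) h := rfl

/-- **(P'_ex), from the lump theorem** -/
theorem rawG_lp {h : ℝ → ℝ} {c : ℝ} (hpu : PU h c) (π : Lam → DPar) (hP : ∀ lam, (π lam).OK)
    (HL : ∀ lam, XCr792.LumpProv h (π lam)) {Z : ℝ → List Pq → Prop}
    (hZ : ∀ l ps, (∀ p ∈ ps, Dq.lump p → Dq.len p ≤ l) → Z l ps)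
    (hZm : ∀ l l' ps, l ≤ l' → Z l ps → Z l' ps)
    (κ : ℝ) (u : List ℝ) (m a E : ℝ) (hκ : 0 ≤ κ) (hu : Okl u m a)
    (hE : κ + (u.sum + m + a) ≤ E)
    (H : ∀ (u' : List ℝ) (m' a' : ℝ), Shl u' u → 0 ≤ m' → m' ≤ m → 0 ≤ a' → a' ≤ a →
      κ ≤ 2 * (u.sum + m + a) →
      BG Dq (fun lam l ps => RQ NCube h l (ps.map (Pq.pc (π lam))) + idt Z l ps)
        (2 * (u.sum + m + a) - κ) u' (wt m' a') (E - κ + (u'.sum + m' + a'))) :
    BG Dq (fun lam => XC858.SKq Dk (π lam) h) κ u (wt m a) E :=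
  rawG_ex hpu π hP (fun lam => crG_lp hpu (hP lam) (HL lam)) hZ hZm κ u m a E hκ hu hE H

/-- **(P_ex), from the lump theorem** -/
theorem rawP_lp {h : ℝ → ℝ} {c : ℝ} (hpu : PU h c) (π : Lam → DPar) (hP : ∀ lam, (π lam).OK)
    (HL : ∀ lam, XCr792.LumpProv h (π lam))
    (κ : ℝ) (u : List ℝ) (m a E : ℝ) (hκ : 0 ≤ κ) (hu : Okl u m a)
    (hE : κ + (u.sum + m + a) ≤ E) (hE2 : 2 * (u.sum + m + a) ≤ E)
    (H : ∀ (u' : List ℝ) (m' a' l : ℝ), Shl u' u → 0 ≤ m' → m' ≤ m → 0 ≤ a' → a' ≤ a → 0 ≤ l →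
      2 * (u'.sum + m' + a') - κ ≤ l → l + (u'.sum + m' + a') ≤ 3 * (u.sum + m + a) - κ →
      BG Dq (fun lam => XC858.SKq Dk (π lam) h) l u' (wt m' a')
        (E - (u.sum + m + a) - κ / 3 + 2 / 3 * (l + (u'.sum + m' + a')))) :
    BG Dq (fun lam l ps => RQ NCube h l (ps.map (Pq.pc (π lam)))) κ u (wt m a) E := by
  have h1 := rawP_ex hpu π hP (fun lam => crP_lp hpu (hP lam) (HL lam))
    (Z := fun _ _ => True) (fun _ _ _ _ _ => trivial) κ u m a E hκ hu hE hE2 H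
  refine bg_le_of h1 fun lam l ps => ?_
  exact le_add_of_nonneg_right (XHB411.idt_nonneg _ _ _)

end Crest.Agent.R017.XPX241
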