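import Crest.Agent.R017.E4Xk_681

/-!
# Row 17, E4 (x-side), closer `XPV`: the cells without R-part (helper164)

* `tw_half_le` : `TW (1/2) X ≤ X^(1/6) TW 1 X`
* `cb4_abs` : the third number of a cell is absorbed by the second
* `AP`, `cell_pv` : the numbers of a cell for `L < 1`; no R-part, no `TW (1/2)`
-/

set_option autoImplicit false
set_option linter.unusedVariables false
set_option maxHeartbeats 400000

noncomputable section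

open Complex MeasureTheory
open scoped ComplexConjugate Classical ContDiff

namespace Crest.Agent.R017.XP164

open Crest.Agent.R012 Crest.Agent.R012.Eis Crest.Agent.R012.MC
open Crest.Agent.R012.LS2 (S mem_S bl mem_bl)
open Crest.Agent.R012.Div277 (dvs mem_dvs isPrim_of_mem_dvs dvd_of_mem_dvs tau tau_le_rpow)
open Crest.Agent.R012.NonCube52 (Ker kv Good kc kc_spec kc_nm kv_ne_zero one_le_nmkv)
open Crest.Agent.R017.CM106 (CS TG FS)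
open Crest.Agent.R017.E1551 (nmpos nm_ge_one)
open Crest.Agent.R017.E3q681 hiding TD TD_nonneg
open Crest.Agent.R017.E4z92 (OKs cZ QQ RQ As Ss mem_As mem_Ss)
open Crest.Agent.R017.E4zz92 (Tu PP)
open Crest.Agent.R017.E4352 (rd dvd_rd)
open Crest.Agent.R017.E4X92
open Crest.Agent.R017.E4Xb681
open Crest.Agent.R017.End699 (HC)

/-- **the weight `1/2` against the weight `1`** -/
lemma tw_half_le {X M : ℝ} (hX : X ≤ M) (hM : 0 ≤ M) (b : Eis → ℂ) :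
    TW (1 / 2) X b ≤ M ^ (1 / 6 : ℝ) * TW 1 X b := by
  unfold TW
  rw [Finset.mul_sum]
  refine Finset.sum_le_sum fun j hj => ?_
  obtain ⟨hn, hp⟩ := mem_primBall.mp hj
  have hj0 := hp.ne_zero
  have hX0 : 0 ≤ X := by
    by_contra h
    have h1 : ⌊X⌋₊ = 0 := Nat.floor_of_nonpos (by linarith)
    rw [h1] at hn
    have := nm_pos.mpr hj0
    omega
  have hnX : (nm j : ℝ) ≤ M := ((Nat.cast_le.mpr hn).trans (Nat.floor_le hX0)).trans hX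
  obtain ⟨g1, g2, -, -⟩ := kc_spec hj0
  have hc : (0 : ℝ) < nm (kc j).2 := nmpos g2
  have hk : (1 : ℝ) ≤ nm (kv (kc j).1) := by exact_mod_cast one_le_nmkv g1
  have h3 : (nm (kc j).2 : ℝ) ^ 3 ≤ M := by
    have := kc_nm hj0
    have h4 : (0 : ℝ) < (nm (kc j).2 : ℝ) ^ 3 := by positivity
    nlinarith
  have h5 : (nm (kc j).2 : ℝ) ^ (1 / 2 : ℝ) ≤ M ^ (1 / 6 : ℝ) := by
    calc (nm (kc j).2 : ℝ) ^ (1 / 2 : ℝ) = ((nm (kc j).2 : ℝ) ^ 3) ^ (1 / 6 : ℝ) := by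
          rw [← Real.rpow_natCast, ← Real.rpow_mul hc.le]
          norm_num
      _ ≤ _ := Real.rpow_le_rpow (by positivity) h3 (by norm_num)
  have h6 : (nm (kc j).2 : ℝ) ^ (-(1 / 2) : ℝ) =
      (nm (kc j).2 : ℝ) ^ (1 / 2 : ℝ) * (nm (kc j).2 : ℝ) ^ (-1 : ℝ) := by
    rw [← Real.rpow_add hc]
    norm_num
  have h7 : (0 : ℝ) ≤ (nm (kc j).2 : ℝ) ^ (-1 : ℝ) * ‖CS b j‖ ^ 2 := by positivity
  calc (nm (kc j).2 : ℝ) ^ (-(1 / 2) : ℝ) * ‖CS b j‖ ^ 2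
      = (nm (kc j).2 : ℝ) ^ (1 / 2 : ℝ) * ((nm (kc j).2 : ℝ) ^ (-1 : ℝ) * ‖CS b j‖ ^ 2) := by
        rw [h6]; ring
    _ ≤ _ := mul_le_mul_of_nonneg_right h5 h7

section cb

variable {x : XF} {cw : ℝ} {bm κ' : Eis → ℂ} {k : ℂ} {a : Tu} {nδ nμ : ℕ}

/-- monotonicity in the numbers -/
lemma cb4_mono {A0 A1 A2 A3 B0 B1 B2 B3 : ℝ} (hκ : 0 ≤ x.κ)
    (hnn : ∀ i ∈ x.cell a nδ nμ, 0 ≤ x.nn a i.1)
    (hs : ∀ i ∈ x.cell a nδ nμ,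
      A0 * TD (cw * x.nn a i.1) (x.Rr a i) (x.cf a i.1) + A1 * TW 1 (cw * x.nn a i.1) (x.cf a i.1) +
        A2 * TW (1 / 2) (cw * x.nn a i.1) (x.cf a i.1) + A3 ≤
      B0 * TD (cw * x.nn a i.1) (x.Rr a i) (x.cf a i.1) + B1 * TW 1 (cw * x.nn a i.1) (x.cf a i.1) +
        B2 * TW (1 / 2) (cw * x.nn a i.1) (x.cf a i.1) + B3)
    (h : x.CB4 cw bm k κ' a nδ nμ A0 A1 A2 A3) : x.CB4 cw bm k κ' a nδ nμ B0 B1 B2 B3 := by
  unfold XF.CB4 at h ⊢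
  refine h.trans (mul_le_mul_of_nonneg_left (Finset.sum_le_sum fun i hi => ?_) (by positivity))
  unfold XF.gb4
  have h1 := hnn i hi
  exact mul_le_mul_of_nonneg_left (hs i hi) (by positivity)

/-- **the weight `1/2` is absorbed** -/
theorem cb4_abs {A0 A1 A2 A3 M : ℝ} (hκ : 0 ≤ x.κ) (hcw : 0 ≤ cw) (hA2 : 0 ≤ A2) (hM : 0 ≤ M)
    (hnn : ∀ i ∈ x.cell a nδ nμ, 0 ≤ x.nn a i.1 ∧ x.nn a i.1 ≤ M)
    (h : x.CB4 cw bm k κ' a nδ nμ A0 A1 A2 A3) :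
    x.CB4 cw bm k κ' a nδ nμ A0 (A1 + A2 * (cw * M) ^ (1 / 6 : ℝ)) 0 A3 := by
  refine cb4_mono hκ (fun i hi => (hnn i hi).1) (fun i hi => ?_) h
  have h1 := tw_half_le (X := cw * x.nn a i.1) (M := cw * M)
    (mul_le_mul_of_nonneg_left (hnn i hi).2 hcw) (by positivity) (x.cf a i.1)
  have h2 := mul_le_mul_of_nonneg_left h1 hA2
  nlinarith

end cb

/-- **the numbers of a class without R-part** -/
def AP (x : XF) (E L : ℝ) (n : Fin 12 → ℕ) : Fin 4 → ℝ :=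
  ![E, E * (Th (Kc x n) (x.Nn n) (qn x n) L + x.Nn n * mn n ^ 2 / Kc x n +
      x.Nn n * mn n / Kc x n ^ (2 / 3 : ℝ)), 0, 0]

lemma AP_nonneg {x : XF} {E L : ℝ} (hκ : 0 < x.κ) (hV : 0 < x.V) (hc : x.c₀ ≠ 0)
    (hg : x.g₂ ≠ 0) (hE : 0 ≤ E) (hL : 0 < L) (n : Fin 12 → ℕ) (j : Fin 4) :
    0 ≤ AP x E L n j := by
  have h1 := Kc_pos hκ n
  have h2 := Nn_pos hV hc hg n
  have h4 := qn_nonneg x n
  have h5 := mn_pos n
  have h6 := Th_nonneg (N := x.Nn n) h1 hL h4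
  unfold AP
  fin_cases j
  · exact hE
  · simp only [Fin.mk_one, Matrix.cons_val_one, Matrix.cons_val_zero]
    positivity
  · simp
  · simp

/-- pure numbers: the weights of `TW 1` and `TW (1/2)` for `L ≤ 1` -/
lemma pv_num {T N L cw : ℝ} (hT : 0 ≤ T) (hN : 1 / 2 ≤ N) (hL : 0 ≤ L) (hL1 : L ≤ 1)
    (hcw : 1 ≤ cw) : T * (1 + L * N ^ (-(1 / 2) : ℝ)) +
      T * (L * N ^ (-(1 / 2) : ℝ)) * (cw * N) ^ (1 / 6 : ℝ) ≤ (3 + 2 * cw) * T := by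
  have hN0 : 0 < N := by linarith
  have h1 : N ^ (-(1 / 2) : ℝ) ≤ 2 := by
    calc N ^ (-(1 / 2) : ℝ) ≤ (1 / 2 : ℝ) ^ (-(1 / 2) : ℝ) :=
          Real.rpow_le_rpow_of_nonpos (by norm_num) hN (by norm_num)
      _ = 2 ^ (1 / 2 : ℝ) := by
          rw [one_div, Real.inv_rpow (by norm_num), Real.rpow_neg (by norm_num), inv_inv]
      _ ≤ 2 ^ (1 : ℝ) := Real.rpow_le_rpow_of_exponent_le (by norm_num) (by norm_num)
      _ = 2 := Real.rpow_one _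
  have h2 : N ^ (-(1 / 3) : ℝ) ≤ 2 := by
    calc N ^ (-(1 / 3) : ℝ) ≤ (1 / 2 : ℝ) ^ (-(1 / 3) : ℝ) :=
          Real.rpow_le_rpow_of_nonpos (by norm_num) hN (by norm_num)
      _ = 2 ^ (1 / 3 : ℝ) := by
          rw [one_div, Real.inv_rpow (by norm_num), Real.rpow_neg (by norm_num), inv_inv]
      _ ≤ 2 ^ (1 : ℝ) := Real.rpow_le_rpow_of_exponent_le (by norm_num) (by norm_num)
      _ = 2 := Real.rpow_one _
  have h3 : cw ^ (1 / 6 : ℝ) ≤ cw := by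
    calc cw ^ (1 / 6 : ℝ) ≤ cw ^ (1 : ℝ) :=
          Real.rpow_le_rpow_of_exponent_le hcw (by norm_num)
      _ = cw := Real.rpow_one _
  have h4 : N ^ (-(1 / 2) : ℝ) * (cw * N) ^ (1 / 6 : ℝ) ≤ 2 * cw := by
    have e : N ^ (-(1 / 2) : ℝ) * (cw * N) ^ (1 / 6 : ℝ) = cw ^ (1 / 6 : ℝ) * N ^ (-(1 / 3) : ℝ) := by
      rw [Real.mul_rpow (by linarith) hN0.le]
      have : N ^ (-(1 / 3) : ℝ) = N ^ (-(1 / 2) : ℝ) * N ^ (1 / 6 : ℝ) := by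
        rw [← Real.rpow_add hN0]; norm_num
      rw [this]; ring
    rw [e]
    calc cw ^ (1 / 6 : ℝ) * N ^ (-(1 / 3) : ℝ) ≤ cw * 2 :=
          mul_le_mul h3 h2 (by positivity) (by linarith)
      _ = 2 * cw := by ring
  have h5 : 0 ≤ N ^ (-(1 / 2) : ℝ) := by positivity
  have h6 : L * N ^ (-(1 / 2) : ℝ) ≤ 2 := by
    calc L * N ^ (-(1 / 2) : ℝ) ≤ 1 * 2 := mul_le_mul hL1 h1 h5 zero_le_one
      _ = 2 := one_mul _
  have h7 : L * N ^ (-(1 / 2) : ℝ) * (cw * N) ^ (1 / 6 : ℝ) ≤ 2 * cw := by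
    rw [mul_assoc]
    calc L * (N ^ (-(1 / 2) : ℝ) * (cw * N) ^ (1 / 6 : ℝ)) ≤ 1 * (2 * cw) :=
          mul_le_mul hL1 h4 (by positivity) zero_le_one
      _ = 2 * cw := one_mul _
  calc T * (1 + L * N ^ (-(1 / 2) : ℝ)) +
        T * (L * N ^ (-(1 / 2) : ℝ)) * (cw * N) ^ (1 / 6 : ℝ)
      = T * ((1 + L * N ^ (-(1 / 2) : ℝ)) +
          L * N ^ (-(1 / 2) : ℝ) * (cw * N) ^ (1 / 6 : ℝ)) := by ring
    _ ≤ T * ((1 + 2) + 2 * cw) := mul_le_mul_of_nonneg_left (by linarith) hT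
    _ = _ := by ring

set_option maxHeartbeats 4000000 in
/-- **the cells without R-part** -/
theorem cell_pv {Mη : Eis} {η : Eis → ℂ} (hη : HC Mη η) (j : ℤ) {Rw : ℝ} (hRw : 0 ≤ Rw)
    {ε : ℝ} (hε : 0 < ε) :
    ∃ (C cw : ℝ) (A' : ℕ), 0 ≤ C ∧ 1 ≤ cw ∧ 1 < A' ∧
      ∀ (x : XF) (l : ℕ) (ξ : ℝ) (OO : Finset (Eis × Eis)) (v' bm : Eis × Eis → Eis → ℂ)
        (kk : Eis × Eis → ℂ) (κ' : Eis × Eis → Eis → ℂ) (qc : Eis → Eis) (Mb Ek Nα : ℝ)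
        (L : (Fin 12 → ℕ) → ℝ) (Cl : Tu → Prop) (Ps : Eis → Prop),
        x.V = 2 ^ l → x.g₀ = E4Bd783.gx η j ξ →
        x.Om = (fun t => ((E5L770.wL l (Real.log t) : ℝ) : ℂ)) →
        x.HO cw OO v' bm kk κ' qc Mb Ek → XS x Nα Rw →
        (∀ n, IsCoprime n x.M → IsCoprime n Mη) → (∀ n, x.α n ≠ 0 → IsCoprime n Mη) →
        (∀ n, 0 < L n) → (∀ n, L n < 1) →
        (∀ o ∈ OO, ∀ s ∈ Ss x.M x.κ, Ps s → ∀ τ ∈ dvs (rd o.1), ∀ g ∈ S x.Y, ∀ h ∈ S x.Y,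
          Cl (x.tu qc o s τ g h 1) → ∃ us u w, OKs x.R s o.1 us u w) →
        ∀ o ∈ OO, ∀ s ∈ Ss x.M x.κ, Ps s → ∀ τ ∈ dvs (rd o.1), ∀ g ∈ S x.Y, ∀ h ∈ S x.Y,
          ∀ a : Tu, a = x.tu qc o s τ g h 1 → Cl a → ∀ nδ nμ : ℕ,
          x.CB4 cw (bm o) (kk o) (κ' o) a nδ nμ
            (AP x (C * x.Y ^ ε * (1 + |ξ|) ^ A') (L (x.vec a nδ nμ)) (x.vec a nδ nμ) 0)
            (AP x (C * x.Y ^ ε * (1 + |ξ|) ^ A') (L (x.vec a nδ nμ)) (x.vec a nδ nμ) 1)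
            (AP x (C * x.Y ^ ε * (1 + |ξ|) ^ A') (L (x.vec a nδ nμ)) (x.vec a nδ nμ) 2)
            (AP x (C * x.Y ^ ε * (1 + |ξ|) ^ A') (L (x.vec a nδ nμ)) (x.vec a nδ nμ) 3) := by
  obtain ⟨C, c, cw, A', hC, hc, hcw, hA', hcell⟩ := cell_gx hη j hRw 0 2 (by norm_num) hε
  refine ⟨(3 + 2 * cw) * C, cw, A', by positivity, hcw, hA', ?_⟩
  intro x l ξ OO v' bm kk κ' qc Mb Ek Nα L₀ Cl Ps hV hg₀ hOm H hS hM hα hL₀ hL₁ hdec
    o ho s hs hPs τ hτ g hg' h' hh' a ha hCl nδ nμ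
  have hmain := hcell x l ξ OO v' bm kk κ' qc Mb Ek Nα (fun _ _ _ _ => 0) L₀
    (fun _ _ => 0) Cl Ps hV hg₀ hOm H hS hM hα hL₀ (fun _ _ => le_rfl) hdec
    (by
      intro _ _ _ _ _ _ _ _ _ _ _ _ _ _ _ _ _ _ _ _ h1
      exact absurd h1 (not_le.mpr (hL₁ _)))
    o ho s hs hPs τ hτ g hg' h' hh' a ha hCl nδ nμ
  have hXC : XC x a Nα Rw := by
    rw [ha]
    rw [ha] at hCl
    exact XC_of H hS ho hs hτ hg' hh' (hdec o ho s hs hPs τ hτ g hg' h' hh' hCl)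
  by_cases hne : (x.cell a nδ nμ).Nonempty
  swap
  · rw [Finset.not_nonempty_iff_eq_empty] at hne
    unfold XF.CB4 AQ
    rw [hne]
    simp
  obtain ⟨i₀, hi₀⟩ := hne
  have f0 := cell_FI hXC hi₀
  have hF := FF_ne f0
  have hPP : PP (x.Sf a.q) x.g₁ a.ν (a.us * a.τ) ≠ 0 := by
    intro h0
    apply hF
    unfold XF.FFa
    rw [E4zz92.FF_eq, h0, mul_zero]
  set n := x.vec a nδ nμ with hn
  obtain ⟨n1, n2⟩ := Nh_cmp hXC f0 hPP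
  rw [← hn] at n1 n2
  have hL := hL₀ n
  have hL1 := hL₁ n
  set L : ℝ := L₀ n with hLd
  have hnN : ∀ i ∈ x.cell a nδ nμ, 0 ≤ x.nn a i.1 ∧ x.nn a i.1 ≤ x.Nn n := fun i hi => by
    have fi := cell_FI hXC hi
    exact ⟨by linarith [fi.nn], (nn_le_Nh hXC fi).trans n1⟩
  have hNn : 1 / 2 ≤ x.Nn n := (f0.nn.trans (nn_le_Nh hXC f0)).trans n1
  have hK := Kc_pos hXC.κ0 n
  have hq := qn_nonneg x n
  have hm := mn_pos n
  have hY0 : 0 < x.Y := by linarith [hXC.Y1]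
  set E : ℝ := C * x.Y ^ ε * (1 + |ξ|) ^ A' with hE
  have hE0 : 0 ≤ E := by positivity
  have hT := Th_nonneg (N := x.Nn n) hK hL hq
  have h1 := cb4_abs hXC.κ0.le (by linarith) (A2 := AA x E Nα L 0 n 2) (by
    show 0 ≤ E * (Th (Kc x n) (x.Nn n) (qn x n) L * (L * x.Nn n ^ (-(1 / 2) : ℝ)))
    positivity) (by linarith : (0 : ℝ) ≤ x.Nn n) hnN hmain
  have eE : (3 + 2 * cw) * C * x.Y ^ ε * (1 + |ξ|) ^ A' = (3 + 2 * cw) * E := by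
    rw [hE]; ring
  rw [eE]
  refine CB4.mono hXC.κ0.le (fun i hi => (hnN i hi).1) h1 ?_ ?_ ?_ ?_
  · show E ≤ (3 + 2 * cw) * E
    nlinarith
  · show E * (Th (Kc x n) (x.Nn n) (qn x n) L * (1 + L * x.Nn n ^ (-(1 / 2) : ℝ)) +
        x.Nn n * mn n ^ 2 / Kc x n + x.Nn n * mn n / Kc x n ^ (2 / 3 : ℝ)) +
        E * (Th (Kc x n) (x.Nn n) (qn x n) L * (L * x.Nn n ^ (-(1 / 2) : ℝ))) *
          (cw * x.Nn n) ^ (1 / 6 : ℝ) ≤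
      (3 + 2 * cw) * E * (Th (Kc x n) (x.Nn n) (qn x n) L + x.Nn n * mn n ^ 2 / Kc x n +
        x.Nn n * mn n / Kc x n ^ (2 / 3 : ℝ))
    have h2 := pv_num hT hNn hL.le hL1.le hcw
    have h3 : 0 ≤ x.Nn n * mn n ^ 2 / Kc x n + x.Nn n * mn n / Kc x n ^ (2 / 3 : ℝ) := by
      positivity
    have h4 : x.Nn n * mn n ^ 2 / Kc x n + x.Nn n * mn n / Kc x n ^ (2 / 3 : ℝ) ≤
        (3 + 2 * cw) * (x.Nn n * mn n ^ 2 / Kc x n + x.Nn n * mn n / Kc x n ^ (2 / 3 : ℝ)) :=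
      le_mul_of_one_le_left h3 (by linarith)
    calc _ = E * ((Th (Kc x n) (x.Nn n) (qn x n) L * (1 + L * x.Nn n ^ (-(1 / 2) : ℝ)) +
          Th (Kc x n) (x.Nn n) (qn x n) L * (L * x.Nn n ^ (-(1 / 2) : ℝ)) *
            (cw * x.Nn n) ^ (1 / 6 : ℝ)) +
          (x.Nn n * mn n ^ 2 / Kc x n + x.Nn n * mn n / Kc x n ^ (2 / 3 : ℝ))) := by ring
      _ ≤ E * ((3 + 2 * cw) * Th (Kc x n) (x.Nn n) (qn x n) L + (3 + 2 * cw) *
          (x.Nn n * mn n ^ 2 / Kc x n + x.Nn n * mn n / Kc x n ^ (2 / 3 : ℝ))) :=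
          mul_le_mul_of_nonneg_left (add_le_add h2 h4) hE0
      _ = _ := by ring
  · exact le_rfl
  · show E * (Th (Kc x n) (x.Nn n) (qn x n) L *
        ((Real.sqrt L + Real.sqrt (L * x.Nn n / Nbn x Nα n)) * 0)) ≤ 0
    simp

end Crest.Agent.R017.XP164
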