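import Crest.Agent.R017.XPa_164
import Crest.Agent.R017.XPc_164

/-!
# Row 17, E4 (x-side), closer `XPV`: one block (helper164)

* `fin_num` : the final absorption
* `pv_core` : **the moments of one block, closer `XPV`**, any class
-/

set_option autoImplicit false
set_option linter.unusedSectionVars false
set_option linter.unusedVariables false

noncomputable section

open Complex Finset
open scoped ComplexConjugate Classical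

namespace Crest.Agent.R017.XP164

open Crest.Agent.R012 Crest.Agent.R012.Eis
open Crest.Agent.R012.Mob705 hiding pb mem_pb kap
open Crest.Agent.R012.LS2 (S mem_S)
open Crest.Agent.R017.Sx545 (Sm)
open Crest.Agent.R017.CM106 (CS FS)
open Crest.Agent.R017.End699 (HC)
open Crest.Agent.R017.E5B71 Crest.Agent.R017.E4D164
open Crest.Agent.R017.B770 (DPar)
open Crest.Agent.R017.E4U164
open Crest.Agent.R017.E4J352 (Tm gx)
open Crest.Agent.R017.E4RH858 (Pf)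
open Crest.Agent.R017.E4zc92
open Crest.Agent.R017.E4zf92
open Crest.Agent.R017.E4zg92
open Crest.Agent.R017.JxL679 (NatS)
open Crest.Agent.R017.XHn512 (vG)
open Crest.Agent.R017.XSd512 (XMo)
open Crest.Agent.R017.E4zl679
open Crest.Agent.R017.E4zn679 (xmo_bk)
open Crest.Agent.R017.E4X92
open Crest.Agent.R017.E4Xb681 (XS Kc Th mn qn AA Nbn Kc_pos Nn_pos qn_nonneg mn_pos Th_nonneg)

/-- the final absorption -/
lemma fin_num {X τ : ℝ} (hX : 1 < X) {A' : ℕ} {C ξ Yε e₁ e₂ M : ℝ} (hC : 0 ≤ C) (hCX : C ≤ X ^ τ)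
    (hY0 : 0 ≤ Yε) (hY : Yε ≤ X ^ τ) (hM0 : 0 ≤ M) (hM : M ≤ X ^ (2 * τ))
    (he : e₁ + 5 * τ ≤ e₂) :
    X ^ τ * (M * (C * Yε * (1 + |ξ|) ^ A' * X ^ e₁)) ≤
      ((1 + |ξ|) ^ A') ^ 2 * X ^ e₂ := by
  have hX0 : 0 < X := by linarith
  have h1 : 1 ≤ (1 + |ξ|) ^ A' := one_le_pow₀ (by linarith [abs_nonneg ξ])
  have h2 : (1 + |ξ|) ^ A' ≤ ((1 + |ξ|) ^ A') ^ 2 := le_self_pow₀ h1 (by norm_num)
  have p : 0 < X ^ τ := Real.rpow_pos_of_pos hX0 _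
  have p1 : 0 < X ^ e₁ := Real.rpow_pos_of_pos hX0 _
  calc X ^ τ * (M * (C * Yε * (1 + |ξ|) ^ A' * X ^ e₁))
      ≤ X ^ τ * (X ^ (2 * τ) * (X ^ τ * X ^ τ * ((1 + |ξ|) ^ A') ^ 2 * X ^ e₁)) := by
        gcongr
    _ = ((1 + |ξ|) ^ A') ^ 2 * (X ^ τ * X ^ (2 * τ) * X ^ τ * X ^ τ * X ^ e₁) := by ring
    _ = ((1 + |ξ|) ^ A') ^ 2 * X ^ (e₁ + 5 * τ) := by
        congr 1
        rw [← Real.rpow_add hX0, ← Real.rpow_add hX0, ← Real.rpow_add hX0, ← Real.rpow_add hX0]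
        congr 1
        ring
    _ ≤ _ := mul_le_mul_of_nonneg_left (Real.rpow_le_rpow_of_exponent_le hX.le he) (by positivity)

/-- helper681's number of `TW 1` is larger -/
lemma AP_le_AA {x : XF} {E Nα L W : ℝ} (hκ : 0 < x.κ) (hV : 0 < x.V) (hc : x.c₀ ≠ 0)
    (hg : x.g₂ ≠ 0) (hE : 0 ≤ E) (hL : 0 < L) (n : Fin 12 → ℕ) :
    AP x E L n 1 ≤ AA x E Nα L W n 1 := by
  have h1 := Kc_pos hκ n
  have h2 := Nn_pos hV hc hg n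
  have h4 := qn_nonneg x n
  have h6 := Th_nonneg (N := x.Nn n) h1 hL h4
  show E * (Th (Kc x n) (x.Nn n) (qn x n) L + x.Nn n * mn n ^ 2 / Kc x n +
      x.Nn n * mn n / Kc x n ^ (2 / 3 : ℝ)) ≤
    E * (Th (Kc x n) (x.Nn n) (qn x n) L * (1 + L * x.Nn n ^ (-(1 / 2) : ℝ)) +
        x.Nn n * mn n ^ 2 / Kc x n + x.Nn n * mn n / Kc x n ^ (2 / 3 : ℝ))
  refine mul_le_mul_of_nonneg_left ?_ hE
  have h7 : 0 ≤ L * x.Nn n ^ (-(1 / 2) : ℝ) := by positivity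
  nlinarith

set_option maxHeartbeats 1000000 in
/-- **the moments of one block, closer `XPV`**, any class -/
theorem pv_core {χ : Eis → ℂ} {Mη : Eis} (hη : HC Mη χ) (j : ℤ) {Rw : ℝ} (hRw : 0 ≤ Rw) {τ : ℝ}
    (hτ : 0 < τ) (hτ1 : τ ≤ 1) {Bb : ℝ} (hBb : 0 ≤ Bb) :
    ∃ (cw : ℝ) (A' : ℕ) (X₀ : ℝ), 1 ≤ cw ∧ 1 < X₀ ∧ ∀ X : ℝ, X₀ ≤ X →
    ∀ {Λ : Type*} (π : Λ → DPar) (lam : Λ × Eis) (Jf : ℝ → ℝ → ℝ → Finset (Eis × Eis))
      (a : Bd × ℕ) (x : Dt) (α : Eis → ℂ) (nkk nl : ℕ) (Pp : Pf) (s₁ β₀ : Eis)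
      (Oc : Finset (x.O π lam Jf a)) (Pk : Eis → Prop) (g₁ g₂ D b : Eis) (ξ : ℝ) (G₀ : Eis → ℂ),
    XBk π lam Jf a x α (4 * Bb + 1) X nkk nl Pp s₁ β₀ Oc Pk g₁ g₂ D b (gx χ j ξ) →
    (∀ y, Sm (π lam.1).n₃ y → G₀ y = gx χ j ξ y) →
    ∀ d : XD, d = dBX π lam Jf a x α (4 * Bb + 1) X nkk Pp g₁ g₂ D b (gx χ j ξ) →
    ∀ Nα : ℝ, Pre d (Oc.image Subtype.val) χ j ξ a.2 Mη s₁ Nα Rw →
    ∀ Lp : (Fin 12 → ℕ) → ℝ, (∀ n, 0 < Lp n) → (∀ n, Lp n < 1) →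
    ∀ Bm e : ℝ, 1 ≤ Bm → Bm ≤ X ^ τ →
    (∀ (E_ : ℝ) (A : Fin 4 → (Fin 12 → ℕ) → Eis × Eis → ℝ), 0 ≤ E_ → (∀ i n k, 0 ≤ A i n k) →
      (∀ n k, A 0 n k = E_) → (∀ n k, A 1 n k ≤ AA d.x E_ Nα (Lp n) 0 n 1) →
      (∀ n k, A 2 n k = 0) → (∀ n k, A 3 n k = 0) →
      Phis d cw 1 1 Bm (2 * 2 ^ nl) (2 ^ nl) x.m β₀ s₁ A (E_ * X ^ e)) →
    XMo (π lam.1).n₃ (vG π lam Jf a x α) G₀ Pp Oc nkk Pk D b (fun _ _ => 1) ≤
      ((1 + |ξ|) ^ A') ^ 2 * X ^ (e + 5 * τ) ∧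
    ∀ bm : x.O π lam Jf a → Eis → ℂ, (∀ o ∈ Oc, NatS Bm (X ^ τ * Bm) (bm o)) →
      XMo (π lam.1).n₃ (vG π lam Jf a x α) G₀ Pp Oc nkk Pk D b
        (fun o k => ‖CS (bm o) k‖ ^ 2) ≤ ((1 + |ξ|) ^ A') ^ 2 * X ^ (e + 5 * τ) := by
  have hA1 : 0 < 4 * Bb + 1 := by linarith
  obtain ⟨C, cw, A', hC, hcw, hA', hcell⟩ := cell_pv hη j hRw (ε := τ / (3 * (4 * Bb + 1)))
    (by positivity)
  obtain ⟨X₁, hX₁, hxmo⟩ := xmo_bk hτ hBb hcw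
  refine ⟨cw, A', max X₁ ((C + 1) ^ (1 / τ)), hcw, lt_max_of_lt_left hX₁, ?_⟩
  intro X hXX Λ π lam Jf a x α nkk nl Pp s₁ β₀ Oc Pk g₁ g₂ D b ξ G₀ hbk hG d hd Nα hpre Lp hL0 hL1
    Bm e hBm1 hBm hphi
  have hXX₁ : X₁ ≤ X := (le_max_left _ _).trans hXX
  have hX1 : 1 < X := hX₁.trans_le hXX₁
  have hX0 : 0 < X := by linarith
  have pw : ∀ {c : ℝ}, 0 ≤ c → c ^ (1 / τ) ≤ X → c ≤ X ^ τ := fun {c} hc h => by
    calc c = (c ^ (1 / τ)) ^ τ := by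
          rw [← Real.rpow_mul hc]
          have : 1 / τ * τ = 1 := by field_simp
          rw [this, Real.rpow_one]
      _ ≤ X ^ τ := Real.rpow_le_rpow (by positivity) h hτ.le
  have hCX : C ≤ X ^ τ := le_trans (by linarith : C ≤ C + 1)
    (pw (by linarith) ((le_max_right _ _).trans hXX))
  have hY : d.x.Y ^ (τ / (3 * (4 * Bb + 1))) = X ^ τ := by
    have e1 : d.x.Y = (X ^ (4 * Bb + 1)) ^ 3 := by rw [hd]; rfl
    rw [e1, ← Real.rpow_natCast, ← Real.rpow_mul hX0.le, ← Real.rpow_mul hX0.le]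
    congr 1
    push_cast
    field_simp
  have hok : d.OK := by rw [hd]; exact hbk.ok.1
  have hκ : 0 < d.x.κ := hok.κ0
  have hV : 0 < d.x.V := hok.V0
  have hc₀ : d.x.c₀ ≠ 0 := hok.c₀.ne_zero
  have hg₂ : d.x.g₂ ≠ 0 := hok.g₂.1.ne_zero
  obtain ⟨E, hE⟩ : ∃ E : ℝ, E = C * d.x.Y ^ (τ / (3 * (4 * Bb + 1))) * (1 + |ξ|) ^ A' := ⟨_, rfl⟩
  have hE0 : 0 ≤ E := by
    rw [hE, hY]
    positivity
  have hphi' := hphi E (fun i n _ => AP d.x E (Lp n) n i) hE0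
    (fun i n _ => AP_nonneg hκ hV hc₀ hg₂ hE0 (hL0 n) n i) (fun _ _ => rfl)
    (fun n _ => AP_le_AA hκ hV hc₀ hg₂ hE0 (hL0 n) n) (fun _ _ => rfl) (fun _ _ => rfl)
  have hS₁ : 0 ≤ E * X ^ e := by positivity
  have key := hxmo X hXX₁ π lam Jf a x α nkk nl Pp s₁ β₀ Oc Pk g₁ g₂ D b (gx χ j ξ) G₀ hbk hG d hd
    Bm (E * X ^ e) (fun i n _ => AP d.x E (Lp n) n i) hBm1
    (hBm.trans (Real.rpow_le_rpow_of_exponent_le hX1.le (by linarith))) hS₁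
    (fun i n _ => AP_nonneg hκ hV hc₀ hg₂ hE0 (hL0 n) n i) (fun _ _ _ _ _ => rfl)
    (by
      intro Mb' Ek bm' hHO o ho s hs hPs t ht g hg h hh a' ha' hCl nδ nμ
      have := hcell d.x a.2 ξ (Oc.image Subtype.val) _ bm' d.kk d.κ' d.qc Mb' Ek Nα Lp
        (ClS d.x d.P s₁) (PsF d.x.F0 s₁) hpre.V hpre.g₀ hpre.Om hHO hpre.xs hpre.cM hpre.cα hL0 hL1
        hpre.dec o ho s hs hPs t ht g hg h hh a' ha' hCl nδ nμ
      rw [← hE] at this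
      exact this) hphi'
  have hfin : ∀ M : ℝ, 0 ≤ M → M ≤ X ^ (2 * τ) →
      X ^ τ * (M * (E * X ^ e)) ≤ ((1 + |ξ|) ^ A') ^ 2 * X ^ (e + 5 * τ) := by
    intro M hM0 hM
    rw [hE, hY]
    exact fin_num hX1 hC hCX (by positivity) le_rfl hM0 hM le_rfl
  constructor
  · refine key.1.trans ?_
    have := hfin 1 zero_le_one (Real.one_le_rpow hX1.le (by linarith))
    rwa [one_mul] at this
  · intro bm hbm
    refine (key.2 (X ^ τ * Bm) (by positivity) bm hbm).trans (hfin _ (by positivity) ?_)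
    calc X ^ τ * Bm ≤ X ^ τ * X ^ τ := by gcongr
      _ = X ^ (2 * τ) := by
          rw [← Real.rpow_add hX0]
          congr 1
          ring

end Crest.Agent.R017.XP164
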