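import Crest.Agent.R017.XPc_164
import Crest.Agent.R017.E4znX_679

/-!
# Row 17, E4 (x-side), class E: the premises of helper681's `cell_gx` at a block (helper164)

* `alX_win`, `alX_cop` : the support of `alX`
* `pre_E` : **the premises of `cell_gx` in the frame of class E**
-/

set_option autoImplicit false
set_option linter.unusedSectionVars false
set_option linter.unusedVariables false

noncomputable section

open Complex Finset
open scoped ComplexConjugate Classical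

namespace Crest.Agent.R017.XP164

open Crest.Agent.R012 Crest.Agent.R012.Eis
open Crest.Agent.R012.Mob705 hiding pb mem_pb kap
open Crest.Agent.R012.Div277 (dvs nm_le_of_dvd)
open Crest.Agent.R017.Sx545 (Sm)
open Crest.Agent.R017.CM106 (CS FS)
open Crest.Agent.R017.C70 (CbF JC OKJ)
open Crest.Agent.R017.End699 (HC)
open Crest.Agent.R017.FE47 (PU SM cx)
open Crest.Agent.R017.E5B71
open Crest.Agent.R017.E4D164 hiding E4L
open Crest.Agent.R017.B770 (DPar)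
open Crest.Agent.R017.Prov71
open Crest.Agent.R017.E5L770
open Crest.Agent.R017.E5LX770 (SqLX)
open Crest.Agent.R017.ExP960 hiding alX
open Crest.Agent.R017.P1X960 (cmb)
open Crest.Agent.R017.E4U164
open Crest.Agent.R017.E4352
open Crest.Agent.R017.E5k54 (alb)
open Crest.Agent.R017.E4J352 (Tm gx)
open Crest.Agent.R017.E4RH858 (Pf pf Facts kl)
open Crest.Agent.R017.E4Df372
open Crest.Agent.R017.E4zf92
open Crest.Agent.R017.E4zl679

/-- one of the two sequences occurs -/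
lemma alX_ne {P : DPar} {h : ℝ → ℝ} {t : Eis} {a : BdX} {β : Fin 3 → Eis} {n : Eis}
    (hn : alX P h t a β n ≠ 0) : alb (f3 P h t a.toBd) β n ≠ 0 ∨ alb (f3' P h t a) β n ≠ 0 := by
  by_contra h0
  push Not at h0
  apply hn
  unfold E4Df372.alX P1X960.cmb
  simp [h0.1, h0.2]

/-- the support of `alX` -/
lemma alX_win {h : ℝ → ℝ} {R : ℝ} (hR : ∀ u, cx h u ≠ 0 → |u| ≤ R) {P : DPar} (hP : P.OK)
    (t : Eis) {a : BdX} (ha : a.ok) {β : Fin 3 → Eis} (hβ : ∀ i, IsPrim (β i)) {n : Eis}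
    (hn : alX P h t a β n ≠ 0) : IsPrim n ∧
      |Real.log (nm n) - (a3 a.toBd - Real.log (nm (∏ i, β i)))| ≤ 3 * R ∧ IsCoprime n P.n := by
  rcases alX_ne hn with h1 | h1
  · have key := alb_win (f := f3 P h t a.toBd)
      (Z := fun i => ((![a.us 2, a.us 3, a.us 4] : Fin 3 → Pq) i).z) (R := R)
      (fun i m hm => by
        obtain ⟨k1, k2, -⟩ := pc_ne hR hP t _ hm
        exact ⟨k1, k2⟩) hβ h1
    have e := E5L770.sum_a3 a.toBd
    have e' : ∑ i, ((![a.us 2, a.us 3, a.us 4] : Fin 3 → Pq) i).z = a3 a.toBd := e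
    rw [e'] at key
    exact ⟨key.1, key.2, alb_cop (f := f3 P h t a.toBd)
      (fun i m hm => (pc_ne hR hP t _ hm).2.2) h1⟩
  · have key := alb_win (f := f3' P h t a) (Z := fun i => (u3' a i).z) (R := R)
      (fun i m hm => by
        obtain ⟨k1, k2, -⟩ := pc_ne hR hP t _ hm
        exact ⟨k1, k2⟩) hβ h1
    have e' : ∑ i, (u3' a i).z = a3 a.toBd := by
      rw [Fin.sum_univ_three]
      show a.zs 2 + a.zs 3 + (a.us 4).z = (a.us 2).z + (a.us 3).z + (a.us 4).z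
      rw [ha.s23]
    rw [e'] at key
    exact ⟨key.1, key.2, alb_cop (f := f3' P h t a)
      (fun i m hm => (pc_ne hR hP t _ hm).2.2) h1⟩

set_option maxHeartbeats 1000000 in
/-- **the premises of `cell_gx` in the frame of class E** -/
theorem pre_E {Λ : Type*} {π : Λ → DPar} {h : ℝ → ℝ} {c₀ : ℝ} (hh : PU h c₀)
    (hP : ∀ lam, (π lam).OK) {A : ℝ} (hA : 2 / 3 ≤ A) (d bb e0 r : ℝ) (Bf : ℕ → ℝ → ℝ → ℝ → ℝ)
    {Jf : ℝ → ℝ → ℝ → Finset (Eis × Eis)} (hJf : ∀ l N z, OKJ (Jf l N z)) :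
    ∃ Rw : ℝ, 0 ≤ Rw ∧ ∀ (lam : Λ × Eis) (N : ℕ) (B Bb : ℝ), ∃ Bb' X₀ : ℝ, Bb ≤ Bb' ∧ 4 ≤ Bb' ∧
    1 < X₀ ∧ ∀ X : ℝ, X₀ ≤ X → ∀ δ δ' ε' : ℝ, δ ≤ 1 / 2 → δ' ≤ 1 → ε' ≤ 1 →
    ∀ (a : BdX × ℕ) (ps : List Pq) (q : (Option IX5 → ℝ) × (Kd → ℝ)),
      FrLX A d bb δ δ' B X N a ps q → a.1.ok → lam.2 ∈ SM (π lam.1).n → a.1.okP (π lam.1) →
    ∀ x : Dt, x.OK (π lam.1) (Bf a.2) e0 r ε' X a.1.toBd → (x.I Jf (bl a)).Nonempty →
    ∀ (jj : Fin 2) (h₁ : FS (b1 (π lam.1) h lam.2 ps))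
      (h₂ : FS (b2X (π lam.1) h lam.2 a.1 ps jj)),
    ∀ (G : Eis → ℂ) (t' : Tm (x.O π lam Jf (bl a))), t'.OK (π lam.1).n₃ 1 →
      t'.val 1 lD (vE π h lam Jf a x) (wE π h lam Jf a ps x jj h₁ h₂) G ≠ 0 →
    ∀ (Mη : Eis), Mη ≠ 0 → (∀ p : Eis, Prime p → p ∣ Mη → p ∣ (π lam.1).n₃) →
    ∀ (χ : Eis → ℂ) (j : ℤ) (ξ : ℝ) (nkk nl : ℕ) (s₁ β₀ : Eis)
      (Oc : Finset (x.O π lam Jf (bl a))) (Pk : Eis → Prop) (g₁ g₂ : Eis),
    XBk π lam Jf (bl a) x (alX (π lam.1) h lam.2 a.1 x.β) (4 * Bb + 1) X nkk nl (pf t') s₁ β₀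
      Oc Pk g₁ g₂ t'.D1 (E4RH858.b1 t') (gx χ j ξ) →
    XBk π lam Jf (bl a) x (alX (π lam.1) h lam.2 a.1 x.β) (4 * Bb' + 1) X nkk nl (pf t') s₁ β₀
      Oc Pk g₁ g₂ t'.D1 (E4RH858.b1 t') (gx χ j ξ) ∧
    Pre (dBX π lam Jf (bl a) x (alX (π lam.1) h lam.2 a.1 x.β) (4 * Bb' + 1) X nkk (pf t') g₁ g₂
      t'.D1 (E4RH858.b1 t') (gx χ j ξ)) (Oc.image Subtype.val) χ j ξ a.2 Mη s₁
      (Real.exp (a3 a.1.toBd - Real.log (nm (∏ i, x.β i)))) Rw := by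
  obtain ⟨R₁, hR₁⟩ := bump_of_cs hh.cs
  obtain ⟨R, hRd⟩ : ∃ R : ℝ, R = max R₁ 0 := ⟨_, rfl⟩
  have hR0 : 0 ≤ R := by rw [hRd]; exact le_max_right _ _
  have hR : ∀ u, cx h u ≠ 0 → |u| ≤ R := fun u hu =>
    (hR₁ u hu).trans (by rw [hRd]; exact le_max_left _ _)
  refine ⟨2 * (3 * R), by positivity, ?_⟩
  intro lam N B Bb
  obtain ⟨A0, C0, X₂, hA0, hC0, hX₂, HS⟩ :=
    E4Us512.szUX hh hP d bb hA e0 r Bf hJf lam N B 1 one_pos
  obtain ⟨Bb', hBb'⟩ : ∃ Bb' : ℝ, Bb' = max (max Bb (max B 4)) A0 := ⟨_, rfl⟩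
  have h1 : Bb ≤ Bb' := by rw [hBb']; exact (le_max_left _ _).trans (le_max_left _ _)
  have h2 : B ≤ Bb' := by
    rw [hBb']
    exact ((le_max_left _ _).trans (le_max_right _ _)).trans (le_max_left _ _)
  have h3 : 4 ≤ Bb' := by
    rw [hBb']
    exact ((le_max_right _ _).trans (le_max_right _ _)).trans (le_max_left _ _)
  have h4 : A0 ≤ Bb' := by rw [hBb']; exact le_max_right _ _
  refine ⟨Bb', max X₂ (max 9 (Real.exp (3 * R))), h1, h3, lt_max_of_lt_left hX₂, ?_⟩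
  intro X hXX δ δ' ε' hδ hδ' hε' a ps q hF ha hlam haP x hx hne jj h₁ h₂ G t' hok hval Mη hM0 hM
    χ j ξ nkk nl s₁ β₀ Oc Pk g₁ g₂ hbk
  have hXX₂ : X₂ ≤ X := (le_max_left _ _).trans hXX
  have hX9 : 9 ≤ X := ((le_max_left _ _).trans (le_max_right _ _)).trans hXX
  have hXR : Real.exp (3 * R) ≤ X := ((le_max_right _ _).trans (le_max_right _ _)).trans hXX
  have hX1 : 1 < X := by linarith
  have hX0 : 0 < X := by linarith
  obtain ⟨-, SD0⟩ := HS X hXX₂ a ps q δ δ' hδ hδ' hF ha hlam haP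
  have SD := SD0 x (hx.mono hX1.le hε') hne jj h₁ h₂
  have hFr := (E4Us512.fr_of_frLX hA hδ hX1 hF ha haP h2 h3).fr
  have hbk' := xbk_mono (A2 := 4 * Bb' + 1) hbk (by linarith)
  refine ⟨hbk', ?_⟩
  have hYe : (X ^ (4 * Bb' + 1)) ^ 3 = X ^ (12 * Bb' + 3) := by
    rw [← Real.rpow_natCast, ← Real.rpow_mul hX0.le]
    congr 1
    push_cast
    ring
  have up : ∀ {y : ℝ}, y ≤ 12 * Bb' + 3 → X ^ y ≤ (X ^ (4 * Bb' + 1)) ^ 3 := fun hy => by
    rw [hYe]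
    exact Real.rpow_le_rpow_of_exponent_le hX1.le hy
  have hβ : ∀ i, IsPrim (x.β i) := P1e54.mem_PT (SSb54.mem_PTb.mp hx.β).1
  have hβ1 : (1 : ℝ) ≤ nm (∏ i, x.β i) := P1e54.one_le_nm (E554.isPrim_prod fun i _ => hβ i)
  have hβ0 : 0 ≤ Real.log (nm (∏ i, x.β i)) := Real.log_nonneg hβ1
  have hw := fun n (hn : alX (π lam.1) h lam.2 a.1 x.β n ≠ 0) =>
    alX_win hR (hP lam.1) lam.2 ha hβ hn
  have ha3 : a3 a.1.toBd ≤ 3 * Bb' * Real.log X := by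
    have u2 := hFr.u 2
    have u3 := hFr.u 3
    have u4 := hFr.u 4
    unfold a3
    linarith
  have hlogX : 0 < Real.log X := Real.log_pos hX1
  have hR3 : 3 * R ≤ Real.log X := by
    rw [← Real.log_exp (3 * R)]
    exact Real.log_le_log (Real.exp_pos _) hXR
  have hN : Real.exp (a3 a.1.toBd - Real.log (nm (∏ i, x.β i))) ≤ (X ^ (4 * Bb' + 1)) ^ 3 := by
    refine le_trans ?_ (up (y := 3 * Bb') (by linarith))
    rw [Real.rpow_def_of_pos hX0]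
    exact Real.exp_le_exp.mpr (by nlinarith)
  obtain ⟨k1, k2⟩ := sz_tm SD.dat hok hval
  have hf := E4RH858.facts SD.dat hok hval
  have hpow : ∀ k : ℕ, (k : ℝ) ≤ 12 → (X ^ A0) ^ k ≤ (X ^ (4 * Bb' + 1)) ^ 3 := fun k hk => by
    rw [← Real.rpow_natCast, ← Real.rpow_mul hX0.le]
    refine up ?_
    have hk0 : (0 : ℝ) ≤ k := Nat.cast_nonneg k
    nlinarith
  refine pre_blk hbk' hM0 hM ?_ ?_ ?_ (Real.exp_pos _) hN ?_ hf.sB.ne_zero ?_ ?_
  · intro n hn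
    refine cop_rad (hP lam.1).χ₃.q0 (fun p hp h' => ((hP lam.1).rad p hp).mp h') ?_
    exact (hw n hn).2.2
  · refine le_trans ?_ (up (y := 1) (by linarith))
    rw [Real.rpow_one]
    exact hX9
  · intro n hn
    rw [Real.log_exp]
    have := (hw n hn).2.1
    linarith
  · intro n hn
    obtain ⟨w1, w2, -⟩ := hw n hn
    have hn0 : (0 : ℝ) < nm n := by exact_mod_cast nm_pos.2 w1.ne_zero
    refine le_trans ?_ (up (y := 3 * Bb' + 1) (by linarith))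
    rw [Real.rpow_def_of_pos hX0, ← Real.exp_log hn0]
    refine Real.exp_le_exp.mpr ?_
    have := (abs_le.mp w2).2
    nlinarith
  · exact k2.trans (hpow 9 (by norm_num))
  · have := hpow 1 (by norm_num)
    rw [pow_one] at this
    exact k1.trans this

end Crest.Agent.R017.XP164
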