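import Crest.Agent.R017.XPd_164
import Crest.Agent.R017.XPcX_164
import Crest.Agent.R017.E4zqX_164
import Crest.Agent.R017.XLeX_679

/-!
# Row 17, E4 (x-side): the closer `XPV`, class E (helper164)

* `TPhX` : the `T`-numbers at the data of one block, class E, value `tf`
* **`blkCX_PV`**, `xnc_PV` : helper679's `BlkCX` and `XNC` for the closer `XPV`
-/

set_option autoImplicit false
set_option linter.unusedSectionVars false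
set_option linter.unusedVariables false

noncomputable section

open Complex Finset
open scoped ComplexConjugate Classical

namespace Crest.Agent.R017.XP164

open Crest.Agent.R012 Crest.Agent.R012.Eis
open Crest.Agent.R012.Mob705 hiding pb mem_pb kap
open Crest.Agent.R012.LS2 (S mem_S)
open Crest.Agent.R017.Sx545 (Sm)
open Crest.Agent.R017.CM106 (CS FS)
open Crest.Agent.R017.C70 (CbF JC OKJ)
open Crest.Agent.R017.End699 (HC)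
open Crest.Agent.R017.FE47 (PU SM)
open Crest.Agent.R017.E5B71
open Crest.Agent.R017.E4D164 hiding E4L
open Crest.Agent.R017.B770 (DPar)
open Crest.Agent.R017.Prov71
open Crest.Agent.R017.E5L770
open Crest.Agent.R017.E5LX770 (SqLX)
open Crest.Agent.R017.ExP960 hiding alX
open Crest.Agent.R017.E5k54 (alb)
open Crest.Agent.R017.E4U164
open Crest.Agent.R017.E4J352 (Tm gx)
open Crest.Agent.R017.E4RH858 (Pf pf Facts kl)
open Crest.Agent.R017.E4R70 (Cls XPV)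
open Crest.Agent.R017.E4Df372
open Crest.Agent.R017.E4SE266
open Crest.Agent.R017.E4zc92
open Crest.Agent.R017.E4zf92
open Crest.Agent.R017.E4zg92
open Crest.Agent.R017.E4X92 (lg)
open Crest.Agent.R017.Mode405 (nk)
open Crest.Agent.R017.JxL679 (NatS)
open Crest.Agent.R017.JxS679 (sk sk_prim)
open Crest.Agent.R017.XHn512 (vG BFr PVc XNumC)
open Crest.Agent.R017.XSd512 (XMo)
open Crest.Agent.R017.YsU61 (TwOK)
open Crest.Agent.R017.E4zl679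
open Crest.Agent.R017.XLeX679 (XNC BlkCX xnc_blk)
open Crest.Agent.R017.XL842

/-- **the `T`-numbers at the data of one block, class E**, value `tf` -/
def TPhX {Λ : Type*} (π : Λ → DPar) (h : ℝ → ℝ) (tf : Cls → ℝ → ℝ → ℝ) (A d bb e0 r : ℝ)
    (Bf : ℕ → ℝ → ℝ → ℝ → ℝ) (Jf : ℝ → ℝ → ℝ → Finset (Eis × Eis)) : Prop :=
  ∀ τ : ℝ, 0 < τ → ∃ η : ℝ, 0 < η ∧ ∀ cw : ℝ, 1 ≤ cw →
    ∀ (lam : Λ × Eis) (N : ℕ) (B A1 : ℝ), ¬ (π lam.1).CaseD → lam.2 ∈ SM (π lam.1).n →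
    ∃ δ' : ℝ, 0 < δ' ∧ ∃ X₀ : ℝ, 1 < X₀ ∧ ∀ X : ℝ, X₀ ≤ X → ∀ δ ε' : ℝ, δ ≤ η → ε' ≤ η →
    ∀ (a : BdX × ℕ) (ps : List Pq) (q : (Option IX5 → ℝ) × (Kd → ℝ)),
      FrLX A d bb δ δ' B X N a ps q → a.1.ok → a.1.okP (π lam.1) →
    ∀ x : Dt, x.OK (π lam.1) (Bf a.2) e0 r ε' X a.1.toBd → XLowX d X q x →
      (x.I Jf (bl a)).Nonempty →
    ∀ z' : Cls,
      z'.Ok d (1 / cκ (prX (dn q.1))) (cN (prX (dn q.1)) / cκ (prX (dn q.1)))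
        (cM (prX (dn q.1)) / cκ (prX (dn q.1))) (q.2 .mo / cκ (prX (dn q.1)))
        (q.2 .am / cκ (prX (dn q.1))) (cx' (prX (dn q.1)) / cκ (prX (dn q.1))) →
      |z'.v - Real.log 2 * a.2 / (cκ (prX (dn q.1)) * Real.log X)| ≤ η →
      |z'.β - E4Dic352.lg (∏ i, x.β i) / (cκ (prX (dn q.1)) * Real.log X)| ≤ η →
      |z'.s - E4Dic352.lg x.e₀ / (cκ (prX (dn q.1)) * Real.log X)| ≤ η →
    ∀ (nkk nl : ℕ) (Pp : Pf) (s₁ β₀ : Eis) (Oc : Finset (x.O π lam Jf (bl a)))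
      (Pk : Eis → Prop) (g₁ g₂ D b : Eis) (G : Eis → ℂ),
      XBk π lam Jf (bl a) x (E4Df372.alX (π lam.1) h lam.2 a.1 x.β) A1 X nkk nl Pp s₁ β₀ Oc Pk
        g₁ g₂ D b G →
    ∀ dd : XD, dd = dBX π lam Jf (bl a) x (E4Df372.alX (π lam.1) h lam.2 a.1 x.β) A1 X nkk Pp
        g₁ g₂ D b G →
    ∀ Nα : ℝ, XL842.lx X Nα ≤
        cκ (prX (dn q.1)) * (cN (prX (dn q.1)) / cκ (prX (dn q.1)) - z'.β) + η →
      TNum dd cw X (cκ (prX (dn q.1)) * (tf z' (cN (prX (dn q.1)) / cκ (prX (dn q.1)))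
          (cu (prX (dn q.1)) 4 / cκ (prX (dn q.1))) +
          2 / 3 * d * z'.N1 (cN (prX (dn q.1)) / cκ (prX (dn q.1))))) Nα
        (cκ (prX (dn q.1)) * z'.fF (cN (prX (dn q.1)) / cκ (prX (dn q.1)))
          (cu (prX (dn q.1)) 4 / cκ (prX (dn q.1)))) τ (2 * 2 ^ nl) x.m β₀ s₁

set_option maxHeartbeats 1000000 in
/-- **one block, closer `XPV`, class E** -/
theorem blkCX_PV {Λ : Type*} {π : Λ → DPar} {h : ℝ → ℝ} {c₀ : ℝ} (hh : PU h c₀)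
    (hP : ∀ lam, (π lam).OK) {A d bb e0 r : ℝ} (hA : 2 / 3 ≤ A) {Bf : ℕ → ℝ → ℝ → ℝ → ℝ}
    {Jf : ℝ → ℝ → ℝ → Finset (Eis × Eis)} (hJf : ∀ l N z, OKJ (Jf l N z))
    {tf : Cls → ℝ → ℝ → ℝ} (HTP : TPhX π h tf A d bb e0 r Bf Jf) :
    BlkCX π h (fun z N u => tf z N u - (z.v + z.us) / 3 - (N - z.β) / 3) PVc A d bb e0 r Bf
      Jf := by
  intro ε hε
  obtain ⟨τ, hτ, hτ1, hτε⟩ : ∃ τ : ℝ, 0 < τ ∧ τ ≤ 1 ∧ 60005 * τ ≤ ε :=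
    ⟨min 1 (ε / 60005), by positivity, min_le_left _ _, by
      have := min_le_right 1 (ε / 60005)
      linarith⟩
  obtain ⟨Rw, hRw, HP⟩ := pre_E hh hP hA d bb e0 r Bf hJf
  obtain ⟨η₁, hη₁, HT⟩ := HTP τ hτ
  obtain ⟨η, hη, hηd, hηb, hηc⟩ : ∃ η : ℝ, 0 < η ∧ η ≤ η₁ / 4 ∧ η ≤ 1 / 2 ∧ η ≤ τ / 16 :=
    ⟨min (η₁ / 4) (min (1 / 2) (τ / 16)), by positivity, min_le_left _ _,
      (min_le_right _ _).trans (min_le_left _ _), (min_le_right _ _).trans (min_le_right _ _)⟩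
  have hηa : η ≤ η₁ := by linarith
  refine ⟨η, hη, hηb, ?_⟩
  intro lam N B Bb tt hD hBb hlam htw
  obtain ⟨Mη, hHC, hrad⟩ := tw_hc (hP lam.1) htw
  obtain ⟨Bb', X₁, hB1, hB2, hX₁, HP1⟩ := HP lam N B Bb
  obtain ⟨cw, A', X₂, hcw, hX₂, HC⟩ := pv_blk hHC tt.2 hRw hτ hτ1 (Bb := Bb') (by linarith)
  obtain ⟨δ₁, hδ₁, X₃, hX₃, HT1⟩ := HT cw hcw lam N B (4 * Bb' + 1) hD hlam
  obtain ⟨X₄, hX₄, HB⟩ := bszX_blk (h := h) hP hJf hτ 0 lam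
  refine ⟨A', min δ₁ 1, by positivity, max (max X₁ X₂) (max X₃ X₄),
    lt_max_of_lt_left (lt_max_of_lt_left hX₁), ?_⟩
  intro X hXX δ ε' hδ hε' a ps q hF ha haP x hx hxl hne j h₁ h₂ ξ G hG c P β τc 𝒥 h𝒥 Oc hOc t ht
    f1 f2 f3' D1' Z'' l' m hS z' sc mx ex hN hok hky hmx hmx2 hPV hBF t' ht' g₁ g₂ hbk Bm hBm1 hBm
    Bd hBd
  have hXX₁ : X₁ ≤ X := ((le_max_left _ _).trans (le_max_left _ _)).trans hXX
  have hXX₂ : X₂ ≤ X := ((le_max_right _ _).trans (le_max_left _ _)).trans hXX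
  have hXX₃ : X₃ ≤ X := ((le_max_left _ _).trans (le_max_right _ _)).trans hXX
  have hXX₄ : X₄ ≤ X := ((le_max_right _ _).trans (le_max_right _ _)).trans hXX
  have hX1 : 1 < X := hX₁.trans_le hXX₁
  have hX0 : 0 < X := by linarith
  obtain ⟨g1, g2, g3, g4, g5, g6⟩ := h𝒥 t' ht'
  subst g4
  obtain ⟨q1, q2, -⟩ := h𝒥 t ht
  obtain ⟨κ₀, hκ₀⟩ : ∃ κ₀ : ℝ, κ₀ = cκ (prX (dn q.1)) := ⟨_, rfl⟩
  have hκ0 : 0 < κ₀ := by
    rw [hκ₀]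
    have := hBF.κ0
    linarith
  obtain ⟨hbk', hpre⟩ := HP1 X hXX₁ δ (min δ₁ 1) ε' (hδ.trans hηb) (min_le_right _ _)
    (hε'.trans (hηb.trans (by norm_num))) a ps q hF ha hlam haP x hx hne j h₁ h₂ G t' g1 g2 Mη
    hHC.q0 hrad tt.1 tt.2 ξ c.nkk c.nlam _ β Oc _ g₁ g₂ hbk
  obtain ⟨dd, hdd⟩ : ∃ dd : XD, dd = dBX π lam Jf (bl a) x
    (E4Df372.alX (π lam.1) h lam.2 a.1 x.β) (4 * Bb' + 1) X c.nkk (pf t') g₁ g₂ t'.D1
    (E4RH858.b1 t') (gx tt.1 tt.2 ξ) := ⟨_, rfl⟩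
  rw [← hdd] at hpre
  have hmx0 : mx = 0 := hPV.1
  subst hmx0
  have hsz := HB X hXX₄ δ (min δ₁ 1) ε' η hδ (by linarith) A d bb e0 r B N Bf a ps q hF ha haP x
    hx _ G c (pf t') β τc.1 𝒥 t ht q2 f1 f2 f3' D1' Z'' l' m hS z' sc Bb hN hBF t' ht' _ _ _ β Oc
    _ g₁ g₂ _ hbk' dd hdd 0 Bm hBm1 hBm (Real.exp (a3 a.1.toBd - Real.log (nm (∏ i, x.β i))))
    (nαX_164 a.1 x)
  have hNα : XL842.lx X (Real.exp (a3 a.1.toBd - Real.log (nm (∏ i, x.β i)))) ≤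
      cκ (prX (dn q.1)) * (cN (prX (dn q.1)) / cκ (prX (dn q.1)) - z'.β) + η₁ := by
    have k1 := (abs_le.mp (NαX_of hX1 hBF hN hF (nαX_164 a.1 x))).2
    rw [zero_div] at k1
    linarith
  have hT := HT1 X hXX₃ δ ε' (hδ.trans hηa) (hε'.trans hηa) a ps q
    (hF.mono hX1.le le_rfl (min_le_left _ _)) ha haP x hx hxl hne z' hok (hN.v.trans hηa)
    (hN.β.trans hηa) (hN.s.trans hηa) c.nkk c.nlam (pf t') _ β Oc _ g₁ g₂ t'.D1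
    (E4RH858.b1 t') _ hbk' dd hdd _ hNα
  rw [← hκ₀] at hsz hN hok hPV hBF hBd hT
  have key := HC X hXX₂ π lam Jf (bl a) x (E4Df372.alX (π lam.1) h lam.2 a.1 x.β) c.nkk c.nlam
    (pf t') _ β Oc _ g₁ g₂ t'.D1 (E4RH858.b1 t') ξ G hbk' hG dd hdd _ hpre κ₀ z'
    (cN (prX (dn q.1)) / κ₀) Bm (κ₀ * (tf z' (cN (prX (dn q.1)) / κ₀)
      (cu (prX (dn q.1)) 4 / κ₀) + 2 / 3 * d * z'.N1 (cN (prX (dn q.1)) / κ₀)))
    (κ₀ * z'.fF (cN (prX (dn q.1)) / κ₀) (cu (prX (dn q.1)) 4 / κ₀))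
    (κ₀ * z'.ff (cN (prX (dn q.1)) / κ₀) (cu (prX (dn q.1)) 4 / κ₀)) ex hBm1
    (hBm.trans (Real.rpow_le_rpow_of_exponent_le hX1.le (by linarith))) hsz
    (mul_nonneg hκ0.le hok.hv) hPV ?_ hT
    (κ₀ * (z'.k + 2 * z'.lam) + (κ₀ * (tf z' (cN (prX (dn q.1)) / κ₀)
      (cu (prX (dn q.1)) 4 / κ₀) - (z'.v + z'.us) / 3 - (cN (prX (dn q.1)) / κ₀ - z'.β) / 3) +
      κ₀ * (2 / 3 * d * z'.N1 (cN (prX (dn q.1)) / κ₀)) + ex + ε)) (by nlinarith)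
  · rw [← hBd] at key
    refine ⟨fun _ => key.1, fun bm hbm => key.2 bm fun o ho => ?_⟩
    refine XHn512.natS_mono (by linarith) le_rfl (by positivity) ?_ (hbm o ho)
    exact Real.rpow_le_rpow_of_exponent_le hX1.le (by linarith)
  · rw [← mul_min_of_nonneg _ _ hκ0.le]
    unfold Cls.ff
    rw [show z'.Y1 + z'.c12 + z'.nu = z'.nu + z'.c12 + z'.Y1 by ring]
    linarith

/-- **helper679's `XNC` for the closer `XPV`, class E** -/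
theorem xnc_PV {Λ : Type*} {π : Λ → DPar} {h : ℝ → ℝ} {c₀ : ℝ} (hh : PU h c₀)
    (hP : ∀ lam, (π lam).OK) {A d bb e0 r : ℝ} (hA : 2 / 3 ≤ A) {Bf : ℕ → ℝ → ℝ → ℝ → ℝ}
    {Jf : ℝ → ℝ → ℝ → Finset (Eis × Eis)} (hJf : ∀ l N z, OKJ (Jf l N z)) (hF : JFull Jf)
    {tf : Cls → ℝ → ℝ → ℝ} (HTP : TPhX π h tf A d bb e0 r Bf Jf) :
    XNC π h (fun z N u => tf z N u - (z.v + z.us) / 3 - (N - z.β) / 3) PVc A d bb e0 r Bf Jf :=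
  xnc_blk hh hP hA hJf hF (blkCX_PV hh hP hA hJf HTP)

end Crest.Agent.R017.XP164
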