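import Crest.Agent.R017.XPb_164
import Crest.Agent.R017.XLe_681
import Crest.Agent.R017.XLf_842
import Crest.Agent.R017.E4zq_92

/-!
# Row 17, E4 (x-side): the closer `XPV`, class N (helper164)

* `pv_blk` : the moments of one block from the sizes and the `T`-numbers, any class
* `TPh` : the `T`-numbers at the data of one block (helper743's `tn_phi` in helper842's form)
* **`blkC_PV`**, `xnumC_PV` : helper681's `BlkC` and helper512's `XNumC` for the closer `XPV`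
-/

set_option autoImplicit false
set_option linter.unusedSectionVars false
set_option linter.unusedVariables false

noncomputable section

open Complex Finset
open scoped ComplexConjugate Classical

namespace Crest.Agent.R017.XP164

open Crest.Agent.R012 Crest.Agent.R012.Eis
open Crest.Agent.R012.Mob705 hiding pb mem_pb kap
open Crest.Agent.R012.LS2 (S mem_S)
open Crest.Agent.R017.Sx545 (Sm)
open Crest.Agent.R017.CM106 (CS FS)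
open Crest.Agent.R017.C70 (CbF JC OKJ)
open Crest.Agent.R017.End699 (HC)
open Crest.Agent.R017.FE47 (PU SM)
open Crest.Agent.R017.E5B71 Crest.Agent.R017.E4D164
open Crest.Agent.R017.B770 (DPar)
open Crest.Agent.R017.Prov71
open Crest.Agent.R017.E5L770
open Crest.Agent.R017.E5k54 (alb)
open Crest.Agent.R017.E4U164
open Crest.Agent.R017.E4J352 (Tm gx)
open Crest.Agent.R017.E4RH858 (Pf pf Facts kl)
open Crest.Agent.R017.E4R70 (Cls XPV)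
open Crest.Agent.R017.E4zc92
open Crest.Agent.R017.E4zf92
open Crest.Agent.R017.E4zg92
open Crest.Agent.R017.E4X92 (lg)
open Crest.Agent.R017.PX764 (th)
open Crest.Agent.R017.Mode405 (nk)
open Crest.Agent.R017.JxL679 (NatS)
open Crest.Agent.R017.JxS679 (sk sk_prim)
open Crest.Agent.R017.XHn512 (vG BFr PVc XNumC)
open Crest.Agent.R017.XSd512 (XMo)
open Crest.Agent.R017.YsU61 (TwOK)
open Crest.Agent.R017.E4zl679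
open Crest.Agent.R017.XLe681 (BlkC xnumC_blk)
open Crest.Agent.R017.XL842

set_option maxHeartbeats 1000000 in
/-- **the moments of one block, closer `XPV`**, from the sizes and the `T`-numbers, any class -/
theorem pv_blk {χ : Eis → ℂ} {Mη : Eis} (hη : HC Mη χ) (j : ℤ) {Rw : ℝ} (hRw : 0 ≤ Rw) {τ : ℝ}
    (hτ : 0 < τ) (hτ1 : τ ≤ 1) {Bb : ℝ} (hBb : 0 ≤ Bb) :
    ∃ (cw : ℝ) (A' : ℕ) (X₀ : ℝ), 1 ≤ cw ∧ 1 < X₀ ∧ ∀ X : ℝ, X₀ ≤ X →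
    ∀ {Λ : Type*} (π : Λ → DPar) (lam : Λ × Eis) (Jf : ℝ → ℝ → ℝ → Finset (Eis × Eis))
      (a : Bd × ℕ) (x : Dt) (α : Eis → ℂ) (nkk nl : ℕ) (Pp : Pf) (s₁ β₀ : Eis)
      (Oc : Finset (x.O π lam Jf a)) (Pk : Eis → Prop) (g₁ g₂ D b : Eis) (ξ : ℝ) (G₀ : Eis → ℂ),
    XBk π lam Jf a x α (4 * Bb + 1) X nkk nl Pp s₁ β₀ Oc Pk g₁ g₂ D b (gx χ j ξ) →
    (∀ y, Sm (π lam.1).n₃ y → G₀ y = gx χ j ξ y) →
    ∀ d : XD, d = dBX π lam Jf a x α (4 * Bb + 1) X nkk Pp g₁ g₂ D b (gx χ j ξ) →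
    ∀ Nα : ℝ, Pre d (Oc.image Subtype.val) χ j ξ a.2 Mη s₁ Nα Rw →
    ∀ (κ₀ : ℝ) (z' : Cls) (Nn Bm T0 F f ex : ℝ), 1 ≤ Bm → Bm ≤ X ^ τ →
      BSz X κ₀ τ z' Nn 0 x.m (lg d.g₁) (lg (rrk 1 d.Pr)) (lg (rrk 2 d.Pr)) (lg s₁) (2 * 2 ^ nl)
        (2 ^ nl) d.V d.κ Nα Bm (nk (d.b ^ 2) * nm d.D) (nm d.c₀) (nm d.g₁) (nm d.g₂) →
      0 ≤ κ₀ * z'.v1 →
      XPV (κ₀ * z'.k) (κ₀ * z'.v1) (κ₀ * z'.lqt) (κ₀ * (z'.c12 + z'.s1)) f 0 ex →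
      min F (κ₀ * (z'.Y1 + z'.c12 + z'.nu)) ≤ f + τ →
      TNum d cw X T0 Nα F τ (2 * 2 ^ nl) x.m β₀ s₁ →
    ∀ E : ℝ, κ₀ * (z'.k + 2 * z'.lam) + (T0 - κ₀ * (z'.v + z'.us) / 3 -
        κ₀ * (Nn - z'.β) / 3) + ex + 60005 * τ ≤ E →
    XMo (π lam.1).n₃ (vG π lam Jf a x α) G₀ Pp Oc nkk Pk D b (fun _ _ => 1) ≤
      ((1 + |ξ|) ^ A') ^ 2 * X ^ E ∧
    ∀ bm : x.O π lam Jf a → Eis → ℂ, (∀ o ∈ Oc, NatS Bm (X ^ τ * Bm) (bm o)) →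
      XMo (π lam.1).n₃ (vG π lam Jf a x α) G₀ Pp Oc nkk Pk D b
        (fun o k => ‖CS (bm o) k‖ ^ 2) ≤ ((1 + |ξ|) ^ A') ^ 2 * X ^ E := by
  obtain ⟨cw, A', X₁, hcw, hX₁, H⟩ := pv_core hη j hRw hτ hτ1 hBb
  obtain ⟨Cθ, hCθ, hθ⟩ := th_isC
  refine ⟨cw, A', max X₁ (Cθ ^ (1 / τ)), hcw, lt_max_of_lt_left hX₁, ?_⟩
  intro X hXX Λ π lam Jf a x α nkk nl Pp s₁ β₀ Oc Pk g₁ g₂ D b ξ G₀ hbk hG d hd Nα hpre κ₀ z' Nn
    Bm T0 F f ex hBm1 hBm hsz hv1 hPV hf hT E hE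
  have hXX₁ : X₁ ≤ X := (le_max_left _ _).trans hXX
  have hX1 : 1 < X := hX₁.trans_le hXX₁
  have hX0 : 0 < X := by linarith
  have hok : d.OK := by rw [hd]; exact hbk.ok.1
  have hth : ‖th d.c₀‖ ≤ X ^ τ := by
    refine (hθ _ hok.c₀).trans ?_
    have h0 : 0 ≤ Cθ := by linarith
    calc Cθ = (Cθ ^ (1 / τ)) ^ τ := by
          rw [← Real.rpow_mul h0]
          have : 1 / τ * τ = 1 := by field_simp
          rw [this, Real.rpow_one]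
      _ ≤ X ^ τ := Real.rpow_le_rpow (by positivity) ((le_max_right _ _).trans hXX) hτ.le
  obtain ⟨e, he⟩ : ∃ e : ℝ, e = κ₀ * (z'.k + 2 * z'.lam) + (T0 - κ₀ * (z'.v + z'.us) / 3 -
        κ₀ * (Nn - z'.β) / 3) + ex - 0 + 60000 * τ := ⟨_, rfl⟩
  have key := H X hXX₁ π lam Jf a x α nkk nl Pp s₁ β₀ Oc Pk g₁ g₂ D b ξ G₀ hbk hG d hd Nα hpre
    (Lg X (-(2000 * τ)) (lg (rrk 1 d.Pr)) (lg (rrk 2 d.Pr)))
    (fun n => Lg_pos hX0 _ _ _ n) (fun n => Lg_lt _ _ _ n) Bm e hBm1 hBm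
    (fun E_ A hE_ hA0 hA00 hA1 hA2 hA3 => by
      rw [he]
      exact phis_PV (δ₀ := 0) hX1 hsz hok hpre.xs.Nα0 hE_ hth hv1 hPV hf hT
        (fun n k => (hA00 n k).le) hA1 hA2 hA3)
  have hEX : X ^ (e + 5 * τ) ≤ X ^ E :=
    Real.rpow_le_rpow_of_exponent_le hX1.le (by rw [he]; linarith)
  have hm : ((1 + |ξ|) ^ A') ^ 2 * X ^ (e + 5 * τ) ≤ ((1 + |ξ|) ^ A') ^ 2 * X ^ E :=
    mul_le_mul_of_nonneg_left hEX (by positivity)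
  exact ⟨key.1.trans hm, fun bm hbm => (key.2 bm hbm).trans hm⟩

/-- **the `T`-numbers at the data of one block, class N** (helper743's `tn_phi`) -/
def TPh {Λ : Type*} (π : Λ → DPar) (h : ℝ → ℝ) (A d e0 r : ℝ) (Bf : ℝ → ℝ → ℝ → ℝ)
    (Jf : ℝ → ℝ → ℝ → Finset (Eis × Eis)) : Prop :=
  ∀ τ : ℝ, 0 < τ → ∃ η : ℝ, 0 < η ∧ ∀ cw : ℝ, 1 ≤ cw →
    ∀ (lam : Λ × Eis) (N : ℕ) (B A1 : ℝ), lam.2 ∈ SM (π lam.1).n →
    ∃ δ' : ℝ, 0 < δ' ∧ ∃ X₀ : ℝ, 1 < X₀ ∧ ∀ X : ℝ, X₀ ≤ X → ∀ δ ε' : ℝ, δ ≤ η → ε' ≤ η →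
    ∀ (a : Bd × ℕ) (ps : List Pq) (q : (Option (Fin 3 ⊕ Fin 5) → ℝ) × (Kd → ℝ)),
      FrL A d δ δ' B X N a ps q → a.1.ok → a.1.okP (π lam.1) →
    ∀ x : Dt, x.OK (π lam.1) Bf e0 r ε' X a.1 →
    ∀ z' : Cls,
      z'.Ok d (1 / cκ (dn q.1)) (cN (dn q.1) / cκ (dn q.1)) (cM (dn q.1) / cκ (dn q.1))
        (q.2 .mo / cκ (dn q.1)) (q.2 .am / cκ (dn q.1)) (cx' (dn q.1) / cκ (dn q.1)) →
      |z'.v - Real.log 2 * a.2 / (cκ (dn q.1) * Real.log X)| ≤ η →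
      |z'.β - E4Dic352.lg (∏ i, x.β i) / (cκ (dn q.1) * Real.log X)| ≤ η →
      |z'.s - E4Dic352.lg x.e₀ / (cκ (dn q.1) * Real.log X)| ≤ η →
    ∀ (nkk nl : ℕ) (Pp : Pf) (s₁ β₀ : Eis) (Oc : Finset (x.O π lam Jf a)) (Pk : Eis → Prop)
      (g₁ g₂ D b : Eis) (G : Eis → ℂ),
      XBk π lam Jf a x (alb (f3 (π lam.1) h lam.2 a.1) x.β) A1 X nkk nl Pp s₁ β₀ Oc Pk g₁ g₂
        D b G →
    ∀ dd : XD, dd = dBX π lam Jf a x (alb (f3 (π lam.1) h lam.2 a.1) x.β) A1 X nkk Pp g₁ g₂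
        D b G →
    ∀ Nα : ℝ, XL842.lx X Nα ≤ cκ (dn q.1) * (cN (dn q.1) / cκ (dn q.1) - z'.β) + η →
      TNum dd cw X (cκ (dn q.1) * (z'.tT (cN (dn q.1) / cκ (dn q.1))
          (cu (dn q.1) 4 / cκ (dn q.1)) + 2 / 3 * d * z'.N1 (cN (dn q.1) / cκ (dn q.1)))) Nα
        (cκ (dn q.1) * z'.fF (cN (dn q.1) / cκ (dn q.1)) (cu (dn q.1) 4 / cκ (dn q.1))) τ
        (2 * 2 ^ nl) x.m β₀ s₁

set_option maxHeartbeats 1000000 in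
/-- **one block, closer `XPV`** -/
theorem blkC_PV {Λ : Type*} {π : Λ → DPar} {h : ℝ → ℝ} {c₀ : ℝ} (hh : PU h c₀)
    (hP : ∀ lam, (π lam).OK) {A d e0 r : ℝ} (hA : 2 / 3 ≤ A) {Bf : ℝ → ℝ → ℝ → ℝ}
    {Jf : ℝ → ℝ → ℝ → Finset (Eis × Eis)} (hJf : ∀ l N z, OKJ (Jf l N z))
    (HTP : TPh π h A d e0 r Bf Jf) : BlkC π h PVc A d e0 r Bf Jf := by
  intro ε hε
  obtain ⟨τ, hτ, hτ1, hτε⟩ : ∃ τ : ℝ, 0 < τ ∧ τ ≤ 1 ∧ 60005 * τ ≤ ε :=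
    ⟨min 1 (ε / 60005), by positivity, min_le_left _ _, by
      have := min_le_right 1 (ε / 60005)
      linarith⟩
  obtain ⟨Rw, hRw, HP⟩ := pre_N hh hP hA d e0 r Bf hJf
  obtain ⟨η₁, hη₁, HT⟩ := HTP τ hτ
  obtain ⟨η, hη, hηd, hηb, hηc⟩ : ∃ η : ℝ, 0 < η ∧ η ≤ η₁ / 4 ∧ η ≤ 1 / 2 ∧ η ≤ τ / 16 :=
    ⟨min (η₁ / 4) (min (1 / 2) (τ / 16)), by positivity, min_le_left _ _,
      (min_le_right _ _).trans (min_le_left _ _), (min_le_right _ _).trans (min_le_right _ _)⟩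
  have hηa : η ≤ η₁ := by linarith
  refine ⟨η, hη, hηb, ?_⟩
  intro lam N B Bb tt hD hBb hlam htw
  obtain ⟨Mη, hHC, hrad⟩ := tw_hc (hP lam.1) htw
  obtain ⟨Bb', X₁, hB1, hB2, hX₁, HP1⟩ := HP lam N B Bb
  obtain ⟨cw, A', X₂, hcw, hX₂, HC⟩ := pv_blk hHC tt.2 hRw hτ hτ1 (Bb := Bb') (by linarith)
  obtain ⟨δ₁, hδ₁, X₃, hX₃, HT1⟩ := HT cw hcw lam N B (4 * Bb' + 1) hlam
  obtain ⟨X₄, hX₄, HB⟩ := E4zq92.bsz_blk (h := h) hP hJf hτ 0 lam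
  refine ⟨A', min δ₁ 1, by positivity, max (max X₁ X₂) (max X₃ X₄),
    lt_max_of_lt_left (lt_max_of_lt_left hX₁), ?_⟩
  intro X hXX δ ε' hδ hε' a ps q hF ha haP x hx h₁ h₂ ξ G hG c P β τc 𝒥 h𝒥 Oc hOc t ht
    f1 f2 f3' D1' Z'' l' m hS z' mx ex hN hok hky hmx hmx2 hPV hBF t' ht' g₁ g₂ hbk Bm hBm1 hBm
    Bd hBd
  have hXX₁ : X₁ ≤ X := ((le_max_left _ _).trans (le_max_left _ _)).trans hXX
  have hXX₂ : X₂ ≤ X := ((le_max_right _ _).trans (le_max_left _ _)).trans hXX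
  have hXX₃ : X₃ ≤ X := ((le_max_left _ _).trans (le_max_right _ _)).trans hXX
  have hXX₄ : X₄ ≤ X := ((le_max_right _ _).trans (le_max_right _ _)).trans hXX
  have hX1 : 1 < X := hX₁.trans_le hXX₁
  have hX0 : 0 < X := by linarith
  obtain ⟨g1, g2, g3, g4, g5, g6⟩ := h𝒥 t' ht'
  subst g4
  obtain ⟨q1, q2, -⟩ := h𝒥 t ht
  obtain ⟨κ₀, hκ₀⟩ : ∃ κ₀ : ℝ, κ₀ = cκ (dn q.1) := ⟨_, rfl⟩
  have hκ0 : 0 < κ₀ := by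
    rw [hκ₀]
    have := hBF.κ0
    linarith
  obtain ⟨hbk', hpre⟩ := HP1 X hXX₁ δ (min δ₁ 1) ε' (hδ.trans hηb) (min_le_right _ _)
    (hε'.trans (hηb.trans (by norm_num))) a ps q hF ha hlam haP x hx h₁ h₂ G t' g1 g2 Mη hHC.q0
    hrad tt.1 tt.2 ξ c.nkk c.nlam _ β Oc _ g₁ g₂ hbk
  obtain ⟨dd, hdd⟩ : ∃ dd : XD, dd = dBX π lam Jf a x (alb (f3 (π lam.1) h lam.2 a.1) x.β)
    (4 * Bb' + 1) X c.nkk (pf t') g₁ g₂ t'.D1 (E4RH858.b1 t') (gx tt.1 tt.2 ξ) := ⟨_, rfl⟩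
  rw [← hdd] at hpre
  have hmx0 : mx = 0 := hPV.1
  subst hmx0
  have hsz := HB X hXX₄ δ (min δ₁ 1) ε' η hδ (by linarith) A d e0 r B N Bf a ps q hF ha haP x hx
    _ G c (pf t') β τc.1 𝒥 t ht q2 f1 f2 f3' D1' Z'' l' m hS z' 0 Bb hN hBF t' ht' _ _ _ β Oc _
    g₁ g₂ _ hbk' dd hdd 0 Bm hBm1 hBm (Real.exp (a3 a.1 - Real.log (nm (∏ i, x.β i))))
    (E4zq92.nα_164 a.1 x)
  have hNα : XL842.lx X (Real.exp (a3 a.1 - Real.log (nm (∏ i, x.β i)))) ≤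
      cκ (dn q.1) * (cN (dn q.1) / cκ (dn q.1) - z'.β) + η₁ := by
    have k1 := (abs_le.mp (E4zq92.Nα_of (n₀ := 0) hX1 hBF hN (E4St352.frV hF hX1)
      (E4zq92.nα_164 a.1 x))).2
    rw [zero_div] at k1
    linarith
  have hT := HT1 X hXX₃ δ ε' (hδ.trans hηa) (hε'.trans hηa) a ps q
    (hF.mono hX1.le le_rfl (min_le_left _ _)) ha haP x hx z' hok (hN.v.trans hηa)
    (hN.β.trans hηa) (hN.s.trans hηa) c.nkk c.nlam (pf t') _ β Oc _ g₁ g₂ t'.D1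
    (E4RH858.b1 t') _ hbk' dd hdd _ hNα
  rw [← hκ₀] at hsz hN hok hPV hBF hBd
  have key := HC X hXX₂ π lam Jf a x (alb (f3 (π lam.1) h lam.2 a.1) x.β) c.nkk c.nlam (pf t') _ β
    Oc _ g₁ g₂ t'.D1 (E4RH858.b1 t') ξ G hbk' hG dd hdd _ hpre κ₀ z'
    (cN (dn q.1) / κ₀) Bm (κ₀ * (z'.tT (cN (dn q.1) / κ₀) (cu (dn q.1) 4 / κ₀) +
      2 / 3 * d * z'.N1 (cN (dn q.1) / κ₀))) (κ₀ * z'.fF (cN (dn q.1) / κ₀) (cu (dn q.1) 4 / κ₀))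
    (κ₀ * z'.ff (cN (dn q.1) / κ₀) (cu (dn q.1) 4 / κ₀)) ex hBm1
    (hBm.trans (Real.rpow_le_rpow_of_exponent_le hX1.le (by linarith))) hsz
    (mul_nonneg hκ0.le hok.hv) hPV ?_ ?_
    (κ₀ * (z'.k + 2 * z'.lam) + (κ₀ * StrD699.Vx z' (cN (dn q.1) / κ₀) (cu (dn q.1) 4 / κ₀) +
      κ₀ * (2 / 3 * d * z'.N1 (cN (dn q.1) / κ₀)) + ex + ε)) (by
        unfold StrD699.Vx
        nlinarith)
  · rw [← hBd] at key
    refine ⟨fun _ => key.1, fun bm hbm => key.2 bm fun o ho => ?_⟩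
    refine XHn512.natS_mono (by linarith) le_rfl (by positivity) ?_ (hbm o ho)
    exact Real.rpow_le_rpow_of_exponent_le hX1.le (by linarith)
  · rw [← mul_min_of_nonneg _ _ hκ0.le]
    unfold Cls.ff
    rw [show z'.Y1 + z'.c12 + z'.nu = z'.nu + z'.c12 + z'.Y1 by ring]
    linarith
  · rw [← hκ₀] at hT
    exact hT

/-- **helper512's `XNumC` for the closer `XPV`** -/
theorem xnumC_PV {Λ : Type*} {π : Λ → DPar} {h : ℝ → ℝ} {c₀ : ℝ} (hh : PU h c₀)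
    (hP : ∀ lam, (π lam).OK) {A d e0 r : ℝ} (hA : 2 / 3 ≤ A) {Bf : ℝ → ℝ → ℝ → ℝ}
    {Jf : ℝ → ℝ → ℝ → Finset (Eis × Eis)} (hJf : ∀ l N z, OKJ (Jf l N z)) (hF : JFull Jf)
    (HTP : TPh π h A d e0 r Bf Jf) : XNumC π h PVc A d e0 r Bf Jf :=
  xnumC_blk hh hP hA hJf hF (blkC_PV hh hP hA hJf HTP)

end Crest.Agent.R017.XP164
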