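import Crest.Agent.R017.XTz_743
import Crest.Agent.R017.XTv_743

/-!
# Row 17, block C70, leaf E4, class E (helper743): helper842's `TNum` at a block

* `tn_phiX` : the three `T`-numbers at helper679's block, class E
* **`tphx_of`** : helper164's `TPhX` with the value `tE` (unfolded)
-/

set_option autoImplicit false
set_option linter.unusedVariables false

noncomputable section

open Finset

namespace Crest.Agent.R017.EnX743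

open Crest.Agent.R012 Crest.Agent.R012.Eis Crest.Agent.R012.Mob705
open Crest.Agent.R012.Div277 (dvs mem_dvs isPrim_of_mem_dvs nm_le_of_dvd)
open Crest.Agent.R017.GrB829 (IsC)
open Crest.Agent.R017.FE47 (PU SM)
open Crest.Agent.R017.HP842 (pc)
open Crest.Agent.R017.B770
open Crest.Agent.R017.Prov71
open Crest.Agent.R017.E5B71
open Crest.Agent.R017.E5L770
open Crest.Agent.R017.E5LX770 (SqLX)
open Crest.Agent.R017.ExP960 hiding alX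
open Crest.Agent.R017.E5k54 (alb)
open Crest.Agent.R017.E4U164
open Crest.Agent.R017.E4Df372
open Crest.Agent.R017.E4R70
open Crest.Agent.R017.E4RH858 (Pf pf Facts)
open Crest.Agent.R017.E4Dic352
open Crest.Agent.R017.E4St352
open Crest.Agent.R017.E4X92
open Crest.Agent.R017.E4zc92
open Crest.Agent.R017.E4zg92
open Crest.Agent.R017.E4zl679 (XBk dBX)
open Crest.Agent.R017.XL842 (lx BSz TNum)

variable {Λ : Type*}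

set_option maxHeartbeats 2000000 in
/-- **the `T`-numbers of a class at helper679's block, class E** -/
theorem tn_phiX {π : Λ → DPar} {h : ℝ → ℝ} {c₀ : ℝ} (hh : PU h c₀) {A d : ℝ}
    (hV : VNE π h d) (hd : 0 ≤ d) (hd1 : d ≤ 1 / 42) (hA0 : 2 / 3 ≤ A) (hA : A ≤ 1)
    (hA1 : 16 * (1 - A) ≤ d) {bb : ℝ} (hbb : bb = 17 / 100) (e0 r : ℝ)
    (Bf : ℕ → ℝ → ℝ → ℝ → ℝ) {ε : ℝ} (hε : 0 < ε) :
    ∃ η : ℝ, 0 < η ∧ ∀ cw : ℝ, 1 ≤ cw →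
    ∀ (lam : Λ × Eis) (N : ℕ) (B A1 : ℝ), lam.2 ∈ SM (π lam.1).n →
    ∃ δ' : ℝ, 0 < δ' ∧ ∃ X₀ : ℝ, 1 < X₀ ∧ ∀ X : ℝ, X₀ ≤ X → ∀ δ ε' : ℝ, δ ≤ η → ε' ≤ η →
    ∀ (a : BdX × ℕ) (ps : List Pq) (q : (Option IX5 → ℝ) × (Kd → ℝ)),
      FrLX A d bb δ δ' B X N a ps q → a.1.ok → a.1.okP (π lam.1) →
    ∀ x : Dt, x.OK (π lam.1) (Bf a.2) e0 r ε' X a.1.toBd → ∀ z' : E4R70.Cls,
      z'.Ok d (1 / cκ (prX (dn q.1))) (cN (prX (dn q.1)) / cκ (prX (dn q.1))) (cM (prX (dn q.1)) / cκ (prX (dn q.1)))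
        (q.2 .mo / cκ (prX (dn q.1))) (q.2 .am / cκ (prX (dn q.1))) (cx' (prX (dn q.1)) / cκ (prX (dn q.1))) →
      |z'.v - Real.log 2 * a.2 / (cκ (prX (dn q.1)) * Real.log X)| ≤ η →
      |z'.β - E4Dic352.lg (∏ i, x.β i) / (cκ (prX (dn q.1)) * Real.log X)| ≤ η →
      |z'.s - E4Dic352.lg x.e₀ / (cκ (prX (dn q.1)) * Real.log X)| ≤ η →
    ∀ (Jf : ℝ → ℝ → ℝ → Finset (Eis × Eis)) (nkk nl : ℕ) (Pp : Pf) (s₁ β₀ : Eis)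
      (Oc : Finset (x.O π lam Jf (bl a))) (Pk : Eis → Prop) (g₁ g₂ D b : Eis) (G : Eis → ℂ),
      XBk π lam Jf (bl a) x (E4Df372.alX (π lam.1) h lam.2 a.1 x.β) A1 X nkk nl Pp s₁ β₀ Oc Pk g₁ g₂ D b
        G →
    ∀ y : XD, y = dBX π lam Jf (bl a) x (E4Df372.alX (π lam.1) h lam.2 a.1 x.β) A1 X nkk Pp g₁ g₂ D b G →
    ∀ Nα : ℝ, lx X Nα ≤ cκ (prX (dn q.1)) * (cN (prX (dn q.1)) / cκ (prX (dn q.1)) - z'.β) + η →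
    ∀ (n : Fin 12 → ℕ), 1 / 2 ≤ y.x.Nn n →
      TSD y.x.α y.x.e₀ y.x.c₀ (y.x.Ee n) (y.x.Ln cw n) ≤
        X ^ (cκ (prX (dn q.1)) * (z'.tE (cN (prX (dn q.1)) / cκ (prX (dn q.1))) (cu (prX (dn q.1)) 4 / cκ (prX (dn q.1))) +
          2 / 3 * d * z'.N1 (cN (prX (dn q.1)) / cκ (prX (dn q.1)))) -
          2 / 3 * lx X (y.x.En n) - lx X Nα / 3 + ε) ∧
      ∀ (k : Eis × Eis) (m : Fin 2 → Fin 3 → ℕ) (γ ρ1 ρ2 ς nus nR nU : ℕ),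
        Rel m γ ρ1 ρ2 ς n nus nR nU → KRel m β₀ n k → (2 : ℝ) ^ (n 0 + n 1) ≤ 2 * 2 ^ nl →
        TSR y.x.α y.x.e₀ y.x.c₀ 1 (y.x.Ee n) (YsC y.g₁ m n k.1) (y.x.Ln cw n) ≤
          X ^ (cκ (prX (dn q.1)) * (z'.tE (cN (prX (dn q.1)) / cκ (prX (dn q.1))) (cu (prX (dn q.1)) 4 / cκ (prX (dn q.1))) +
            2 / 3 * d * z'.N1 (cN (prX (dn q.1)) / cκ (prX (dn q.1)))) +
            min (cκ (prX (dn q.1)) * z'.fF (cN (prX (dn q.1)) / cκ (prX (dn q.1))) (cu (prX (dn q.1)) 4 / cκ (prX (dn q.1))))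
              (lx X ((2 ^ (m 1 1 + m 1 2 + 2 + (n 1 - n 2 + 1)) : ℕ) : ℝ)) -
            2 / 3 * lx X (y.x.En n) - lx X Nα / 3 + ε) ∧
        TSR y.x.α y.x.e₀ y.x.c₀ (1 / 2) (y.x.Ee n) (YsC y.g₁ m n k.1) (y.x.Ln cw n) ≤
          X ^ (cκ (prX (dn q.1)) * (z'.tE (cN (prX (dn q.1)) / cκ (prX (dn q.1))) (cu (prX (dn q.1)) 4 / cκ (prX (dn q.1))) +
            2 / 3 * d * z'.N1 (cN (prX (dn q.1)) / cκ (prX (dn q.1)))) +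
            (cκ (prX (dn q.1)) * z'.fF (cN (prX (dn q.1)) / cκ (prX (dn q.1))) (cu (prX (dn q.1)) 4 / cκ (prX (dn q.1))) +
              min (cκ (prX (dn q.1)) * z'.fF (cN (prX (dn q.1)) / cκ (prX (dn q.1)))
                (cu (prX (dn q.1)) 4 / cκ (prX (dn q.1))))
                (lx X ((2 ^ (m 1 1 + m 1 2 + 2 + (n 1 - n 2 + 1)) : ℕ) : ℝ))) / 2 -
            2 / 3 * lx X (y.x.En n) - lx X Nα / 3 + ε) := by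
  classical
  obtain ⟨η, hη, H1⟩ := tn_xfX hh hV hd hd1 hA0 hA hA1 hbb e0 r Bf hε
  refine ⟨η, hη, ?_⟩
  intro cw hcw lam N B A1 hlam
  obtain ⟨δ', hδ', X₁, hX₁, H2⟩ := H1 cw hcw lam N B (3 * A1 + 1) hlam
  refine ⟨δ', hδ', max X₁ 8, lt_max_of_lt_left hX₁, ?_⟩
  intro X hXX δ ε' hδ hε' a ps q hF ha haP x hx z' hok hv hb hs Jf nkk nl Pp s₁ β₀ Oc Pk g₁ g₂ D b
    G hB y hy Nα hNα n hn
  have hXX₁ : X₁ ≤ X := (le_max_left _ _).trans hXX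
  have hX8 : 8 ≤ X := (le_max_right _ _).trans hXX
  have hX1 : 1 < X := by linarith
  have hX0 : 0 < X := by linarith
  have hyo : y.OK := by rw [hy]; exact hB.ok.1
  have hA1' := hB.hA1
  have e1 : y.x.e₀ = x.e₀ := by rw [hy]; rfl
  have e2 : y.x.α = E4Df372.alX (π lam.1) h lam.2 a.1 x.β := by rw [hy]; rfl
  have e3 : y.x.V = 2 ^ a.2 := by rw [hy]; rfl
  have e4 : y.g₁ = g₁ := by rw [hy]; rfl
  obtain ⟨k0, k1⟩ := H2 X hXX₁ δ ε' hδ hε' a ps q hF ha haP x hx z' hok hv hb hs y.x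
    (okx_of hyo hcw) e1 e2 e3 hyo.c₀ Nα hNα n hn
  refine ⟨k0, ?_⟩
  intro k m γ ρ1 ρ2 ς nus nR nU hR hk hBo
  obtain ⟨z1, z2⟩ := key_sz hR hk hBo
  have hXA : 0 < X ^ A1 := Real.rpow_pos_of_pos hX0 _
  have hXA1 : 1 ≤ X ^ A1 := Real.one_le_rpow hX1.le hA1'
  have hLY := hB.blk.LY
  have p3 : (X ^ A1) ^ 3 * X = X ^ (3 * A1 + 1) := by
    rw [← Real.rpow_natCast, ← Real.rpow_mul hX0.le]
    nth_rewrite 2 [← Real.rpow_one X]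
    rw [← Real.rpow_add hX0]
    congr 1
    push_cast
    ring
  have hg1 : (nm g₁ : ℝ) ≤ X ^ A1 := le_trans (by exact_mod_cast hB.g1n) hB.hn
  have hA0' : g₁ * k.1 ≠ 0 := mul_ne_zero hB.g1.1.ne_zero hk.p1.ne_zero
  have hAK : (nm (g₁ * k.1) : ℝ) ≤ X ^ (3 * A1 + 1) := by
    rw [nm_mul, ← p3]
    push_cast
    have h1 : (nm k.1 : ℝ) ≤ 8 * (X ^ A1) ^ 2 := by
      refine z1.trans ?_
      gcongr
    calc (nm g₁ : ℝ) * nm k.1 ≤ X ^ A1 * (8 * (X ^ A1) ^ 2) := by gcongr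
      _ = (X ^ A1) ^ 3 * 8 := by ring
      _ ≤ (X ^ A1) ^ 3 * X := by gcongr
  have hYK : ((2 ^ (m 1 1 + m 1 2 + 2 + (n 1 - n 2 + 1)) : ℕ) : ℝ) ≤ X ^ (3 * A1 + 1) := by
    rw [← p3]
    calc ((2 ^ (m 1 1 + m 1 2 + 2 + (n 1 - n 2 + 1)) : ℕ) : ℝ) ≤ 8 * (2 * 2 ^ nl) := z2
      _ ≤ X * X ^ A1 := by gcongr
      _ = X ^ A1 * X := by ring
      _ ≤ (X ^ A1) ^ 3 * X := by
          refine mul_le_mul_of_nonneg_right ?_ hX0.le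
          exact le_self_pow₀ hXA1 (by norm_num)
  have hYs : ∀ c ∈ YsC y.g₁ m n k.1, ∃ b ∈ dvs (g₁ * k.1),
      ∃ c' ∈ primBall (2 ^ (m 1 1 + m 1 2 + 2 + (n 1 - n 2 + 1))), c = b * c' := by
    intro c hc
    unfold YsC at hc
    rw [e4] at hc
    obtain ⟨w, hw, rfl⟩ := mem_image.mp hc
    obtain ⟨w1, w2⟩ := mem_product.mp hw
    exact ⟨w.1, w1, w.2, w2, rfl⟩
  exact k1 (g₁ * k.1) _ (YsC y.g₁ m n k.1) hA0' hAK Nat.one_le_two_pow hYK hYs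

/-- **helper842's `TNum` at helper679's block** -/
theorem tnum_ofX {π : Λ → DPar} {h : ℝ → ℝ} {c₀ : ℝ} (hh : PU h c₀) {A d : ℝ}
    (hV : VNE π h d) (hd : 0 ≤ d) (hd1 : d ≤ 1 / 42) (hA0 : 2 / 3 ≤ A) (hA : A ≤ 1)
    (hA1 : 16 * (1 - A) ≤ d) {bb : ℝ} (hbb : bb = 17 / 100) (e0 r : ℝ)
    (Bf : ℕ → ℝ → ℝ → ℝ → ℝ) {ε : ℝ} (hε : 0 < ε) :
    ∃ η : ℝ, 0 < η ∧ ∀ cw : ℝ, 1 ≤ cw →
    ∀ (lam : Λ × Eis) (N : ℕ) (B A1 : ℝ), lam.2 ∈ SM (π lam.1).n →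
    ∃ δ' : ℝ, 0 < δ' ∧ ∃ X₀ : ℝ, 1 < X₀ ∧ ∀ X : ℝ, X₀ ≤ X → ∀ δ ε' : ℝ, δ ≤ η → ε' ≤ η →
    ∀ (a : BdX × ℕ) (ps : List Pq) (q : (Option IX5 → ℝ) × (Kd → ℝ)),
      FrLX A d bb δ δ' B X N a ps q → a.1.ok → a.1.okP (π lam.1) →
    ∀ x : Dt, x.OK (π lam.1) (Bf a.2) e0 r ε' X a.1.toBd → ∀ z' : E4R70.Cls,
      z'.Ok d (1 / cκ (prX (dn q.1))) (cN (prX (dn q.1)) / cκ (prX (dn q.1))) (cM (prX (dn q.1)) / cκ (prX (dn q.1)))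
        (q.2 .mo / cκ (prX (dn q.1))) (q.2 .am / cκ (prX (dn q.1))) (cx' (prX (dn q.1)) / cκ (prX (dn q.1))) →
      |z'.v - Real.log 2 * a.2 / (cκ (prX (dn q.1)) * Real.log X)| ≤ η →
      |z'.β - E4Dic352.lg (∏ i, x.β i) / (cκ (prX (dn q.1)) * Real.log X)| ≤ η →
      |z'.s - E4Dic352.lg x.e₀ / (cκ (prX (dn q.1)) * Real.log X)| ≤ η →
    ∀ (Jf : ℝ → ℝ → ℝ → Finset (Eis × Eis)) (nkk nl : ℕ) (Pp : Pf) (s₁ β₀ : Eis)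
      (Oc : Finset (x.O π lam Jf (bl a))) (Pk : Eis → Prop) (g₁ g₂ D b : Eis) (G : Eis → ℂ),
      XBk π lam Jf (bl a) x (E4Df372.alX (π lam.1) h lam.2 a.1 x.β) A1 X nkk nl Pp s₁ β₀ Oc Pk g₁ g₂ D b
        G →
    ∀ y : XD, y = dBX π lam Jf (bl a) x (E4Df372.alX (π lam.1) h lam.2 a.1 x.β) A1 X nkk Pp g₁ g₂ D b G →
    ∀ Nα : ℝ, lx X Nα ≤ cκ (prX (dn q.1)) * (cN (prX (dn q.1)) / cκ (prX (dn q.1)) - z'.β) + η →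
      TNum y cw X (cκ (prX (dn q.1)) * (z'.tE (cN (prX (dn q.1)) / cκ (prX (dn q.1))) (cu (prX (dn q.1)) 4 / cκ (prX (dn q.1))) +
        2 / 3 * d * z'.N1 (cN (prX (dn q.1)) / cκ (prX (dn q.1))))) Nα
        (cκ (prX (dn q.1)) * z'.fF (cN (prX (dn q.1)) / cκ (prX (dn q.1))) (cu (prX (dn q.1)) 4 / cκ (prX (dn q.1)))) ε
        (2 * 2 ^ nl) x.m β₀ s₁ := by
  obtain ⟨η, hη, H1⟩ := tn_phiX hh hV hd hd1 hA0 hA hA1 hbb e0 r Bf hε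
  refine ⟨η, hη, ?_⟩
  intro cw hcw lam N B A1 hlam
  obtain ⟨δ', hδ', X₁, hX₁, H2⟩ := H1 cw hcw lam N B A1 hlam
  refine ⟨δ', hδ', X₁, hX₁, ?_⟩
  intro X hXX δ ε' hδ hε' a ps q hF ha haP x hx z' hok hv hb hs Jf nkk nl Pp s₁ β₀ Oc Pk g₁ g₂ D b
    G hB y hy Nα hNα
  intro n k nus nR nU hR hk hn hBo
  obtain ⟨k0, k1⟩ := H2 X hXX δ ε' hδ hε' a ps q hF ha haP x hx z' hok hv hb hs Jf nkk nl Pp s₁ β₀
    Oc Pk g₁ g₂ D b G hB y hy Nα hNα n hn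
  obtain ⟨k2, k3⟩ := k1 k x.m _ _ _ _ nus nR nU hR hk hBo
  have e : (((2 : ℕ) ^ (x.m 1 1 + x.m 1 2 + 2 + (n 1 - n 2 + 1)) : ℕ) : ℝ) =
      (2 : ℝ) ^ XL842.Yb x.m n := by
    push_cast
    rfl
  rw [e] at k2 k3
  exact ⟨k0, k2, k3⟩


/-- **helper164's `TPhX`, value `tE`** (unfolded) -/
theorem tphx_of {π : Λ → DPar} {h : ℝ → ℝ} {c₀ : ℝ} (hh : PU h c₀) {A d : ℝ}
    (hV : VNE π h d) (hd : 0 ≤ d) (hd1 : d ≤ 1 / 42) (hA0 : 2 / 3 ≤ A) (hA : A ≤ 1)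
    (hA1 : 16 * (1 - A) ≤ d) {bb : ℝ} (hbb : bb = 17 / 100) (e0 r : ℝ)
    (Bf : ℕ → ℝ → ℝ → ℝ → ℝ) (Jf : ℝ → ℝ → ℝ → Finset (Eis × Eis)) :
  ∀ τ : ℝ, 0 < τ → ∃ η : ℝ, 0 < η ∧ ∀ cw : ℝ, 1 ≤ cw →
    ∀ (lam : Λ × Eis) (N : ℕ) (B A1 : ℝ), ¬ (π lam.1).CaseD → lam.2 ∈ SM (π lam.1).n →
    ∃ δ' : ℝ, 0 < δ' ∧ ∃ X₀ : ℝ, 1 < X₀ ∧ ∀ X : ℝ, X₀ ≤ X → ∀ δ ε' : ℝ, δ ≤ η → ε' ≤ η →
    ∀ (a : BdX × ℕ) (ps : List Pq) (q : (Option IX5 → ℝ) × (Kd → ℝ)),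
      FrLX A d bb δ δ' B X N a ps q → a.1.ok → a.1.okP (π lam.1) →
    ∀ x : Dt, x.OK (π lam.1) (Bf a.2) e0 r ε' X a.1.toBd → XLowX d X q x →
      (x.I Jf (bl a)).Nonempty →
    ∀ z' : E4R70.Cls,
      z'.Ok d (1 / cκ (prX (dn q.1))) (cN (prX (dn q.1)) / cκ (prX (dn q.1)))
        (cM (prX (dn q.1)) / cκ (prX (dn q.1))) (q.2 .mo / cκ (prX (dn q.1)))
        (q.2 .am / cκ (prX (dn q.1))) (cx' (prX (dn q.1)) / cκ (prX (dn q.1))) →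
      |z'.v - Real.log 2 * a.2 / (cκ (prX (dn q.1)) * Real.log X)| ≤ η →
      |z'.β - E4Dic352.lg (∏ i, x.β i) / (cκ (prX (dn q.1)) * Real.log X)| ≤ η →
      |z'.s - E4Dic352.lg x.e₀ / (cκ (prX (dn q.1)) * Real.log X)| ≤ η →
    ∀ (nkk nl : ℕ) (Pp : Pf) (s₁ β₀ : Eis) (Oc : Finset (x.O π lam Jf (bl a)))
      (Pk : Eis → Prop) (g₁ g₂ D b : Eis) (G : Eis → ℂ),
      XBk π lam Jf (bl a) x (E4Df372.alX (π lam.1) h lam.2 a.1 x.β) A1 X nkk nl Pp s₁ β₀ Oc Pk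
        g₁ g₂ D b G →
    ∀ dd : XD, dd = dBX π lam Jf (bl a) x (E4Df372.alX (π lam.1) h lam.2 a.1 x.β) A1 X nkk Pp
        g₁ g₂ D b G →
    ∀ Nα : ℝ, XL842.lx X Nα ≤
        cκ (prX (dn q.1)) * (cN (prX (dn q.1)) / cκ (prX (dn q.1)) - z'.β) + η →
      TNum dd cw X (cκ (prX (dn q.1)) * ((fun (z : E4R70.Cls) (N u : ℝ) => z.tE N u) z'
          (cN (prX (dn q.1)) / cκ (prX (dn q.1)))
          (cu (prX (dn q.1)) 4 / cκ (prX (dn q.1))) +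
          2 / 3 * d * z'.N1 (cN (prX (dn q.1)) / cκ (prX (dn q.1))))) Nα
        (cκ (prX (dn q.1)) * z'.fF (cN (prX (dn q.1)) / cκ (prX (dn q.1)))
          (cu (prX (dn q.1)) 4 / cκ (prX (dn q.1)))) τ (2 * 2 ^ nl) x.m β₀ s₁ := by
  intro τ hτ
  obtain ⟨η, hη, H1⟩ := tnum_ofX hh hV hd hd1 hA0 hA hA1 hbb e0 r Bf hτ
  refine ⟨η, hη, fun cw hcw lam N B A1 _ hlam => ?_⟩
  obtain ⟨δ', hδ', X₁, hX₁, H2⟩ := H1 cw hcw lam N B A1 hlam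
  refine ⟨δ', hδ', X₁, hX₁, ?_⟩
  intro X hXX δ ε' hδ hε' a ps q hF ha haP x hx _ _ z' hok hv hb hs nkk nl Pp s₁ β₀ Oc Pk g₁ g₂ D b
    G hB dd hdd Nα hNα
  exact H2 X hXX δ ε' hδ hε' a ps q hF ha haP x hx z' hok hv hb hs Jf nkk nl Pp s₁ β₀ Oc Pk g₁ g₂
    D b G hB dd hdd Nα hNα

end Crest.Agent.R017.EnX743
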