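import Crest.Agent.R017.XPdX_164
import Crest.Agent.R017.XUa_743

/-!
# Row 17, E4 (x-side): the closer `XPV`, class E, from helper743's `VNE` (helper164)

* `tphX_of` : `TPhX` from helper743's `tphx_of`
* **`xnc_PV_of`** : helper679's `XNC` for the closer `XPV`, value `tE`, every `e0`, `r`, `Bf`
-/

set_option autoImplicit false

noncomputable section

open Complex Finset

namespace Crest.Agent.R017.XP164

open Crest.Agent.R012 Crest.Agent.R012.Eis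
open Crest.Agent.R017.C70 (OKJ)
open Crest.Agent.R017.FE47 (PU)
open Crest.Agent.R017.B770 (DPar)
open Crest.Agent.R017.E4R70 (Cls)
open Crest.Agent.R017.E4zf92 (JFull)
open Crest.Agent.R017.XHn512 (PVc)
open Crest.Agent.R017.XLeX679 (XNC BlkCX)
open Crest.Agent.R017.EnX743 (VNE)

/-- the `T`-numbers at the data of one block, class E -/
theorem tphX_of {Λ : Type*} {π : Λ → DPar} {h : ℝ → ℝ} {c₀ : ℝ} (hh : PU h c₀) {A d : ℝ}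
    (hV : VNE π h d) (hd : 0 ≤ d) (hd1 : d ≤ 1 / 42) (hA0 : 2 / 3 ≤ A) (hA : A ≤ 1)
    (hA1 : 16 * (1 - A) ≤ d) {bb : ℝ} (hbb : bb = 17 / 100) (e0 r : ℝ)
    (Bf : ℕ → ℝ → ℝ → ℝ → ℝ) (Jf : ℝ → ℝ → ℝ → Finset (Eis × Eis)) :
    TPhX π h (fun z N u => z.tE N u) A d bb e0 r Bf Jf :=
  EnX743.tphx_of hh hV hd hd1 hA0 hA hA1 hbb e0 r Bf Jf

/-- **helper679's `XNC` for the closer `XPV`, from `VNE`**, every `e0`, `r`, `Bf` -/
theorem xnc_PV_of {Λ : Type*} {π : Λ → DPar} {h : ℝ → ℝ} {c₀ : ℝ} (hh : PU h c₀)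
    (hP : ∀ lam, (π lam).OK) {A d : ℝ} (hV : VNE π h d) (hd : 0 ≤ d) (hd1 : d ≤ 1 / 42)
    (hA0 : 2 / 3 ≤ A) (hA : A ≤ 1) (hA1 : 16 * (1 - A) ≤ d) {bb : ℝ} (hbb : bb = 17 / 100)
    {Jf : ℝ → ℝ → ℝ → Finset (Eis × Eis)} (hJf : ∀ l N z, OKJ (Jf l N z)) (hF : JFull Jf)
    (e0 r : ℝ) (Bf : ℕ → ℝ → ℝ → ℝ → ℝ) :
    XNC π h (fun z N u => z.tE N u - (z.v + z.us) / 3 - (N - z.β) / 3) PVc A d bb e0 r Bf Jf :=
  xnc_PV hh hP hA0 hJf hF (tphX_of hh hV hd hd1 hA0 hA hA1 hbb e0 r Bf Jf)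

end Crest.Agent.R017.XP164
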