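import Crest.Agent.R017.XT1_71

/-!
# Row 17: transfer of analytic if-then rules to exponents (helper71), part 2: the transfer theorem
-/

set_option autoImplicit false

noncomputable section

open Set Filter Topology

namespace Crest.Agent.R017.XT71

open Crest.Agent.R017.XF71 (const_le_rpow Nr)

variable {A A' A'' ι ι' ι'' Λ : Type*}

/-- pull back along a map of data -/
theorem Loc.pull {S : Sys A ι} {S' : Sys A' ι'} {p : ι → ℝ} {p' : ι' → ℝ} {Φ : Λ → ℝ → A → Prop}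
    (φ : A' → A) (h : Loc S p Φ)
    (hw : ∀ δ : ℝ, 0 < δ → ∃ δ' : ℝ, 0 < δ' ∧ ∀ (_ : Λ) (N : ℕ) (B : ℝ), ∃ (N' : ℕ) (B' : ℝ),
      ∀ ρ : ℝ, 0 < ρ → ∃ ρ' : ℝ, 0 < ρ' ∧ ∃ X₀ : ℝ, 1 < X₀ ∧ ∀ X : ℝ, X₀ ≤ X → ∀ a' : A',
        Win S' p' δ' N B ρ' X a' → Win S p δ N' B' ρ X (φ a')) :
    Loc S' p' (fun lam X a' => Φ lam X (φ a')) := by
  obtain ⟨δ, hδ, h1⟩ := h
  obtain ⟨δ', hδ', h2⟩ := hw δ hδ
  refine ⟨δ', hδ', fun lam N B => ?_⟩
  obtain ⟨N', B', h3⟩ := h2 lam N B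
  obtain ⟨ρ, hρ, X₀, hX₀, h4⟩ := h1 lam N' B'
  obtain ⟨ρ', hρ', X₁, hX₁, h5⟩ := h3 ρ hρ
  refine ⟨ρ', hρ', max X₀ X₁, lt_of_lt_of_le hX₀ (le_max_left _ _), fun X hX a' ha' => ?_⟩
  exact h4 X ((le_max_left _ _).trans hX) _ (h5 X ((le_max_right _ _).trans hX) a' ha')

theorem EG.pull {S : Sys A ι} {S' : Sys A' ι'} {p : ι → ℝ} {p' : ι' → ℝ} {Ψ : Λ → A → ℝ} {e : ℝ}
    (φ : A' → A) (h : EG S Ψ p e)
    (hw : ∀ δ : ℝ, 0 < δ → ∃ δ' : ℝ, 0 < δ' ∧ ∀ (_ : Λ) (N : ℕ) (B : ℝ), ∃ (N' : ℕ) (B' : ℝ),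
      ∀ ρ : ℝ, 0 < ρ → ∃ ρ' : ℝ, 0 < ρ' ∧ ∃ X₀ : ℝ, 1 < X₀ ∧ ∀ X : ℝ, X₀ ≤ X → ∀ a' : A',
        Win S' p' δ' N B ρ' X a' → Win S p δ N' B' ρ X (φ a')) :
    EG S' (fun lam a' => Ψ lam (φ a')) p' e := EG.of_loc fun _ hε => (h.loc hε).pull φ hw

/-- uniform continuity in the base point -/
theorem base_cont [Fintype ι] [Fintype ι'] {D : Set (ι' → ℝ)} (hD : IsCompact D)
    {h : (ι → ℝ) × (ι' → ℝ) → ℝ} (hh : Continuous h) (p : ι → ℝ) {ε : ℝ} (hε : 0 < ε) :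
    ∃ δ : ℝ, 0 < δ ∧ ∀ q : ι → ℝ, (∀ i, |q i - p i| ≤ δ) → ∀ q' ∈ D,
      |h (q, q') - h (p, q')| ≤ ε := by
  have hcomp : IsCompact ((Metric.closedBall p 1) ×ˢ D) :=
    (isCompact_closedBall p 1).prod hD
  have huc := hcomp.uniformContinuousOn_of_continuous hh.continuousOn
  rw [Metric.uniformContinuousOn_iff] at huc
  obtain ⟨η, hη, H2⟩ := huc ε hε
  refine ⟨min 1 (η / 2), lt_min one_pos (by linarith), fun q hq q' hq' => ?_⟩
  have hqp : dist q p ≤ min 1 (η / 2) :=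
    (dist_pi_le_iff (by positivity)).2 fun i => by rw [Real.dist_eq]; exact hq i
  have hmem : (q, q') ∈ (Metric.closedBall p 1) ×ˢ D := ⟨by
    rw [Metric.mem_closedBall]; exact hqp.trans (min_le_left _ _), hq'⟩
  have hmem' : (p, q') ∈ (Metric.closedBall p 1) ×ˢ D := ⟨by
    rw [Metric.mem_closedBall, dist_self]; norm_num, hq'⟩
  have hdist : dist (q, q') (p, q') < η := by
    rw [Prod.dist_eq, dist_self]
    have : dist q p < η := by linarith [hqp.trans (min_le_right 1 (η / 2))]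
    exact max_lt this hη
  have h3 := H2 _ hmem _ hmem' hdist
  rw [Real.dist_eq] at h3
  exact h3.le

/-- **Transfer theorem.**  `hrule` : the analytic if-then rule; `hgeo` : the children of an element
of a small window have exponent vectors in the compact set `D`, satisfy the constraint `f ≤ η`, and
`mon ≥ X^(h - η)`; `triv` : trivial bound for all children; `hch` : exponents `E + h (p, p')` at all
points of the polytope.  Conclusion: exponent `max e₁ (e₂ + E)` at `p`. -/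
theorem transfer [Fintype ι] [Fintype ι'] {S : Sys A ι} {S' : Sys A' ι'} {Ψ : Λ → A → ℝ}
    {Ψ' : Λ → A' → ℝ} {Ch : Λ → ℝ → A → A' → Prop} {cost mon : Λ → A → A' → ℝ}
    {big m₁ m₂ : Λ → A → ℝ}
    (hrule : ∀ (lam : Λ) (ε M : ℝ), 0 < ε → 0 ≤ M → ∃ C : ℝ, 0 < C ∧ ∀ a : A, ∀ Bd : ℝ, 0 ≤ Bd →
      (∀ a' : A', Ch lam ε a a' → Ψ' lam a' ≤ Bd * cost lam a a' ^ M * mon lam a a') →
      Ψ lam a ≤ C * big lam a ^ ε * (m₁ lam a + m₂ lam a * Bd))
    (hcost : ∀ lam a a', 1 ≤ cost lam a a') (hmon : ∀ lam a a', 0 ≤ mon lam a a')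
    (hbig0 : ∀ lam a, 1 ≤ big lam a)
    {p : ι → ℝ} {D : Set (ι' → ℝ)} (hD : IsCompact D) {f h : (ι → ℝ) × (ι' → ℝ) → ℝ}
    (hf : Continuous f) (hh : Continuous h) {c e₁ e₂ E : ℝ}
    (hbig : Loc S p (fun lam X a => big lam a ≤ X ^ c))
    (hm₁ : EG S m₁ p e₁) (hm₂ : EG S m₂ p e₂)
    (hgeo : ∀ η : ℝ, 0 < η → ∃ ε : ℝ, 0 < ε ∧ ε ≤ η ∧ ∃ δ : ℝ, 0 < δ ∧
      ∀ (lam : Λ) (N : ℕ) (B : ℝ),
      ∃ (N' : ℕ) (B' : ℝ), ∀ ρ' : ℝ, 0 < ρ' → ∃ ρ : ℝ, 0 < ρ ∧ ∃ X₀ : ℝ, 1 < X₀ ∧ ∀ X : ℝ, X₀ ≤ X →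
        ∀ a : A, Win S p δ N B ρ X a → ∀ a' : A', Ch lam ε a a' →
          S'.ev X a' ∈ D ∧ f (S.ev X a, S'.ev X a') ≤ η ∧
          X ^ (h (S.ev X a, S'.ev X a') - η) ≤ mon lam a a' ∧ S'.g a' ≤ X ^ η ∧ S'.n a' ≤ N' ∧
          S'.s₂ a' ≤ X ^ B' ∧ (cost lam a a' ≤ X ^ ρ → S'.s₁ a' ≤ X ^ ρ'))
    {T : ℝ} (triv : ∃ ε₀ : ℝ, 0 < ε₀ ∧ Loc S p (fun lam X a => ∀ a', Ch lam ε₀ a a' →
      Ψ' lam a' ≤ X ^ T * cost lam a a' ^ T * mon lam a a'))
    (hChmono : ∀ lam ε ε' a a', ε ≤ ε' → Ch lam ε a a' → Ch lam ε' a a')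
    (hch : ∀ p' ∈ D, f (p, p') ≤ 0 → EG S' Ψ' p' (E + h (p, p'))) :
    EG S Ψ p (max e₁ (e₂ + E)) := by
  refine EG.of_loc fun ε hε => ?_
  obtain ⟨ε₀, hε₀, triv⟩ := triv
  -- the children are uniformly controlled
  set K : Set (ι' → ℝ) := {p' | p' ∈ D ∧ f (p, p') ≤ 0} with hKdef
  have hKc : IsCompact K := hD.inter_right
    (isClosed_le (hf.comp (Continuous.prodMk_right p)) continuous_const)
  obtain ⟨δ₁, hδ₁, hun⟩ := EG.unif (S := S') (Ψ := Ψ') hKc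
    (h := fun q' => - h (p, q')) ((hh.comp (Continuous.prodMk_right p)).neg) (E := E)
    (fun p' hp' => by
      have := hch p' hp'.1 hp'.2
      have e1 : E - -h (p, p') = E + h (p, p') := by ring
      rw [e1]; exact this) (ε := ε / 8) (by linarith)
  obtain ⟨ρ₁, hρ₁, hnear⟩ := near hD hf p hδ₁
  obtain ⟨δ₂, hδ₂, hbc⟩ := base_cont hD hh p (ε := ε / 8) (by linarith)
  -- slack
  set η : ℝ := min (min δ₁ ρ₁) (min (ε / 8) (min ε₀ (ε / (8 * (|c| + 1))))) with hη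
  have hcpos : 0 < |c| + 1 := by positivity
  have hηpos : 0 < η := by
    rw [hη]; refine lt_min (lt_min hδ₁ hρ₁) (lt_min (by linarith) (lt_min hε₀ (by positivity)))
  have hη1 : η ≤ δ₁ := (min_le_left _ _).trans (min_le_left _ _)
  have hη2 : η ≤ ρ₁ := (min_le_left _ _).trans (min_le_right _ _)
  have hη3 : η ≤ ε / 8 := (min_le_right _ _).trans (min_le_left _ _)
  have hη4 : η ≤ ε₀ := (min_le_right _ _).trans ((min_le_right _ _).trans (min_le_left _ _))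
  have hη5 : η ≤ ε / (8 * (|c| + 1)) :=
    (min_le_right _ _).trans ((min_le_right _ _).trans (min_le_right _ _))
  obtain ⟨εr, hεr, hεη, δ₃, hδ₃, hgeo1⟩ := hgeo η hηpos
  obtain ⟨δ₄, hδ₄, triv1⟩ := triv
  obtain ⟨δ₅, hδ₅, hbig1⟩ := hbig
  obtain ⟨δ₆, hδ₆, hm₁'⟩ := hm₁.loc (ε := ε / 8) (by linarith)
  obtain ⟨δ₇, hδ₇, hm₂'⟩ := hm₂.loc (ε := ε / 8) (by linarith)
  set δ : ℝ := min (min (min δ₂ δ₃) (min δ₄ ρ₁)) (min δ₅ (min δ₆ δ₇)) with hδdef
  have hδpos : 0 < δ := lt_min (lt_min (lt_min hδ₂ hδ₃) (lt_min hδ₄ hρ₁))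
    (lt_min hδ₅ (lt_min hδ₆ hδ₇))
  have d2 : δ ≤ δ₂ := (min_le_left _ _).trans ((min_le_left _ _).trans (min_le_left _ _))
  have d3 : δ ≤ δ₃ := (min_le_left _ _).trans ((min_le_left _ _).trans (min_le_right _ _))
  have d4 : δ ≤ δ₄ := (min_le_left _ _).trans ((min_le_right _ _).trans (min_le_left _ _))
  have dρ : δ ≤ ρ₁ := (min_le_left _ _).trans ((min_le_right _ _).trans (min_le_right _ _))
  have d5 : δ ≤ δ₅ := (min_le_right _ _).trans (min_le_left _ _)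
  have d6 : δ ≤ δ₆ := (min_le_right _ _).trans ((min_le_right _ _).trans (min_le_left _ _))
  have d7 : δ ≤ δ₇ := (min_le_right _ _).trans ((min_le_right _ _).trans (min_le_right _ _))
  refine ⟨δ, hδpos, fun lam N B => ?_⟩
  obtain ⟨N', B', hgeo2⟩ := hgeo1 lam N B
  obtain ⟨ρ', hρ', X₁, hX₁, hun2⟩ := hun lam N' B'
  obtain ⟨ρ₃, hρ₃, X₃, hX₃, hgeo3⟩ := hgeo2 ρ' hρ'
  obtain ⟨ρ₄, hρ₄, X₄, hX₄, triv2⟩ := triv1 lam N B
  obtain ⟨ρ₅, hρ₅, X₅, hX₅, hbig2⟩ := hbig1 lam N B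
  obtain ⟨ρ₆, hρ₆, X₆, hX₆, hm₁2⟩ := hm₁' lam N B
  obtain ⟨ρ₇, hρ₇, X₇, hX₇, hm₂2⟩ := hm₂' lam N B
  -- the power
  set M : ℝ := |T| + (|T| + |E|) / ρ₃ with hM
  have hM0 : 0 ≤ M := by positivity
  obtain ⟨C, hC, hr⟩ := hrule lam εr M hεr hM0
  obtain ⟨X₈, hX₈, hC8⟩ := const_le_rpow (C := 2 * C) (ε := ε / 8) (by linarith)
  set ρ : ℝ := min (min ρ₃ ρ₄) (min ρ₅ (min ρ₆ ρ₇)) with hρdef
  have r3 : ρ ≤ ρ₃ := (min_le_left _ _).trans (min_le_left _ _)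
  have r4 : ρ ≤ ρ₄ := (min_le_left _ _).trans (min_le_right _ _)
  have r5 : ρ ≤ ρ₅ := (min_le_right _ _).trans (min_le_left _ _)
  have r6 : ρ ≤ ρ₆ := (min_le_right _ _).trans ((min_le_right _ _).trans (min_le_left _ _))
  have r7 : ρ ≤ ρ₇ := (min_le_right _ _).trans ((min_le_right _ _).trans (min_le_right _ _))
  refine ⟨ρ, lt_min (lt_min hρ₃ hρ₄) (lt_min hρ₅ (lt_min hρ₆ hρ₇)),
    max (max (max X₁ X₃) (max X₄ X₅)) (max X₆ (max X₇ X₈)), ?_, ?_⟩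
  · exact lt_of_lt_of_le hX₁ ((le_max_left _ _).trans ((le_max_left _ _).trans (le_max_left _ _)))
  intro X hX a ha
  have x1 : X₁ ≤ X := ((le_max_left _ _).trans ((le_max_left _ _).trans (le_max_left _ _))).trans hX
  have x3 : X₃ ≤ X := ((le_max_right _ _).trans ((le_max_left _ _).trans (le_max_left _ _))).trans hX
  have x4 : X₄ ≤ X := ((le_max_left _ _).trans ((le_max_right _ _).trans (le_max_left _ _))).trans hX
  have x5 : X₅ ≤ X :=
    ((le_max_right _ _).trans ((le_max_right _ _).trans (le_max_left _ _))).trans hX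
  have x6 : X₆ ≤ X := ((le_max_left _ _).trans (le_max_right _ _)).trans hX
  have x7 : X₇ ≤ X := ((le_max_left _ _).trans ((le_max_right _ _).trans (le_max_right _ _))).trans hX
  have x8 : X₈ ≤ X :=
    ((le_max_right _ _).trans ((le_max_right _ _).trans (le_max_right _ _))).trans hX
  have hX1 : (1 : ℝ) < X := by linarith
  have hX0 : (0 : ℝ) < X := by linarith
  -- the bound of the children
  have hbd : ∀ a' : A', Ch lam εr a a' →
      Ψ' lam a' ≤ X ^ (E + ε / 2) * cost lam a a' ^ M * mon lam a a' := by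
    intro a' ha'
    have hc1 := hcost lam a a'
    have hc0 : 0 < cost lam a a' := by linarith
    have w3 := ha.mono hX1.le d3 le_rfl le_rfl r3
    obtain ⟨g1, g2, g3, g4, g5, g6, g7⟩ := hgeo3 X x3 a w3 a' ha'
    by_cases hc : cost lam a a' ≤ X ^ ρ₃
    · obtain ⟨p', hp', hpp⟩ := hnear (S.ev X a) (fun i => (ha.ev i).trans dρ) _ g1
        (g2.trans hη2)
      have hw' : Win S' p' δ₁ N' B' ρ' X a' :=
        ⟨hpp, g4.trans (Real.rpow_le_rpow_of_exponent_le hX1.le hη1), g5, g7 hc, g6⟩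
      have h1 := hun2 X x1 a' ⟨p', hp', hw'⟩
      have h2 := hbc (S.ev X a) (fun i => (ha.ev i).trans d2) _ g1
      have h3 : Ψ' lam a' ≤ X ^ (E + ε / 8 + h (p, S'.ev X a')) := by
        have e1 : Ψ' lam a' = X ^ (h (p, S'.ev X a')) * (X ^ (-h (p, S'.ev X a')) * Ψ' lam a') := by
          rw [← mul_assoc, ← Real.rpow_add hX0]; simp
        rw [e1]
        calc _ ≤ X ^ (h (p, S'.ev X a')) * X ^ (E + ε / 8) :=
              mul_le_mul_of_nonneg_left h1 (Real.rpow_nonneg hX0.le _)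
          _ = _ := by rw [← Real.rpow_add hX0]; congr 1; ring
      have h4 : X ^ (E + ε / 8 + h (p, S'.ev X a')) ≤
          X ^ (E + ε / 2) * X ^ (h (S.ev X a, S'.ev X a') - η) := by
        rw [← Real.rpow_add hX0]
        refine Real.rpow_le_rpow_of_exponent_le hX1.le ?_
        have := (abs_le.1 h2).1
        linarith
      have h5 : 1 ≤ cost lam a a' ^ M := Real.one_le_rpow hc1 hM0
      calc Ψ' lam a' ≤ X ^ (E + ε / 2) * X ^ (h (S.ev X a, S'.ev X a') - η) := h3.trans h4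
        _ ≤ X ^ (E + ε / 2) * mon lam a a' :=
            mul_le_mul_of_nonneg_left g3 (Real.rpow_nonneg hX0.le _)
        _ = X ^ (E + ε / 2) * 1 * mon lam a a' := by ring
        _ ≤ X ^ (E + ε / 2) * cost lam a a' ^ M * mon lam a a' := by
            have := hmon lam a a'
            gcongr
    · push Not at hc
      have hεr0 : εr ≤ ε₀ := hεη.trans hη4
      have w4 := ha.mono hX1.le d4 le_rfl le_rfl r4
      have h1 := triv2 X x4 a w4 a' (hChmono _ _ _ _ _ hεr0 ha')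
      refine h1.trans ?_
      refine mul_le_mul_of_nonneg_right ?_ (hmon lam a a')
      have hcT : cost lam a a' ^ T ≤ cost lam a a' ^ |T| :=
        Real.rpow_le_rpow_of_exponent_le hc1 (le_abs_self T)
      have hXT : X ^ T ≤ X ^ (E + ε / 2) * cost lam a a' ^ ((|T| + |E|) / ρ₃) := by
        have e1 : X ^ (|T| + |E|) ≤ cost lam a a' ^ ((|T| + |E|) / ρ₃) := by
          have : X ^ (|T| + |E|) = (X ^ ρ₃) ^ ((|T| + |E|) / ρ₃) := by
            rw [← Real.rpow_mul hX0.le]; congr 1; field_simp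
          rw [this]
          exact Real.rpow_le_rpow (Real.rpow_nonneg hX0.le _) hc.le (by positivity)
        calc X ^ T ≤ X ^ (E + ε / 2) * X ^ (|T| + |E|) := by
              rw [← Real.rpow_add hX0]
              refine Real.rpow_le_rpow_of_exponent_le hX1.le ?_
              linarith [le_abs_self T, neg_abs_le E]
          _ ≤ _ := mul_le_mul_of_nonneg_left e1 (Real.rpow_nonneg hX0.le _)
      calc X ^ T * cost lam a a' ^ T
          ≤ (X ^ (E + ε / 2) * cost lam a a' ^ ((|T| + |E|) / ρ₃)) * cost lam a a' ^ |T| :=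
            mul_le_mul hXT hcT (Real.rpow_nonneg hc0.le _) (by positivity)
        _ = X ^ (E + ε / 2) * cost lam a a' ^ M := by
            rw [mul_assoc, ← Real.rpow_add hc0, hM]; congr 2; ring
  have hres := hr a (X ^ (E + ε / 2)) (Real.rpow_nonneg hX0.le _) hbd
  have b1 := hbig2 X x5 a (ha.mono hX1.le d5 le_rfl le_rfl r5)
  have b2 := hm₁2 X x6 a (ha.mono hX1.le d6 le_rfl le_rfl r6)
  have b3 := hm₂2 X x7 a (ha.mono hX1.le d7 le_rfl le_rfl r7)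
  have b4 : big lam a ^ εr ≤ X ^ (ε / 8) := by
    calc big lam a ^ εr ≤ (X ^ c) ^ εr :=
          Real.rpow_le_rpow (by linarith [hbig0 lam a]) b1 hεr.le
      _ = X ^ (c * εr) := by rw [Real.rpow_mul hX0.le]
      _ ≤ X ^ (ε / 8) := by
          refine Real.rpow_le_rpow_of_exponent_le hX1.le ?_
          have h1 : εr ≤ ε / (8 * (|c| + 1)) := hεη.trans hη5
          calc c * εr ≤ |c| * εr := mul_le_mul_of_nonneg_right (le_abs_self c) hεr.le
            _ ≤ (|c| + 1) * (ε / (8 * (|c| + 1))) := by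
                refine mul_le_mul (by linarith) h1 hεr.le hcpos.le
            _ = ε / 8 := by field_simp
  have b5 : m₁ lam a + m₂ lam a * X ^ (E + ε / 2) ≤ 2 * X ^ (max e₁ (e₂ + E) + ε * (5 / 8)) := by
    have i1 : m₁ lam a ≤ X ^ (max e₁ (e₂ + E) + ε * (5 / 8)) := b2.trans
      (Real.rpow_le_rpow_of_exponent_le hX1.le (by linarith [le_max_left e₁ (e₂ + E)]))
    have i2 : m₂ lam a * X ^ (E + ε / 2) ≤ X ^ (max e₁ (e₂ + E) + ε * (5 / 8)) := by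
      calc m₂ lam a * X ^ (E + ε / 2) ≤ X ^ (e₂ + ε / 8) * X ^ (E + ε / 2) :=
            mul_le_mul_of_nonneg_right b3 (Real.rpow_nonneg hX0.le _)
        _ = X ^ (e₂ + ε / 8 + (E + ε / 2)) := by rw [← Real.rpow_add hX0]
        _ ≤ _ := Real.rpow_le_rpow_of_exponent_le hX1.le
            (by linarith [le_max_right e₁ (e₂ + E)])
    linarith
  have b6 := hC8 X x8
  have hsum0 : 0 ≤ X ^ (max e₁ (e₂ + E) + ε * (5 / 8)) := Real.rpow_nonneg hX0.le _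
  calc Ψ lam a ≤ C * big lam a ^ εr * (m₁ lam a + m₂ lam a * X ^ (E + ε / 2)) := hres
    _ ≤ C * big lam a ^ εr * (2 * X ^ (max e₁ (e₂ + E) + ε * (5 / 8))) := by
        refine mul_le_mul_of_nonneg_left b5 ?_
        have : 0 ≤ big lam a ^ εr := Real.rpow_nonneg (by linarith [hbig0 lam a]) _
        positivity
    _ = (2 * C) * big lam a ^ εr * X ^ (max e₁ (e₂ + E) + ε * (5 / 8)) := by ring
    _ ≤ X ^ (ε / 8) * X ^ (ε / 8) * X ^ (max e₁ (e₂ + E) + ε * (5 / 8)) := by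
        refine mul_le_mul_of_nonneg_right ?_ hsum0
        exact mul_le_mul b6 b4 (Real.rpow_nonneg (by linarith [hbig0 lam a]) _)
          (Real.rpow_nonneg hX0.le _)
    _ = X ^ (ε / 8 + ε / 8 + (max e₁ (e₂ + E) + ε * (5 / 8))) := by
        rw [← Real.rpow_add hX0, ← Real.rpow_add hX0]
    _ ≤ X ^ (max e₁ (e₂ + E) + ε) :=
        Real.rpow_le_rpow_of_exponent_le hX1.le (by linarith)

end Crest.Agent.R017.XT71
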