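import Crest.Agent.R017.XT2_71

/-!
# Row 17: transfer of analytic if-then rules to exponents, second form (helper571)

`transfer2` : as `XT71.transfer` (helper71), for rules whose conclusion loses `s₂ ^ ε₂` (`ε₂`
chosen after the window) and `s₁ ^ J` (`J` depends on `ε`, `ε₂` and `M`).
-/

set_option autoImplicit false

noncomputable section

open Set Filter Topology

namespace Crest.Agent.R017.XT571

open Crest.Agent.R017.XF71 (const_le_rpow Nr)
open Crest.Agent.R017.XT71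

variable {A A' A'' ι ι' ι'' Λ : Type*}

/-- **Transfer theorem, second form.**  `hrule` : the analytic if-then rule; `hgeo` : the children of an element
of a small window have exponent vectors in the compact set `D`, satisfy the constraint `f ≤ η`, and
`mon ≥ X^(h - η)`; `triv` : trivial bound for all children; `hch` : exponents `E + h (p, p')` at all
points of the polytope.  Conclusion: exponent `max e₁ (e₂ + E)` at `p`. -/
theorem transfer2 [Fintype ι] [Fintype ι'] {S : Sys A ι} {S' : Sys A' ι'} {Ψ : Λ → A → ℝ}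
    {Ψ' : Λ → A' → ℝ} {Ch : Λ → ℝ → A → A' → Prop} {cost mon : Λ → A → A' → ℝ}
    {big m₁ m₂ : Λ → A → ℝ}
    (hrule : ∀ (lam : Λ) (ε ε₂ M : ℝ), 0 < ε → 0 < ε₂ → 0 ≤ M → ∃ C J : ℝ, 0 < C ∧ 0 ≤ J ∧
      ∀ a : A, ∀ Bd : ℝ, 0 ≤ Bd →
      (∀ a' : A', Ch lam ε a a' → Ψ' lam a' ≤ Bd * cost lam a a' ^ M * mon lam a a') →
      Ψ lam a ≤ C * big lam a ^ ε * S.s₂ a ^ ε₂ * S.s₁ a ^ J * (m₁ lam a + m₂ lam a * Bd))
    (hcost : ∀ lam a a', 1 ≤ cost lam a a') (hmon : ∀ lam a a', 0 ≤ mon lam a a')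
    (hbig0 : ∀ lam a, 1 ≤ big lam a)
    (hs₁ : ∀ a, 1 ≤ S.s₁ a) (hs₂ : ∀ a, 1 ≤ S.s₂ a)
    {p : ι → ℝ} {D : Set (ι' → ℝ)} (hD : IsCompact D) {f h : (ι → ℝ) × (ι' → ℝ) → ℝ}
    (hf : Continuous f) (hh : Continuous h) {c e₁ e₂ E : ℝ}
    (hbig : Loc S p (fun lam X a => big lam a ≤ X ^ c))
    (hm₁ : EG S m₁ p e₁) (hm₂ : EG S m₂ p e₂)
    (hgeo : ∀ η : ℝ, 0 < η → ∃ ε : ℝ, 0 < ε ∧ ε ≤ η ∧ ∃ δ : ℝ, 0 < δ ∧
      ∀ (lam : Λ) (N : ℕ) (B : ℝ),
      ∃ (N' : ℕ) (B' : ℝ), ∀ ρ' : ℝ, 0 < ρ' → ∃ ρ : ℝ, 0 < ρ ∧ ∃ X₀ : ℝ, 1 < X₀ ∧ ∀ X : ℝ, X₀ ≤ X →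
        ∀ a : A, Win S p δ N B ρ X a → ∀ a' : A', Ch lam ε a a' →
          S'.ev X a' ∈ D ∧ f (S.ev X a, S'.ev X a') ≤ η ∧
          X ^ (h (S.ev X a, S'.ev X a') - η) ≤ mon lam a a' ∧ S'.g a' ≤ X ^ η ∧ S'.n a' ≤ N' ∧
          S'.s₂ a' ≤ X ^ B' ∧ (cost lam a a' ≤ X ^ ρ → S'.s₁ a' ≤ X ^ ρ'))
    {T : ℝ} (triv : ∃ ε₀ : ℝ, 0 < ε₀ ∧ Loc S p (fun lam X a => ∀ a', Ch lam ε₀ a a' →
      Ψ' lam a' ≤ X ^ T * cost lam a a' ^ T * mon lam a a'))
    (hChmono : ∀ lam ε ε' a a', ε ≤ ε' → Ch lam ε a a' → Ch lam ε' a a')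
    (hch : ∀ p' ∈ D, f (p, p') ≤ 0 → EG S' Ψ' p' (E + h (p, p'))) :
    EG S Ψ p (max e₁ (e₂ + E)) := by
  refine EG.of_loc fun ε hε => ?_
  obtain ⟨ε₀, hε₀, triv⟩ := triv
  -- the children are uniformly controlled
  set K : Set (ι' → ℝ) := {p' | p' ∈ D ∧ f (p, p') ≤ 0} with hKdef
  have hKc : IsCompact K := hD.inter_right
    (isClosed_le (hf.comp (Continuous.prodMk_right p)) continuous_const)
  obtain ⟨δ₁, hδ₁, hun⟩ := EG.unif (S := S') (Ψ := Ψ') hKc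
    (h := fun q' => - h (p, q')) ((hh.comp (Continuous.prodMk_right p)).neg) (E := E)
    (fun p' hp' => by
      have := hch p' hp'.1 hp'.2
      have e1 : E - -h (p, p') = E + h (p, p') := by ring
      rw [e1]; exact this) (ε := ε / 8) (by linarith)
  obtain ⟨ρ₁, hρ₁, hnear⟩ := near hD hf p hδ₁
  obtain ⟨δ₂, hδ₂, hbc⟩ := base_cont hD hh p (ε := ε / 8) (by linarith)
  -- slack
  set η : ℝ := min (min δ₁ ρ₁) (min (ε / 8) (min ε₀ (ε / (16 * (|c| + 1))))) with hη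
  have hcpos : 0 < |c| + 1 := by positivity
  have hηpos : 0 < η := by
    rw [hη]; refine lt_min (lt_min hδ₁ hρ₁) (lt_min (by linarith) (lt_min hε₀ (by positivity)))
  have hη1 : η ≤ δ₁ := (min_le_left _ _).trans (min_le_left _ _)
  have hη2 : η ≤ ρ₁ := (min_le_left _ _).trans (min_le_right _ _)
  have hη3 : η ≤ ε / 8 := (min_le_right _ _).trans (min_le_left _ _)
  have hη4 : η ≤ ε₀ := (min_le_right _ _).trans ((min_le_right _ _).trans (min_le_left _ _))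
  have hη5 : η ≤ ε / (16 * (|c| + 1)) :=
    (min_le_right _ _).trans ((min_le_right _ _).trans (min_le_right _ _))
  obtain ⟨εr, hεr, hεη, δ₃, hδ₃, hgeo1⟩ := hgeo η hηpos
  obtain ⟨δ₄, hδ₄, triv1⟩ := triv
  obtain ⟨δ₅, hδ₅, hbig1⟩ := hbig
  obtain ⟨δ₆, hδ₆, hm₁'⟩ := hm₁.loc (ε := ε / 8) (by linarith)
  obtain ⟨δ₇, hδ₇, hm₂'⟩ := hm₂.loc (ε := ε / 8) (by linarith)
  set δ : ℝ := min (min (min δ₂ δ₃) (min δ₄ ρ₁)) (min δ₅ (min δ₆ δ₇)) with hδdef
  have hδpos : 0 < δ := lt_min (lt_min (lt_min hδ₂ hδ₃) (lt_min hδ₄ hρ₁))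
    (lt_min hδ₅ (lt_min hδ₆ hδ₇))
  have d2 : δ ≤ δ₂ := (min_le_left _ _).trans ((min_le_left _ _).trans (min_le_left _ _))
  have d3 : δ ≤ δ₃ := (min_le_left _ _).trans ((min_le_left _ _).trans (min_le_right _ _))
  have d4 : δ ≤ δ₄ := (min_le_left _ _).trans ((min_le_right _ _).trans (min_le_left _ _))
  have dρ : δ ≤ ρ₁ := (min_le_left _ _).trans ((min_le_right _ _).trans (min_le_right _ _))
  have d5 : δ ≤ δ₅ := (min_le_right _ _).trans (min_le_left _ _)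
  have d6 : δ ≤ δ₆ := (min_le_right _ _).trans ((min_le_right _ _).trans (min_le_left _ _))
  have d7 : δ ≤ δ₇ := (min_le_right _ _).trans ((min_le_right _ _).trans (min_le_right _ _))
  refine ⟨δ, hδpos, fun lam N B => ?_⟩
  obtain ⟨N', B', hgeo2⟩ := hgeo1 lam N B
  obtain ⟨ρ', hρ', X₁, hX₁, hun2⟩ := hun lam N' B'
  obtain ⟨ρ₃, hρ₃, X₃, hX₃, hgeo3⟩ := hgeo2 ρ' hρ'
  obtain ⟨ρ₄, hρ₄, X₄, hX₄, triv2⟩ := triv1 lam N B
  obtain ⟨ρ₅, hρ₅, X₅, hX₅, hbig2⟩ := hbig1 lam N B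
  obtain ⟨ρ₆, hρ₆, X₆, hX₆, hm₁2⟩ := hm₁' lam N B
  obtain ⟨ρ₇, hρ₇, X₇, hX₇, hm₂2⟩ := hm₂' lam N B
  -- the power
  set M : ℝ := |T| + (|T| + |E|) / ρ₃ with hM
  have hM0 : 0 ≤ M := by positivity
  have hBpos : 0 < |B| + 1 := by positivity
  obtain ⟨C, J, hC, hJ, hr⟩ := hrule lam εr (ε / (16 * (|B| + 1))) M hεr (by positivity) hM0
  obtain ⟨X₈, hX₈, hC8⟩ := const_le_rpow (C := 2 * C) (ε := ε / 16) (by linarith)
  have hJpos : 0 < J + 1 := by linarith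
  set ρ₀ : ℝ := min (min ρ₃ ρ₄) (min ρ₅ (min ρ₆ ρ₇)) with hρdef
  set ρ : ℝ := min ρ₀ (ε / (16 * (J + 1))) with hρdef'
  have r0 : ρ ≤ ρ₀ := min_le_left _ _
  have r3 : ρ ≤ ρ₃ := r0.trans ((min_le_left _ _).trans (min_le_left _ _))
  have r4 : ρ ≤ ρ₄ := r0.trans ((min_le_left _ _).trans (min_le_right _ _))
  have r5 : ρ ≤ ρ₅ := r0.trans ((min_le_right _ _).trans (min_le_left _ _))
  have r6 : ρ ≤ ρ₆ :=
    r0.trans ((min_le_right _ _).trans ((min_le_right _ _).trans (min_le_left _ _)))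
  have r7 : ρ ≤ ρ₇ :=
    r0.trans ((min_le_right _ _).trans ((min_le_right _ _).trans (min_le_right _ _)))
  have r9 : ρ ≤ ε / (16 * (J + 1)) := min_le_right _ _
  have hρpos : 0 < ρ := lt_min (lt_min (lt_min hρ₃ hρ₄) (lt_min hρ₅ (lt_min hρ₆ hρ₇)))
    (by positivity)
  refine ⟨ρ, hρpos,
    max (max (max X₁ X₃) (max X₄ X₅)) (max X₆ (max X₇ X₈)), ?_, ?_⟩
  · exact lt_of_lt_of_le hX₁ ((le_max_left _ _).trans ((le_max_left _ _).trans (le_max_left _ _)))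
  intro X hX a ha
  have x1 : X₁ ≤ X := ((le_max_left _ _).trans ((le_max_left _ _).trans (le_max_left _ _))).trans hX
  have x3 : X₃ ≤ X := ((le_max_right _ _).trans ((le_max_left _ _).trans (le_max_left _ _))).trans hX
  have x4 : X₄ ≤ X := ((le_max_left _ _).trans ((le_max_right _ _).trans (le_max_left _ _))).trans hX
  have x5 : X₅ ≤ X :=
    ((le_max_right _ _).trans ((le_max_right _ _).trans (le_max_left _ _))).trans hX
  have x6 : X₆ ≤ X := ((le_max_left _ _).trans (le_max_right _ _)).trans hX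
  have x7 : X₇ ≤ X := ((le_max_left _ _).trans ((le_max_right _ _).trans (le_max_right _ _))).trans hX
  have x8 : X₈ ≤ X :=
    ((le_max_right _ _).trans ((le_max_right _ _).trans (le_max_right _ _))).trans hX
  have hX1 : (1 : ℝ) < X := by linarith
  have hX0 : (0 : ℝ) < X := by linarith
  -- the bound of the children
  have hbd : ∀ a' : A', Ch lam εr a a' →
      Ψ' lam a' ≤ X ^ (E + ε / 2) * cost lam a a' ^ M * mon lam a a' := by
    intro a' ha'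
    have hc1 := hcost lam a a'
    have hc0 : 0 < cost lam a a' := by linarith
    have w3 := ha.mono hX1.le d3 le_rfl le_rfl r3
    obtain ⟨g1, g2, g3, g4, g5, g6, g7⟩ := hgeo3 X x3 a w3 a' ha'
    by_cases hc : cost lam a a' ≤ X ^ ρ₃
    · obtain ⟨p', hp', hpp⟩ := hnear (S.ev X a) (fun i => (ha.ev i).trans dρ) _ g1
        (g2.trans hη2)
      have hw' : Win S' p' δ₁ N' B' ρ' X a' :=
        ⟨hpp, g4.trans (Real.rpow_le_rpow_of_exponent_le hX1.le hη1), g5, g7 hc, g6⟩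
      have h1 := hun2 X x1 a' ⟨p', hp', hw'⟩
      have h2 := hbc (S.ev X a) (fun i => (ha.ev i).trans d2) _ g1
      have h3 : Ψ' lam a' ≤ X ^ (E + ε / 8 + h (p, S'.ev X a')) := by
        have e1 : Ψ' lam a' = X ^ (h (p, S'.ev X a')) * (X ^ (-h (p, S'.ev X a')) * Ψ' lam a') := by
          rw [← mul_assoc, ← Real.rpow_add hX0]; simp
        rw [e1]
        calc _ ≤ X ^ (h (p, S'.ev X a')) * X ^ (E + ε / 8) :=
              mul_le_mul_of_nonneg_left h1 (Real.rpow_nonneg hX0.le _)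
          _ = _ := by rw [← Real.rpow_add hX0]; congr 1; ring
      have h4 : X ^ (E + ε / 8 + h (p, S'.ev X a')) ≤
          X ^ (E + ε / 2) * X ^ (h (S.ev X a, S'.ev X a') - η) := by
        rw [← Real.rpow_add hX0]
        refine Real.rpow_le_rpow_of_exponent_le hX1.le ?_
        have := (abs_le.1 h2).1
        linarith
      have h5 : 1 ≤ cost lam a a' ^ M := Real.one_le_rpow hc1 hM0
      calc Ψ' lam a' ≤ X ^ (E + ε / 2) * X ^ (h (S.ev X a, S'.ev X a') - η) := h3.trans h4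
        _ ≤ X ^ (E + ε / 2) * mon lam a a' :=
            mul_le_mul_of_nonneg_left g3 (Real.rpow_nonneg hX0.le _)
        _ = X ^ (E + ε / 2) * 1 * mon lam a a' := by ring
        _ ≤ X ^ (E + ε / 2) * cost lam a a' ^ M * mon lam a a' := by
            have := hmon lam a a'
            gcongr
    · push Not at hc
      have hεr0 : εr ≤ ε₀ := hεη.trans hη4
      have w4 := ha.mono hX1.le d4 le_rfl le_rfl r4
      have h1 := triv2 X x4 a w4 a' (hChmono _ _ _ _ _ hεr0 ha')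
      refine h1.trans ?_
      refine mul_le_mul_of_nonneg_right ?_ (hmon lam a a')
      have hcT : cost lam a a' ^ T ≤ cost lam a a' ^ |T| :=
        Real.rpow_le_rpow_of_exponent_le hc1 (le_abs_self T)
      have hXT : X ^ T ≤ X ^ (E + ε / 2) * cost lam a a' ^ ((|T| + |E|) / ρ₃) := by
        have e1 : X ^ (|T| + |E|) ≤ cost lam a a' ^ ((|T| + |E|) / ρ₃) := by
          have : X ^ (|T| + |E|) = (X ^ ρ₃) ^ ((|T| + |E|) / ρ₃) := by
            rw [← Real.rpow_mul hX0.le]; congr 1; field_simp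
          rw [this]
          exact Real.rpow_le_rpow (Real.rpow_nonneg hX0.le _) hc.le (by positivity)
        calc X ^ T ≤ X ^ (E + ε / 2) * X ^ (|T| + |E|) := by
              rw [← Real.rpow_add hX0]
              refine Real.rpow_le_rpow_of_exponent_le hX1.le ?_
              linarith [le_abs_self T, neg_abs_le E]
          _ ≤ _ := mul_le_mul_of_nonneg_left e1 (Real.rpow_nonneg hX0.le _)
      calc X ^ T * cost lam a a' ^ T
          ≤ (X ^ (E + ε / 2) * cost lam a a' ^ ((|T| + |E|) / ρ₃)) * cost lam a a' ^ |T| :=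
            mul_le_mul hXT hcT (Real.rpow_nonneg hc0.le _) (by positivity)
        _ = X ^ (E + ε / 2) * cost lam a a' ^ M := by
            rw [mul_assoc, ← Real.rpow_add hc0, hM]; congr 2; ring
  have hres := hr a (X ^ (E + ε / 2)) (Real.rpow_nonneg hX0.le _) hbd
  have b1 := hbig2 X x5 a (ha.mono hX1.le d5 le_rfl le_rfl r5)
  have b2 := hm₁2 X x6 a (ha.mono hX1.le d6 le_rfl le_rfl r6)
  have b3 := hm₂2 X x7 a (ha.mono hX1.le d7 le_rfl le_rfl r7)
  have b4 : big lam a ^ εr ≤ X ^ (ε / 16) := by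
    calc big lam a ^ εr ≤ (X ^ c) ^ εr :=
          Real.rpow_le_rpow (by linarith [hbig0 lam a]) b1 hεr.le
      _ = X ^ (c * εr) := by rw [Real.rpow_mul hX0.le]
      _ ≤ X ^ (ε / 16) := by
          refine Real.rpow_le_rpow_of_exponent_le hX1.le ?_
          have h1 : εr ≤ ε / (16 * (|c| + 1)) := hεη.trans hη5
          calc c * εr ≤ |c| * εr := mul_le_mul_of_nonneg_right (le_abs_self c) hεr.le
            _ ≤ (|c| + 1) * (ε / (16 * (|c| + 1))) := by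
                refine mul_le_mul (by linarith) h1 hεr.le hcpos.le
            _ = ε / 16 := by field_simp
  have b7 : S.s₂ a ^ (ε / (16 * (|B| + 1))) ≤ X ^ (ε / 16) := by
    calc S.s₂ a ^ (ε / (16 * (|B| + 1))) ≤ (X ^ B) ^ (ε / (16 * (|B| + 1))) :=
          Real.rpow_le_rpow (by linarith [hs₂ a]) ha.s₂ (by positivity)
      _ = X ^ (B * (ε / (16 * (|B| + 1)))) := by rw [Real.rpow_mul hX0.le]
      _ ≤ X ^ (ε / 16) := by
          refine Real.rpow_le_rpow_of_exponent_le hX1.le ?_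
          calc B * (ε / (16 * (|B| + 1))) ≤ (|B| + 1) * (ε / (16 * (|B| + 1))) :=
                mul_le_mul_of_nonneg_right (by linarith [le_abs_self B]) (by positivity)
            _ = ε / 16 := by field_simp
  have b8 : S.s₁ a ^ J ≤ X ^ (ε / 16) := by
    calc S.s₁ a ^ J ≤ (X ^ ρ) ^ J := Real.rpow_le_rpow (by linarith [hs₁ a]) ha.s₁ hJ
      _ = X ^ (ρ * J) := by rw [Real.rpow_mul hX0.le]
      _ ≤ X ^ (ε / 16) := by
          refine Real.rpow_le_rpow_of_exponent_le hX1.le ?_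
          calc ρ * J ≤ (ε / (16 * (J + 1))) * (J + 1) :=
                mul_le_mul r9 (by linarith) hJ (by positivity)
            _ = ε / 16 := by field_simp
  have b5 : m₁ lam a + m₂ lam a * X ^ (E + ε / 2) ≤ 2 * X ^ (max e₁ (e₂ + E) + ε * (5 / 8)) := by
    have i1 : m₁ lam a ≤ X ^ (max e₁ (e₂ + E) + ε * (5 / 8)) := b2.trans
      (Real.rpow_le_rpow_of_exponent_le hX1.le (by linarith [le_max_left e₁ (e₂ + E)]))
    have i2 : m₂ lam a * X ^ (E + ε / 2) ≤ X ^ (max e₁ (e₂ + E) + ε * (5 / 8)) := by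
      calc m₂ lam a * X ^ (E + ε / 2) ≤ X ^ (e₂ + ε / 8) * X ^ (E + ε / 2) :=
            mul_le_mul_of_nonneg_right b3 (Real.rpow_nonneg hX0.le _)
        _ = X ^ (e₂ + ε / 8 + (E + ε / 2)) := by rw [← Real.rpow_add hX0]
        _ ≤ _ := Real.rpow_le_rpow_of_exponent_le hX1.le
            (by linarith [le_max_right e₁ (e₂ + E)])
    linarith
  have b6 := hC8 X x8
  have hsum0 : 0 ≤ X ^ (max e₁ (e₂ + E) + ε * (5 / 8)) := Real.rpow_nonneg hX0.le _
  have p1 : 0 ≤ big lam a ^ εr := Real.rpow_nonneg (by linarith [hbig0 lam a]) _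
  have p2 : 0 ≤ S.s₂ a ^ (ε / (16 * (|B| + 1))) := Real.rpow_nonneg (by linarith [hs₂ a]) _
  have p3 : 0 ≤ S.s₁ a ^ J := Real.rpow_nonneg (by linarith [hs₁ a]) _
  have p4 : 0 ≤ X ^ (ε / 16) := Real.rpow_nonneg hX0.le _
  calc Ψ lam a ≤ C * big lam a ^ εr * S.s₂ a ^ (ε / (16 * (|B| + 1))) * S.s₁ a ^ J *
        (m₁ lam a + m₂ lam a * X ^ (E + ε / 2)) := hres
    _ ≤ C * big lam a ^ εr * S.s₂ a ^ (ε / (16 * (|B| + 1))) * S.s₁ a ^ J *
        (2 * X ^ (max e₁ (e₂ + E) + ε * (5 / 8))) := by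
        refine mul_le_mul_of_nonneg_left b5 ?_
        positivity
    _ = (2 * C) * big lam a ^ εr * S.s₂ a ^ (ε / (16 * (|B| + 1))) * S.s₁ a ^ J *
        X ^ (max e₁ (e₂ + E) + ε * (5 / 8)) := by ring
    _ ≤ X ^ (ε / 16) * X ^ (ε / 16) * X ^ (ε / 16) * X ^ (ε / 16) *
        X ^ (max e₁ (e₂ + E) + ε * (5 / 8)) := by
        refine mul_le_mul_of_nonneg_right ?_ hsum0
        exact mul_le_mul (mul_le_mul (mul_le_mul b6 b4 p1 p4) b7 p2 (by positivity)) b8 p3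
          (by positivity)
    _ = X ^ (ε / 16 + ε / 16 + ε / 16 + ε / 16 + (max e₁ (e₂ + E) + ε * (5 / 8))) := by
        rw [← Real.rpow_add hX0, ← Real.rpow_add hX0, ← Real.rpow_add hX0, ← Real.rpow_add hX0]
    _ ≤ X ^ (max e₁ (e₂ + E) + ε) :=
        Real.rpow_le_rpow_of_exponent_le hX1.le (by linarith)

end Crest.Agent.R017.XT571
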