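import Crest.Agent.R017.XPX7_241
import Crest.Agent.R017.XEr_298
import Crest.Agent.R017.ExRed2_848

/-!
# Row 17, exceptional class: the bundle of rules from the lump theorem (helper241)

* `rawPX_lp`, `rawGX_lp` : the raw rules `RawPX`, `RawGX` of helper298 from `LumpProv`
* `t6_of` : the bundle `ProvE` for an exceptional family `π`, from `LumpProv` for `red ∘ π`
  and the remaining rule `BRem`
-/

set_option autoImplicit false

noncomputable section

namespace Crest.Agent.R017.XT6241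

open Crest.Agent.R012 Crest.Agent.R012.Eis
open Crest.Agent.R012.T411 (NCube)
open Crest.Agent.R017.XG702 (Pcs BG)
open Crest.Agent.R017.ER911
open Crest.Agent.R017.B770 Crest.Agent.R017.FE47 Crest.Agent.R017.End699
open Crest.Agent.R017.Prov71
open Crest.Agent.R017.XHB411 (idt idt_nonneg)
open Crest.Agent.R017.XEx298
open Crest.Agent.R017.XEr298
open Crest.Agent.R017.Red848
open Crest.Agent.R017.PX764 (Dk)

variable {Lam : Type*}

lemma zl_of {l : ℝ} {ps : List Pq} (h : ∀ p ∈ ps, Dq.lump p → Dq.len p ≤ l) : Zl l ps := h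

lemma zl_mono {l l' : ℝ} {ps : List Pq} (hl : l ≤ l') (h : Zl l ps) : Zl l' ps :=
  fun p hp hp1 => (h p hp hp1).trans hl

lemma RQ_NC1 {h : ℝ → ℝ} (π : Lam → DPar) :
    (fun (lam : Lam) (l : ℝ) (ps : List Pq) =>
      RQ (NC (1 : Eis)) h l (ps.map (Pq.pc (π lam))) + idt Zl l ps) =
    fun lam l ps => RQ NCube h l (ps.map (Pq.pc (π lam))) + idt Zl l ps := by
  rw [NC_one]

theorem rawPX_lp {h : ℝ → ℝ} {c : ℝ} (hpu : PU h c) (π : Lam → DPar) (hP : ∀ lam, (π lam).OK)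
    (HL : ∀ lam, XCr792.LumpProv h (π lam)) :
    RawPX (fun _ => 1) π h (fun lam => XC858.SKq Dk (π lam) h) := by
  intro κ u m a E hκ hu hE hE2 H
  simp only [NC_one]
  exact XPX241.rawP_ex (Z := Zl) hpu π hP (fun lam => XPX241.crP_lp hpu (hP lam) (HL lam))
    (fun l l' ps hl => zl_mono hl) κ u m a E hκ hu hE hE2 H

theorem rawGX_lp {h : ℝ → ℝ} {c : ℝ} (hpu : PU h c) (π : Lam → DPar) (hP : ∀ lam, (π lam).OK)
    (HL : ∀ lam, XCr792.LumpProv h (π lam)) :
    RawGX (fun _ => 1) π h (fun lam => XC858.SKq Dk (π lam) h) := by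
  intro κ u m a E hκ hu hE H
  simp only [NC_one] at H
  exact XPX241.rawG_lp (Z := Zl) hpu π hP HL (fun l ps hp => zl_of hp)
    (fun l l' ps hl => zl_mono hl) κ u m a E hκ hu hE H

/-- **the bundle for families with principal character**, from the lump theorem -/
theorem prov_prin {θ : ℝ} (hθ : 7 / 8 ≤ θ) (hθ1 : θ ≤ 1) (hPF : PF Set.univ θ) {h : ℝ → ℝ} {c : ℝ}
    (hpu : PU h c) (π : Lam → DPar) (hP : ∀ lam, (π lam).OK)
    (hE : ∀ lam, ∀ k : Eis, k ≠ 0 →
      (Sup271.NPm (π lam).n (π lam).ψ (π lam).l₂ k ↔ NCube k))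
    (HL : ∀ lam, XCr792.LumpProv h (π lam))
    {S₀ : Lam → ℝ → List Pq → ℝ}
    (hrem : T3F986.T3Fld θ (ex Dq (fun lam => Rt (π lam) h))) :
    ProvE θ (ex Dq (fun lam => Rt (π lam) h)) (ex Dq (fun lam => XC858.SKq Dk (π lam) h))
      (ex Dq S₀) (ex Dq (fun lam => Rc (π lam) h)) (ex Dq (fun lam => Bc (π lam) h)) := by
  refine provX (cc := fun _ => 1) hθ hθ1 hPF hpu hP (fun lam k hk => ?_) (gaussX_848 hP hpu)
    (rawPX_lp hpu π hP HL) (rawGX_lp hpu π hP HL) hrem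
  rw [NC_one]
  exact hE lam k hk

/-- **the bundle for an exceptional family**, from the lump theorem for the reduced family -/
theorem t6_of {θ : ℝ} (hθ : 7 / 8 ≤ θ) (hθ1 : θ ≤ 1) (hPF : PF Set.univ θ) {h : ℝ → ℝ} {c : ℝ}
    (hpu : PU h c) (π : Lam → DPar) (hP : ∀ lam, (π lam).OK) (hE : ∀ lam, Exc (π lam))
    (hR : ∀ lam, (red (π lam)).OK)
    (HL : ∀ lam, XCr792.LumpProv h (red (π lam)))
    {S₀ : Lam → ℝ → List Pq → ℝ}
    (hrem : T3F986.T3Fld θ (ex Dq (fun lam => Rt (red (π lam)) h))) :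
    ProvE θ (ex Dq (fun lam => Rt (red (π lam)) h))
      (ex Dq (fun lam => XC858.SKq Dk (red (π lam)) h)) (ex Dq S₀)
      (ex Dq (fun lam => Rc (π lam) h)) (ex Dq (fun lam => Bc (π lam) h)) :=
  prov_red (by linarith) hθ1 hPF hpu hP hE
    (prov_prin hθ hθ1 hPF hpu (fun lam => red (π lam)) hR
      (fun lam k hk => NPm_red_iff (hP lam).ψ.q0 hk) HL hrem)

end Crest.Agent.R017.XT6241
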