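import Crest.Agent.R017.XT6_241
import Crest.Agent.R017.ExRed4_848

/-!
# Row 17, exceptional class: the bundle of rules from the lump theorem, final form (helper241)

* `t6_ex` : the bundle `ProvE` for an exceptional family `π`, from `LumpProv` for `red ∘ π`
  and the remaining rule `BRem`
-/

set_option autoImplicit false

noncomputable section

namespace Crest.Agent.R017.XT6241

open Crest.Agent.R012 Crest.Agent.R012.Eis
open Crest.Agent.R012.T411 (NCube)
open Crest.Agent.R017.XG702 (Pcs BG)
open Crest.Agent.R017.ER911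
open Crest.Agent.R017.B770 Crest.Agent.R017.FE47 Crest.Agent.R017.End699
open Crest.Agent.R017.Prov71
open Crest.Agent.R017.XEx298
open Crest.Agent.R017.XEr298
open Crest.Agent.R017.Red848
open Crest.Agent.R017.PX764 (Dk)

variable {Lam : Type*}

/-- **the bundle for an exceptional family**, from the lump theorem for the reduced family -/
theorem t6_ex {θ : ℝ} (hθ : 7 / 8 ≤ θ) (hθ1 : θ ≤ 1) (hPF : PF Set.univ θ) {h : ℝ → ℝ} {c : ℝ}
    (hpu : PU h c) (π : Lam → DPar) (hP : ∀ lam, (π lam).OK) (hE : ∀ lam, Exc (π lam))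
    (HL : ∀ lam, XCr792.LumpProv h (red (π lam)))
    {S₀ : Lam → ℝ → List Pq → ℝ}
    (hrem : T3F986.T3Fld θ (ex Dq (fun lam => Rt (red (π lam)) h))) :
    ProvE θ (ex Dq (fun lam => Rt (red (π lam)) h))
      (ex Dq (fun lam => XC858.SKq Dk (red (π lam)) h)) (ex Dq S₀)
      (ex Dq (fun lam => Rc (π lam) h)) (ex Dq (fun lam => Bc (π lam) h)) :=
  t6_of hθ hθ1 hPF hpu π hP hE (fun lam => red_ok (hP lam) (hE lam)) HL hrem

end Crest.Agent.R017.XT6241
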