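import Mathlib

/-!
# Row 17, block C70, leaf E4 (helper743): the real lines of the `T`-numbers of `E4`

`G v n` : a supplied `T`-number (level `v`, length `n`); `T₀` : its value at the level and length of
the class

* `TB v n u` : the trivial number
* `GP G N₁ u` : child rule, monotone, slope one, trivial bound
* **`GP.d`**, **`GP.t1`**, **`GP.t2`** : the hypotheses of 792's `tsdJ`, `tsrV`
* **`GP.h0`**, **`GP.h1`** : the hypotheses of the large sieve side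
* `Gq d z u v n` : the closed form of the own number, **`gp_Gq`**
-/

set_option autoImplicit false

noncomputable section

namespace Crest.Agent.R017.EnX743

/-- the trivial number -/
def TB (v n u : ℝ) : ℝ := max (v + n + u) (5 / 3 * n + v / 3)

/-- **the rules of a supplied number** -/
structure GP (G : ℝ → ℝ → ℝ) (N₁ u : ℝ) : Prop where
  child : ∀ v n e, 0 ≤ e → G (v - 2 * e) (n - e) ≤ G v n - 2 * e
  mono : ∀ v v' n, v ≤ v' → G v n ≤ G v' n
  slope : ∀ v σ n, 0 ≤ σ → G (v + σ) n ≤ G v n + σ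
  triv : ∀ v n, n ≤ N₁ → G v n ≤ TB v n u

section
variable {G : ℝ → ℝ → ℝ} {N₁ u L T₀ E e t w z j : ℝ}

/-- the cost of the cubes -/
def FF' (N₁ L u : ℝ) : ℝ := max 0 ((L - N₁ + u) / 3)

lemma FF'_nonneg (N₁ L u : ℝ) : 0 ≤ FF' N₁ L u := le_max_left _ _

/-- **all children, all levels** -/
theorem GP.all (h : GP G N₁ u) (hu : 0 ≤ u) (h0 : G L N₁ ≤ T₀)
    (hT : min (2 * N₁) (max (L + N₁ + u) (5 / 3 * N₁ + L / 3)) ≤ T₀)
    (hE : 0 ≤ E) (he : E ≤ e) (ht : e ≤ E + t) {W : ℝ} (hW : 0 ≤ W) :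
    G (L - 2 * E - 3 * W) (N₁ - e) ≤ T₀ - max 0 (W - FF' N₁ L u) - 2 * e + 2 * t := by
  have he0 : 0 ≤ e := by linarith
  have hF0 := FF'_nonneg N₁ L u
  have hF1 : (L - N₁ + u) / 3 ≤ FF' N₁ L u := le_max_right _ _
  have h1 : G (L - 2 * E - 3 * W) (N₁ - e) ≤
      G (L - 2 * e - 3 * W) (N₁ - e) + 2 * (e - E) := by
    have := h.slope (L - 2 * e - 3 * W) (2 * (e - E)) (N₁ - e) (by linarith)
    have e1 : L - 2 * e - 3 * W + 2 * (e - E) = L - 2 * E - 3 * W := by ring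
    rwa [e1] at this
  rcases le_total W (FF' N₁ L u) with hw | hw
  · rw [max_eq_left (by linarith : W - FF' N₁ L u ≤ 0)]
    have h2 := h.mono (L - 2 * e - 3 * W) (L - 2 * e) (N₁ - e) (by linarith)
    have h3 := h.child L N₁ e he0
    linarith
  · rw [max_eq_right (by linarith : 0 ≤ W - FF' N₁ L u)]
    have h2 := h.triv (L - 2 * e - 3 * W) (N₁ - e) (by linarith)
    have h3 : TB (L - 2 * e - 3 * W) (N₁ - e) u ≤ T₀ + FF' N₁ L u - W - 2 * e := by
      unfold TB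
      rcases min_choice (2 * N₁) (max (L + N₁ + u) (5 / 3 * N₁ + L / 3)) with hc | hc
      · rw [hc] at hT
        exact max_le (by linarith) (by linarith)
      · rw [hc] at hT
        have a1 := le_max_left (L + N₁ + u) (5 / 3 * N₁ + L / 3)
        have a2 := le_max_right (L + N₁ + u) (5 / 3 * N₁ + L / 3)
        exact max_le (by linarith) (by linarith)
    linarith

/-- **the premise of `tsdJ`** -/
theorem GP.d (h : GP G N₁ u) (hu : 0 ≤ u) (h0 : G L N₁ ≤ T₀)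
    (hT : min (2 * N₁) (max (L + N₁ + u) (5 / 3 * N₁ + L / 3)) ≤ T₀)
    (hE : 0 ≤ E) (he : E ≤ e) (ht : e ≤ E + t) (hz : 0 ≤ z) :
    G (L - 2 * E - 3 * z) (N₁ - e) ≤ (T₀ - 2 / 3 * E + 2 * t) - 4 / 3 * e := by
  have h1 := h.all hu h0 hT hE he ht hz
  have h2 := le_max_left 0 (z - FF' N₁ L u)
  linarith

/-- **the premise of `tsrV`, weight `nm c ^ (-1)`** -/
theorem GP.t1 (h : GP G N₁ u) (hu : 0 ≤ u) (h0 : G L N₁ ≤ T₀)
    (hT : min (2 * N₁) (max (L + N₁ + u) (5 / 3 * N₁ + L / 3)) ≤ T₀)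
    (hE : 0 ≤ E) (he : E ≤ e) (ht : e ≤ E + t) (hw : 0 ≤ w) (hz : 0 ≤ z) :
    G (L - 2 * E - 3 * w - 3 * z) (N₁ - e) ≤
      (T₀ + min (FF' N₁ L u) j - 2 / 3 * E + 2 * t) - min z j - 4 / 3 * e := by
  have h1 := h.all hu h0 hT hE he ht (add_nonneg hw hz)
  have e1 : L - 2 * E - 3 * (w + z) = L - 2 * E - 3 * w - 3 * z := by ring
  rw [e1] at h1
  have h2 := le_max_left 0 (w + z - FF' N₁ L u)
  have h3 := le_max_right 0 (w + z - FF' N₁ L u)
  have h4 : min z j ≤ min (FF' N₁ L u) j + max 0 (w + z - FF' N₁ L u) := by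
    have a1 := min_le_left z j
    have a2 := min_le_right z j
    rcases min_choice (FF' N₁ L u) j with hc | hc
    · rw [hc]; linarith
    · rw [hc]; linarith
  linarith

/-- **the premise of `tsrV`, weight `nm c ^ (-1/2)`** -/
theorem GP.t2 (h : GP G N₁ u) (hu : 0 ≤ u) (h0 : G L N₁ ≤ T₀)
    (hT : min (2 * N₁) (max (L + N₁ + u) (5 / 3 * N₁ + L / 3)) ≤ T₀)
    (hE : 0 ≤ E) (he : E ≤ e) (ht : e ≤ E + t) (hw : 0 ≤ w) (hz : 0 ≤ z) :
    G (L - 2 * E - 3 * w - 3 * z) (N₁ - e) ≤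
      (T₀ + (FF' N₁ L u + min (FF' N₁ L u) j) / 2 - 2 / 3 * E + 2 * t) - min z j - 4 / 3 * e -
        1 / 2 * w := by
  have h1 := h.all hu h0 hT hE he ht (add_nonneg hw hz)
  have e1 : L - 2 * E - 3 * (w + z) = L - 2 * E - 3 * w - 3 * z := by ring
  rw [e1] at h1
  have h2 := le_max_left 0 (w + z - FF' N₁ L u)
  have h3 := le_max_right 0 (w + z - FF' N₁ L u)
  have h4 : min z j + 1 / 2 * w ≤ (FF' N₁ L u + min (FF' N₁ L u) j) / 2 +
      max 0 (w + z - FF' N₁ L u) := by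
    have a1 := min_le_left z j
    have a2 := min_le_right z j
    rcases min_choice (FF' N₁ L u) j with hc | hc
    · rw [hc]; linarith
    · rw [hc]; linarith
  linarith

/-- **the premise of the large sieve, main number** -/
theorem GP.h0 (h : GP G N₁ u) (h0 : G L N₁ ≤ T₀) {ξ : ℝ} (hξ : 0 ≤ ξ) :
    G (L - 2 * ξ) (N₁ - ξ) ≤ T₀ - 2 * ξ := by
  have := h.child L N₁ ξ hξ
  linarith

/-- **the premise of the large sieve, number of the square part** -/
theorem GP.h1 (h : GP G N₁ u) {ξ : ℝ} (hξ : 0 ≤ ξ) (hξL : 2 * ξ ≤ L) :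
    G (L - 2 * ξ) (N₁ - ξ) ≤ max (L + N₁ + u) (5 / 3 * N₁ + 2 / 3 * L) - 3 * ξ := by
  have h1 := h.triv (L - 2 * ξ) (N₁ - ξ) (by linarith)
  have a1 := le_max_left (L + N₁ + u) (5 / 3 * N₁ + 2 / 3 * L)
  have a2 := le_max_right (L + N₁ + u) (5 / 3 * N₁ + 2 / 3 * L)
  refine h1.trans ?_
  unfold TB
  exact max_le (by linarith) (by linarith)

end

end Crest.Agent.R017.EnX743
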