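import Mathlib

/-!
# Row 17, block C70, leaf E4, `x`-side (helper743): the real lines of the `T`-numbers

* `T3 m v u` : the `T`-number of a list of length `m` with smallest lump `≤ u` at level `v`
* `FT` : the level range above the crossing, `/ 3`
* **`T3_d`**, **`T3_1`**, **`T3_2`** : the hypotheses of 792's `tsdJ`, `tsrV` (weights `nm c ^ (-1)`,
  `nm c ^ (-1/2)`)
-/

set_option autoImplicit false

noncomputable section

namespace Crest.Agent.R017.EnX743

/-- the `T`-number of a list of length `m` with smallest lump `≤ u` at level `v` -/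
def T3 (m v u : ℝ) : ℝ := min (2 * m + 2 / 3 * max 0 (v - 3 / 4 * m)) (v + m + u)

/-- the range of levels above the crossing -/
def FT (m v u : ℝ) : ℝ := max 0 ((v - m + u) / 3)

lemma FT_nonneg (m v u : ℝ) : 0 ≤ FT m v u := le_max_left _ _

lemma T3_mono {m m' v v' u u' : ℝ} (hm : m ≤ m') (hv : v ≤ v') (hu : u ≤ u') :
    T3 m v u ≤ T3 m' v' u' := by
  unfold T3
  refine min_le_min ?_ (by linarith)
  have h1 : max 0 (v - 3 / 4 * m) ≤ max 0 (v' - 3 / 4 * m') + 3 / 4 * (m' - m) := by
    refine max_le ?_ ?_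
    · have := le_max_left 0 (v' - 3 / 4 * m')
      linarith
    · have := le_max_right 0 (v' - 3 / 4 * m')
      linarith
  linarith

lemma T3_lip {m v u a b c : ℝ} (ha : 0 ≤ a) (hb : 0 ≤ b) (hc : 0 ≤ c) :
    T3 (m + a) (v + b) (u + c) ≤ T3 m v u + 2 * a + b + c := by
  unfold T3
  have h1 : max 0 (v + b - 3 / 4 * (m + a)) ≤ max 0 (v - 3 / 4 * m) + b := by
    refine max_le ?_ ?_
    · have := le_max_left 0 (v - 3 / 4 * m)
      linarith
    · have := le_max_right 0 (v - 3 / 4 * m)
      linarith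
  rcases min_choice (2 * m + 2 / 3 * max 0 (v - 3 / 4 * m)) (v + m + u) with h | h
  · rw [h]
    refine (min_le_left _ _).trans ?_
    linarith
  · rw [h]
    refine (min_le_right _ _).trans ?_
    linarith

/-- shorter children -/
lemma T3_child {m v u e : ℝ} (he : 0 ≤ e) : T3 (m - e) (v - 2 * e) u ≤ T3 m v u - 2 * e := by
  unfold T3
  have h1 : max 0 (v - 2 * e - 3 / 4 * (m - e)) ≤ max 0 (v - 3 / 4 * m) := by
    refine max_le (le_max_left _ _) ?_
    have := le_max_right 0 (v - 3 / 4 * m)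
    linarith
  rcases min_choice (2 * m + 2 / 3 * max 0 (v - 3 / 4 * m)) (v + m + u) with h | h
  · rw [h]
    refine (min_le_left _ _).trans ?_
    linarith
  · rw [h]
    refine (min_le_right _ _).trans ?_
    linarith

/-- lower levels, flat branch -/
lemma T3_lev {m v u e y : ℝ} (he : 0 ≤ e) (hy : 0 ≤ y) :
    T3 (m - e) (v - 2 * e - 3 * y) u ≤ T3 m v u - 2 * e :=
  (T3_mono le_rfl (by linarith) le_rfl).trans (T3_child he)

/-- lower levels, both branches -/
lemma T3_lev' {m v u e y : ℝ} (he : 0 ≤ e) (hy : 0 ≤ y) :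
    T3 (m - e) (v - 2 * e - 3 * y) u ≤ T3 m v u - 2 * e - y + FT m v u := by
  have hF0 := FT_nonneg m v u
  have hF1 : (v - m + u) / 3 ≤ FT m v u := le_max_right _ _
  rcases le_total y (FT m v u) with h | h
  · have := T3_lev (m := m) (v := v) (u := u) he hy
    linarith
  · refine (min_le_right _ _).trans ?_
    have hm := le_max_left 0 (v - 3 / 4 * m)
    rcases min_choice (2 * m + 2 / 3 * max 0 (v - 3 / 4 * m)) (v + m + u) with h1 | h1
    · have e1 : T3 m v u = 2 * m + 2 / 3 * max 0 (v - 3 / 4 * m) := h1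
      rw [e1]
      linarith
    · have e1 : T3 m v u = v + m + u := h1
      rw [e1]
      linarith

/-- **the hypothesis of `tsdJ`** -/
theorem T3_d {m v u E e t : ℝ} (hE : 0 ≤ E) (he : E ≤ e) (ht : e ≤ E + t) :
    T3 (m - e) (v - 2 * E) u ≤ (T3 m v u - 2 / 3 * E + 2 * t) - 4 / 3 * e := by
  have h1 : T3 (m - e) (v - 2 * E) u ≤ T3 (m - e) (v - 2 * e) u + 2 * (e - E) := by
    have := T3_lip (m := m - e) (v := v - 2 * e) (u := u) (a := 0) (b := 2 * (e - E)) (c := 0)
      le_rfl (by linarith) le_rfl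
    have e1 : v - 2 * e + 2 * (e - E) = v - 2 * E := by ring
    rw [add_zero, add_zero, e1] at this
    linarith
  have h2 := T3_child (m := m) (v := v) (u := u) (e := e) (by linarith)
  linarith

/-- **the hypothesis of `tsrV`, weight `nm c ^ (-1)`** -/
theorem T3_1 {m v u E e t w x j : ℝ} (hE : 0 ≤ E) (he : E ≤ e) (ht : e ≤ E + t)
    (hw : 0 ≤ w) (hx : 0 ≤ x) (hxj : x ≤ j) :
    T3 (m - e) (v - 2 * E - 3 * w - 3 * x) u ≤
      (T3 m v u + min (FT m v u) j - 2 / 3 * E + 2 * t) - x - 4 / 3 * e := by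
  have h1 : T3 (m - e) (v - 2 * E - 3 * w - 3 * x) u ≤
      T3 (m - e) (v - 2 * e - 3 * (w + x)) u + 2 * (e - E) := by
    have := T3_lip (m := m - e) (v := v - 2 * e - 3 * (w + x)) (u := u) (a := 0)
      (b := 2 * (e - E)) (c := 0) le_rfl (by linarith) le_rfl
    have e1 : v - 2 * e - 3 * (w + x) + 2 * (e - E) = v - 2 * E - 3 * w - 3 * x := by ring
    rw [add_zero, add_zero, e1] at this
    linarith
  have h2 := T3_lev (m := m) (v := v) (u := u) (e := e) (y := w + x) (by linarith) (by linarith)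
  have h3 := T3_lev' (m := m) (v := v) (u := u) (e := e) (y := w + x) (by linarith) (by linarith)
  rcases min_choice (FT m v u) j with h | h
  · rw [h]
    linarith
  · rw [h]
    linarith

/-- **the hypothesis of `tsrV`, weight `nm c ^ (-1/2)`** -/
theorem T3_2 {m v u E e t w x j : ℝ} (hE : 0 ≤ E) (he : E ≤ e) (ht : e ≤ E + t)
    (hw : 0 ≤ w) (hx : 0 ≤ x) (hxj : x ≤ j) :
    T3 (m - e) (v - 2 * E - 3 * w - 3 * x) u ≤
      (T3 m v u + (FT m v u + min (FT m v u) j) / 2 - 2 / 3 * E + 2 * t) - x - 4 / 3 * e -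
        1 / 2 * w := by
  have h1 : T3 (m - e) (v - 2 * E - 3 * w - 3 * x) u ≤
      T3 (m - e) (v - 2 * e - 3 * (w + x)) u + 2 * (e - E) := by
    have := T3_lip (m := m - e) (v := v - 2 * e - 3 * (w + x)) (u := u) (a := 0)
      (b := 2 * (e - E)) (c := 0) le_rfl (by linarith) le_rfl
    have e1 : v - 2 * e - 3 * (w + x) + 2 * (e - E) = v - 2 * E - 3 * w - 3 * x := by ring
    rw [add_zero, add_zero, e1] at this
    linarith
  have h2 := T3_lev (m := m) (v := v) (u := u) (e := e) (y := w + x) (by linarith) (by linarith)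
  have h3 := T3_lev' (m := m) (v := v) (u := u) (e := e) (y := w + x) (by linarith) (by linarith)
  rcases le_total x (min (FT m v u) j) with h | h
  · linarith
  · rcases min_choice (FT m v u) j with h' | h'
    · rw [h'] at h ⊢
      linarith
    · rw [h'] at h ⊢
      have : x = j := le_antisymm hxj h
      linarith

end Crest.Agent.R017.EnX743
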