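import Crest.Agent.R017.XHg_512
import Crest.Agent.R017.XTn_743

/-!
# Row 17, block C70, leaf E4, `x`-side (helper743): the `T`-numbers of a class at the frame

* `gp_GqN`, `low_GqN` : helper792's closed form satisfies the rules `GP`
* `FF'_le` : the cost of the cubes, true against nominal
* **`tn_xf`** : `TSD`, `TSR .. 1`, `TSR .. (1/2)` of helper92's class at the data of helper512's
  `TNumU`
-/

set_option autoImplicit false
set_option linter.unusedVariables false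

noncomputable section

open Finset

namespace Crest.Agent.R017.EnX743

open Crest.Agent.R012 Crest.Agent.R012.Eis
open Crest.Agent.R012.LS2 (mem_S)
open Crest.Agent.R012.Div277 (dvs mem_dvs isPrim_of_mem_dvs tau tau_le_rpow)
open Crest.Agent.R017.GrB829 (IsC)
open Crest.Agent.R017.FE47 (PU SM cx)
open Crest.Agent.R017.C70 (OKJ)
open Crest.Agent.R017.HP842 (pc)
open Crest.Agent.R017.B770
open Crest.Agent.R017.Prov71
open Crest.Agent.R017.E5B71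
open Crest.Agent.R017.E5L770
open Crest.Agent.R017.E5k54 (alb)
open Crest.Agent.R017.E1551 (Adm)
open Crest.Agent.R017.E4U164
open Crest.Agent.R017.E4R70
open Crest.Agent.R017.E4Dic352
open Crest.Agent.R017.E4St352
open Crest.Agent.R017.Bx918
open Crest.Agent.R017.Tc918
open Crest.Agent.R017.TEM792 (VN LD nL)
open Crest.Agent.R017.VFa436 (us3 f3_eq Adm_f3 T3_spec)
open Crest.Agent.R017.E4Us512 (Fr FrY fr_of_frL nm_beta_le bdd_PU Y3_le)
open Crest.Agent.R017.XHn512 (GqN gqN_child Ko_mono VNU TrNum tr_num ld_of us3_mem)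
open Crest.Agent.R017.E4X92

/-! ### the closed form -/

lemma gqN_mono {d z u v v' n : ℝ} (hv : v ≤ v') : GqN d z u v n ≤ GqN d z u v' n := by
  have h1 := Ko_mono (z := z) (le_refl n) hv
  unfold GqN
  refine min_le_min ?_ (max_le_max (by linarith) (by linarith))
  have : max (max (2 * n) (v + n)) (4 / 3 * n + (v + Ko n v z) / 3) ≤
      max (max (2 * n) (v' + n)) (4 / 3 * n + (v' + Ko n v' z) / 3) :=
    max_le_max (max_le_max le_rfl (by linarith)) (by linarith)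
  linarith

lemma gqN_slope {d z u v σ n : ℝ} (hσ : 0 ≤ σ) : GqN d z u (v + σ) n ≤ GqN d z u v n + σ := by
  have k1 : 5 / 4 * n ≤ Ko n v z := le_max_left _ _
  have k2 : v + n / 2 ≤ Ko n v z := (le_max_left _ _).trans (le_max_right _ _)
  have k3 : 3 / 2 * v ≤ Ko n v z :=
    (le_max_left _ _).trans ((le_max_right _ _).trans (le_max_right _ _))
  have k4 : 200 / 61 * z ≤ Ko n v z :=
    (le_max_right _ _).trans ((le_max_right _ _).trans (le_max_right _ _))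
  have hK : Ko n (v + σ) z ≤ Ko n v z + 3 / 2 * σ :=
    max_le (by linarith) (max_le (by linarith) (max_le (by linarith) (by linarith)))
  unfold GqN
  rw [min_add]
  refine min_le_min ?_ ?_
  · have m1 : 2 * n ≤ max (max (2 * n) (v + n)) (4 / 3 * n + (v + Ko n v z) / 3) :=
      (le_max_left _ _).trans (le_max_left _ _)
    have m2 : v + n ≤ max (max (2 * n) (v + n)) (4 / 3 * n + (v + Ko n v z) / 3) :=
      (le_max_right _ _).trans (le_max_left _ _)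
    have m3 : 4 / 3 * n + (v + Ko n v z) / 3 ≤
      max (max (2 * n) (v + n)) (4 / 3 * n + (v + Ko n v z) / 3) := le_max_right _ _
    have : max (max (2 * n) (v + σ + n)) (4 / 3 * n + (v + σ + Ko n (v + σ) z) / 3) ≤
        max (max (2 * n) (v + n)) (4 / 3 * n + (v + Ko n v z) / 3) + σ :=
      max_le (max_le (by linarith) (by linarith)) (by linarith)
    linarith
  · have m1 : v + n + min u (n / 3) ≤ max (v + n + min u (n / 3)) (5 / 3 * n + v / 3) :=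
      le_max_left _ _
    have m2 : 5 / 3 * n + v / 3 ≤ max (v + n + min u (n / 3)) (5 / 3 * n + v / 3) :=
      le_max_right _ _
    exact max_le (by linarith) (by linarith)

/-- **helper792's closed form satisfies the rules** -/
theorem gp_GqN {d z u N₁ : ℝ} (hd : 0 ≤ d) : GP (fun v n => GqN d z u v n) N₁ (min u (N₁ / 3)) where
  child v n e he := gqN_child hd he
  mono v v' n hv := gqN_mono hv
  slope v σ n hσ := gqN_slope hσ
  triv v n hn := by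
    show GqN d z u v n ≤ _
    unfold GqN TB
    refine (min_le_right _ _).trans (max_le_max ?_ le_rfl)
    have : min u (n / 3) ≤ min u (N₁ / 3) := min_le_min le_rfl (by linarith)
    linarith

/-- the second bound of `T₀` -/
lemma low_GqN {d z u L N₁ : ℝ} (hd : 0 ≤ d) (hN : 0 ≤ N₁) :
    min (2 * N₁) (max (L + N₁ + min u (N₁ / 3)) (5 / 3 * N₁ + L / 3)) ≤ GqN d z u L N₁ := by
  unfold GqN
  refine min_le_min ?_ le_rfl
  have m1 : 2 * N₁ ≤ max (max (2 * N₁) (L + N₁)) (4 / 3 * N₁ + (L + Ko N₁ L z) / 3) :=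
    (le_max_left _ _).trans (le_max_left _ _)
  have m2 : 0 ≤ 2 / 3 * d * N₁ := by positivity
  linarith

/-- the smallest lump, true against nominal -/
lemma u1_le {κ₀ δ u u' N₁ : ℝ} {z' : E4R70.Cls} {N' : ℝ} (hκ : 0 ≤ κ₀) (hu : u' ≤ κ₀ * u + δ)
    (hN : N₁ ≤ κ₀ * z'.N1 N' + 3 * δ) : min u' (N₁ / 3) ≤ κ₀ * z'.u1 N' u + δ := by
  have e1 : κ₀ * z'.u1 N' u = min (κ₀ * u) (κ₀ * (z'.N1 N' / 3)) := by
    unfold E4R70.Cls.u1
    rw [mul_min_of_nonneg _ _ hκ]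
  rw [e1, ← min_add_add_right]
  exact min_le_min hu (by linarith)

/-- **the cost of the cubes, true against nominal** -/
lemma FF'_le {κ₀ δ u u' L N₁ : ℝ} {z' : E4R70.Cls} {N' : ℝ} (hκ : 0 ≤ κ₀) (hδ : 0 ≤ δ)
    (hL : L ≤ κ₀ * (z'.v + z'.s) + δ) (hN1 : κ₀ * z'.N1 N' - δ ≤ N₁)
    (hu : u' ≤ κ₀ * z'.u1 N' u + δ) : FF' N₁ L u' ≤ κ₀ * z'.fF N' u + δ := by
  unfold FF' E4R70.Cls.fF
  rw [mul_max_of_nonneg _ _ hκ, mul_zero]
  have h1 := le_max_left 0 (κ₀ * ((z'.v + z'.s - z'.N1 N' + z'.u1 N' u) / 3))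
  have h2 := le_max_right 0 (κ₀ * ((z'.v + z'.s - z'.N1 N' + z'.u1 N' u) / 3))
  refine max_le (by linarith) ?_
  have e : κ₀ * ((z'.v + z'.s - z'.N1 N' + z'.u1 N' u) / 3) =
      (κ₀ * (z'.v + z'.s) - κ₀ * z'.N1 N' + κ₀ * z'.u1 N' u) / 3 := by ring
  rw [e] at h2
  rw [e]
  linarith

lemma nm_isC {c : Eis} (h : IsC c) : c ≠ 0 ∧ (nm c : ℝ) ≤ 9 := by
  have h3 : nm (3 : Eis) = 9 := by decide
  have hw : nm (w : Eis) = 1 := by decide
  have hn : (nm c : ℝ) ≤ 9 ∧ 0 < nm c := by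
    rcases h with rfl | rfl | rfl | rfl
    · rw [nm_one]; norm_num
    · rw [h3]; norm_num
    · rw [nm_mul, h3, hw]; norm_num
    · rw [nm_mul, nm_pow, h3, hw]; norm_num
  exact ⟨nm_pos.mp hn.2, hn.1⟩

/-- the final exponent -/
lemma fin_X {X δ' Xw nl e E : ℝ} {M : ℕ} (hX : 1 < X) (hXw : 0 < Xw)
    (h1 : Real.log Xw = nl * Real.log X) (hE : δ' * M + e - nl / 3 ≤ E) :
    (X ^ δ') ^ M * X ^ e * Xw ^ (-(1 / 3) : ℝ) ≤ X ^ E := by
  have hX0 : 0 < X := by linarith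
  have e1 : Xw = X ^ nl := by
    rw [← Real.exp_log hXw, Real.rpow_def_of_pos hX0, h1, mul_comm]
  rw [e1, ← Real.rpow_mul hX0.le, ← Real.rpow_natCast, ← Real.rpow_mul hX0.le,
    ← Real.rpow_add hX0, ← Real.rpow_add hX0]
  refine Real.rpow_le_rpow_of_exponent_le hX.le ?_
  linarith

/-- the sizes of a class -/
lemma cls_sz {y : XF} {cw X P : ℝ} (hy : y.OKx cw) (hcw : 1 ≤ cw) (hc : IsC y.c₀) (hX : 128 * cw ≤ X)
    (hV : y.V ≤ P) {n : Fin 12 → ℕ} (hn : 1 / 2 ≤ y.Nn n) :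
    y.Ln cw n ≤ X * P ∧ 8 * y.En n ≤ X * P := by
  obtain ⟨hc0, hc9⟩ := nm_isC hc
  have hc1 : (1 : ℝ) ≤ nm y.c₀ := by exact_mod_cast nm_pos.2 hc0
  have hEn1 := En_one hy n
  have hV0 := hy.V0
  have hX0 : 0 < X := by linarith
  have hJ1 : 1 ≤ y.Jn n := by
    unfold XF.Jn
    have h1 : (1 : ℝ) ≤ 2 ^ n 3 := one_le_pow₀ (by norm_num)
    have h2 : (1 : ℝ) ≤ 2 ^ n 9 := one_le_pow₀ (by norm_num)
    have h3 : (1 : ℝ) ≤ 2 ^ n 6 := one_le_pow₀ (by norm_num)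
    exact one_le_mul_of_one_le_of_one_le h1 (one_le_mul_of_one_le_of_one_le h2 h3)
  have hJ0 : 0 < y.Jn n := by linarith
  have hE0 : 0 < y.En n := by linarith
  have hc0' : (0 : ℝ) < nm y.c₀ := by linarith
  have hEnV : y.En n ≤ 2 * y.V := by
    have h1 : 1 / 2 ≤ y.V / (nm y.c₀ * y.Jn n * y.En n ^ 2) := hn
    have hp : 0 < nm y.c₀ * y.Jn n * y.En n ^ 2 := by positivity
    rw [le_div_iff₀ hp] at h1
    have h2 : y.En n ≤ nm y.c₀ * y.Jn n * y.En n ^ 2 := by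
      calc y.En n = 1 * 1 * y.En n := by ring
        _ ≤ nm y.c₀ * y.Jn n * y.En n ^ 2 := by
          have h3 : y.En n ≤ y.En n ^ 2 := le_self_pow₀ hEn1 (by norm_num)
          gcongr
    linarith
  constructor
  · have h1 : y.Ln cw n ≤ 8 * cw * y.V := by
      unfold XF.Ln
      exact div_le_self (by positivity) (one_le_mul_of_one_le_of_one_le hc1 (one_le_pow₀ hEn1))
    calc y.Ln cw n ≤ 8 * cw * y.V := h1
      _ ≤ X * P := mul_le_mul (by linarith) hV hV0.le hX0.le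
  · calc 8 * y.En n ≤ 16 * y.V := by linarith
      _ ≤ X * P := mul_le_mul (by linarith) hV hV0.le hX0.le

/-- the divisors of a small number -/
lemma dvs_sz {X K t Cd : ℝ} (hX : 1 < X) (hK : 0 < K) (ht : 0 < t) (hCd : 1 ≤ Cd)
    (hdiv : ∀ n : Eis, n ≠ 0 → (tau n : ℝ) ≤ Cd * (nm n : ℝ) ^ (t / 2 / K))
    (hXC : Cd ^ (2 / t : ℝ) ≤ X) {A : Eis} (hA : A ≠ 0) (hAK : (nm A : ℝ) ≤ X ^ K) :
    ((dvs A).card : ℝ) ≤ X ^ t := by
  have hX0 : 0 < X := by linarith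
  have h1 : ((dvs A).card : ℝ) ≤ Cd * (nm A : ℝ) ^ (t / 2 / K) := hdiv A hA
  have h3 : (nm A : ℝ) ^ (t / 2 / K) ≤ X ^ (t / 2) := by
    calc (nm A : ℝ) ^ (t / 2 / K) ≤ (X ^ K) ^ (t / 2 / K) :=
          Real.rpow_le_rpow (Nat.cast_nonneg _) hAK (by positivity)
      _ = X ^ (t / 2) := by
          rw [← Real.rpow_mul hX0.le]
          congr 1
          field_simp
  have hCd0 : 0 < Cd := by linarith
  have h4 : Cd ≤ X ^ (t / 2) := by
    calc Cd = (Cd ^ (2 / t : ℝ)) ^ (t / 2) := by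
          rw [← Real.rpow_mul hCd0.le]
          have : (2 / t : ℝ) * (t / 2) = 1 := by field_simp
          rw [this, Real.rpow_one]
      _ ≤ X ^ (t / 2) := Real.rpow_le_rpow (by positivity) hXC (by positivity)
  calc ((dvs A).card : ℝ) ≤ Cd * (nm A : ℝ) ^ (t / 2 / K) := h1
    _ ≤ X ^ (t / 2) * X ^ (t / 2) := by gcongr
    _ = X ^ t := by
        rw [← Real.rpow_add hX0]
        congr 1
        ring

/-- the real numbers of a class -/
lemma cls_real {μ d r N' M' u a' c' x' v' κ₀ η lv e nl w lc y : ℝ} {z' : E4R70.Cls}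
    (BX : Bx4 μ d r N' M' u a' c' x' v') (hok : z'.Ok d r N' M' a' c' x')
    (y1 : y ≤ N' - 2 * u) (y2 : 2 * y ≤ M') (hκ89 : 8 / 9 ≤ κ₀) (hη : 0 < η)
    (hη1 : η ≤ 1 / 100) (hTr : TrNum κ₀ η lv e nl w z' N') (hc : lc ≤ η) :
    0 ≤ nl - e ∧ lv + e + lc + 1 / 5 ≤ 2 * (nl - e) ∧
    GqN d (κ₀ * y + η) (κ₀ * u + η) (lv + e + lc) (nl - e) ≤
      κ₀ * (z'.tT N' u + 2 / 3 * d * z'.N1 N') + 25 * η ∧
    0 ≤ min (κ₀ * u + η) ((nl - e) / 3) ∧
    FF' (nl - e) (lv + e + lc) (min (κ₀ * u + η) ((nl - e) / 3)) ≤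
      κ₀ * z'.fF N' u + 5 * η := by
  have hκ0 : 0 < κ₀ := by linarith only [hκ89]
  have hlev := lev_le BX hok
  have hx36 : x' ≤ 1 / 36 := by
    have h1 := BX.d0
    rcases BX.shr with h | ⟨h, -, -⟩ <;> linarith only [h, h1]
  have hN1p : 9 / 20 ≤ z'.N1 N' := by
    have b1 := hok.hβ
    have b2 := hok.h64
    unfold E4R70.Cls.N1
    linarith only [b1, b2, hx36]
  have hκn : 2 / 5 ≤ κ₀ * z'.N1 N' := by
    calc (2 / 5 : ℝ) = 8 / 9 * (9 / 20) := by norm_num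
      _ ≤ κ₀ * z'.N1 N' := by gcongr
  have hκlev : κ₀ * (z'.v + z'.s) ≤ κ₀ * z'.N1 N' := mul_le_mul_of_nonneg_left hlev hκ0.le
  have t1 := hTr.hL
  have t2 := hTr.hN1
  have t3 := hTr.hN1'
  have hn0 : 0 ≤ nl - e := by linarith only [t3, hκn, hη1]
  have hL4 : lv + e + lc ≤ κ₀ * (z'.v + z'.s) + 4 * η := by linarith only [t1, hc]
  have hu0 : 0 ≤ κ₀ * u := mul_nonneg hκ0.le (by linarith only [BX.u0])
  have hu1 : min (κ₀ * u + η) ((nl - e) / 3) ≤ κ₀ * z'.u1 N' u + 2 * η :=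
    u1_le hκ0.le (by linarith only [hη]) (by linarith only [t2, hη])
  refine ⟨hn0, by linarith only [hL4, hκlev, hκn, t3, hη1], ?_,
    le_min (by linarith only [hu0, hη]) (by linarith only [hn0]), ?_⟩
  · have := own_Gq (L := lv + e + lc) (n := nl - e) (z₁ := κ₀ * y + η) (u' := κ₀ * u + η)
      (δ := 5 * η) BX hok y1 y2 hκ0.le (by linarith only [hη]) t2
      (by linarith only [hL4, hη]) (by linarith only [hη]) (by linarith only [hη])
    refine le_trans this (by linarith only [])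
  · exact FF'_le hκ0.le (by linarith only [hη]) (by linarith only [hL4, hη]) t3
      (by linarith only [hu1, hη])

variable {Λ : Type*}

set_option maxHeartbeats 4000000 in
/-- **the `T`-numbers of a class at the data** : `y` = helper92's frame (`e₀`, `α`, `V` of the data);
exponents `κ₀ (tT + 2/3 d N1) - 2/3 lx En - lx Nα / 3`, cubes `min (κ₀ fF) (lx Yb)` and
`(κ₀ fF + min (κ₀ fF) (lx Yb)) / 2` -/
theorem tn_xf {π : Λ → DPar} {h : ℝ → ℝ} {c₀ : ℝ} (hh : PU h c₀) {A d : ℝ}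
    (hV : VNU π h d) (hd : 0 ≤ d) (hd1 : d ≤ 1 / 8) (hA0 : 2 / 3 ≤ A) (hA : A ≤ 1)
    (hA1 : 16 * (1 - A) ≤ d) (e0 r : ℝ) (Bf : ℝ → ℝ → ℝ → ℝ) {ε : ℝ} (hε : 0 < ε) :
    ∃ η : ℝ, 0 < η ∧ ∀ cw : ℝ, 1 ≤ cw →
    ∀ (lam : Λ × Eis) (N : ℕ) (B K₀ : ℝ), lam.2 ∈ SM (π lam.1).n →
    ∃ δ' : ℝ, 0 < δ' ∧ ∃ X₀ : ℝ, 1 < X₀ ∧ ∀ X : ℝ, X₀ ≤ X → ∀ δ ε' : ℝ, δ ≤ η → ε' ≤ η →
    ∀ (a : Bd × ℕ) (ps : List Pq) (q : (Option (Fin 3 ⊕ Fin 5) → ℝ) × (Kd → ℝ)),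
      FrL A d δ δ' B X N a ps q → a.1.ok → a.1.okP (π lam.1) →
    ∀ x : Dt, x.OK (π lam.1) Bf e0 r ε' X a.1 → ∀ z' : E4R70.Cls,
      z'.Ok d (1 / cκ (dn q.1)) (cN (dn q.1) / cκ (dn q.1)) (cM (dn q.1) / cκ (dn q.1))
        (q.2 .mo / cκ (dn q.1)) (q.2 .am / cκ (dn q.1)) (cx' (dn q.1) / cκ (dn q.1)) →
      |z'.v - Real.log 2 * a.2 / (cκ (dn q.1) * Real.log X)| ≤ η →
      |z'.β - E4Dic352.lg (∏ i, x.β i) / (cκ (dn q.1) * Real.log X)| ≤ η →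
      |z'.s - E4Dic352.lg x.e₀ / (cκ (dn q.1) * Real.log X)| ≤ η →
    ∀ y : XF, y.OKx cw → y.e₀ = x.e₀ → y.α = alb (f3 (π lam.1) h lam.2 a.1) x.β →
      y.V = 2 ^ a.2 → IsC y.c₀ →
    ∀ Nα : ℝ, Real.log Nα / Real.log X ≤
        cκ (dn q.1) * (cN (dn q.1) / cκ (dn q.1) - z'.β) + η →
    ∀ n : Fin 12 → ℕ, 1 / 2 ≤ y.Nn n →
      TSD y.α y.e₀ y.c₀ (y.Ee n) (y.Ln cw n) ≤
        X ^ (cκ (dn q.1) * (z'.tT (cN (dn q.1) / cκ (dn q.1)) (cu (dn q.1) 4 / cκ (dn q.1)) +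
          2 / 3 * d * z'.N1 (cN (dn q.1) / cκ (dn q.1))) -
          2 / 3 * (Real.log (y.En n) / Real.log X) - Real.log Nα / Real.log X / 3 + ε) ∧
      ∀ (Ag : Eis) (Yb : ℕ) (Ys : Finset Eis), Ag ≠ 0 → (nm Ag : ℝ) ≤ X ^ K₀ →
        1 ≤ Yb → (Yb : ℝ) ≤ X ^ K₀ →
        (∀ c ∈ Ys, ∃ b ∈ dvs Ag, ∃ c' ∈ primBall Yb, c = b * c') →
        TSR y.α y.e₀ y.c₀ 1 (y.Ee n) Ys (y.Ln cw n) ≤
          X ^ (cκ (dn q.1) * (z'.tT (cN (dn q.1) / cκ (dn q.1)) (cu (dn q.1) 4 / cκ (dn q.1)) +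
            2 / 3 * d * z'.N1 (cN (dn q.1) / cκ (dn q.1))) +
            min (cκ (dn q.1) * z'.fF (cN (dn q.1) / cκ (dn q.1)) (cu (dn q.1) 4 / cκ (dn q.1)))
              (Real.log Yb / Real.log X) -
            2 / 3 * (Real.log (y.En n) / Real.log X) - Real.log Nα / Real.log X / 3 + ε) ∧
        TSR y.α y.e₀ y.c₀ (1 / 2) (y.Ee n) Ys (y.Ln cw n) ≤
          X ^ (cκ (dn q.1) * (z'.tT (cN (dn q.1) / cκ (dn q.1)) (cu (dn q.1) 4 / cκ (dn q.1)) +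
            2 / 3 * d * z'.N1 (cN (dn q.1) / cκ (dn q.1))) +
            (cκ (dn q.1) * z'.fF (cN (dn q.1) / cκ (dn q.1)) (cu (dn q.1) 4 / cκ (dn q.1)) +
              min (cκ (dn q.1) * z'.fF (cN (dn q.1) / cκ (dn q.1))
                (cu (dn q.1) 4 / cκ (dn q.1))) (Real.log Yb / Real.log X)) / 2 -
            2 / 3 * (Real.log (y.En n) / Real.log X) - Real.log Nα / Real.log X / 3 + ε) := by
  classical
  obtain ⟨η, hη, hη1, hη2⟩ : ∃ η : ℝ, 0 < η ∧ η ≤ 1 / 100 ∧ η ≤ ε / 300 :=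
    ⟨min (1 / 100) (ε / 300), by positivity, min_le_left _ _, min_le_right _ _⟩
  obtain ⟨ε₀, hε₀, hε01, hε02⟩ : ∃ ε₀ : ℝ, 0 < ε₀ ∧ ε₀ ≤ 1 / 5 ∧ ε₀ ≤ ε / 8 :=
    ⟨min (1 / 5) (ε / 8), by positivity, min_le_left _ _, min_le_right _ _⟩
  refine ⟨η, hη, ?_⟩
  intro cw hcw lam N B K₀ hlam
  obtain ⟨R, H₀, hR0, -, hR, -⟩ := bdd_PU hh
  obtain ⟨B₁, hB₁⟩ : ∃ B₁ : ℝ, B₁ = max B 3 := ⟨_, rfl⟩
  have hB3 : 3 ≤ B₁ := by rw [hB₁]; exact le_max_right _ _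
  have hBB : B ≤ B₁ := by rw [hB₁]; exact le_max_left _ _
  obtain ⟨B', hB'⟩ : ∃ B' : ℝ, B' = 1 + B₁ + |e0| * B₁ := ⟨_, rfl⟩
  have hp0 : 0 ≤ |e0| * B₁ := mul_nonneg (abs_nonneg _) (by linarith)
  have hB'1 : 1 ≤ B' := by rw [hB']; linarith
  have hB'2 : B₁ ≤ B' := by rw [hB']; linarith
  have hB'3 : |e0| * B₁ ≤ B' := by rw [hB']; linarith
  obtain ⟨K, hK⟩ : ∃ K : ℝ, K = max (4 * B' + 2) K₀ := ⟨_, rfl⟩
  have hK4 : 4 * B' + 2 ≤ K := by rw [hK]; exact le_max_left _ _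
  have hKK₀ : K₀ ≤ K := by rw [hK]; exact le_max_right _ _
  have hK1 : 1 ≤ K := by linarith
  have hK0 : 0 < K := by linarith
  have hKB : B' ≤ K := by linarith
  obtain ⟨M, GM⟩ := hV (ε / 8) (by positivity) (4 * K) (by linarith) lam.1
  obtain ⟨X₁, hX₁, G1⟩ := GM M le_rfl lam.2 hlam
  obtain ⟨X₂, hX₂, G2⟩ := xtn_x (2 * (3 * R)) (by positivity) hε₀ K hK1 M
  -- the divisor bound
  obtain ⟨Cd, hCd, hdiv⟩ := tau_le_rpow (ε := ε₀ / 16 / 2 / K) (by positivity)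
  refine ⟨ε / (8 * (M + 1)), by positivity,
    max (max (max X₁ X₂) (max (100 + Real.exp r) (Real.exp (Real.log 2 / η))))
      (max (max (Real.exp (Real.log (4 * cw) / η)) (128 * cw)) (Cd ^ (2 / (ε₀ / 16) : ℝ))),
    lt_max_of_lt_left (lt_max_of_lt_left (lt_max_of_lt_left hX₁)), ?_⟩
  intro X hXX δ ε' hδ hε' a ps q hF ha haP x hx z' hok hv hb hs y hy hye hyα hyV hyc Nα hNα n hn
  have hXX₁ : X₁ ≤ X :=
    ((le_max_left _ _).trans ((le_max_left _ _).trans (le_max_left _ _))).trans hXX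
  have hXX₂ : X₂ ≤ X :=
    ((le_max_right _ _).trans ((le_max_left _ _).trans (le_max_left _ _))).trans hXX
  have hXX₃ : 100 + Real.exp r ≤ X :=
    ((le_max_left _ _).trans ((le_max_right _ _).trans (le_max_left _ _))).trans hXX
  have hXX₄ : Real.exp (Real.log 2 / η) ≤ X :=
    ((le_max_right _ _).trans ((le_max_right _ _).trans (le_max_left _ _))).trans hXX
  have hXX₅ : Real.exp (Real.log (4 * cw) / η) ≤ X :=
    ((le_max_left _ _).trans ((le_max_left _ _).trans (le_max_right _ _))).trans hXX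
  have hXX₆ : 128 * cw ≤ X :=
    ((le_max_right _ _).trans ((le_max_left _ _).trans (le_max_right _ _))).trans hXX
  have hXX₇ : Cd ^ (2 / (ε₀ / 16) : ℝ) ≤ X :=
    ((le_max_right _ _).trans (le_max_right _ _)).trans hXX
  have her := Real.exp_pos r
  have hX100 : 100 ≤ X := by linarith
  have hX1 : 1 < X := by linarith
  have hX0 : 0 < X := by linarith
  have hL : 0 < Real.log X := Real.log_pos hX1
  have h2 : Real.log 2 ≤ η * Real.log X := by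
    have h1 := Real.log_le_log (Real.exp_pos _) hXX₄
    rw [Real.log_exp, div_le_iff₀ hη] at h1
    linarith
  have h4c : Real.log (4 * cw) ≤ η * Real.log X := by
    have h1 := Real.log_le_log (Real.exp_pos _) hXX₅
    rw [Real.log_exp, div_le_iff₀ hη] at h1
    linarith
  -- the box
  have hSq : Sq5 A d (dn q.1) q.2 := hF.dom.1
  have hv0 : 0 ≤ q.1 none := hF.dom.2.1
  have hκ89 := hSq.toNr5.κ0
  have hκ1 := hSq.toNr5.κ1
  have BX := bx4 hd hd1 hA hA1 hSq hv0 hF.low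
  have V : FrV δ (Real.log X) a ps q := frV hF hX1
  obtain ⟨κ₀, hκ₀⟩ : ∃ κ₀ : ℝ, κ₀ = cκ (dn q.1) := ⟨_, rfl⟩
  rw [← hκ₀] at hok hv hb hs hκ89 hκ1 BX hNα ⊢
  have hκ0 : 0 < κ₀ := by linarith
  have hTr := tr_num hX1 V hδ hη.le h2 hκ0 hκ1 hv hb hs
  obtain ⟨y1, y2⟩ := y_of hSq
  rw [← hκ₀] at y1 y2
  -- sizes
  have hFr := fr_of_frL hA0 (by linarith) hX1 hF ha haP hBB hB3
  have HY := hFr.toY (e0 := e0) (r := r) hX100 (by linarith) hB'1 hB'2 hB'3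
  have hβ : ∀ i, IsPrim (x.β i) := (T3_spec hx.β).1
  have he₀ := (mem_S (Real.exp_pos _).le).mp hx.e₀
  have hXK : X ^ B' ≤ X ^ K := Real.rpow_le_rpow_of_exponent_le hX1.le hKB
  have hXK2 : X ^ K ≤ X ^ (4 * K) := Real.rpow_le_rpow_of_exponent_le hX1.le (by linarith)
  have hX4 : (X ^ B') ^ 4 ≤ X ^ K := by
    rw [← Real.rpow_natCast, ← Real.rpow_mul hX0.le]
    refine Real.rpow_le_rpow_of_exponent_le hX1.le ?_
    push_cast
    linarith
  have hβK : ∀ i, (nm (x.β i) : ℝ) ≤ X ^ (4 * K) := by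
    intro i
    have h1 := E4Us512.mem_PT (SSb54.mem_PTb.mp hx.β).1
    have h3 : (nm (x.β i) : ℝ) ≤ (X ^ B') ^ 4 := by
      refine le_trans ?_ (Y3_le HY)
      exact_mod_cast (mem_primBall.mp (h1 i)).1
    exact h3.trans (hX4.trans hXK2)
  have hzK : ∀ j, (a.1.us j).z ≤ 4 * K * Real.log X := by
    intro j
    have h1 := Real.log_le_log (Real.exp_pos _) (HY.u j)
    rw [Real.log_exp, Real.log_rpow hX0] at h1
    refine h1.trans (mul_le_mul_of_nonneg_right (by linarith only [hKB, hK0]) hL.le)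
  have he₀K : (nm x.e₀ : ℝ) ≤ X ^ K := (he₀.1.trans HY.e0l).trans hXK
  have hiB : (2 ^ a.2 : ℝ) ≤ X ^ B' := HY.lv
  have hδ'0 : 0 < ε / (8 * ((M : ℝ) + 1)) := by positivity
  have hLD := ld_of (K := 4 * K) hX1 hF ha (by linarith) hzK hβ hβK
  have hH1 : 1 ≤ X ^ (ε / (8 * ((M : ℝ) + 1))) := Real.one_le_rpow hX1.le hδ'0.le
  -- the lumps
  have u : ∀ i, (a.1.us i).z / Real.log X ≤ cu (dn q.1) i + η := by
    intro i
    rw [div_le_iff₀ hL]
    have h1 := (abs_le.mp (V.u i)).2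
    have h3 := mul_le_mul_of_nonneg_right hδ hL.le
    linarith only [h1, h3]
  obtain ⟨-, n2, n3, n4⟩ := hSq.anti
  have hz : ∀ i, (us3 a.1 i).z / Real.log X ≤ cu (dn q.1) 2 + η := by
    intro i
    have u2 := u 2
    have u3 := u 3
    have u4 := u 4
    fin_cases i
    · exact u2
    · exact u3.trans (by linarith)
    · exact u4.trans (by linarith)
  have hu : ∃ i, (us3 a.1 i).z / Real.log X ≤ cu (dn q.1) 4 + η := ⟨2, u 4⟩
  have hVN := G1 X hXX₁ (X ^ (ε / (8 * ((M : ℝ) + 1)))) hH1 (us3 a.1) x.β hLD _ _ hz hu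
  have ef : (fun i => pc h (Pt (π lam.1) lam.2 (us3 a.1 i))) = f3 (π lam.1) h lam.2 a.1 := rfl
  rw [ef] at hVN
  have hAdm := Adm_f3 hR0 hR (π lam.1) lam.2 a.1 hβ (le_refl _)
  rw [← hyα] at hVN hAdm
  -- the true numbers
  obtain ⟨lv, hlv⟩ : ∃ lv, lv = Real.log (2 * 2 ^ a.2) / Real.log X := ⟨_, rfl⟩
  obtain ⟨e, he⟩ : ∃ e, e = Real.log (nm x.e₀) / Real.log X := ⟨_, rfl⟩
  obtain ⟨nl, hnl⟩ : ∃ nl, nl = nL X (us3 a.1) x.β := ⟨_, rfl⟩
  rw [← hnl] at hVN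
  rw [← hlv, ← he, ← hnl] at hTr
  have he₀0 : (0 : ℝ) < nm x.e₀ := by exact_mod_cast nm_pos.2 he₀.2.1.ne_zero
  -- the level of the class
  obtain ⟨L, hLd⟩ : ∃ L, L = Real.log (8 * cw * y.V * nm y.e₀) / Real.log X := ⟨_, rfl⟩
  have hcw0 : 0 < cw := by linarith only [hcw]
  have hL2 : L = lv + e + Real.log (4 * cw) / Real.log X := by
    rw [hLd, hlv, he, hye, hyV, ← add_div, ← add_div, ← Real.log_mul (by positivity) (by positivity),
      ← Real.log_mul (by positivity) (by positivity)]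
    congr 2
    ring
  have h4c' : Real.log (4 * cw) / Real.log X ≤ η := by rw [div_le_iff₀ hL]; exact h4c
  obtain ⟨N₁, hN₁⟩ : ∃ N₁, N₁ = nl - Real.log (nm y.e₀) / Real.log X := ⟨_, rfl⟩
  have hN₁e : N₁ = nl - e := by rw [hN₁, hye, he]
  have eκy : cu (dn q.1) 2 + η = κ₀ * (cu (dn q.1) 2 / κ₀) + η := by field_simp
  have eκu : cu (dn q.1) 4 + η = κ₀ * (cu (dn q.1) 4 / κ₀) + η := by field_simp
  obtain ⟨hN₁0, hLN, hown, hu0, hFF⟩ := cls_real BX hok y1 y2 hκ89 hη hη1 hTr h4c'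
  rw [← hN₁e] at hN₁0 hLN hown hu0 hFF
  rw [← hL2] at hLN hown hFF
  rw [← eκu] at hown hu0 hFF
  rw [← eκy] at hown
  obtain ⟨T₀, hT₀⟩ : ∃ T₀, T₀ = κ₀ * (z'.tT (cN (dn q.1) / κ₀) (cu (dn q.1) 4 / κ₀) +
      2 / 3 * d * z'.N1 (cN (dn q.1) / κ₀)) := ⟨_, rfl⟩
  rw [← hT₀] at hown ⊢
  -- the sizes of the class
  have hXp : X * X ^ B' ≤ X ^ K := by
    calc X * X ^ B' = X ^ (1 + B') := by rw [Real.rpow_add hX0, Real.rpow_one]
      _ ≤ X ^ K := Real.rpow_le_rpow_of_exponent_le hX1.le (by linarith only [hK4, hB'1])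
  obtain ⟨hL5, hE5⟩ := cls_sz hy hcw hyc hXX₆ (P := X ^ B') (by rw [hyV]; exact hiB) hn
  have hLnK : y.Ln cw n ≤ X ^ K := hL5.trans hXp
  have hEnK : 8 * y.En n ≤ X ^ K := hE5.trans hXp
  have hc9 := (nm_isC hyc).2
  have hyeK : (nm y.e₀ : ℝ) ≤ X ^ K := by rw [hye]; exact he₀K
  have hycK : (nm y.c₀ : ℝ) ≤ X ^ K := by
    refine hc9.trans ?_
    calc (9 : ℝ) ≤ X ^ (1 : ℝ) := by rw [Real.rpow_one]; linarith only [hX100]
      _ ≤ X ^ K := Real.rpow_le_rpow_of_exponent_le hX1.le hK1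
  have hyp : IsPrim y.e₀ := by rw [hye]; exact he₀.2.1
  have hXw : 0 < Real.exp (a3 a.1 - Real.log (nm (∏ i, x.β i))) := Real.exp_pos _
  have hYw : 0 ≤ Real.exp (a3 a.1 - Real.log (nm (∏ i, x.β i)) + 3 * R) := (Real.exp_pos _).le
  have hlXw : Real.log (Real.exp (a3 a.1 - Real.log (nm (∏ i, x.β i)))) = nl * Real.log X := by
    rw [Real.log_exp, hnl]
    unfold TEM792.nL
    rw [div_mul_cancel₀ _ hL.ne', VFa436.sum_us3]
  have hδM : ε / (8 * ((M : ℝ) + 1)) * M ≤ ε / 8 := by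
    rw [div_mul_eq_mul_div, div_le_div_iff₀ (by positivity) (by norm_num)]
    have hM0 : ε * M ≤ ε * (M + 1) := mul_le_mul_of_nonneg_left (by linarith only []) hε.le
    linarith only [hM0]
  have hnlN : Real.log Nα / Real.log X ≤ nl + 5 * η := by
    have h7 := hTr.hnl
    linarith only [h7, hNα]
  obtain ⟨k0, k1⟩ := G2 X hXX₂ (X ^ (ε / (8 * ((M : ℝ) + 1)))) hH1 _ _ hYw hXw y cw n hy hcw hyp
    hAdm (fun v m => GqN d (cu (dn q.1) 2 + η) (cu (dn q.1) 4 + η) v m) nl (ε / 8) hVN hLnK hEnK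
    hyeK hycK N₁ L (min (cu (dn q.1) 4 + η) (N₁ / 3)) (T₀ + 25 * η) hN₁ hLd (gp_GqN hd) hu0 hown
    ((low_GqN hd hN₁0).trans hown) (by linarith only [hLN, hε01])
  refine ⟨k0.trans (fin_X hX1 hXw hlXw ?_), ?_⟩
  · linarith only [hδM, hη2, hε02, hnlN, hε]
  · intro Ag Yb Ys hA0' hAK hYb hYbK hYs
    have hdv : ((dvs Ag).card : ℝ) ≤ X ^ (ε₀ / 16) :=
      dvs_sz hX1 hK0 (by positivity) hCd hdiv hXX₇ hA0'
        (hAK.trans (Real.rpow_le_rpow_of_exponent_le hX1.le hKK₀))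
    obtain ⟨j1, j2⟩ := k1 Ag Yb Ys hA0' hdv hYb
      (hYbK.trans (Real.rpow_le_rpow_of_exponent_le hX1.le hKK₀)) hYs
    obtain ⟨F, hF'⟩ : ∃ F, F = FF' N₁ L (min (cu (dn q.1) 4 + η) (N₁ / 3)) := ⟨_, rfl⟩
    obtain ⟨F', hF''⟩ : ∃ F', F' = κ₀ * z'.fF (cN (dn q.1) / κ₀) (cu (dn q.1) 4 / κ₀) := ⟨_, rfl⟩
    rw [← hF'] at j1 j2 hFF
    rw [← hF''] at hFF ⊢
    have hm : min F (Real.log Yb / Real.log X) ≤ min F' (Real.log Yb / Real.log X) + 5 * η := by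
      rw [← min_add_add_right]
      exact min_le_min hFF (by linarith only [hη])
    refine ⟨j1.trans (fin_X hX1 hXw hlXw ?_), j2.trans (fin_X hX1 hXw hlXw ?_)⟩
    · linarith only [hδM, hη2, hε02, hnlN, hε, hm]
    · linarith only [hδM, hη2, hε02, hnlN, hε, hm, hFF]

end Crest.Agent.R017.EnX743
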