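import Crest.Agent.R017.XTn_743

/-!
# Row 17, block C70, leaf E4, `x`-side (helper743): the `T`-numbers of a class, general rules

* `GA G N₁ L T₀ F` : all children of a supplied number, with the cost `F` of the cubes
* `ga_of_gp`, `ga_max`, `ga_bias` : class N; maximum; the bias of class E
* **`xta`**, **`xta_x`** : `xtn`, `xtn_x` from `GA`
-/

set_option autoImplicit false
set_option linter.unusedVariables false

noncomputable section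

open scoped ComplexConjugate
open Finset

namespace Crest.Agent.R017.EnX743

open Crest.Agent.R012 Crest.Agent.R012.Eis Crest.Agent.R012.MC
open Crest.Agent.R012.LS2 (S mem_S)
open Crest.Agent.R012.Div277 (dvs mem_dvs isPrim_of_mem_dvs tau tau_le_rpow)
open Crest.Agent.R017.C70 (CbF JC)
open Crest.Agent.R017.E1551 (Adm)
open Crest.Agent.R017.TEM792 (VN)
open Crest.Agent.R017.E4zz92 (TT)
open Crest.Agent.R017.E4X92

/-- **all children, all levels** -/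
structure GA (G : ℝ → ℝ → ℝ) (N₁ L T₀ F : ℝ) : Prop where
  F0 : 0 ≤ F
  all : ∀ {E e t W : ℝ}, 0 ≤ E → E ≤ e → e ≤ E + t → 0 ≤ W →
    G (L - 2 * E - 3 * W) (N₁ - e) ≤ T₀ - max 0 (W - F) - 2 * e + 2 * t

section
variable {G G₁ G₂ : ℝ → ℝ → ℝ} {N₁ u L T₀ F E e t w z j : ℝ}

theorem ga_of_gp (h : GP G N₁ u) (hu : 0 ≤ u) (h0 : G L N₁ ≤ T₀)
    (hT : min (2 * N₁) (max (L + N₁ + u) (5 / 3 * N₁ + L / 3)) ≤ T₀) :
    GA G N₁ L T₀ (FF' N₁ L u) :=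
  ⟨FF'_nonneg _ _ _, fun hE he ht hW => h.all hu h0 hT hE he ht hW⟩

theorem GA.mono (h : GA G N₁ L T₀ F) {T₁ F₁ : ℝ} (hT : T₀ ≤ T₁) (hF : F ≤ F₁) :
    GA G N₁ L T₁ F₁ where
  F0 := h.F0.trans hF
  all {E e t W} hE he ht hW := by
    have h1 := h.all hE he ht hW
    have h2 : max 0 (W - F₁) ≤ max 0 (W - F) := max_le_max le_rfl (by linarith)
    linarith

theorem ga_max (h1 : GA G₁ N₁ L T₀ F) (h2 : GA G₂ N₁ L T₀ F) :
    GA (fun v n => max (G₁ v n) (G₂ v n)) N₁ L T₀ F :=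
  ⟨h1.F0, fun hE he ht hW => max_le (h1.all hE he ht hW) (h2.all hE he ht hW)⟩

/-- the bias of class E -/
def GB2 (s₀ nl v n : ℝ) : ℝ := 2 / 3 * v + 5 / 3 * n - max 0 (s₀ - (nl - n))

theorem ga_bias {s₀ nl : ℝ} (hF : 0 ≤ F) (h0 : GB2 s₀ nl L N₁ ≤ T₀) :
    GA (GB2 s₀ nl) N₁ L T₀ F where
  F0 := hF
  all {E e t W} hE he ht hW := by
    unfold GB2 at h0 ⊢
    have h1 : max 0 (s₀ - (nl - N₁)) - e ≤ max 0 (s₀ - (nl - (N₁ - e))) := by
      have he0 : 0 ≤ e := by linarith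
      rcases le_total 0 (s₀ - (nl - N₁)) with h | h
      · rw [max_eq_right h]
        exact le_trans (by linarith) (le_max_right _ _)
      · rw [max_eq_left h]
        exact le_trans (by linarith) (le_max_left _ _)
    have h2 : max 0 (W - F) ≤ W := max_le hW (by linarith)
    linarith

/-- **the premise of `tsdJ`** -/
theorem GA.d (h : GA G N₁ L T₀ F) (hE : 0 ≤ E) (he : E ≤ e) (ht : e ≤ E + t) (hz : 0 ≤ z) :
    G (L - 2 * E - 3 * z) (N₁ - e) ≤ (T₀ - 2 / 3 * E + 2 * t) - 4 / 3 * e := by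
  have h1 := h.all hE he ht hz
  have h2 := le_max_left 0 (z - F)
  linarith

/-- **the premise of `tsrV`, weight `nm c ^ (-1)`** -/
theorem GA.t1 (h : GA G N₁ L T₀ F) (hE : 0 ≤ E) (he : E ≤ e) (ht : e ≤ E + t) (hw : 0 ≤ w)
    (hz : 0 ≤ z) :
    G (L - 2 * E - 3 * w - 3 * z) (N₁ - e) ≤
      (T₀ + min F j - 2 / 3 * E + 2 * t) - min z j - 4 / 3 * e := by
  have h1 := h.all hE he ht (add_nonneg hw hz)
  have e1 : L - 2 * E - 3 * (w + z) = L - 2 * E - 3 * w - 3 * z := by ring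
  rw [e1] at h1
  have h2 := le_max_left 0 (w + z - F)
  have h3 := le_max_right 0 (w + z - F)
  have h4 : min z j ≤ min F j + max 0 (w + z - F) := by
    have a1 := min_le_left z j
    have a2 := min_le_right z j
    rcases min_choice F j with hc | hc
    · rw [hc]; linarith
    · rw [hc]; linarith
  linarith

/-- **the premise of `tsrV`, weight `nm c ^ (-1/2)`** -/
theorem GA.t2 (h : GA G N₁ L T₀ F) (hE : 0 ≤ E) (he : E ≤ e) (ht : e ≤ E + t) (hw : 0 ≤ w)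
    (hz : 0 ≤ z) :
    G (L - 2 * E - 3 * w - 3 * z) (N₁ - e) ≤
      (T₀ + (F + min F j) / 2 - 2 / 3 * E + 2 * t) - min z j - 4 / 3 * e - 1 / 2 * w := by
  have h1 := h.all hE he ht (add_nonneg hw hz)
  have e1 : L - 2 * E - 3 * (w + z) = L - 2 * E - 3 * w - 3 * z := by ring
  rw [e1] at h1
  have h2 := le_max_left 0 (w + z - F)
  have h3 := le_max_right 0 (w + z - F)
  have h4 : min z j + 1 / 2 * w ≤ (F + min F j) / 2 + max 0 (w + z - F) := by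
    have a1 := min_le_left z j
    have a2 := min_le_right z j
    rcases min_choice F j with hc | hc
    · rw [hc]; linarith
    · rw [hc]; linarith
  linarith

end

open Classical in
/-- **the three `T`-functionals of a class** -/
theorem xta (R : ℝ) (hR : 0 ≤ R) {ε : ℝ} (hε : 0 < ε) (K : ℝ) (hK : 1 ≤ K) (M : ℕ) :
    ∃ X₀ : ℝ, 1 < X₀ ∧ ∀ X : ℝ, X₀ ≤ X → ∀ H : ℝ, 1 ≤ H → ∀ (Yw Xw : ℝ), 0 ≤ Yw → 0 < Xw →
      ∀ α : Eis → ℂ, Adm Yw Xw R α → ∀ (G : ℝ → ℝ → ℝ) (nl ε₁ : ℝ),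
      VN X H M (4 * K) α (fun v γ => G v (max 0 (nl - γ)) + ε₁) →
      ∀ L' : ℝ, 0 < L' → L' ≤ X ^ K → ∀ (Es : Finset Eis) (En : ℝ), 1 ≤ En →
      (∀ e ∈ Es, IsPrim e ∧ (nm e : ℝ) ≤ X ^ K ∧ En ≤ nm e ∧ (nm e : ℝ) ≤ 8 * En) →
      ∀ e₀ c₀ : Eis, IsPrim e₀ → c₀ ≠ 0 → (nm e₀ : ℝ) ≤ X ^ K → (nm c₀ : ℝ) ≤ X ^ K →
      ∀ (N₁ L T₀ F : ℝ), N₁ = nl - Real.log (nm e₀) / Real.log X →
      L = Real.log (L' * nm c₀ * nm e₀) / Real.log X + 2 * (Real.log En / Real.log X) →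
      GA G N₁ L T₀ F → L + ε ≤ 2 * N₁ →
      TSD α e₀ c₀ Es L' ≤
          H ^ M * X ^ (T₀ - 2 / 3 * (Real.log En / Real.log X) + ε₁ + ε) * Xw ^ (-(1 / 3) : ℝ) ∧
      ∀ (Ys D : Finset Eis) (Yn : ℝ), 1 ≤ Yn → Yn ≤ X ^ K → (D.card : ℝ) ≤ X ^ (ε / 16) →
        (∀ y ∈ Ys, ∃ a ∈ D, ∃ y' : Eis, IsPrim a ∧ IsPrim y' ∧ (nm y' : ℝ) ≤ Yn ∧ y = a * y') →
        TSR α e₀ c₀ 1 Es Ys L' ≤
          H ^ M * X ^ (T₀ + min F (Real.log Yn / Real.log X) -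
            2 / 3 * (Real.log En / Real.log X) + ε₁ + ε) * Xw ^ (-(1 / 3) : ℝ) ∧
        TSR α e₀ c₀ (1 / 2) Es Ys L' ≤
          H ^ M * X ^ (T₀ + (F + min F (Real.log Yn / Real.log X)) / 2 -
            2 / 3 * (Real.log En / Real.log X) + ε₁ + ε) * Xw ^ (-(1 / 3) : ℝ) := by
  obtain ⟨X₁, hX₁, H1⟩ := TES792.tsdJ R hR (show 0 < ε / 2 by positivity) K hK M
  obtain ⟨X₂, hX₂, H2⟩ := TES792.tsrV R hR (show 0 < ε / 2 by positivity) K hK M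
  -- `2 log 8 ≤ (ε / 4) log X`
  refine ⟨max (max X₁ X₂) (Real.exp (4 * Real.log 8 / ε) + 1),
    lt_of_lt_of_le hX₁ ((le_max_left _ _).trans (le_max_left _ _)), ?_⟩
  intro X hX H hH Yw Xw hYw hXw α hα G nl ε₁ hV L' hL'0 hL'K Es En hEn hEs e₀ c₀ he₀ hc₀ he₀K hc₀K
    N₁ L T₀ F hN₁ hL hG hLN
  have hXX1 : X₁ ≤ X := ((le_max_left _ _).trans (le_max_left _ _)).trans hX
  have hXX2 : X₂ ≤ X := ((le_max_right _ _).trans (le_max_left _ _)).trans hX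
  have hX3 : Real.exp (4 * Real.log 8 / ε) + 1 ≤ X := (le_max_right _ _).trans hX
  have hX1 : 1 < X := lt_of_lt_of_le hX₁ hXX1
  have hX0 : 0 < X := by linarith
  set ℓ := Real.log X with hℓ
  have hℓ0 : 0 < ℓ := Real.log_pos hX1
  set t := Real.log 8 / ℓ with ht
  have h8 : 0 < Real.log 8 := Real.log_pos (by norm_num)
  have ht0 : 0 ≤ t := by positivity
  have ht4 : 4 * t ≤ ε := by
    have h1 : 4 * Real.log 8 / ε ≤ ℓ := by
      rw [hℓ, Real.le_log_iff_exp_le hX0]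
      linarith
    rw [div_le_iff₀ hε] at h1
    rw [ht, ← mul_div_assoc, div_le_iff₀ hℓ0]
    linarith
  set E := Real.log En / ℓ with hE
  have hE0 : 0 ≤ E := div_nonneg (Real.log_nonneg hEn) hℓ0.le
  set lv := Real.log (L' * nm c₀ * nm e₀) / ℓ with hlv
  have hlL : lv = L - 2 * E := by rw [hL]; ring
  -- the divisors
  have hee : ∀ e ∈ Es, E ≤ Real.log (nm e) / ℓ ∧ Real.log (nm e) / ℓ ≤ E + t := by
    intro e he
    obtain ⟨h1, h2, h3, h4⟩ := hEs e he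
    have hen : (0 : ℝ) < nm e := by linarith
    refine ⟨div_le_div_of_nonneg_right (Real.log_le_log (by linarith) h3) hℓ0.le, ?_⟩
    rw [hE, ht, ← add_div]
    refine div_le_div_of_nonneg_right ?_ hℓ0.le
    rw [← Real.log_mul (by linarith) (by norm_num)]
    exact Real.log_le_log hen (by linarith)
  -- the supplied number at a child
  have hF : ∀ e ∈ Es, ∀ y : ℝ, 0 ≤ y → y ≤ lv →
      G y (max 0 (nl - (Real.log (nm e) / ℓ + Real.log (nm e₀) / ℓ))) + ε₁ =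
        G y (N₁ - Real.log (nm e) / ℓ) + ε₁ := by
    intro e he y hy0 hy
    obtain ⟨h1, h2⟩ := hee e he
    have e1 : nl - (Real.log (nm e) / ℓ + Real.log (nm e₀) / ℓ) =
        N₁ - Real.log (nm e) / ℓ := by rw [hN₁]; ring
    rw [e1, max_eq_right]
    linarith
  have hEs' : ∀ e ∈ Es, IsPrim e ∧ (nm e : ℝ) ≤ X ^ K := fun e he =>
    ⟨(hEs e he).1, (hEs e he).2.1⟩
  constructor
  · have h1 := H1 X hXX1 H hH Yw Xw hYw hXw α hα _ hV L' hL'0.le hL'K Es hEs' e₀ c₀ he₀ hc₀ he₀K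
      hc₀K (T₀ - 2 / 3 * E + ε₁ + ε / 2) (fun e he z hz hzl => by
        obtain ⟨k1, k2⟩ := hee e he
        have hzl' : 3 * z ≤ lv := hzl
        have h3 := hF e he (lv - 3 * z) (by linarith) (by linarith)
        have h4 := hG.d hE0 k1 k2 hz
        rw [← hlL] at h4
        show G (lv - 3 * z) (max 0 (nl - (Real.log (nm e) / ℓ + Real.log (nm e₀) / ℓ))) + ε₁ ≤
          T₀ - 2 / 3 * E + ε₁ + ε / 2 - 4 / 3 * (Real.log (nm e) / ℓ)
        rw [h3]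
        linarith)
    refine le_trans (le_of_eq ?_) (h1.trans (le_of_eq ?_))
    · unfold TSD TT
      rfl
    · congr 2
      congr 1
      ring
  · intro Ys D Yn hYn hYnK hD hYs
    have hD' : (D.card : ℝ) ≤ X ^ (ε / 2 / 8) := by
      refine hD.trans (le_of_eq ?_)
      congr 1
      ring
    have key : ∀ (ex Tx : ℝ), (∀ e ∈ Es, ∀ w z : ℝ, 0 ≤ w → 0 ≤ z → 3 * w + 3 * z ≤ lv →
        G (L - 2 * E - 3 * w - 3 * z) (N₁ - Real.log (nm e) / ℓ) ≤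
          (Tx - 2 / 3 * E + 2 * t) - min z (Real.log Yn / ℓ) - 4 / 3 * (Real.log (nm e) / ℓ) -
            (1 - ex) * w) →
        TSR α e₀ c₀ ex Es Ys L' ≤
          H ^ M * X ^ (Tx - 2 / 3 * E + ε₁ + ε) * Xw ^ (-(1 / 3) : ℝ) := by
      intro ex Tx hx
      have h1 := H2 X hXX2 H hH Yw Xw hYw hXw α hα _ hV L' hL'0.le hL'K Es hEs' Ys D Yn hYn hYnK hD'
        hYs e₀ c₀ he₀ hc₀ he₀K hc₀K ex (Tx - 2 / 3 * E + ε₁ + ε / 2)
        (fun e he w z hw hz hzl => by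
          have hzl' : 3 * w + 3 * z ≤ lv := hzl
          have h3 := hF e he (lv - 3 * w - 3 * z) (by linarith) (by linarith)
          have h4 := hx e he w z hw hz hzl'
          rw [← hlL] at h4
          show G (lv - 3 * w - 3 * z)
            (max 0 (nl - (Real.log (nm e) / ℓ + Real.log (nm e₀) / ℓ))) + ε₁ ≤
            Tx - 2 / 3 * E + ε₁ + ε / 2 - min z (Real.log Yn / ℓ) -
              4 / 3 * (Real.log (nm e) / ℓ) - (1 - ex) * w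
          rw [h3]
          linarith)
      refine le_trans (le_of_eq ?_) (h1.trans (le_of_eq ?_))
      · unfold TSR TT
        rfl
      · congr 2
        congr 1
        ring
    refine ⟨key 1 _ fun e he w z hw hz _ => ?_, key (1 / 2) _ fun e he w z hw hz _ => ?_⟩
    · obtain ⟨k1, k2⟩ := hee e he
      have := hG.t1 (j := Real.log Yn / ℓ) hE0 k1 k2 hw hz
      linarith
    · obtain ⟨k1, k2⟩ := hee e he
      have := hG.t2 (j := Real.log Yn / ℓ) hE0 k1 k2 hw hz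
      linarith

open Classical in
/-- **the three `T`-functionals of helper92's class** -/
theorem xta_x (R : ℝ) (hR : 0 ≤ R) {ε : ℝ} (hε : 0 < ε) (K : ℝ) (hK : 1 ≤ K) (M : ℕ) :
    ∃ X₀ : ℝ, 1 < X₀ ∧ ∀ X : ℝ, X₀ ≤ X → ∀ H : ℝ, 1 ≤ H → ∀ (Yw Xw : ℝ), 0 ≤ Yw → 0 < Xw →
      ∀ (x : XF) (cw : ℝ) (n : Fin 12 → ℕ), x.OKx cw → 1 ≤ cw → IsPrim x.e₀ →
      Adm Yw Xw R x.α → ∀ (G : ℝ → ℝ → ℝ) (nl ε₁ : ℝ),
      VN X H M (4 * K) x.α (fun v γ => G v (max 0 (nl - γ)) + ε₁) →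
      x.Ln cw n ≤ X ^ K → 8 * x.En n ≤ X ^ K → (nm x.e₀ : ℝ) ≤ X ^ K → (nm x.c₀ : ℝ) ≤ X ^ K →
      ∀ (N₁ L T₀ F : ℝ), N₁ = nl - Real.log (nm x.e₀) / Real.log X →
      L = Real.log (8 * cw * x.V * nm x.e₀) / Real.log X →
      GA G N₁ L T₀ F → L + ε ≤ 2 * N₁ →
      TSD x.α x.e₀ x.c₀ (x.Ee n) (x.Ln cw n) ≤
          H ^ M * X ^ (T₀ - 2 / 3 * (Real.log (x.En n) / Real.log X) + ε₁ + ε) *
            Xw ^ (-(1 / 3) : ℝ) ∧
      ∀ (A : Eis) (Yb : ℕ) (Ys : Finset Eis), A ≠ 0 → ((dvs A).card : ℝ) ≤ X ^ (ε / 16) →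
        1 ≤ Yb → (Yb : ℝ) ≤ X ^ K →
        (∀ y ∈ Ys, ∃ a ∈ dvs A, ∃ y' ∈ primBall Yb, y = a * y') →
        TSR x.α x.e₀ x.c₀ 1 (x.Ee n) Ys (x.Ln cw n) ≤
          H ^ M * X ^ (T₀ + min F (Real.log Yb / Real.log X) -
            2 / 3 * (Real.log (x.En n) / Real.log X) + ε₁ + ε) * Xw ^ (-(1 / 3) : ℝ) ∧
        TSR x.α x.e₀ x.c₀ (1 / 2) (x.Ee n) Ys (x.Ln cw n) ≤
          H ^ M * X ^ (T₀ + (F + min F (Real.log Yb / Real.log X)) / 2 -
            2 / 3 * (Real.log (x.En n) / Real.log X) + ε₁ + ε) * Xw ^ (-(1 / 3) : ℝ) := by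
  obtain ⟨X₁, hX₁, H1⟩ := xta R hR hε K hK M
  refine ⟨X₁, hX₁, ?_⟩
  intro X hX H hH Yw Xw hYw hXw x cw n hx hcw he₀ hα G nl ε₁ hV hLn hEnK he₀K hc₀K N₁ L T₀ F hN₁ hL
    hG hLN
  have hX1 : 1 < X := lt_of_lt_of_le hX₁ hX
  have hV0 := hx.V0
  have hEn := En_one hx n
  have hEn0 : 0 < x.En n := by linarith
  have hc0 : (0 : ℝ) < nm x.c₀ := by exact_mod_cast nm_pos.2 hx.c0
  have he0 : (0 : ℝ) < nm x.e₀ := by exact_mod_cast nm_pos.2 he₀.ne_zero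
  have hLn0 : 0 < x.Ln cw n := by unfold XF.Ln; positivity
  have hEs : ∀ e ∈ x.Ee n, IsPrim e ∧ (nm e : ℝ) ≤ X ^ K ∧ x.En n ≤ nm e ∧
      (nm e : ℝ) ≤ 8 * x.En n := by
    intro e he
    unfold XF.Ee at he
    rw [mem_filter, mem_primBall] at he
    have h1 : (nm e : ℝ) ≤ 8 * x.En n := (Nat.le_floor_iff (by positivity)).1 he.1.1
    exact ⟨he.1.2, h1.trans hEnK, he.2, h1⟩
  have hL2 : L = Real.log (x.Ln cw n * nm x.c₀ * nm x.e₀) / Real.log X +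
      2 * (Real.log (x.En n) / Real.log X) := by
    have e1 : x.Ln cw n * nm x.c₀ * nm x.e₀ = 8 * cw * x.V * nm x.e₀ / x.En n ^ 2 := by
      unfold XF.Ln
      field_simp
    rw [hL, e1, Real.log_div (by positivity) (by positivity), Real.log_pow]
    push_cast
    ring
  obtain ⟨h1, h2⟩ := H1 X hX H hH Yw Xw hYw hXw x.α hα G nl ε₁ hV (x.Ln cw n) hLn0 hLn (x.Ee n)
    (x.En n) hEn hEs x.e₀ x.c₀ he₀ hx.c0 he₀K hc₀K N₁ L T₀ F hN₁ hL2 hG hLN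
  refine ⟨h1, fun A Yb Ys hA hA' hYb hYbK hYs => ?_⟩
  exact h2 Ys (dvs A) Yb (by exact_mod_cast hYb) hYbK hA' fun y hy => by
    obtain ⟨a, ha, y', hy', e⟩ := hYs y hy
    rw [mem_primBall] at hy'
    exact ⟨a, ha, y', isPrim_of_mem_dvs ha, hy'.2, by exact_mod_cast hy'.1, e⟩

end Crest.Agent.R017.EnX743
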