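import Crest.Agent.R017.XTx_743
import Crest.Agent.R017.E4Tc_918

/-!
# Row 17, block C70, leaf E4, class E (helper743): the number `Gu` of a pure list

* `GuN` : the number of `vn_guX` (body copied), `guN_child`, `guN_h1`, `gp_GuN`
* `c_bd` : `17/100 r + topK + 9/8 d ≤ N`; `far_c` : `v + s + 17/100 r ≤ N1`
* **`own_Gu`**, **`own_Gu'`** : both lists of the difference are `≤ tT + 2/3 d N1`
-/

set_option autoImplicit false
set_option linter.unusedVariables false

noncomputable section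

namespace Crest.Agent.R017.EnX743

open Crest.Agent.R017.R8C918 Crest.Agent.R017.Bx918 Crest.Agent.R017.Tc918

/-- own family, `z` = bound for the lumps, `u` = bound for the smallest lump -/
def KuN (v n z u : ℝ) : ℝ :=
  max (5 / 4 * n) (max (v + n / 2) (max (3 / 2 * v) (min (200 / 61 * z) (n + min u (n / 3)))))

/-- the number of a pure list (`TEX792.Gu`) -/
def GuN (d z u v n : ℝ) : ℝ :=
  min (max (max (2 * n) (v + n)) (4 / 3 * n + (v + KuN v n z u) / 3) + 2 / 3 * d * n)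
    (max (v + n + min u (n / 3)) (5 / 3 * n + v / 3))

lemma KuN_mono {v v' n n' z z' u u' : ℝ} (hv : v ≤ v') (hn : n ≤ n') (hz : z ≤ z')
    (hu : u ≤ u') : KuN v n z u ≤ KuN v' n' z' u' := by
  unfold KuN
  refine max_le_max (by linarith) (max_le_max (by linarith) (max_le_max (by linarith)
    (min_le_min (by linarith) ?_)))
  have : min u (n / 3) ≤ min u' (n' / 3) := min_le_min hu (by linarith)
  linarith

/-- the child rule -/
lemma guN_child {d z u v n ξ : ℝ} (hd : 0 ≤ d) (hξ : 0 ≤ ξ) :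
    GuN d z u (v - 2 * ξ) (n - ξ) ≤ GuN d z u v n - 2 * ξ := by
  have h1 := KuN_mono (show v - 2 * ξ ≤ v by linarith) (show n - ξ ≤ n by linarith)
    (le_refl z) (le_refl u)
  have h2 : 0 ≤ d * ξ := mul_nonneg hd hξ
  have h3 : min u ((n - ξ) / 3) ≤ min u (n / 3) := min_le_min le_rfl (by linarith)
  unfold GuN
  rw [← min_sub_sub_right]
  refine min_le_min ?_ ?_
  · have : max (max (2 * (n - ξ)) (v - 2 * ξ + (n - ξ)))
        (4 / 3 * (n - ξ) + (v - 2 * ξ + KuN (v - 2 * ξ) (n - ξ) z u) / 3) ≤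
        max (max (2 * n) (v + n)) (4 / 3 * n + (v + KuN v n z u) / 3) - 2 * ξ := by
      have m1 : 2 * n ≤ max (max (2 * n) (v + n)) (4 / 3 * n + (v + KuN v n z u) / 3) :=
        (le_max_left _ _).trans (le_max_left _ _)
      have m2 : v + n ≤ max (max (2 * n) (v + n)) (4 / 3 * n + (v + KuN v n z u) / 3) :=
        (le_max_right _ _).trans (le_max_left _ _)
      have m3 : 4 / 3 * n + (v + KuN v n z u) / 3 ≤
        max (max (2 * n) (v + n)) (4 / 3 * n + (v + KuN v n z u) / 3) := le_max_right _ _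
      exact max_le (max_le (by linarith) (by linarith)) (by linarith)
    linarith
  · have m1 : v + n + min u (n / 3) ≤ max (v + n + min u (n / 3)) (5 / 3 * n + v / 3) :=
      le_max_left _ _
    have m2 : 5 / 3 * n + v / 3 ≤ max (v + n + min u (n / 3)) (5 / 3 * n + v / 3) :=
      le_max_right _ _
    exact max_le (by linarith) (by linarith)

/-- the number of the square part -/
lemma guN_h1 {d z u v n ξ : ℝ} (hξ : 0 ≤ ξ) (hv : 2 * ξ ≤ v) :
    GuN d z u (v - 2 * ξ) (n - ξ) ≤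
      max (v + n + min u (n / 3)) (5 / 3 * n + 2 / 3 * v) - 3 * ξ := by
  have h3 : min u ((n - ξ) / 3) ≤ min u (n / 3) := min_le_min le_rfl (by linarith)
  have m1 : v + n + min u (n / 3) ≤ max (v + n + min u (n / 3)) (5 / 3 * n + 2 / 3 * v) :=
    le_max_left _ _
  have m2 : 5 / 3 * n + 2 / 3 * v ≤ max (v + n + min u (n / 3)) (5 / 3 * n + 2 / 3 * v) :=
    le_max_right _ _
  refine (min_le_right _ _).trans (max_le (by linarith) (by linarith))

lemma guN_mono {d z u v v' n : ℝ} (hv : v ≤ v') : GuN d z u v n ≤ GuN d z u v' n := by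
  have h1 := KuN_mono hv (le_refl n) (le_refl z) (le_refl u)
  unfold GuN
  refine min_le_min ?_ (max_le_max (by linarith) (by linarith))
  have : max (max (2 * n) (v + n)) (4 / 3 * n + (v + KuN v n z u) / 3) ≤
      max (max (2 * n) (v' + n)) (4 / 3 * n + (v' + KuN v' n z u) / 3) :=
    max_le_max (max_le_max le_rfl (by linarith)) (by linarith)
  linarith

lemma guN_slope {d z u v σ n : ℝ} (hσ : 0 ≤ σ) : GuN d z u (v + σ) n ≤ GuN d z u v n + σ := by
  have k1 : 5 / 4 * n ≤ KuN v n z u := le_max_left _ _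
  have k2 : v + n / 2 ≤ KuN v n z u := (le_max_left _ _).trans (le_max_right _ _)
  have k3 : 3 / 2 * v ≤ KuN v n z u :=
    (le_max_left _ _).trans ((le_max_right _ _).trans (le_max_right _ _))
  have k4 : min (200 / 61 * z) (n + min u (n / 3)) ≤ KuN v n z u :=
    (le_max_right _ _).trans ((le_max_right _ _).trans (le_max_right _ _))
  have hK : KuN (v + σ) n z u ≤ KuN v n z u + 3 / 2 * σ :=
    max_le (by linarith) (max_le (by linarith) (max_le (by linarith) (by linarith)))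
  unfold GuN
  rw [min_add]
  refine min_le_min ?_ ?_
  · have m1 : 2 * n ≤ max (max (2 * n) (v + n)) (4 / 3 * n + (v + KuN v n z u) / 3) :=
      (le_max_left _ _).trans (le_max_left _ _)
    have m2 : v + n ≤ max (max (2 * n) (v + n)) (4 / 3 * n + (v + KuN v n z u) / 3) :=
      (le_max_right _ _).trans (le_max_left _ _)
    have m3 : 4 / 3 * n + (v + KuN v n z u) / 3 ≤
      max (max (2 * n) (v + n)) (4 / 3 * n + (v + KuN v n z u) / 3) := le_max_right _ _
    have : max (max (2 * n) (v + σ + n)) (4 / 3 * n + (v + σ + KuN (v + σ) n z u) / 3) ≤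
        max (max (2 * n) (v + n)) (4 / 3 * n + (v + KuN v n z u) / 3) + σ :=
      max_le (max_le (by linarith) (by linarith)) (by linarith)
    linarith
  · have m1 : v + n + min u (n / 3) ≤ max (v + n + min u (n / 3)) (5 / 3 * n + v / 3) :=
      le_max_left _ _
    have m2 : 5 / 3 * n + v / 3 ≤ max (v + n + min u (n / 3)) (5 / 3 * n + v / 3) :=
      le_max_right _ _
    exact max_le (by linarith) (by linarith)

/-- **the rules** -/
theorem gp_GuN {d z u N₁ : ℝ} (hd : 0 ≤ d) : GP (fun v n => GuN d z u v n) N₁ (min u (N₁ / 3)) where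
  child v n e he := guN_child hd he
  mono v v' n hv := guN_mono hv
  slope v σ n hσ := guN_slope hσ
  triv v n hn := by
    show GuN d z u v n ≤ _
    unfold GuN TB
    refine (min_le_right _ _).trans (max_le_max ?_ le_rfl)
    have : min u (n / 3) ≤ min u (N₁ / 3) := min_le_min le_rfl (by linarith)
    linarith

/-- the second bound of `T₀` -/
lemma low_GuN {d z u L N₁ : ℝ} (hd : 0 ≤ d) (hN : 0 ≤ N₁) :
    min (2 * N₁) (max (L + N₁ + min u (N₁ / 3)) (5 / 3 * N₁ + L / 3)) ≤ GuN d z u L N₁ := by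
  unfold GuN
  refine min_le_min ?_ le_rfl
  have m1 : 2 * N₁ ≤ max (max (2 * N₁) (L + N₁)) (4 / 3 * N₁ + (L + KuN L N₁ z u) / 3) :=
    (le_max_left _ _).trans (le_max_left _ _)
  have m2 : 0 ≤ 2 / 3 * d * N₁ := by positivity
  linarith

variable {μ d r N M u a c x v : ℝ}

set_option maxHeartbeats 4000000 in
/-- the lump of the bias is short -/
theorem c_bd (B : Bx4 μ d r N M u a c x v) :
    17 / 100 * r + E4R70.topK N x + 9 / 8 * d ≤ N := by
  have b1 := B.near
  have b2 := B.μd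
  have b3 := B.d42
  have b4 := B.d0
  have b5 := B.r1
  have b6 := B.D
  have b7 := B.a0
  have b8 := B.MN
  have b9 := B.N34
  have b10 := B.cr
  have b11 := B.P
  have b12 := B.c0
  have b13 := B.r28
  have b14 := B.N84
  have b15 := B.u5
  have b16 := B.q43
  have b17 := B.Mu
  have b18 := B.a12
  have ht : E4R70.topK N x ≤ 2 * N - 1 + 9 / 4 * x := by
    unfold E4R70.topK
    have := min_le_left (2 * N - 1) (3 / 4 * N)
    linarith
  have ht2 : E4R70.topK N x ≤ 3 / 4 * N + 9 / 4 * x := by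
    unfold E4R70.topK
    have := min_le_right (2 * N - 1) (3 / 4 * N)
    linarith
  have n0 := na_third B (y := 0) ⟨le_rfl, B.c0, Or.inl rfl⟩
  have m0 := na_second B (y := 0) ⟨le_rfl, B.c0, Or.inl rfl⟩
  have he : max 0 (max (5 / 4 * N - 1) (N + u - 1)) = 0 ∨
      max 0 (max (5 / 4 * N - 1) (N + u - 1)) = 5 / 4 * N - 1 ∨
      max 0 (max (5 / 4 * N - 1) (N + u - 1)) = N + u - 1 := by
    rcases max_choice 0 (max (5 / 4 * N - 1) (N + u - 1)) with h | h
    · exact Or.inl h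
    · rcases max_choice (5 / 4 * N - 1) (N + u - 1) with h' | h'
      · exact Or.inr (Or.inl (h.trans h'))
      · exact Or.inr (Or.inr (h.trans h'))
  have he0 : 0 ≤ max 0 (max (5 / 4 * N - 1) (N + u - 1)) := le_max_left _ _
  have he1 : 5 / 4 * N - 1 ≤ max 0 (max (5 / 4 * N - 1) (N + u - 1)) :=
    (le_max_left _ _).trans (le_max_right _ _)
  have he2 : N + u - 1 ≤ max 0 (max (5 / 4 * N - 1) (N + u - 1)) :=
    (le_max_right _ _).trans (le_max_right _ _)
  rcases B.shr with hx | ⟨hx1, hx2, hx3⟩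
  · subst hx
    have hn := B.need
    generalize max 0 (max (5 / 4 * N - 1) (N + u - 1)) = e at *
    rcases max_cases 0 (a + c - 0 - 7 / 9 * (1 - M)) with ⟨e1, e2⟩ | ⟨e1, e2⟩ <;>
    rw [e1] at n0 m0 <;> rcases he with he | he | he <;> rcases le_total N (4 / 5) with h | h <;>
    linarith
  · have hx0 := B.adm.1
    have n1 := na_third B (y := 4 / 5 - N) ⟨by linarith, by linarith, Or.inr (by linarith)⟩
    have m1 := na_second B (y := 4 / 5 - N) ⟨by linarith, by linarith, Or.inr (by linarith)⟩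
    have hn := B.need
    generalize max 0 (max (5 / 4 * N - 1) (N + u - 1)) = e at *
    rcases max_cases 0 (a + c - 7 / 9 * (1 - M)) with ⟨f1, f2⟩ | ⟨f1, f2⟩ <;>
    rw [f1] at hn <;>
    rcases max_cases 0 (a + c - 0 - 7 / 9 * (1 - M)) with ⟨e1, e2⟩ | ⟨e1, e2⟩ <;>
    rw [e1] at n0 m0 <;>
    rcases max_cases 0 (a + c - (4 / 5 - N) - 7 / 9 * (1 - M)) with ⟨e7, e8⟩ | ⟨e7, e8⟩ <;>
    rw [e7] at n1 m1 <;>
    rcases he with he | he | he <;> linarith

/-- **the lump of the bias costs nothing** -/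
lemma far_c (B : Bx4 μ d r N M u a c x v) {z : E4R70.Cls}
    (h : z.Ok d r N M a c x) : z.v + z.s + 17 / 100 * r ≤ z.N1 N := by
  have h3 := c_bd B
  have h4 := h.hb
  have h5 := h.hs
  have h6 := h.v
  have h7 := h.s
  have h8 := h.β
  have h9 := h.h64
  unfold E4R70.Cls.N1
  linarith

/-- **the list of the difference with the smallest lump `≤ u`** -/
theorem own_Gu (B : Bx4 μ d r N M u a c x v) {z : E4R70.Cls} (h : z.Ok d r N M a c x)
    {y κ₀ δ L n z₁ u' : ℝ} (h1 : y ≤ N - 2 * u) (h2 : 2 * y ≤ M) (hκ : 0 ≤ κ₀) (hδ : 0 ≤ δ)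
    (hn : n ≤ κ₀ * z.N1 N + δ) (hL : L ≤ κ₀ * (z.v + z.s) + δ) (hz : z₁ ≤ κ₀ * y + δ)
    (hu : u' ≤ κ₀ * u + δ) :
    GuN d z₁ u' L n ≤ κ₀ * (z.tT N u + 2 / 3 * d * z.N1 N) + 5 * δ := by
  refine le_trans ?_ (own_Gq B h h1 h2 hκ hδ hn hL hz hu)
  unfold GuN
  refine min_le_min ?_ le_rfl
  have hK : KuN L n z₁ u' ≤ Ko n L z₁ := by
    unfold KuN Ko
    exact max_le_max le_rfl (max_le_max le_rfl (max_le_max le_rfl (min_le_left _ _)))
  have : max (max (2 * n) (L + n)) (4 / 3 * n + (L + KuN L n z₁ u') / 3) ≤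
      max (max (2 * n) (L + n)) (4 / 3 * n + (L + Ko n L z₁) / 3) :=
    max_le_max le_rfl (by linarith)
  linarith

/-- **the list of the difference with the lump of the bias** -/
theorem own_Gu' (B : Bx4 μ d r N M u a c x v) {z : E4R70.Cls}
    (h : z.Ok d r N M a c x) {κ₀ δ L n z₁ u' : ℝ} (hκ : 0 ≤ κ₀) (hδ : 0 ≤ δ)
    (hn : n ≤ κ₀ * z.N1 N + δ) (hL : L ≤ κ₀ * (z.v + z.s) + δ)
    (hu : u' ≤ κ₀ * (17 / 100 * r) + δ) :
    GuN d z₁ u' L n ≤ κ₀ * (z.tT N u + 2 / 3 * d * z.N1 N) + 5 * δ := by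
  have e1 := mul_le_mul_of_nonneg_left (lev_le B h) hκ
  have e2 := mul_le_mul_of_nonneg_left (far_c B h) hκ
  have m1 : κ₀ * (2 * z.N1 N) ≤ κ₀ * z.tM N := mul_le_mul_of_nonneg_left (le_max_left _ _) hκ
  have m2 : κ₀ * (3 / 2 * z.N1 N + 2 / 3 * (z.v + z.s)) ≤ κ₀ * z.tM N :=
    mul_le_mul_of_nonneg_left (le_max_right _ _) hκ
  have m3 : κ₀ * (z.v + z.s + z.N1 N + z.u1 N u) ≤ κ₀ * z.tB N u :=
    mul_le_mul_of_nonneg_left (le_max_left _ _) hκ
  have m4 : κ₀ * (5 / 3 * z.N1 N + (z.v + z.s) / 3) ≤ κ₀ * z.tB N u :=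
    mul_le_mul_of_nonneg_left (le_max_right _ _) hκ
  have hd := B.d0
  have hN1 : 0 ≤ z.N1 N := by
    have := lev_le B h
    have := h.v
    have := h.s
    linarith
  have hκN : 0 ≤ κ₀ * z.N1 N := mul_nonneg hκ hN1
  have hκs : 0 ≤ κ₀ * (z.v + z.s) := mul_nonneg hκ (add_nonneg h.v h.s)
  have hru : 17 / 100 * r ≤ u := by
    have b1 := B.r28
    have b2 := B.u0
    linarith
  have hκr := mul_le_mul_of_nonneg_left hru hκ
  have qu : min u' (n / 3) ≤ κ₀ * z.u1 N u + δ := by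
    have e : κ₀ * z.u1 N u = min (κ₀ * u) (κ₀ * (z.N1 N / 3)) := by
      unfold E4R70.Cls.u1
      rw [mul_min_of_nonneg _ _ hκ]
    rw [e, ← min_add_add_right]
    exact min_le_min (by linarith) (by linarith)
  have hK : KuN L n z₁ u' ≤ 3 * (κ₀ * z.tM N + 4 * δ - 4 / 3 * n) - L := by
    unfold KuN
    have q1 : min (200 / 61 * z₁) (n + min u' (n / 3)) ≤ n + u' := by
      have := min_le_left u' (n / 3)
      exact (min_le_right _ _).trans (by linarith)
    refine max_le ?_ (max_le ?_ (max_le ?_ (q1.trans ?_)))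
    · rcases le_total (κ₀ * (z.v + z.s)) (3 / 4 * (κ₀ * z.N1 N)) with h | h <;> linarith
    · linarith
    · linarith
    · linarith
  have r1 : d * n ≤ d * (κ₀ * z.N1 N + δ) := mul_le_mul_of_nonneg_left hn hd
  have r2 : d * δ ≤ 1 / 42 * δ := mul_le_mul_of_nonneg_right B.d42 hδ
  have r3 : 0 ≤ d * (κ₀ * z.N1 N) := mul_nonneg hd hκN
  have hA : max (max (2 * n) (L + n)) (4 / 3 * n + (L + KuN L n z₁ u') / 3) + 2 / 3 * d * n ≤
      κ₀ * z.tM N + κ₀ * (2 / 3 * d * z.N1 N) + 5 * δ := by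
    have : max (max (2 * n) (L + n)) (4 / 3 * n + (L + KuN L n z₁ u') / 3) ≤
        κ₀ * z.tM N + 4 * δ := by
      refine max_le (max_le ?_ ?_) ?_ <;> linarith
    nlinarith
  have hB : max (L + n + min u' (n / 3)) (5 / 3 * n + L / 3) ≤
      κ₀ * z.tB N u + κ₀ * (2 / 3 * d * z.N1 N) + 5 * δ := by
    refine max_le ?_ ?_ <;> nlinarith
  have e : κ₀ * (z.tT N u + 2 / 3 * d * z.N1 N) + 5 * δ =
      min (κ₀ * z.tM N + κ₀ * (2 / 3 * d * z.N1 N) + 5 * δ)
        (κ₀ * z.tB N u + κ₀ * (2 / 3 * d * z.N1 N) + 5 * δ) := by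
    unfold E4R70.Cls.tT
    rw [min_add_add_right, min_add_add_right, ← mul_min_of_nonneg _ _ hκ]
    ring
  rw [e]
  unfold GuN
  exact min_le_min hA hB

end Crest.Agent.R017.EnX743
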