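import Crest.Agent.R017.XTt_743
import Crest.Agent.R017.XTy_743
import Crest.Agent.R017.XVNc_792
import Crest.Agent.R017.E4ScE_266
import Crest.Agent.R017.E4Uz_512
import Crest.Agent.R017.E4Re_918

/-!
# Row 17, block C70, leaf E4, class E (helper743): the `T`-numbers of a class at the frame

* `VNE` : `vn_guX` (class E) as a Prop
* `ldx_of` : the lists of the difference at the data
* `cls_realX` : the real numbers of a class, value `tE`
* **`tn_xfX`** : `TSD`, `TSR .. 1`, `TSR .. (1/2)` of helper92's class at the data of class E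
-/

set_option autoImplicit false
set_option linter.unusedVariables false

noncomputable section

open Finset

namespace Crest.Agent.R017.EnX743

open Crest.Agent.R012 Crest.Agent.R012.Eis
open Crest.Agent.R012.LS2 (mem_S)
open Crest.Agent.R012.Div277 (dvs mem_dvs isPrim_of_mem_dvs tau tau_le_rpow)
open Crest.Agent.R017.GrB829 (IsC)
open Crest.Agent.R017.FE47 (PU SM cx)
open Crest.Agent.R017.C70 (OKJ)
open Crest.Agent.R017.HP842 (pc)
open Crest.Agent.R017.B770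
open Crest.Agent.R017.Prov71
open Crest.Agent.R017.E5B71
open Crest.Agent.R017.E5L770
open Crest.Agent.R017.E5LX770 (SqLX)
open Crest.Agent.R017.ExP960 hiding alX
open Crest.Agent.R017.E5k54 (alb)
open Crest.Agent.R017.E1551 (Adm)
open Crest.Agent.R017.E4U164
open Crest.Agent.R017.E4Df372
open Crest.Agent.R017.E4R70
open Crest.Agent.R017.E4Dic352
open Crest.Agent.R017.E4St352
open Crest.Agent.R017.E4SE266 (qX dn_qX frVX)
open Crest.Agent.R017.Bx918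
open Crest.Agent.R017.Tc918
open Crest.Agent.R017.TEM792 (VN nL Xn)
open Crest.Agent.R017.TEX792 (LDX Sv adm_alX)
open Crest.Agent.R017.VFa436 (us3 T3_spec)
open Crest.Agent.R017.E4Us512 (Fr FrY nm_beta_le bdd_PU Y3_le fr_of_frLX)
open Crest.Agent.R017.XHn512 (TrNum tr_num)
open Crest.Agent.R017.E4X92

/-- **`vn_guX` of class E** -/
def VNE {Λ : Type*} (π : Λ → DPar) (h : ℝ → ℝ) (d : ℝ) : Prop :=
  ∀ ε : ℝ, 0 < ε → ∀ K : ℝ, 1 ≤ K → ∀ lam : Λ, ∃ M₀ : ℕ, ∀ M : ℕ, M₀ ≤ M →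
    ∀ t : Eis, t ∈ SM (π lam).n → ∃ X₀ : ℝ, 1 < X₀ ∧ ∀ X : ℝ, X₀ ≤ X → ∀ H₀ : ℝ, 1 ≤ H₀ →
    ∀ (a : BdX) (β : Fin 3 → Eis) (s₀ : ℝ), LDX X K H₀ s₀ a β → ∀ z u z' u' : ℝ,
      (∀ i, (u3 a i).z / Real.log X ≤ z) → (∃ i, (u3 a i).z / Real.log X ≤ u) →
      (∀ i, (u3' a i).z / Real.log X ≤ z') → (∃ i, (u3' a i).z / Real.log X ≤ u') →
      VN X H₀ M K (E4Df372.alX (π lam) h t a β) (fun v γ => max
        (max (GuN d z u v (max 0 (nL X (u3 a) β - γ)))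
          (GuN d z' u' v (max 0 (nL X (u3 a) β - γ))))
        (2 / 3 * v + 5 / 3 * (nL X (u3 a) β - γ) - max 0 (s₀ - γ)) + ε)

/-! ### the lists of the difference -/

lemma u3_mem (a : BdX) (i : Fin 3) : ∃ j : Fin 5, u3 a i = a.us j := by
  fin_cases i
  · exact ⟨2, rfl⟩
  · exact ⟨3, rfl⟩
  · exact ⟨4, rfl⟩

/-- **the lists of the difference at the data** -/
theorem ldx_of {A d bb δ δ' B X : ℝ} {N : ℕ} {a : BdX × ℕ} {ps : List Pq}
    {q : (Option IX5 → ℝ) × (Kd → ℝ)} (hX : 1 < X) (H : FrLX A d bb δ δ' B X N a ps q)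
    (ha : a.1.ok) (hbb : bb = 17 / 100) (hδ0 : 0 ≤ δ) (hδ : δ ≤ 1 / 100)
    (hκ : 8 / 9 ≤ cκ (prX (dn q.1)))
    (hc4 : 2 / 9 * cκ (prX (dn q.1)) ≤ cu (prX (dn q.1)) 4)
    (hc3 : cu (prX (dn q.1)) 4 ≤ cu (prX (dn q.1)) 3)
    (hc2 : cu (prX (dn q.1)) 3 ≤ cu (prX (dn q.1)) 2)
    {K : ℝ} (hBK : B ≤ K) (hz : ∀ j, (a.1.us j).z ≤ K * Real.log X)
    (hzs : ∀ j, a.1.zs j ≤ K * Real.log X)
    {β : Fin 3 → Eis} (hβ : ∀ i, IsPrim (β i)) (hβX : ∀ i, (nm (β i) : ℝ) ≤ X ^ K) {s₀ : ℝ}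
    (hs : s₀ * Real.log X ≤ (bb * cκ (prX (dn q.1)) - δ) * Real.log X -
      Real.log (nm (∏ i, β i))) :
    LDX X K (X ^ δ') s₀ a.1 β := by
  have hL : 0 < Real.log X := Real.log_pos hX
  have hs1 : (S5X).s₁ a.1 ≤ X ^ δ' := H.win.s₁
  have hs2 : (S5X).s₂ a.1 ≤ X ^ B := H.win.s₂
  have hzr : ZR bb (dn q.1) := by
    have hdom := H.dom
    unfold SqLX DomL at hdom
    exact hdom.1.2
  have hz2 := hzr 1
  have nz2 : |a.1.zs 2 / Real.log X - dn q.1 (.inr 1)| ≤ δ := H.win.ev (some (.inr 1))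
  have nu : ∀ i, |(a.1.us i).z / Real.log X - cu (prX (dn q.1)) i| ≤ δ := fun i =>
    H.win.ev (some (.inl (.inr i)))
  have low : ∀ {y c : ℝ}, |y / Real.log X - c| ≤ δ → (c - δ) * Real.log X ≤ y ∧
      y ≤ (c + δ) * Real.log X := by
    intro y c h
    obtain ⟨h1, h2⟩ := abs_le.mp h
    constructor
    · rw [← le_div_iff₀ hL]; linarith
    · rw [← div_le_iff₀ hL]; linarith
  obtain ⟨z1, z2⟩ := low nz2
  obtain ⟨p1, p2⟩ := low (nu 2)
  obtain ⟨q1, q2⟩ := low (nu 3)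
  have hlb : ∀ i, Real.log (nm (β i)) ≤ Real.log (nm (∏ i, β i)) := by
    intro i
    have h1 : nm (β i) ≤ nm (∏ i, β i) := Div277.nm_le_of_dvd (HP842.isPrim_prod hβ).ne_zero
      (Finset.dvd_prod_of_mem β (Finset.mem_univ i))
    have h2 : (nm (β i) : ℝ) ≤ nm (∏ i, β i) := by exact_mod_cast h1
    exact Real.log_le_log (by exact_mod_cast nm_pos.2 (hβ i).ne_zero) h2
  have c2 : bb * cκ (prX (dn q.1)) ≤ cu (prX (dn q.1)) 2 := by rw [hbb]; linarith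
  have c3 : bb * cκ (prX (dn q.1)) ≤ cu (prX (dn q.1)) 3 := by rw [hbb]; linarith
  have c23 : bb * cκ (prX (dn q.1)) - δ ≤ cu (prX (dn q.1)) 2 + cu (prX (dn q.1)) 3 - 2 * δ -
      (dn q.1 (.inr 1) + δ) := by
    have := hz2.2
    rw [hbb] at this ⊢
    linarith
  have m2 := mul_le_mul_of_nonneg_right c2 hL.le
  have m3 := mul_le_mul_of_nonneg_right c3 hL.le
  have m23 := mul_le_mul_of_nonneg_right c23 hL.le
  have mz := mul_le_mul_of_nonneg_right hz2.1 hL.le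
  have hs23 := ha.s23
  refine ⟨ha, fun i => ?_, fun i => ?_, fun i => ?_, fun i => ?_, hβ, hβX, ⟨?_, ?_, ?_, ?_⟩⟩
  · obtain ⟨j, e⟩ := u3_mem a.1 i
    rw [e]; exact hz j
  · fin_cases i
    · exact hzs 2
    · exact hzs 3
    · exact hz 4
  · obtain ⟨j, e⟩ := u3_mem a.1 i
    have h1 : Dq.s1 (a.1.us j) ≤ XT71.mx Dq.s1 (List.ofFn a.1.us) :=
      XT71.le_mx (List.mem_ofFn.2 ⟨j, rfl⟩)
    have h2 : XT71.mx Dq.s1 (List.ofFn a.1.us) ≤ (S5X).s₁ a.1 := le_max_right _ _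
    rw [e]
    exact (h1.trans h2).trans hs1
  · obtain ⟨j, e⟩ := u3_mem a.1 i
    have h1 : Dq.s2 (a.1.us j) ≤ XT71.mx Dq.s2 (List.ofFn a.1.us) :=
      XT71.le_mx (List.mem_ofFn.2 ⟨j, rfl⟩)
    have h2 : XT71.mx Dq.s2 (List.ofFn a.1.us) ≤ (S5X).s₂ a.1 := le_max_right _ _
    rw [e]
    exact ((h1.trans h2).trans hs2).trans (Real.rpow_le_rpow_of_exponent_le hX.le hBK)
  · have := hlb 0
    linarith
  · have := hlb 1
    linarith
  · have := hlb 0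
    linarith
  · have := hlb 1
    linarith

/-! ### the real numbers -/

lemma FF'_mono {N₁ L u u' : ℝ} (h : u ≤ u') : FF' N₁ L u ≤ FF' N₁ L u' := by
  unfold FF'
  exact max_le_max le_rfl (by linarith)

/-- **the real numbers of a class, value `tE`** -/
lemma cls_realX {μ d r N' M' u a' c' x' v' κ₀ η lv e nl w lc y z₂ s₀ : ℝ} {z' : E4R70.Cls}
    (BX : Bx4 μ d r N' M' u a' c' x' v') (hr : κ₀ * r = 1)
    (hok : z'.Ok d r N' M' a' c' x')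
    (y1 : y ≤ N' - 2 * u) (y2 : 2 * y ≤ M') (hκ89 : 8 / 9 ≤ κ₀) (hη : 0 < η)
    (hη1 : η ≤ 1 / 100) (hTr : TrNum κ₀ η lv e nl w z' N') (hc : lc ≤ η)
    (hs₀ : κ₀ * (17 / 100 - z'.β) - 2 * η ≤ s₀) (he : e ≤ κ₀ * z'.s + η) :
    0 ≤ nl - e ∧ lv + e + lc + 1 / 5 ≤ 2 * (nl - e) ∧
    GuN d (κ₀ * y + η) (κ₀ * u + η) (lv + e + lc) (nl - e) ≤
      κ₀ * (z'.tE N' u + 2 / 3 * d * z'.N1 N') + 25 * η ∧
    GuN d z₂ (17 / 100 + η) (lv + e + lc) (nl - e) ≤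
      κ₀ * (z'.tE N' u + 2 / 3 * d * z'.N1 N') + 25 * η ∧
    GB2 s₀ nl (lv + e + lc) (nl - e) ≤
      κ₀ * (z'.tE N' u + 2 / 3 * d * z'.N1 N') + 25 * η ∧
    0 ≤ min (κ₀ * u + η) ((nl - e) / 3) ∧ 0 ≤ min (17 / 100 + η) ((nl - e) / 3) ∧
    FF' (nl - e) (lv + e + lc) (min (κ₀ * u + η) ((nl - e) / 3)) ≤
      κ₀ * z'.fF N' u + 5 * η ∧
    FF' (nl - e) (lv + e + lc) (min (17 / 100 + η) ((nl - e) / 3)) ≤
      κ₀ * z'.fF N' u + 5 * η := by
  have hκ0 : 0 < κ₀ := by linarith only [hκ89]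
  have hlev := lev_le BX hok
  have hx36 : x' ≤ 1 / 36 := by
    have h1 := BX.d0
    rcases BX.shr with h | ⟨h, -, -⟩ <;> linarith only [h, h1]
  have hN1p : 9 / 20 ≤ z'.N1 N' := by
    have b1 := hok.hβ
    have b2 := hok.h64
    unfold E4R70.Cls.N1
    linarith only [b1, b2, hx36]
  have hκn : 2 / 5 ≤ κ₀ * z'.N1 N' := by
    calc (2 / 5 : ℝ) = 8 / 9 * (9 / 20) := by norm_num
      _ ≤ κ₀ * z'.N1 N' := by gcongr
  have hκlev : κ₀ * (z'.v + z'.s) ≤ κ₀ * z'.N1 N' := mul_le_mul_of_nonneg_left hlev hκ0.le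
  have t1 := hTr.hL
  have t2 := hTr.hN1
  have t3 := hTr.hN1'
  have hn0 : 0 ≤ nl - e := by linarith only [t3, hκn, hη1]
  have hL4 : lv + e + lc ≤ κ₀ * (z'.v + z'.s) + 4 * η := by linarith only [t1, hc]
  have hu0 : 0 ≤ κ₀ * u := mul_nonneg hκ0.le (by linarith only [BX.u0])
  have hu17 : 17 / 100 ≤ κ₀ * u := by
    calc (17 / 100 : ℝ) ≤ 8 / 9 * (2 / 9) := by norm_num
      _ ≤ κ₀ * u := mul_le_mul hκ89 BX.u0 (by norm_num) hκ0.le
  have hu1 : min (κ₀ * u + η) ((nl - e) / 3) ≤ κ₀ * z'.u1 N' u + 2 * η :=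
    u1_le hκ0.le (by linarith only [hη]) (by linarith only [t2, hη])
  have hu2 : min (17 / 100 + η) ((nl - e) / 3) ≤ min (κ₀ * u + η) ((nl - e) / 3) :=
    min_le_min (by linarith only [hu17]) le_rfl
  have hFF : FF' (nl - e) (lv + e + lc) (min (κ₀ * u + η) ((nl - e) / 3)) ≤
      κ₀ * z'.fF N' u + 5 * η :=
    FF'_le hκ0.le (by linarith only [hη]) (by linarith only [hL4, hη]) t3
      (by linarith only [hu1, hη])
  have htE : κ₀ * z'.tT N' u ≤ κ₀ * z'.tE N' u :=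
    mul_le_mul_of_nonneg_left (le_max_left _ _) hκ0.le
  have htB : κ₀ * z'.tb N' ≤ κ₀ * z'.tE N' u :=
    mul_le_mul_of_nonneg_left (le_max_right _ _) hκ0.le
  have hdN : 0 ≤ κ₀ * (2 / 3 * d * z'.N1 N') := by
    have h1 := BX.d0
    have h2 : 0 ≤ z'.N1 N' := by linarith only [hN1p]
    positivity
  have e17 : κ₀ * (17 / 100 * r) = 17 / 100 := by
    calc κ₀ * (17 / 100 * r) = 17 / 100 * (κ₀ * r) := by ring
      _ = 17 / 100 := by rw [hr, mul_one]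
  refine ⟨hn0, by linarith only [hL4, hκlev, hκn, t3, hη1], ?_, ?_, ?_,
    le_min (by linarith only [hu0, hη]) (by linarith only [hn0]),
    le_min (by linarith only [hη]) (by linarith only [hn0]), hFF,
    (FF'_mono hu2).trans hFF⟩
  · have := own_Gu (L := lv + e + lc) (n := nl - e) (z₁ := κ₀ * y + η) (u' := κ₀ * u + η)
      (δ := 5 * η) BX hok y1 y2 hκ0.le (by linarith only [hη]) t2
      (by linarith only [hL4, hη]) (by linarith only [hη]) (by linarith only [hη])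
    linarith only [this, htE]
  · have := own_Gu' (L := lv + e + lc) (n := nl - e) (z₁ := z₂) (u' := 17 / 100 + η)
      (δ := 5 * η) BX hok hκ0.le (by linarith only [hη]) t2
      (by linarith only [hL4, hη]) (by rw [e17]; linarith only [hη])
    linarith only [this, htE]
  · have e1 : κ₀ * z'.sg = max 0 (κ₀ * (17 / 100 - z'.β - z'.s)) := by
      unfold E4R70.Cls.sg
      rw [mul_max_of_nonneg _ _ hκ0.le, mul_zero]
    have e2 : κ₀ * z'.tb N' = 2 / 3 * (κ₀ * (z'.v + z'.s)) + 5 / 3 * (κ₀ * z'.N1 N') -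
        κ₀ * z'.sg := by
      unfold E4R70.Cls.tb
      ring
    have e3 : κ₀ * z'.sg - 3 * η ≤ max 0 (s₀ - e) := by
      rw [e1]
      rcases max_choice 0 (κ₀ * (17 / 100 - z'.β - z'.s)) with h | h
      · rw [h]
        exact le_trans (by linarith only [hη]) (le_max_left _ _)
      · rw [h]
        exact le_trans (by linarith only [hs₀, he]) (le_max_right _ _)
    unfold GB2
    rw [show nl - (nl - e) = e by ring]
    linarith only [hL4, t2, e2, e3, htB, hdN, hη]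

variable {Λ : Type*}

set_option maxHeartbeats 4000000 in
/-- **the `T`-numbers of a class at the data, class E** : `y` = helper92's frame -/
theorem tn_xfX {π : Λ → DPar} {h : ℝ → ℝ} {c₀ : ℝ} (hh : PU h c₀) {A d : ℝ}
    (hV : VNE π h d) (hd : 0 ≤ d) (hd1 : d ≤ 1 / 42) (hA0 : 2 / 3 ≤ A) (hA : A ≤ 1)
    (hA1 : 16 * (1 - A) ≤ d) {bb : ℝ} (hbb : bb = 17 / 100) (e0 r : ℝ)
    (Bf : ℕ → ℝ → ℝ → ℝ → ℝ) {ε : ℝ} (hε : 0 < ε) :
    ∃ η : ℝ, 0 < η ∧ ∀ cw : ℝ, 1 ≤ cw →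
    ∀ (lam : Λ × Eis) (N : ℕ) (B K₀ : ℝ), lam.2 ∈ SM (π lam.1).n →
    ∃ δ' : ℝ, 0 < δ' ∧ ∃ X₀ : ℝ, 1 < X₀ ∧ ∀ X : ℝ, X₀ ≤ X → ∀ δ ε' : ℝ, δ ≤ η → ε' ≤ η →
    ∀ (a : BdX × ℕ) (ps : List Pq) (q : (Option IX5 → ℝ) × (Kd → ℝ)),
      FrLX A d bb δ δ' B X N a ps q → a.1.ok → a.1.okP (π lam.1) →
    ∀ x : Dt, x.OK (π lam.1) (Bf a.2) e0 r ε' X a.1.toBd → ∀ z' : E4R70.Cls,
      z'.Ok d (1 / cκ (prX (dn q.1))) (cN (prX (dn q.1)) / cκ (prX (dn q.1)))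
        (cM (prX (dn q.1)) / cκ (prX (dn q.1)))
        (q.2 .mo / cκ (prX (dn q.1))) (q.2 .am / cκ (prX (dn q.1)))
        (cx' (prX (dn q.1)) / cκ (prX (dn q.1))) →
      |z'.v - Real.log 2 * a.2 / (cκ (prX (dn q.1)) * Real.log X)| ≤ η →
      |z'.β - E4Dic352.lg (∏ i, x.β i) / (cκ (prX (dn q.1)) * Real.log X)| ≤ η →
      |z'.s - E4Dic352.lg x.e₀ / (cκ (prX (dn q.1)) * Real.log X)| ≤ η →
    ∀ y : XF, y.OKx cw → y.e₀ = x.e₀ → y.α = E4Df372.alX (π lam.1) h lam.2 a.1 x.β →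
      y.V = 2 ^ a.2 → IsC y.c₀ →
    ∀ Nα : ℝ, Real.log Nα / Real.log X ≤
        cκ (prX (dn q.1)) * (cN (prX (dn q.1)) / cκ (prX (dn q.1)) - z'.β) + η →
    ∀ n : Fin 12 → ℕ, 1 / 2 ≤ y.Nn n →
      TSD y.α y.e₀ y.c₀ (y.Ee n) (y.Ln cw n) ≤
        X ^ (cκ (prX (dn q.1)) * (z'.tE (cN (prX (dn q.1)) / cκ (prX (dn q.1)))
          (cu (prX (dn q.1)) 4 / cκ (prX (dn q.1))) +
          2 / 3 * d * z'.N1 (cN (prX (dn q.1)) / cκ (prX (dn q.1)))) -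
          2 / 3 * (Real.log (y.En n) / Real.log X) - Real.log Nα / Real.log X / 3 + ε) ∧
      ∀ (Ag : Eis) (Yb : ℕ) (Ys : Finset Eis), Ag ≠ 0 → (nm Ag : ℝ) ≤ X ^ K₀ →
        1 ≤ Yb → (Yb : ℝ) ≤ X ^ K₀ →
        (∀ c ∈ Ys, ∃ b ∈ dvs Ag, ∃ c' ∈ primBall Yb, c = b * c') →
        TSR y.α y.e₀ y.c₀ 1 (y.Ee n) Ys (y.Ln cw n) ≤
          X ^ (cκ (prX (dn q.1)) * (z'.tE (cN (prX (dn q.1)) / cκ (prX (dn q.1)))
            (cu (prX (dn q.1)) 4 / cκ (prX (dn q.1))) +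
            2 / 3 * d * z'.N1 (cN (prX (dn q.1)) / cκ (prX (dn q.1)))) +
            min (cκ (prX (dn q.1)) * z'.fF (cN (prX (dn q.1)) / cκ (prX (dn q.1)))
              (cu (prX (dn q.1)) 4 / cκ (prX (dn q.1)))) (Real.log Yb / Real.log X) -
            2 / 3 * (Real.log (y.En n) / Real.log X) - Real.log Nα / Real.log X / 3 + ε) ∧
        TSR y.α y.e₀ y.c₀ (1 / 2) (y.Ee n) Ys (y.Ln cw n) ≤
          X ^ (cκ (prX (dn q.1)) * (z'.tE (cN (prX (dn q.1)) / cκ (prX (dn q.1)))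
            (cu (prX (dn q.1)) 4 / cκ (prX (dn q.1))) +
            2 / 3 * d * z'.N1 (cN (prX (dn q.1)) / cκ (prX (dn q.1)))) +
            (cκ (prX (dn q.1)) * z'.fF (cN (prX (dn q.1)) / cκ (prX (dn q.1)))
              (cu (prX (dn q.1)) 4 / cκ (prX (dn q.1))) +
              min (cκ (prX (dn q.1)) * z'.fF (cN (prX (dn q.1)) / cκ (prX (dn q.1)))
                (cu (prX (dn q.1)) 4 / cκ (prX (dn q.1)))) (Real.log Yb / Real.log X)) / 2 -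
            2 / 3 * (Real.log (y.En n) / Real.log X) - Real.log Nα / Real.log X / 3 + ε) := by
  classical
  obtain ⟨η, hη, hη1, hη2⟩ : ∃ η : ℝ, 0 < η ∧ η ≤ 1 / 100 ∧ η ≤ ε / 300 :=
    ⟨min (1 / 100) (ε / 300), by positivity, min_le_left _ _, min_le_right _ _⟩
  obtain ⟨ε₀, hε₀, hε01, hε02⟩ : ∃ ε₀ : ℝ, 0 < ε₀ ∧ ε₀ ≤ 1 / 5 ∧ ε₀ ≤ ε / 8 :=
    ⟨min (1 / 5) (ε / 8), by positivity, min_le_left _ _, min_le_right _ _⟩
  refine ⟨η, hη, ?_⟩
  intro cw hcw lam N B K₀ hlam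
  obtain ⟨R, H₀, hR0, -, hR, -⟩ := bdd_PU hh
  obtain ⟨B₁, hB₁⟩ : ∃ B₁ : ℝ, B₁ = max B 4 := ⟨_, rfl⟩
  have hB3 : 4 ≤ B₁ := by rw [hB₁]; exact le_max_right _ _
  have hBB : B ≤ B₁ := by rw [hB₁]; exact le_max_left _ _
  obtain ⟨B', hB'⟩ : ∃ B' : ℝ, B' = 1 + B₁ + |e0| * B₁ := ⟨_, rfl⟩
  have hp0 : 0 ≤ |e0| * B₁ := mul_nonneg (abs_nonneg _) (by linarith)
  have hB'1 : 1 ≤ B' := by rw [hB']; linarith
  have hB'2 : B₁ ≤ B' := by rw [hB']; linarith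
  have hB'3 : |e0| * B₁ ≤ B' := by rw [hB']; linarith
  obtain ⟨K, hK⟩ : ∃ K : ℝ, K = max (4 * B' + 2) K₀ := ⟨_, rfl⟩
  have hK4 : 4 * B' + 2 ≤ K := by rw [hK]; exact le_max_left _ _
  have hKK₀ : K₀ ≤ K := by rw [hK]; exact le_max_right _ _
  have hK1 : 1 ≤ K := by linarith
  have hK0 : 0 < K := by linarith
  have hKB : B' ≤ K := by linarith
  obtain ⟨M, GM⟩ := hV (ε / 8) (by positivity) (4 * K) (by linarith) lam.1
  obtain ⟨X₁, hX₁, G1⟩ := GM M le_rfl lam.2 hlam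
  obtain ⟨X₂, hX₂, G2⟩ := xta_x (6 * R) (by positivity) hε₀ K hK1 M
  -- the divisor bound
  obtain ⟨Cd, hCd, hdiv⟩ := tau_le_rpow (ε := ε₀ / 16 / 2 / K) (by positivity)
  refine ⟨ε / (8 * (M + 1)), by positivity,
    max (max (max X₁ X₂) (max (100 + Real.exp r) (Real.exp (Real.log 2 / η))))
      (max (max (Real.exp (Real.log (4 * cw) / η)) (128 * cw)) (Cd ^ (2 / (ε₀ / 16) : ℝ))),
    lt_max_of_lt_left (lt_max_of_lt_left (lt_max_of_lt_left hX₁)), ?_⟩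
  intro X hXX δ ε' hδ hε' a ps q hF ha haP x hx z' hok hv hb hs y hy hye hyα hyV hyc Nα hNα n hn
  have hXX₁ : X₁ ≤ X :=
    ((le_max_left _ _).trans ((le_max_left _ _).trans (le_max_left _ _))).trans hXX
  have hXX₂ : X₂ ≤ X :=
    ((le_max_right _ _).trans ((le_max_left _ _).trans (le_max_left _ _))).trans hXX
  have hXX₃ : 100 + Real.exp r ≤ X :=
    ((le_max_left _ _).trans ((le_max_right _ _).trans (le_max_left _ _))).trans hXX
  have hXX₄ : Real.exp (Real.log 2 / η) ≤ X :=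
    ((le_max_right _ _).trans ((le_max_right _ _).trans (le_max_left _ _))).trans hXX
  have hXX₅ : Real.exp (Real.log (4 * cw) / η) ≤ X :=
    ((le_max_left _ _).trans ((le_max_left _ _).trans (le_max_right _ _))).trans hXX
  have hXX₆ : 128 * cw ≤ X :=
    ((le_max_right _ _).trans ((le_max_left _ _).trans (le_max_right _ _))).trans hXX
  have hXX₇ : Cd ^ (2 / (ε₀ / 16) : ℝ) ≤ X :=
    ((le_max_right _ _).trans (le_max_right _ _)).trans hXX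
  have her := Real.exp_pos r
  have hX100 : 100 ≤ X := by linarith
  have hX1 : 1 < X := by linarith
  have hX0 : 0 < X := by linarith
  have hL : 0 < Real.log X := Real.log_pos hX1
  have h2 : Real.log 2 ≤ η * Real.log X := by
    have h1 := Real.log_le_log (Real.exp_pos _) hXX₄
    rw [Real.log_exp, div_le_iff₀ hη] at h1
    linarith
  have h4c : Real.log (4 * cw) ≤ η * Real.log X := by
    have h1 := Real.log_le_log (Real.exp_pos _) hXX₅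
    rw [Real.log_exp, div_le_iff₀ hη] at h1
    linarith
  -- the box
  have hdom := hF.dom
  unfold SqLX DomL at hdom
  have hSq : Sq5 A d (prX (dn q.1)) q.2 := hdom.1.1
  have hzr : ZR bb (dn q.1) := hdom.1.2
  have hv0 : 0 ≤ q.1 none := hdom.2.1
  have hκ89 := hSq.toNr5.κ0
  have hκ1 := hSq.toNr5.κ1
  have BX := bx4 hd (by linarith only [hd1]) hA hA1 hSq hv0 hF.low
  have V : FrV δ (Real.log X) (bl a) ps (qX q) := frVX hF hX1
  have hδ0 : 0 ≤ δ := (abs_nonneg _).trans (hF.win.ev none)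
  obtain ⟨κ₀, hκ₀⟩ : ∃ κ₀ : ℝ, κ₀ = cκ (prX (dn q.1)) := ⟨_, rfl⟩
  rw [← hκ₀] at hok hv hb hs hκ89 hκ1 BX hNα ⊢
  have hκ0 : 0 < κ₀ := by linarith
  have hTr : TrNum κ₀ η (Real.log (2 * 2 ^ a.2) / Real.log X)
      (Real.log (nm x.e₀) / Real.log X) (nL X (u3 a.1) x.β) (Real.log 2 * a.2 / Real.log X) z'
      (cN (prX (dn q.1)) / κ₀) := tr_num hX1 V hδ hη.le h2 hκ0 hκ1 hv hb hs
  obtain ⟨y1, y2⟩ := y_of hSq
  rw [← hκ₀] at y1 y2
  -- sizes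
  have hFrX := fr_of_frLX hA0 (by linarith) hX1 hF ha haP hBB hB3
  have hFr := hFrX.fr
  have HY := hFr.toY (e0 := e0) (r := r) hX100 (by linarith) hB'1 hB'2 hB'3
  have hβ : ∀ i, IsPrim (x.β i) := (T3_spec hx.β).1
  have he₀ := (mem_S (Real.exp_pos _).le).mp hx.e₀
  have hXK : X ^ B' ≤ X ^ K := Real.rpow_le_rpow_of_exponent_le hX1.le hKB
  have hXK2 : X ^ K ≤ X ^ (4 * K) := Real.rpow_le_rpow_of_exponent_le hX1.le (by linarith)
  have hX4 : (X ^ B') ^ 4 ≤ X ^ K := by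
    rw [← Real.rpow_natCast, ← Real.rpow_mul hX0.le]
    refine Real.rpow_le_rpow_of_exponent_le hX1.le ?_
    push_cast
    linarith
  have hβK : ∀ i, (nm (x.β i) : ℝ) ≤ X ^ (4 * K) := by
    intro i
    have h1 := E4Us512.mem_PT (SSb54.mem_PTb.mp hx.β).1
    have h3 : (nm (x.β i) : ℝ) ≤ (X ^ B') ^ 4 := by
      refine le_trans ?_ (Y3_le HY)
      exact_mod_cast (mem_primBall.mp (h1 i)).1
    exact h3.trans (hX4.trans hXK2)
  have hB4 : B₁ * Real.log X ≤ 4 * K * Real.log X :=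
    mul_le_mul_of_nonneg_right (by linarith only [hB'2, hKB, hK0]) hL.le
  have hzK : ∀ j, (a.1.us j).z ≤ 4 * K * Real.log X := fun j => (hFr.u j).trans hB4
  have hzsK : ∀ j, a.1.zs j ≤ 4 * K * Real.log X := fun j => (hFrX.zs j).trans hB4
  have he₀K : (nm x.e₀ : ℝ) ≤ X ^ K := (he₀.1.trans HY.e0l).trans hXK
  have hiB : (2 ^ a.2 : ℝ) ≤ X ^ B' := HY.lv
  have hδ'0 : 0 < ε / (8 * ((M : ℝ) + 1)) := by positivity
  have hH1 : 1 ≤ X ^ (ε / (8 * ((M : ℝ) + 1))) := Real.one_le_rpow hX1.le hδ'0.le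
  -- the bias
  obtain ⟨wb, hwb⟩ : ∃ wb : ℝ, wb = Real.log (nm (∏ i, x.β i)) / Real.log X := ⟨_, rfl⟩
  obtain ⟨s₀, hs₀⟩ : ∃ s₀ : ℝ, s₀ = bb * κ₀ - δ - wb := ⟨_, rfl⟩
  obtain ⟨-, n2, n3, n4⟩ := hSq.anti
  have hu29 : 2 / 9 * κ₀ ≤ cu (prX (dn q.1)) 4 := by
    have := BX.u0
    rw [le_div_iff₀ hκ0] at this
    exact this
  have hLD := ldx_of (K := 4 * K) (s₀ := s₀) hX1 hF ha hbb hδ0 (hδ.trans hη1)
    (by rw [← hκ₀]; exact hκ89) (by rw [← hκ₀]; exact hu29) n4 n3 (by linarith) hzK hzsK hβ hβK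
    (by
      rw [← hκ₀, hs₀, hwb]
      have e1 : Real.log (nm (∏ i, x.β i)) / Real.log X * Real.log X =
        Real.log (nm (∏ i, x.β i)) := div_mul_cancel₀ _ hL.ne'
      rw [sub_mul, e1])
  -- the lumps
  have u : ∀ i, (a.1.us i).z / Real.log X ≤ cu (prX (dn q.1)) i + η := by
    intro i
    have h1 : |(a.1.us i).z / Real.log X - cu (prX (dn q.1)) i| ≤ δ :=
      hF.win.ev (some (.inl (.inr i)))
    have h3 := (abs_le.mp h1).2
    linarith only [h3, hδ]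
  have hz : ∀ i, (u3 a.1 i).z / Real.log X ≤ cu (prX (dn q.1)) 2 + η := by
    intro i
    have u2 := u 2
    have u3 := u 3
    have u4 := u 4
    fin_cases i
    · exact u2
    · exact u3.trans (by linarith)
    · exact u4.trans (by linarith)
  have hu : ∃ i, (u3 a.1 i).z / Real.log X ≤ cu (prX (dn q.1)) 4 + η := ⟨2, u 4⟩
  have hz' : ∀ i, (u3' a.1 i).z / Real.log X ≤ 4 * K := by
    intro i
    rw [div_le_iff₀ hL]
    fin_cases i
    · exact hzsK 2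
    · exact hzsK 3
    · exact hzK 4
  have hu' : ∃ i, (u3' a.1 i).z / Real.log X ≤ 17 / 100 + η := by
    refine ⟨0, ?_⟩
    have h1 : |a.1.zs 2 / Real.log X - dn q.1 (.inr 1)| ≤ δ := hF.win.ev (some (.inr 1))
    have h3 := (abs_le.mp h1).2
    have h4 := (hzr 1).2
    rw [hbb] at h4
    show a.1.zs 2 / Real.log X ≤ _
    linarith only [h3, h4, hδ]
  have hVN := G1 X hXX₁ (X ^ (ε / (8 * ((M : ℝ) + 1)))) hH1 a.1 x.β s₀ hLD _ _ _ _ hz hu hz' hu'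
  have hAdm := adm_alX hR0 hR (π lam.1) lam.2 ha hβ
  rw [← hyα] at hVN hAdm
  -- the true numbers
  obtain ⟨lv, hlv⟩ : ∃ lv, lv = Real.log (2 * 2 ^ a.2) / Real.log X := ⟨_, rfl⟩
  obtain ⟨e, he⟩ : ∃ e, e = Real.log (nm x.e₀) / Real.log X := ⟨_, rfl⟩
  obtain ⟨nl, hnl⟩ : ∃ nl, nl = nL X (u3 a.1) x.β := ⟨_, rfl⟩
  rw [← hnl] at hVN
  rw [← hlv, ← he, ← hnl] at hTr
  have hVN' : VN X (X ^ (ε / (8 * ((M : ℝ) + 1)))) M (4 * K) y.α (fun v γ =>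
      (fun v n => max (max (GuN d (cu (prX (dn q.1)) 2 + η) (cu (prX (dn q.1)) 4 + η) v n)
        (GuN d (4 * K) (17 / 100 + η) v n)) (GB2 s₀ nl v n)) v (max 0 (nl - γ)) + ε / 8) := by
    refine hVN.mono hX1.le (by linarith only [hH1]) le_rfl fun v γ _ _ _ _ => ?_
    refine add_le_add (max_le_max le_rfl ?_) le_rfl
    show 2 / 3 * v + 5 / 3 * (nl - γ) - max 0 (s₀ - γ) ≤
      2 / 3 * v + 5 / 3 * max 0 (nl - γ) - max 0 (s₀ - (nl - max 0 (nl - γ)))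
    rcases le_total 0 (nl - γ) with h | h
    · rw [max_eq_right h, show nl - (nl - γ) = γ by ring]
    · rw [max_eq_left h, show nl - 0 = nl by ring]
      have : max 0 (s₀ - nl) ≤ max 0 (s₀ - γ) + (γ - nl) := by
        refine max_le ?_ ?_
        · have := le_max_left 0 (s₀ - γ)
          linarith only [this, h]
        · have := le_max_right 0 (s₀ - γ)
          linarith only [this]
      linarith only [this, h]
  have he₀0 : (0 : ℝ) < nm x.e₀ := by exact_mod_cast nm_pos.2 he₀.2.1.ne_zero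
  -- the level of the class
  obtain ⟨L, hLd⟩ : ∃ L, L = Real.log (8 * cw * y.V * nm y.e₀) / Real.log X := ⟨_, rfl⟩
  have hcw0 : 0 < cw := by linarith only [hcw]
  have hL2 : L = lv + e + Real.log (4 * cw) / Real.log X := by
    rw [hLd, hlv, he, hye, hyV, ← add_div, ← add_div, ← Real.log_mul (by positivity) (by positivity),
      ← Real.log_mul (by positivity) (by positivity)]
    congr 2
    ring
  have h4c' : Real.log (4 * cw) / Real.log X ≤ η := by rw [div_le_iff₀ hL]; exact h4c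
  obtain ⟨N₁, hN₁⟩ : ∃ N₁, N₁ = nl - Real.log (nm y.e₀) / Real.log X := ⟨_, rfl⟩
  have hN₁e : N₁ = nl - e := by rw [hN₁, hye, he]
  have eκy : cu (prX (dn q.1)) 2 + η = κ₀ * (cu (prX (dn q.1)) 2 / κ₀) + η := by field_simp
  have eκu : cu (prX (dn q.1)) 4 + η = κ₀ * (cu (prX (dn q.1)) 4 / κ₀) + η := by field_simp
  -- the class against the data
  have near : ∀ {y c : ℝ}, |y - c / (κ₀ * Real.log X)| ≤ η → c / Real.log X ≤ κ₀ * y + η := by
    intro y c h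
    obtain ⟨h1, -⟩ := abs_le.mp h
    have e1 : κ₀ * (c / (κ₀ * Real.log X)) = c / Real.log X := by field_simp
    have h3 := mul_le_mul_of_nonneg_left h1 hκ0.le
    have h5 : κ₀ * η ≤ η := by nlinarith only [hκ1, hη]
    rw [mul_sub, e1] at h3
    linarith only [h3, h5]
  have hbe := near hb
  have hse := near hs
  have hwb' : wb ≤ κ₀ * z'.β + η := by rw [hwb]; exact hbe
  have hee : e ≤ κ₀ * z'.s + η := by rw [he]; exact hse
  have hs₀' : κ₀ * (17 / 100 - z'.β) - 2 * η ≤ s₀ := by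
    rw [hs₀, hbb]
    linarith only [hwb', hδ]
  obtain ⟨hN₁0, hLN, hown, hown', hGB, hu0, hu0', hFF, hFF2⟩ := cls_realX (z₂ := 4 * K) BX
    (by field_simp) hok y1 y2 hκ89 hη hη1 hTr h4c' hs₀' hee
  rw [← hN₁e] at hN₁0 hLN hown hown' hGB hu0 hu0' hFF hFF2
  rw [← hL2] at hLN hown hown' hGB hFF hFF2
  rw [← eκu] at hown hu0 hFF
  rw [← eκy] at hown
  obtain ⟨T₀, hT₀⟩ : ∃ T₀, T₀ = κ₀ * (z'.tE (cN (prX (dn q.1)) / κ₀) (cu (prX (dn q.1)) 4 / κ₀) +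
      2 / 3 * d * z'.N1 (cN (prX (dn q.1)) / κ₀)) := ⟨_, rfl⟩
  rw [← hT₀] at hown hown' hGB ⊢
  obtain ⟨F', hF'⟩ : ∃ F', F' = κ₀ * z'.fF (cN (prX (dn q.1)) / κ₀) (cu (prX (dn q.1)) 4 / κ₀) :=
    ⟨_, rfl⟩
  rw [← hF'] at hFF hFF2 ⊢
  have GA1 := (ga_of_gp (gp_GuN hd) hu0 hown ((low_GuN hd hN₁0).trans hown)).mono le_rfl hFF
  have GA2 := (ga_of_gp (gp_GuN hd) hu0' hown' ((low_GuN hd hN₁0).trans hown')).mono le_rfl hFF2
  have GA3 := ga_max (ga_max GA1 GA2) (ga_bias GA1.F0 hGB)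
  -- the sizes of the class
  have hXp : X * X ^ B' ≤ X ^ K := by
    calc X * X ^ B' = X ^ (1 + B') := by rw [Real.rpow_add hX0, Real.rpow_one]
      _ ≤ X ^ K := Real.rpow_le_rpow_of_exponent_le hX1.le (by linarith only [hK4, hB'1])
  obtain ⟨hL5, hE5⟩ := cls_sz hy hcw hyc hXX₆ (P := X ^ B') (by rw [hyV]; exact hiB) hn
  have hLnK : y.Ln cw n ≤ X ^ K := hL5.trans hXp
  have hEnK : 8 * y.En n ≤ X ^ K := hE5.trans hXp
  have hc9 := (nm_isC hyc).2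
  have hyeK : (nm y.e₀ : ℝ) ≤ X ^ K := by rw [hye]; exact he₀K
  have hycK : (nm y.c₀ : ℝ) ≤ X ^ K := by
    refine hc9.trans ?_
    calc (9 : ℝ) ≤ X ^ (1 : ℝ) := by rw [Real.rpow_one]; linarith only [hX100]
      _ ≤ X ^ K := Real.rpow_le_rpow_of_exponent_le hX1.le hK1
  have hyp : IsPrim y.e₀ := by rw [hye]; exact he₀.2.1
  have hβ0 : (0 : ℝ) < nm (∏ i, x.β i) := by
    exact_mod_cast nm_pos.2 (Finset.prod_ne_zero_iff.2 fun i _ => (hβ i).ne_zero)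
  have hXw : 0 < Xn (u3 a.1) x.β := TEM792.Xn_pos _ hβ
  have hYw : 0 ≤ Xn (u3 a.1) x.β * Real.exp (3 * R) := mul_nonneg hXw.le (Real.exp_pos _).le
  have hlXw : Real.log (Xn (u3 a.1) x.β) = nl * Real.log X := by
    rw [hnl]
    unfold TEM792.nL TEM792.Xn
    rw [div_mul_cancel₀ _ hL.ne', Real.log_div (Real.exp_pos _).ne' hβ0.ne', Real.log_exp]
  have hδM : ε / (8 * ((M : ℝ) + 1)) * M ≤ ε / 8 := by
    rw [div_mul_eq_mul_div, div_le_div_iff₀ (by positivity) (by norm_num)]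
    have hM0 : ε * M ≤ ε * (M + 1) := mul_le_mul_of_nonneg_left (by linarith only []) hε.le
    linarith only [hM0]
  have hnlN : Real.log Nα / Real.log X ≤ nl + 5 * η := by
    have h7 := hTr.hnl
    linarith only [h7, hNα]
  obtain ⟨k0, k1⟩ := G2 X hXX₂ (X ^ (ε / (8 * ((M : ℝ) + 1)))) hH1 _ _ hYw hXw y cw n hy hcw hyp
    hAdm _ nl (ε / 8) hVN' hLnK hEnK
    hyeK hycK N₁ L (T₀ + 25 * η) (F' + 5 * η) hN₁ hLd GA3 (by linarith only [hLN, hε01])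
  refine ⟨k0.trans (fin_X hX1 hXw hlXw ?_), ?_⟩
  · linarith only [hδM, hη2, hε02, hnlN, hε]
  · intro Ag Yb Ys hA0' hAK hYb hYbK hYs
    have hdv : ((dvs Ag).card : ℝ) ≤ X ^ (ε₀ / 16) :=
      dvs_sz hX1 hK0 (by positivity) hCd hdiv hXX₇ hA0'
        (hAK.trans (Real.rpow_le_rpow_of_exponent_le hX1.le hKK₀))
    obtain ⟨j1, j2⟩ := k1 Ag Yb Ys hA0' hdv hYb
      (hYbK.trans (Real.rpow_le_rpow_of_exponent_le hX1.le hKK₀)) hYs
    have hm : min (F' + 5 * η) (Real.log Yb / Real.log X) ≤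
        min F' (Real.log Yb / Real.log X) + 5 * η := by
      rw [← min_add_add_right]
      exact min_le_min le_rfl (by linarith only [hη])
    refine ⟨j1.trans (fin_X hX1 hXw hlXw ?_), j2.trans (fin_X hX1 hXw hlXw ?_)⟩
    · linarith only [hδM, hη2, hε02, hnlN, hε, hm]
    · linarith only [hδM, hη2, hε02, hnlN, hε, hm]

end Crest.Agent.R017.EnX743
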