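import Crest.Agent.R017.XTz_743
import Crest.Agent.R017.TEZX_372

/-!
# Row 17, block C70, leaf E4, class E (helper743): `VNE` from the own family
-/

set_option autoImplicit false

noncomputable section

namespace Crest.Agent.R017.EnX743

open Crest.Agent.R012 Crest.Agent.R012.Eis
open Crest.Agent.R017.FE47 (PU)
open Crest.Agent.R017.Prov71 hiding K0
open Crest.Agent.R017.B770
open Crest.Agent.R017.Red848 (red Exc)
open Crest.Agent.R017.TK708 (AllT)
open Crest.Agent.R017.OwA90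
open Crest.Agent.R017.XS0298 (S0K)
open Crest.Agent.R017.PX764 (Dk)

/-- **`VNE` from the own family** (helper372's `NearW` = `NearOwnX`) -/
theorem vne_of {Λ : Type*} {π : Λ → DPar} {h : ℝ → ℝ} {d c₀ : ℝ} (hpu : PU h c₀)
    (hP : ∀ lam, (π lam).OK) (hE : ∀ lam, Exc (π lam))
    (hA : AllT d (ex Dq fun lam => S0K Dk (red (π lam)) h))
    (hF : FarOwn d (ex Dq fun lam => S0K Dk (red (π lam)) h))
    (hS : ShOwn (ex Dq fun lam => S0K Dk (red (π lam)) h))
    (hN : TEX792.NearW d (ex Dq fun lam => S0K Dk (red (π lam)) h)) (hd : 0 ≤ d) :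
    VNE π h d := by
  intro ε hε K hK lam
  obtain ⟨M₀, G1⟩ := TEX792.vn_gwX hpu hP hE hA hF hS hN hd hε K hK lam
  refine ⟨M₀, fun M hM t ht => ?_⟩
  obtain ⟨X₀, hX₀, G2⟩ := G1 M hM t ht
  exact ⟨X₀, hX₀, fun X hX H₀ hH₀ a β s₀ hLD z u z' u' hz hu hz' hu' =>
    G2 X hX H₀ hH₀ a β s₀ hLD z u z' u' hz hu hz' hu'⟩

end Crest.Agent.R017.EnX743
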