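import Crest.Agent.R017.F1Defs_180
import Crest.Agent.R012.Dual_671

/-!
# Row 17: the pair theorem with a Hecke character `ξ` mod `m` (interface, helper499)

* `XiD ξ m τ` : `ξ` completely multiplicative, trivial on units, periodic mod `m`, primitive
  (all Gauss sums `Σ_r ξ(r) e(k r/(√-3 m)) = conj ξ(k) τ`), `|τ|² = N m`.
  Level one: `ξ = 1`, `m = 1`, `τ = 1` (`xiD_one`).
* `XiC m V h₀ B B'` : constants, `B B' N(m) 27/4 = V²`.
* `fPx, fOx, FPx, FOx, MOpx, DatX, FEPairX, PairThmX` : twisted versions of `F1Defs_180`.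
-/

set_option autoImplicit false

noncomputable section

open MeasureTheory Complex Set
open scoped ComplexConjugate

namespace Crest.Agent.R017.Xi499

open Crest.Agent.R012 Crest.Agent.R012.Eis Crest.Agent.R012.K695
open Crest.Agent.R012.Four813 (phat)
open Crest.Agent.R017.F1

/-- A primitive Hecke character (finite order, trivial on units) modulo `m`, with Gauss sum `τ`. -/
structure XiD (ξ : Eis → ℂ) (m : Eis) (τ : ℂ) : Prop where
  m0 : m ≠ 0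
  mul : ∀ a b, ξ (a * b) = ξ a * ξ b
  unit : ∀ a, IsUnit a → ξ a = 1
  per : PMod m ξ
  norm_le : ∀ a, ‖ξ a‖ ≤ 1
  gauss : ∀ k : Eis, sumMod m (fun r => ξ r * eC (toC k * toC r / (toC sq3 * toC m))) =
    conj (ξ k) * τ
  abs : ‖τ‖ ^ 2 = nm m

/-- The constants of the twisted pair theorem: `B B' N(m) 27/4 = V²`. -/
structure XiC (m : Eis) (V : ℝ) (h0 B B' : ℂ) : Prop where
  V0 : 0 < V
  h0 : h0 ≠ 0
  cst : B * B' * (nm m : ℂ) * (27 / 4) = (V : ℂ) ^ 2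

/-- `f_+(x) = (1/6) Σ_e ξ(e) N(e)² f(e³ x)`. -/
def fPx (ξ : Eis → ℂ) (f : ℂ → ℂ) (x : ℂ) : ℂ :=
  (1 / 6 : ℂ) * ∑' e : Eis, ξ e * ((nm e : ℂ) ^ 2 * f (toC e ^ 3 * x))

/-- `f°(u) = (B/(6V)) Σ_{m ≠ 0} ξ(m) Φ(u h₀ m³)`. -/
def fOx (ξ : Eis → ℂ) (V : ℝ) (h0 B : ℂ) (f : ℂ → ℂ) (u : ℂ) : ℂ := by
  classical
  exact (B * ((1 / (6 * V) : ℝ) : ℂ)) *
    ∑' m : Eis, (if m = 0 then 0 else ξ m * Phi f (u * h0 * toC m ^ 3))

/-- `F(z₁,z₂) = f_+(z₁) k(z₂/z₁)`. -/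
def FPx (ξ : Eis → ℂ) (f k : ℂ → ℂ) (z : Vec) : ℂ := fPx ξ f z.1 * k (z.2 / z.1)

/-- `F'(z₁,z₂) = 4 ∫ k̂(z₁ u) f°(u) e(z₂ u) du`. -/
def FOx (ξ : Eis → ℂ) (V : ℝ) (h0 B : ℂ) (f k : ℂ → ℂ) (z : Vec) : ℂ :=
  4 * ∫ u : ℂ, phat k (z.1 * u) * fOx ξ V h0 B f u * eC (z.2 * u)

/-- `M F (η, ζ) = (B/(6V)) Σ_{n ≠ 0} P(n) ξ(n) ∫_ℂ F (h₀ n³ η + x ζ) dx`. -/
def MOpx (ξ : Eis → ℂ) (V : ℝ) (h0 B : ℂ) (F : Vec → ℂ) (M : K695.Frm) : ℂ := by
  classical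
  exact (B * ((1 / (6 * V) : ℝ) : ℂ)) * ∑' n : Eis, (if n = 0 then 0 else
    ξ n * ((PL n : ℂ) * ∫ x : ℂ, F ((h0 * toC n ^ 3) • M.1 + x • M.2)))

/-- Data: as `F1.Dat`, the moment conditions are only needed if `ξ(0) ≠ 0` (level one). -/
structure DatX (ξ : Eis → ℂ) (f : ℂ → ℂ) : Prop where
  smooth : ContDiff ℝ ((⊤ : ℕ∞) : WithTop ℕ∞) f
  supp : ∃ a b : ℝ, 0 < a ∧ a < b ∧ ∀ x, ‖x‖ < a ∨ b < ‖x‖ → f x = 0
  even : ∀ x, f (-x) = f x
  mom : ξ 0 = 0 ∨ ((∫ x : ℂ, f x = 0) ∧ ∫ m : ℂ, Phi f (m ^ 3) = 0)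

/-- `M F = F'` and `M' F' = F` on frames of every determinant (`M'` has `conj ξ`, `B'`). -/
structure FEPairX (ξ : Eis → ℂ) (V : ℝ) (h0 B B' : ℂ) (F F' : Vec → ℂ) : Prop where
  tst : Tst F
  tst' : Tst F'
  m1 : ∀ M : K695.Frm, det2 M ≠ 0 → MOpx ξ V h0 B F M = scl (det2 M) F' M.2
  m2 : ∀ M : K695.Frm, det2 M ≠ 0 →
    MOpx (fun n => conj (ξ n)) V h0 B' (scl (det2 M) F') M = F M.2

/-- The twisted pair theorem. -/
def PairThmX : Prop :=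
  ∀ (ξ : Eis → ℂ) (m : Eis) (τ : ℂ) (V : ℝ) (h0 B B' : ℂ), XiD ξ m τ → XiC m V h0 B B' →
    ∀ (f : ℂ → ℂ) (k : SchwartzMap ℂ ℂ), DatX ξ f →
      FEPairX ξ V h0 B B' (FPx ξ f k) (FOx ξ V h0 B f k)

/-- The Fourier coefficient of `F'` in the basis frame. -/
def CoefThmX : Prop :=
  ∀ (ξ : Eis → ℂ) (m : Eis) (τ : ℂ) (V : ℝ) (h0 B B' : ℂ), XiD ξ m τ → XiC m V h0 B B' →
    ∀ (f : ℂ → ℂ) (k : SchwartzMap ℂ ℂ), DatX ξ f → ∀ c ν : ℂ, c ≠ 0 → ν ≠ 0 →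
      ∫ x : ℂ, FOx ξ V h0 B f k (c, x) * eC (-(ν * x / c)) = phat k ν * fOx ξ V h0 B f (ν / c)

/-- Decay of `f°` at `0` and at infinity. -/
def DecThmX : Prop :=
  ∀ (ξ : Eis → ℂ) (m : Eis) (τ : ℂ) (V : ℝ) (h0 B B' : ℂ), XiD ξ m τ → XiC m V h0 B B' →
    ∀ f : ℂ → ℂ, DatX ξ f → ∀ A : ℕ, ∃ C : ℝ, ∀ u : ℂ, u ≠ 0 →
      ‖fOx ξ V h0 B f u‖ ≤ C * ‖u‖ ^ A ∧ ‖fOx ξ V h0 B f u‖ ≤ C * (‖u‖ ^ A)⁻¹

/-! ## Basic facts -/

variable {ξ : Eis → ℂ} {m : Eis} {τ : ℂ}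

lemma XiD.neg (h : XiD ξ m τ) (a : Eis) : ξ (-a) = ξ a := by
  have h1 : ξ (-1) = 1 := h.unit _ isUnit_one.neg
  rw [← neg_one_mul, h.mul, h1, one_mul]

lemma XiD.one (h : XiD ξ m τ) : ξ 1 = 1 := h.unit _ isUnit_one

lemma XiD.pow (h : XiD ξ m τ) (a : Eis) (n : ℕ) : ξ (a ^ n) = ξ a ^ n := by
  induction n with
  | zero => simp [h.one]
  | succ n ih => rw [pow_succ, h.mul, ih, pow_succ]

lemma conj_eC (z : ℂ) : conj (eC z) = eC (-z) := by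
  unfold eC
  rw [← Complex.exp_conj]
  congr 1
  simp only [map_mul, map_add, Complex.conj_ofReal, Complex.conj_I, Complex.conj_conj, map_neg,
    map_ofNat]
  ring

/-- The conjugate character. -/
lemma XiD.conj (h : XiD ξ m τ) : XiD (fun a => conj (ξ a)) m (conj τ) where
  m0 := h.m0
  mul a b := by rw [h.mul, map_mul]
  unit a ha := by rw [h.unit a ha, map_one]
  per x t := by simp only; rw [h.per]
  norm_le a := by rw [Complex.norm_conj]; exact h.norm_le a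
  gauss k := by
    have h1 := congrArg conj (h.gauss (-k))
    rw [h.neg, map_mul] at h1
    rw [← h1]
    unfold sumMod
    have hfin := Po581.finite_quot' h.m0
    have := Fintype.ofFinite (Eis ⧸ Ideal.span ({m} : Set Eis))
    rw [finsum_eq_sum_of_fintype, finsum_eq_sum_of_fintype, map_sum]
    refine Finset.sum_congr rfl fun r _ => ?_
    have e : -(toC (-k) * toC (Quotient.out r) / (toC sq3 * toC m)) =
        toC k * toC (Quotient.out r) / (toC sq3 * toC m) := by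
      rw [map_neg]; ring
    rw [map_mul, conj_eC, e]
  abs := by rw [Complex.norm_conj]; exact h.abs

/-- level one -/
lemma xiD_one : XiD (fun _ => 1) 1 1 where
  m0 := one_ne_zero
  mul _ _ := by simp
  unit _ _ := rfl
  per _ _ := rfl
  norm_le _ := by simp
  gauss k := by
    have hsub : Subsingleton (Eis ⧸ Ideal.span ({(1 : Eis)} : Set Eis)) := by
      rw [Ideal.span_singleton_one]
      exact Ideal.Quotient.subsingleton_iff.mpr rfl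
    unfold sumMod
    have hfin := Po581.finite_quot' (one_ne_zero (α := Eis))
    have := Fintype.ofFinite (Eis ⧸ Ideal.span ({(1 : Eis)} : Set Eis))
    rw [finsum_eq_sum_of_fintype, Fintype.sum_subsingleton _ (0 : Eis ⧸ Ideal.span ({(1 : Eis)} : Set Eis))]
    simp only [map_one, mul_one, one_mul]
    rw [← map_mul]
    exact eC_toC_div_sq3 _
  abs := by simp [nm]

lemma xiC_one : XiC 1 vL 1 1 1 where
  V0 := by unfold vL; positivity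
  h0 := one_ne_zero
  cst := by
    have h3 : ((Real.sqrt 3 : ℝ) : ℂ) ^ 2 = 3 := by
      rw [← Complex.ofReal_pow, Real.sq_sqrt (by norm_num)]; norm_num
    unfold vL
    push_cast
    simp only [nm]
    norm_num
    linear_combination (-(9 / 4) : ℂ) * h3

lemma fPx_one (f : ℂ → ℂ) : fPx (fun _ => 1) f = fP f := by
  funext x; unfold fPx fP; simp

lemma fOx_one (f : ℂ → ℂ) : fOx (fun _ => 1) vL 1 1 f = fO f := by
  funext x; unfold fOx fO; simp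

lemma MOpx_one (F : Vec → ℂ) (M : K695.Frm) : MOpx (fun _ => 1) vL 1 1 F M = MOp F M := by
  unfold MOpx MOp; simp

lemma MOpx_conj_one (F : Vec → ℂ) (M : K695.Frm) :
    MOpx (fun _ => conj (1 : ℂ)) vL 1 1 F M = MOp F M := by
  unfold MOpx MOp; simp

lemma FPx_one (f k : ℂ → ℂ) : FPx (fun _ => 1) f k = FP f k := by
  funext z; unfold FPx FP; rw [fPx_one]

lemma FOx_one (f k : ℂ → ℂ) : FOx (fun _ => 1) vL 1 1 f k = FO f k := by
  funext z; unfold FOx FO; rw [fOx_one]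

lemma datX_one {f : ℂ → ℂ} (h : Dat f) : DatX (fun _ => 1) f :=
  ⟨h.smooth, h.supp, h.even, Or.inr ⟨h.mom1, h.mom2⟩⟩

theorem pairThm_of_X (H : PairThmX) : PairThm := by
  intro f k hf
  have h := H _ _ _ _ _ _ _ xiD_one xiC_one f k (datX_one hf)
  rw [FPx_one, FOx_one] at h
  refine ⟨h.tst, h.tst', fun M hM => ?_, fun M hM => ?_⟩
  · rw [← MOpx_one]; exact h.m1 M hM
  · rw [← MOpx_conj_one]; exact h.m2 M hM

theorem coefThm_of_X (H : CoefThmX) : CoefThm := by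
  intro f k hf c ν hc hν
  have h := H _ _ _ _ _ _ _ xiD_one xiC_one f k (datX_one hf) c ν hc hν
  rwa [FOx_one, fOx_one] at h

theorem decThm_of_X (H : DecThmX) : DecThm := by
  intro f hf A
  have h := H _ _ _ _ _ _ _ xiD_one xiC_one f (datX_one hf) A
  rwa [fOx_one] at h

/-! ## Twisted Poisson summation -/

open Crest.Agent.R012.Tau671 in
/-- **Twisted Poisson summation**: `Σ ξ(x) F(x) = (2/√3)(τ/N m) Σ conj ξ(k) F̂(k/(√-3 m))`. -/
theorem XiD.poisson (h : XiD ξ m τ) {F : ℂ → ℂ} (hF : PF F) :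
    ∑' x : Eis, ξ x * F (toC x) = ((2 / (Real.sqrt 3 * nm m) : ℝ) : ℂ) * τ *
      ∑' k : Eis, conj (ξ k) * Po581.fC F (toC k / (toC sq3 * toC m)) := by
  rw [poisson_pf hF h.m0 h.per, mul_assoc]
  congr 1
  rw [← tsum_mul_left]
  refine tsum_congr fun k => ?_
  rw [h.gauss k]
  ring

end Crest.Agent.R017.Xi499
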