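import Crest.Agent.R017.XLhX_518
import Crest.Agent.R017.XnE_372

/-!
# Row 17, class E, `XNumUX` (helper518)

* **`xn_of`** : helper372's `XNumUX` from the `T`-numbers, the cells and the large sieve closer
-/

set_option autoImplicit false
set_option linter.unusedVariables false

noncomputable section

namespace Crest.Agent.R017.XnF518

open Crest.Agent.R012 Crest.Agent.R012.Eis
open Crest.Agent.R017.C70 (OKJ)
open Crest.Agent.R017.FE47 (PU)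
open Crest.Agent.R017.B770 (DPar)
open Crest.Agent.R017.XLeX679 (XNC)
open Crest.Agent.R017.XP164 (TPhX xnc_PV)
open Crest.Agent.R017.XLhX518 (CelX xnc_LT)
open Crest.Agent.R017.XnE372 (HBcE xnumUX_of3E)

/-- **`XNumUX`** : the number of the `x`-side, class E -/
theorem xn_of {Λ : Type*} {π : Λ → DPar} {h : ℝ → ℝ} {c₀ : ℝ} (hh : PU h c₀)
    (hP : ∀ lam, (π lam).OK) {A d : ℝ} (hd : 0 ≤ d) (hd8 : d ≤ 1 / 8)
    (hA0 : 2 / 3 ≤ A) (hA : A ≤ 1) (hA1 : 16 * (1 - A) ≤ d) {bb : ℝ} (hbb : 17 / 100 ≤ bb)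
    {e0 r : ℝ} {Bf : ℕ → ℝ → ℝ → ℝ → ℝ} {Jf : ℝ → ℝ → ℝ → Finset (Eis × Eis)}
    (hJf : ∀ l N z, OKJ (Jf l N z)) (hF : E4zf92.JFull Jf)
    (HTP : TPhX π h (fun z N u => z.tE N u) A d bb e0 r Bf Jf) (HC0 : CelX π h A d bb e0 r Bf)
    (H1 : XNC π h E4Df372.VxE HBcE A d bb e0 r Bf Jf) :
    E4Df372.XNumUX π h A d bb e0 r Bf Jf :=
  xnumUX_of3E H1 (xnc_LT hh hP hd hd8 hA0 hA hA1 hbb hJf hF HTP HC0)
    (xnc_PV hh hP hA0 hJf hF HTP)

end Crest.Agent.R017.XnF518
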