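import Crest.Agent.R017.XnF_518
import Crest.Agent.R017.XUa_743
import Crest.Agent.R017.TEZX_792
import Crest.Agent.R017.SPXz_521
import Crest.Agent.R017.E4zm_679

/-!
# Row 17, class E, the number of the `x`-side at the top data (helper518)

* `vne_of` : helper743's `VNE` from the own family (helper792's `vn_guW`)
* `vneE` : `VNE` at the top data
* **`xnE`** : the field `xn` of helper986's `LvE` from the cells and the large sieve closer
-/

set_option autoImplicit false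

noncomputable section

namespace Crest.Agent.R017.XnG518

open Crest.Agent.R012 Crest.Agent.R012.Eis
open Crest.Agent.R017.FE47 Crest.Agent.R017.End699
open Crest.Agent.R017.B770 Crest.Agent.R017.BxH986
open Crest.Agent.R017.Prov71 hiding K0
open Crest.Agent.R017.ER911
open Crest.Agent.R017.E5B71
open Crest.Agent.R017.E5L770
open Crest.Agent.R017.E5LX770
open Crest.Agent.R017.SC777
open Crest.Agent.R017.Fin4 Crest.Agent.R017.Fin5 Crest.Agent.R017.Fin6
open Crest.Agent.R017.Red848 (red Exc)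
open Crest.Agent.R017.PX764 (Dk)
open Crest.Agent.R017.XS0298 (S0x S0K)
open Crest.Agent.R017.Sg986 (AA AA_lt AA_eq AA_ge)
open Crest.Agent.R017.NrX986 (NearAllX NearOwnX nearOwnX_of)
open Crest.Agent.R017.TM708
open Crest.Agent.R017.TK708 (AllT allT_of)
open Crest.Agent.R017.FN708 (Far far3 short_le)
open Crest.Agent.R017.OwA90 (FarOwn ShOwn)
open Crest.Agent.R017.XLeX679 (XNC)
open Crest.Agent.R017.EnX743 (VNE)
open Crest.Agent.R017.XLhX518 (CelX)
open Crest.Agent.R017.XnE372 (HBcE)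
open Crest.Agent.R017.E4Df372 (XNumUX)
open Crest.Agent.R017.Sf770 (JS)

/-- **`VNE` from the own family** -/
theorem vne_of {Λ : Type*} {π : Λ → DPar} {h : ℝ → ℝ} {d c₀ : ℝ} (hpu : PU h c₀)
    (hP : ∀ lam, (π lam).OK) (hE : ∀ lam, Exc (π lam))
    (hA : AllT d (ex Dq fun lam => S0K Dk (red (π lam)) h))
    (hF : FarOwn d (ex Dq fun lam => S0K Dk (red (π lam)) h))
    (hS : ShOwn (ex Dq fun lam => S0K Dk (red (π lam)) h))
    (hN : TEX792.NearW d (ex Dq fun lam => S0K Dk (red (π lam)) h)) (hd : 0 ≤ d) :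
    VNE π h d := by
  intro ε hε K hK lam
  obtain ⟨M₀, G1⟩ := TEX792.vn_guW hpu hP hE hA hF hS hN hd hε K hK lam
  refine ⟨M₀, fun M hM t ht => ?_⟩
  obtain ⟨X₀, hX₀, G2⟩ := G1 M hM t ht
  exact ⟨X₀, hX₀, fun X hX H₀ hH₀ a β s₀ hLD z u z' u' hz hu hz' hu' =>
    G2 X hX H₀ hH₀ a β s₀ hLD z u z' u' hz hu hz' hu'⟩

/-- the three own premises, class E -/
theorem own3 {d : ℝ} {r s s₀ : EF} (R : ExpRules (7 / 8 + d) r s)
    (Rm : ExpRGFz (7 / 8 + d) r s s₀) (hd : 0 ≤ d) (hd8 : 8 * d ≤ 1) (hG : NearAllX d s₀) :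
    AllT d s₀ ∧ FarOwn d s₀ ∧ ShOwn s₀ ∧ NearOwnX d s₀ := by
  refine ⟨allT_of R Rm.toExpS0 hd (by linarith), ?_, ?_, nearOwnX_of R Rm hd hd8 hG⟩
  · intro K v A B C hf h2v
    have := far3 R Rm hd hd8 (m := 0) (a := 0) (by rw [zero_add]; exact hf) le_rfl le_rfl h2v
    have e : 2 * d * (C + 0 + 0) = 2 * d * C := by ring
    linarith
  · intro v z₁ z₂ z₃ hv h1 h2 h3 hs
    have := short_le R Rm.toExpS0 (w := 0) hv h1 h2 h3 le_rfl (by linarith)
    linarith

/-- **`VNE` at the top data** -/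
theorem vneE {d : ℝ} (hd : 0 < d) (hd1 : d ≤ 1 / 42) {h : ℝ → ℝ} {c₀ : ℝ} (hpu : PU h c₀)
    (P : BunE d h) (G : RecE d h)
    (near : NearAllX d (ex Dq (fun lam => S0x (red (πE lam)) h))) : VNE πE h d := by
  obtain ⟨h1, h2, h3, h4⟩ := own3 P.rules G hd.le (by linarith) near
  exact vne_of hpu (fun lam => lam.2.1) (fun lam => XT6241.exc_piE lam) h1 h2 h3 h4 hd.le

/-- **the field `xn` of helper986's `LvE`** -/
theorem xnE {d : ℝ} (hd : 0 < d) (hd1 : d ≤ 1 / 42) {h : ℝ → ℝ} {c₀ : ℝ} (hpu : PU h c₀)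
    (P : BunE d h) (G : RecE d h)
    (near : NearAllX d (ex Dq (fun lam => S0x (red (πE lam)) h))) (r : ℝ)
    (HC : ∀ e : ℝ, 0 < e → e ≤ 1 / 64 → CelX πE h (AA d) d βX e r (bfE (d / 4)))
    (HH : ∀ e : ℝ, 0 < e → e ≤ 1 / 64 → XNC πE h E4Df372.VxE HBcE (AA d) d βX e r (bfE (d / 4))
      (fun l N z => JS (nL l N z))) :
    ∀ e : ℝ, 0 < e → e ≤ 1 / 64 →
      XNumUX πE h (AA d) d βX e r (bfE (d / 4)) (fun l N z => JS (nL l N z)) := by
  intro e he he1
  have hA := AA_ge (d := d) (by linarith)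
  exact XnF518.xn_of hpu (fun lam => lam.2.1) hd.le (by linarith) (by linarith) (AA_lt hd).le
    (AA_eq d) le_rfl (fun l N z => Sf770.okJ_JS (nL l N z)) E4zm679.jfull_JS
    (EnX743.tphx_of hpu (vneE hd (by linarith) hpu P G near) hd.le hd1 (by linarith) (AA_lt hd).le
      (AA_eq d) rfl e r (bfE (d / 4)) (fun l N z => JS (nL l N z)))
    (HC e he he1) (HH e he he1)

end Crest.Agent.R017.XnG518
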