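import Crest.Agent.R017.XnC_590

/-!
Row 17, section F / A (helper590): the function `G°(v) = 4 ∫ f°(u) e(v u) du`.
-/

set_option autoImplicit false

noncomputable section

open Complex MeasureTheory Set Filter Topology
open scoped FourierTransform ContDiff SchwartzMap ComplexConjugate

namespace Crest.Agent.R017.Xn590

open Crest.Agent.R012 Crest.Agent.R012.Eis Crest.Agent.R012.Po581
open Crest.Agent.R017.Xi590

variable {n : ℕ} {s : ℂ} {ξ : Eis → ℂ} {κ c : ℂ} {V : ℝ} {h0 B B' : ℂ} {f : ℂ → ℂ}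

lemma integrable_mul_eC {g : ℂ → ℂ} (hg : Integrable g) (v : ℂ) :
    Integrable (fun u => g u * eC (v * u)) := by
  refine hg.norm.mono' (hg.aestronglyMeasurable.mul ?_) (Eventually.of_forall fun u => ?_)
  · exact (eC_continuous.comp (continuous_const.mul continuous_id)).aestronglyMeasurable
  · rw [norm_mul, eC_norm, mul_one]

/-- `G°(v) = 4 ∫ f°(u) e(v u) du` -/
def GO (n : ℕ) (ξ : Eis → ℂ) (V : ℝ) (h0 B : ℂ) (f : ℂ → ℂ) (v : ℂ) : ℂ :=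
  4 * ∫ u : ℂ, fOn n ξ V h0 B f u * eC (v * u)

lemma GO_eq_fC (v : ℂ) : GO n ξ V h0 B f v = 4 * fC (fOn n ξ V h0 B f) (-v) := by
  unfold GO fC
  congr 2
  ext u
  rw [neg_mul, neg_neg]

lemma GO_cont (h : Ctx n s ξ κ c V h0 B B' f) : Continuous (GO n ξ V h0 B f) := by
  have e : GO n ξ V h0 B f = fun v => 4 * fC (fOn n ξ V h0 B f) (-v) := by
    ext v; exact GO_eq_fC v
  rw [e]
  exact continuous_const.mul ((fC_continuous_of (fOn_integrable h)).comp continuous_neg)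

lemma norm_integral_dil {g : ℂ → ℂ} {a : ℂ} (ha : a ≠ 0) :
    ∫ u, ‖g (u * a)‖ = (‖a‖ ^ 2)⁻¹ * ∫ u, ‖g u‖ := by
  have := integral_comp_affine (fun z => ‖g z‖) ha 0
  simp only [add_zero, smul_eq_mul] at this
  rw [← this]
  congr 1
  ext u
  rw [mul_comm]

lemma hm_ne (h : Ctx n s ξ κ c V h0 B B' f) {m : Eis} (hm : m ≠ 0) : h0 * toC m ^ n ≠ 0 :=
  mul_ne_zero h.C.h0 (pow_ne_zero _ (Po581.toC_ne_zero hm))

/-- Fourier transform of one term -/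
lemma term_integral (h : Ctx n s ξ κ c V h0 B B' f) {a : ℂ} (ha : a ≠ 0) (v : ℂ) :
    4 * ∫ u : ℂ, h.cs.Ph (u * a) * eC (v * u) = (((‖a‖ ^ 2)⁻¹ : ℝ) : ℂ) * gI f (v / a) := by
  have h1 := integral_comp_affine (fun w => h.cs.Ph w * eC (w * (v / a))) ha 0
  simp only [add_zero] at h1
  have h2 : ∫ u : ℂ, h.cs.Ph (u * a) * eC (v * u) =
      ∫ u : ℂ, h.cs.Ph (a * u) * eC (a * u * (v / a)) := by
    congr 1
    ext u
    have : a * u * (v / a) = v * u := by field_simp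
    rw [this, mul_comm u a]
  have h3 := sch_inv h.cs.gI.S (v / a)
  rw [CS.S_apply] at h3
  rw [h2, h1, Complex.real_smul, ← h3]
  have h4 : ∀ w, h.cs.Ph w = fC h.cs.gI.S w := by
    intro w
    unfold CS.Ph
    rw [fCS_apply]
  simp_rw [h4]
  ring

/-- `G°` as a sum -/
lemma GO_sum (h : Ctx n s ξ κ c V h0 B B' f) (v : ℂ) :
    GO n ξ V h0 B f v = bet V B * ∑' m : Eis, (if m = 0 then 0 else
      ξ m * ((((‖h0 * toC m ^ n‖ ^ 2)⁻¹ : ℝ) : ℂ) * gI f (v / (h0 * toC m ^ n)))) := by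
  have hh0 : 0 < ‖h0‖ := norm_pos_iff.mpr h.C.h0
  have hint : ∀ m : Eis, m ≠ 0 → Integrable (fun u : ℂ => h.cs.Ph (u * (h0 * toC m ^ n))) := by
    intro m hm
    have h1 := (dilS _ (hm_ne h hm) h.cs.Ph).integrable (μ := volume)
    refine h1.congr (Eventually.of_forall fun u => ?_)
    rw [dilS_apply, mul_comm]
  have hS := hasSum_integral_of_summable_integral_norm (μ := (volume : Measure ℂ))
    (F := fun (m : Eis) (u : ℂ) => (if m = 0 then 0 else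
      ξ m * h.cs.Ph (u * (h0 * toC m ^ n))) * eC (v * u)) ?_ ?_
  · unfold GO
    have e1 : ∀ u : ℂ, fOn n ξ V h0 B f u * eC (v * u) =
        bet V B * ∑' m : Eis, (if m = 0 then 0 else
          ξ m * h.cs.Ph (u * (h0 * toC m ^ n))) * eC (v * u) := by
      intro u
      rw [fOn_eq_sum h, mul_assoc, tsum_mul_right]
    simp_rw [e1]
    rw [integral_const_mul, ← hS.tsum_eq, mul_left_comm, ← tsum_mul_left]
    congr 1
    refine tsum_congr fun m => ?_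
    split_ifs with hm
    · simp
    · rw [← term_integral h (hm_ne h hm) v]
      simp_rw [mul_assoc]
      rw [integral_const_mul]
      ring
  · intro m
    by_cases hm : m = 0
    · simp [hm]
    · simp only [hm, if_false]
      exact integrable_mul_eC ((hint m hm).const_mul _) v
  · refine Summable.of_nonneg_of_le (fun m => integral_nonneg fun u => norm_nonneg _) (fun m => ?_)
      (summable_inv3.mul_left ((‖h0‖ ^ 2)⁻¹ * (∫ u, ‖h.cs.Ph u‖) * 16))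
    by_cases hm : m = 0
    · simp only [hm, if_true, zero_mul, norm_zero, integral_zero]
      have : 0 ≤ ∫ u, ‖h.cs.Ph u‖ := integral_nonneg fun u => norm_nonneg _
      positivity
    · simp only [hm, if_false, norm_mul, eC_norm, mul_one]
      have h2 : 0 ≤ ∫ u, ‖h.cs.Ph u‖ := integral_nonneg fun u => norm_nonneg _
      rw [integral_const_mul, norm_integral_dil (hm_ne h hm), norm_mul, mul_pow, mul_inv]
      have h3 := inv_norm_pow_le h.n2 hm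
      calc ‖ξ m‖ * ((‖h0‖ ^ 2)⁻¹ * (‖toC m ^ n‖ ^ 2)⁻¹ * ∫ u, ‖h.cs.Ph u‖)
          ≤ 1 * ((‖h0‖ ^ 2)⁻¹ * (16 * ((1 + ‖toC m‖) ^ 3)⁻¹) * ∫ u, ‖h.cs.Ph u‖) := by
            gcongr
            exact h.X.le1 m
        _ = _ := by ring

/-- `χ(t) = ‖t‖^{2n} f(t^n)` -/
def Ctx.Chi (h : Ctx n s ξ κ c V h0 B B' f) : 𝓢(ℂ, ℂ) := (CS_powW h.cs (2 * n) h.n0).S

lemma Ctx.Chi_apply (h : Ctx n s ξ κ c V h0 B B' f) (t : ℂ) :
    h.Chi t = ((‖t‖ ^ (2 * n) : ℝ) : ℂ) * f (t ^ n) := rfl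

lemma GO_Th (h : Ctx n s ξ κ c V h0 B B' f) {v : ℂ} (hv : v ≠ 0) :
    GO n ξ V h0 B f v = bet V B * ((((‖v‖ ^ 2)⁻¹ : ℝ) : ℂ) * Th ξ h.Chi (nrt n (h0 / v))) := by
  rw [GO_sum h]
  congr 1
  unfold Th
  rw [← tsum_mul_left]
  refine tsum_congr fun m => ?_
  have hvp : 0 < ‖v‖ := norm_pos_iff.mpr hv
  have hh0 : 0 < ‖h0‖ := norm_pos_iff.mpr h.C.h0
  rw [h.Chi_apply, mul_pow, nrt_pow h.n0]
  have e : ‖nrt n (h0 / v) * toC m‖ ^ (2 * n) = ‖h0 / v * toC m ^ n‖ ^ 2 := by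
    rw [mul_comm 2 n, pow_mul, ← norm_pow, mul_pow, nrt_pow h.n0]
  rw [e]
  split_ifs with hm
  · subst hm
    rw [map_zero, zero_pow h.n0, mul_zero, norm_zero]
    simp
  · have hmp : 0 < ‖toC m‖ := norm_pos_iff.mpr (Po581.toC_ne_zero hm)
    unfold gI
    have e2 : (v / (h0 * toC m ^ n))⁻¹ = h0 / v * toC m ^ n := by
      rw [inv_div]; ring
    rw [e2]
    have e3 : ((‖h0 * toC m ^ n‖ ^ 2)⁻¹ : ℝ) * ((‖v / (h0 * toC m ^ n)‖ ^ 4)⁻¹) =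
        (‖v‖ ^ 2)⁻¹ * ‖h0 / v * toC m ^ n‖ ^ 2 := by
      rw [norm_div, norm_mul, norm_mul, norm_div, norm_pow]
      field_simp
    have e4 : (((‖h0 * toC m ^ n‖ ^ 2)⁻¹ : ℝ) : ℂ) * (((‖v / (h0 * toC m ^ n)‖ ^ 4)⁻¹ : ℝ) : ℂ) =
        (((‖v‖ ^ 2)⁻¹ : ℝ) : ℂ) * ((‖h0 / v * toC m ^ n‖ ^ 2 : ℝ) : ℂ) := by
      rw [← Complex.ofReal_mul, e3, Complex.ofReal_mul]
    calc ξ m * ((((‖h0 * toC m ^ n‖ ^ 2)⁻¹ : ℝ) : ℂ) *
          ((((‖v / (h0 * toC m ^ n)‖ ^ 4)⁻¹ : ℝ) : ℂ) * f (h0 / v * toC m ^ n)))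
        = ξ m * (((((‖h0 * toC m ^ n‖ ^ 2)⁻¹ : ℝ) : ℂ) *
          (((‖v / (h0 * toC m ^ n)‖ ^ 4)⁻¹ : ℝ) : ℂ)) * f (h0 / v * toC m ^ n)) := by ring
      _ = _ := by rw [e4]; ring

lemma GO_zero (h : Ctx n s ξ κ c V h0 B B' f) : GO n ξ V h0 B f 0 = 0 := by
  rw [GO_sum h]
  have : ∀ m : Eis, (if m = 0 then (0:ℂ) else
      ξ m * ((((‖h0 * toC m ^ n‖ ^ 2)⁻¹ : ℝ) : ℂ) * gI f (0 / (h0 * toC m ^ n)))) = 0 := by
    intro m
    split_ifs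
    · rfl
    · rw [zero_div, h.cs.gI.zero, mul_zero, mul_zero]
  simp_rw [this]
  simp

/-- rapid decay of `G°` -/
theorem GO_bd (h : Ctx n s ξ κ c V h0 B B' f) (hχ : ξ 0 * ∫ t : ℂ, powW (2 * n) n f t = 0)
    (A : ℕ) : ∃ C : ℝ, 0 ≤ C ∧ ∀ v : ℂ, ‖GO n ξ V h0 B f v‖ * (1 + ‖v‖) ^ A ≤ C := by
  have hχ0 : ξ 0 * h.Chi 0 = 0 := by
    rw [h.Chi_apply, norm_zero, zero_pow (by have := h.n0; omega)]
    simp
  obtain ⟨C, hC0, hC⟩ := h.X.th_dec h.Chi hχ0 hχ (n * A)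
  obtain ⟨C', hC0', hC'⟩ := h.X.th_dec h.Chi hχ0 hχ (n * 2)
  have hh0 : 0 < ‖h0‖ := norm_pos_iff.mpr h.C.h0
  refine ⟨2 ^ A * (‖bet V B‖ * (C * ‖h0‖ ^ A)) + 2 ^ A * (‖bet V B‖ * (C' * (‖h0‖ ^ 2)⁻¹)),
    by positivity, fun v => ?_⟩
  by_cases hv : v = 0
  · subst hv
    rw [GO_zero h, norm_zero, zero_mul]
    positivity
  have hvp : 0 < ‖v‖ := norm_pos_iff.mpr hv
  have ht : nrt n (h0 / v) ≠ 0 := nrt_ne_zero h.n0 (div_ne_zero h.C.h0 hv)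
  rw [GO_Th h hv, norm_mul, norm_mul, Complex.norm_real, Real.norm_of_nonneg (by positivity)]
  have e : ∀ k : ℕ, ‖nrt n (h0 / v)‖ ^ (n * k) = ‖h0‖ ^ k / ‖v‖ ^ k := by
    intro k
    rw [pow_mul, norm_nrt_pow h.n0, norm_div, div_pow]
  rcases le_or_gt ‖v‖ 1 with h1 | h1
  · have h2 := (hC' _ ht).2
    rw [e] at h2
    calc ‖bet V B‖ * ((‖v‖ ^ 2)⁻¹ * ‖Th ξ h.Chi (nrt n (h0 / v))‖) * (1 + ‖v‖) ^ A
        ≤ ‖bet V B‖ * ((‖v‖ ^ 2)⁻¹ * (C' * (‖h0‖ ^ 2 / ‖v‖ ^ 2)⁻¹)) * (1 + 1) ^ A := by gcongr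
      _ = 2 ^ A * (‖bet V B‖ * (C' * (‖h0‖ ^ 2)⁻¹)) := by
          norm_num
          field_simp
      _ ≤ _ := le_add_of_nonneg_left (by positivity)
  · have h2 := (hC _ ht).1
    rw [e] at h2
    calc ‖bet V B‖ * ((‖v‖ ^ 2)⁻¹ * ‖Th ξ h.Chi (nrt n (h0 / v))‖) * (1 + ‖v‖) ^ A
        ≤ ‖bet V B‖ * (1 * (C * (‖h0‖ ^ A / ‖v‖ ^ A))) * (2 * ‖v‖) ^ A := by
          gcongr
          · exact inv_le_one_of_one_le₀ (one_le_pow₀ h1.le)
          · linarith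
      _ = 2 ^ A * (‖bet V B‖ * (C * ‖h0‖ ^ A)) := by
          rw [mul_pow]
          field_simp
      _ ≤ _ := le_add_of_nonneg_right (by positivity)

end Crest.Agent.R017.Xn590
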