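import Crest.Agent.R017.XnT_590

/-!
Row 17, section F / A (helper590): first half of the pair theorem, `M F = F'`.
-/

set_option autoImplicit false

noncomputable section

open Complex MeasureTheory Set Filter Topology
open scoped FourierTransform ContDiff SchwartzMap ComplexConjugate

namespace Crest.Agent.R017.Xn590

open Crest.Agent.R012 Crest.Agent.R012.Eis Crest.Agent.R012.Po581 Crest.Agent.R012.K695
open Crest.Agent.R017.Xi590
open Crest.Agent.R012.Four813 (phat)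
open Crest.Agent.R017.F1 (PL scl)

variable {n : ℕ} {s : ℂ} {ξ : Eis → ℂ} {κ c : ℂ} {V : ℝ} {h0 B B' : ℂ} {f : ℂ → ℂ}

/-- The line integral of `F(z) = f_+(z₁) k(z₂/z₁)`. -/
lemma line_int {g : ℂ → ℂ} (hg0 : g 0 = 0) (k : ℂ → ℂ) {M : K695.Frm} (hM : det2 M ≠ 0) {y : ℂ}
    (hy : y ≠ 0) :
    ∫ x : ℂ, (fun z : Vec => g z.1 * k (z.2 / z.1)) (y • M.1 + x • M.2) =
      (((‖y * det2 M‖ ^ 2)⁻¹ : ℝ) : ℂ) *
        ∫ t : ℂ, k t * gI g ((M.2.2 - M.2.1 * t) / (y * det2 M)) := by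
  have hyδ : y * det2 M ≠ 0 := mul_ne_zero hy hM
  have hyδp : 0 < ‖y * det2 M‖ := norm_pos_iff.mpr hyδ
  by_cases hz : M.2.1 = 0
  · have hd : det2 M = M.1.1 * M.2.2 := by unfold det2; rw [hz]; ring
    have h1 : M.1.1 ≠ 0 := by
      intro h; rw [hd, h, zero_mul] at hM; exact hM rfl
    have h2 : M.2.2 ≠ 0 := by
      intro h; rw [hd, h, mul_zero] at hM; exact hM rfl
    have e1 : ∀ x : ℂ, (fun z : Vec => g z.1 * k (z.2 / z.1)) (y • M.1 + x • M.2) =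
        g (y * M.1.1) * k ((M.2.2 / (y * M.1.1)) * x + M.1.2 / M.1.1) := by
      intro x
      have e2 : (y • M.1 + x • M.2).1 = y * M.1.1 := by
        show y * M.1.1 + x * M.2.1 = _
        rw [hz]; ring
      have e3 : (y • M.1 + x • M.2).2 = y * M.1.2 + x * M.2.2 := rfl
      simp only
      rw [e2, e3]
      congr 2
      field_simp
      ring
    simp_rw [e1]
    rw [integral_const_mul, integral_comp_affine k (div_ne_zero h2 (mul_ne_zero hy h1)),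
      Complex.real_smul]
    have e4 : ∀ t : ℂ, k t * gI g ((M.2.2 - M.2.1 * t) / (y * det2 M)) =
        gI g ((y * M.1.1)⁻¹) * k t := by
      intro t
      have : (M.2.2 - M.2.1 * t) / (y * det2 M) = (y * M.1.1)⁻¹ := by
        rw [hz, hd]
        field_simp
        ring
      rw [this, mul_comm]
    simp_rw [e4]
    rw [integral_const_mul]
    unfold gI
    rw [inv_inv]
    have e5 : ((‖M.2.2 / (y * M.1.1)‖ ^ 2)⁻¹ : ℝ) =
        (‖y * det2 M‖ ^ 2)⁻¹ * (‖(y * M.1.1)⁻¹‖ ^ 4)⁻¹ := by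
      have p1 : 0 < ‖M.1.1‖ := norm_pos_iff.mpr h1
      have p2 : 0 < ‖M.2.2‖ := norm_pos_iff.mpr h2
      have p3 : 0 < ‖y‖ := norm_pos_iff.mpr hy
      rw [hd, norm_div, norm_inv, norm_mul, norm_mul, norm_mul]
      field_simp
    rw [e5]
    push_cast
    ring
  · have hzp : 0 < ‖M.2.1‖ := norm_pos_iff.mpr hz
    set G : ℂ → ℂ := fun p => g p * k (M.2.2 / M.2.1 - y * det2 M / (M.2.1 * p)) with hG
    have e1 : ∀ x : ℂ, (fun z : Vec => g z.1 * k (z.2 / z.1)) (y • M.1 + x • M.2) =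
        G (M.2.1 * x + y * M.1.1) := by
      intro x
      have e2 : (y • M.1 + x • M.2).1 = M.2.1 * x + y * M.1.1 := by
        show y * M.1.1 + x * M.2.1 = _
        ring
      have e3 : (y • M.1 + x • M.2).2 = y * M.1.2 + x * M.2.2 := rfl
      simp only [hG]
      rw [e2, e3]
      by_cases hp : M.2.1 * x + y * M.1.1 = 0
      · rw [hp, hg0, zero_mul, zero_mul]
      · congr 2
        unfold det2
        rw [div_sub_div _ _ hz (mul_ne_zero hz hp), div_eq_div_iff hp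
          (mul_ne_zero hz (mul_ne_zero hz hp))]
        ring
    simp_rw [e1]
    rw [integral_comp_affine G hz, Complex.real_smul, F1Cube590.integral_inv G]
    set H : ℂ → ℂ := fun s => gI g s * k ((M.2.2 - y * det2 M * s) / M.2.1) with hH
    have e4 : ∀ s : ℂ, ((‖s‖ ^ 4)⁻¹ : ℝ) • G s⁻¹ = H s := by
      intro s
      simp only [hG, hH]
      rw [Complex.real_smul]
      unfold gI
      have : M.2.2 / M.2.1 - y * det2 M / (M.2.1 * s⁻¹) = (M.2.2 - y * det2 M * s) / M.2.1 := by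
        rw [← div_div, div_inv_eq_mul, sub_div]
        ring
      rw [this]
      ring
    simp_rw [e4]
    have hq : -M.2.1 / (y * det2 M) ≠ 0 := div_ne_zero (neg_ne_zero.mpr hz) hyδ
    have h5 := integral_comp_affine H hq (M.2.2 / (y * det2 M))
    have e6 : ∀ t : ℂ, H (-M.2.1 / (y * det2 M) * t + M.2.2 / (y * det2 M)) =
        k t * gI g ((M.2.2 - M.2.1 * t) / (y * det2 M)) := by
      intro t
      simp only [hH]
      have a1 : -M.2.1 / (y * det2 M) * t + M.2.2 / (y * det2 M) =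
          (M.2.2 - M.2.1 * t) / (y * det2 M) := by ring
      have a2 : (M.2.2 - y * det2 M * ((M.2.2 - M.2.1 * t) / (y * det2 M))) / M.2.1 = t := by
        field_simp
        ring
      rw [a1, a2, mul_comm]
    simp_rw [e6] at h5
    rw [h5, Complex.real_smul, ← mul_assoc]
    congr 1
    rw [← Complex.ofReal_mul]
    congr 1
    rw [norm_div, norm_neg]
    field_simp

/-- `g_+(v) = (1/6) Σ_e ξ(e) N(e)^{-n-1} g(v/e^n)` -/
lemma gI_fPn (h : Ctx n s ξ κ c V h0 B B' f) (v : ℂ) :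
    gI (fPn n ξ f) v = (1 / 6 : ℂ) * ∑' e : Eis, (if e = 0 then 0 else
      ξ e * ((((nm e : ℝ) ^ (n + 1))⁻¹ : ℝ) : ℂ)) * gI f (v / toC e ^ n) := by
  unfold gI fPn
  rw [mul_left_comm]
  congr 1
  rw [← tsum_mul_left]
  refine tsum_congr fun e => ?_
  split_ifs with he
  · subst he
    have : (nm 0 : ℂ) ^ (n - 1) = 0 := by
      have h1 : nm 0 = 0 := by decide
      rw [h1]
      have := h.n2
      simp
      omega
    rw [this]
    ring
  · have hnm : (0 : ℝ) < nm e := by exact_mod_cast nm_pos.mpr he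
    have e1 : (v / toC e ^ n)⁻¹ = toC e ^ n * v⁻¹ := by
      rw [inv_div]; rfl
    rw [e1]
    have e2 : ((‖v‖ ^ 4)⁻¹ : ℝ) * ((nm e : ℝ) ^ (n - 1)) =
        ((nm e : ℝ) ^ (n + 1))⁻¹ * (‖v / toC e ^ n‖ ^ 4)⁻¹ := by
      have e3 : ‖toC e ^ n‖ ^ 4 = (nm e : ℝ) ^ (2 * n) := by
        rw [norm_pow, ← norm_toC_sq, ← pow_mul, ← pow_mul]
        congr 1
        ring
      rw [norm_div, div_pow, e3, inv_div]
      have e4 : (nm e : ℝ) ^ (2 * n) = (nm e : ℝ) ^ (n + 1) * (nm e : ℝ) ^ (n - 1) := by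
        rw [← pow_add]
        congr 1
        have := h.n2
        omega
      rw [e4]
      field_simp
    have e5 : (((‖v‖ ^ 4)⁻¹ : ℝ) : ℂ) * ((nm e : ℂ) ^ (n - 1)) =
        ((((nm e : ℝ) ^ (n + 1))⁻¹ : ℝ) : ℂ) * (((‖v / toC e ^ n‖ ^ 4)⁻¹ : ℝ) : ℂ) := by
      rw [← Complex.ofReal_mul, ← e2]
      push_cast
      ring
    calc (((‖v‖ ^ 4)⁻¹ : ℝ) : ℂ) * (ξ e * ((nm e : ℂ) ^ (n - 1) * f (toC e ^ n * v⁻¹)))
        = ξ e * ((((‖v‖ ^ 4)⁻¹ : ℝ) : ℂ) * ((nm e : ℂ) ^ (n - 1))) * f (toC e ^ n * v⁻¹) := by ring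
      _ = _ := by rw [e5]; ring

/-- termwise integration against a Schwartz function -/
lemma swap_kg (k : 𝓢(ℂ, ℂ)) {g : ℂ → ℂ} (hg : Continuous g) {M : ℝ} (hM : ∀ v, ‖g v‖ ≤ M)
    {a : Eis → ℂ} (ha : Summable fun m => ‖a m‖) (φ : Eis → ℂ → ℂ) (hφ : ∀ m, Continuous (φ m)) :
    ∫ t, k t * ∑' m, a m * g (φ m t) = ∑' m, a m * ∫ t, k t * g (φ m t) := by
  have hI : ∀ m, Integrable (fun t => k t * g (φ m t)) := fun m => by
    refine (k.integrable (μ := volume)).mul_bdd (c := M) (hg.comp (hφ m)).aestronglyMeasurable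
      (Eventually.of_forall fun t => hM _)
  have hS := hasSum_integral_of_summable_integral_norm (μ := (volume : Measure ℂ))
    (F := fun (m : Eis) (t : ℂ) => a m * (k t * g (φ m t))) (fun m => (hI m).const_mul _) ?_
  · have e1 : ∀ t, k t * ∑' m, a m * g (φ m t) = ∑' m, a m * (k t * g (φ m t)) := by
      intro t
      rw [← tsum_mul_left]
      refine tsum_congr fun m => by ring
    simp_rw [e1]
    rw [← hS.tsum_eq]
    refine tsum_congr fun m => ?_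
    rw [integral_const_mul]
  · refine Summable.of_nonneg_of_le (fun m => integral_nonneg fun t => norm_nonneg _) (fun m => ?_)
      (ha.mul_right ((∫ t, ‖k t‖) * M))
    simp_rw [norm_mul (a m)]
    rw [integral_const_mul]
    gcongr
    rw [← integral_mul_const]
    refine integral_mono (hI m).norm ((k.integrable (μ := volume)).norm.mul_const _) fun t => ?_
    simp only
    rw [norm_mul]
    gcongr
    exact hM _

/-- `I(a) = ∫ k(t) g((ζ₂ - ζ₁ t)/(a δ)) dt` -/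
def II (f : ℂ → ℂ) (k : ℂ → ℂ) (M : K695.Frm) (a : ℂ) : ℂ :=
  ∫ t : ℂ, k t * gI f ((M.2.2 - M.2.1 * t) / (a * det2 M))

lemma norm_II_le (h : Ctx n s ξ κ c V h0 B B' f) (k : 𝓢(ℂ, ℂ)) (M : K695.Frm) :
    ∃ C : ℝ, 0 ≤ C ∧ ∀ a, ‖II f k M a‖ ≤ C := by
  obtain ⟨Cg, hCg0, hCg⟩ := sch_dec h.cs.gI.S 0
  simp only [pow_zero, mul_one, CS.S_apply] at hCg
  refine ⟨∫ t, ‖k t‖ * Cg, integral_nonneg fun t => by positivity, fun a => ?_⟩
  unfold II
  refine norm_integral_le_of_norm_le ((k.integrable (μ := volume)).norm.mul_const _)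
    (Eventually.of_forall fun t => ?_)
  rw [norm_mul]
  gcongr
  exact hCg _

/-- the divisor identity (helper960) as a hypothesis -/
def DivSum : Prop := ∀ (H : Eis → ℂ) (C : ℝ),
  (∀ m : Eis, m ≠ 0 → ‖H m‖ ≤ C * ((nm m : ℝ) ^ 2)⁻¹) →
  ∑' j : Eis, (if j = 0 then (0:ℂ) else (PL j : ℂ) * ∑' e : Eis,
    (if e = 0 then (0:ℂ) else ((nm e : ℂ))⁻¹ * H (j * e))) =
  6 * ∑' m : Eis, (if m = 0 then 0 else H m)

lemma norm_toC_pow_sq (m : Eis) (n : ℕ) : ‖toC m ^ n‖ ^ 2 = (nm m : ℝ) ^ n := by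
  rw [norm_pow, ← pow_mul, mul_comm n 2, norm_toC_pow]

lemma summable_coef (ξ : Eis → ℂ) (hξ : ∀ a, ‖ξ a‖ ≤ 1) {n : ℕ} (hn : 2 ≤ n) (h0 : ℂ) :
    Summable fun m : Eis => ‖(if m = 0 then (0:ℂ) else
      ξ m * (((‖h0 * toC m ^ n‖ ^ 2)⁻¹ : ℝ) : ℂ))‖ := by
  refine Summable.of_nonneg_of_le (fun m => norm_nonneg _) (fun m => ?_)
    (summable_inv3.mul_left ((‖h0‖ ^ 2)⁻¹ * 16))
  split_ifs with hm
  · rw [norm_zero]; positivity
  · rw [norm_mul, Complex.norm_real, Real.norm_of_nonneg (by positivity), norm_mul, mul_pow,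
      mul_inv]
    have h3 := inv_norm_pow_le hn hm
    calc ‖ξ m‖ * ((‖h0‖ ^ 2)⁻¹ * (‖toC m ^ n‖ ^ 2)⁻¹)
        ≤ 1 * ((‖h0‖ ^ 2)⁻¹ * (16 * ((1 + ‖toC m‖) ^ 3)⁻¹)) := by
          gcongr
          exact hξ m
      _ = _ := by ring

/-- `F'` of the second vector as a sum -/
lemma FOn_sum (h : Ctx n s ξ κ c V h0 B B' f) (k : 𝓢(ℂ, ℂ)) (M : K695.Frm) :
    FOn n ξ V h0 B f k ((det2 M)⁻¹ • M.2) = bet V B * ∑' m : Eis, (if m = 0 then (0:ℂ) else
      ξ m * (((‖h0 * toC m ^ n‖ ^ 2)⁻¹ : ℝ) : ℂ)) * II f k M (h0 * toC m ^ n) := by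
  obtain ⟨Cg, hCg0, hCg⟩ := sch_dec h.cs.gI.S 0
  simp only [pow_zero, mul_one, CS.S_apply] at hCg
  rw [FOn_eq h]
  have e1 : ∀ t : ℂ, k t * GO n ξ V h0 B f
      (((det2 M)⁻¹ • M.2).2 - ((det2 M)⁻¹ • M.2).1 * t) = bet V B * (k t *
        ∑' m : Eis, (if m = 0 then (0:ℂ) else
          ξ m * (((‖h0 * toC m ^ n‖ ^ 2)⁻¹ : ℝ) : ℂ)) *
            gI f ((M.2.2 - M.2.1 * t) / (h0 * toC m ^ n * det2 M))) := by
    intro t
    rw [GO_sum h, mul_left_comm]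
    congr 2
    refine tsum_congr fun m => ?_
    split_ifs with hm
    · rw [zero_mul]
    · have : (((det2 M)⁻¹ • M.2).2 - ((det2 M)⁻¹ • M.2).1 * t) / (h0 * toC m ^ n) =
          (M.2.2 - M.2.1 * t) / (h0 * toC m ^ n * det2 M) := by
        show ((det2 M)⁻¹ * M.2.2 - (det2 M)⁻¹ * M.2.1 * t) / (h0 * toC m ^ n) = _
        ring
      rw [this]
      ring
  simp_rw [e1]
  rw [integral_const_mul, swap_kg k h.cs.gI.cont hCg (summable_coef ξ h.X.le1 h.n2 h0)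
    (fun m t => (M.2.2 - M.2.1 * t) / (h0 * toC m ^ n * det2 M)) (fun m => by fun_prop)]
  rfl

/-- inner sum of the first half -/
lemma inner_sum (h : Ctx n s ξ κ c V h0 B B' f) (k : 𝓢(ℂ, ℂ)) (M : K695.Frm) (a : ℂ) :
    ∫ t : ℂ, k t * gI (fPn n ξ f) ((M.2.2 - M.2.1 * t) / (a * det2 M)) =
      (1 / 6 : ℂ) * ∑' e : Eis, (if e = 0 then 0 else
        ξ e * ((((nm e : ℝ) ^ (n + 1))⁻¹ : ℝ) : ℂ)) * II f k M (a * toC e ^ n) := by
  obtain ⟨Cg, hCg0, hCg⟩ := sch_dec h.cs.gI.S 0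
  simp only [pow_zero, mul_one, CS.S_apply] at hCg
  have e1 : ∀ t : ℂ, k t * gI (fPn n ξ f) ((M.2.2 - M.2.1 * t) / (a * det2 M)) =
      (1 / 6 : ℂ) * (k t * ∑' e : Eis, (if e = 0 then 0 else
        ξ e * ((((nm e : ℝ) ^ (n + 1))⁻¹ : ℝ) : ℂ)) *
          gI f ((M.2.2 - M.2.1 * t) / (a * toC e ^ n * det2 M))) := by
    intro t
    rw [gI_fPn h, mul_left_comm]
    congr 2
    refine tsum_congr fun e => ?_
    have : (M.2.2 - M.2.1 * t) / (a * det2 M) / toC e ^ n =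
        (M.2.2 - M.2.1 * t) / (a * toC e ^ n * det2 M) := by
      rw [div_div]
      congr 1
      ring
    rw [this]
  simp_rw [e1]
  have hs : Summable fun e : Eis => ‖(if e = 0 then (0:ℂ) else
        ξ e * ((((nm e : ℝ) ^ (n + 1))⁻¹ : ℝ) : ℂ))‖ := by
    refine Summable.of_nonneg_of_le (fun m => norm_nonneg _) (fun e => ?_)
      (summable_inv3.mul_left 16)
    split_ifs with he
    · rw [norm_zero]; positivity
    · have hnm : (1 : ℝ) ≤ nm e := by exact_mod_cast nm_pos.mpr he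
      rw [norm_mul, Complex.norm_real, Real.norm_of_nonneg (by positivity)]
      have h3 := inv_norm_pow_le h.n2 he
      rw [norm_toC_pow_sq] at h3
      calc ‖ξ e‖ * ((nm e : ℝ) ^ (n + 1))⁻¹ ≤ 1 * ((nm e : ℝ) ^ n)⁻¹ := by
            gcongr
            · exact h.X.le1 e
            · omega
        _ ≤ _ := by rw [one_mul]; exact h3
  rw [integral_const_mul, swap_kg k h.cs.gI.cont hCg hs
    (fun e t => (M.2.2 - M.2.1 * t) / (a * toC e ^ n * det2 M)) (fun m => by fun_prop)]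
  rfl

/-- **First half of the pair theorem**: `M F = F'`. -/
theorem first_half (hdiv : DivSum) (h : Ctx n s ξ κ c V h0 B B' f) (k : 𝓢(ℂ, ℂ)) (M : K695.Frm)
    (hM : det2 M ≠ 0) :
    MOpn n ξ V h0 B (FPn n ξ f k) M = scl (det2 M) (FOn n ξ V h0 B f k) M.2 := by
  obtain ⟨C, hC0, hC⟩ := norm_II_le h k M
  have hδp : 0 < ‖det2 M‖ := norm_pos_iff.mpr hM
  have hhp : 0 < ‖h0‖ := norm_pos_iff.mpr h.C.h0
  set H : Eis → ℂ := fun m => ξ m * ((((nm m : ℝ) ^ n)⁻¹ : ℝ) : ℂ) * II f k M (h0 * toC m ^ n)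
    with hH
  have hHb : ∀ m : Eis, m ≠ 0 → ‖H m‖ ≤ C * ((nm m : ℝ) ^ 2)⁻¹ := by
    intro m hm
    have hnm : (1 : ℝ) ≤ nm m := by exact_mod_cast nm_pos.mpr hm
    simp only [hH]
    rw [norm_mul, norm_mul, Complex.norm_real, Real.norm_of_nonneg (by positivity)]
    calc ‖ξ m‖ * ((nm m : ℝ) ^ n)⁻¹ * ‖II f k M (h0 * toC m ^ n)‖
        ≤ 1 * ((nm m : ℝ) ^ 2)⁻¹ * C := by
          gcongr
          · exact h.X.le1 m
          · exact h.n2
          · exact hC _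
      _ = _ := by ring
  have hd := hdiv H C hHb
  unfold scl
  rw [FOn_sum h]
  have hL : MOpn n ξ V h0 B (FPn n ξ f k) M = bet V B * ((((‖h0‖ ^ 2)⁻¹ * (‖det2 M‖ ^ 2)⁻¹ : ℝ) : ℂ) *
      (1 / 6) * ∑' j : Eis, (if j = 0 then (0:ℂ) else (PL j : ℂ) * ∑' e : Eis,
        (if e = 0 then (0:ℂ) else ((nm e : ℂ))⁻¹ * H (j * e)))) := by
    unfold MOpn
    show bet V B * _ = _
    congr 1
    rw [← tsum_mul_left]
    refine tsum_congr fun j => ?_
    split_ifs with hj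
    · rw [mul_zero]
    · have hjn := hm_ne h hj
      have hnj : (0 : ℝ) < nm j := by exact_mod_cast nm_pos.mpr hj
      have e1 : ∫ x : ℂ, FPn n ξ f k ((h0 * toC j ^ n) • M.1 + x • M.2) =
          (((‖h0 * toC j ^ n * det2 M‖ ^ 2)⁻¹ : ℝ) : ℂ) *
            ∫ t : ℂ, k t * gI (fPn n ξ f) ((M.2.2 - M.2.1 * t) / (h0 * toC j ^ n * det2 M)) :=
        line_int (fPn_zero h) k hM hjn
      rw [e1, inner_sum h]
      have e2 : (((‖h0 * toC j ^ n * det2 M‖ ^ 2)⁻¹ : ℝ) : ℂ) =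
          (((‖h0‖ ^ 2)⁻¹ * (‖det2 M‖ ^ 2)⁻¹ : ℝ) : ℂ) * ((((nm j : ℝ) ^ n)⁻¹ : ℝ) : ℂ) := by
        rw [← Complex.ofReal_mul]
        congr 1
        rw [norm_mul, norm_mul, mul_pow, mul_pow, norm_toC_pow_sq]
        field_simp
      rw [e2]
      have e3 : ∀ e : Eis, (if e = 0 then (0:ℂ) else
          ξ e * ((((nm e : ℝ) ^ (n + 1))⁻¹ : ℝ) : ℂ)) * II f k M (h0 * toC j ^ n * toC e ^ n) *
            (ξ j * ((((nm j : ℝ) ^ n)⁻¹ : ℝ) : ℂ)) =
          (if e = 0 then (0:ℂ) else ((nm e : ℂ))⁻¹ * H (j * e)) := by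
        intro e
        split_ifs with he
        · ring
        · have hne : (nm e : ℂ) ≠ 0 := by exact_mod_cast (nm_pos.mpr he).ne'
          have hnj' : (nm j : ℂ) ≠ 0 := by exact_mod_cast (nm_pos.mpr hj).ne'
          simp only [hH]
          rw [h.X.mul, nm_mul, map_mul, mul_pow, ← mul_assoc h0]
          push_cast
          rw [mul_pow, pow_succ]
          field_simp
      have e4 : (∑' e : Eis, (if e = 0 then (0:ℂ) else
          ξ e * ((((nm e : ℝ) ^ (n + 1))⁻¹ : ℝ) : ℂ)) * II f k M (h0 * toC j ^ n * toC e ^ n)) *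
            (ξ j * ((((nm j : ℝ) ^ n)⁻¹ : ℝ) : ℂ)) =
          ∑' e : Eis, (if e = 0 then (0:ℂ) else ((nm e : ℂ))⁻¹ * H (j * e)) := by
        rw [← tsum_mul_right]
        exact tsum_congr e3
      rw [← e4]
      ring
  rw [hL, hd]
  have hR : ∑' m : Eis, (if m = 0 then (0:ℂ) else
      ξ m * (((‖h0 * toC m ^ n‖ ^ 2)⁻¹ : ℝ) : ℂ)) * II f k M (h0 * toC m ^ n) =
      (((‖h0‖ ^ 2)⁻¹ : ℝ) : ℂ) * ∑' m : Eis, (if m = 0 then 0 else H m) := by
    rw [← tsum_mul_left]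
    refine tsum_congr fun m => ?_
    split_ifs with hm
    · ring
    · simp only [hH]
      have e2 : (((‖h0 * toC m ^ n‖ ^ 2)⁻¹ : ℝ) : ℂ) =
          (((‖h0‖ ^ 2)⁻¹ : ℝ) : ℂ) * ((((nm m : ℝ) ^ n)⁻¹ : ℝ) : ℂ) := by
        rw [← Complex.ofReal_mul]
        congr 1
        rw [norm_mul, mul_pow, norm_toC_pow_sq, mul_inv]
      rw [e2]
      ring
  rw [hR]
  push_cast
  ring

end Crest.Agent.R017.Xn590
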