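import Crest.Agent.R017.XnZ_590
import Mathlib.Analysis.Calculus.LineDeriv.IntegrationByParts

/-!
Row 17, section F / A (helper590): K2, step 2 (integration by parts):
`∫ fC(|s|² W)(M) e(-P M^n) dM = n² |P|² ∫ |M|^{2n-2} fC W (M) e(-P M^n) dM`.
-/

set_option autoImplicit false

noncomputable section

open Complex MeasureTheory Set Filter Topology
open scoped FourierTransform ContDiff SchwartzMap ComplexConjugate ENNReal

namespace Crest.Agent.R017.Xn590

open Crest.Agent.R012 Crest.Agent.R012.Eis Crest.Agent.R012.Po581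
open Crest.Agent.R017.Xi590

lemma CS_mul {f g : ℂ → ℂ} (h : CS f) (hg : ContDiff ℝ ∞ g) : CS (fun s => g s * f s) := by
  obtain ⟨a, b, ha, hab, hs⟩ := h.supp
  exact ⟨hg.mul h.smooth, a, b, ha, hab, fun x hx => by rw [hs x hx, mul_zero]⟩

/-- `τ(z) = z + z̄` -/
def tau (z : ℂ) : ℂ := z + conj z

lemma eC_tau (z : ℂ) : eC z = cexp (2 * Real.pi * I * tau z) := rfl

lemma tau_neg (z : ℂ) : tau (-z) = -tau z := by unfold tau; rw [map_neg]; ring

lemma tau_add (z w : ℂ) : tau (z + w) = tau z + tau w := by unfold tau; rw [map_add]; ring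

lemma tau_real_mul (t : ℝ) (z : ℂ) : tau ((t : ℂ) * z) = t * tau z := by
  unfold tau; rw [map_mul, Complex.conj_ofReal]; ring

lemma norm_tau_le (z : ℂ) : ‖tau z‖ ≤ 2 * ‖z‖ := by
  unfold tau
  calc ‖z + conj z‖ ≤ ‖z‖ + ‖conj z‖ := norm_add_le _ _
    _ = 2 * ‖z‖ := by rw [Complex.norm_conj]; ring

lemma contDiff_tau : ContDiff ℝ ∞ tau := by
  unfold tau
  exact contDiff_id.add Complex.conjCLE.contDiff

/-- `D_v G(s) = -2πi τ(v s) G(s)` -/
def DvG (v : ℂ) (G : ℂ → ℂ) (s : ℂ) : ℂ := (-(2 * Real.pi * I) * tau (v * s)) * G s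

lemma CS_DvG {G : ℂ → ℂ} (hG : CS G) (v : ℂ) : CS (DvG v G) := by
  unfold DvG
  exact CS_mul hG (contDiff_const.mul (contDiff_tau.comp (contDiff_const.mul contDiff_id)))

lemma norm_2piI : ‖(2 * Real.pi * I : ℂ)‖ = 2 * Real.pi := by
  rw [norm_mul, norm_mul, Complex.norm_I, Complex.norm_real, Real.norm_of_nonneg Real.pi_pos.le]
  norm_num

lemma hasLine_fC {G : ℂ → ℂ} (hG : CS G) (M v : ℂ) :
    HasLineDerivAt ℝ (fC G) (fC (DvG v G) M) M v := by
  unfold HasLineDerivAt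
  have hI : Integrable (fun s : ℂ => s * G s) := (CS_mul hG contDiff_id).integrable
  have key := hasDerivAt_integral_of_dominated_loc_of_deriv_le (𝕜 := ℝ) (μ := (volume : Measure ℂ))
    (F := fun (t : ℝ) (s : ℂ) => G s * eC (-((M + t • v) * s)))
    (F' := fun (t : ℝ) (s : ℂ) => (-(2 * Real.pi * I) * tau (v * s)) * G s *
      eC (-((M + t • v) * s)))
    (x₀ := (0 : ℝ)) (s := univ) (bound := fun s => 2 * Real.pi * (2 * ‖v‖) * ‖s * G s‖)
    Filter.univ_mem ?_ ?_ ?_ ?_ ?_ ?_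
  · have := key.2
    simp only [zero_smul, add_zero] at this
    exact this
  · refine Eventually.of_forall fun t => ?_
    exact (hG.cont.mul (eC_continuous.comp (by fun_prop))).aestronglyMeasurable
  · have h1 := integrable_mul_eC hG.integrable (-(M + (0:ℝ) • v))
    refine h1.congr (Eventually.of_forall fun s => ?_)
    simp only [neg_mul]
  · have h1 := (CS_DvG hG v).cont
    exact (h1.mul (eC_continuous.comp (by fun_prop))).aestronglyMeasurable
  · refine Eventually.of_forall fun s t _ => ?_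
    rw [norm_mul, eC_norm, mul_one, norm_mul, norm_mul, norm_neg, norm_2piI, norm_mul]
    have h1 := norm_tau_le (v * s)
    rw [norm_mul] at h1
    calc 2 * Real.pi * ‖tau (v * s)‖ * ‖G s‖ ≤ 2 * Real.pi * (2 * (‖v‖ * ‖s‖)) * ‖G s‖ := by gcongr
      _ = _ := by ring
  · exact hI.norm.const_mul _
  · refine Eventually.of_forall fun s t _ => ?_
    have e1 : ∀ t : ℝ, G s * eC (-((M + t • v) * s)) =
        G s * cexp (-(2 * Real.pi * I) * tau (M * s) +
          (t : ℂ) * (-(2 * Real.pi * I) * tau (v * s))) := by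
      intro t
      rw [eC_tau, tau_neg]
      have : (M + t • v) * s = M * s + (t : ℂ) * (v * s) := by
        rw [Complex.real_smul]; ring
      rw [this, tau_add, tau_real_mul]
      congr 2
      ring
    have h1 : HasDerivAt (fun t : ℝ => (-(2 * Real.pi * I) * tau (M * s) +
          (t : ℂ) * (-(2 * Real.pi * I) * tau (v * s))))
        (1 * (-(2 * Real.pi * I) * tau (v * s))) t := by
      have h2 : HasDerivAt (fun t : ℝ => (t : ℂ)) 1 t := Complex.ofRealCLM.hasDerivAt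
      exact (h2.mul_const _).const_add _
    have h3 := (h1.cexp).const_mul (G s)
    have e2 : (fun t : ℝ => G s * eC (-((M + t • v) * s))) =
        fun t : ℝ => G s * cexp (-(2 * Real.pi * I) * tau (M * s) +
          (t : ℂ) * (-(2 * Real.pi * I) * tau (v * s))) := by
      ext t; exact e1 t
    rw [e2]
    refine h3.congr_deriv ?_
    linear_combination (2 * Real.pi * I * tau (v * s)) * e1 t

/-- `E(M) = e(-P M^n)` -/
def EE (n : ℕ) (P M : ℂ) : ℂ := eC (-(P * M ^ n))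

lemma hasLine_EE (n : ℕ) (P M v : ℂ) :
    HasLineDerivAt ℝ (EE n P) ((-(2 * Real.pi * I) * tau (P * (n * M ^ (n - 1)) * v)) * EE n P M)
      M v := by
  unfold HasLineDerivAt
  have h1 : HasDerivAt (fun t : ℝ => M + t • v) v 0 := by
    have h2 : HasDerivAt (fun t : ℝ => t • v) ((1:ℝ) • v) 0 := (hasDerivAt_id (0:ℝ)).smul_const v
    rw [one_smul] at h2
    exact h2.const_add M
  have h3 : HasDerivAt (fun t : ℝ => -(P * (M + t • v) ^ n))
      (-(P * (n * M ^ (n - 1) * v))) 0 := by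
    have h4 := ((h1.pow n).const_mul P).neg
    simp only [zero_smul, add_zero] at h4
    exact h4
  have h5 : HasDerivAt (fun t : ℝ => tau (-(P * (M + t • v) ^ n)))
      (tau (-(P * (n * M ^ (n - 1) * v)))) 0 := by
    have h6 : HasDerivAt (fun t : ℝ => conj (-(P * (M + t • v) ^ n)))
        (conj (-(P * (n * M ^ (n - 1) * v)))) 0 :=
      (Complex.conjCLE.toContinuousLinearMap.hasFDerivAt.comp_hasDerivAt (0:ℝ) h3)
    exact h3.add h6
  have h7 := ((h5.const_mul (2 * Real.pi * I)).cexp)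
  have e1 : (fun t : ℝ => EE n P (M + t • v)) =
      fun t : ℝ => cexp (2 * Real.pi * I * tau (-(P * (M + t • v) ^ n))) := by
    ext t; rfl
  rw [e1]
  refine h7.congr_deriv ?_
  rw [zero_smul, add_zero, tau_neg (P * (n * M ^ (n - 1) * v))]
  have : EE n P M = cexp (2 * Real.pi * I * tau (-(P * M ^ n))) := rfl
  rw [this]
  have : P * (n * M ^ (n - 1)) * v = P * (n * M ^ (n - 1) * v) := by ring
  rw [this]
  ring

lemma EE_cont (n : ℕ) (P : ℂ) : Continuous (EE n P) := by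
  unfold EE
  exact eC_continuous.comp (by fun_prop)

lemma norm_EE (n : ℕ) (P M : ℂ) : ‖EE n P M‖ = 1 := eC_norm _

/-- Schwartz times polynomially bounded -/
lemma integrable_fC_poly {G : ℂ → ℂ} (hG : CS G) {p : ℂ → ℂ} (hp : Continuous p) {C : ℝ} {N : ℕ}
    (hC : ∀ M, ‖p M‖ ≤ C * (1 + ‖M‖) ^ N) : Integrable (fun M => fC G M * p M) := by
  obtain ⟨D, hD0, hD⟩ := sch_dec (fCS hG.S) (N + 3)
  simp only [fCS_apply, CS.S_coe] at hD
  have hC0 : 0 ≤ C := by
    have h1 := (norm_nonneg _).trans (hC 0)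
    simpa using h1
  refine integrable_of_dec (C := C * D) ((fC_continuous_of hG.integrable).mul hp) fun M => ?_
  rw [norm_mul]
  calc ‖fC G M‖ * ‖p M‖ * (1 + ‖M‖) ^ 3 ≤ ‖fC G M‖ * (C * (1 + ‖M‖) ^ N) * (1 + ‖M‖) ^ 3 := by
        gcongr
        exact hC M
    _ = C * (‖fC G M‖ * (1 + ‖M‖) ^ (N + 3)) := by rw [pow_add]; ring
    _ ≤ C * D := by
        gcongr
        exact hD M

/-- integration by parts -/
lemma by_parts {G : ℂ → ℂ} (hG : CS G) {g g' : ℂ → ℂ} {v : ℂ}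
    (hg : ∀ M, HasLineDerivAt ℝ g (g' M) M v) (hgc : Continuous g) (hgc' : Continuous g')
    {C C' : ℝ} {N N' : ℕ} (hC : ∀ M, ‖g M‖ ≤ C * (1 + ‖M‖) ^ N)
    (hC' : ∀ M, ‖g' M‖ ≤ C' * (1 + ‖M‖) ^ N') :
    ∫ M, fC G M * g' M = -∫ M, fC (DvG v G) M * g M := by
  have h := integral_bilinear_hasLineDerivAt_right_eq_neg_left_of_integrable (μ := volume)
    (f := fC G) (f' := fun M => fC (DvG v G) M) (g := g) (g' := g') (v := v)
    (B := ContinuousLinearMap.mul ℝ ℂ)
    (integrable_fC_poly (CS_DvG hG v) hgc hC) (integrable_fC_poly hG hgc' hC')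
    (integrable_fC_poly hG hgc hC) (fun M _ => hasLine_fC hG M v) (fun M _ => hg M)
  exact h

lemma tau_comb1 (z : ℂ) : tau (1 * z) - I * tau (I * z) = 2 * z := by
  unfold tau
  rw [one_mul, map_mul, Complex.conj_I]
  linear_combination (conj z - z) * Complex.I_mul_I

lemma tau_comb2 (z : ℂ) : tau (1 * z) + I * tau (I * z) = 2 * conj z := by
  unfold tau
  rw [one_mul, map_mul, Complex.conj_I]
  linear_combination (z - conj z) * Complex.I_mul_I

lemma fC_add_mul {G1 G2 : ℂ → ℂ} (h1 : Integrable G1) (h2 : Integrable G2) (a : ℂ) (M : ℂ) :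
    fC G1 M + a * fC G2 M = fC (fun s => G1 s + a * G2 s) M := by
  unfold fC
  rw [← integral_const_mul, ← integral_add]
  · congr 1
    ext s
    ring
  · have := integrable_mul_eC h1 (-M)
    simpa [neg_mul] using this
  · have := (integrable_mul_eC h2 (-M)).const_mul a
    simpa [neg_mul] using this

lemma norm_pow_bd {n : ℕ} (M : ℂ) : ‖M ^ n‖ ≤ 1 * (1 + ‖M‖) ^ n := by
  rw [norm_pow, one_mul]
  gcongr
  linarith

/-- combination of two integrations by parts -/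
lemma comb {G : ℂ → ℂ} (hG : CS G) {g g1 gi : ℂ → ℂ}
    (hg1 : ∀ M, HasLineDerivAt ℝ g (g1 M) M 1) (hgi : ∀ M, HasLineDerivAt ℝ g (gi M) M I)
    (hgc : Continuous g) (hc1 : Continuous g1) (hci : Continuous gi)
    {C C1 C2 : ℝ} {N N1 N2 : ℕ} (hC : ∀ M, ‖g M‖ ≤ C * (1 + ‖M‖) ^ N)
    (hC1 : ∀ M, ‖g1 M‖ ≤ C1 * (1 + ‖M‖) ^ N1) (hC2 : ∀ M, ‖gi M‖ ≤ C2 * (1 + ‖M‖) ^ N2) (a : ℂ) :
    ∫ M, fC G M * (g1 M + a * gi M) =
      -∫ M, fC (fun s => DvG 1 G s + a * DvG I G s) M * g M := by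
  have h1 := by_parts hG hg1 hgc hc1 hC hC1
  have h2 := by_parts hG hgi hgc hci hC hC2
  have i1 := integrable_fC_poly hG hc1 hC1
  have i2 := integrable_fC_poly hG hci hC2
  have j1 := integrable_fC_poly (CS_DvG hG 1) hgc hC
  have j2 := integrable_fC_poly (CS_DvG hG I) hgc hC
  have e1 : ∀ M, fC G M * (g1 M + a * gi M) = fC G M * g1 M + a * (fC G M * gi M) := by
    intro M; ring
  have e2 : ∀ M, fC (fun s => DvG 1 G s + a * DvG I G s) M * g M =
      fC (DvG 1 G) M * g M + a * (fC (DvG I G) M * g M) := by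
    intro M
    rw [← fC_add_mul (CS_DvG hG 1).integrable (CS_DvG hG I).integrable]
    ring
  simp_rw [e1, e2]
  rw [integral_add i1 (i2.const_mul a), integral_add j1 (j2.const_mul a), integral_const_mul,
    integral_const_mul, h1, h2]
  ring

/-- `g(M) = M^j E(M)` -/
def gj (n : ℕ) (P : ℂ) (j : ℕ) (M : ℂ) : ℂ := M ^ j * EE n P M

/-- its line derivative -/
def gj' (n : ℕ) (P : ℂ) (j : ℕ) (v M : ℂ) : ℂ :=
  (j * M ^ (j - 1) * v) * EE n P M +
    M ^ j * ((-(2 * Real.pi * I) * tau (P * (n * M ^ (n - 1)) * v)) * EE n P M)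

lemma hasLine_gj (n : ℕ) (P : ℂ) (j : ℕ) (v M : ℂ) :
    HasLineDerivAt ℝ (gj n P j) (gj' n P j v M) M v := by
  have h2 := hasLine_EE n P M v
  unfold HasLineDerivAt at h2 ⊢
  have h1 : HasDerivAt (fun t : ℝ => (M + t • v) ^ j) (j * M ^ (j - 1) * v) 0 := by
    have h3 : HasDerivAt (fun t : ℝ => M + t • v) v 0 := by
      have h4 : HasDerivAt (fun t : ℝ => t • v) ((1:ℝ) • v) 0 :=
        (hasDerivAt_id (0:ℝ)).smul_const v
      rw [one_smul] at h4
      exact h4.const_add M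
    have h5 := h3.pow j
    simp only [zero_smul, add_zero] at h5
    exact h5
  have h6 := h1.mul h2
  refine h6.congr_deriv ?_
  rw [zero_smul, add_zero]
  rfl

lemma gj_cont (n : ℕ) (P : ℂ) (j : ℕ) : Continuous (gj n P j) := by
  unfold gj
  exact (continuous_pow j).mul (EE_cont n P)

lemma gj'_cont (n : ℕ) (P : ℂ) (j : ℕ) (v : ℂ) : Continuous (gj' n P j v) := by
  unfold gj'
  have hE := EE_cont n P
  have h1 : Continuous fun M : ℂ => tau (P * (n * M ^ (n - 1)) * v) :=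
    contDiff_tau.continuous.comp (by fun_prop)
  exact (by fun_prop : Continuous fun M : ℂ => (j * M ^ (j - 1) * v)).mul hE |>.add
    ((continuous_pow j).mul ((continuous_const.mul h1).mul hE))

lemma gj_bd (n : ℕ) (P : ℂ) (j : ℕ) (M : ℂ) : ‖gj n P j M‖ ≤ 1 * (1 + ‖M‖) ^ j := by
  unfold gj
  rw [norm_mul, norm_EE, mul_one]
  exact norm_pow_bd M

lemma gj'_bd (n : ℕ) (P : ℂ) (j : ℕ) (v M : ℂ) : ‖gj' n P j v M‖ ≤
    (j * ‖v‖ + 2 * Real.pi * (2 * (‖P‖ * n * ‖v‖))) * (1 + ‖M‖) ^ (j + n) := by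
  have hp := Real.pi_pos
  unfold gj'
  have hM := norm_nonneg M
  have h1 : 1 ≤ 1 + ‖M‖ := by linarith
  have ha : ‖(j * M ^ (j - 1) * v) * EE n P M‖ ≤ j * ‖v‖ * (1 + ‖M‖) ^ (j + n) := by
    rw [norm_mul, norm_EE, mul_one, norm_mul, norm_mul, Complex.norm_natCast]
    have h2 : ‖M ^ (j - 1)‖ ≤ (1 + ‖M‖) ^ (j + n) := by
      have := norm_pow_bd (n := j - 1) M
      rw [one_mul] at this
      exact this.trans (pow_le_pow_right₀ h1 (by omega))
    calc (j : ℝ) * ‖M ^ (j - 1)‖ * ‖v‖ ≤ j * (1 + ‖M‖) ^ (j + n) * ‖v‖ := by gcongr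
      _ = _ := by ring
  have hb : ‖M ^ j * ((-(2 * Real.pi * I) * tau (P * (n * M ^ (n - 1)) * v)) * EE n P M)‖ ≤
      2 * Real.pi * (2 * (‖P‖ * n * ‖v‖)) * (1 + ‖M‖) ^ (j + n) := by
    rw [norm_mul, norm_mul, norm_EE, mul_one, norm_mul, norm_neg, norm_2piI]
    have h3 := norm_tau_le (P * (n * M ^ (n - 1)) * v)
    have h4 := norm_pow_bd (n := n - 1) M
    have h5 := norm_pow_bd (n := j) M
    rw [norm_mul, norm_mul, norm_mul, Complex.norm_natCast] at h3
    have h6 : ‖M ^ j‖ * ‖M ^ (n - 1)‖ ≤ (1 + ‖M‖) ^ (j + n) := by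
      calc ‖M ^ j‖ * ‖M ^ (n - 1)‖ ≤ (1 * (1 + ‖M‖) ^ j) * (1 * (1 + ‖M‖) ^ (n - 1)) := by gcongr
        _ = (1 + ‖M‖) ^ (j + (n - 1)) := by rw [pow_add]; ring
        _ ≤ _ := pow_le_pow_right₀ h1 (by omega)
    calc ‖M ^ j‖ * (2 * Real.pi * ‖tau (P * (n * M ^ (n - 1)) * v)‖)
        ≤ ‖M ^ j‖ * (2 * Real.pi * (2 * (‖P‖ * (n * ‖M ^ (n - 1)‖) * ‖v‖))) := by gcongr
      _ = 2 * Real.pi * (2 * (‖P‖ * n * ‖v‖)) * (‖M ^ j‖ * ‖M ^ (n - 1)‖) := by ring
      _ ≤ _ := by gcongr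
  calc _ ≤ _ := norm_add_le _ _
    _ ≤ _ := add_le_add ha hb
    _ = _ := by ring

lemma four_pi_I_ne : (4 * Real.pi * I : ℂ) ≠ 0 := by
  have : (Real.pi : ℂ) ≠ 0 := by exact_mod_cast Real.pi_ne_zero
  exact mul_ne_zero (mul_ne_zero (by norm_num) this) Complex.I_ne_zero

lemma fC_smul (a : ℂ) (G : ℂ → ℂ) (M : ℂ) : fC (fun s => a * G s) M = a * fC G M := by
  unfold fC
  rw [← integral_const_mul]
  congr 1
  ext s
  ring

/-- `∂`-step: `∫ fC(s G) E = -∫ fC G · (n P M^{n-1}) E` -/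
lemma step_a {G : ℂ → ℂ} (hG : CS G) (n : ℕ) (P : ℂ) :
    ∫ M, fC (fun s => s * G s) M * EE n P M =
      -∫ M, fC G M * ((P * (n * M ^ (n - 1))) * EE n P M) := by
  have h := comb hG (fun M => hasLine_gj n P 0 1 M) (fun M => hasLine_gj n P 0 I M)
    (gj_cont n P 0) (gj'_cont n P 0 1) (gj'_cont n P 0 I) (gj_bd n P 0) (gj'_bd n P 0 1)
    (gj'_bd n P 0 I) (-I)
  have e1 : ∀ M, fC G M * (gj' n P 0 1 M + -I * gj' n P 0 I M) =
      -(4 * Real.pi * I) * (fC G M * ((P * (n * M ^ (n - 1))) * EE n P M)) := by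
    intro M
    unfold gj'
    have h1 := tau_comb1 (P * (n * M ^ (n - 1)))
    rw [mul_comm (1:ℂ), mul_comm I (P * (n * M ^ (n - 1)))] at h1
    simp only [Nat.cast_zero, zero_mul, pow_zero, one_mul, zero_add]
    linear_combination (-(2 * Real.pi * I) * fC G M * EE n P M) * h1
  have e2 : (fun s => DvG 1 G s + -I * DvG I G s) =
      fun s => -(4 * Real.pi * I) * (s * G s) := by
    ext s
    unfold DvG
    have h1 := tau_comb1 s
    linear_combination (-(2 * Real.pi * I) * G s) * h1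
  rw [e2] at h
  simp_rw [e1, fC_smul] at h
  rw [integral_const_mul] at h
  have e3 : ∀ M, -(4 * Real.pi * I) * fC (fun s => s * G s) M * gj n P 0 M =
      -(4 * Real.pi * I) * (fC (fun s => s * G s) M * EE n P M) := by
    intro M
    unfold gj
    rw [pow_zero, one_mul]
    ring
  simp_rw [e3] at h
  rw [integral_const_mul] at h
  have h4 := four_pi_I_ne
  have h5 : (4 * Real.pi * I : ℂ) * (∫ M, fC (fun s => s * G s) M * EE n P M) =
      (4 * Real.pi * I : ℂ) * (-∫ M, fC G M * ((P * (n * M ^ (n - 1))) * EE n P M)) := by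
    linear_combination (-1 : ℂ) * h
  exact mul_left_cancel₀ h4 h5

/-- `∂̄`-step -/
lemma step_b {G : ℂ → ℂ} (hG : CS G) (n : ℕ) (P : ℂ) (j : ℕ) :
    ∫ M, fC (fun s => conj s * G s) M * (M ^ j * EE n P M) =
      -∫ M, fC G M * (conj (P * (n * M ^ (n - 1))) * (M ^ j * EE n P M)) := by
  have h := comb hG (fun M => hasLine_gj n P j 1 M) (fun M => hasLine_gj n P j I M)
    (gj_cont n P j) (gj'_cont n P j 1) (gj'_cont n P j I) (gj_bd n P j) (gj'_bd n P j 1)
    (gj'_bd n P j I) I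
  have e1 : ∀ M, fC G M * (gj' n P j 1 M + I * gj' n P j I M) =
      -(4 * Real.pi * I) * (fC G M * (conj (P * (n * M ^ (n - 1))) * (M ^ j * EE n P M))) := by
    intro M
    unfold gj'
    have h1 := tau_comb2 (P * (n * M ^ (n - 1)))
    rw [mul_comm (1:ℂ), mul_comm I (P * (n * M ^ (n - 1)))] at h1
    linear_combination (-(2 * Real.pi * I) * fC G M * M ^ j * EE n P M) * h1 +
      (fC G M * (j * M ^ (j - 1)) * EE n P M) * Complex.I_mul_I
  have e2 : (fun s => DvG 1 G s + I * DvG I G s) =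
      fun s => -(4 * Real.pi * I) * (conj s * G s) := by
    ext s
    unfold DvG
    have h1 := tau_comb2 s
    linear_combination (-(2 * Real.pi * I) * G s) * h1
  rw [e2] at h
  simp_rw [e1, fC_smul] at h
  rw [integral_const_mul] at h
  have e3 : ∀ M, -(4 * Real.pi * I) * fC (fun s => conj s * G s) M * gj n P j M =
      -(4 * Real.pi * I) * (fC (fun s => conj s * G s) M * (M ^ j * EE n P M)) := by
    intro M
    unfold gj
    ring
  simp_rw [e3] at h
  rw [integral_const_mul] at h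
  have h4 := four_pi_I_ne
  have h5 : (4 * Real.pi * I : ℂ) * (∫ M, fC (fun s => conj s * G s) M * (M ^ j * EE n P M)) =
      (4 * Real.pi * I : ℂ) *
        (-∫ M, fC G M * (conj (P * (n * M ^ (n - 1))) * (M ^ j * EE n P M))) := by
    linear_combination (-1 : ℂ) * h
  exact mul_left_cancel₀ h4 h5

/-- **K2, step 2** -/
theorem k2_step2 {n : ℕ} (hn : 2 ≤ n) {f : ℂ → ℂ} (hf : CS f) (P : ℂ) :
    ∫ M : ℂ, fC (powW (2 * n) n f) M * eC (-(P * M ^ n)) =
      (n : ℂ) ^ 2 * ((‖P‖ ^ 2 : ℝ) : ℂ) * ∫ M : ℂ, ((‖M‖ ^ (2 * (n - 1)) : ℝ) : ℂ) *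
        (fC (powW (2 * (n - 1)) n f) M * eC (-(P * M ^ n))) := by
  have hn0 : n ≠ 0 := by omega
  have hW : CS (powW (2 * (n - 1)) n f) := CS_powW hf _ hn0
  have hW1 : CS (fun s => conj s * powW (2 * (n - 1)) n f s) :=
    CS_mul hW Complex.conjCLE.contDiff
  have e0 : powW (2 * n) n f = fun s => s * (conj s * powW (2 * (n - 1)) n f s) := by
    ext s
    unfold powW
    have h1 : s * conj s = ((‖s‖ ^ 2 : ℝ) : ℂ) := by
      rw [Complex.mul_conj, Complex.normSq_eq_norm_sq]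
    rw [← mul_assoc, h1, ← mul_assoc, ← Complex.ofReal_mul, ← pow_add]
    congr 4
    omega
  rw [e0]
  have h1 := step_a hW1 n P
  have h2 := step_b hW n P (n - 1)
  show ∫ M : ℂ, fC (fun s => s * (conj s * powW (2 * (n - 1)) n f s)) M * EE n P M = _
  rw [h1]
  have e3 : ∀ M, fC (fun s => conj s * powW (2 * (n - 1)) n f s) M *
      ((P * (n * M ^ (n - 1))) * EE n P M) = (P * n) *
        (fC (fun s => conj s * powW (2 * (n - 1)) n f s) M * (M ^ (n - 1) * EE n P M)) := by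
    intro M; ring
  simp_rw [e3]
  rw [integral_const_mul, h2]
  have e4 : ∀ M, fC (powW (2 * (n - 1)) n f) M * (conj (P * (n * M ^ (n - 1))) *
      (M ^ (n - 1) * EE n P M)) = (conj P * n) * (((‖M‖ ^ (2 * (n - 1)) : ℝ) : ℂ) *
        (fC (powW (2 * (n - 1)) n f) M * eC (-(P * M ^ n)))) := by
    intro M
    have h3 : conj (M ^ (n - 1)) * M ^ (n - 1) = ((‖M‖ ^ (2 * (n - 1)) : ℝ) : ℂ) := by
      rw [mul_comm, Complex.mul_conj, Complex.normSq_eq_norm_sq, norm_pow, ← pow_mul,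
        mul_comm (n - 1) 2]
    rw [← h3, map_mul, map_mul, Complex.conj_natCast]
    unfold EE
    ring
  simp_rw [e4]
  rw [integral_const_mul]
  have h5 : P * conj P = ((‖P‖ ^ 2 : ℝ) : ℂ) := by
    rw [Complex.mul_conj, Complex.normSq_eq_norm_sq]
  rw [← h5]
  ring

end Crest.Agent.R017.Xn590
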