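import Crest.Agent.R017.XnC_590
import Crest.Agent.R017.XnTate_960

/-!
Row 17 (helper960), K2a step 2 for helper590's pair theorem: integration by parts
`n ∫ fC(|s|² W)(M) e(-P M^n) dM = n³ |P|² ∫ |M|^(2n-2) fC W(M) e(-P M^n) dM`.
-/

set_option autoImplicit false

noncomputable section

open Complex MeasureTheory Set Filter Topology
open scoped FourierTransform ContDiff SchwartzMap

namespace Crest.Agent.R017.Xn960

open Crest.Agent.R012 Crest.Agent.R012.Eis Crest.Agent.R012.Po581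
open Crest.Agent.R017.Xi590 Crest.Agent.R017.Xn590

/-! ### integrability -/

lemma integrable_inv3 : Integrable fun x : ℂ => ((1 + ‖x‖) ^ 3)⁻¹ := by
  have h := integrable_one_add_norm (E := ℂ) (μ := volume) (r := 3) (by
    rw [Complex.finrank_real_complex]; norm_num)
  refine h.congr (Eventually.of_forall fun x => ?_)
  simp only
  rw [Real.rpow_neg (by positivity)]
  norm_cast

lemma integrable_sch_mul (R : 𝓢(ℂ, ℂ)) {φ : ℂ → ℂ} (hφ : Continuous φ) {C : ℝ} {k : ℕ}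
    (hb : ∀ x, ‖φ x‖ ≤ C * (1 + ‖x‖) ^ k) : Integrable fun x => R x * φ x := by
  obtain ⟨D, hD, hR⟩ := sch_dec R (k + 3)
  have hC : 0 ≤ C := by
    have := (norm_nonneg (φ 0)).trans (hb 0)
    simpa using this
  refine (integrable_inv3.const_mul (D * C)).mono'
    (R.continuous.mul hφ).aestronglyMeasurable (Eventually.of_forall fun x => ?_)
  rw [norm_mul, ← div_eq_mul_inv, le_div_iff₀ (by positivity)]
  calc ‖R x‖ * ‖φ x‖ * (1 + ‖x‖) ^ 3 ≤ ‖R x‖ * (C * (1 + ‖x‖) ^ k) * (1 + ‖x‖) ^ 3 := by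
        gcongr
        exact hb x
    _ = (‖R x‖ * (1 + ‖x‖) ^ (k + 3)) * C := by ring
    _ ≤ D * C := by
        gcongr
        exact hR x

/-! ### derivatives -/

lemma hasDerivAt_eC {z : ℝ → ℂ} {z' : ℂ} {t : ℝ} (h : HasDerivAt z z' t) :
    HasDerivAt (fun t => eC (z t)) (eC (z t) * (((4 * Real.pi * z'.re : ℝ) : ℂ) * I)) t := by
  have h1 : HasDerivAt (fun t => (z t).re) z'.re t :=
    Complex.reCLM.hasFDerivAt.comp_hasDerivAt t h
  have h2 : HasDerivAt (fun t => (((4 * Real.pi * (z t).re : ℝ)) : ℂ) * I)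
      (((4 * Real.pi * z'.re : ℝ) : ℂ) * I) t :=
    ((h1.const_mul (4 * Real.pi)).ofReal_comp).mul_const I
  have h3 := h2.cexp
  refine (h3.congr_of_eventuallyEq (Eventually.of_forall fun s => ?_)).congr_deriv ?_
  · exact TateC413.eC_eq (z s)
  · rw [TateC413.eC_eq (z t)]

lemma CS.mul_smooth {W φ : ℂ → ℂ} (hW : CS W) (hφ : ContDiff ℝ ∞ φ) : CS (fun s => φ s * W s) := by
  obtain ⟨a, b, ha, hab, hs⟩ := hW.supp
  exact ⟨hφ.mul hW.smooth, a, b, ha, hab, fun x hx => by rw [hs x hx, mul_zero]⟩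

/-- `-4πi Re(v s)` -/
def wv (v s : ℂ) : ℂ := ((4 * Real.pi * (-(v * s)).re : ℝ) : ℂ) * I

lemma wv_smooth (v : ℂ) : ContDiff ℝ ∞ (wv v) := by
  unfold wv
  have h1 : ContDiff ℝ ∞ fun s : ℂ => (-(v * s)).re :=
    Complex.reCLM.contDiff.comp (contDiff_const.mul contDiff_id).neg
  exact (Complex.ofRealCLM.contDiff.comp (contDiff_const.mul h1)).mul contDiff_const

lemma norm_wv_le (v s : ℂ) : ‖wv v s‖ ≤ 4 * Real.pi * ‖v‖ * ‖s‖ := by
  unfold wv
  have h1 : |(-(v * s)).re| ≤ ‖v‖ * ‖s‖ :=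
    (Complex.abs_re_le_norm _).trans (by rw [norm_neg, norm_mul])
  have hpi : (0 : ℝ) ≤ 4 * Real.pi := by positivity
  rw [norm_mul, Complex.norm_I, mul_one, Complex.norm_real, Real.norm_eq_abs, abs_mul,
    abs_of_nonneg hpi]
  exact (mul_le_mul_of_nonneg_left h1 hpi).trans (le_of_eq (by ring))

lemma hasLineDerivAt_fC {W : ℂ → ℂ} (hW : CS W) (v M : ℂ) :
    HasLineDerivAt ℝ (fC W) (fC (fun s => wv v s * W s) M) M v := by
  unfold HasLineDerivAt
  have hcs : Integrable fun s => ‖W s‖ * (4 * Real.pi * ‖v‖ * ‖s‖) := by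
    refine Continuous.integrable_of_hasCompactSupport
      (hW.cont.norm.mul (by fun_prop)) ?_
    exact hW.cs.norm.mul_right
  have key := hasDerivAt_integral_of_dominated_loc_of_deriv_le (μ := volume) (𝕜 := ℝ)
    (F := fun (t : ℝ) (s : ℂ) => W s * eC (-((M + t • v) * s)))
    (F' := fun (t : ℝ) (s : ℂ) => W s * (eC (-((M + t • v) * s)) * wv v s))
    (x₀ := 0) (s := univ) (bound := fun s => ‖W s‖ * (4 * Real.pi * ‖v‖ * ‖s‖)) univ_mem
    (Eventually.of_forall fun t => ?_) ?_ ?_ ?_ hcs ?_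
  · have h2 := key.2
    refine h2.congr_deriv ?_
    unfold fC
    congr 1
    ext s
    simp only [zero_smul, add_zero]
    ring
  · exact (hW.cont.mul (TateC413.continuous_eC.comp (by fun_prop))).aestronglyMeasurable
  · have : Integrable fun s => W s * eC (-((M + (0 : ℝ) • v) * s)) := by
      refine hW.integrable.norm.mono'
        (hW.cont.mul (TateC413.continuous_eC.comp (by fun_prop))).aestronglyMeasurable
        (Eventually.of_forall fun s => ?_)
      rw [norm_mul, TateC413.norm_eC, mul_one]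
    exact this
  · exact (hW.cont.mul ((TateC413.continuous_eC.comp (by fun_prop)).mul
      (wv_smooth v).continuous)).aestronglyMeasurable
  · refine Eventually.of_forall fun s t _ => ?_
    rw [norm_mul, norm_mul, TateC413.norm_eC, one_mul]
    gcongr
    exact norm_wv_le v s
  · refine Eventually.of_forall fun s t _ => ?_
    have h1 : HasDerivAt (fun t : ℝ => -((M + t • v) * s)) (-(v * s)) t := by
      have h0 : HasDerivAt (fun t : ℝ => M + t • v) v t := by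
        have := (hasDerivAt_id t).smul_const v
        simpa using this.const_add M
      exact (h0.mul_const s).neg
    exact (hasDerivAt_eC h1).const_mul (W s)

/-! ### the phase -/

/-- `e(-P M^n)` -/
def ph (n : ℕ) (P M : ℂ) : ℂ := eC (-(P * M ^ n))

/-- first derivative factor in the direction `v` -/
def q1 (n : ℕ) (P v M : ℂ) : ℂ := ((4 * Real.pi * (-(P * (n * M ^ (n - 1) * v))).re : ℝ) : ℂ) * I

/-- derivative of `q1` in the direction `v` -/
def q2 (n : ℕ) (P v M : ℂ) : ℂ :=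
  ((4 * Real.pi * (-(P * (n * (((n - 1 : ℕ) : ℂ) * M ^ (n - 1 - 1) * v) * v))).re : ℝ) : ℂ) * I

lemma hasDerivAt_line (M v : ℂ) (t : ℝ) : HasDerivAt (fun t : ℝ => M + t • v) v t := by
  have := (hasDerivAt_id t).smul_const v
  simpa using this.const_add M

lemma hasDerivAt_pow_line (M v : ℂ) (k : ℕ) (t : ℝ) :
    HasDerivAt (fun t : ℝ => (M + t • v) ^ k) (k * (M + t • v) ^ (k - 1) * v) t :=
  (hasDerivAt_line M v t).pow k

lemma ph_deriv (n : ℕ) (P v M : ℂ) :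
    HasLineDerivAt ℝ (ph n P) (ph n P M * q1 n P v M) M v := by
  unfold HasLineDerivAt ph
  have h1 : HasDerivAt (fun t : ℝ => -(P * (M + t • v) ^ n))
      (-(P * (n * (M + (0 : ℝ) • v) ^ (n - 1) * v))) 0 :=
    ((hasDerivAt_pow_line M v n 0).const_mul P).neg
  have h2 := hasDerivAt_eC h1
  refine h2.congr_deriv ?_
  simp only [zero_smul, add_zero]
  rfl

lemma q1_deriv (n : ℕ) (P v M : ℂ) : HasLineDerivAt ℝ (q1 n P v) (q2 n P v M) M v := by
  unfold HasLineDerivAt q1 q2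
  have h1 : HasDerivAt (fun t : ℝ => -(P * (n * (M + t • v) ^ (n - 1) * v)))
      (-(P * (n * (((n - 1 : ℕ) : ℂ) * (M + (0 : ℝ) • v) ^ (n - 1 - 1) * v) * v))) 0 :=
    ((((hasDerivAt_pow_line M v (n - 1) 0).const_mul (n : ℂ)).mul_const v).const_mul P).neg
  have h2 : HasDerivAt (fun t : ℝ => (-(P * (n * (M + t • v) ^ (n - 1) * v))).re)
      (-(P * (n * (((n - 1 : ℕ) : ℂ) * (M + (0 : ℝ) • v) ^ (n - 1 - 1) * v) * v))).re 0 := by
    exact Complex.reCLM.hasFDerivAt.comp_hasDerivAt (0 : ℝ) h1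
  have h3 := ((h2.const_mul (4 * Real.pi)).ofReal_comp).mul_const I
  refine h3.congr_deriv ?_
  simp only [zero_smul, add_zero]

lemma ph2_deriv (n : ℕ) (P v M : ℂ) :
    HasLineDerivAt ℝ (fun M => ph n P M * q1 n P v M)
      (ph n P M * (q1 n P v M ^ 2 + q2 n P v M)) M v := by
  have h1 := ph_deriv n P v M
  have h2 := q1_deriv n P v M
  unfold HasLineDerivAt at *
  have h3 := HasDerivAt.mul h1 h2
  refine h3.congr_deriv ?_
  simp only [zero_smul, add_zero]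
  ring

lemma q_sum (n : ℕ) (P M : ℂ) :
    (q1 n P 1 M ^ 2 + q2 n P 1 M) + (q1 n P I M ^ 2 + q2 n P I M) =
      ((-(16 * Real.pi ^ 2 * (n ^ 2 * ‖P‖ ^ 2 * ‖M‖ ^ (2 * (n - 1)))) : ℝ) : ℂ) := by
  set a : ℂ := P * (n * M ^ (n - 1)) with ha
  set b : ℂ := P * (n * (((n - 1 : ℕ) : ℂ) * M ^ (n - 1 - 1))) with hb
  have e1 : q1 n P 1 M = ((-(4 * Real.pi * a.re) : ℝ) : ℂ) * I := by
    unfold q1
    congr 2
    rw [show -(P * (n * M ^ (n - 1) * 1)) = -a by rw [ha]; ring, Complex.neg_re]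
    ring
  have e2 : q1 n P I M = (((4 * Real.pi * a.im) : ℝ) : ℂ) * I := by
    unfold q1
    congr 2
    rw [show -(P * (n * M ^ (n - 1) * I)) = -(a * I) by rw [ha]; ring, Complex.neg_re,
      Complex.mul_I_re]
    ring
  have e3 : q2 n P 1 M = ((-(4 * Real.pi * b.re) : ℝ) : ℂ) * I := by
    unfold q2
    congr 2
    rw [show -(P * (n * (((n - 1 : ℕ) : ℂ) * M ^ (n - 1 - 1) * 1) * 1)) = -b by rw [hb]; ring,
      Complex.neg_re]
    ring
  have e4 : q2 n P I M = (((4 * Real.pi * b.re) : ℝ) : ℂ) * I := by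
    unfold q2
    congr 2
    rw [show -(P * (n * (((n - 1 : ℕ) : ℂ) * M ^ (n - 1 - 1) * I) * I)) = -(b * (I * I)) by
      rw [hb]; ring, Complex.I_mul_I]
    simp
  have hn : a.re ^ 2 + a.im ^ 2 = n ^ 2 * ‖P‖ ^ 2 * ‖M‖ ^ (2 * (n - 1)) := by
    have h0 : a.re ^ 2 + a.im ^ 2 = ‖a‖ ^ 2 := by
      rw [← Complex.normSq_eq_norm_sq, Complex.normSq_apply]; ring
    rw [h0, ha, norm_mul, norm_mul, norm_pow, Complex.norm_natCast, mul_pow, mul_pow, ← pow_mul,
      mul_comm (n - 1) 2]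
    ring
  rw [e1, e2, e3, e4, ← hn]
  push_cast
  have := Complex.I_sq
  linear_combination (16 * (Real.pi : ℂ) ^ 2 * ((a.re : ℂ) ^ 2 + (a.im : ℂ) ^ 2)) * this

/-! ### integration by parts -/

lemma ibp {f f' g g' : ℂ → ℂ} {v : ℂ} (h1 : Integrable fun x => f' x * g x)
    (h2 : Integrable fun x => f x * g' x) (h3 : Integrable fun x => f x * g x)
    (hf : ∀ x, HasLineDerivAt ℝ f (f' x) x v) (hg : ∀ x, HasLineDerivAt ℝ g (g' x) x v) :
    ∫ x, f x * g' x = -∫ x, f' x * g x := by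
  have := integral_bilinear_hasLineDerivAt_right_eq_neg_left_of_integrable
    (B := ContinuousLinearMap.mul ℝ ℂ) (μ := (volume : Measure ℂ)) (f := f) (f' := f') (g := g)
    (g' := g') (v := v) h1 h2 h3 (fun x _ => hf x) (fun x _ => hg x)
  simpa using this

lemma cont_ph (n : ℕ) (P : ℂ) : Continuous (ph n P) :=
  TateC413.continuous_eC.comp (by fun_prop)

lemma cont_q1 (n : ℕ) (P v : ℂ) : Continuous (q1 n P v) := by
  unfold q1
  have h : Continuous fun M : ℂ => (-(P * (n * M ^ (n - 1) * v))).re :=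
    Complex.continuous_re.comp (by fun_prop)
  exact (Complex.continuous_ofReal.comp (continuous_const.mul h)).mul continuous_const

lemma cont_q2 (n : ℕ) (P v : ℂ) : Continuous (q2 n P v) := by
  unfold q2
  have h : Continuous fun M : ℂ =>
      (-(P * (n * (((n - 1 : ℕ) : ℂ) * M ^ (n - 1 - 1) * v) * v))).re :=
    Complex.continuous_re.comp (by fun_prop)
  exact (Complex.continuous_ofReal.comp (continuous_const.mul h)).mul continuous_const

lemma norm_ph (n : ℕ) (P M : ℂ) : ‖ph n P M‖ = 1 := TateC413.norm_eC _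

lemma pow_le_one_add (M : ℂ) {j k : ℕ} (h : j ≤ k) : ‖M‖ ^ j ≤ (1 + ‖M‖) ^ k := by
  have h0 := norm_nonneg M
  calc ‖M‖ ^ j ≤ (1 + ‖M‖) ^ j := by gcongr; linarith
    _ ≤ (1 + ‖M‖) ^ k := pow_le_pow_right₀ (by linarith) h

lemma norm_reI_le (c : ℝ) (hc : 0 ≤ c) (z : ℂ) : ‖((c * z.re : ℝ) : ℂ) * I‖ ≤ c * ‖z‖ := by
  rw [norm_mul, Complex.norm_I, mul_one, Complex.norm_real, Real.norm_eq_abs, abs_mul,
    abs_of_nonneg hc]
  gcongr
  exact Complex.abs_re_le_norm z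

lemma norm_q1_le (n : ℕ) (P v M : ℂ) :
    ‖q1 n P v M‖ ≤ (4 * Real.pi * (‖P‖ * n * ‖v‖)) * (1 + ‖M‖) ^ (2 * n) := by
  unfold q1
  refine (norm_reI_le _ (by positivity) _).trans ?_
  rw [norm_neg, norm_mul, norm_mul, norm_mul, norm_pow, Complex.norm_natCast]
  have := pow_le_one_add M (show n - 1 ≤ 2 * n by omega)
  calc 4 * Real.pi * (‖P‖ * (n * ‖M‖ ^ (n - 1) * ‖v‖))
      = 4 * Real.pi * (‖P‖ * n * ‖v‖) * ‖M‖ ^ (n - 1) := by ring
    _ ≤ _ := by gcongr

lemma norm_q1sq_le (n : ℕ) (P v M : ℂ) :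
    ‖q1 n P v M ^ 2‖ ≤ (4 * Real.pi * (‖P‖ * n * ‖v‖)) ^ 2 * (1 + ‖M‖) ^ (2 * n) := by
  unfold q1
  rw [norm_pow]
  have h1 : ‖((4 * Real.pi * (-(P * (n * M ^ (n - 1) * v))).re : ℝ) : ℂ) * I‖ ≤
      4 * Real.pi * (‖P‖ * (n * ‖M‖ ^ (n - 1) * ‖v‖)) := by
    refine (norm_reI_le (4 * Real.pi) (by positivity) (-(P * (n * M ^ (n - 1) * v)))).trans
      (le_of_eq ?_)
    simp only [norm_neg, norm_mul, norm_pow, Complex.norm_natCast]
  have h2 := pow_le_one_add M (show 2 * (n - 1) ≤ 2 * n by omega)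
  calc ‖((4 * Real.pi * (-(P * (n * M ^ (n - 1) * v))).re : ℝ) : ℂ) * I‖ ^ 2
      ≤ (4 * Real.pi * (‖P‖ * (n * ‖M‖ ^ (n - 1) * ‖v‖))) ^ 2 := by gcongr
    _ = (4 * Real.pi * (‖P‖ * n * ‖v‖)) ^ 2 * ‖M‖ ^ (2 * (n - 1)) := by
        rw [mul_comm 2 (n - 1), pow_mul]; ring
    _ ≤ _ := by gcongr

lemma norm_q2_le (n : ℕ) (P v M : ℂ) :
    ‖q2 n P v M‖ ≤ (4 * Real.pi * (‖P‖ * n * n * ‖v‖ * ‖v‖)) * (1 + ‖M‖) ^ (2 * n) := by
  unfold q2
  refine (norm_reI_le _ (by positivity) _).trans ?_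
  simp only [norm_neg, norm_mul, norm_pow, Complex.norm_natCast]
  have h1 := pow_le_one_add M (show n - 1 - 1 ≤ 2 * n by omega)
  have h2 : ((n - 1 : ℕ) : ℝ) ≤ n := by exact_mod_cast Nat.sub_le n 1
  calc 4 * Real.pi * (‖P‖ * (n * (((n - 1 : ℕ) : ℝ) * ‖M‖ ^ (n - 1 - 1) * ‖v‖) * ‖v‖))
      ≤ 4 * Real.pi * (‖P‖ * (n * ((n : ℝ) * (1 + ‖M‖) ^ (2 * n) * ‖v‖) * ‖v‖)) := by gcongr
    _ = _ := by ring

/-- two integrations by parts in one direction -/
lemma two_ibp (n : ℕ) {W : ℂ → ℂ} (hW : CS W) (P v : ℂ) :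
    ∫ M, fC (fun s => wv v s * (wv v s * W s)) M * ph n P M =
      ∫ M, fC W M * (ph n P M * (q1 n P v M ^ 2 + q2 n P v M)) := by
  have hW1 : CS (fun s => wv v s * W s) := CS.mul_smooth hW (wv_smooth v)
  have hW2 : CS (fun s => wv v s * (wv v s * W s)) := CS.mul_smooth hW1 (wv_smooth v)
  have e0 : ∀ {U : ℂ → ℂ} (hU : CS U) (x : ℂ), fCS hU.S x = fC U x := fun hU x => fCS_apply hU.S x
  have hph : ∀ x, ‖ph n P x‖ ≤ 1 * (1 + ‖x‖) ^ 0 := fun x => by
    rw [norm_ph]; simp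
  have hpq : ∀ x, ‖ph n P x * q1 n P v x‖ ≤
      (4 * Real.pi * (‖P‖ * n * ‖v‖)) * (1 + ‖x‖) ^ (2 * n) := fun x => by
    rw [norm_mul, norm_ph, one_mul]
    exact norm_q1_le n P v x
  have hpqq : ∀ x, ‖ph n P x * (q1 n P v x ^ 2 + q2 n P v x)‖ ≤
      ((4 * Real.pi * (‖P‖ * n * ‖v‖)) ^ 2 + (4 * Real.pi * (‖P‖ * n * n * ‖v‖ * ‖v‖))) *
        (1 + ‖x‖) ^ (2 * n) := fun x => by
    rw [norm_mul, norm_ph, one_mul, add_mul]
    exact (norm_add_le _ _).trans (add_le_add (norm_q1sq_le n P v x) (norm_q2_le n P v x))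
  have cph := cont_ph n P
  have cpq : Continuous fun x => ph n P x * q1 n P v x := cph.mul (cont_q1 n P v)
  have cpqq : Continuous fun x => ph n P x * (q1 n P v x ^ 2 + q2 n P v x) :=
    cph.mul (((cont_q1 n P v).pow 2).add (cont_q2 n P v))
  have I1 : ∀ {U : ℂ → ℂ} (_ : CS U), Integrable fun x => fC U x * ph n P x := fun hU => by
    have := integrable_sch_mul (fCS hU.S) cph hph
    simpa only [e0 hU] using this
  have I2 : ∀ {U : ℂ → ℂ} (_ : CS U), Integrable fun x => fC U x * (ph n P x * q1 n P v x) :=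
    fun hU => by
      have := integrable_sch_mul (fCS hU.S) cpq hpq
      simpa only [e0 hU] using this
  have I3 : ∀ {U : ℂ → ℂ} (_ : CS U),
      Integrable fun x => fC U x * (ph n P x * (q1 n P v x ^ 2 + q2 n P v x)) :=
    fun hU => by
      have := integrable_sch_mul (fCS hU.S) cpqq hpqq
      simpa only [e0 hU] using this
  have s1 := ibp (v := v) (I2 hW1) (I3 hW) (I2 hW)
    (fun x => hasLineDerivAt_fC hW v x) (fun x => ph2_deriv n P v x)
  have s2 := ibp (v := v) (I1 hW2) (I2 hW1) (I1 hW1)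
    (fun x => hasLineDerivAt_fC hW1 v x) (fun x => ph_deriv n P v x)
  rw [s1, s2, neg_neg]

lemma wv_sum (s : ℂ) : wv 1 s * wv 1 s + wv I s * wv I s =
    ((-(16 * Real.pi ^ 2 * ‖s‖ ^ 2) : ℝ) : ℂ) := by
  unfold wv
  have hn : ‖s‖ ^ 2 = s.re ^ 2 + s.im ^ 2 := by
    rw [← Complex.normSq_eq_norm_sq, Complex.normSq_apply]; ring
  rw [hn]
  simp only [one_mul, Complex.neg_re, Complex.I_mul_re]
  push_cast
  have := Complex.I_sq
  linear_combination (16 * (Real.pi : ℂ) ^ 2 * ((s.re : ℂ) ^ 2 + (s.im : ℂ) ^ 2)) * this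

/-- **K2a, step 2.** -/
theorem step2 (n : ℕ) {W : ℂ → ℂ} (hW : CS W) (P : ℂ) :
    (n : ℂ) * ∫ M, fC (fun s => ((‖s‖ ^ 2 : ℝ) : ℂ) * W s) M * eC (-(P * M ^ n)) =
      (n : ℂ) ^ 3 * ((‖P‖ ^ 2 : ℝ) : ℂ) *
        ∫ M, ((‖M‖ ^ (2 * (n - 1)) : ℝ) : ℂ) * (fC W M * eC (-(P * M ^ n))) := by
  have hI : ∀ v : ℂ, Integrable fun x => fC (fun s => wv v s * (wv v s * W s)) x * ph n P x := by
    intro v
    have hW2 : CS (fun s => wv v s * (wv v s * W s)) :=
      CS.mul_smooth (CS.mul_smooth hW (wv_smooth v)) (wv_smooth v)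
    have := integrable_sch_mul (fCS hW2.S) (cont_ph n P) (C := 1) (k := 0)
      (fun x => by rw [norm_ph]; simp)
    refine this.congr (Eventually.of_forall fun x => ?_)
    simp only [fCS_apply, CS.S_coe]
  have hJ : ∀ v : ℂ, Integrable fun x => fC W x * (ph n P x * (q1 n P v x ^ 2 + q2 n P v x)) := by
    intro v
    have := integrable_sch_mul (fCS hW.S)
      (φ := fun x => ph n P x * (q1 n P v x ^ 2 + q2 n P v x))
      ((cont_ph n P).mul (((cont_q1 n P v).pow 2).add (cont_q2 n P v)))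
      (C := ((4 * Real.pi * (‖P‖ * n * ‖v‖)) ^ 2 + (4 * Real.pi * (‖P‖ * n * n * ‖v‖ * ‖v‖))))
      (k := 2 * n) (fun x => by
        rw [norm_mul, norm_ph, one_mul, add_mul]
        exact (norm_add_le _ _).trans (add_le_add (norm_q1sq_le n P v x) (norm_q2_le n P v x)))
    refine this.congr (Eventually.of_forall fun x => ?_)
    simp only [fCS_apply, CS.S_coe]
  have key : (∫ M, fC (fun s => wv 1 s * (wv 1 s * W s)) M * ph n P M) +
      (∫ M, fC (fun s => wv I s * (wv I s * W s)) M * ph n P M) =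
      (∫ M, fC W M * (ph n P M * (q1 n P 1 M ^ 2 + q2 n P 1 M))) +
      (∫ M, fC W M * (ph n P M * (q1 n P I M ^ 2 + q2 n P I M))) := by
    rw [two_ibp n hW P 1, two_ibp n hW P I]
  rw [← integral_add (hI 1) (hI I), ← integral_add (hJ 1) (hJ I)] at key
  have hfi : ∀ v M : ℂ, Integrable fun s => (wv v s * (wv v s * W s)) * eC (-(M * s)) := by
    intro v M
    have hW2 : CS (fun s => wv v s * (wv v s * W s)) :=
      CS.mul_smooth (CS.mul_smooth hW (wv_smooth v)) (wv_smooth v)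
    refine hW2.integrable.norm.mono'
      (hW2.cont.mul (TateC413.continuous_eC.comp (by fun_prop))).aestronglyMeasurable
      (Eventually.of_forall fun s => ?_)
    rw [norm_mul, TateC413.norm_eC, mul_one]
  have eL : ∀ M, fC (fun s => wv 1 s * (wv 1 s * W s)) M * ph n P M +
      fC (fun s => wv I s * (wv I s * W s)) M * ph n P M =
      ((-(16 * Real.pi ^ 2) : ℝ) : ℂ) *
        (fC (fun s => ((‖s‖ ^ 2 : ℝ) : ℂ) * W s) M * ph n P M) := by
    intro M
    rw [← add_mul, ← mul_assoc]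
    congr 1
    unfold fC
    rw [← integral_add (hfi 1 M) (hfi I M), ← integral_const_mul]
    congr 1
    ext s
    have := wv_sum s
    calc wv 1 s * (wv 1 s * W s) * eC (-(M * s)) + wv I s * (wv I s * W s) * eC (-(M * s))
        = (wv 1 s * wv 1 s + wv I s * wv I s) * (W s * eC (-(M * s))) := by ring
      _ = _ := by rw [this]; push_cast; ring
  have eR : ∀ M, fC W M * (ph n P M * (q1 n P 1 M ^ 2 + q2 n P 1 M)) +
      fC W M * (ph n P M * (q1 n P I M ^ 2 + q2 n P I M)) =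
      ((-(16 * Real.pi ^ 2) : ℝ) : ℂ) * ((n : ℂ) ^ 2 * ((‖P‖ ^ 2 : ℝ) : ℂ) *
        (((‖M‖ ^ (2 * (n - 1)) : ℝ) : ℂ) * (fC W M * ph n P M))) := by
    intro M
    have := q_sum n P M
    calc fC W M * (ph n P M * (q1 n P 1 M ^ 2 + q2 n P 1 M)) +
        fC W M * (ph n P M * (q1 n P I M ^ 2 + q2 n P I M))
        = ((q1 n P 1 M ^ 2 + q2 n P 1 M) + (q1 n P I M ^ 2 + q2 n P I M)) *
            (fC W M * ph n P M) := by ring
      _ = _ := by rw [this]; push_cast; ring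
  simp_rw [eL, eR] at key
  rw [integral_const_mul, integral_const_mul] at key
  have hc : ((-(16 * Real.pi ^ 2) : ℝ) : ℂ) ≠ 0 := by
    have : (-(16 * Real.pi ^ 2) : ℝ) ≠ 0 := by
      have := Real.pi_pos
      have h2 : 0 < 16 * Real.pi ^ 2 := by positivity
      linarith
    exact_mod_cast this
  have key2 := mul_left_cancel₀ hc key
  rw [integral_const_mul] at key2
  show (n : ℂ) * ∫ M, fC (fun s => ((‖s‖ ^ 2 : ℝ) : ℂ) * W s) M * ph n P M = _
  rw [key2]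
  show _ = (n : ℂ) ^ 3 * ((‖P‖ ^ 2 : ℝ) : ℂ) *
        ∫ M, ((‖M‖ ^ (2 * (n - 1)) : ℝ) : ℂ) * (fC W M * ph n P M)
  ring

end Crest.Agent.R017.Xn960
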