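import Crest.Agent.R017.XnS_590
import Crest.Agent.R017.XnTate_960

/-!
Row 17, section F / A (helper590): second half of the pair theorem, from K2a.
-/

set_option autoImplicit false

noncomputable section

open Complex MeasureTheory Set Filter Topology
open scoped FourierTransform ContDiff SchwartzMap ComplexConjugate

namespace Crest.Agent.R017.Xn590

open Crest.Agent.R012 Crest.Agent.R012.Eis Crest.Agent.R012.Po581 Crest.Agent.R012.K695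
open Crest.Agent.R017.Xi590
open Crest.Agent.R012.Four813 (phat)
open Crest.Agent.R017.F1 (PL scl)

variable {n : ℕ} {s : ℂ} {ξ : Eis → ℂ} {κ c : ℂ} {V : ℝ} {h0 B B' : ℂ} {f : ℂ → ℂ}

/-- K2a -/
def K2a (n : ℕ) (f : ℂ → ℂ) : Prop := ∀ P : ℂ, P ≠ 0 →
  ∫ m : ℂ, Phi f (P * m ^ n) * eC (-m) = (n : ℂ) ^ 3 * ((‖P‖ ^ 2 : ℝ) : ℂ) *
    ∫ M : ℂ, ((‖M‖ ^ (2 * (n - 1)) : ℝ) : ℂ) *
      (fC (powW (2 * (n - 1)) n f) M * eC (-(P * M ^ n)))

/-! ### the function `h(M^n) = Ŵ(M)` -/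

/-- `h(w) = Ŵ(w^{1/n})` -/
def hh (n : ℕ) (f : ℂ → ℂ) (w : ℂ) : ℂ := fC (powW (2 * (n - 1)) n f) (nrt n w)

lemma fC_rot {g : ℂ → ℂ} {z : ℂ} (hz : ‖z‖ = 1) (hg : ∀ t, g (z * t) = g t) (M : ℂ) :
    fC g (z * M) = fC g M := by
  have hz0 : z ≠ 0 := by
    intro h; rw [h, norm_zero] at hz; exact zero_ne_one hz
  have h1 := fC_affine g hz0 0 (z * M)
  simp only [add_zero, mul_zero, eC_zero', one_mul, hz, one_pow, inv_one, Complex.ofReal_one]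
    at h1
  rw [mul_div_cancel_left₀ _ hz0] at h1
  rw [← h1]
  congr 1
  ext t
  exact (hg t).symm

lemma hh_pow (hn : n ≠ 0) (f : ℂ → ℂ) (M : ℂ) :
    hh n f (M ^ n) = fC (powW (2 * (n - 1)) n f) M := by
  unfold hh
  by_cases hM : M = 0
  · subst hM
    have : nrt n (0 ^ n) = 0 := by
      have h1 := nrt_pow hn ((0:ℂ) ^ n)
      rw [zero_pow hn] at h1 ⊢
      exact pow_eq_zero_iff hn |>.mp h1
    rw [this]
  · set z : ℂ := nrt n (M ^ n) / M with hz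
    have hzn : z ^ n = 1 := by
      rw [hz, div_pow, nrt_pow hn, div_self (pow_ne_zero n hM)]
    have hz1 : ‖z‖ = 1 := by
      have h1 : ‖z‖ ^ n = 1 := by rw [← norm_pow, hzn, norm_one]
      exact (pow_eq_one_iff_of_nonneg (norm_nonneg z) hn).mp h1
    have e : nrt n (M ^ n) = z * M := by rw [hz, div_mul_cancel₀ _ hM]
    rw [e]
    refine fC_rot hz1 (fun t => ?_) M
    unfold powW
    rw [norm_mul, hz1, one_mul, mul_pow, hzn, one_mul]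

lemma nrt_contAt_one (n : ℕ) : ContinuousAt (nrt n) 1 := by
  unfold nrt
  exact continuousAt_cpow_const (Or.inl (by norm_num))

lemma hh_cont (h : Ctx n s ξ κ c V h0 B B' f) : Continuous (hh n f) := by
  have hWc : Continuous (fC (powW (2 * (n - 1)) n f)) :=
    fC_continuous_of (CS_powW h.cs _ h.n0).integrable
  rw [continuous_iff_continuousAt]
  intro w
  by_cases hw : w = 0
  · subst hw
    unfold hh
    have h1 : ContinuousAt (nrt n) 0 := by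
      rw [ContinuousAt]
      have e0 : nrt n 0 = 0 := by
        have h1 := nrt_pow h.n0 (0:ℂ)
        exact pow_eq_zero_iff h.n0 |>.mp h1
      rw [e0, tendsto_zero_iff_norm_tendsto_zero]
      have e1 : ∀ u : ℂ, ‖nrt n u‖ = ‖u‖ ^ ((n : ℝ)⁻¹) := by
        intro u
        rw [← norm_nrt_pow h.n0 u, ← Real.rpow_natCast, ← Real.rpow_mul (norm_nonneg _),
          mul_inv_cancel₀ (by exact_mod_cast h.n0), Real.rpow_one]
      simp_rw [e1]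
      have h2 : Tendsto (fun u : ℂ => ‖u‖ ^ ((n : ℝ)⁻¹)) (𝓝 0) (𝓝 (‖(0:ℂ)‖ ^ ((n : ℝ)⁻¹))) := by
        have h3 : Continuous fun u : ℂ => ‖u‖ ^ ((n : ℝ)⁻¹) :=
          continuous_norm.rpow_const fun _ => Or.inr (by positivity)
        exact h3.tendsto 0
      rw [norm_zero, Real.zero_rpow (by
        have : (n : ℝ) ≠ 0 := by exact_mod_cast h.n0
        exact inv_ne_zero this)] at h2
      exact h2
    exact hWc.continuousAt.comp h1
  · set M0 := nrt n w with hM0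
    have e1 : hh n f = fun w' => fC (powW (2 * (n - 1)) n f) (M0 * nrt n (w' / w)) := by
      ext w'
      rw [← hh_pow h.n0, mul_pow, nrt_pow h.n0, nrt_pow h.n0]
      congr 1
      field_simp
    rw [e1]
    have h2 : ContinuousAt (fun w' => nrt n (w' / w)) w := by
      have h3 : ContinuousAt (nrt n) (w / w) := by
        rw [div_self hw]; exact nrt_contAt_one n
      exact ContinuousAt.comp (f := fun w' : ℂ => w' / w) (g := nrt n) h3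
        (continuousAt_id.div_const w)
    exact hWc.continuousAt.comp (continuousAt_const.mul h2)

lemma one_add_pow_le' {x : ℝ} (hx : 0 ≤ x) (hn : n ≠ 0) : 1 + x ^ n ≤ (1 + x) ^ n := by
  obtain ⟨k, rfl⟩ : ∃ k, n = k + 1 := ⟨n - 1, by omega⟩
  clear hn
  induction k with
  | zero => simp
  | succ k ih =>
    calc 1 + x ^ (k + 1 + 1) ≤ (1 + x ^ (k + 1)) * (1 + x) := by
          have := pow_nonneg hx (k + 1)
          ring_nf
          nlinarith [pow_nonneg hx k]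
      _ ≤ (1 + x) ^ (k + 1) * (1 + x) := by gcongr
      _ = (1 + x) ^ (k + 1 + 1) := by ring

lemma hh_dec (h : Ctx n s ξ κ c V h0 B B' f) : ∃ C : ℝ, 0 ≤ C ∧ ∀ w : ℂ,
    ‖hh n f w‖ * (1 + ‖w‖) ^ 3 ≤ C := by
  obtain ⟨C, hC0, hC⟩ := sch_dec (fCS h.W) (n * 3)
  refine ⟨C, hC0, fun w => ?_⟩
  have h1 := hC (nrt n w)
  rw [fCS_apply] at h1
  refine le_trans ?_ h1
  unfold hh
  have h2 : 1 + ‖w‖ ≤ (1 + ‖nrt n w‖) ^ n := by
    rw [← norm_nrt_pow h.n0 w]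
    exact one_add_pow_le' (norm_nonneg _) h.n0
  rw [pow_mul]
  show ‖fC (powW (2 * (n - 1)) n f) (nrt n w)‖ * (1 + ‖w‖) ^ 3 ≤
    ‖fC (powW (2 * (n - 1)) n f) (nrt n w)‖ * ((1 + ‖nrt n w‖) ^ n) ^ 3
  gcongr

lemma hh_integrable (h : Ctx n s ξ κ c V h0 B B' f) : Integrable (hh n f) := by
  obtain ⟨C, hC0, hC⟩ := hh_dec h
  exact integrable_of_dec (hh_cont h) hC

/-- `f♯(P) = n² ‖P‖² ĥ(P)` -/
lemma fs_eq (h : Ctx n s ξ κ c V h0 B B' f) (hK : K2a n f) {P : ℂ} (hP : P ≠ 0) :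
    ∫ m : ℂ, Phi f (P * m ^ n) * eC (-m) =
      (n : ℂ) ^ 2 * ((‖P‖ ^ 2 : ℝ) : ℂ) * fC (hh n f) P := by
  rw [hK P hP]
  unfold fC
  have hm : AEStronglyMeasurable (fun z : ℂ => hh n f z * eC (-(P * z))) volume :=
    ((hh_cont h).mul (eC_continuous.comp (by fun_prop))).aestronglyMeasurable
  rw [Xn960.integral_pow n h.n0 hm]
  have e1 : ∀ M : ℂ, ((n : ℝ) * ‖M‖ ^ (2 * n - 2)) • (hh n f (M ^ n) * eC (-(P * M ^ n))) =
      (n : ℂ) * (((‖M‖ ^ (2 * (n - 1)) : ℝ) : ℂ) *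
        (fC (powW (2 * (n - 1)) n f) M * eC (-(P * M ^ n)))) := by
    intro M
    rw [hh_pow h.n0, Complex.real_smul, show 2 * n - 2 = 2 * (n - 1) by omega]
    push_cast
    ring
  simp_rw [e1]
  rw [integral_const_mul]
  unfold fC
  ring

/-! ### Poisson for `f°` -/

/-- `a_k = κ^n h₀ / k^n` -/
def ak (n : ℕ) (κ h0 : ℂ) (k : Eis) : ℂ := κ ^ n * h0 / toC k ^ n

lemma ak_ne (h : Ctx n s ξ κ c V h0 B B' f) {k : Eis} (hk : k ≠ 0) : ak n κ h0 k ≠ 0 :=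
  div_ne_zero (mul_ne_zero (pow_ne_zero _ h.X.κ0) h.C.h0)
    (pow_ne_zero _ (Po581.toC_ne_zero hk))

lemma Psi_hat (h : Ctx n s ξ κ c V h0 B B' f) {r : ℂ} (hr : r ≠ 0) :
    fCS h.Psi r⁻¹ = ((‖r‖ ^ 2 : ℝ) : ℂ) * ∫ m : ℂ, Phi f (r ^ n * m ^ n) * eC (-m) := by
  rw [fCS_apply]
  unfold fC
  have h1 := integral_comp_affine (fun z => h.Psi z * eC (-(r⁻¹ * z))) hr 0
  simp only [add_zero] at h1
  have h2 : ∀ m : ℂ, h.Psi (r * m) * eC (-(r⁻¹ * (r * m))) =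
      Phi f (r ^ n * m ^ n) * eC (-m) := by
    intro m
    rw [h.Psi_apply, mul_pow, inv_mul_cancel_left₀ hr]
  simp_rw [h2] at h1
  rw [h1, Complex.real_smul, ← mul_assoc, ← Complex.ofReal_mul]
  have hrp : 0 < ‖r‖ := norm_pos_iff.mpr hr
  rw [mul_inv_cancel₀ (by positivity)]
  simp

/-- `f°(u) = (B/6V) c ‖κ‖² n² Σ conj ξ(k) N(k)⁻¹ ‖a_k u‖² ĥ(a_k u)` -/
lemma fOn_dual (h : Ctx n s ξ κ c V h0 B B' f) (hK : K2a n f) {u : ℂ} (hu : u ≠ 0) :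
    fOn n ξ V h0 B f u = bet V B * c * ((‖κ‖ ^ 2 : ℝ) : ℂ) * (n : ℂ) ^ 2 *
      ∑' k : Eis, (if k = 0 then 0 else conj (ξ k) * (((nm k : ℝ)⁻¹ : ℝ) : ℂ) *
        (((‖ak n κ h0 k * u‖ ^ 2 : ℝ) : ℂ) * fC (hh n f) (ak n κ h0 k * u))) := by
  have ht : nrt n (u * h0) ≠ 0 := nrt_ne_zero h.n0 (mul_ne_zero hu h.C.h0)
  set t := nrt n (u * h0) with ht'
  have htn : t ^ n = u * h0 := nrt_pow h.n0 _
  have htp : 0 < ‖t‖ := norm_pos_iff.mpr ht
  have hκp : 0 < ‖κ‖ := norm_pos_iff.mpr h.X.κ0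
  rw [fOn_eq_Th h, ← ht', h.X.th h.Psi ht]
  unfold Th
  rw [mul_assoc (bet V B), mul_assoc (bet V B), mul_assoc (bet V B)]
  congr 1
  rw [mul_assoc c, mul_assoc c]
  congr 1
  rw [← tsum_mul_left, ← tsum_mul_left]
  refine tsum_congr fun k => ?_
  split_ifs with hk
  · subst hk
    have : fCS h.Psi ((κ * t)⁻¹ * toC 0) = ∫ m : ℂ, Phi f (m ^ n) := by
      rw [map_zero, mul_zero, fCS_apply]
      unfold fC
      congr 1
      ext m
      rw [zero_mul, neg_zero, eC_zero', mul_one, h.Psi_apply]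
    rw [this, mul_zero]
    rcases mul_eq_zero.mp h.mPsi with h3 | h3
    · simp only [h3, map_zero, zero_mul, mul_zero]
    · simp only [h3, mul_zero]
  · have hkc := Po581.toC_ne_zero hk
    have hkp : 0 < ‖toC k‖ := norm_pos_iff.mpr hkc
    have hr : κ * t / toC k ≠ 0 := div_ne_zero (mul_ne_zero h.X.κ0 ht) hkc
    have e1 : (κ * t)⁻¹ * toC k = (κ * t / toC k)⁻¹ := by
      rw [inv_div]; ring
    have e2 : (κ * t / toC k) ^ n = ak n κ h0 k * u := by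
      unfold ak
      rw [div_pow, mul_pow, htn]
      ring
    rw [e1, Psi_hat h hr, e2, fs_eq h hK (mul_ne_zero (ak_ne h hk) hu)]
    have e3 : ((‖t‖ ^ 2)⁻¹ : ℝ) * (‖κ * t / toC k‖ ^ 2) = ‖κ‖ ^ 2 * (nm k : ℝ)⁻¹ := by
      rw [norm_div, norm_mul, ← norm_toC_sq]
      field_simp
    have e4 : (((‖t‖ ^ 2)⁻¹ : ℝ) : ℂ) * ((‖κ * t / toC k‖ ^ 2 : ℝ) : ℂ) =
        ((‖κ‖ ^ 2 : ℝ) : ℂ) * (((nm k : ℝ)⁻¹ : ℝ) : ℂ) := by
      rw [← Complex.ofReal_mul, e3, Complex.ofReal_mul]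
    calc (((‖t‖ ^ 2)⁻¹ : ℝ) : ℂ) * (conj (ξ k) * (((‖κ * t / toC k‖ ^ 2 : ℝ) : ℂ) *
          ((n : ℂ) ^ 2 * ((‖ak n κ h0 k * u‖ ^ 2 : ℝ) : ℂ) * fC (hh n f) (ak n κ h0 k * u))))
        = ((((‖t‖ ^ 2)⁻¹ : ℝ) : ℂ) * ((‖κ * t / toC k‖ ^ 2 : ℝ) : ℂ)) * (conj (ξ k) *
          ((n : ℂ) ^ 2 * ((‖ak n κ h0 k * u‖ ^ 2 : ℝ) : ℂ) * fC (hh n f) (ak n κ h0 k * u))) := by
          ring
      _ = _ := by rw [e4]; ring

end Crest.Agent.R017.Xn590
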