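import Crest.Agent.R017.XnH_590

/-!
Row 17, section F / A (helper590): Fourier coefficient of `F'`, line integrals of `F'`.
-/

set_option autoImplicit false

noncomputable section

open Complex MeasureTheory Set Filter Topology
open scoped FourierTransform ContDiff SchwartzMap ComplexConjugate

namespace Crest.Agent.R017.Xn590

open Crest.Agent.R012 Crest.Agent.R012.Eis Crest.Agent.R012.Po581 Crest.Agent.R012.K695
open Crest.Agent.R017.Xi590
open Crest.Agent.R012.Four813 (phat)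
open Crest.Agent.R017.F1 (PL scl)

variable {n : ℕ} {s : ℂ} {ξ : Eis → ℂ} {κ c : ℂ} {V : ℝ} {h0 B B' : ℂ} {f : ℂ → ℂ}

/-- `κ_w(u) = k̂(w u) f°(u)` -/
def kap (n : ℕ) (ξ : Eis → ℂ) (V : ℝ) (h0 B : ℂ) (f k : ℂ → ℂ) (w u : ℂ) : ℂ :=
  phat k (w * u) * fO1 n ξ V h0 B f u

lemma kap_cont (h : Ctx n s ξ κ c V h0 B B' f) (k : 𝓢(ℂ, ℂ)) (w : ℂ) :
    Continuous (kap n ξ V h0 B f k w) :=
  ((phat_cont k).comp (continuous_const.mul continuous_id)).mul (fO1_cont h)

lemma kap_integrable (h : Ctx n s ξ κ c V h0 B B' f) (k : 𝓢(ℂ, ℂ)) (w : ℂ) :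
    Integrable (kap n ξ V h0 B f k w) := by
  refine (fO1_integrable h).bdd_mul (c := ∫ x, ‖k x‖)
      ((phat_cont k).comp (continuous_const.mul continuous_id)).aestronglyMeasurable
      (Eventually.of_forall fun u => ?_)
  exact norm_fC_le' k _

lemma FOn_eq_kap (k : ℂ → ℂ) (w x : ℂ) :
    FOn n ξ V h0 B f k (w, x) = 4 * fC (kap n ξ V h0 B f k w) (-x) := by
  unfold FOn fC kap
  congr 1
  refine integral_congr_ae ?_
  filter_upwards [fO1_ae (n := n) (ξ := ξ) (V := V) (h0 := h0) (B := B) (f := f)] with u hu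
  rw [hu, neg_mul, neg_neg]

/-- **Fourier coefficient of `F'`**. -/
theorem FOn_coef (h : Ctx n s ξ κ c V h0 B B' f) (hχ : ξ 0 * ∫ t : ℂ, powW (2 * n) n f t = 0)
    (k : 𝓢(ℂ, ℂ)) (w ν : ℂ) :
    ∫ x : ℂ, FOn n ξ V h0 B f k (w, x) * eC (-(ν * x)) =
      phat k (w * ν) * fO1 n ξ V h0 B f ν := by
  have hF : Integrable (fC (kap n ξ V h0 B f k w)) := by
    obtain ⟨C, hC0, hC⟩ := FOn_dec2 h hχ k 3
    have h1 : Integrable (fun x : ℂ => fC (kap n ξ V h0 B f k w) (-x)) := by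
      refine integrable_of_dec (C := C * (1 + ‖w‖) ^ 3)
        ((fC_continuous_of (kap_integrable h k w)).comp continuous_neg) fun x => ?_
      have h2 := hC (w, x)
      rw [FOn_eq_kap, norm_mul] at h2
      have h4 : ‖(4 : ℂ)‖ = 4 := by norm_num
      rw [h4] at h2
      have h5 : 0 ≤ ‖fC (kap n ξ V h0 B f k w) (-x)‖ * (1 + ‖x‖) ^ 3 := by positivity
      simp only at h2
      linarith
    have := h1.comp_neg
    simpa using this
  have h1 := inv4 (kap_cont h k w) (kap_integrable h k w) hF ν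
  rw [show phat k (w * ν) * fO1 n ξ V h0 B f ν = kap n ξ V h0 B f k w ν from rfl, ← h1,
    ← integral_const_mul, ← integral_neg_eq_self (fun x : ℂ =>
      FOn n ξ V h0 B f k (w, x) * eC (-(ν * x)))]
  congr 1
  ext x
  rw [FOn_eq_kap, neg_neg, mul_neg, neg_neg, mul_comm ν x]
  ring

/-- `U(y) = ∫ ‖u‖⁻² f°(u) e(-u y) du` -/
def UU (n : ℕ) (ξ : Eis → ℂ) (V : ℝ) (h0 B : ℂ) (f : ℂ → ℂ) (y : ℂ) : ℂ :=
  ∫ u : ℂ, (((‖u‖ ^ 2)⁻¹ : ℝ) : ℂ) * fO1 n ξ V h0 B f u * eC (-(u * y))

/-- `D(u) = ‖u‖⁻² f°(u)` is integrable -/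
lemma DD_integrable (h : Ctx n s ξ κ c V h0 B B' f) :
    Integrable (fun u : ℂ => (((‖u‖ ^ 2)⁻¹ : ℝ) : ℂ) * fO1 n ξ V h0 B f u) := by
  obtain ⟨C, hC0, hC⟩ := fO1_dec h 2
  obtain ⟨C', hC0', hC'⟩ := fO1_bd h 3
  have hmeas : AEStronglyMeasurable (fun u : ℂ => (((‖u‖ ^ 2)⁻¹ : ℝ) : ℂ) *
      fO1 n ξ V h0 B f u) volume := by
    refine AEStronglyMeasurable.mul ?_ (fO1_cont h).aestronglyMeasurable
    refine Measurable.aestronglyMeasurable ?_
    exact Complex.measurable_ofReal.comp ((measurable_norm.pow_const 2).inv)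
  refine (integrable_J3.const_mul (8 * C + C')).mono' hmeas (Eventually.of_forall fun u => ?_)
  rw [norm_mul, Complex.norm_real, Real.norm_of_nonneg (by positivity), ← div_eq_mul_inv,
    le_div_iff₀ (by positivity)]
  have h1 := (hC u).1
  have h2 := hC' u
  rcases le_or_gt ‖u‖ 1 with hu | hu
  · have h3 : (‖u‖ ^ 2)⁻¹ * ‖fO1 n ξ V h0 B f u‖ ≤ C := by
      by_cases hu0 : u = 0
      · subst hu0
        simp [fO1_zero, hC0]
      · have : 0 < ‖u‖ := norm_pos_iff.mpr hu0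
        rw [inv_mul_le_iff₀ (by positivity)]
        linarith
    calc (‖u‖ ^ 2)⁻¹ * ‖fO1 n ξ V h0 B f u‖ * (1 + ‖u‖) ^ 3 ≤ C * (1 + 1) ^ 3 := by gcongr
      _ = 8 * C := by ring
      _ ≤ _ := by linarith
  · calc (‖u‖ ^ 2)⁻¹ * ‖fO1 n ξ V h0 B f u‖ * (1 + ‖u‖) ^ 3
        ≤ 1 * ‖fO1 n ξ V h0 B f u‖ * (1 + ‖u‖) ^ 3 := by
          gcongr
          exact inv_le_one_of_one_le₀ (one_le_pow₀ hu.le)
      _ = ‖fO1 n ξ V h0 B f u‖ * (1 + ‖u‖) ^ 3 := by ring
      _ ≤ C' := h2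
      _ ≤ _ := by linarith

/-- inner integral over `p` -/
lemma inner_p (k : 𝓢(ℂ, ℂ)) (r : ℂ) {u : ℂ} (hu : u ≠ 0) :
    4 * ∫ p : ℂ, phat k (p * u) * eC (r * p * u) = (((‖u‖ ^ 2)⁻¹ : ℝ) : ℂ) * k r := by
  have h1 := integral_comp_affine (fun w => phat k w * eC (w * r)) hu 0
  simp only [add_zero] at h1
  have h2 : ∫ p : ℂ, phat k (p * u) * eC (r * p * u) =
      ∫ p : ℂ, phat k (u * p) * eC (u * p * r) := by
    congr 1
    ext p
    rw [mul_comm p u, show r * p * u = u * p * r by ring]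
  have h3 := sch_inv k r
  rw [h2, h1, Complex.real_smul, ← h3]
  simp_rw [phat_eq]
  ring

/-- line integral of `F'`, `∫ F'(p, r p - y) dp = k(r) U(y)` -/
lemma line_FO (h : Ctx n s ξ κ c V h0 B B' f) (k : 𝓢(ℂ, ℂ)) (r y : ℂ) :
    ∫ p : ℂ, FOn n ξ V h0 B f k (p, r * p - y) = k r * UU n ξ V h0 B f y := by
  have hkc := phat_cont k
  have hkI : Integrable (phat k) := by
    have : phat k = fun w => fCS k w := by
      ext w; rw [fCS_apply]; rfl
    rw [this]
    exact (fCS k).integrable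
  have hcont : Continuous (Function.uncurry fun (p u : ℂ) =>
      phat k (p * u) * fO1 n ξ V h0 B f u * eC ((r * p - y) * u)) := by
    have h1 : Continuous fun q : ℂ × ℂ => phat k (q.1 * q.2) :=
      hkc.comp (continuous_fst.mul continuous_snd)
    have h2 : Continuous fun q : ℂ × ℂ => fO1 n ξ V h0 B f q.2 :=
      (fO1_cont h).comp continuous_snd
    have h3 : Continuous fun q : ℂ × ℂ => eC ((r * q.1 - y) * q.2) :=
      eC_continuous.comp (by fun_prop)
    exact (h1.mul h2).mul h3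
  have hI : Integrable (Function.uncurry fun (p u : ℂ) =>
      phat k (p * u) * fO1 n ξ V h0 B f u * eC ((r * p - y) * u)) (volume.prod volume) := by
    rw [integrable_prod_iff' hcont.aestronglyMeasurable]
    constructor
    · filter_upwards [ae_ne_zero] with u hu
      simp only [Function.uncurry]
      have h1 : Integrable (fun p : ℂ => phat k (p * u)) := by
        have h2 := (dilS u hu (fCS k)).integrable (μ := volume)
        refine h2.congr (Eventually.of_forall fun p => ?_)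
        rw [dilS_apply, fCS_apply, mul_comm]
        rfl
      have h3 : Integrable (fun p : ℂ => phat k (p * u) * fO1 n ξ V h0 B f u) := h1.mul_const _
      refine h3.norm.mono' (hcont.comp (by fun_prop : Continuous fun p : ℂ => (p, u))
        ).aestronglyMeasurable (Eventually.of_forall fun p => ?_)
      rw [norm_mul, eC_norm, mul_one]
    · have h1 := (DD_integrable h).norm.mul_const (∫ w, ‖phat k w‖)
      refine h1.congr ?_
      filter_upwards [ae_ne_zero] with u hu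
      simp only [Function.uncurry, norm_mul, eC_norm, mul_one]
      rw [integral_mul_const, norm_integral_dil hu, Complex.norm_real,
        Real.norm_of_nonneg (by positivity)]
      ring
  have hsw := integral_integral_swap hI
  have e1 : ∀ p : ℂ, FOn n ξ V h0 B f k (p, r * p - y) =
      4 * ∫ u : ℂ, phat k (p * u) * fO1 n ξ V h0 B f u * eC ((r * p - y) * u) := by
    intro p
    unfold FOn
    congr 1
    refine integral_congr_ae ?_
    filter_upwards [fO1_ae (n := n) (ξ := ξ) (V := V) (h0 := h0) (B := B) (f := f)] with u hu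
    rw [hu]
  simp_rw [e1]
  rw [integral_const_mul, hsw, ← integral_const_mul]
  unfold UU
  rw [← integral_const_mul]
  refine integral_congr_ae ?_
  filter_upwards [ae_ne_zero] with u hu
  have e2 : ∀ p : ℂ, phat k (p * u) * fO1 n ξ V h0 B f u * eC ((r * p - y) * u) =
      fO1 n ξ V h0 B f u * eC (-(u * y)) * (phat k (p * u) * eC (r * p * u)) := by
    intro p
    have : (r * p - y) * u = r * p * u + -(u * y) := by ring
    rw [this, eC_add']
    ring
  simp_rw [e2]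
  rw [integral_const_mul, mul_left_comm, inner_p k r hu]
  ring

/-- the line integrals of `scl δ F'` -/
lemma line_scl (h : Ctx n s ξ κ c V h0 B B' f) (hχ : ξ 0 * ∫ t : ℂ, powW (2 * n) n f t = 0)
    (k : 𝓢(ℂ, ℂ)) {M : K695.Frm} (hM : det2 M ≠ 0) (y : ℂ) :
    ∫ x : ℂ, scl (det2 M) (FOn n ξ V h0 B f k) (y • M.1 + x • M.2) =
      if M.2.1 = 0 then 0 else (((‖M.2.1‖ ^ 2)⁻¹ : ℝ) : ℂ) * (k (M.2.2 / M.2.1) *
        UU n ξ V h0 B f (y / M.2.1)) := by
  have hδp : 0 < ‖det2 M‖ := norm_pos_iff.mpr hM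
  unfold scl
  rw [integral_const_mul]
  split_ifs with hz
  · have hd : det2 M = M.1.1 * M.2.2 := by unfold det2; rw [hz]; ring
    have h2 : M.2.2 ≠ 0 := by
      intro h; rw [hd, h, mul_zero] at hM; exact hM rfl
    have e1 : ∀ x : ℂ, FOn n ξ V h0 B f k ((det2 M)⁻¹ • (y • M.1 + x • M.2)) =
        (fun x' : ℂ => FOn n ξ V h0 B f k ((det2 M)⁻¹ * (y * M.1.1), x'))
          ((det2 M)⁻¹ * M.2.2 * x + (det2 M)⁻¹ * (y * M.1.2)) := by
      intro x
      simp only
      congr 1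
      ext
      · show (det2 M)⁻¹ * (y * M.1.1 + x * M.2.1) = _
        rw [hz]; ring
      · show (det2 M)⁻¹ * (y * M.1.2 + x * M.2.2) = _
        simp only
        ring
    simp_rw [e1]
    rw [integral_comp_affine (fun x' : ℂ => FOn n ξ V h0 B f k ((det2 M)⁻¹ * (y * M.1.1), x'))
      (mul_ne_zero (inv_ne_zero hM) h2)]
    have h3 := FOn_coef h hχ k ((det2 M)⁻¹ * (y * M.1.1)) 0
    simp only [zero_mul, neg_zero, eC_zero', mul_one, fO1_zero, mul_zero] at h3
    rw [h3, smul_zero, mul_zero]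
  · have e1 : ∀ x : ℂ, FOn n ξ V h0 B f k ((det2 M)⁻¹ • (y • M.1 + x • M.2)) =
        (fun p : ℂ => FOn n ξ V h0 B f k (p, M.2.2 / M.2.1 * p - y / M.2.1))
          ((det2 M)⁻¹ * M.2.1 * x + (det2 M)⁻¹ * (y * M.1.1)) := by
      intro x
      simp only
      congr 1
      ext
      · show (det2 M)⁻¹ * (y * M.1.1 + x * M.2.1) = _
        ring
      · show (det2 M)⁻¹ * (y * M.1.2 + x * M.2.2) = M.2.2 / M.2.1 *
          ((det2 M)⁻¹ * M.2.1 * x + (det2 M)⁻¹ * (y * M.1.1)) - y / M.2.1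
        have hM' := hM
        unfold det2 at hM' ⊢
        field_simp
        ring
    simp_rw [e1]
    rw [integral_comp_affine (fun p : ℂ => FOn n ξ V h0 B f k (p, M.2.2 / M.2.1 * p - y / M.2.1))
      (mul_ne_zero (inv_ne_zero hM) hz), line_FO h, Complex.real_smul, ← mul_assoc,
      ← Complex.ofReal_mul]
    congr 2
    have hzp : 0 < ‖M.2.1‖ := norm_pos_iff.mpr hz
    rw [norm_mul, norm_inv]
    field_simp

end Crest.Agent.R017.Xn590
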