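import Crest.Agent.R017.XnR_590

/-!
Row 17, section F / A (helper590): second half of the pair theorem: Fourier inversion and (R2).
-/

set_option autoImplicit false

noncomputable section

open Complex MeasureTheory Set Filter Topology
open scoped FourierTransform ContDiff SchwartzMap ComplexConjugate ENNReal

namespace Crest.Agent.R017.Xn590

open Crest.Agent.R012 Crest.Agent.R012.Eis Crest.Agent.R012.Po581 Crest.Agent.R012.K695
open Crest.Agent.R017.Xi590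
open Crest.Agent.R012.Four813 (phat)
open Crest.Agent.R017.F1 (PL scl)

variable {n : ℕ} {s : ℂ} {ξ : Eis → ℂ} {κ c : ℂ} {V : ℝ} {h0 B B' : ℂ} {f : ℂ → ℂ}

/-- Fourier inversion at a point of continuity -/
lemma inv4' {f : ℂ → ℂ} (hi : Integrable f) (hF : Integrable (fC f)) {v : ℂ}
    (hv : ContinuousAt f v) : 4 * ∫ u : ℂ, fC f u * eC (u * v) = f v := by
  have hF' : Integrable (𝓕 f) := by
    have e : 𝓕 f = fun w => fC f ((2 : ℂ)⁻¹ * (starRingEnd ℂ) w) := by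
      ext w
      rw [fC_eq_fourier]
      rw [map_mul, map_inv₀, Complex.conj_conj, show (starRingEnd ℂ) 2 = 2 from Complex.conj_ofNat 2]
      rw [← mul_assoc]
      norm_num
    rw [e]
    have h1 : Integrable (fun w : ℂ => fC f ((2 : ℂ)⁻¹ * w)) := by
      have := hF.comp_smul (show (2 : ℝ)⁻¹ ≠ 0 by norm_num)
      refine this.congr (Eventually.of_forall fun w => ?_)
      simp only [Complex.real_smul]
      push_cast
      rfl
    have hmp : MeasurePreserving (Complex.conjLIE : ℂ → ℂ) volume volume :=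
      Complex.conjLIE.measurePreserving
    have h2 := hmp.integrable_comp_of_integrable h1
    simpa [Function.comp_def] using h2
  have h := hi.fourierInv_fourier_eq hF' hv
  rw [Real.fourierInv_eq'] at h
  have e2 : ∀ u : ℂ, fC f u * eC (u * v) =
      (fun w : ℂ => cexp (((2 * Real.pi * inner ℝ w v : ℝ) : ℂ) * I) • 𝓕 f w)
        (2 * (starRingEnd ℂ) u) := by
    intro u
    simp only [smul_eq_mul]
    rw [fC_eq_fourier, mul_comm, Po581.eC_eq]
    congr 3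
    rw [Complex.inner]
    simp
    ring
  simp_rw [e2]
  rw [integral_twoConj (fun w : ℂ => cexp (((2 * Real.pi * inner ℝ w v : ℝ) : ℂ) * I) • 𝓕 f w), h,
    Complex.real_smul]
  push_cast
  ring

/-- integrability of an absolutely convergent series -/
lemma integrable_tsum' {F : Eis → ℂ → ℂ} (hF_int : ∀ i, Integrable (F i))
    (hF_sum : Summable fun i => ∫ a, ‖F i a‖)
    (hm : AEStronglyMeasurable (fun a => ∑' i, F i a) volume) :
    Integrable (fun a => ∑' i, F i a) := by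
  refine ⟨hm, ?_⟩
  rw [hasFiniteIntegral_iff_enorm]
  have h1 : ∫⁻ a, ‖∑' i, F i a‖ₑ ≤ ∫⁻ a, ∑' i, ‖F i a‖ₑ :=
    lintegral_mono fun a => enorm_tsum_le_tsum_enorm
  refine lt_of_le_of_lt h1 ?_
  rw [lintegral_tsum fun i => (hF_int i).1.enorm]
  have h2 : ∀ i, ∫⁻ a, ‖F i a‖ₑ = ENNReal.ofReal (∫ a, ‖F i a‖) := by
    intro i
    rw [ofReal_integral_norm_eq_lintegral_enorm (hF_int i)]
  simp_rw [h2]
  exact (hF_sum.tsum_ofReal_ne_top).lt_top

/-- general version of `dil_bound` -/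
lemma dil_bound' {R : ℂ → ℂ} {C : ℝ} (hC : ∀ x, ‖R x‖ * (1 + ‖x‖) ^ 3 ≤ C) {d r : ℝ}
    (hd0 : 0 < d) (hd1 : d ≤ 1) (hr : 0 ≤ r) {x : ℂ} (hx : d * r ≤ ‖x‖) :
    ‖R x‖ ≤ C * (d ^ 3)⁻¹ * ((1 + r) ^ 3)⁻¹ := by
  rw [← div_eq_mul_inv, ← div_eq_mul_inv, div_div, le_div_iff₀ (by positivity)]
  calc ‖R x‖ * (d ^ 3 * (1 + r) ^ 3) = ‖R x‖ * (d * (1 + r)) ^ 3 := by ring
    _ ≤ ‖R x‖ * (1 + ‖x‖) ^ 3 := by
        gcongr
        nlinarith
    _ ≤ C := hC x

/-- coefficients `w_k = conj ξ(k)/N(k)` -/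
def wk (ξ : Eis → ℂ) (k : Eis) : ℂ := by
  classical
  exact if k = 0 then 0 else conj (ξ k) * (((nm k : ℝ)⁻¹ : ℝ) : ℂ)

lemma norm_wk_le (h : Ctx n s ξ κ c V h0 B B' f) (k : Eis) : ‖wk ξ k‖ ≤ 1 := by
  unfold wk
  split_ifs with hk
  · simp
  · have hnm : (1 : ℝ) ≤ nm k := by exact_mod_cast nm_pos.mpr hk
    rw [norm_mul, Complex.norm_conj, Complex.norm_real, Real.norm_of_nonneg (by positivity)]
    calc ‖ξ k‖ * (nm k : ℝ)⁻¹ ≤ 1 * 1 := by
          gcongr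
          · exact h.X.le1 k
          · exact inv_le_one_of_one_le₀ hnm
      _ = 1 := one_mul 1

/-- `S(y) = Σ_k w_k h(-y/a_k)` -/
def SS (n : ℕ) (ξ : Eis → ℂ) (κ h0 : ℂ) (f : ℂ → ℂ) (y : ℂ) : ℂ :=
  ∑' k : Eis, wk ξ k * hh n f (-(y / ak n κ h0 k))

lemma norm_ak (k : Eis) : ‖ak n κ h0 k‖ = ‖κ ^ n * h0‖ / ‖toC k ^ n‖ := by
  unfold ak; rw [norm_div]

lemma K0_pos (h : Ctx n s ξ κ c V h0 B B' f) : 0 < ‖κ ^ n * h0‖ :=
  norm_pos_iff.mpr (mul_ne_zero (pow_ne_zero _ h.X.κ0) h.C.h0)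

/-- `∫ g(-(y/a)) dy = ‖a‖² ∫ g` -/
lemma integral_dil' {E : Type*} [NormedAddCommGroup E] [NormedSpace ℝ E] (g : ℂ → E) {a : ℂ}
    (ha : a ≠ 0) : ∫ y, g (-(y / a)) = (‖a‖ ^ 2) • ∫ w, g w := by
  have hq : -a⁻¹ ≠ 0 := neg_ne_zero.mpr (inv_ne_zero ha)
  have h1 := integral_comp_affine g hq 0
  simp only [add_zero] at h1
  have h2 : ∀ y : ℂ, g (-(y / a)) = g (-a⁻¹ * y) := by
    intro y
    congr 1
    rw [div_eq_mul_inv]; ring
  simp_rw [h2]
  rw [h1, norm_neg, norm_inv, inv_pow, inv_inv]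

lemma hh_dil_integrable (h : Ctx n s ξ κ c V h0 B B' f) {a : ℂ} (ha : a ≠ 0) :
    Integrable (fun y : ℂ => hh n f (-(y / a))) := by
  obtain ⟨C, hC0, hC⟩ := hh_dec h
  have hap : 0 < ‖a‖ := norm_pos_iff.mpr ha
  have hcont : Continuous (fun y : ℂ => hh n f (-(y / a))) :=
    (hh_cont h).comp (by fun_prop)
  set d : ℝ := min 1 ‖a‖⁻¹ with hd
  have hd0 : 0 < d := lt_min one_pos (by positivity)
  refine integrable_of_dec (C := C * (d ^ 3)⁻¹) hcont fun y => ?_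
  have h1 := dil_bound' hC hd0 (min_le_left _ _) (norm_nonneg y) (x := -(y / a)) (by
    rw [norm_neg, norm_div, div_eq_inv_mul]
    gcongr
    exact min_le_right _ _)
  rwa [← div_eq_mul_inv, le_div_iff₀ (by positivity)] at h1

lemma term_int (h : Ctx n s ξ κ c V h0 B B' f) (k : Eis) :
    Integrable (fun y : ℂ => wk ξ k * hh n f (-(y / ak n κ h0 k))) := by
  by_cases hk : k = 0
  · simp [wk, hk]
  · exact (hh_dil_integrable h (ak_ne h hk)).const_mul _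

lemma term_sum (h : Ctx n s ξ κ c V h0 B B' f) :
    Summable fun k : Eis => ∫ y : ℂ, ‖wk ξ k * hh n f (-(y / ak n κ h0 k))‖ := by
  have hK0 := K0_pos h
  refine Summable.of_nonneg_of_le (fun m => integral_nonneg fun u => norm_nonneg _) (fun k => ?_)
      (summable_inv3.mul_left (‖κ ^ n * h0‖ ^ 2 * 16 * (∫ w, ‖hh n f w‖)))
  have h2 : 0 ≤ ∫ w, ‖hh n f w‖ := integral_nonneg fun u => norm_nonneg _
  by_cases hk : k = 0
  · simp only [wk, hk, if_true, zero_mul, norm_zero, integral_zero]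
    positivity
  · simp_rw [norm_mul (wk ξ k)]
    rw [integral_const_mul, integral_dil' (fun w => ‖hh n f w‖) (ak_ne h hk), smul_eq_mul,
      norm_ak, div_pow, div_eq_mul_inv]
    have h3 := inv_norm_pow_le h.n2 hk
    calc ‖wk ξ k‖ * (‖κ ^ n * h0‖ ^ 2 * (‖toC k ^ n‖ ^ 2)⁻¹ * ∫ w, ‖hh n f w‖)
        ≤ 1 * (‖κ ^ n * h0‖ ^ 2 * (16 * ((1 + ‖toC k‖) ^ 3)⁻¹) * ∫ w, ‖hh n f w‖) := by
          gcongr
          exact norm_wk_le h k
      _ = _ := by ring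

lemma SS_contAt (h : Ctx n s ξ κ c V h0 B B' f) {y : ℂ} (hy : y ≠ 0) :
    ContinuousAt (SS n ξ κ h0 f) y := by
  have hyp : 0 < ‖y‖ := norm_pos_iff.mpr hy
  have hK0 := K0_pos h
  obtain ⟨C, hC0, hC⟩ := hh_dec h
  set d : ℝ := min 1 (‖y‖ / 2 / ‖κ ^ n * h0‖) with hd
  have hd0 : 0 < d := lt_min one_pos (by positivity)
  have hS : {v : ℂ | ‖y‖ / 2 < ‖v‖} ∈ 𝓝 y :=
    (isOpen_lt continuous_const continuous_norm).mem_nhds (by
      show ‖y‖ / 2 < ‖y‖
      linarith)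
  have hc : ContinuousOn (fun v : ℂ => ∑' k : Eis, wk ξ k * hh n f (-(v / ak n κ h0 k)))
      {v : ℂ | ‖y‖ / 2 < ‖v‖} := by
    refine continuousOn_tsum (u := fun m : Eis => C * (d ^ 3)⁻¹ * ((1 + ‖toC m‖) ^ 3)⁻¹)
      (fun m => ?_) (summable_inv3.mul_left _) (fun k v hv => ?_)
    · exact (continuous_const.mul ((hh_cont h).comp (by fun_prop))).continuousOn
    · rw [norm_mul]
      by_cases hk : k = 0
      · have : wk ξ k = 0 := by simp [wk, hk]
        rw [this, norm_zero, zero_mul]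
        positivity
      have hkp : 0 < ‖toC k ^ n‖ :=
        norm_pos_iff.mpr (pow_ne_zero _ (Po581.toC_ne_zero hk))
      calc ‖wk ξ k‖ * ‖hh n f (-(v / ak n κ h0 k))‖ ≤ 1 * ‖hh n f (-(v / ak n κ h0 k))‖ := by
            gcongr; exact norm_wk_le h k
        _ = ‖hh n f (-(v / ak n κ h0 k))‖ := one_mul _
        _ ≤ _ := by
            refine dil_bound' hC hd0 (min_le_left _ _) (norm_nonneg _) ?_
            rw [norm_neg, norm_div, norm_ak]
            have hv' : ‖y‖ / 2 ≤ ‖v‖ := le_of_lt hv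
            calc d * ‖toC k‖ ≤ (‖y‖ / 2 / ‖κ ^ n * h0‖) * ‖toC k ^ n‖ := by
                  gcongr
                  · exact min_le_right _ _
                  · exact norm_toC_le_pow h.n0 k
              _ ≤ (‖v‖ / ‖κ ^ n * h0‖) * ‖toC k ^ n‖ := by gcongr
              _ = ‖v‖ / (‖κ ^ n * h0‖ / ‖toC k ^ n‖) := by field_simp
  exact hc.continuousAt hS

lemma SS_integrable (h : Ctx n s ξ κ c V h0 B B' f) : Integrable (SS n ξ κ h0 f) := by
  refine integrable_tsum' (term_int h) (term_sum h) ?_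
  have h1 : ContinuousOn (SS n ξ κ h0 f) {0}ᶜ := fun y hy =>
    (SS_contAt h hy).continuousWithinAt
  have h2 := h1.aestronglyMeasurable (μ := volume) (measurableSet_singleton 0).compl
  rwa [restrict_compl_singleton] at h2

/-- Fourier transform of `S` -/
lemma fC_SS (h : Ctx n s ξ κ c V h0 B B' f) (v : ℂ) :
    fC (SS n ξ κ h0 f) v = ∑' k : Eis, wk ξ k * (((‖ak n κ h0 k‖ ^ 2 : ℝ) : ℂ) *
      fC (hh n f) (ak n κ h0 k * -v)) := by
  have hS := hasSum_integral_of_summable_integral_norm (μ := (volume : Measure ℂ))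
    (F := fun (k : Eis) (y : ℂ) => wk ξ k * hh n f (-(y / ak n κ h0 k)) * eC (-(v * y)))
    (fun k => ?_) ?_
  · have e1 : fC (SS n ξ κ h0 f) v = ∫ y : ℂ, ∑' k : Eis,
        wk ξ k * hh n f (-(y / ak n κ h0 k)) * eC (-(v * y)) := by
      unfold fC SS
      congr 1
      ext y
      rw [tsum_mul_right]
    rw [e1, ← hS.tsum_eq]
    refine tsum_congr fun k => ?_
    by_cases hk : k = 0
    · simp [wk, hk]
    · have hak := ak_ne h hk
      have h2 := integral_dil' (fun w => hh n f w * eC (-(ak n κ h0 k * -v * w))) hak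
      have e2 : ∀ y : ℂ, hh n f (-(y / ak n κ h0 k)) *
          eC (-(ak n κ h0 k * -v * (-(y / ak n κ h0 k)))) =
          hh n f (-(y / ak n κ h0 k)) * eC (-(v * y)) := by
        intro y
        congr 2
        field_simp
      simp_rw [e2] at h2
      simp_rw [mul_assoc (wk ξ k)]
      rw [integral_const_mul, h2, Complex.real_smul]
      rfl
  · have := integrable_mul_eC (term_int h k) (-v)
    simpa [neg_mul] using this
  · have := term_sum h
    refine this.congr fun k => ?_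
    congr 1
    ext y
    simp only [norm_mul, eC_norm, mul_one]

/-- the constant `γ = (B/6V) c ‖κ‖² n²/4` -/
def gam (n : ℕ) (κ c : ℂ) (V : ℝ) (B : ℂ) : ℂ :=
  bet V B * c * ((‖κ‖ ^ 2 : ℝ) : ℂ) * ((n : ℂ) ^ 2 / 4)

lemma gam_ne (h : Ctx n s ξ κ c V h0 B B' f) : gam n κ c V B ≠ 0 := by
  have hV : (V : ℂ) ≠ 0 := by exact_mod_cast h.C.V0.ne'
  have hB : B ≠ 0 := by
    intro hB
    have h1 := h.C.cst
    rw [hB] at h1
    simp only [zero_mul] at h1
    have h2 : s * (V : ℂ) ^ 2 ≠ 0 := by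
      refine mul_ne_zero ?_ (pow_ne_zero _ hV)
      rcases h.C.s1 with h3 | h3 <;> rw [h3] <;> norm_num
    exact h2 h1.symm
  have hn : (n : ℂ) ≠ 0 := by exact_mod_cast h.n0
  have hκ : ‖κ‖ ≠ 0 := norm_ne_zero_iff.mpr h.X.κ0
  unfold gam bet
  refine mul_ne_zero (mul_ne_zero (mul_ne_zero (mul_ne_zero hB ?_) h.X.c0) ?_) ?_
  · have : (1 / (6 * V) : ℝ) ≠ 0 := by have := h.C.V0; positivity
    exact_mod_cast this
  · exact_mod_cast pow_ne_zero 2 hκ
  · exact div_ne_zero (pow_ne_zero 2 hn) (by norm_num)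

/-- `D(-v) = 4 γ Ŝ(v)` -/
lemma DD_eq (h : Ctx n s ξ κ c V h0 B B' f) (hK : K2a n f) {v : ℂ} (hv : v ≠ 0) :
    (((‖-v‖ ^ 2)⁻¹ : ℝ) : ℂ) * fO1 n ξ V h0 B f (-v) =
      4 * gam n κ c V B * fC (SS n ξ κ h0 f) v := by
  have hv' : -v ≠ 0 := neg_ne_zero.mpr hv
  have hvp : 0 < ‖-v‖ := norm_pos_iff.mpr hv'
  rw [fO1_ne hv', fOn_dual h hK hv', fC_SS h]
  unfold gam
  have e1 : ∀ k : Eis, (if k = 0 then 0 else conj (ξ k) * (((nm k : ℝ)⁻¹ : ℝ) : ℂ) *
        (((‖ak n κ h0 k * -v‖ ^ 2 : ℝ) : ℂ) * fC (hh n f) (ak n κ h0 k * -v))) =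
      ((‖-v‖ ^ 2 : ℝ) : ℂ) * (wk ξ k * (((‖ak n κ h0 k‖ ^ 2 : ℝ) : ℂ) *
        fC (hh n f) (ak n κ h0 k * -v))) := by
    intro k
    unfold wk
    split_ifs with hk
    · ring
    · rw [norm_mul, mul_pow]
      push_cast
      ring
  simp_rw [e1]
  rw [tsum_mul_left]
  have e2 : (((‖-v‖ ^ 2)⁻¹ : ℝ) : ℂ) * ((‖-v‖ ^ 2 : ℝ) : ℂ) = 1 := by
    rw [← Complex.ofReal_mul, inv_mul_cancel₀ (by positivity), Complex.ofReal_one]
  calc _ = ((((‖-v‖ ^ 2)⁻¹ : ℝ) : ℂ) * ((‖-v‖ ^ 2 : ℝ) : ℂ)) * (bet V B * c *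
        ((‖κ‖ ^ 2 : ℝ) : ℂ) * (n : ℂ) ^ 2 * ∑' k : Eis, wk ξ k *
          (((‖ak n κ h0 k‖ ^ 2 : ℝ) : ℂ) * fC (hh n f) (ak n κ h0 k * -v))) := by ring
    _ = _ := by rw [e2]; ring

/-- **`U(y) = γ S(y)`** for `y ≠ 0` -/
theorem UU_eq (h : Ctx n s ξ κ c V h0 B B' f) (hK : K2a n f) {y : ℂ} (hy : y ≠ 0) :
    UU n ξ V h0 B f y = gam n κ c V B * SS n ξ κ h0 f y := by
  have hγ := gam_ne h
  have hae : (fun v : ℂ => (((‖-v‖ ^ 2)⁻¹ : ℝ) : ℂ) * fO1 n ξ V h0 B f (-v)) =ᵐ[volume]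
      fun v => 4 * gam n κ c V B * fC (SS n ξ κ h0 f) v := by
    filter_upwards [ae_ne_zero] with v hv
    exact DD_eq h hK hv
  have hI : Integrable (fC (SS n ξ κ h0 f)) := by
    have h1 : Integrable (fun v : ℂ => 4 * gam n κ c V B * fC (SS n ξ κ h0 f) v) :=
      ((DD_integrable h).comp_neg).congr hae
    have h2 := h1.const_mul ((4 * gam n κ c V B)⁻¹)
    refine h2.congr (Eventually.of_forall fun v => ?_)
    simp only
    rw [inv_mul_cancel_left₀ (mul_ne_zero (by norm_num) hγ)]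
  have h3 := inv4' (SS_integrable h) hI (SS_contAt h hy)
  unfold UU
  rw [← integral_neg_eq_self (fun u : ℂ =>
    (((‖u‖ ^ 2)⁻¹ : ℝ) : ℂ) * fO1 n ξ V h0 B f u * eC (-(u * y))), ← h3,
    mul_left_comm, ← mul_assoc, ← integral_const_mul]
  refine integral_congr_ae ?_
  filter_upwards [hae] with v hv
  rw [hv, neg_mul, neg_neg]
  ring

end Crest.Agent.R017.Xn590
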