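import Crest.Agent.R017.YP_61

/-!
# Row 17, R8 / E4 at list level: closed forms of the `y`-side under shortening (helper61)

Nominal state `(κ, M, q, c)` (family, marked lumps, unmarked lumps + granular Möbius mass, amplifier),
shortening `β` of the Möbius side, `α` of the amplifier; a child has `q' ≤ q`, `M' + q' = M + q - β`,
`c' = c - α` (up to a slack `τ`).

* `EA_child`, `EB_child`, `EBdom_child` : worst child = `β` taken from the marked lumps
* `EHs` : (HB), optimal mass of the amplifier pointwise; `EHt` : `V`, `m` pointwise as well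
* `ymHs`, `ymHt` : the `UB`s; `EHs_child`, `EHt_child`
-/

set_option autoImplicit false

noncomputable section

open Set

namespace Crest.Agent.R017.YC61

open Crest.Agent.R012 Crest.Agent.R012.Eis
open Crest.Agent.R017.FE47
open Crest.Agent.R017.XG702 (Pcs BG)
open Crest.Agent.R017.XT71 (Sys Win)
open Crest.Agent.R017.E5B71 (UB)
open Crest.Agent.R017.Prov71
open Crest.Agent.R017.B770
open Crest.Agent.R017.ER911 Crest.Agent.R017.SC777 Crest.Agent.R017.ExpC702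
open Crest.Agent.R017.UBR61 Crest.Agent.R017.YM61 Crest.Agent.R017.YP61

/-! ### the excess `eC` -/

/-- threshold of the amplifier -/
def thC (κ M : ℝ) : ℝ := min (7 / 9 * max 0 (κ - M)) (max 0 (2 / 3 * κ - M / 3))

lemma eC_thC (κ M c : ℝ) : eC κ M c = max 0 (c - thC κ M) := rfl

lemma thC_M {κ M y : ℝ} (hy : 0 ≤ y) : thC κ M ≤ thC κ (M + y) + 7 / 9 * y := by
  unfold thC
  rw [← min_add_add_right]
  refine min_le_min ?_ ?_
  · have : max 0 (κ - M) ≤ max 0 (κ - (M + y)) + y :=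
      max_le (by have := le_max_left 0 (κ - (M + y)); linarith)
        (by have := le_max_right 0 (κ - (M + y)); linarith)
    linarith
  · refine max_le ?_ ?_
    · have := le_max_left 0 (2 / 3 * κ - (M + y) / 3); linarith
    · have := le_max_right 0 (2 / 3 * κ - (M + y) / 3); linarith

lemma thC_anti {κ M M' : ℝ} (h : M ≤ M') : thC κ M' ≤ thC κ M := by
  unfold thC
  refine min_le_min ?_ ?_
  · have : max 0 (κ - M') ≤ max 0 (κ - M) := max_le_max le_rfl (by linarith)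
    linarith
  · exact max_le_max le_rfl (by linarith)

lemma thC_κ {κ κ' M : ℝ} (h : κ' ≤ κ) : thC κ M ≤ thC κ' M + 7 / 9 * (κ - κ') := by
  unfold thC
  rw [← min_add_add_right]
  refine min_le_min ?_ ?_
  · have : max 0 (κ - M) ≤ max 0 (κ' - M) + (κ - κ') :=
      max_le (by have := le_max_left 0 (κ' - M); linarith)
        (by have := le_max_right 0 (κ' - M); linarith)
    linarith
  · refine max_le ?_ ?_
    · have := le_max_left 0 (2 / 3 * κ' - M / 3); linarith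
    · have := le_max_right 0 (2 / 3 * κ' - M / 3); linarith

lemma thC_κmono {κ κ' M : ℝ} (h : κ' ≤ κ) : thC κ' M ≤ thC κ M := by
  unfold thC
  refine min_le_min ?_ ?_
  · have : max 0 (κ' - M) ≤ max 0 (κ - M) := max_le_max le_rfl (by linarith)
    linarith
  · exact max_le_max le_rfl (by linarith)

/-- the excess of a child -/
lemma eC_child {κ κ' M M' c c' y τ : ℝ} (hy : 0 ≤ y) (hM : M' ≤ M + y) (hc : c' ≤ c + τ)
    (hτ : 0 ≤ τ) : eC κ' M' c' ≤ eC κ M c + 7 / 9 * max 0 (κ - κ') + 7 / 9 * y + τ := by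
  rw [eC_thC, eC_thC]
  have h1 := le_max_left 0 (c - thC κ M)
  have h2 := le_max_right 0 (c - thC κ M)
  have h3 := le_max_left 0 (κ - κ')
  have h4 := le_max_right 0 (κ - κ')
  have h5 : thC κ M ≤ thC κ' M + 7 / 9 * max 0 (κ - κ') := by
    rcases le_total κ' κ with h | h
    · have := thC_κ (M := M) h; linarith
    · have := thC_κmono (M := M) h; linarith
  have h6 := thC_M (κ := κ') (M := M) hy
  have h7 := thC_anti (κ := κ') hM
  exact max_le (by linarith) (by linarith)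

/-! ### `EA`, `EB` -/

/-- **`EA` of a child** -/
theorem EA_child {d κ κ' M M' q q' c c' β α τ : ℝ} (hd : 0 ≤ d) (hτ : 0 ≤ τ)
    (hκ : κ' ≤ κ + τ) (hq : q' ≤ q + τ) (hMq : M' + q' ≤ M + q - β + τ)
    (hc : c' ≤ c - α + τ) :
    EA d κ' M' q' c' ≤ EA d κ (M - β) q (c - α) + (6 + 4 * d) * τ := by
  have hy : 0 ≤ q + τ - q' := by linarith
  have h1 := eC_child (κ := κ) (κ' := κ') (M := M - β) (M' := M') (c := c - α) (c' := c') hy
    (by linarith) hc hτ
  have h2 : κ' + 7 / 12 * max 0 (κ - κ') ≤ κ + τ := by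
    rcases le_total κ' κ with h | h
    · rw [max_eq_right (by linarith : 0 ≤ κ - κ')]; linarith
    · rw [max_eq_left (by linarith : κ - κ' ≤ 0)]; linarith
  have h3 : 2 * d * (q' + c') ≤ 2 * d * (q + (c - α)) + 4 * d * τ := by nlinarith
  unfold EA
  nlinarith

/-- **`EB` of a child** -/
theorem EB_child {d κ κ' M M' q q' c c' β α τ : ℝ} (hd : 0 ≤ d) (hτ : 0 ≤ τ)
    (hκ : κ' ≤ κ + τ) (hq : q' ≤ q + τ) (hMq : M' + q' ≤ M + q - β + τ)
    (hc : c' ≤ c - α + τ) :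
    EB d κ' M' q' c' ≤ EB d κ (M - β) q (c - α) + (6 + 4 * d) * τ := by
  have h3 : 2 * d * (q' + c') ≤ 2 * d * (q + (c - α)) + 4 * d * τ := by nlinarith
  have h2 : κ' + 7 / 12 * max 0 (κ - κ') ≤ κ + τ := by
    rcases le_total κ' κ with h | h
    · rw [max_eq_right (by linarith : 0 ≤ κ - κ')]; linarith
    · rw [max_eq_left (by linarith : κ - κ' ≤ 0)]; linarith
  have h4 := le_max_left 0 (q + (c - α) - 7 / 9 * (κ - (M - β)))
  have h5 := le_max_right 0 (q + (c - α) - 7 / 9 * (κ - (M - β)))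
  have h6 := le_max_left 0 (κ - κ')
  have h7 := le_max_right 0 (κ - κ')
  have h8 : max 0 (q' + c' - 7 / 9 * (κ' - M')) ≤
      max 0 (q + (c - α) - 7 / 9 * (κ - (M - β))) + 7 / 9 * max 0 (κ - κ') + 2 * τ :=
    max_le (by linarith) (by linarith)
  unfold EB
  linarith

/-- the domain of `T6` of a child -/
theorem EBdom_child {κ κ' M M' q q' β τ : ℝ} (hκ : |κ' - κ| ≤ τ) (hq : q' ≤ q + τ)
    (hMq : |M' + q' - (M + q - β)| ≤ τ) :
    27 * q' - 8 * (κ' - M') ≤ 27 * q - 8 * (κ - (M - β)) + 43 * τ ∧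
    5 * κ' - 14 * M' ≤ 5 * κ - 14 * (M - β) + 33 * τ := by
  obtain ⟨a1, a2⟩ := abs_le.1 hκ
  obtain ⟨b1, b2⟩ := abs_le.1 hMq
  constructor <;> linarith

/-! ### (HB) -/

/-- clipped optimum -/
def cl (lo hi x : ℝ) : ℝ := max lo (min hi x)

lemma cl_mem {lo hi x : ℝ} (h : lo ≤ hi) : lo ≤ cl lo hi x ∧ cl lo hi x ≤ hi :=
  ⟨le_max_left _ _, max_le h (min_le_left _ _)⟩

/-- the three lines of (HB) -/
lemma EHb_le {d κ n b z : ℝ} (h1 : (7 / 4 + 2 * d) * b + (κ + (n - b)) ≤ z)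
    (h2 : (7 / 4 + 2 * d) * b + (2 * (n - b) + κ / 3) ≤ z)
    (h3 : (7 / 4 + 2 * d) * b + ((n - b) + 2 / 3 * (κ + (n - b))) ≤ z) : EHb d κ n b ≤ z := by
  unfold EHb
  have : max (κ + (n - b)) (max (2 * (n - b) + κ / 3) ((n - b) + 2 / 3 * (κ + (n - b)))) ≤
      z - (7 / 4 + 2 * d) * b := max_le (by linarith) (max_le (by linarith) (by linarith))
  linarith

lemma le_EHb1 (d κ n b : ℝ) : (7 / 4 + 2 * d) * b + (κ + (n - b)) ≤ EHb d κ n b := by
  unfold EHb
  linarith [le_max_left (κ + (n - b))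
    (max (2 * (n - b) + κ / 3) ((n - b) + 2 / 3 * (κ + (n - b))))]

lemma le_EHb2 (d κ n b : ℝ) : (7 / 4 + 2 * d) * b + (2 * (n - b) + κ / 3) ≤ EHb d κ n b := by
  unfold EHb
  linarith [(le_max_left (2 * (n - b) + κ / 3) ((n - b) + 2 / 3 * (κ + (n - b)))).trans
    (le_max_right (κ + (n - b)) _)]

lemma le_EHb3 (d κ n b : ℝ) :
    (7 / 4 + 2 * d) * b + ((n - b) + 2 / 3 * (κ + (n - b))) ≤ EHb d κ n b := by
  unfold EHb
  linarith [(le_max_right (2 * (n - b) + κ / 3) ((n - b) + 2 / 3 * (κ + (n - b)))).trans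
    (le_max_right (κ + (n - b)) _)]

/-- below `n - κ` it is better to drop more, above less -/
lemma EHb_dec {d κ n b b' : ℝ} (hd8 : d ≤ 1 / 8) (hκ : 0 ≤ κ) (h : b ≤ b')
    (hb' : b' ≤ n - κ) : EHb d κ n b' ≤ EHb d κ n b := by
  have e2 := le_EHb2 d κ n b
  have k1 : 0 ≤ (1 / 8 - d) * (b' - b) := mul_nonneg (by linarith) (by linarith)
  refine EHb_le ?_ ?_ ?_ <;> nlinarith

lemma EHb_inc {d κ n b b' : ℝ} (hd : 0 ≤ d) (h : b ≤ b') (hb : n - κ ≤ b) :
    EHb d κ n b ≤ EHb d κ n b' := by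
  have e1 := le_EHb1 d κ n b'
  have e3 := le_EHb3 d κ n b'
  have k1 : 0 ≤ d * (b' - b) := mul_nonneg hd (by linarith)
  refine EHb_le ?_ ?_ ?_ <;> nlinarith

/-- **optimality** -/
theorem EHb_cl {d κ n b lo hi : ℝ} (hd : 0 ≤ d) (hd8 : d ≤ 1 / 8) (hκ : 0 ≤ κ) (h1 : lo ≤ b)
    (h2 : b ≤ hi) : EHb d κ n (cl lo hi (n - κ)) ≤ EHb d κ n b := by
  unfold cl
  rcases le_total (n - κ) b with h | h
  · rw [min_eq_right (h.trans h2)]
    exact EHb_inc hd (max_le h1 h) (le_max_right _ _)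
  · rcases le_total (n - κ) hi with h' | h'
    · rw [min_eq_right h', max_eq_right (h1.trans h)]
      exact EHb_dec hd8 hκ h le_rfl
    · rw [min_eq_left h', max_eq_right (h1.trans h2)]
      exact EHb_dec hd8 hκ h2 h'

/-- monotone in the length (fixed dropped mass), Lipschitz in the family -/
lemma EHb_mono {d κ κ' n n' b τ : ℝ} (hτ : 0 ≤ τ) (hκ : κ' ≤ κ + τ) (hn : n' ≤ n + τ) :
    EHb d κ' n' b ≤ EHb d κ n b + 3 * τ := by
  have e1 := le_EHb1 d κ n b
  have e2 := le_EHb2 d κ n b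
  have e3 := le_EHb3 d κ n b
  refine EHb_le ?_ ?_ ?_ <;> linarith

/-- Lipschitz in the dropped mass -/
lemma EHb_lip {d κ n b b' τ : ℝ} (hd : 0 ≤ d) (hd8 : d ≤ 1 / 8) (h : |b' - b| ≤ τ) :
    EHb d κ n b' ≤ EHb d κ n b + 4 * τ := by
  obtain ⟨h1, h2⟩ := abs_le.1 h
  have hτ : 0 ≤ τ := (abs_nonneg _).trans h
  have e1 := le_EHb1 d κ n b
  have e2 := le_EHb2 d κ n b
  have e3 := le_EHb3 d κ n b
  have k1 : 0 ≤ d * (τ - (b' - b)) := mul_nonneg hd (by linarith)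
  have k2 : 0 ≤ (1 / 8 - d) * τ := mul_nonneg (by linarith) hτ
  refine EHb_le ?_ ?_ ?_ <;> nlinarith

/-- (HB), optimal mass `b ∈ [0, c]` of the amplifier pointwise -/
def EHs (d κ n c : ℝ) : ℝ := EHb d κ n (cl 0 c (n - κ))

/-- (HB), pointwise mass `b ∈ [q, q + c]` -/
def EHt (d κ n q c : ℝ) : ℝ := EHb d κ n (cl q (q + c) (n - κ))

lemma EHs_le {d κ n b c : ℝ} (hd : 0 ≤ d) (hd8 : d ≤ 1 / 8) (hκ : 0 ≤ κ) (h1 : 0 ≤ b)
    (h2 : b ≤ c) : EHs d κ n c ≤ EHb d κ n b := EHb_cl hd hd8 hκ h1 h2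

lemma EHt_le {d κ n b q c : ℝ} (hd : 0 ≤ d) (hd8 : d ≤ 1 / 8) (hκ : 0 ≤ κ) (h1 : q ≤ b)
    (h2 : b ≤ q + c) : EHt d κ n q c ≤ EHb d κ n b := EHb_cl hd hd8 hκ h1 h2

/-- **`EHs` of a child** -/
theorem EHs_child {d κ κ' n n' c c' τ : ℝ} (hd : 0 ≤ d) (hd8 : d ≤ 1 / 8) (hκ0 : 0 ≤ κ')
    (hκ : κ' ≤ κ + τ) (hn : n' ≤ n + τ) (hc : |c' - c| ≤ τ) (hc0 : 0 ≤ c')  :
    EHs d κ' n' c' ≤ EHs d κ n c + 7 * τ := by
  have hτ : 0 ≤ τ := (abs_nonneg _).trans hc
  obtain ⟨a1, a2⟩ := abs_le.1 hc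
  set b := cl 0 c (n - κ) with hb
  -- a nearby admissible mass for the child
  have hb' : |cl 0 c' b - b| ≤ τ := by
    have h0 : 0 ≤ b := le_max_left _ _
    have h1 : b ≤ max 0 c := max_le (le_max_left _ _) ((min_le_left _ _).trans (le_max_right _ _))
    unfold cl
    rw [abs_le]
    rcases le_total b c' with h | h
    · rw [min_eq_right h, max_eq_right h0]
      constructor <;> linarith
    · rw [min_eq_left h, max_eq_right hc0]
      refine ⟨?_, by linarith⟩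
      rcases le_total 0 c with h2 | h2
      · rw [max_eq_right h2] at h1; linarith
      · rw [max_eq_left h2] at h1; linarith
  have hm := cl_mem (x := b) hc0
  have e1 := EHs_le (d := d) (κ := κ') (n := n') hd hd8 hκ0 hm.1 hm.2
  have e2 := EHb_lip (d := d) (κ := κ') (n := n') hd hd8 hb'
  have e3 := EHb_mono (d := d) (b := b) hτ hκ hn
  show EHs d κ' n' c' ≤ EHb d κ n b + 7 * τ
  linarith

/-- convexity in the dropped mass -/
lemma EHb_conv {d κ n b b' t : ℝ} (h0 : 0 ≤ t) (h1 : t ≤ 1) :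
    EHb d κ n ((1 - t) * b + t * b') ≤ (1 - t) * EHb d κ n b + t * EHb d κ n b' := by
  have h1' : 0 ≤ 1 - t := by linarith
  have a1 := mul_le_mul_of_nonneg_left (le_EHb1 d κ n b) h1'
  have a2 := mul_le_mul_of_nonneg_left (le_EHb2 d κ n b) h1'
  have a3 := mul_le_mul_of_nonneg_left (le_EHb3 d κ n b) h1'
  have b1 := mul_le_mul_of_nonneg_left (le_EHb1 d κ n b') h0
  have b2 := mul_le_mul_of_nonneg_left (le_EHb2 d κ n b') h0
  have b3 := mul_le_mul_of_nonneg_left (le_EHb3 d κ n b') h0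
  refine EHb_le ?_ ?_ ?_ <;> linarith

/-- intermediate unmarked mass -/
theorem EHt_conv {d κ n q c y Y : ℝ} (hd : 0 ≤ d) (hd8 : d ≤ 1 / 8) (hκ : 0 ≤ κ) (hc : 0 ≤ c)
    (h0 : 0 ≤ y) (h1 : y ≤ Y) :
    EHt d κ n (q - y) c ≤ max (EHt d κ n q c) (EHt d κ n (q - Y) c) := by
  rcases h0.eq_or_lt with rfl | h0'
  · rw [sub_zero]; exact le_max_left _ _
  have hY : 0 < Y := by linarith
  set t := y / Y with ht
  have ht0 : 0 ≤ t := by positivity
  have ht1 : t ≤ 1 := by rw [ht, div_le_one hY]; exact h1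
  have htY : t * Y = y := by rw [ht]; field_simp
  obtain ⟨p1, p2⟩ := cl_mem (x := n - κ) (show q ≤ q + c by linarith)
  obtain ⟨r1, r2⟩ := cl_mem (x := n - κ) (show q - Y ≤ q - Y + c by linarith)
  set b := cl q (q + c) (n - κ) with hb
  set b' := cl (q - Y) (q - Y + c) (n - κ) with hb'
  have ht1' : 0 ≤ 1 - t := by linarith
  have k1 := mul_le_mul_of_nonneg_left p1 ht1'
  have k2 := mul_le_mul_of_nonneg_left p2 ht1'
  have k3 := mul_le_mul_of_nonneg_left r1 ht0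
  have k4 := mul_le_mul_of_nonneg_left r2 ht0
  have e1 : EHt d κ n (q - y) c ≤ EHb d κ n ((1 - t) * b + t * b') :=
    EHt_le hd hd8 hκ (by nlinarith) (by nlinarith)
  have e2 := EHb_conv (d := d) (κ := κ) (n := n) (b := b) (b' := b') ht0 ht1
  have e3 : (1 - t) * EHb d κ n b + t * EHb d κ n b' ≤
      max (EHt d κ n q c) (EHt d κ n (q - Y) c) := by
    have m1 : EHb d κ n b ≤ max (EHt d κ n q c) (EHt d κ n (q - Y) c) := le_max_left _ _
    have m2 : EHb d κ n b' ≤ max (EHt d κ n q c) (EHt d κ n (q - Y) c) := le_max_right _ _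
    have := mul_le_mul_of_nonneg_left m1 ht1'
    have := mul_le_mul_of_nonneg_left m2 ht0
    linarith
  linarith

/-- Lipschitz properties of `EHt` -/
theorem EHt_lip {d κ κ' n n' q q' c c' τ : ℝ} (hd : 0 ≤ d) (hd8 : d ≤ 1 / 8) (hκ0 : 0 ≤ κ')
    (hκ : κ' ≤ κ + τ) (hn : n' ≤ n + τ) (hq : |q' - q| ≤ τ) (hc : |c' - c| ≤ τ) (hc0 : 0 ≤ c')
    (hcn : 0 ≤ c) :
    EHt d κ' n' q' c' ≤ EHt d κ n q c + 11 * τ := by
  have hτ : 0 ≤ τ := (abs_nonneg _).trans hc
  obtain ⟨a1, a2⟩ := abs_le.1 hc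
  obtain ⟨b1, b2⟩ := abs_le.1 hq
  obtain ⟨p1, p2⟩ := cl_mem (x := n - κ) (show q ≤ q + c by linarith)
  set b := cl q (q + c) (n - κ) with hb
  have hm := cl_mem (x := b) (show q' ≤ q' + c' by linarith)
  have hb' : |cl q' (q' + c') b - b| ≤ 2 * τ := by
    unfold cl
    rw [abs_le]
    rcases le_total b (q' + c') with h | h
    · rw [min_eq_right h]
      rcases le_total q' b with h' | h'
      · rw [max_eq_right h']; constructor <;> linarith
      · rw [max_eq_left h']; constructor <;> linarith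
    · rw [min_eq_left h, max_eq_right (by linarith)]
      constructor <;> linarith
  have e1 := EHt_le (d := d) (κ := κ') (n := n') hd hd8 hκ0 hm.1 hm.2
  have e2 := EHb_lip (d := d) (κ := κ') (n := n') hd hd8 hb'
  have e3 := EHb_mono (d := d) (b := b) hτ hκ hn
  show EHt d κ' n' q' c' ≤ EHb d κ n b + 11 * τ
  linarith

/-- **`EHt` of a child**: the shortening of the unmarked mass is between `0` and `Y` -/
theorem EHt_child {d κ κ' n n' q q' c c' Y τ : ℝ} (hd : 0 ≤ d) (hd8 : d ≤ 1 / 8) (hκ0 : 0 ≤ κ')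
    (hκ : κ' ≤ κ + τ) (hn : n' ≤ n + τ) (hq : q' ≤ q + τ) (hq' : q - Y - τ ≤ q')
    (hY : 0 ≤ Y) (hc : |c' - c| ≤ τ) (hc0 : 0 ≤ c') (hcn : 0 ≤ c) (hκn : 0 ≤ κ) :
    EHt d κ' n' q' c' ≤ max (EHt d κ n q c) (EHt d κ n (q - Y) c) + 11 * τ := by
  have hτ : 0 ≤ τ := (abs_nonneg _).trans hc
  set y := max 0 (min Y (q - q')) with hy
  have hy0 : 0 ≤ y := le_max_left _ _
  have hyY : y ≤ Y := max_le hY (min_le_left _ _)
  have h1 := EHt_conv (d := d) (κ := κ) (n := n) (q := q) (c := c) hd hd8 hκn hcn hy0 hyY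
  have hqy : |q' - (q - y)| ≤ τ := by
    rw [abs_le, hy]
    rcases le_total (q - q') 0 with h | h
    · rw [max_eq_left ((min_le_right _ _).trans h)]
      constructor <;> linarith
    · rcases le_total Y (q - q') with h' | h'
      · rw [min_eq_left h', max_eq_right hY]
        constructor <;> linarith
      · rw [min_eq_right h', max_eq_right h]
        constructor <;> linarith
  have h2 := EHt_lip (d := d) hd hd8 hκ0 hκ hn hqy hc hc0 hcn
  linarith

/-! ### the `UB`s of (HB) -/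

section
variable {Λ : Type*} {π : Λ → DPar} {h : ℝ → ℝ} {d : ℝ} {r s rc : EF}
variable {c₀ : ℝ} (hpu : PU h c₀) (hP : ∀ lam, (π lam).OK) (c : Λ → ℝ)
  (R : ExpRules (7 / 8 + d) r s) (C : ExpC r (ex Dq (fun lam => Rc (π lam) h)))

include hpu hP R C

/-- **(HB)**, optimal mass of the amplifier pointwise -/
theorem ymHs (hd : 0 ≤ d) (hd8 : d ≤ 1 / 8) (K : ℝ) : UB S2 Dq (YMFs π h c) (DomY K) univ
    (fun q => EHs d (q.1 0) (q.1 1 + q.1 2 + q.2 .mo + q.2 .am) (q.2 .am)) := by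
  refine ym_of hpu hP c (DomY_compact K) (fun q hq => ⟨fun i => (hq.1 i).1, fun t => (hq.2 t).1⟩)
    (fun q hq b => DomY_down hq) ?_ ?_ isClosed_univ ?_
  · unfold EHs EHb cl; fun_prop
  · intro q hq b hb hb'
    simp only [Function.update_self, ne_eq, reduceCtorEq, not_false_eq_true,
        Function.update_of_ne]
    have hκ := (hq.1 0).1
    obtain ⟨p1, p2⟩ := cl_mem (x := q.1 1 + q.1 2 + q.2 .mo + q.2 .am - q.1 0) ((hq.2 .am).1)
    refine (EHs_le (n := q.1 1 + q.1 2 + (q.2 Kd.mo - b) + q.2 Kd.am) hd hd8 hκ p1 p2).trans ?_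
    have := EHb_mono (d := d) (κ := q.1 0) (κ' := q.1 0)
      (n := q.1 1 + q.1 2 + q.2 .mo + q.2 .am)
      (n' := q.1 1 + q.1 2 + (q.2 Kd.mo - b) + q.2 Kd.am)
      (b := cl 0 (q.2 .am) (q.1 1 + q.1 2 + q.2 .mo + q.2 .am - q.1 0)) (τ := 0) le_rfl
      (by linarith) (by linarith)
    unfold EHs
    linarith
  · intro p V m a hV hm ha hD _
    obtain ⟨p1, p2⟩ := cl_mem (x := p 1 + p 2 + (V.sum + m) + a - p 0) ha
    exact rc_EH R C (hD.1 0).1 (hD.1 1).1 (hD.1 2).1 hm ha hV p1 p2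

/-- **(HB)**, `V`, `m` and the optimal mass of the amplifier pointwise -/
theorem ymHt (hd : 0 ≤ d) (hd8 : d ≤ 1 / 8) (K : ℝ) : UB S2 Dq (YMFs π h c) (DomY K) univ
    (fun q => EHt d (q.1 0) (q.1 1 + q.1 2 + q.2 .mo + q.2 .am) (q.2 .mo) (q.2 .am)) := by
  refine ym_of hpu hP c (DomY_compact K) (fun q hq => ⟨fun i => (hq.1 i).1, fun t => (hq.2 t).1⟩)
    (fun q hq b => DomY_down hq) ?_ ?_ isClosed_univ ?_
  · unfold EHt EHb cl; fun_prop
  · intro q hq b hb hb'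
    simp only [Function.update_self, ne_eq, reduceCtorEq, not_false_eq_true,
        Function.update_of_ne]
    have hκ := (hq.1 0).1
    have ha := (hq.2 .am).1
    obtain ⟨p1, p2⟩ := cl_mem (x := q.1 1 + q.1 2 + q.2 .mo + q.2 .am - q.1 0)
      (show q.2 .mo ≤ q.2 .mo + q.2 .am by linarith)
    set B := cl (q.2 .mo) (q.2 .mo + q.2 .am) (q.1 1 + q.1 2 + q.2 .mo + q.2 .am - q.1 0) with hB
    refine (EHt_le (b := B - b) (n := q.1 1 + q.1 2 + (q.2 Kd.mo - b) + q.2 Kd.am) hd hd8 hκ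
      (by linarith) (by linarith)).trans ?_
    show _ ≤ EHb d (q.1 0) (q.1 1 + q.1 2 + q.2 .mo + q.2 .am) B
    have e1 := le_EHb1 d (q.1 0) (q.1 1 + q.1 2 + q.2 .mo + q.2 .am) B
    have e2 := le_EHb2 d (q.1 0) (q.1 1 + q.1 2 + q.2 .mo + q.2 .am) B
    have e3 := le_EHb3 d (q.1 0) (q.1 1 + q.1 2 + q.2 .mo + q.2 .am) B
    have k : 0 ≤ d * b := mul_nonneg hd hb
    refine EHb_le ?_ ?_ ?_ <;> linarith
  · intro p V m a hV hm ha hD _
    have hV0 : 0 ≤ V.sum := Multiset.sum_nonneg hV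
    obtain ⟨p1, p2⟩ := cl_mem (x := p 1 + p 2 + (V.sum + m) + a - p 0)
      (show V.sum + m ≤ V.sum + m + a by linarith)
    have e := rc_EHq R C (d := d) (κ := p 0) (u₁ := p 1) (u₂ := p 2) (m := m) (c := a)
      (b := cl (V.sum + m) (V.sum + m + a) (p 1 + p 2 + (V.sum + m) + a - p 0) - (V.sum + m))
      (V := V) (hD.1 0).1 (hD.1 1).1 (hD.1 2).1 hm ha hV (by linarith) (by linarith)
    rw [add_sub_cancel] at e
    exact e

end

end Crest.Agent.R017.YC61
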