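import Crest.Agent.R017.YM_61
import Crest.Agent.R017.BadK_271
import Crest.Agent.R017.UBTransfer_973
import Crest.Agent.R017.UBTriv_973

/-!
# Row 17, R8 / E4 at list level: the `y`-side over ALL frequencies (helper61)

* `RT` : second moment over all `k ≠ 0`; `RN` : over the `k` with `NP2 k` false
* `lump_bad`, `rn_le` : class N, the `am`-principal frequencies (two marked lumps)
* `ubs_rn` : `UBs` with exponent `κ/3 + 2 (q + c)`
* `ubs_ym` : `UBs` of `YMFs` from `UB`; `ubs_yt` : `UBs` over all frequencies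
* `UBs.inf` : minimum of two exponents
* `ubs_A`, `ubs_B`, `ubs_H`, `ubs_Hq` : closed forms
-/

set_option autoImplicit false

noncomputable section

open Set

namespace Crest.Agent.R017.YP61

open Crest.Agent.R012 Crest.Agent.R012.Eis Crest.Agent.R012.Mob705
open Crest.Agent.R012.LS2 (bl mem_bl)
open Crest.Agent.R017.FE47
open Crest.Agent.R017.CM106
open Crest.Agent.R017.XG702 (Pcs BG)
open Crest.Agent.R017.XT71 (Sys Win)
open Crest.Agent.R017.E5B71 (UB)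
open Crest.Agent.R017.Prov71
open Crest.Agent.R017.B770
open Crest.Agent.R017.End699 Crest.Agent.R017.Sup271
open Crest.Agent.R017.ER911 Crest.Agent.R017.SC777 Crest.Agent.R017.ExpC702
open Crest.Agent.R017.HP842 (Pc pc)
open Crest.Agent.R017.UBR61 Crest.Agent.R017.YM61 Crest.Agent.R017.UBT973

variable {Λ : Type*} {π : Λ → DPar} {h : ℝ → ℝ}

/-! ### the functionals -/

/-- second moment over all `k ≠ 0` -/
def RT (P : DPar) (h : ℝ → ℝ) (l : ℝ) (ps : List Pq) : ℝ :=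
  RQ (fun _ => True) h l (ps.map (Pq.pc P))

/-- second moment over the `k` with `NP2 k` false -/
def RN (P : DPar) (h : ℝ → ℝ) (l : ℝ) (ps : List Pq) : ℝ :=
  RQ (fun k => ¬ P.NP2 k) h l (ps.map (Pq.pc P))

lemma RT_nonneg (P : DPar) (h : ℝ → ℝ) (l : ℝ) (ps : List Pq) : 0 ≤ RT P h l ps :=
  RQ_nonneg _ _ _ _

lemma RN_nonneg (P : DPar) (h : ℝ → ℝ) (l : ℝ) (ps : List Pq) : 0 ≤ RN P h l ps :=
  RQ_nonneg _ _ _ _

lemma RT_eq (P : DPar) (h : ℝ → ℝ) (l : ℝ) (ps : List Pq) :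
    RT P h l ps = Rc P h l ps + RN P h l ps := by
  classical
  unfold RT Rc RN RQ
  rw [Finset.filter_true, ← Finset.sum_filter_add_sum_filter_not (bl (Real.exp l)) P.NP2]
  congr!

/-! ### one principal frequency -/

/-- a marked lump at an `am`-principal `k` -/
lemma lump_bad {P : DPar} (hP : P.OK) {c₀ : ℝ} (hpu : PU h c₀) {s : ℝ} (hs : 0 < s) :
    ∃ C : ℝ, 1 ≤ C ∧ ∀ k : Eis, k ≠ 0 → ¬ NPk P.n P.φ P.l₁ k → NPm P.n P.ψ P.l₂ k →
      ∀ p : Pq, Dq.lump p → ‖CS (pc h (p.pc P)) k‖ ≤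
        C * ((nm p.d : ℝ) * nm k) ^ s * (1 + |p.t|) ^ 4 := by
  obtain ⟨C, hC, H⟩ := BadK271.one_bad (cd_cx hpu.cd) (cs_cx hpu.cs)
    hP.φ hP.ψ P.l₁ P.l₂ hs
  refine ⟨C, hC, fun k hk h1 h2 p hp => ?_⟩
  have h3 := H k hk h1 h2 p.d p.d0 p.z p.t
  obtain ⟨hk1, hu⟩ := (Dq_lump p).1 hp
  have e1 : ‖CS (pc h (p.pc P)) k‖ =
      ‖PS (cx h) (fun b => tw P.ψ P.l₂ b * prin0 p.d b * sy k b) p.z p.t‖ := by
    rw [SupPc271.CS_pc, Pq.pc_u, Pq.pc_Y, Pq.pc_t, Pq.pc_ψ, hu, hk1, Real.log_exp]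
    congr 1
    refine PS_congr (fun b _ => ?_) _ _
    simp only [chK, HP842.uv, tw]
    ring
  rw [e1]
  exact h3

/-- products over a list, trivial bound -/
lemma prod_rest {P : DPar} {C : ℝ} (hC : 1 ≤ C) (k : Eis) {ps : List Pq}
    (hb : ∀ p ∈ ps, ‖CS (pc h (p.pc P)) k‖ ≤ C * (p.pc P).Y) :
    ((ps.map (Pq.pc P)).map fun p => ‖CS (pc h p) k‖ ^ 2).prod ≤
      C ^ (2 * ps.length) * Real.exp (2 * (ps.map Pq.z).sum) := by
  induction ps with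
  | nil => simp
  | cons p ps ih =>
    have ih' := ih fun q hq => hb q (List.mem_cons_of_mem _ hq)
    have h1 := hb p List.mem_cons_self
    rw [Pq.pc_Y] at h1
    have h2 : ‖CS (pc h (p.pc P)) k‖ ^ 2 ≤ (C * Real.exp p.z) ^ 2 :=
      pow_le_pow_left₀ (norm_nonneg _) h1 2
    rw [List.map_cons, List.map_cons, List.prod_cons, List.map_cons, List.sum_cons,
      List.length_cons]
    have h0 : 0 ≤ ((ps.map (Pq.pc P)).map fun p => ‖CS (pc h p) k‖ ^ 2).prod := by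
      refine List.prod_nonneg ?_
      intro a ha
      obtain ⟨q, _, rfl⟩ := List.mem_map.1 ha
      positivity
    calc _ ≤ (C * Real.exp p.z) ^ 2 *
          (C ^ (2 * ps.length) * Real.exp (2 * (ps.map Pq.z).sum)) :=
          mul_le_mul h2 ih' h0 (by positivity)
      _ = _ := by
        rw [mul_pow, ← Real.exp_nat_mul]
        have e1 : Real.exp (2 * (p.z + (ps.map Pq.z).sum)) =
            Real.exp ((2 : ℕ) * p.z) * Real.exp (2 * (ps.map Pq.z).sum) := by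
          rw [← Real.exp_add]; congr 1; push_cast; ring
        rw [e1]
        ring

/-- the number of `am`-principal frequencies -/
lemma card_bad {P : DPar} (hP : P.OK) {l : ℝ} {S : Finset Eis}
    (hS : ∀ k ∈ S, k ∈ bl (Real.exp l) ∧ ¬ NPk P.n P.φ P.l₁ k) :
    (S.card : ℝ) ≤ 18 * Real.exp (l / 3) := by
  classical
  rcases S.eq_empty_or_nonempty with rfl | ⟨k0, hk0⟩
  · simp only [Finset.card_empty, Nat.cast_zero]; positivity
  have hE := (Real.exp_pos l).le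
  have h0 := (mem_bl hE).1 (hS k0 hk0).1
  have h1 : (1 : ℝ) ≤ Real.exp l := by
    have : (1 : ℝ) ≤ nm k0 := by exact_mod_cast nm_pos.2 h0.1
    linarith [h0.2]
  have h2 := NatP401.card_principal hP.φ P.l₁ (H := ⌊Real.exp l⌋₊)
    ((Nat.one_le_floor_iff _).2 h1) S fun k hk => by
      have h3 := (mem_bl hE).1 (hS k hk).1
      refine ⟨?_, h3.1, (hS k hk).2⟩
      rw [mem_ball]
      exact Nat.le_floor h3.2
  refine h2.trans ?_
  have h3 : (⌊Real.exp l⌋₊ : ℝ) ≤ Real.exp l := Nat.floor_le hE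
  have e1 : Real.exp (l / 3) = Real.exp l ^ (1 / 3 : ℝ) := by
    rw [← Real.exp_mul]; congr 1; ring
  rw [e1]
  gcongr

/-- **the frequencies with `NP2` false**, class N, two marked lumps -/
theorem rn_le {P : DPar} (hP : P.OK) (hN : ∀ k, k ≠ 0 → NPm P.n P.ψ P.l₂ k) {c₀ : ℝ}
    (hpu : PU h c₀) {s : ℝ} (hs : 0 < s) :
    ∃ C : ℝ, 1 ≤ C ∧ ∀ (l : ℝ) (u₁ u₂ : Pq) (ps : List Pq), Dq.lump u₁ → Dq.lump u₂ →
      RN P h l (u₁ :: u₂ :: ps) ≤ C ^ (2 * ps.length + 1) *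
        (((nm u₁.d : ℝ) * Real.exp l) ^ s * (1 + |u₁.t|) ^ 4) ^ 2 *
        (((nm u₂.d : ℝ) * Real.exp l) ^ s * (1 + |u₂.t|) ^ 4) ^ 2 *
        Real.exp (l / 3 + 2 * (ps.map Pq.z).sum) := by
  classical
  obtain ⟨Ca, hCa, ha⟩ := lump_bad (h := h) hP hpu hs
  obtain ⟨Cb, hCb, hb⟩ := BadK271.CS_triv hpu
  refine ⟨18 * Ca ^ 4 * Cb, ?_, fun l u₁ u₂ ps h1 h2 => ?_⟩
  · have := one_le_pow₀ (n := 4) hCa
    nlinarith [one_le_mul_of_one_le_of_one_le this hCb]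
  have hE := (Real.exp_pos l).le
  set A₁ : ℝ := ((nm u₁.d : ℝ) * Real.exp l) ^ s * (1 + |u₁.t|) ^ 4 with hA₁
  set A₂ : ℝ := ((nm u₂.d : ℝ) * Real.exp l) ^ s * (1 + |u₂.t|) ^ 4 with hA₂
  have hA1 : 0 ≤ A₁ := by positivity
  have hA2 : 0 ≤ A₂ := by positivity
  set T : ℝ := Real.exp (2 * (ps.map Pq.z).sum) with hT
  have key : ∀ (u : Pq), Dq.lump u → ∀ k, (k ∈ bl (Real.exp l) ∧ ¬ P.NP2 k) →
      ‖CS (pc h (u.pc P)) k‖ ≤
        Ca * (((nm u.d : ℝ) * Real.exp l) ^ s * (1 + |u.t|) ^ 4) := by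
    intro u hu k hk
    rw [mem_bl hE] at hk
    have hnp := hN k hk.1.1
    have hnk : ¬ NPk P.n P.φ P.l₁ k := fun h' => hk.2 ⟨h', hnp⟩
    refine (ha k hk.1.1 hnk hnp u hu).trans ?_
    rw [mul_assoc]
    have h3 : (nm u.d : ℝ) * nm k ≤ (nm u.d : ℝ) * Real.exp l :=
      mul_le_mul_of_nonneg_left hk.1.2 (Nat.cast_nonneg _)
    gcongr
  have hterm : ∀ k, (k ∈ bl (Real.exp l) ∧ ¬ P.NP2 k) →
      (((u₁ :: u₂ :: ps).map (Pq.pc P)).map fun p => ‖CS (pc h p) k‖ ^ 2).prod ≤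
        (Ca * A₁) ^ 2 * ((Ca * A₂) ^ 2 * (Cb ^ (2 * ps.length) * T)) := by
    intro k hk
    rw [List.map_cons, List.map_cons, List.prod_cons, List.map_cons, List.map_cons,
      List.prod_cons]
    have g1 := pow_le_pow_left₀ (norm_nonneg _) (key u₁ h1 k hk) 2
    have g2 := pow_le_pow_left₀ (norm_nonneg _) (key u₂ h2 k hk) 2
    have g3 := prod_rest (h := h) (P := P) hCb k (ps := ps) fun p _ =>
      hb (p.pc P) k (fun b hb' => (Pq.ok hP p).ch.norm_le hb') (Pq.ok hP p).Y0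
    have g0 : 0 ≤ ((ps.map (Pq.pc P)).map fun p => ‖CS (pc h p) k‖ ^ 2).prod := by
      refine List.prod_nonneg ?_
      intro a ha
      obtain ⟨q, _, rfl⟩ := List.mem_map.1 ha
      positivity
    exact mul_le_mul g1 (mul_le_mul g2 g3 g0 (by positivity))
      (mul_nonneg (by positivity) g0) (by positivity)
  have hcard : ∀ S : Finset Eis, (∀ k ∈ S, k ∈ bl (Real.exp l) ∧ ¬ P.NP2 k) →
      (S.card : ℝ) ≤ 18 * Real.exp (l / 3) := fun S hS => card_bad hP fun k hk =>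
    ⟨(hS k hk).1, fun h' => (hS k hk).2 ⟨h', hN k ((mem_bl hE).1 (hS k hk).1).1⟩⟩
  have hV : 0 ≤ (Ca * A₁) ^ 2 * ((Ca * A₂) ^ 2 * (Cb ^ (2 * ps.length) * T)) := by positivity
  have hfin : RN P h l (u₁ :: u₂ :: ps) ≤ (18 * Real.exp (l / 3)) *
      ((Ca * A₁) ^ 2 * ((Ca * A₂) ^ 2 * (Cb ^ (2 * ps.length) * T))) := by
    unfold RN RQ
    refine (Finset.sum_le_sum fun k hk => hterm k (by
      simp only [Finset.mem_filter] at hk; exact hk)).trans ?_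
    rw [Finset.sum_const, nsmul_eq_mul]
    exact mul_le_mul_of_nonneg_right (hcard _ fun k hk => by
      simp only [Finset.mem_filter] at hk; exact hk) hV
  refine hfin.trans ?_
  have e1 : Real.exp (l / 3 + 2 * (ps.map Pq.z).sum) = Real.exp (l / 3) * T := by
    rw [Real.exp_add]
  rw [e1]
  have h3 : 18 * Ca ^ 4 * Cb ^ (2 * ps.length) ≤ (18 * Ca ^ 4 * Cb) ^ (2 * ps.length + 1) := by
    have c4 := one_le_pow₀ (n := 4) hCa
    have c1 : 1 ≤ 18 * Ca ^ 4 := by linarith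
    calc 18 * Ca ^ 4 * Cb ^ (2 * ps.length)
        ≤ (18 * Ca ^ 4) ^ (2 * ps.length + 1) * Cb ^ (2 * ps.length + 1) := by
          refine mul_le_mul ?_ ?_ (by positivity) (by positivity)
          · exact le_self_pow₀ c1 (by omega)
          · exact pow_le_pow_right₀ hCb (by omega)
      _ = _ := by rw [← mul_pow]
  calc (18 * Real.exp (l / 3)) * ((Ca * A₁) ^ 2 * ((Ca * A₂) ^ 2 * (Cb ^ (2 * ps.length) * T)))
      = (18 * Ca ^ 4 * Cb ^ (2 * ps.length)) * (A₁ ^ 2 * A₂ ^ 2 * (Real.exp (l / 3) * T)) := by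
        ring
    _ ≤ (18 * Ca ^ 4 * Cb) ^ (2 * ps.length + 1) * (A₁ ^ 2 * A₂ ^ 2 * (Real.exp (l / 3) * T)) :=
        mul_le_mul_of_nonneg_right h3 (by positivity)
    _ = _ := by ring

/-! ### uniform bounds -/

lemma sum_z {X : ℝ} (hX : Real.log X ≠ 0) (ps : List Pq) :
    (ps.map Pq.z).sum = (Dq.mass X ps .mo + Dq.mass X ps .am) * Real.log X := by
  induction ps with
  | nil => simp
  | cons p ps ih =>
    rw [List.map_cons, List.sum_cons, ih, Pcs.mass_cons, Pcs.mass_cons]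
    have e1 : Dq.nl X p * Real.log X = p.z := by
      unfold Pcs.nl
      rw [Dq_len, div_mul_cancel₀ _ hX]
    rw [Dq_kind]
    cases p.kd <;> simp <;> rw [← e1] <;> ring

lemma coord_bd {f : (Fin 3 → ℝ) × (Kd → ℝ) → ℝ} (hc : IsCompact {q | f q ≤ 1}) :
    ∃ K : ℝ, 0 ≤ K ∧ ∀ q, f q ≤ 1 → (∀ i, |q.1 i| ≤ K) ∧ ∀ t, |q.2 t| ≤ K := by
  obtain ⟨K, hK⟩ := hc.isBounded.exists_norm_le
  refine ⟨|K|, abs_nonneg _, fun q hq => ?_⟩
  have h1 := (hK q hq).trans (le_abs_self K)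
  refine ⟨fun i => ?_, fun t => ?_⟩
  · exact (norm_le_pi_norm q.1 i).trans ((norm_fst_le q).trans h1)
  · exact (norm_le_pi_norm q.2 t).trans ((norm_snd_le q).trans h1)

/-- marked families with a shift -/
def mkFs (Φ : Λ → ℝ → List Pq → ℝ) (c : Λ → ℝ) : Λ → Y2 → List Pq → ℝ :=
  mkF (fun _ a => a.ok) Φ (fun lam a => a.l + c lam) (fun _ a => [a.u₁, a.u₂])

lemma mkFs_nonneg {Φ : Λ → ℝ → List Pq → ℝ} (h0 : ∀ lam l ps, 0 ≤ Φ lam l ps) (c : Λ → ℝ)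
    (lam : Λ) (a : Y2) (ps : List Pq) : 0 ≤ mkFs Φ c lam a ps := by
  unfold mkFs mkF
  split_ifs
  · exact h0 _ _ _
  · exact le_rfl

lemma YMFs_eq (c : Λ → ℝ) : YMFs π h c = mkFs (fun lam => Rc (π lam) h) c := rfl

lemma exp_ev {X : ℝ} (hX : 1 < X) (a : Y2) (y : ℝ) :
    Real.exp (a.l * y) = X ^ (S2.ev X a 0 * y) := by
  have hl : Real.log X ≠ 0 := (Real.log_pos hX).ne'
  rw [Real.rpow_def_of_pos (by linarith)]
  congr 1
  simp only [S2, Matrix.cons_val_zero]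
  field_simp

/-- **the frequencies with `NP2` false** -/
theorem ubs_rn {c₀ : ℝ} (hpu : PU h c₀) (hP : ∀ lam, (π lam).OK)
    (hN : ∀ lam k, k ≠ 0 → NPm (π lam).n (π lam).ψ (π lam).l₂ k) (c : Λ → ℝ)
    {f : (Fin 3 → ℝ) × (Kd → ℝ) → ℝ} (hc : IsCompact {q | f q ≤ 1}) :
    UBs S2 Dq (mkFs (fun lam => RN (π lam) h) c) f univ
      (fun q => q.1 0 / 3 + 2 * (q.2 .mo + q.2 .am)) := by
  intro ε hε
  refine ⟨1, one_pos, fun lam N B => ?_⟩
  obtain ⟨K, hK0, hK⟩ := coord_bd hc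
  have hB0 := abs_nonneg B
  set s : ℝ := ε / (8 * (|B| + K + 1)) with hs
  have hs0 : 0 < s := by positivity
  have hsB : 4 * s * (|B| + K) ≤ ε / 2 := by
    have e : s * (8 * (|B| + K + 1)) = ε := by rw [hs]; field_simp
    nlinarith
  obtain ⟨C, hC, H⟩ := rn_le (h := h) (hP lam) (hN lam) hpu hs0
  set Z : ℝ := C ^ (2 * N + 1) * Real.exp (4 * s * |c lam|) * Real.exp (|c lam| / 3) with hZ
  obtain ⟨Y, hY⟩ := Filter.eventually_atTop.1
    ((tendsto_rpow_atTop (show 0 < ε / 2 by linarith)).eventually_ge_atTop Z)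
  refine ⟨16, max 2 Y, lt_of_lt_of_le one_lt_two (le_max_left _ _), ?_⟩
  intro X hX a ps hlen _ _ _ hs2 _ hf _ Ht hH hs1 _
  have hX2 : 2 ≤ X := (le_max_left _ _).trans hX
  have hX1 : 1 < X := by linarith
  have hX0 : 0 < X := by linarith
  have hlog : Real.log X ≠ 0 := (Real.log_pos hX1).ne'
  have hZX := hY X ((le_max_right _ _).trans hX)
  have hH0 : 0 ≤ Ht := by linarith
  obtain ⟨k1, -⟩ := hK _ hf
  unfold mkFs mkF
  by_cases hok : a.ok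
  swap
  · rw [if_neg hok]; positivity
  rw [if_pos hok]
  have h1 := H (a.l + c lam) a.u₁ a.u₂ ps hok.1.1 hok.2.1
  have el : Real.exp (a.l + c lam) ≤ X ^ K * Real.exp |c lam| := by
    rw [Real.exp_add]
    have e1 := exp_ev hX1 a 1
    rw [mul_one, mul_one] at e1
    rw [e1]
    refine mul_le_mul (Real.rpow_le_rpow_of_exponent_le hX1.le ((le_abs_self _).trans (k1 0)))
      (Real.exp_le_exp.2 (le_abs_self _)) (Real.exp_pos _).le (by positivity)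
  have hA : ∀ u : Pq, (nm u.d : ℝ) ≤ S2.s₂ a → 1 + |u.t| ≤ S2.s₁ a →
      ((nm u.d : ℝ) * Real.exp (a.l + c lam)) ^ s * (1 + |u.t|) ^ 4 ≤
        X ^ (s * (|B| + K)) * Real.exp (s * |c lam|) * Ht ^ 4 := by
    intro u hu1 hu2
    have h2 : (nm u.d : ℝ) ≤ X ^ |B| :=
      (hu1.trans hs2).trans (Real.rpow_le_rpow_of_exponent_le hX1.le (le_abs_self _))
    have h3 : (nm u.d : ℝ) * Real.exp (a.l + c lam) ≤ X ^ (|B| + K) * Real.exp |c lam| := by
      calc (nm u.d : ℝ) * Real.exp (a.l + c lam) ≤ X ^ |B| * (X ^ K * Real.exp |c lam|) :=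
            mul_le_mul h2 el (Real.exp_pos _).le (by positivity)
        _ = _ := by rw [Real.rpow_add hX0]; ring
    have h4 : ((nm u.d : ℝ) * Real.exp (a.l + c lam)) ^ s ≤
        X ^ (s * (|B| + K)) * Real.exp (s * |c lam|) := by
      refine (Real.rpow_le_rpow (by positivity) h3 hs0.le).trans (le_of_eq ?_)
      rw [Real.mul_rpow (by positivity) (by positivity), ← Real.rpow_mul hX0.le,
        ← Real.exp_mul]
      congr 2 <;> ring
    have h5 : (1 + |u.t|) ^ 4 ≤ Ht ^ 4 :=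
      pow_le_pow_left₀ (by positivity) (hu2.trans hs1) 4
    exact mul_le_mul h4 h5 (by positivity) (by positivity)
  have hA1 := hA a.u₁ (le_max_left _ _) (le_max_left _ _)
  have hA2 := hA a.u₂ (le_max_right _ _) (le_max_right _ _)
  have hexp : Real.exp ((a.l + c lam) / 3 + 2 * (ps.map Pq.z).sum) ≤
      X ^ (S2.ev X a 0 / 3 + 2 * (Dq.mass X ps .mo + Dq.mass X ps .am)) *
        Real.exp (|c lam| / 3) := by
    have e1 := exp_ev hX1 a (1 / 3)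
    have e2 : Real.exp (2 * (ps.map Pq.z).sum) =
        X ^ (2 * (Dq.mass X ps .mo + Dq.mass X ps .am)) := by
      rw [sum_z hlog, Real.rpow_def_of_pos hX0]
      congr 1; ring
    have e3 : (a.l + c lam) / 3 + 2 * (ps.map Pq.z).sum =
        a.l * (1 / 3) + 2 * (ps.map Pq.z).sum + c lam / 3 := by ring
    rw [e3, Real.exp_add, Real.exp_add, e1, e2, ← Real.rpow_add hX0]
    have e4 : S2.ev X a 0 * (1 / 3) + 2 * (Dq.mass X ps .mo + Dq.mass X ps .am) =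
        S2.ev X a 0 / 3 + 2 * (Dq.mass X ps .mo + Dq.mass X ps .am) := by ring
    rw [e4]
    refine mul_le_mul_of_nonneg_left (Real.exp_le_exp.2 ?_) (by positivity)
    linarith [le_abs_self (c lam)]
  set E : ℝ := S2.ev X a 0 / 3 + 2 * (Dq.mass X ps .mo + Dq.mass X ps .am) with hE
  have hCp : C ^ (2 * ps.length + 1) ≤ C ^ (2 * N + 1) :=
    pow_le_pow_right₀ hC (by omega)
  set G : ℝ := X ^ (s * (|B| + K)) * Real.exp (s * |c lam|) * Ht ^ 4 with hG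
  have hG0 : 0 ≤ G := by positivity
  have hXs : X ^ (4 * s * (|B| + K)) ≤ X ^ (ε / 2) := Real.rpow_le_rpow_of_exponent_le hX1.le hsB
  have hG4 : G ^ 2 * G ^ 2 = X ^ (4 * s * (|B| + K)) * Real.exp (4 * s * |c lam|) * Ht ^ 16 := by
    have e1 : X ^ (4 * s * (|B| + K)) = (X ^ (s * (|B| + K))) ^ 4 := by
      rw [← Real.rpow_natCast, ← Real.rpow_mul hX0.le]; congr 1; push_cast; ring
    have e2 : Real.exp (4 * s * |c lam|) = Real.exp (s * |c lam|) ^ 4 := by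
      rw [← Real.exp_nat_mul]; congr 1; push_cast; ring
    rw [e1, e2, hG]
    ring
  calc RN (π lam) h (a.l + c lam) ([a.u₁, a.u₂] ++ ps)
      ≤ C ^ (2 * ps.length + 1) *
        (((nm a.u₁.d : ℝ) * Real.exp (a.l + c lam)) ^ s * (1 + |a.u₁.t|) ^ 4) ^ 2 *
        (((nm a.u₂.d : ℝ) * Real.exp (a.l + c lam)) ^ s * (1 + |a.u₂.t|) ^ 4) ^ 2 *
        Real.exp ((a.l + c lam) / 3 + 2 * (ps.map Pq.z).sum) := h1
    _ ≤ C ^ (2 * N + 1) * G ^ 2 * G ^ 2 * (X ^ E * Real.exp (|c lam| / 3)) := by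
        gcongr
    _ = (X ^ (4 * s * (|B| + K)) * X ^ E * Ht ^ 16) * Z := by
        rw [mul_assoc (C ^ (2 * N + 1)), hG4, hZ]; ring
    _ ≤ (X ^ (ε / 2) * X ^ E * Ht ^ 16) * X ^ (ε / 2) := by
        gcongr
    _ = Ht ^ 16 * X ^ (E + ε) := by
        have e : X ^ (E + ε) = X ^ (ε / 2) * X ^ E * X ^ (ε / 2) := by
          rw [← Real.rpow_add hX0, ← Real.rpow_add hX0]; congr 1; ring
        rw [e]; ring

/-- trivial bound -/
theorem triv_mkFs {Φ : Λ → ℝ → List Pq → ℝ} (hΦ : ∃ C : ℝ, 1 ≤ C ∧ ∀ lam l qs,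
      Φ lam l qs ≤ 100 * C ^ (2 * List.length qs) * Real.exp (l + 2 * (qs.map Pq.z).sum))
    (c : Λ → ℝ) {f : (Fin 3 → ℝ) × (Kd → ℝ) → ℝ} (hc : IsCompact {q | f q ≤ 1}) :
    UBT973.Triv S2 Dq (mkFs Φ c) f univ := by
  intro lam N B
  obtain ⟨C, hC, H⟩ := hΦ
  obtain ⟨K, hK0, hK⟩ := coord_bd hc
  obtain ⟨m, hm⟩ := pow_unbounded_of_one_lt (100 * C ^ (2 * (N + 2)) * Real.exp |c lam|)
    (one_lt_two (α := ℝ))
  refine ⟨0, 9 * K + m, fun X hX2 a ps w Ht hH hs1 _ => ?_⟩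
  have hX1 : 1 < X := by linarith
  have hX0 : 0 < X := by linarith
  have hlog : Real.log X ≠ 0 := (Real.log_pos hX1).ne'
  obtain ⟨k1, k2⟩ := hK _ w.f
  unfold mkFs mkF
  rw [pow_zero, one_mul]
  split_ifs with hok
  swap
  · positivity
  have h1 := H lam (a.l + c lam) ([a.u₁, a.u₂] ++ ps)
  have e0 : (([a.u₁, a.u₂] ++ ps).map Pq.z).sum =
      (S2.ev X a 1 + S2.ev X a 2 + (Dq.mass X ps .mo + Dq.mass X ps .am)) * Real.log X := by
    have e1 : S2.ev X a 1 * Real.log X = a.u₁.z := by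
      simp only [S2, Matrix.cons_val_one, Matrix.cons_val_zero]
      rw [div_mul_cancel₀ _ hlog]
    have e2 : S2.ev X a 2 * Real.log X = a.u₂.z := by
      simp only [S2, Matrix.cons_val]
      rw [div_mul_cancel₀ _ hlog]
    rw [List.map_append, List.sum_append, sum_z hlog ps]
    have e3 : (List.map Pq.z [a.u₁, a.u₂]).sum = a.u₁.z + a.u₂.z := by simp
    rw [e3, ← e1, ← e2]
    ring
  have e1 : Real.exp (a.l + c lam + 2 * (([a.u₁, a.u₂] ++ ps).map Pq.z).sum) =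
      X ^ (S2.ev X a 0 + 2 * (S2.ev X a 1 + S2.ev X a 2 +
        (Dq.mass X ps .mo + Dq.mass X ps .am))) * Real.exp (c lam) := by
    have e3 := exp_ev hX1 a 1
    rw [mul_one, mul_one] at e3
    have e4 : a.l + c lam + 2 * (([a.u₁, a.u₂] ++ ps).map Pq.z).sum =
        a.l + 2 * (([a.u₁, a.u₂] ++ ps).map Pq.z).sum + c lam := by ring
    rw [e4, Real.exp_add, Real.exp_add, e3, e0, Real.rpow_add hX0]
    congr 2
    rw [Real.rpow_def_of_pos hX0]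
    congr 1
    ring
  have e2 : S2.ev X a 0 + 2 * (S2.ev X a 1 + S2.ev X a 2 +
      (Dq.mass X ps .mo + Dq.mass X ps .am)) ≤ 9 * K := by
    have a0 := (le_abs_self _).trans (k1 0)
    have a1 := (le_abs_self _).trans (k1 1)
    have a2 := (le_abs_self _).trans (k1 2)
    have b1 := (le_abs_self _).trans (k2 .mo)
    have b2 := (le_abs_self _).trans (k2 .am)
    dsimp only at a0 a1 a2 b1 b2
    linarith
  have hlen : (([a.u₁, a.u₂] ++ ps : List Pq)).length ≤ N + 2 := by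
    have := w.len
    simp only [List.cons_append, List.nil_append, List.length_cons]
    omega
  have h2m : (2 : ℝ) ^ m ≤ X ^ (m : ℝ) := by
    rw [Real.rpow_natCast]
    exact pow_le_pow_left₀ (by norm_num) hX2 m
  calc Φ lam (a.l + c lam) ([a.u₁, a.u₂] ++ ps)
      ≤ 100 * C ^ (2 * (([a.u₁, a.u₂] ++ ps : List Pq)).length) *
        (X ^ (S2.ev X a 0 + 2 * (S2.ev X a 1 + S2.ev X a 2 +
          (Dq.mass X ps .mo + Dq.mass X ps .am))) * Real.exp (c lam)) := by rw [← e1]; exact h1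
    _ ≤ 100 * C ^ (2 * (N + 2)) * (X ^ (9 * K) * Real.exp |c lam|) := by
        have g1 : C ^ (2 * (([a.u₁, a.u₂] ++ ps : List Pq)).length) ≤ C ^ (2 * (N + 2)) :=
          pow_le_pow_right₀ hC (by omega)
        have g2 := Real.rpow_le_rpow_of_exponent_le hX1.le e2
        have g3 := Real.exp_le_exp.2 (le_abs_self (c lam))
        gcongr
    _ = (100 * C ^ (2 * (N + 2)) * Real.exp |c lam|) * X ^ (9 * K) := by ring
    _ ≤ X ^ (m : ℝ) * X ^ (9 * K) := by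
        refine mul_le_mul_of_nonneg_right (hm.le.trans h2m) (by positivity)
    _ = X ^ (9 * K + m) := by rw [← Real.rpow_add hX0]; congr 1; ring

/-! ### calculus -/

section calcU

variable {A Pc' ι τ Λ' : Type*} [DecidableEq τ] {S : Sys A ι} {D : Pcs Pc' τ}

/-- larger exponent -/
theorem ubs_mono {Ψ : Λ' → A → List Pc' → ℝ} {f : (ι → ℝ) × (τ → ℝ) → ℝ}
    {al : Set ((ι → ℝ) × ℝ)} {E E' : (ι → ℝ) × (τ → ℝ) → ℝ} (h : UBs S D Ψ f al E)
    (hE : ∀ q, E q ≤ E' q) : UBs S D Ψ f al E' := by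
  intro ε hε
  obtain ⟨σ, hσ, K⟩ := h ε hε
  refine ⟨σ, hσ, fun lam N B => ?_⟩
  obtain ⟨M, X₀, hX₀, K1⟩ := K lam N B
  refine ⟨M, X₀, hX₀, fun X hX a ps w1 w2 w3 w4 w5 w6 w7 w8 H hH h1 h2 => ?_⟩
  refine (K1 X hX a ps w1 w2 w3 w4 w5 w6 w7 w8 H hH h1 h2).trans ?_
  have hX1 : 1 ≤ X := by linarith
  have hH0 : 0 ≤ H := by linarith
  exact mul_le_mul_of_nonneg_left (Real.rpow_le_rpow_of_exponent_le hX1
    (add_le_add_left (hE (S.ev X a, D.mass X ps)) ε)) (by positivity)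

/-- smaller functional, more constraints -/
theorem ubs_le {Ψ Ψ' : Λ' → A → List Pc' → ℝ} {f f' : (ι → ℝ) × (τ → ℝ) → ℝ}
    {al : Set ((ι → ℝ) × ℝ)} {E : (ι → ℝ) × (τ → ℝ) → ℝ} (h : UBs S D Ψ f al E)
    (hf : ∀ q, f q ≤ f' q) (hΨ : ∀ lam a ps, Ψ' lam a ps ≤ Ψ lam a ps) :
    UBs S D Ψ' f' al E := by
  intro ε hε
  obtain ⟨σ, hσ, K⟩ := h ε hε
  refine ⟨σ, hσ, fun lam N B => ?_⟩
  obtain ⟨M, X₀, hX₀, K1⟩ := K lam N B
  exact ⟨M, X₀, hX₀, fun X hX a ps w1 w2 w3 w4 w5 w6 w7 w8 H hH h1 h2 =>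
    (hΨ lam a ps).trans (K1 X hX a ps w1 w2 w3 w4 w5 w6 ((hf _).trans w7) w8 H hH h1 h2)⟩

/-- **minimum of two exponents** -/
theorem ubs_inf {Ψ : Λ' → A → List Pc' → ℝ} {f : (ι → ℝ) × (τ → ℝ) → ℝ}
    {al : Set ((ι → ℝ) × ℝ)} {E E' : (ι → ℝ) × (τ → ℝ) → ℝ} (h : UBs S D Ψ f al E)
    (h' : UBs S D Ψ f al E') : UBs S D Ψ f al (fun q => min (E q) (E' q)) := by
  rw [UBs_iff] at h h' ⊢
  intro ε hε
  obtain ⟨σ, hσ, K⟩ := h ε hε
  obtain ⟨σ', hσ', K'⟩ := h' ε hε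
  refine ⟨min σ σ', lt_min hσ hσ', fun lam N B => ?_⟩
  obtain ⟨M, X₀, hX₀, K1⟩ := K lam N B
  obtain ⟨M', X₀', hX₀', K1'⟩ := K' lam N B
  refine ⟨max M M', max X₀ X₀', lt_of_lt_of_le hX₀ (le_max_left _ _),
    fun X hX a ps w H hH h1 h2 => ?_⟩
  have hXX := (le_max_left _ _).trans hX
  have hX1 : 1 ≤ X := by linarith
  have k1 := K1 X hXX a ps (w.mono hX1 (min_le_left _ _) le_rfl le_rfl) H hH h1 h2
  have k2 := K1' X ((le_max_right _ _).trans hX) a ps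
    (w.mono hX1 (min_le_right _ _) le_rfl le_rfl) H hH h1 h2
  rcases le_total (E (S.ev X a, D.mass X ps)) (E' (S.ev X a, D.mass X ps)) with hE | hE
  · rw [min_eq_left hE]
    refine k1.trans (mul_le_mul_of_nonneg_right (pow_le_pow_right₀ hH (le_max_left _ _))
      (by positivity))
  · rw [min_eq_right hE]
    refine k2.trans (mul_le_mul_of_nonneg_right (pow_le_pow_right₀ hH (le_max_right _ _))
      (by positivity))

/-- smaller domain of a `UB` -/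
theorem ub_sub {Ψ : Λ' → A → List Pc' → ℝ} {Dom Dom' : Set ((ι → ℝ) × (τ → ℝ))}
    {al : Set ((ι → ℝ) × ℝ)} {E : (ι → ℝ) × (τ → ℝ) → ℝ} (h : UB S D Ψ Dom al E)
    (hD : Dom' ⊆ Dom) : UB' S D Ψ Dom' al E := by
  intro ε hε
  obtain ⟨δ, hδ, K⟩ := h ε hε
  refine ⟨δ, hδ, fun lam N B => ?_⟩
  obtain ⟨δ', hδ', X₀, hX₀, K1⟩ := K lam N B
  exact ⟨δ', hδ', X₀, hX₀, fun X hX a ps w1 w2 q hq => K1 X hX a ps w1 w2 q (hD hq)⟩

end calcU

/-! ### all frequencies -/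

/-- exponent of the `am`-principal frequencies -/
def EP (q : (Fin 3 → ℝ) × (Kd → ℝ)) : ℝ := q.1 0 / 3 + 2 * (q.2 .mo + q.2 .am)

/-- **`UBs` of the second moment over the nonprincipal frequencies** -/
theorem ubs_ym {c₀ : ℝ} (hpu : PU h c₀) (hP : ∀ lam, (π lam).OK) (c : Λ → ℝ)
    {f : (Fin 3 → ℝ) × (Kd → ℝ) → ℝ} (hf : Continuous f) (hc : IsCompact {q | f q ≤ 1})
    {Dom : Set ((Fin 3 → ℝ) × (Kd → ℝ))} (hD : {q | f q ≤ 0} ⊆ Dom)
    {E : (Fin 3 → ℝ) × (Kd → ℝ) → ℝ} (hE : Continuous E)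
    (H : UB S2 Dq (YMFs π h c) Dom univ E) : UBs S2 Dq (YMFs π h c) f univ E := by
  refine ubs_of_ub hf hc hE ?_ (ub_sub H hD)
  rw [YMFs_eq]
  refine triv_mkFs ?_ c hc
  obtain ⟨C, hC, hb⟩ := triv_Rc hpu.cd.continuous hpu.cs
  exact ⟨C, hC, fun lam l qs => hb (π lam) (hP lam) l qs⟩

/-- **`UBs` of the second moment over ALL frequencies**, class N -/
theorem ubs_yt {c₀ : ℝ} (hpu : PU h c₀) (hP : ∀ lam, (π lam).OK)
    (hN : ∀ lam k, k ≠ 0 → NPm (π lam).n (π lam).ψ (π lam).l₂ k) (c : Λ → ℝ)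
    {f : (Fin 3 → ℝ) × (Kd → ℝ) → ℝ} (hf : Continuous f) (hc : IsCompact {q | f q ≤ 1})
    {Dom : Set ((Fin 3 → ℝ) × (Kd → ℝ))} (hD : {q | f q ≤ 0} ⊆ Dom)
    {E : (Fin 3 → ℝ) × (Kd → ℝ) → ℝ} (hE : Continuous E)
    (H : UB S2 Dq (YMFs π h c) Dom univ E) :
    UBs S2 Dq (mkFs (fun lam => RT (π lam) h) c) f univ (fun q => max (E q) (EP q)) := by
  have h1 := ubs_mono (ubs_ym hpu hP c hf hc hD hE H) fun q => le_max_left (E q) (EP q)
  have h2 := ubs_mono (ubs_rn hpu hP hN c hc) fun q => le_max_right (E q) (EP q)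
  refine ubs_le (UBs.add h1 h2) (fun _ => le_rfl) fun lam a ps => le_of_eq ?_
  rw [YMFs_eq]
  unfold mkFs mkF
  split_ifs
  · exact RT_eq _ _ _ _
  · simp

/-- the same exponent where the principal frequencies are dominated -/
theorem ubs_yt' {c₀ : ℝ} (hpu : PU h c₀) (hP : ∀ lam, (π lam).OK)
    (hN : ∀ lam k, k ≠ 0 → NPm (π lam).n (π lam).ψ (π lam).l₂ k) (c : Λ → ℝ)
    {f : (Fin 3 → ℝ) × (Kd → ℝ) → ℝ} (hf : Continuous f) (hc : IsCompact {q | f q ≤ 1})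
    {Dom : Set ((Fin 3 → ℝ) × (Kd → ℝ))} (hD : {q | f q ≤ 0} ⊆ Dom)
    {E : (Fin 3 → ℝ) × (Kd → ℝ) → ℝ} (hE : Continuous E)
    (hEP : ∀ q, f q ≤ 0 → EP q ≤ E q)
    (H : UB S2 Dq (YMFs π h c) Dom univ E) :
    UBs S2 Dq (mkFs (fun lam => RT (π lam) h) c) f univ E := by
  refine UBs.real (ubs_yt hpu hP hN c hf hc hD hE H) hc hf ?_ hE ?_
  · refine hE.max ?_
    unfold EP; fun_prop
  · intro q hq
    exact max_le le_rfl (hEP q hq)

end Crest.Agent.R017.YP61
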