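import Crest.Agent.R017.YU_61
import Crest.Agent.R017.Rough3_381

/-!
# Row 17, R8 / E4 at list level: the `y`-side, children of a list (helper61)

* `yv_list` : second moment over all frequencies of the children of
  `qs₁ ++ (u₁ :: u₂ :: qs₂)` (`qs₁` amplifier, `u₁ u₂` marked lumps, `qs₂` Möbius pieces) with total
  shortenings `α` (amplifier), `β` (Möbius side)
-/

set_option autoImplicit false

noncomputable section

open Set

namespace Crest.Agent.R017.YV61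

open Crest.Agent.R012 Crest.Agent.R012.Eis
open Crest.Agent.R017.FE47
open Crest.Agent.R017.XG702 (Pcs BG)
open Crest.Agent.R017.Prov71
open Crest.Agent.R017.B770
open Crest.Agent.R017.End699 Crest.Agent.R017.Sup271
open Crest.Agent.R017.ER911 Crest.Agent.R017.SC777 Crest.Agent.R017.ExpC702
open Crest.Agent.R017.HP842 (Pc pc)
open Crest.Agent.R017.Rough381 (Ls cst Ch)
open Crest.Agent.R017.UBR61 Crest.Agent.R017.YM61 Crest.Agent.R017.YP61 Crest.Agent.R017.YC61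
open Crest.Agent.R017.YU61

lemma Ls_cons (p : Pq) (ps : List Pq) : Ls (p :: ps) = p.z + Ls ps := by
  unfold Rough381.Ls; rw [List.map_cons, List.sum_cons]

lemma Ls_nonneg {ps : List Pq} (h : ∀ p ∈ ps, 0 ≤ p.z) : 0 ≤ Ls ps := by
  unfold Rough381.Ls
  refine List.sum_nonneg ?_
  intro x hx
  obtain ⟨p, hp, rfl⟩ := List.mem_map.1 hx
  exact h p hp

lemma mass_kd {X : ℝ} {ps : List Pq} {k : Kd} (hk : ∀ p ∈ ps, p.kd = k) (t : Kd) :
    Dq.mass X ps t = if k = t then Ls ps / Real.log X else 0 := by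
  induction ps with
  | nil => simp [Rough381.Ls]
  | cons p ps ih =>
    rw [Pcs.mass_cons, ih fun q hq => hk q (List.mem_cons_of_mem _ hq), Dq_kind,
      hk p List.mem_cons_self, Ls_cons]
    split_ifs
    · unfold Pcs.nl
      rw [Dq_len]
      ring
    · simp

lemma ch_z {r : ℝ} {ps' ps : List Pq} (h : List.Forall₂ (Ch r) ps' ps) :
    ∀ p ∈ ps', 0 ≤ p.z := by
  induction h with
  | nil => simp
  | @cons a b l₁ l₂ h1 _ ih =>
    intro p hp
    rcases List.mem_cons.1 hp with rfl | hp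
    · exact h1.2.2.2.1
    · exact ih p hp

lemma ch_kd {r : ℝ} {ps' ps : List Pq} {k : Kd} (h : List.Forall₂ (Ch r) ps' ps)
    (hk : ∀ p ∈ ps, p.kd = k) : ∀ p ∈ ps', p.kd = k := by
  induction h with
  | nil => simp
  | @cons a b l₁ l₂ h1 _ ih =>
    intro p hp
    rcases List.mem_cons.1 hp with rfl | hp
    · rw [h1.1]; exact hk b List.mem_cons_self
    · exact ih (fun q hq => hk q (List.mem_cons_of_mem _ hq)) p hp

lemma ch_Ls {r : ℝ} {ps' ps : List Pq} (h : List.Forall₂ (Ch r) ps' ps) :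
    Ls ps' ≤ Ls ps + ps.length * r := by
  induction h with
  | nil => simp
  | @cons a b l₁ l₂ h1 _ ih =>
    rw [Ls_cons, Ls_cons, List.length_cons]
    push_cast
    have := h1.2.2.2.2
    linarith

/-- properties inherited by the children -/
lemma ch_all {r : ℝ} {ps' ps : List Pq} (h : List.Forall₂ (Ch r) ps' ps) {Q Q' : Pq → Prop}
    (hQ : ∀ p' p, Ch r p' p → Q p → Q' p') (hp : ∀ p ∈ ps, Q p) : ∀ p ∈ ps', Q' p := by
  induction h with
  | nil => simp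
  | @cons a b l₁ l₂ h1 _ ih =>
    intro p hp'
    rcases List.mem_cons.1 hp' with rfl | hp'
    · exact hQ _ b h1 (hp b List.mem_cons_self)
    · exact ih (fun q hq => hp q (List.mem_cons_of_mem _ hq)) p hp'

lemma cst_cons (a b : Pq) (l₁ l₂ : List Pq) :
    cst (a :: l₁) (b :: l₂) = (1 + |a.t - b.t|) * cst l₁ l₂ := by
  unfold Rough381.cst; rw [List.zipWith_cons_cons, List.prod_cons]

lemma one_le_cst (l₁ l₂ : List Pq) : 1 ≤ cst l₁ l₂ := by
  unfold Rough381.cst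
  induction l₁ generalizing l₂ with
  | nil => simp
  | cons a l₁ ih =>
    cases l₂ with
    | nil => simp
    | cons b l₂ =>
      rw [List.zipWith_cons_cons, List.prod_cons]
      exact one_le_mul_of_one_le_of_one_le (by linarith [abs_nonneg (a.t - b.t)]) (ih l₂)

lemma height_le {r H : ℝ} {ps' ps : List Pq} (h : List.Forall₂ (Ch r) ps' ps)
    (hH : ∀ p ∈ ps, 1 + |p.t| ≤ H) : ∀ p ∈ ps', 1 + |p.t| ≤ H * cst ps' ps := by
  induction h with
  | nil => simp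
  | @cons a b l₁ l₂ h1 _ ih =>
    intro p hp
    rw [cst_cons]
    have hb := hH b List.mem_cons_self
    have hH0 : 0 ≤ H := le_trans (by positivity) hb
    have g1 := one_le_cst l₁ l₂
    have g2 : 1 ≤ 1 + |a.t - b.t| := by linarith [abs_nonneg (a.t - b.t)]
    rcases List.mem_cons.1 hp with rfl | hp
    · have e1 : 1 + |p.t| ≤ (1 + |b.t|) * (1 + |p.t - b.t|) := by
        have := abs_sub_abs_le_abs_sub p.t b.t
        nlinarith [abs_nonneg b.t, abs_nonneg (p.t - b.t)]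
      calc 1 + |p.t| ≤ (1 + |b.t|) * (1 + |p.t - b.t|) := e1
        _ ≤ H * ((1 + |p.t - b.t|) * cst l₁ l₂) := by
          refine mul_le_mul hb ?_ (by linarith) hH0
          exact le_mul_of_one_le_right (by linarith) g1
    · refine (ih (fun q hq => hH q (List.mem_cons_of_mem _ hq)) p hp).trans ?_
      refine mul_le_mul_of_nonneg_left ?_ hH0
      exact le_mul_of_one_le_left (by linarith) g2

section
variable {Λ : Type*} {π : Λ → DPar} {h : ℝ → ℝ} {d : ℝ} {r s : EF}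
variable {c₀ : ℝ} (hpu : PU h c₀) (hP : ∀ lam, (π lam).OK)
  (hN : ∀ lam k, k ≠ 0 → NPm (π lam).n (π lam).ψ (π lam).l₂ k)
  (R : ExpRules (7 / 8 + d) r s) (C : ExpC r (ex Dq (fun lam => Rc (π lam) h)))

include hpu hP hN R C

/-- **children of a list** -/
theorem yv_list (hd : 0 ≤ d) (hd8 : d ≤ 1 / 8) {K : ℝ} (hK : 0 ≤ K) {ε : ℝ} (hε : 0 < ε) :
    ∃ σ : ℝ, 0 < σ ∧ ∀ (lam : Λ) (N : ℕ) (B : ℝ), ∃ M₀ : ℕ, ∀ ρ : ℝ, 0 ≤ ρ →
    ∃ X₀ : ℝ, 1 < X₀ ∧ ∀ X : ℝ, X₀ ≤ X →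
    ∀ (u₁ u₂ : Pq) (qs₁ qs₂ : List Pq), Dq.lump u₁ → Dq.lump u₂ → qs₁.length ≤ N →
      qs₂.length ≤ N → (∀ p ∈ qs₁, p.kd = .am) → (∀ p ∈ qs₂, p.kd = .mo) →
      (∀ p ∈ qs₁, Dq.nl X p ≤ σ) → (∀ p ∈ qs₂, Dq.lump p ∨ Dq.nl X p ≤ σ) →
      (nm u₁.d : ℝ) ≤ X ^ B → (nm u₂.d : ℝ) ≤ X ^ B → (∀ p ∈ qs₁, (nm p.d : ℝ) ≤ X ^ B) →
      (∀ p ∈ qs₂, (nm p.d : ℝ) ≤ X ^ B) →
    ∀ H : ℝ, 1 + |u₁.t| ≤ H → 1 + |u₂.t| ≤ H → (∀ p ∈ qs₁, 1 + |p.t| ≤ H) →
      (∀ p ∈ qs₂, 1 + |p.t| ≤ H) →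
    ∀ l α β e : ℝ, 0 ≤ l → l ≤ K * Real.log X → 0 ≤ β →
      u₁.z + u₂.z - β ≤ K * Real.log X → 0 ≤ Ls qs₂ → Ls qs₂ ≤ K * Real.log X →
      Ls qs₁ - α ≤ K * Real.log X →
      GoodY d (l / Real.log X) ((u₁.z + u₂.z - β) / Real.log X) (Ls qs₂ / Real.log X)
        (max 0 ((Ls qs₁ - α) / Real.log X)) (β / Real.log X) e →
    ∀ ps₁ us : List Pq, List.Forall₂ (Ch ρ) ps₁ qs₁ → List.Forall₂ (Ch ρ) us (u₁ :: u₂ :: qs₂) →
      |Ls qs₁ - Ls ps₁ - α| ≤ ρ → |Ls (u₁ :: u₂ :: qs₂) - Ls us - β| ≤ ρ →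
      RQ (fun _ => True) h l (ps₁.map (Pq.pc (π lam)) ++ us.map (Pq.pc (π lam))) ≤
        (H * (cst ps₁ qs₁ * cst us (u₁ :: u₂ :: qs₂))) ^ M₀ * X ^ (e + ε) := by
  obtain ⟨σ, hσ, V⟩ := yu_core hpu hP hN (fun _ => 0) R C hd hd8 hK hε
  refine ⟨σ / 2, by linarith, fun lam N B => ?_⟩
  obtain ⟨M₀, X₀, hX₀, W⟩ := V lam (N + N) B
  refine ⟨M₀, fun ρ hρ => ?_⟩
  -- `log X` large
  set T : ℝ := (N + 3) * (ρ + 1) * (2 / σ) + (ρ + 1) with hT
  have hT0 : 0 < T := by positivity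
  refine ⟨max (max X₀ 2) (Real.exp T),
    lt_of_lt_of_le hX₀ ((le_max_left _ _).trans (le_max_left _ _)), ?_⟩
  intro X hX u₁ u₂ qs₁ qs₂ hu₁ hu₂ hl₁ hl₂ hk₁ hk₂ hg₁ hg₂ hm1 hm2 hmq₁ hmq₂ H ht1 ht2 htq₁ htq₂
    l α β e hl0 hlK hβ0 hMK hq0 hqK hwK hG ps₁ us hc₁ hcu hα hβ
  have hX0' : X₀ ≤ X := ((le_max_left _ _).trans (le_max_left _ _)).trans hX
  have hX1 : 1 < X := by linarith
  have hX0 : 0 < X := by linarith
  have hL : T ≤ Real.log X := by
    rw [← Real.log_exp T]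
    exact Real.log_le_log (Real.exp_pos _) ((le_max_right _ _).trans hX)
  have hlog : 0 < Real.log X := lt_of_lt_of_le hT0 hL
  -- small quotients
  have hsm : ∀ y : ℝ, y ≤ (N + 3) * ρ → y / Real.log X ≤ σ / 2 := by
    intro y hy
    rw [div_le_iff₀ hlog]
    have h1 : (N + 3) * (ρ + 1) * (2 / σ) ≤ Real.log X := by linarith
    have h2 : (N + 3) * (ρ + 1) ≤ σ / 2 * Real.log X := by
      have := mul_le_mul_of_nonneg_left h1 (show 0 ≤ σ / 2 by linarith)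
      calc (N + 3) * (ρ + 1) = σ / 2 * ((N + 3) * (ρ + 1) * (2 / σ)) := by field_simp
        _ ≤ _ := this
    have h3 : ((N : ℝ) + 3) * ρ ≤ (N + 3) * (ρ + 1) := by
      have : (0 : ℝ) ≤ N := Nat.cast_nonneg _
      nlinarith
    linarith
  have hN0 : (0 : ℝ) ≤ N := Nat.cast_nonneg _
  have hρN : ρ ≤ (N + 3) * ρ := by nlinarith
  obtain ⟨v₁, us₁, hv₁, hus₁, rfl⟩ := List.forall₂_cons_right_iff.1 hcu
  obtain ⟨v₂, ps₂, hv₂, hps₂, rfl⟩ := List.forall₂_cons_right_iff.1 hus₁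
  rw [Ls_cons, Ls_cons, Ls_cons, Ls_cons] at hβ
  obtain ⟨b1, b2⟩ := abs_le.1 hβ
  obtain ⟨a1, a2⟩ := abs_le.1 hα
  have hz₁ := ch_z hc₁
  have hz₂ := ch_z hps₂
  have hLs₁ := Ls_nonneg hz₁
  have hLs₂ := Ls_nonneg hz₂
  have hkd₁ := ch_kd hc₁ hk₁
  have hkd₂ := ch_kd hps₂ hk₂
  have hLle := ch_Ls hps₂
  have hlen₂ : (qs₂.length : ℝ) ≤ N := by exact_mod_cast hl₂
  have hLle' : Ls ps₂ ≤ Ls qs₂ + N * ρ := by nlinarith
  have hlv : ∀ {p' p : Pq}, Ch ρ p' p → Dq.lump p → Dq.lump p' := by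
    intro p' p hch hp
    rw [Dq_lump] at hp ⊢
    exact ⟨hch.1.trans hp.1, hch.2.2.1 hp.2⟩
  have hmass : ∀ t, Dq.mass X (ps₁ ++ ps₂) t =
      (if Kd.am = t then Ls ps₁ / Real.log X else 0) +
        if Kd.mo = t then Ls ps₂ / Real.log X else 0 := by
    intro t
    rw [Pcs.mass_append, mass_kd hkd₁, mass_kd hkd₂]
  have hmo : Dq.mass X (ps₁ ++ ps₂) .mo = Ls ps₂ / Real.log X := by
    rw [hmass]; simp
  have ham : Dq.mass X (ps₁ ++ ps₂) .am = Ls ps₁ / Real.log X := by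
    rw [hmass]; simp
  have hH1 : 1 ≤ H := le_trans (by linarith [abs_nonneg u₁.t]) ht1
  set c₁ := cst ps₁ qs₁ with hc₁'
  set c₂ := cst (v₁ :: v₂ :: ps₂) (u₁ :: u₂ :: qs₂) with hc₂'
  have g1 : 1 ≤ c₁ := one_le_cst _ _
  have g2 : 1 ≤ c₂ := one_le_cst _ _
  have hHH : 1 ≤ H * (c₁ * c₂) :=
    one_le_mul_of_one_le_of_one_le hH1 (one_le_mul_of_one_le_of_one_le g1 g2)
  have hh₁ : ∀ p ∈ ps₁, 1 + |p.t| ≤ H * (c₁ * c₂) := fun p hp =>
    (height_le hc₁ htq₁ p hp).trans (mul_le_mul_of_nonneg_left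
      (le_mul_of_one_le_right (by linarith) g2) (by linarith))
  have hh₂ : ∀ p ∈ v₁ :: v₂ :: ps₂, 1 + |p.t| ≤ H * (c₁ * c₂) := by
    intro p hp
    have h0 : ∀ q ∈ u₁ :: u₂ :: qs₂, 1 + |q.t| ≤ H := by
      intro q hq
      rcases List.mem_cons.1 hq with rfl | hq
      · exact ht1
      rcases List.mem_cons.1 hq with rfl | hq
      · exact ht2
      · exact htq₂ q hq
    exact (height_le hcu h0 p hp).trans (mul_le_mul_of_nonneg_left
      (le_mul_of_one_le_left (by linarith) g1) (by linarith))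
  have key := W X hX0' ⟨l, v₁, v₂⟩ (ps₁ ++ ps₂)
    ⟨⟨hlv hv₁ hu₁, hv₁.2.2.2.1⟩, ⟨hlv hv₂ hu₂, hv₂.2.2.2.1⟩⟩ hl0
    (by
      rw [List.length_append, hc₁.length_eq, hps₂.length_eq]
      omega)
    (by
      intro p hp
      have hgen : ∀ {p' q : Pq}, Ch ρ p' q → Dq.nl X q ≤ σ / 2 → Dq.nl X p' ≤ σ := by
        intro p' q hch hq
        have e1 : Dq.nl X p' ≤ Dq.nl X q + ρ / Real.log X := by
          unfold Pcs.nl
          rw [← add_div]
          exact div_le_div_of_nonneg_right hch.2.2.2.2 hlog.le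
        linarith [hsm ρ hρN]
      rcases List.mem_append.1 hp with hp | hp
      · right
        exact ch_all hc₁ (Q := fun q => Dq.nl X q ≤ σ / 2) (Q' := fun q => Dq.nl X q ≤ σ)
          (fun p' q hch hq => hgen hch hq) hg₁ p hp
      · exact ch_all hps₂ (Q := fun q => Dq.lump q ∨ Dq.nl X q ≤ σ / 2)
          (Q' := fun q => Dq.lump q ∨ Dq.nl X q ≤ σ)
          (fun p' q hch hq => hq.imp (fun h' => hlv hch h') fun h' => hgen hch h') hg₂ p hp)
    (by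
      refine max_le ?_ ?_
      · show (nm v₁.d : ℝ) ≤ X ^ B
        rw [hv₁.2.1]; exact hm1
      · show (nm v₂.d : ℝ) ≤ X ^ B
        rw [hv₂.2.1]; exact hm2)
    (by
      intro p hp
      rcases List.mem_append.1 hp with hp | hp
      · refine ⟨?_, hz₁ p hp⟩
        exact ch_all hc₁ (Q := fun q => (nm q.d : ℝ) ≤ X ^ B)
          (Q' := fun q => (nm q.d : ℝ) ≤ X ^ B) (fun p' q hch hq => by rw [hch.2.1]; exact hq)
          hmq₁ p hp
      · refine ⟨?_, hz₂ p hp⟩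
        exact ch_all hps₂ (Q := fun q => (nm q.d : ℝ) ≤ X ^ B)
          (Q' := fun q => (nm q.d : ℝ) ≤ X ^ B) (fun p' q hch hq => by rw [hch.2.1]; exact hq)
          hmq₂ p hp)
    (H * (c₁ * c₂)) hHH
    (max_le (hh₂ v₁ List.mem_cons_self) (hh₂ v₂ (List.mem_cons_of_mem _ List.mem_cons_self)))
    (by
      intro p hp
      rcases List.mem_append.1 hp with hp | hp
      · exact hh₁ p hp
      · exact hh₂ p (List.mem_cons_of_mem _ (List.mem_cons_of_mem _ hp)))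
    (l / Real.log X) ((u₁.z + u₂.z - β) / Real.log X) (Ls qs₂ / Real.log X)
    (max 0 ((Ls qs₁ - α) / Real.log X)) (β / Real.log X) e
    (div_nonneg hl0 hlog.le) ((div_le_iff₀ hlog).2 hlK) ((div_le_iff₀ hlog).2 hMK)
    (div_nonneg hq0 hlog.le) ((div_le_iff₀ hlog).2 hqK) (le_max_left _ _)
    (max_le hK ((div_le_iff₀ hlog).2 hwK)) (div_nonneg hβ0 hlog.le)
    (by
      show |l / Real.log X - l / Real.log X| ≤ σ
      rw [sub_self, abs_zero]; exact hσ.le)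
    (by
      rw [ham]
      have e0 : 0 ≤ Ls ps₁ / Real.log X := div_nonneg hLs₁ hlog.le
      have e1 : |Ls ps₁ / Real.log X - (Ls qs₁ - α) / Real.log X| ≤ σ / 2 := by
        rw [← sub_div, abs_div, abs_of_pos hlog]
        refine hsm _ (le_trans ?_ hρN)
        rw [abs_le]; constructor <;> linarith
      obtain ⟨e2, e3⟩ := abs_le.1 e1
      rw [abs_le]
      rcases le_total 0 ((Ls qs₁ - α) / Real.log X) with h' | h'
      · rw [max_eq_right h']; constructor <;> linarith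
      · rw [max_eq_left h']; constructor <;> linarith)
    (by
      rw [hmo]
      have e1 : Ls ps₂ / Real.log X ≤ Ls qs₂ / Real.log X + (N * ρ) / Real.log X := by
        rw [← add_div]
        exact div_le_div_of_nonneg_right hLle' hlog.le
      have e2 := hsm (N * ρ) (by nlinarith)
      linarith)
    (by
      rw [hmo]
      have e0 : Ls qs₂ - β - 3 * ρ ≤ Ls ps₂ := by
        have := hv₁.2.2.2.2
        have := hv₂.2.2.2.2
        linarith
      have e1 : Ls qs₂ / Real.log X - β / Real.log X - (3 * ρ) / Real.log X ≤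
          Ls ps₂ / Real.log X := by
        rw [← sub_div, ← sub_div]
        exact div_le_div_of_nonneg_right e0 hlog.le
      have e2 := hsm (3 * ρ) (by nlinarith)
      linarith)
    (by
      rw [hmo]
      show |(v₁.z + v₂.z) / Real.log X + Ls ps₂ / Real.log X -
        ((u₁.z + u₂.z - β) / Real.log X + Ls qs₂ / Real.log X)| ≤ σ
      rw [← add_div, ← add_div, ← sub_div, abs_div, abs_of_pos hlog]
      refine (hsm _ (le_trans ?_ hρN)).trans (by linarith)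
      rw [abs_le]; constructor <;> linarith)
    hG
  refine le_trans (le_of_eq ?_) key
  show RQ (fun _ => True) h l (ps₁.map (Pq.pc (π lam)) ++ (v₁ :: v₂ :: ps₂).map (Pq.pc (π lam))) =
    RQ (fun _ => True) h (l + 0) ((v₁ :: v₂ :: (ps₁ ++ ps₂)).map (Pq.pc (π lam)))
  rw [add_zero, ← List.map_append]
  refine RQ_perm _ h l (List.Perm.map _ ?_)
  have p1 : (ps₁ ++ v₁ :: v₂ :: ps₂).Perm (v₁ :: (ps₁ ++ v₂ :: ps₂)) := List.perm_middle
  have p2 : (ps₁ ++ v₂ :: ps₂).Perm (v₂ :: (ps₁ ++ ps₂)) := List.perm_middle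
  exact p1.trans (p2.cons v₁)

end

end Crest.Agent.R017.YV61
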