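import Crest.Agent.R017.YU_61

/-!
# Row 17: the `y`-value is nondecreasing in the marked lumps `M` (helper61)

`EA`, `EB` have slope `≥ 1` in `M`; the domain `27 q ≤ 8 (κ - M)` of `EB` is inherited by smaller
`M`, its domain `5 κ ≤ 14 M` is not (asked at the true `M`).
-/

set_option autoImplicit false

namespace Crest.Agent.R017.YW61

open Crest.Agent.R017.YM61 Crest.Agent.R017.YU61

variable {d κ M M' q c Y e : ℝ}

lemma eC_monoM (h : M ≤ M') : eC κ M c ≤ eC κ M' c := by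
  unfold eC
  refine max_le_max le_rfl (sub_le_sub_left (min_le_min ?_ ?_) _)
  · exact mul_le_mul_of_nonneg_left (max_le_max le_rfl (by linarith)) (by norm_num)
  · exact max_le_max le_rfl (by linarith)

/-- `EA` : slope `≥ 1` in `M` -/
theorem EA_monoM (h : M ≤ M') : EA d κ M q c + (M' - M) ≤ EA d κ M' q c := by
  have := eC_monoM (κ := κ) (c := c) h
  unfold EA
  linarith

/-- `EB` : slope `≥ 1` in `M` -/
theorem EB_monoM (h : M ≤ M') : EB d κ M q c + (M' - M) ≤ EB d κ M' q c := by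
  have : max 0 (q + c - 7 / 9 * (κ - M)) ≤ max 0 (q + c - 7 / 9 * (κ - M')) :=
    max_le_max le_rfl (by linarith)
  unfold EB
  linarith

/-- `GoodY` at the true `M` from `EA` at a larger `M'` -/
theorem GoodY_of_EA (h : M ≤ M') (h1 : κ / 3 + 2 * (q + c) ≤ e) (h2 : EA d κ M' q c ≤ e) :
    GoodY d κ M q c Y e :=
  ⟨h1, Or.inl (by have := EA_monoM (d := d) (κ := κ) (q := q) (c := c) h; linarith)⟩

/-- `GoodY` at the true `M` from `EB` at a larger `M'`; `5 κ ≤ 14 M` at the true `M` -/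
theorem GoodY_of_EB (h : M ≤ M') (h1 : κ / 3 + 2 * (q + c) ≤ e) (h2 : EB d κ M' q c ≤ e)
    (h3 : 27 * q ≤ 8 * (κ - M')) (h4 : 5 * κ ≤ 14 * M) : GoodY d κ M q c Y e :=
  ⟨h1, Or.inr (Or.inl ⟨by have := EB_monoM (d := d) (κ := κ) (q := q) (c := c) h; linarith,
    by linarith, h4⟩)⟩

end Crest.Agent.R017.YW61
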