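import Crest.Agent.R017.YU_61

/-!
# Row 17, R8 / E4 at list level, class E: the `y`-side, nonprincipal frequencies (helper266)

helper61's `yu_core` for `Rc` (frequencies with `NP2`), without the class-N hypothesis.
-/

set_option autoImplicit false

noncomputable section

open Set

namespace Crest.Agent.R017.YsE266

open Crest.Agent.R012 Crest.Agent.R012.Eis
open Crest.Agent.R017.FE47
open Crest.Agent.R017.XG702 (Pcs BG)
open Crest.Agent.R017.XT71 (Sys Win)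
open Crest.Agent.R017.E5B71 (UB)
open Crest.Agent.R017.Prov71
open Crest.Agent.R017.B770
open Crest.Agent.R017.End699 Crest.Agent.R017.Sup271
open Crest.Agent.R017.ER911 Crest.Agent.R017.SC777 Crest.Agent.R017.ExpC702
open Crest.Agent.R017.UBR61 Crest.Agent.R017.YM61 Crest.Agent.R017.YP61 Crest.Agent.R017.YC61
open Crest.Agent.R017.UBT973
open Crest.Agent.R017.YU61

section
variable {Λ : Type*} {π : Λ → DPar} {h : ℝ → ℝ} {d : ℝ} {r s : EF}
variable {c₀ : ℝ} (hpu : PU h c₀) (hP : ∀ lam, (π lam).OK)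
  (c : Λ → ℝ)
  (R : ExpRules (7 / 8 + d) r s) (C : ExpC r (ex Dq (fun lam => Rc (π lam) h)))

include hpu hP R C

/-- **children of a nominal state**, nonprincipal frequencies -/
theorem yu_coreE (hd : 0 ≤ d) (hd8 : d ≤ 1 / 8) {K : ℝ} (hK : 0 ≤ K) {ε : ℝ} (hε : 0 < ε) :
    ∃ σ : ℝ, 0 < σ ∧ ∀ (lam : Λ) (N : ℕ) (B : ℝ), ∃ (M₀ : ℕ) (X₀ : ℝ), 1 < X₀ ∧
    ∀ X : ℝ, X₀ ≤ X → ∀ (a : Y2) (ps : List Pq), a.ok → 0 ≤ a.l → ps.length ≤ N →
      (∀ p ∈ ps, Dq.lump p ∨ Dq.nl X p ≤ σ) → S2.s₂ a ≤ X ^ B →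
      (∀ p ∈ ps, Dq.s2 p ≤ X ^ B ∧ 0 ≤ Dq.len p) →
      ∀ H : ℝ, 1 ≤ H → S2.s₁ a ≤ H → (∀ p ∈ ps, Dq.s1 p ≤ H) →
      ∀ κ M q w Y e : ℝ, 0 ≤ κ → κ ≤ K → M ≤ K → 0 ≤ q → q ≤ K → 0 ≤ w → w ≤ K → 0 ≤ Y →
        |a.l / Real.log X - κ| ≤ σ → |Dq.mass X ps .am - w| ≤ σ → Dq.mass X ps .mo ≤ q + σ →
        q - Y - σ ≤ Dq.mass X ps .mo →
        |(a.u₁.z + a.u₂.z) / Real.log X + Dq.mass X ps .mo - (M + q)| ≤ σ →
        GoodY d κ M q w Y e →
        Rc (π lam) h (a.l + c lam) (a.u₁ :: a.u₂ :: ps) ≤ H ^ M₀ * X ^ (e + ε) := by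
  set K₁ : ℝ := 3 * K + 1 with hK₁
  have uA := ubs_ym hpu hP c (cont_fA K₁) (compact_fA K₁) (fA_sub K₁)
    (by unfold EA YM61.eC; fun_prop) (ymA hpu hP c R C hd K₁)
  have uB := ubs_ym hpu hP c (cont_fB K₁) (compact_fB K₁) (fB_sub K₁)
    (by unfold EB; fun_prop) (ymB hpu hP c R C hd K₁)
  have uS := ubs_ym hpu hP c (cont_fA K₁) (compact_fA K₁) (fA_sub K₁)
    (by unfold EHs EHb cl; fun_prop) (ymHs hpu hP c R C hd hd8 K₁)
  have uT := ubs_ym hpu hP c (cont_fA K₁) (compact_fA K₁) (fA_sub K₁)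
    (by unfold EHt EHb cl; fun_prop) (ymHt hpu hP c R C hd hd8 K₁)
  rw [UBs_iff] at uA uB uS uT
  have hε2 : 0 < ε / 2 := by linarith
  obtain ⟨σA, hσA, vA⟩ := uA (ε / 2) hε2
  obtain ⟨σB, hσB, vB⟩ := uB (ε / 2) hε2
  obtain ⟨σS, hσS, vS⟩ := uS (ε / 2) hε2
  obtain ⟨σT, hσT, vT⟩ := uT (ε / 2) hε2
  set m₀ : ℝ := min (min σA σB) (min (min σS σT) (min ε 1)) with hm₀
  have hm0 : 0 < m₀ := lt_min (lt_min hσA hσB) (lt_min (lt_min hσS hσT) (lt_min hε one_pos))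
  have mA : m₀ ≤ σA := (min_le_left _ _).trans (min_le_left _ _)
  have mB : m₀ ≤ σB := (min_le_left _ _).trans (min_le_right _ _)
  have mS : m₀ ≤ σS := ((min_le_right _ _).trans (min_le_left _ _)).trans (min_le_left _ _)
  have mT : m₀ ≤ σT := ((min_le_right _ _).trans (min_le_left _ _)).trans (min_le_right _ _)
  have mε : m₀ ≤ ε := ((min_le_right _ _).trans (min_le_right _ _)).trans (min_le_left _ _)
  have m1 : m₀ ≤ 1 := ((min_le_right _ _).trans (min_le_right _ _)).trans (min_le_right _ _)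
  refine ⟨m₀ / 60, by positivity, fun lam N B => ?_⟩
  obtain ⟨MA, XA, hXA, wA⟩ := vA lam N B
  obtain ⟨MB, XB, hXB, wB⟩ := vB lam N B
  obtain ⟨MS, XS, hXS, wS⟩ := vS lam N B
  obtain ⟨MT, XT, hXT, wT⟩ := vT lam N B
  refine ⟨MA + MB + MS + MT, max (max XA XB) (max XS XT),
    lt_of_lt_of_le hXA ((le_max_left _ _).trans (le_max_left _ _)), ?_⟩
  intro X hX a ps hok hl0 hlen hgr hs2 hgood H hH hs1 hps κ M q w Y e hκ0 hκK hMK hq0 hqK hw0 hwK hY0
    h1 h2 h3 h4 h5 hG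
  have hXA' : XA ≤ X := ((le_max_left _ _).trans (le_max_left _ _)).trans hX
  have hXB' : XB ≤ X := ((le_max_right _ _).trans (le_max_left _ _)).trans hX
  have hXS' : XS ≤ X := ((le_max_left _ _).trans (le_max_right _ _)).trans hX
  have hXT' : XT ≤ X := ((le_max_right _ _).trans (le_max_right _ _)).trans hX
  have hX1 : 1 < X := by linarith
  have hX0 : 0 < X := by linarith
  have hlog : 0 < Real.log X := Real.log_pos hX1
  set τ : ℝ := m₀ / 60 with hτ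
  have hτ0 : 0 < τ := by positivity
  -- the coordinates of the child
  have c0 : S2.ev X a 0 = a.l / Real.log X := rfl
  have c1 : S2.ev X a 1 = a.u₁.z / Real.log X := rfl
  have c2 : S2.ev X a 2 = a.u₂.z / Real.log X := rfl
  have c1' : 0 ≤ S2.ev X a 1 := by rw [c1]; exact div_nonneg hok.1.2 hlog.le
  have c2' : 0 ≤ S2.ev X a 2 := by rw [c2]; exact div_nonneg hok.2.2 hlog.le
  have c12 : (a.u₁.z + a.u₂.z) / Real.log X = S2.ev X a 1 + S2.ev X a 2 := by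
    rw [c1, c2, add_div]
  rw [c12] at h5
  rw [← c0] at h1
  have hnl : ∀ p ∈ ps, 0 ≤ Dq.nl X p := fun p hp => div_nonneg (hgood p hp).2 hlog.le
  have n3 := XG702.mass_nonneg (D := Dq) hnl .mo
  have n4 := XG702.mass_nonneg (D := Dq) hnl .am
  have hev : 0 ≤ S2.ev X a 0 := by rw [c0]; exact div_nonneg hl0 hlog.le
  obtain ⟨a1, a1'⟩ := abs_le.1 h1
  obtain ⟨a2, a2'⟩ := abs_le.1 h2
  obtain ⟨a5, a5'⟩ := abs_le.1 h5
  have hfA : fA K₁ (S2.ev X a, Dq.mass X ps) ≤ τ := by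
    rw [fA_le]
    refine ⟨fun i => ?_, fun t => ?_⟩
    · fin_cases i
      · show -τ ≤ S2.ev X a 0 ∧ S2.ev X a 0 ≤ K₁ + τ
        constructor <;> linarith
      · show -τ ≤ S2.ev X a 1 ∧ S2.ev X a 1 ≤ K₁ + τ
        constructor <;> linarith
      · show -τ ≤ S2.ev X a 2 ∧ S2.ev X a 2 ≤ K₁ + τ
        constructor <;> linarith
    · cases t
      · show -τ ≤ Dq.mass X ps .mo ∧ Dq.mass X ps .mo ≤ K₁ + τ
        constructor <;> linarith
      · show -τ ≤ Dq.mass X ps .am ∧ Dq.mass X ps .am ≤ K₁ + τ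
        constructor <;> linarith
  have hwn : ∀ {f : (Fin 3 → ℝ) × (Kd → ℝ) → ℝ} {σ' : ℝ}, m₀ ≤ σ' →
      f (S2.ev X a, Dq.mass X ps) ≤ σ' → Wn S2 Dq f univ σ' N B X a ps := by
    intro f σ' hσ' hf
    have hσ0 : 0 ≤ σ' := hm0.le.trans hσ'
    exact ⟨hlen, fun p hp => (hgr p hp).imp id fun h => by linarith,
      Real.one_le_rpow hX1.le hσ0, Nat.zero_le _, hs2, hgood, hf, fun _ _ _ => trivial⟩
  -- conclusion from one of the bounds
  have fin : ∀ {E₀ : ℝ} {M₁ : ℕ}, E₀ ≤ e + ε / 2 → M₁ ≤ MA + MB + MS + MT →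
      YMFs π h c lam a ps ≤ H ^ M₁ * X ^ (E₀ + ε / 2) →
      Rc (π lam) h (a.l + c lam) (a.u₁ :: a.u₂ :: ps) ≤
        H ^ (MA + MB + MS + MT) * X ^ (e + ε) := by
    intro E₀ M₁ g1 g2 g3
    have e1 : YMFs π h c lam a ps =
        Rc (π lam) h (a.l + c lam) (a.u₁ :: a.u₂ :: ps) := by
      rw [YMFs_eq]
      unfold mkFs mkF
      rw [if_pos hok]
      rfl
    rw [← e1]
    refine g3.trans ?_
    have g4 : X ^ (E₀ + ε / 2) ≤ X ^ (e + ε) := by
      refine Real.rpow_le_rpow_of_exponent_le hX1.le ?_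
      linarith
    exact mul_le_mul (pow_le_pow_right₀ hH g2) g4 (by positivity)
      (pow_nonneg (by linarith) _)
  rcases hG.2 with hg | ⟨hg, hg1, hg2⟩ | hg | ⟨hg, hg'⟩
  · refine fin (E₀ := EA d (S2.ev X a 0) (S2.ev X a 1 + S2.ev X a 2) (Dq.mass X ps .mo)
      (Dq.mass X ps .am)) ?_ (by omega)
      (wA X hXA' a ps (hwn mA (hfA.trans (by linarith))) H hH hs1 hps)
    have := EA_child (d := d) (κ := κ) (κ' := S2.ev X a 0) (M := M)
      (M' := S2.ev X a 1 + S2.ev X a 2) (q := q) (q' := Dq.mass X ps .mo) (c := w)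
      (c' := Dq.mass X ps .am) (β := 0) (α := 0) hd hτ0.le (by linarith) h3 (by linarith)
      (by linarith)
    rw [sub_zero, sub_zero] at this
    nlinarith
  · obtain ⟨k1, k2⟩ := EBdom_child (κ := κ) (κ' := S2.ev X a 0) (M := M)
      (M' := S2.ev X a 1 + S2.ev X a 2) (q := q) (q' := Dq.mass X ps .mo) (β := 0) h1 h3
      (by rw [sub_zero]; exact h5)
    rw [sub_zero] at k1 k2
    have hfB : fB K₁ (S2.ev X a, Dq.mass X ps) ≤ σB := by
      unfold fB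
      refine max_le (hfA.trans (by linarith)) (max_le ?_ ?_)
      · show 27 * Dq.mass X ps .mo - 8 * (S2.ev X a 0 - (S2.ev X a 1 + S2.ev X a 2)) ≤ σB
        linarith
      · show 5 * S2.ev X a 0 - 14 * (S2.ev X a 1 + S2.ev X a 2) ≤ σB
        linarith
    refine fin (E₀ := EB d (S2.ev X a 0) (S2.ev X a 1 + S2.ev X a 2) (Dq.mass X ps .mo)
      (Dq.mass X ps .am)) ?_ (by omega)
      (wB X hXB' a ps (hwn mB hfB) H hH hs1 hps)
    have := EB_child (d := d) (κ := κ) (κ' := S2.ev X a 0) (M := M)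
      (M' := S2.ev X a 1 + S2.ev X a 2) (q := q) (q' := Dq.mass X ps .mo) (c := w)
      (c' := Dq.mass X ps .am) (β := 0) (α := 0) hd hτ0.le (by linarith) h3 (by linarith)
      (by linarith)
    rw [sub_zero, sub_zero] at this
    nlinarith
  · refine fin (E₀ := EHs d (S2.ev X a 0) (S2.ev X a 1 + S2.ev X a 2 + Dq.mass X ps .mo +
      Dq.mass X ps .am) (Dq.mass X ps .am)) ?_ (by omega)
      (wS X hXS' a ps (hwn mS (hfA.trans (by linarith))) H hH hs1 hps)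
    have := EHs_child (d := d) (κ := κ) (κ' := S2.ev X a 0) (n := M + q + w)
      (n' := S2.ev X a 1 + S2.ev X a 2 + Dq.mass X ps .mo + Dq.mass X ps .am) (c := w)
      (c' := Dq.mass X ps .am) (τ := 2 * τ) hd hd8 hev (by linarith) (by linarith)
      (h2.trans (by linarith)) n4
    linarith
  · refine fin (E₀ := EHt d (S2.ev X a 0) (S2.ev X a 1 + S2.ev X a 2 + Dq.mass X ps .mo +
      Dq.mass X ps .am) (Dq.mass X ps .mo) (Dq.mass X ps .am)) ?_ (by omega)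
      (wT X hXT' a ps (hwn mT (hfA.trans (by linarith))) H hH hs1 hps)
    have := EHt_child (d := d) (κ := κ) (κ' := S2.ev X a 0) (n := M + q + w)
      (n' := S2.ev X a 1 + S2.ev X a 2 + Dq.mass X ps .mo + Dq.mass X ps .am) (c := w)
      (c' := Dq.mass X ps .am) (q := q) (q' := Dq.mass X ps .mo) (Y := Y) (τ := 2 * τ)
      hd hd8 hev (by linarith) (by linarith) (by linarith) (by linarith) hY0
      (h2.trans (by linarith)) n4 hw0 hκ0
    have h6 := max_le hg hg'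
    linarith

end

end Crest.Agent.R017.YsE266
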