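import Crest.Agent.R017.JyL_744
import Crest.Agent.R017.E4Yo_792

/-!
# Row 17, C70/E4 v7: the moved mass over the terms of one prefix (helper61)

* `Pre Bp bk c be t` : `t.B = Bp`, `t.b = β² (b~ c³)`, `β = be t`
* `yT be bk t = k ν D² β² b~` : the frequency seen by the `y`-side
* `ys_move` : 792's `YG_move` over the terms themselves, modulus `Bp (b~ c³)`
-/

set_option autoImplicit false

noncomputable section

open Complex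
open scoped ComplexConjugate

namespace Crest.Agent.R017.YsM61

open Crest.Agent.R012 Crest.Agent.R012.Eis
open Crest.Agent.R012.GaussLoc283
open Crest.Agent.R012.PSer47 (IsChar)
open Crest.Agent.R017.Sx545 (Sm)
open Crest.Agent.R017.CM106 Crest.Agent.R017.HP842
open Crest.Agent.R017.FE47 (PU)
open Crest.Agent.R017.End699 (HC prin0)
open Crest.Agent.R017.B770
open Crest.Agent.R017.Prov71
open Crest.Agent.R017.Rough381
open Crest.Agent.R017.E4352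
open Crest.Agent.R017.E4o502 (vD wD GoodD GB)
open Crest.Agent.R017.E4D164 (ww mulw)
open Crest.Agent.R017.E4J352
open Crest.Agent.R017.E4Yb792
open Crest.Agent.R017.JyF744

variable {O : Type} {M f : Eis} {t : Tm O}

/-- one prefix: `t.B = Bp`, `t.b = β² (b~ c³)` -/
structure Pre (Bp bk c : Eis) (be : Tm O → Eis) (t : Tm O) : Prop where
  B : t.B = Bp
  prim : IsPrim (be t)
  b : t.b = be t ^ 2 * (bk * c ^ 3)

/-- the frequency of the `y`-side -/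
def yT {OO : Finset (Eis × Eis)} (be : Tm {x // x ∈ OO} → Eis) (bk : Eis)
    (t : Tm {x // x ∈ OO}) : Eis := KG (be t ^ 2 * bk) (nu2 t.o) (t.D0 * t.D1) t.k

lemma sy_cube_pow {y c : Eis} (hc : IsPrim c) (h : IsCoprime y c) : sy y (c ^ 3) = 1 := by
  have e : c ^ 3 = c * (c * c) := by ring
  rw [e, Char766.sy_mul_right hc (hc.mul hc), Char766.sy_mul_right hc hc]
  have := Char766.sy_cube hc h
  calc sy y c * (sy y c * sy y c) = sy y c ^ 3 := by ring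
    _ = 1 := this

/-- the symbol sees only `β² b~` -/
lemma sy_pre {Bp bk c : Eis} {be : Tm O → Eis} (hbk : IsPrim bk) (hc : IsPrim c)
    (h : Pre Bp bk c be t) {y : Eis} (hy : IsCoprime y t.b) :
    sy y t.b = sy y (be t ^ 2 * bk) := by
  have h1 : IsCoprime y c :=
    (((h.b ▸ hy : IsCoprime y (be t ^ 2 * (bk * c ^ 3))).of_mul_right_right).of_mul_right_right
      ).of_isCoprime_of_dvd_right (dvd_pow_self c three_ne_zero)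
  have e : t.b = (be t ^ 2 * bk) * c ^ 3 := by rw [h.b]; ring
  rw [e, Char766.sy_mul_right ((h.prim.pow 2).mul hbk) (hc.pow 3), sy_cube_pow hc h1, mul_one]

/-- the same primes -/
lemma cop_pre {Bp bk c : Eis} {be : Tm O → Eis} (h : Pre Bp bk c be t) (y : Eis) :
    IsCoprime y (t.B * t.b) ↔ IsCoprime y (Bp * (bk * c ^ 3) * (be t ^ 2 * bk)) := by
  have e : Bp * (bk * c ^ 3) * (be t ^ 2 * bk) = t.B * t.b * bk := by rw [h.B, h.b]; ring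
  rw [e]
  constructor
  · intro h1
    refine h1.mul_right (h1.of_isCoprime_of_dvd_right ?_)
    rw [h.b]
    exact ⟨t.B * (be t ^ 2 * c ^ 3), by ring⟩
  · exact fun h1 => h1.of_mul_right_left

/-- the `y`-side with modulus `Bp (b~ c³) (β² b~)` -/
lemma ys_pre {Bp bk c : Eis} {be : Tm O → Eis} (hbk : IsPrim bk) (hc : IsPrim c)
    (h : Pre Bp bk c be t) (w : O → Eis → ℂ) (G : Eis → ℂ) :
    t.ys w G = CS (tws (t.Z * t.Z') (Bp * (bk * c ^ 3) * (be t ^ 2 * bk))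
      (fun y => sy y (be t ^ 2 * bk) * G y) (wD (t.D0 * t.D1) t.D1 (w t.o))) t.k := by
  unfold Tm.ys
  congr 1
  funext y
  unfold tws
  beta_reduce
  by_cases h1 : IsCoprime y (t.B * t.b)
  · rw [if_pos h1, if_pos ((cop_pre h y).mp h1), sy_pre hbk hc h h1.of_mul_right_right]
  · rw [if_neg h1, if_neg (fun h2 => h1 ((cop_pre h y).mpr h2))]

lemma yK_pre {OO : Finset (Eis × Eis)} {Bp bk c : Eis} {be : Tm {x // x ∈ OO} → Eis}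
    {t : Tm {x // x ∈ OO}} (h : Pre Bp bk c be t) : yK nu2 t = yT be bk t * c ^ 3 := by
  unfold yK yT KG
  rw [h.b]
  ring

lemma PrI_pre {Bp bk c : Eis} {be : Tm O → Eis} (h : Pre Bp bk c be t) {Z : Eis}
    (hZ : PrI (t.B * t.b) Z) : PrI (Bp * (bk * c ^ 3) * (be t ^ 2 * bk)) Z := by
  refine ⟨hZ.1, fun p hp hd => (hZ.2 p hp hd).trans ?_⟩
  rw [h.B, h.b]
  exact ⟨bk, by ring⟩

open Classical in
set_option maxHeartbeats 1000000 in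
/-- **the moved mass over the terms of one prefix** -/
theorem ys_move {h : ℝ → ℝ} {c₀ : ℝ} (hpu : PU h c₀) (N : ℕ) {ε : ℝ} (hε : 0 < ε) {B₀ : ℝ}
    (hB₀ : 0 ≤ B₀) (M₁ : ℝ) : ∃ C r : ℝ, 1 ≤ C ∧ 0 ≤ r ∧ ∀ X : ℝ, 3 ≤ X →
    ∀ (P P₁ P₂ : DPar), (∀ k : Kd, IsChar (chK P k)) →
    ∀ ps₁ ps₂ : List Pq, ps₁.length ≤ N → ps₂.length ≤ N →
    (∀ p ∈ ps₁, p.z ≤ B₀ * Real.log X) → (∀ p ∈ ps₂, p.z ≤ B₀ * Real.log X) →
    ∀ (M M' Bp bk c z e₀ : Eis) (η : Eis → ℂ) (j : ℤ) (ξ : ℝ)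
      (hMB : M * (Bp * (bk * c ^ 3)) ≠ 0), IsPrim bk → IsPrim c → Sm M e₀ →
    PrI M z → HC M' η → (∀ p : Eis, Prime p → p ∣ M' → p ∣ M) →
    (∀ p ∈ ps₁, ∀ b, IsPrim b → chK P₁ p.kd b = chK P p.kd b * End699.tw η j b) →
    (∀ p ∈ ps₂, ∀ b, IsPrim b → chK P₂ p.kd b = chK P p.kd b *
      (conj (End699.tw η j b) * conj (End699.tw η j b))) →
    ∀ (h₁ : FS (alL h (ps₁.map (Pq.pc P)))) (h₂ : FS (alL h (ps₂.map (Pq.pc P))))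
      (f : Eis) (OO : Finset (Eis × Eis)), (∀ o ∈ OO, IsPrim o.1 ∧ IsPrim o.2) →
    ∀ (lam : {x // x ∈ OO} → ℝ) (v w : {x // x ∈ OO} → Eis → ℂ),
      Dat4 M f lam v w (X ^ B₀) →
      (∀ o, w o = mulw e₀ (ww M (alL h (ps₁.map (Pq.pc P))) (alL h (ps₂.map (Pq.pc P)))
          (h₁.fin.toFinset ×ˢ h₂.fin.toFinset) z (nu2 o))) →
    ∀ G : Eis → ℂ, (∀ y, Sm M y → G y = gx η j ξ y) →
    ∀ (be : Tm {x // x ∈ OO} → Eis) (𝒥 : Finset (Tm {x // x ∈ OO})),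
      (∀ t ∈ 𝒥, t.OK M f ∧ t.val f lam v w G ≠ 0 ∧ Pre Bp bk c be t ∧
        (nm (yK nu2 t) : ℝ) ≤ X ^ B₀) →
    ∀ Λ : ℝ, Λ ≤ X ^ B₀ → (∀ t ∈ 𝒥, (nm (yT be bk t) : ℝ) ≤ Λ) →
    ∀ Q : Eis → Prop, (∀ t ∈ 𝒥, Q (yT be bk t)) →
    ∀ Wx : Tm {x // x ∈ OO} → ℝ, (∀ t ∈ 𝒥, 0 ≤ Wx t) → ∀ S₀ : ℝ, 0 ≤ S₀ →
    (∀ t ∈ 𝒥, ∀ f1 f2 f3 D1' Z'' : Eis, e₀ = f1 * f2 * f3 → Sm M f1 → Sm M f2 → Sm M f3 →
      t.D1 = f1 * D1' → t.Z * t.Z' = f2 * Z'' → IsCoprime f3 t.D1 → IsCoprime f3 (t.B * t.b) →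
      PrI (t.B * t.b) f2 →
      ∀ l m : Eis, IsPrim l → IsPrim m → l * m ^ 2 = z * Z'' →
      ∀ (n₁ : Fin ps₁.length → ℕ) (n₂ : Fin ps₂.length → ℕ),
      |∑ i, (n₁ i : ℝ) - (Real.log (nm l) + Real.log (nm D1'))| ≤ r →
      |∑ i, (n₂ i : ℝ) - Real.log (nm m)| ≤ r →
      ∃ (mv₁ : Finset (Fin ps₁.length)) (mv₂ : Finset (Fin ps₂.length)) (Sx Bd : ℝ),
        0 ≤ Sx ∧ 0 ≤ Bd ∧ Sx * Bd ≤ S₀ ^ 2 ∧
        (∀ E' ⊆ 𝒥, ∀ (x₁ : Tm {x // x ∈ OO} → Fin ps₁.length → Eis)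
            (x₂ : Tm {x // x ∈ OO} → Fin ps₂.length → Eis),
          (∀ e ∈ E', (∀ i, IsPrim (x₁ e i) ∧ (n₁ i : ℝ) ≤ Real.log (nm (x₁ e i)) ∧
              Real.log (nm (x₁ e i)) < n₁ i + 1) ∧
            (∀ i, IsPrim (x₂ e i) ∧ (n₂ i : ℝ) ≤ Real.log (nm (x₂ e i)) ∧
              Real.log (nm (x₂ e i)) < n₂ i + 1) ∧
            (∏ i, x₁ e i) * (∏ i, x₂ e i) ^ 2 ∣ e.D1 * (z * (e.Z * e.Z'))) →
          ∑ e ∈ E', Wx e ^ 2 *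
            ((∏ i ∈ mv₁, ‖CS (pc h (tP (th1 M (Bp * (bk * c ^ 3)) η j) ξ ((ps₁.get i).pc P)
                (x₁ e i))) (yT be bk e)‖ ^ 2) *
              ∏ i ∈ mv₂, ‖CS (pc h (tP (th2 M (Bp * (bk * c ^ 3)) η j) (-2 * ξ)
                ((ps₂.get i).pc P) (x₂ e i))) (yT be bk e)‖ ^ 2) ≤ Sx) ∧
        (∀ ps₁' ps₂' : List Pq,
          List.Forall₂ (Ch r) ps₁' ((rst ps₁ mv₁).map (shf (M * (Bp * (bk * c ^ 3))) hMB ξ)) →
          List.Forall₂ (Ch r) ps₂'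
            ((rst ps₂ mv₂).map (shf (M * (Bp * (bk * c ^ 3))) hMB (-2 * ξ))) →
          |Ls (rst ps₁ mv₁) - Ls ps₁' - ∑ i ∈ mv₁ᶜ, (n₁ i : ℝ)| ≤ r →
          |Ls (rst ps₂ mv₂) - Ls ps₂' - ∑ i ∈ mv₂ᶜ, (n₂ i : ℝ)| ≤ r →
          RQ Q h (Real.log Λ) (ps₁'.map (Pq.pc P₁) ++ ps₂'.map (Pq.pc P₂)) ≤
            Bd * (cst ps₁' ((rst ps₁ mv₁).map (shf (M * (Bp * (bk * c ^ 3))) hMB ξ)) *
              cst ps₂' ((rst ps₂ mv₂).map (shf (M * (Bp * (bk * c ^ 3))) hMB (-2 * ξ)))) ^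
                M₁)) →
    ∑ t ∈ 𝒥, Wx t * ‖t.ys w G‖ ≤ C * X ^ ε * S₀ := by
  obtain ⟨C₁, r, hC₁, hr, H⟩ := YG_move hpu N (ε := ε / 2) (by positivity) hB₀ M₁
  set ε' : ℝ := ε / (2 * (B₀ + 1)) with hε'
  have hε'0 : 0 < ε' := by positivity
  obtain ⟨C₂, hC₂, hfib⟩ := fib_pair (ε := ε') (B₀ := 1) hε'0 zero_le_one
  refine ⟨C₁ * C₂, r, one_le_mul_of_one_le_of_one_le hC₁ hC₂, hr, ?_⟩
  intro X hX P P₁ P₂ hP ps₁ ps₂ hlen₁ hlen₂ hz₁ hz₂ M M' Bp bk c z e₀ η j ξ hMB hbk hc he₀ hz hη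
    hM' hc₁ hc₂ h₁ h₂ f OO hOO lam v w hD hw G hG be 𝒥 hJ Λ hΛX hKle Q hQ Wx hWx S₀ hS₀ hyp
  have hX1 : (1 : ℝ) ≤ X := by linarith
  have hX0 : (0 : ℝ) < X := by linarith
  have hf := hD.hf.1
  set T₀ : ℝ := C₂ * (X ^ B₀) ^ ε' with hT₀
  have hXB1 : 1 ≤ X ^ B₀ := Real.one_le_rpow hX1 hB₀
  have hT₀1 : 1 ≤ T₀ := one_le_mul_of_one_le_of_one_le hC₂ (Real.one_le_rpow hXB1 hε'0.le)
  have hmult : ∀ K, ((𝒥.filter (fun t => yT be bk t = K)).card : ℝ) ≤ T₀ := by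
    intro K
    have h1 := hfib M f OO hOO lam v w G (X ^ B₀) hD Bp 𝒥 (by
      intro t ht
      obtain ⟨a1, a2, a3, a4⟩ := hJ t ht
      refine ⟨a1, a2, a3.B, ?_⟩
      rw [Real.rpow_one]
      exact a4) (K * c ^ 3)
    refine le_trans ?_ h1
    have h2 : (𝒥.filter (fun t => yT be bk t = K)).card ≤
        (𝒥.filter (fun t => yK (fun o : {x // x ∈ OO} => o.1.1 * o.1.2) t = K * c ^ 3)).card := by
      refine Finset.card_le_card fun t ht => ?_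
      rw [Finset.mem_filter] at ht ⊢
      refine ⟨ht.1, ?_⟩
      rw [← ht.2]
      exact yK_pre (hJ t ht.1).2.2.1
    exact_mod_cast h2
  have key := H X hX P P₁ P₂ hP ps₁ ps₂ hlen₁ hlen₂ hz₁ hz₂ M M' (Bp * (bk * c ^ 3)) z e₀ η j ξ
    hMB he₀ hz hη hM'
    hc₁ hc₂ h₁ h₂ (Tm {x // x ∈ OO}) 𝒥 (fun t => nu2 t.o) (fun t => t.D0 * t.D1) (fun t => t.D1)
    (fun t => be t ^ 2 * bk) (fun t => t.Z * t.Z') (fun t => t.k)
    (fun t y => sy y (be t ^ 2 * bk) * gx η j ξ y)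
    (by
      intro t ht
      obtain ⟨a1, a2, a3, a4⟩ := hJ t ht
      refine ⟨(hOO _ t.o.2).1.mul (hOO _ t.o.2).2, OK.D a1, a1.pD1, dvd_mul_left _ _, OK.sqD1 a1,
        ?_, ?_, (a3.prim.pow 2).mul hbk, PrI_pre a3 (OK.prZ a1), (OK.pk a1).ne_zero⟩
      · exact (cop_pre a3 _).mp (OK.cDBb hf a1)
      · have e : Bp * (bk * c ^ 3) * (be t ^ 2 * bk) = t.B * t.b * bk := by
          rw [a3.B, a3.b]; ring
        rw [e]
        refine (OK.smBb a1).mul ⟨hbk, ?_⟩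
        refine (OK.smBb a1).2.of_isCoprime_of_dvd_left ?_
        rw [a3.b]
        exact ⟨t.B * (be t ^ 2 * c ^ 3), by ring⟩)
    (by
      intro t _ y _ _
      rfl)
    Λ hΛX hKle Q hQ T₀ hT₀1 (by
      intro K
      refine le_trans (le_of_eq ?_) (hmult K)
      congr) Wx hWx S₀ hS₀ (by
      intro t ht f1 f2 f3 D1' Z'' g1 g2 g3 g4 g5 g6 g7 g8 g9
      obtain ⟨a1, a2, a3, a4⟩ := hJ t ht
      refine hyp t ht f1 f2 f3 D1' Z'' g1 g2 g3 g4 g5 g6 g7 ((cop_pre a3 _).mpr g8) ⟨g9.1, ?_⟩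
      intro p hp hd
      have h5 := g9.2 p hp hd
      have e : Bp * (bk * c ^ 3) * (be t ^ 2 * bk) = t.B * t.b * bk := by
        rw [a3.B, a3.b]; ring
      rw [e] at h5
      rcases hp.dvd_or_dvd h5 with h6 | h6
      · exact h6
      · refine h6.trans ?_
        rw [a3.b]
        exact ⟨t.B * (be t ^ 2 * c ^ 3), by ring⟩)
  have hsum : ∑ t ∈ 𝒥, Wx t * ‖t.ys w G‖ = ∑ t ∈ 𝒥, Wx t * ‖CS (tws (t.Z * t.Z')
      (Bp * (bk * c ^ 3) * (be t ^ 2 * bk))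
      (fun y => sy y (be t ^ 2 * bk) * gx η j ξ y) (wD (t.D0 * t.D1) t.D1 (mulw e₀
        (ww M (alL h (ps₁.map (Pq.pc P))) (alL h (ps₂.map (Pq.pc P)))
          (h₁.fin.toFinset ×ˢ h₂.fin.toFinset) z (nu2 t.o))))) t.k‖ := by
    refine Finset.sum_congr rfl fun t ht => ?_
    obtain ⟨a1, a2, a3, a4⟩ := hJ t ht
    rw [ys_congr (hD.hw t.o) a1 hG, ys_pre hbk hc a3, hw]
  rw [hsum]
  refine key.trans ?_
  have e1 : T₀ = C₂ * X ^ (B₀ * ε') := by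
    rw [hT₀, ← Real.rpow_mul hX0.le]
  rw [e1]
  have h5 : X ^ (B₀ * ε') ≤ X ^ (ε / 2) := by
    refine Real.rpow_le_rpow_of_exponent_le hX1 ?_
    rw [hε']
    have e2 : B₀ * (ε / (2 * (B₀ + 1))) = ε / 2 * (B₀ / (B₀ + 1)) := by
      field_simp
    rw [e2]
    have h3 : B₀ / (B₀ + 1) ≤ 1 := by
      rw [div_le_one (by linarith)]; linarith
    nlinarith
  calc C₁ * X ^ (ε / 2) * (C₂ * X ^ (B₀ * ε')) * S₀
      ≤ C₁ * X ^ (ε / 2) * (C₂ * X ^ (ε / 2)) * S₀ := by gcongr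
    _ = C₁ * C₂ * (X ^ (ε / 2) * X ^ (ε / 2)) * S₀ := by ring
    _ = C₁ * C₂ * X ^ ε * S₀ := by
        rw [← Real.rpow_add hX0]; congr 3; ring

end Crest.Agent.R017.YsM61
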