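import Crest.Agent.R017.YsN_61

/-!
# Row 17, C70/E4 v7: the moved mass over the terms of one prefix, frequency a function of the term
(helper61)

`f = 1`; `k ν = k'' b0³` with `k'' = kn t` arbitrary, every prime of `b0` divides `ν`.

* `ww_nu` : `ww .. ν y = (ν / z y) ww .. 1 y`
* `cs_cubeK` : the reduced `y`-side at `(ν, D = f1 D1', k)` by the one at `(1, D1', k'')`
* `yF kn be bk t = k'' D² β² b~` : the frequency seen by the `y`-side
* `ys_moveK` : the moved mass, modulus `Bp (b~ c³) b0`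
-/

set_option autoImplicit false

noncomputable section

open Complex
open scoped ComplexConjugate

namespace Crest.Agent.R017.YsM61

open Crest.Agent.R012 Crest.Agent.R012.Eis
open Crest.Agent.R012.GaussLoc283
open Crest.Agent.R012.PSer47 (IsChar)
open Crest.Agent.R017.Sx545 (Sm)
open Crest.Agent.R017.CM106 Crest.Agent.R017.HP842
open Crest.Agent.R017.FE47 (PU)
open Crest.Agent.R017.End699 (HC prin0)
open Crest.Agent.R017.B770
open Crest.Agent.R017.Prov71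
open Crest.Agent.R017.Rough381
open Crest.Agent.R017.E4352
open Crest.Agent.R017.E4o502 (vD wD GoodD GB)
open Crest.Agent.R017.E4D164 (ww mulw pu cb)
open Crest.Agent.R017.E4J352
open Crest.Agent.R017.E4Yb792
open Crest.Agent.R017.JyF744

/-- the outer parameter is a factor -/
lemma ww_nu {M z ν : Eis} {b₁ b₂ : Eis → ℂ} {L : Finset (Eis × Eis)}
    (h₁ : ∀ n, b₁ n ≠ 0 → IsPrim n) (h₂ : ∀ n, b₂ n ≠ 0 → IsPrim n) (y : Eis) :
    ww M b₁ b₂ L z ν y = sy ν (z * y) * ww M b₁ b₂ L z 1 y := by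
  classical
  unfold ww pu
  by_cases hy : Sm M y
  swap
  · rw [if_neg hy, if_neg hy, mul_zero]
  rw [if_pos hy, if_pos hy, Finset.mul_sum]
  refine Finset.sum_congr rfl fun p hp => ?_
  have hpe : p.1 * p.2 ^ 2 = z * y := (Finset.mem_filter.mp hp).2
  unfold cb
  by_cases g1 : b₁ p.1 = 0
  · rw [g1]; ring
  by_cases g2 : b₂ p.2 = 0
  · rw [g2, map_zero]; ring
  have p1 := h₁ _ g1
  have p2 := h₂ _ g2
  have e1 : sy ν (z * y) = sy ν p.1 * conj (sy ν p.2) := by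
    rw [← hpe, show p.1 * p.2 ^ 2 = p.1 * (p.2 * p.2) by ring,
      Char766.sy_mul_right p1 (p2.mul p2), Char766.sy_mul_right p2 p2, Char766.conj_sy p2]
    ring
  rw [e1, syAx.one_left p1, syAx.one_left p2, map_one]
  ring

/-- **removal of the cube** from the reduced `y`-side, frequency `k ν = k'' b0³` -/
lemma cs_cubeK {q q' f1 D1' Z b0 k ν kn z : Eis} {G g g' : Eis → ℂ} {W W' : Eis → ℂ}
    (hf1 : IsPrim f1) (hD1' : IsPrim D1') (hZ : IsPrim Z) (hz : IsPrim z)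
    (hb0 : IsPrim b0) (hrad : ∀ p : Eis, Prime p → p ∣ b0 → p ∣ ν)
    (hk : k * ν = kn * b0 ^ 3)
    (hW' : ∀ y, W' y ≠ 0 → IsPrim y)
    (hW : ∀ y, W y = sy ν (z * y) * W' y)
    (hq : ∀ y, IsPrim y → (IsCoprime y q' ↔ IsCoprime y q ∧ IsCoprime y b0 ∧ IsCoprime y f1))
    (hg : ∀ y, IsPrim y → IsCoprime y q → g y = G y)
    (hg' : ∀ y, IsPrim y → IsCoprime y q' → g' y = G y * sy y (f1 ^ 2)) :
    CS (tws Z q g (wD (f1 * D1') D1' W)) k = 0 ∨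
      (IsCoprime (D1' * Z) b0 ∧ IsCoprime Z f1 ∧
      ‖CS (tws Z q g (wD (f1 * D1') D1' W)) k‖ ≤ ‖CS (tws Z q' g' (wD D1' D1' W')) kn‖) := by
  classical
  have hW0 : ∀ y, W y ≠ 0 → IsPrim y := fun y hy => hW' y (by
    intro h0; apply hy; rw [hW, h0, mul_zero])
  have hbad : ∀ y a : Eis, IsPrim y → a ∣ y → ¬ IsCoprime a b0 → sy ν y = 0 := by
    intro y a hy hay hc
    refine Char766.sy_eq_zero hy fun h => hc ?_
    refine isCoprime_of_prime_dvd (fun h0 => hb0.ne_zero h0.2) fun p hp hpa hpb => ?_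
    exact hp.not_isUnit (h.isUnit_of_dvd' (hrad p hp hpb) (hpa.trans hay))
  by_cases h1 : IsCoprime (D1' * Z) b0
  swap
  · left
    have : tws Z q g (wD (f1 * D1') D1' W) = fun _ => 0 := by
      funext y
      unfold E4o502.wD tws
      beta_reduce
      have h0 : W (D1' * (Z * y)) = 0 := by
        by_contra h0
        have h4 := hW0 _ h0
        apply h0
        rw [hW, hbad (z * (D1' * (Z * y))) (D1' * Z) (hz.mul h4) ⟨z * y, by ring⟩ h1, zero_mul]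
      rw [h0]
      simp
    rw [this]
    exact CS_zero' k
  by_cases h2 : IsCoprime Z f1
  swap
  · left
    have : tws Z q g (wD (f1 * D1') D1' W) = fun _ => 0 := by
      funext y
      unfold E4o502.wD tws
      beta_reduce
      rw [if_neg (c := IsCoprime (Z * y) (f1 * D1'))
        (fun h3 => h2 h3.of_mul_left_left.of_mul_right_left)]
      simp
    rw [this]
    exact CS_zero' k
  refine Or.inr ⟨h1, h2, ?_⟩
  have e3 : CS (tws Z q g (wD (f1 * D1') D1' W)) k =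
      (conj (sy Z f1) * sy ν (z * (D1' * Z))) * CS (tws Z q' g' (wD D1' D1' W')) kn := by
    unfold CS
    rw [← tsum_mul_left]
    refine tsum_congr fun y => ?_
    unfold E4o502.wD tws
    beta_reduce
    rw [hW (D1' * (Z * y))]
    by_cases h3 : W' (D1' * (Z * y)) = 0
    · rw [h3]; simp
    have h4 := hW' _ h3
    have hy : IsPrim y := (h4.of_mul_left hD1').of_mul_left hZ
    have hDZ : IsPrim (z * (D1' * Z)) := hz.mul (hD1'.mul hZ)
    have s1 : sy ν (z * (D1' * (Z * y))) = sy ν (z * (D1' * Z)) * sy ν y := by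
      rw [show z * (D1' * (Z * y)) = z * (D1' * Z) * y by ring, Char766.sy_mul_right hDZ hy]
    have h6 : IsCoprime (Z * y) (f1 * D1') ↔ IsCoprime y f1 ∧ IsCoprime (Z * y) D1' :=
      ⟨fun h => ⟨h.of_mul_right_left.of_mul_left_right, h.of_mul_right_right⟩,
        fun h => (h2.mul_left h.1).mul_right h.2⟩
    have h7 := hq y hy
    rw [s1]
    by_cases a1 : IsCoprime y q'
    · obtain ⟨b1, b2, b3⟩ := h7.mp a1
      rw [if_pos b1, if_pos a1]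
      by_cases a2 : IsCoprime (Z * y) D1'
      · have s2 : sy ν y * sy k y = sy kn y := by
          rw [← Char766.sy_mul_left hy, mul_comm ν k, hk, Char766.sy_mul_left hy,
            Char766.sy_cube_left hy b2.symm, mul_one]
        rw [if_pos a2, if_pos (h6.mpr ⟨b3, a2⟩), hg y hy b1, hg' y hy a1,
          Char766.sy_mul_right hf1 hD1', Char766.sy_mul_left hf1, map_mul, map_mul,
          show f1 ^ 2 = f1 * f1 by ring, Char766.sy_mul_right hf1 hf1,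
          show conj (sy y f1) = sy y f1 ^ 2 from Char766.conj_sy hf1, ← s2]
        ring
      · rw [if_neg a2, if_neg (fun h => a2 (h6.mp h).2)]
        ring
    · rw [if_neg a1]
      by_cases b1 : IsCoprime y q
      · rw [if_pos b1]
        by_cases b2 : IsCoprime y b0
        · have b3 : ¬ IsCoprime y f1 := fun h => a1 (h7.mpr ⟨b1, b2, h⟩)
          rw [if_neg (c := IsCoprime (Z * y) (f1 * D1')) (fun h => b3 (h6.mp h).1)]
          ring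
        · rw [hbad y y hy dvd_rfl b2]
          simp
      · rw [if_neg b1]
        ring
  rw [e3, norm_mul]
  refine mul_le_of_le_one_left (norm_nonneg _) ?_
  rw [norm_mul, RCLike.norm_conj]
  refine mul_le_one₀ (Char766.norm_sy_le hf1) (norm_nonneg _) ?_
  exact Char766.norm_sy_le (hz.mul (hD1'.mul hZ))

/-- the frequency of the `y`-side -/
def yF {O : Type} (kn be : Tm O → Eis) (bk : Eis) (t : Tm O) : Eis :=
  kn t * t.D1 ^ 2 * (be t ^ 2 * bk)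

lemma yK_preK {OO : Finset (Eis × Eis)} {M Bp bk c b0 : Eis} {be kn : Tm {x // x ∈ OO} → Eis}
    {t : Tm {x // x ∈ OO}} (ht : t.OK M 1)
    (h : Pre Bp bk c be t) (hn : t.k * nu2 t.o = kn t * b0 ^ 3) :
    yK nu2 t = yF kn be bk t * (b0 ^ 3 * c ^ 3) := by
  unfold yK
  rw [hn, h.b, D0_one ht]
  unfold yF
  ring

open Classical in
set_option maxHeartbeats 2000000 in
/-- **the moved mass over the terms of one prefix**, `f = 1`, `k ν = k'' b0³` -/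
theorem ys_moveK {h : ℝ → ℝ} {c₀ : ℝ} (hpu : PU h c₀) (N : ℕ) {ε : ℝ} (hε : 0 < ε) {B₀ : ℝ}
    (hB₀ : 0 ≤ B₀) (M₁ : ℝ) : ∃ C r : ℝ, 1 ≤ C ∧ 0 ≤ r ∧ ∀ X : ℝ, 3 ≤ X →
    ∀ (P P₁ P₂ : DPar), (∀ k : Kd, IsChar (chK P k)) →
    ∀ ps₁ ps₂ : List Pq, ps₁.length ≤ N → ps₂.length ≤ N →
    (∀ p ∈ ps₁, p.z ≤ B₀ * Real.log X) → (∀ p ∈ ps₂, p.z ≤ B₀ * Real.log X) →
    ∀ (M M' Bp bk c b0 z e₀ : Eis) (η : Eis → ℂ) (j : ℤ) (ξ : ℝ)
      (hMB : M * (Bp * (bk * c ^ 3) * b0) ≠ 0), IsPrim bk → IsPrim c → Sm M b0 → Sm M e₀ →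
    PrI M z → HC M' η → (∀ p : Eis, Prime p → p ∣ M' → p ∣ M) →
    (∀ p ∈ ps₁, ∀ b, IsPrim b → chK P₁ p.kd b = chK P p.kd b * End699.tw η j b) →
    (∀ p ∈ ps₂, ∀ b, IsPrim b → chK P₂ p.kd b = chK P p.kd b *
      (conj (End699.tw η j b) * conj (End699.tw η j b))) →
    ∀ (h₁ : FS (alL h (ps₁.map (Pq.pc P)))) (h₂ : FS (alL h (ps₂.map (Pq.pc P))))
      (OO : Finset (Eis × Eis)), (∀ o ∈ OO, IsPrim o.1 ∧ IsPrim o.2) →
    ∀ (lam : {x // x ∈ OO} → ℝ) (v w : {x // x ∈ OO} → Eis → ℂ),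
      Dat4 M 1 lam v w (X ^ B₀) →
      (∀ o, w o = mulw e₀ (ww M (alL h (ps₁.map (Pq.pc P))) (alL h (ps₂.map (Pq.pc P)))
          (h₁.fin.toFinset ×ˢ h₂.fin.toFinset) z (nu2 o))) →
    ∀ G : Eis → ℂ, (∀ y, Sm M y → G y = gx η j ξ y) →
    ∀ (be kn : Tm {x // x ∈ OO} → Eis) (𝒥 : Finset (Tm {x // x ∈ OO})),
      (∀ t ∈ 𝒥, t.OK M 1 ∧ t.val 1 lam v w G ≠ 0 ∧ Pre Bp bk c be t ∧
        t.k * nu2 t.o = kn t * b0 ^ 3 ∧ (∀ p : Eis, Prime p → p ∣ b0 → p ∣ nu2 t.o) ∧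
        (nm (yK nu2 t) : ℝ) ≤ X ^ B₀) →
    ∀ Λ : ℝ, Λ ≤ X ^ B₀ → (∀ t ∈ 𝒥, (nm (yF kn be bk t) : ℝ) ≤ Λ) →
    ∀ Q : Eis → Prop, (∀ t ∈ 𝒥, Q (yF kn be bk t)) →
    ∀ Wx : Tm {x // x ∈ OO} → ℝ, (∀ t ∈ 𝒥, 0 ≤ Wx t) → ∀ S₀ : ℝ, 0 ≤ S₀ →
    (∀ t ∈ 𝒥, ∀ f1 f2 f3 D1' Z'' : Eis, e₀ = f1 * f2 * f3 → Sm M f1 → Sm M f2 → Sm M f3 →
      t.D1 = f1 * D1' → t.Z * t.Z' = f2 * Z'' → IsCoprime f3 t.D1 → IsCoprime f3 (t.B * t.b) →
      PrI (t.B * t.b) f2 → IsCoprime (D1' * Z'') b0 →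
      ∀ l m : Eis, IsPrim l → IsPrim m → l * m ^ 2 = z * Z'' →
      ∀ (n₁ : Fin ps₁.length → ℕ) (n₂ : Fin ps₂.length → ℕ),
      |∑ i, (n₁ i : ℝ) - (Real.log (nm l) + Real.log (nm D1'))| ≤ r →
      |∑ i, (n₂ i : ℝ) - Real.log (nm m)| ≤ r →
      ∃ (mv₁ : Finset (Fin ps₁.length)) (mv₂ : Finset (Fin ps₂.length)) (Sx Bd : ℝ),
        0 ≤ Sx ∧ 0 ≤ Bd ∧ Sx * Bd ≤ S₀ ^ 2 ∧
        (∀ E' ⊆ 𝒥, ∀ (x₁ : Tm {x // x ∈ OO} → Fin ps₁.length → Eis)
            (x₂ : Tm {x // x ∈ OO} → Fin ps₂.length → Eis),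
          (∀ e ∈ E', (∀ i, IsPrim (x₁ e i) ∧ (n₁ i : ℝ) ≤ Real.log (nm (x₁ e i)) ∧
              Real.log (nm (x₁ e i)) < n₁ i + 1) ∧
            (∀ i, IsPrim (x₂ e i) ∧ (n₂ i : ℝ) ≤ Real.log (nm (x₂ e i)) ∧
              Real.log (nm (x₂ e i)) < n₂ i + 1) ∧
            (∏ i, x₁ e i) * (∏ i, x₂ e i) ^ 2 ∣ e.D1 * (z * (e.Z * e.Z'))) →
          ∑ e ∈ E', Wx e ^ 2 *
            ((∏ i ∈ mv₁, ‖CS (pc h (tP (th1 M (Bp * (bk * c ^ 3) * b0) η j) ξ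
                ((ps₁.get i).pc P) (x₁ e i))) (yF kn be bk e)‖ ^ 2) *
              ∏ i ∈ mv₂, ‖CS (pc h (tP (th2 M (Bp * (bk * c ^ 3) * b0) η j) (-2 * ξ)
                ((ps₂.get i).pc P) (x₂ e i))) (yF kn be bk e)‖ ^ 2) ≤ Sx) ∧
        (∀ ps₁' ps₂' : List Pq,
          List.Forall₂ (Ch r) ps₁'
            ((rst ps₁ mv₁).map (shf (M * (Bp * (bk * c ^ 3) * b0)) hMB ξ)) →
          List.Forall₂ (Ch r) ps₂'
            ((rst ps₂ mv₂).map (shf (M * (Bp * (bk * c ^ 3) * b0)) hMB (-2 * ξ))) →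
          |Ls (rst ps₁ mv₁) - Ls ps₁' - ∑ i ∈ mv₁ᶜ, (n₁ i : ℝ)| ≤ r →
          |Ls (rst ps₂ mv₂) - Ls ps₂' - ∑ i ∈ mv₂ᶜ, (n₂ i : ℝ)| ≤ r →
          RQ Q h (Real.log Λ) (ps₁'.map (Pq.pc P₁) ++ ps₂'.map (Pq.pc P₂)) ≤
            Bd * (cst ps₁' ((rst ps₁ mv₁).map (shf (M * (Bp * (bk * c ^ 3) * b0)) hMB ξ)) *
              cst ps₂' ((rst ps₂ mv₂).map
                (shf (M * (Bp * (bk * c ^ 3) * b0)) hMB (-2 * ξ)))) ^ M₁)) →
    ∑ t ∈ 𝒥, Wx t * ‖t.ys w G‖ ≤ C * X ^ ε * S₀ := by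
  obtain ⟨C₁, r, hC₁, hr, H⟩ := YG_move0 hpu N (ε := ε / 2) (by positivity) hB₀ M₁
  set ε' : ℝ := ε / (2 * (B₀ + 1)) with hε'
  have hε'0 : 0 < ε' := by positivity
  obtain ⟨C₂, hC₂, hfib⟩ := fib_pair (ε := ε') (B₀ := 1) hε'0 zero_le_one
  refine ⟨C₁ * C₂, r, one_le_mul_of_one_le_of_one_le hC₁ hC₂, hr, ?_⟩
  intro X hX P P₁ P₂ hP ps₁ ps₂ hlen₁ hlen₂ hz₁ hz₂ M M' Bp bk c b0 z e₀ η j ξ hMB hbk hc hb0
    he₀ hz hη hM' hc₁ hc₂ h₁ h₂ OO hOO lam v w hD hw G hG be kn 𝒥 hJ Λ hΛX hKle Q hQ Wx hWx S₀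
    hS₀ hyp
  have hX1 : (1 : ℝ) ≤ X := by linarith
  have hX0 : (0 : ℝ) < X := by linarith
  have hf := hD.hf.1
  set b₁ := alL h (ps₁.map (Pq.pc P)) with hb₁
  set b₂ := alL h (ps₂.map (Pq.pc P)) with hb₂
  set W' : Eis → ℂ := ww M b₁ b₂ (h₁.fin.toFinset ×ˢ h₂.fin.toFinset) z 1 with hW'
  set T₀ : ℝ := C₂ * (X ^ B₀) ^ ε' with hT₀
  have hXB1 : 1 ≤ X ^ B₀ := Real.one_le_rpow hX1 hB₀
  have hT₀1 : 1 ≤ T₀ := one_le_mul_of_one_le_of_one_le hC₂ (Real.one_le_rpow hXB1 hε'0.le)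
  have hmult : ∀ K, ((𝒥.filter (fun t => yF kn be bk t = K)).card : ℝ) ≤ T₀ := by
    intro K
    have h1 := hfib M 1 OO hOO lam v w G (X ^ B₀) hD Bp 𝒥 (by
      intro t ht
      obtain ⟨a1, a2, a3, a4, a5, a6⟩ := hJ t ht
      refine ⟨a1, a2, a3.B, ?_⟩
      rw [Real.rpow_one]
      exact a6) (K * (b0 ^ 3 * c ^ 3))
    refine le_trans ?_ h1
    have h2 : (𝒥.filter (fun t => yF kn be bk t = K)).card ≤
        (𝒥.filter (fun t => yK (fun o : {x // x ∈ OO} => o.1.1 * o.1.2) t =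
          K * (b0 ^ 3 * c ^ 3))).card := by
      refine Finset.card_le_card fun t ht => ?_
      rw [Finset.mem_filter] at ht ⊢
      refine ⟨ht.1, ?_⟩
      obtain ⟨a1, a2, a3, a4, a5, a6⟩ := hJ t ht.1
      rw [← ht.2]
      exact yK_preK a1 a3 a4
    exact_mod_cast h2
  -- the reduction
  have hred : ∀ t : Tm {x // x ∈ OO}, ∃ f1 D1' Z'' : Eis, t ∈ 𝒥 → t.ys w G ≠ 0 →
      (∃ f2 f3 : Eis, e₀ = f1 * f2 * f3 ∧ Sm M f1 ∧ Sm M f2 ∧ Sm M f3 ∧ t.D1 = f1 * D1' ∧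
        t.Z * t.Z' = f2 * Z'' ∧ IsCoprime f3 t.D1 ∧ IsCoprime f3 (t.B * t.b) ∧
        PrI (t.B * t.b) f2 ∧ IsCoprime (D1' * Z'') b0 ∧ IsCoprime Z'' f1) ∧
      ‖t.ys w G‖ ≤ ‖CS (tws Z'' (Bp * (bk * c ^ 3) * b0 * (be t ^ 2 * bk * f1 ^ 2))
        (fun y => sy y (be t ^ 2 * bk * f1 ^ 2) * gx η j ξ y) (wD D1' D1' W')) (kn t)‖ := by
    intro t
    by_cases ht : t ∈ 𝒥 ∧ t.ys w G ≠ 0
    swap
    · exact ⟨1, 1, 1, fun h1 h2 => absurd ⟨h1, h2⟩ ht⟩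
    obtain ⟨ht, hys⟩ := ht
    obtain ⟨a1, a2, a3, a4, a5, a6⟩ := hJ t ht
    have e0 : t.ys w G = CS (tws (t.Z * t.Z') (Bp * (bk * c ^ 3) * (be t ^ 2 * bk))
        (fun y => sy y (be t ^ 2 * bk) * gx η j ξ y) (wD t.D1 t.D1 (mulw e₀
          (ww M b₁ b₂ (h₁.fin.toFinset ×ˢ h₂.fin.toFinset) z (nu2 t.o))))) t.k := by
      rw [ys_congr (hD.hw t.o) a1 hG, ys_pre hbk hc a3, hw, D0_one a1, one_mul]
    have hcop : IsCoprime t.D1 (Bp * (bk * c ^ 3) * (be t ^ 2 * bk)) := by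
      have := (cop_pre a3 _).mp (OK.cDBb hf a1)
      rwa [D0_one a1, one_mul] at this
    have hZp := PrI_pre a3 (OK.prZ a1)
    have hβ : IsPrim (be t ^ 2 * bk) := (a3.prim.pow 2).mul hbk
    rw [e0] at hys ⊢
    rcases norm_mulw_le (k := t.k) (D := t.D1) (D1 := t.D1) (f := e₀)
      (g := fun y => sy y (be t ^ 2 * bk) * gx η j ξ y)
      (W := ww M b₁ b₂ (h₁.fin.toFinset ×ˢ h₂.fin.toFinset) z (nu2 t.o)) he₀ a1.pD1 a1.pD1
      (dvd_refl _) hcop hZp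
      (fun a b ha hb hca hcb => by
        rw [syAx.mul_left a b _ hβ]
        have h3 := E4Y679.MuP_tw hη j ξ a b ha hb
        beta_reduce at h3
        show _ * (End699.tw η j (a * b) * (nm (a * b) : ℂ) ^ (I * ξ)) =
          _ * (End699.tw η j a * (nm a : ℂ) ^ (I * ξ)) *
            (_ * (End699.tw η j b * (nm b : ℂ) ^ (I * ξ)))
        rw [h3]
        ring)
      (fun a ha hca => by
        show ‖_ * (End699.tw η j a * (nm a : ℂ) ^ (I * ξ))‖ ≤ 1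
        rw [norm_mul, norm_mul]
        have h3 : ‖((nm a : ℕ) : ℂ) ^ (I * (ξ : ℂ))‖ = 1 := by
          rw [Crest.Agent.R017.E4Yb792.cpow_osc ha.ne_zero]
          exact Weight600.norm_osc _ _
        rw [h3, mul_one]
        exact mul_le_one₀ (Char766.norm_sy_le hβ) (norm_nonneg _) (norm_tw1 hη j ha))
      (fun y hy => (E4D164.pu_ne hy).1.1) with h0 |
        ⟨f1, f2, f3, D1', Z'', r1, r2, r3, r4, r5, r6, r7, r8, r9, r10, r11⟩
    · exact absurd h0 hys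
    have hDp : IsPrim D1' := by
      have := a1.pD1
      rw [r5] at this
      exact this.of_mul_left r2.1
    have hZp' : IsPrim Z'' := by
      have := hZp.1
      rw [r6] at this
      exact this.of_mul_left r3.1
    have hW : ∀ y, ww M b₁ b₂ (h₁.fin.toFinset ×ˢ h₂.fin.toFinset) z (nu2 t.o) y =
        sy (nu2 t.o) (z * y) * W' y := ww_nu h₁.prim h₂.prim
    have hf2 : PrI (t.B * t.b) f2 := by
      refine ⟨r3.1, fun p hp hd => ?_⟩
      exact (OK.prZ a1).2 p hp (hd.trans ⟨Z'', r6⟩)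
    have hf3 : IsCoprime f3 (t.B * t.b) := (cop_pre a3 _).mpr r8
    rw [show wD t.D1 D1' = wD (f1 * D1') D1' by rw [← r5]] at r11
    rcases cs_cubeK (q := Bp * (bk * c ^ 3) * (be t ^ 2 * bk))
      (q' := Bp * (bk * c ^ 3) * b0 * (be t ^ 2 * bk * f1 ^ 2)) (b0 := b0)
      (G := fun y => sy y (be t ^ 2 * bk) * gx η j ξ y)
      (g := fun y => sy y (be t ^ 2 * bk) * gx η j ξ y)
      (g' := fun y => sy y (be t ^ 2 * bk * f1 ^ 2) * gx η j ξ y) (k := t.k) (ν := nu2 t.o)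
      (kn := kn t) (z := z)
      (W := ww M b₁ b₂ (h₁.fin.toFinset ×ˢ h₂.fin.toFinset) z (nu2 t.o)) (W' := W')
      r2.1 hDp hZp' hz.1 hb0.1 a5 a4 (fun y hy => (E4D164.pu_ne hy).1.1) hW
      (fun y hy => by
        constructor
        · intro h3
          refine ⟨h3.of_isCoprime_of_dvd_right ⟨b0 * f1 ^ 2, by ring⟩,
            h3.of_isCoprime_of_dvd_right
              ⟨Bp * (bk * c ^ 3) * (be t ^ 2 * bk * f1 ^ 2), by ring⟩,
            h3.of_isCoprime_of_dvd_right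
              ⟨Bp * (bk * c ^ 3) * b0 * (be t ^ 2 * bk * f1), by ring⟩⟩
        · rintro ⟨h3, h4, h5⟩
          have e : Bp * (bk * c ^ 3) * b0 * (be t ^ 2 * bk * f1 ^ 2) =
              Bp * (bk * c ^ 3) * (be t ^ 2 * bk) * b0 * f1 ^ 2 := by ring
          rw [e]
          exact (h3.mul_right h4).mul_right h5.pow_right)
      (fun y _ _ => rfl)
      (fun y hy _ => by
        rw [Char766.sy_mul_right hβ (r2.1.pow 2)]
        ring) with h0 | ⟨s1, s2, s3⟩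
    · rw [h0, norm_zero, norm_le_zero_iff] at r11
      exact absurd r11 hys
    · exact ⟨f1, D1', Z'', fun _ _ => ⟨⟨f2, f3, r1, r2, r3, r4, r5, r6, r7, hf3, hf2, s1, s2⟩,
        r11.trans s3⟩⟩
  choose F1 DD ZZ hDZ using hred
  set E₁ : Finset (Tm {x // x ∈ OO}) := 𝒥.filter (fun t => t.ys w G ≠ 0) with hE₁
  have hsub : ∀ e ∈ E₁, e ∈ 𝒥 := fun e he => (Finset.mem_filter.1 he).1
  have hsub' : E₁ ⊆ 𝒥 := Finset.filter_subset _ _
  have hKE : ∀ t ∈ E₁, KG (be t ^ 2 * bk * F1 t ^ 2) 1 (DD t) (kn t) =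
      yF kn be bk t := by
    intro t ht
    obtain ⟨⟨f2, f3, r1, r2, r3, r4, r5, r6, r7, r8, r9, r10, r11⟩, -⟩ :=
      hDZ t (hsub t ht) (Finset.mem_filter.1 ht).2
    unfold yF KG
    rw [r5]
    ring
  have h3 : ∑ t ∈ 𝒥, Wx t * ‖t.ys w G‖ ≤ ∑ t ∈ E₁, Wx t *
      ‖CS (tws (ZZ t) (Bp * (bk * c ^ 3) * b0 * (be t ^ 2 * bk * F1 t ^ 2))
        (fun y => sy y (be t ^ 2 * bk * F1 t ^ 2) * gx η j ξ y) (wD (DD t) (DD t) W'))
          (kn t)‖ := by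
    rw [hE₁, Finset.sum_filter]
    refine Finset.sum_le_sum fun t ht => ?_
    split_ifs with h0
    · exact mul_le_mul_of_nonneg_left (hDZ t ht h0).2 (hWx t ht)
    · rw [not_not.1 h0, norm_zero, mul_zero]
  refine h3.trans ?_
  have key := H X hX P P₁ P₂ hP ps₁ ps₂ hlen₁ hlen₂ hz₁ hz₂ M M' (Bp * (bk * c ^ 3) * b0) z η j
    ξ hMB hz hη hM' hc₁ hc₂ h₁ h₂ (Tm {x // x ∈ OO}) E₁ (fun _ => 1) DD DD
    (fun t => be t ^ 2 * bk * F1 t ^ 2) ZZ kn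
    (fun t y => sy y (be t ^ 2 * bk * F1 t ^ 2) * gx η j ξ y)
    (by
      intro t ht
      obtain ⟨a1, a2, a3, a4, a5, a6⟩ := hJ t (hsub t ht)
      obtain ⟨⟨f2, f3, r1, r2, r3, r4, r5, r6, r7, r8, r9, r10, r11⟩, -⟩ :=
        hDZ t (hsub t ht) (Finset.mem_filter.1 ht).2
      have d1 : DD t ∣ t.D1 := ⟨F1 t, by rw [r5]; ring⟩
      have hβ : IsPrim (be t ^ 2 * bk) := (a3.prim.pow 2).mul hbk
      have hDp : IsPrim (DD t) := by
        have := a1.pD1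
        rw [r5] at this
        exact this.of_mul_left r2.1
      have hZp := PrI_pre a3 (OK.prZ a1)
      have hcop : IsCoprime t.D1 (Bp * (bk * c ^ 3) * (be t ^ 2 * bk)) := by
        have := (cop_pre a3 _).mp (OK.cDBb hf a1)
        rwa [D0_one a1, one_mul] at this
      have hsq : Squarefree t.D1 := OK.sqD1 a1
      have hDf : IsCoprime (DD t) (F1 t) := by
        rw [r5] at hsq
        refine isCoprime_of_prime_dvd (fun h => r2.1.ne_zero h.2) (fun p hp hpa hpb => ?_)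
        exact hp.not_isUnit (hsq p (mul_dvd_mul hpb hpa))
      have hSD : Sm M (DD t) := by
        have := OK.D a1
        rw [D0_one a1, one_mul, r5] at this
        exact this.of_mul_left r2.1
      have hkn : kn t ≠ 0 := by
        intro h0
        rw [h0, zero_mul] at a4
        exact mul_ne_zero (OK.pk a1).ne_zero
          (mul_ne_zero (hOO _ t.o.2).1.ne_zero (hOO _ t.o.2).2.ne_zero) a4
      refine ⟨isPrim_one, hSD, hDp, dvd_refl _, hsq.squarefree_of_dvd d1, ?_, ?_,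
        hβ.mul (r2.1.pow 2), ⟨?_, ?_⟩, hkn⟩
      · have e : Bp * (bk * c ^ 3) * b0 * (be t ^ 2 * bk * F1 t ^ 2) =
            Bp * (bk * c ^ 3) * (be t ^ 2 * bk) * b0 * F1 t ^ 2 := by ring
        rw [e]
        exact (((hcop.of_isCoprime_of_dvd_left d1).mul_right r10.of_mul_left_left)).mul_right
          hDf.pow_right
      · have e : Bp * (bk * c ^ 3) * b0 * (be t ^ 2 * bk * F1 t ^ 2) =
            t.B * t.b * bk * b0 * F1 t ^ 2 := by
          rw [a3.B, a3.b]; ring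
        rw [e]
        refine (((OK.smBb a1).mul ⟨hbk, ?_⟩).mul hb0).mul (r2.pow 2)
        refine (OK.smBb a1).2.of_isCoprime_of_dvd_left ?_
        rw [a3.b]
        exact ⟨t.B * (be t ^ 2 * c ^ 3), by ring⟩
      · have := hZp.1
        rw [r6] at this
        exact this.of_mul_left r3.1
      · intro p hp hd
        have h5 := hZp.2 p hp (hd.trans ⟨f2, by rw [r6]; ring⟩)
        exact h5.trans ⟨b0 * F1 t ^ 2, by ring⟩)
    (by
      intro t _ y _ _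
      rfl)
    Λ hΛX (fun t ht => by rw [hKE t ht]; exact hKle t (hsub t ht)) Q
    (fun t ht => by rw [hKE t ht]; exact hQ t (hsub t ht)) T₀ hT₀1 (by
      intro K
      refine le_trans ?_ (hmult K)
      have : (E₁.filter (fun t => KG (be t ^ 2 * bk * F1 t ^ 2) 1 (DD t) (kn t) = K)) ⊆
          (𝒥.filter (fun t => yF kn be bk t = K)) := by
        intro t ht
        rw [Finset.mem_filter] at ht ⊢
        refine ⟨hsub t ht.1, ?_⟩
        rw [← hKE t ht.1]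
        exact ht.2
      have h5 := Finset.card_le_card this
      refine le_trans (le_of_eq ?_) (Nat.cast_le (α := ℝ).2 h5)
      congr) Wx (fun t ht => hWx t (hsub t ht)) S₀ hS₀ (by
      intro t ht l m hl hm hlm n₁ n₂ hn₁ hn₂
      obtain ⟨⟨f2, f3, r1, r2, r3, r4, r5, r6, r7, r8, r9, r10, r11⟩, -⟩ :=
        hDZ t (hsub t ht) (Finset.mem_filter.1 ht).2
      obtain ⟨mv₁, mv₂, Sx, Bd, hSx, hBd, hSB, hx, hy⟩ := hyp t (hsub t ht) (F1 t) f2 f3 (DD t)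
        (ZZ t) r1 r2 r3 r4 r5 r6 r7 r8 r9 r10 l m hl hm hlm n₁ n₂ hn₁ hn₂
      refine ⟨mv₁, mv₂, Sx, Bd, hSx, hBd, hSB, ?_, hy⟩
      intro E' hE' x₁ x₂ hxx
      refine le_trans (le_of_eq ?_) (hx E' (hE'.trans hsub') x₁ x₂ fun e' he' => ?_)
      · refine Finset.sum_congr rfl fun e he => ?_
        rw [hKE e (hE' he)]
      · obtain ⟨t1, t2, t3⟩ := hxx e' he'
        refine ⟨t1, t2, ?_⟩
        rw [t3]
        obtain ⟨⟨f2, f3, r1, r2, r3, r4, r5, r6, r7, r8, r9⟩, -⟩ :=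
          hDZ e' (hsub e' (hE' he')) (Finset.mem_filter.1 (hE' he')).2
        rw [r5, r6]
        exact ⟨F1 e' * f2, by ring⟩)
  refine key.trans ?_
  have e1 : T₀ = C₂ * X ^ (B₀ * ε') := by
    rw [hT₀, ← Real.rpow_mul hX0.le]
  rw [e1]
  have h5 : X ^ (B₀ * ε') ≤ X ^ (ε / 2) := by
    refine Real.rpow_le_rpow_of_exponent_le hX1 ?_
    rw [hε']
    have e2 : B₀ * (ε / (2 * (B₀ + 1))) = ε / 2 * (B₀ / (B₀ + 1)) := by
      field_simp
    rw [e2]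
    have h3 : B₀ / (B₀ + 1) ≤ 1 := by
      rw [div_le_one (by linarith)]; linarith
    nlinarith
  calc C₁ * X ^ (ε / 2) * (C₂ * X ^ (B₀ * ε')) * S₀
      ≤ C₁ * X ^ (ε / 2) * (C₂ * X ^ (ε / 2)) * S₀ := by gcongr
    _ = C₁ * C₂ * (X ^ (ε / 2) * X ^ (ε / 2)) * S₀ := by ring
    _ = C₁ * C₂ * X ^ ε * S₀ := by
        rw [← Real.rpow_add hX0]; congr 3; ring

end Crest.Agent.R017.YsM61
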