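import Crest.Agent.R017.YsU_61
import Crest.Agent.R017.E4Uz_512
import Crest.Agent.R017.E4Xn_372
import Crest.Agent.R017.ExRed_848
import Crest.Agent.R017.YsE3_266

/-!
# Row 17, StrUX: the `y`-side at the data of `JBUX`, exceptional class (helper372)

helper61's `YsU` for the exceptional class: the non-principal frequencies.

* `dual_E` : the dual lists are exceptional
* `uX` : the two lumps of shape `j`
* `YsCE` : the `y`-side of one prefix of the data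
* `ysUE` : `YsCE` for finitely many twists
-/

set_option autoImplicit false

noncomputable section

open Finset Complex
open scoped ComplexConjugate

namespace Crest.Agent.R017.E4Df372

open Crest.Agent.R012 Crest.Agent.R012.Eis
open Crest.Agent.R012.Mob705 hiding pb mem_pb
open Crest.Agent.R017.Sx545 (Sm)
open Crest.Agent.R017.CM106 (FS CS)
open Crest.Agent.R017.C70 (OKJ)
open Crest.Agent.R017.FE47 (PU SM)
open Crest.Agent.R017.End699 (HC prin0 hc_prin0 NP)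
open Crest.Agent.R017.Sup271 (NPm)
open Crest.Agent.R017.XT71 (mx le_mx)
open Crest.Agent.R017.XG702 (Pcs)
open Crest.Agent.R017.HP842 (alL)
open Crest.Agent.R017.B770
open Crest.Agent.R017.Prov71
open Crest.Agent.R017.Rough381
open Crest.Agent.R017.ER911 Crest.Agent.R017.ExpC702
open Crest.Agent.R017.E4352 (PrI Dat4)
open Crest.Agent.R017.E5B71
open Crest.Agent.R017.E5L770
open Crest.Agent.R017.ExP960 hiding alX
open Crest.Agent.R017.E4D164 hiding E4L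
open Crest.Agent.R017.E4J352
open Crest.Agent.R017.E4U164
open Crest.Agent.R017.E4Us512
open Crest.Agent.R017.E4ap783 (TG7)
open Crest.Agent.R017.E4X266 (PrC)
open Crest.Agent.R017.E4RH858 (Pf pf Facts facts Sz sz)
open Crest.Agent.R017.E4Dic352 (bkP cP prim_bkP prim_cP Spl)
open Crest.Agent.R017.JyF744 (nu2 yK)
open Crest.Agent.R017.TwP61
open Crest.Agent.R017.Red848 (Exc)
open Crest.Agent.R017.YU61 Crest.Agent.R017.YM61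
open Crest.Agent.R017.YsM61
open Crest.Agent.R017.YsU61 hiding mem_amL mem_moL
open Crest.Agent.R017.YsE266

/-! ### the dual lists are exceptional -/

/-- exceptional twisted parameters, cubic twist -/
lemma exc_tw {P : DPar} (hP : P.OK) (hE : Exc P) {u : Eis} (hu : u ∈ SM P.n) {M' s : Eis}
    {η : Eis → ℂ} (hs : s ≠ 0) (hη : ∀ b, IsPrim b → IsCoprime b M' → IsCoprime b s →
      η b = sy s b) : Exc (twP (tU P u) M' η 0) := by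
  obtain ⟨k, hk, hn⟩ := hE
  unfold NPm NP at hn
  push Not at hn
  obtain ⟨hl, hp⟩ := hn
  refine ⟨k * u ^ 2 * s ^ 2, mul_ne_zero (mul_ne_zero hk (pow_ne_zero 2 hu.1))
    (pow_ne_zero 2 hs), fun hN => ?_⟩
  rcases hN with h1 | ⟨a, ha, hac, hne⟩
  · refine h1 ?_
    show P.l₂ - 2 * 0 = 0
    rw [hl]
    norm_num
  · apply hne
    have c0 : IsCoprime a (9 * P.n * M') := hac.of_mul_right_left
    have c1 : IsCoprime a P.n := c0.of_mul_right_left.of_mul_right_right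
    have cM : IsCoprime a M' := c0.of_mul_right_right
    have c9 : IsCoprime a (9 * (k * u ^ 2 * s ^ 2)) := hac.of_mul_right_right
    have ck : IsCoprime a k := c9.of_mul_right_right.of_mul_right_left.of_mul_right_left
    have cu : IsCoprime a u := c9.of_mul_right_right.of_mul_right_left.of_mul_right_right
      |>.of_isCoprime_of_dvd_right (dvd_pow_self u two_ne_zero)
    have cs : IsCoprime a s := c9.of_mul_right_right.of_mul_right_right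
      |>.of_isCoprime_of_dvd_right (dvd_pow_self s two_ne_zero)
    have e1 := hp a ha (c1.mul_right (c9.of_mul_right_left.mul_right ck))
    have n1 : ∀ v : Eis, IsCoprime a v → sy v a ^ 3 = 1 := fun v hv =>
      Char766.sy_cube ha hv.symm
    have e2 : conj (sy s a) = sy s a ^ 2 := Char766.conj_sy ha
    show P.ψ a * sy u a * (conj (η a) * conj (η a)) * sy (k * u ^ 2 * s ^ 2) a = 1
    rw [hη a ha cM cs, e2, Char766.sy_mul_left ha, Char766.sy_mul_left ha, pow_two u, pow_two s,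
      Char766.sy_mul_left ha, Char766.sy_mul_left ha]
    calc P.ψ a * sy u a * (sy s a ^ 2 * sy s a ^ 2) * (sy k a * (sy u a * sy u a) *
          (sy s a * sy s a)) = (P.ψ a * sy k a) * sy u a ^ 3 * (sy s a ^ 3) ^ 2 := by ring
      _ = 1 := by rw [e1, n1 u cu, n1 s cs]; norm_num

/-- **the dual lists are exceptional** -/
theorem dual_E {P : DPar} (hP : P.OK) (hE : Exc P) (h3 : P.l₃ = 0) {u : Eis} (hu : u ∈ SM P.n)
    {t : (Eis → ℂ) × ℤ} (ht : TwOK P t) :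
    ∃ M' : Eis, HC M' t.1 ∧ (∀ p : Eis, Prime p → p ∣ M' → p ∣ P.n₃) ∧
      Exc (twP (tU P u) M' t.1 t.2) := by
  rcases ht with rfl | ⟨⟨M', h0, hdvd, hrad, hη⟩, hl, hj⟩
  · refine ⟨P.n₃, hc_prin0 hP.χ₃.q0 hP.χ₃.three, fun _ _ h => h,
      exc_tw hP hE hu (s := 1) one_ne_zero fun b hb hc _ => ?_⟩
    show prin0 P.n₃ b = sy 1 b
    unfold prin0
    rw [if_pos hc]
    exact (GaussLoc283.syAx.one_left hb).symm
  · refine ⟨M', hη, hrad, ?_⟩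
    obtain ⟨h2, s, hs, he⟩ := hl (by rw [h3, neg_zero])
    rw [h2]
    exact exc_tw hP hE hu (s := s) hs.1 fun b hb hc _ =>
      he b ⟨hb, hc.of_isCoprime_of_dvd_right hdvd⟩

/-- the modulus of the twisted parameters has the primes of `n₃` -/
lemma sm_tw {P : DPar} (hP : P.OK) {u M' : Eis} {η : Eis → ℂ} {j : ℤ}
    (hrad : ∀ p : Eis, Prime p → p ∣ M' → p ∣ P.n₃) {y : Eis} (hy : Sm P.n₃ y) :
    Sm (twP (tU P u) M' η j).n y := by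
  refine ⟨hy.1, isCoprime_of_prime_dvd (fun h0 => hy.ne_zero h0.1) fun p hp hpb hpM => ?_⟩
  refine hp.not_isUnit (hy.2.isUnit_of_dvd' hpb ?_)
  have h1 : p ∣ 9 * P.n * M' := hpM
  rcases hp.dvd_or_dvd h1 with h2 | h2
  · rcases hp.dvd_or_dvd h2 with h3 | h3
    · refine (hP.rad p hp).2 ((h3.trans ?_).trans hP.n36)
      exact ⟨4, by norm_num⟩
    · exact (hP.rad p hp).2 h3
  · exact hrad p hp h2

/-! ### the two lumps -/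

/-- the two lumps of shape `j` -/
def uX (a : BdX) (j : Fin 2) (i : Fin 2) : Pq :=
  (![![a.us 0, a.us 1], ![stz (a.us 0) (a.zs 0), stz (a.us 1) (a.zs 1)]] : Fin 2 → Fin 2 → Pq) j i

lemma bsX_eq (a : BdX) (ps : List Pq) (j : Fin 2) :
    bsX a ps j = uX a j 0 :: uX a j 1 :: moL ps := by
  fin_cases j <;> rfl

/-- a lump of the datum up to its length -/
lemma uX_sp (a : BdX) (j i : Fin 2) : ∃ i' : Fin 5, (uX a j i).kd = (a.us i').kd ∧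
    (uX a j i).u = (a.us i').u ∧ (uX a j i).d = (a.us i').d ∧ (uX a j i).t = (a.us i').t := by
  fin_cases j <;> fin_cases i
  exacts [⟨0, rfl, rfl, rfl, rfl⟩, ⟨1, rfl, rfl, rfl, rfl⟩, ⟨0, rfl, rfl, rfl, rfl⟩,
    ⟨1, rfl, rfl, rfl, rfl⟩]

lemma uX_z0 {a : BdX} (ha : a.ok) (j i : Fin 2) : 0 ≤ (uX a j i).z := by
  fin_cases j <;> fin_cases i
  exacts [(ha.base.1 0).2, (ha.base.1 1).2, ha.z0 0, ha.z0 1]

lemma uX_z {a : BdX} (ha : a.ok) (j : Fin 2) :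
    (uX a j 0).z + (uX a j 1).z = (a.us 0).z + (a.us 1).z := by
  fin_cases j
  · rfl
  · exact ha.s01

section

variable {Λ : Type*} (π : Λ → DPar) (h : ℝ → ℝ)

/-- **the `y`-side of one prefix of the data** `x : Dt` -/
def YsCE (A d β e0 r : ℝ) (Bf : ℕ → ℝ → ℝ → ℝ → ℝ) (Jf : ℝ → ℝ → ℝ → Finset (Eis × Eis))
    (K R₁ ε σ ρ : ℝ) (lam : Λ × Eis) (N : ℕ) (B E B₁ : ℝ) (tt : (Eis → ℂ) × ℤ) (M₀ : ℕ)
    (δ₁ X₀ : ℝ) : Prop :=
  ∀ X : ℝ, X₀ ≤ X → ∀ δ δ' ε' : ℝ, δ ≤ σ / 4 → δ' ≤ δ₁ → ε' ≤ E →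
  ∀ (a : BdX × ℕ) (ps : List Pq) (q : (Option IX5 → ℝ) × (Kd → ℝ)),
    FrLX A d β δ δ' B X N a ps q → a.1.ok → lam.2 ∈ SM (π lam.1).n → a.1.okP (π lam.1) →
  ∀ x : Dt, x.OK (π lam.1) (Bf a.2) e0 r ε' X a.1.toBd →
  ∀ (j : Fin 2) (h₁ : FS (b1 (π lam.1) h lam.2 ps)) (h₂ : FS (b2X (π lam.1) h lam.2 a.1 ps j)) (ξ : ℝ)
    (G : Eis → ℂ), (∀ y, Sm (π lam.1).n₃ y → G y = gx tt.1 tt.2 ξ y) →
  ∀ (Pp : Pf) (b0 : Eis) (kn : Tm (x.O π lam Jf (bl a)) → Eis) (𝒥 : Finset (Tm (x.O π lam Jf (bl a)))),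
    IsPrim b0 →
    (∀ t ∈ 𝒥, t.OK (π lam.1).n₃ 1 ∧
      t.val 1 lD (vE π h lam Jf a x) (wE π h lam Jf a ps x j h₁ h₂) G ≠ 0 ∧ pf t = Pp ∧
      t.k * nu2 t.o = kn t * b0 ^ 3 ∧ (∀ p : Eis, Prime p → p ∣ b0 → p ∣ nu2 t.o) ∧
      (nm (yK nu2 t) : ℝ) ≤ X ^ B₁) →
  ∀ l : ℝ, 0 ≤ l → Real.exp l ≤ X ^ B₁ →
    (∀ t ∈ 𝒥, (nm (yF kn E4RH858.b1 (bkP Pp) t) : ℝ) ≤ Real.exp l) →
    (∀ t ∈ 𝒥, ¬ PrC (cD t.o) (t.D0 * t.D1) (t.b * t.k)) →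
  ∀ Wx : Tm (x.O π lam Jf (bl a)) → ℝ, (∀ t ∈ 𝒥, 0 ≤ Wx t) → ∀ S₀ : ℝ, 0 ≤ S₀ →
    (∀ t ∈ 𝒥, ∀ f1 f2 f3 D1' Z'' l' m : Eis,
      Spl (π lam.1).n₃ (fN (π lam.1).n₃ (x.E a.1.toBd)) x.z t f1 f2 f3 D1' Z'' l' m →
      IsCoprime (D1' * Z'') b0 →
      Real.log (nm l') + Real.log (nm D1') ≤ Ls (amL ps) + ρ * Real.log X →
      Real.log (nm m) ≤ (a.1.us 0).z + (a.1.us 1).z + Ls (moL ps) + ρ * Real.log X →
      ∃ κ Mv qv wv y mx e Sx : ℝ,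
        Nom K (σ / 4) (Real.log X) l ((a.1.us 0).z + (a.1.us 1).z) (Real.log (nm m))
          (Ls (moL ps)) (Ls (amL ps)) (Real.log (nm l') + Real.log (nm D1')) κ Mv qv wv y mx ∧
        (GoodYM d κ Mv qv wv y e ∨ YT 𝒥 (yF kn E4RH858.b1 (bkP Pp)) X Mv qv wv e) ∧
        0 ≤ Sx ∧ Sx * X ^ e ≤ S₀ ^ 2 ∧
        XSide h (tU (π lam.1) lam.2) (amL ps) (π lam.1).n₃
          (Pp.B * (bkP Pp * cP Pp ^ 3) * b0) tt.1 tt.2 ξ x.z 𝒥 (yF kn E4RH858.b1 (bkP Pp)) Wx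
          (Real.log X) σ R₁ (Real.log (nm l') + Real.log (nm D1')) mx Sx) →
    ∑ t ∈ 𝒥, Wx t * ‖t.ys (wE π h lam Jf a ps x j h₁ h₂) G‖ ≤ (1 + |ξ|) ^ M₀ * X ^ ε * S₀

end

section

variable {Λ Λ' : Type*} {π : Λ → DPar} {π' : Λ' → DPar} {h : ℝ → ℝ} {c₀ : ℝ} (hpu : PU h c₀)
  (hP : ∀ lam, (π lam).OK) (hE : ∀ lam, Exc (π lam))
  (h3 : ∀ lam, ¬ (π lam).CaseD → (π lam).l₃ = 0)
  (hP' : ∀ lam, (π' lam).OK) (hcov : ∀ P : DPar, P.OK → Exc P → ∃ lam, π' lam = P)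
  {r s : EF} {A d : ℝ} (R : ExpRules (7 / 8 + d) r s)
  (C : ExpC r (ex Dq (fun lam => Rc (π' lam) h)))

include hpu hP hE h3 hP' hcov R C

set_option maxHeartbeats 2000000 in
/-- one twist -/
theorem ysUE1 (β : ℝ) (hd : 0 ≤ d) (hd8 : d ≤ 1 / 8) (hA : 2 / 3 ≤ A) {K : ℝ} (hK : 1 ≤ K) (e0 r0 : ℝ)
    (Bf : ℕ → ℝ → ℝ → ℝ → ℝ) {Jf : ℝ → ℝ → ℝ → Finset (Eis × Eis)}
    (hJf : ∀ l N z, OKJ (Jf l N z)) {ε : ℝ} (hε : 0 < ε) :
    ∃ σ₀ R₁ : ℝ, 0 < σ₀ ∧ 0 ≤ R₁ ∧ ∀ σ : ℝ, 0 < σ → σ ≤ σ₀ → ∀ ρ : ℝ, 0 < ρ →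
    ∀ (lam : Λ × Eis) (N : ℕ) (B E B₁ : ℝ), 0 ≤ B₁ → ∀ tt : (Eis → ℂ) × ℤ,
      ¬ (π lam.1).CaseD → TwOK (π lam.1) tt →
    ∃ (M₀ : ℕ) (δ₁ X₀ : ℝ), 0 < δ₁ ∧ 3 ≤ X₀ ∧
      YsCE π h A d β e0 r0 Bf Jf K R₁ ε σ ρ lam N B E B₁ tt M₀ δ₁ X₀ := by
  classical
  obtain ⟨σ₁, R₁, hσ₁, hR₁, V⟩ := ys_choiceTE hpu hP' R C hd hd8 (K := K) (by linarith)
    (ε := ε / 2) (by linarith)
  refine ⟨min σ₁ 1, R₁, lt_min hσ₁ one_pos, hR₁, ?_⟩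
  intro σ hσ hσσ ρ hρ lam N B E B₁ hB₁ tt hD htt
  have hσ₁' : σ ≤ σ₁ := hσσ.trans (min_le_left _ _)
  have hσ1 : σ ≤ 1 := hσσ.trans (min_le_right _ _)
  by_cases hSM : lam.2 ∈ SM (π lam.1).n
  swap
  · refine ⟨0, 1, 3, one_pos, le_rfl, ?_⟩
    intro X _ δ δ' ε' _ _ _ a ps q _ _ hs
    exact absurd hs hSM
  obtain ⟨M', hη, hrad, hcl⟩ := dual_E (hP lam.1) (hE lam.1) (h3 lam.1 hD) hSM htt
  set P : DPar := tU (π lam.1) lam.2 with hPd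
  have hPok : P.OK := tU_OK (hP lam.1) hSM
  obtain ⟨l', hl'⟩ := hcov (twP P M' tt.1 tt.2) (twP_OK hPok hη tt.2) hcl
  obtain ⟨A₀, C₀, X₁, hA₀, -, hX₁, D⟩ := dt_dat4X hpu d β hA e0 r0 hJf lam (hP lam.1) N B E
    1 one_pos
  set B₂ : ℝ := |B| + 4 + 14 * A₀ + B₁ + 1 with hB₂
  have hBabs := abs_nonneg B
  have hBle := le_abs_self B
  have hB₂0 : 0 ≤ B₂ := by rw [hB₂]; linarith
  obtain ⟨M₀, X₂, hX₂, V⟩ := V σ hσ hσ₁' ρ hρ l' N B₂ hB₂0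
  have hM₀ : (0 : ℝ) ≤ M₀ := Nat.cast_nonneg _
  refine ⟨M₀, ε / (2 * (M₀ + 1)), max (max 3 X₁) (max X₂ (nm (π lam.1).n₃)), by positivity,
    (le_max_left _ _).trans (le_max_left _ _), ?_⟩
  intro X hX δ δ' ε' hδ hδ' hε' a ps q hF ha _ haP x hx j h₁ h₂ ξ G hG Pp b0 kn 𝒥 hb0 hJ l hl0
    hlX hKle hPrC Wx hWx S₀ hS₀ hyp
  have hX3 : 3 ≤ X := ((le_max_left _ _).trans (le_max_left _ _)).trans hX
  have hXX₁ : X₁ ≤ X := ((le_max_right _ _).trans (le_max_left _ _)).trans hX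
  have hXX₂ : X₂ ≤ X := ((le_max_left _ _).trans (le_max_right _ _)).trans hX
  have hXn : (nm (π lam.1).n₃ : ℝ) ≤ X := ((le_max_right _ _).trans (le_max_right _ _)).trans hX
  have hX1 : 1 < X := by linarith
  have hX0 : 0 < X := by linarith
  have hlog : 0 < Real.log X := Real.log_pos hX1
  have hRHS : 0 ≤ (1 + |ξ|) ^ M₀ * X ^ ε * S₀ := by
    have := abs_nonneg ξ
    positivity
  rcases Finset.eq_empty_or_nonempty 𝒥 with h𝒥 | ⟨t₀, ht₀⟩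
  · rw [h𝒥, Finset.sum_empty]
    exact hRHS
  have hmono : ∀ y, y ≤ B₂ → X ^ y ≤ X ^ B₂ := fun y hy =>
    Real.rpow_le_rpow_of_exponent_le hX1.le hy
  have hδ2 : δ ≤ 1 / 2 := by linarith
  obtain ⟨-, D⟩ := D X hXX₁ δ δ' ε' hδ2 hε' (Bf a.2) a ps q hF ha haP
  obtain ⟨hDat, -, -, -, -, -⟩ := D x hx j h₁ h₂
  have hFX := fr_of_frLX hA hδ2 hX1 hF ha haP (B₁ := max B 4) (le_max_left _ _) (le_max_right _ _)
  have hFr := hFX.fr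
  have hB3 : max B 4 ≤ B₂ := max_le (by rw [hB₂]; linarith) (by rw [hB₂]; linarith)
  have hBB : B ≤ B₂ := (le_max_left _ _).trans hB3
  -- the outer set
  have hOO : ∀ o ∈ x.O π lam Jf (bl a), IsPrim o.1 ∧ IsPrim o.2 := by
    intro o ho
    obtain ⟨g1, g2, -⟩ := Str699.o_spec (a := bl a) hJf ha.base haP hx ⟨o, ho⟩
    exact ⟨g1, g2⟩
  have hSO : ∀ o ∈ x.O π lam Jf (bl a), Sm (π lam.1).n₃ (o.1 * o.2) := by
    intro o ho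
    have ho' := ho
    unfold Dt.O OD OU at ho'
    exact (Finset.mem_filter.1 ho').2
  have hMne : (π lam.1).n₃ ≠ 0 := (hP lam.1).χ₃.q0
  have hE : IsPrim (x.E a.1.toBd) := haP.1.1.mul (T3_prim _ hx.β)
  have he₀ : Sm (π lam.1).n₃ (fN (π lam.1).n₃ (x.E a.1.toBd)) := (fM_spec hMne hE).2.1
  have hfac : ∀ t ∈ 𝒥, Facts (π lam.1).n₃ t := fun t ht =>
    facts hDat (hJ t ht).1 (hJ t ht).2.1
  obtain ⟨k1, k2, k3, k4, k5, k6⟩ := hJ t₀ ht₀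
  have hSb0 : Sm (π lam.1).n₃ b0 := cop_of_rad hb0 (hSO _ t₀.o.2) k5
  have hf0 := hfac t₀ ht₀
  have hsz : Sz ((X ^ A₀) ^ 7) Pp := by rw [← k3]; exact sz hDat k1 k2
  have hBp : Sm (π lam.1).n₃ Pp.B := by rw [← k3]; exact hf0.sB
  have hbp : Pp.b = bkP Pp * cP Pp ^ 3 := by rw [← k3]; exact E4Dic352.b_eq hf0
  have hbS : Sm (π lam.1).n₃ Pp.b := by rw [← k3]; exact hf0.sb
  have hMB : (π lam.1).n₃ * (Pp.B * (bkP Pp * cP Pp ^ 3) * b0) ≠ 0 := by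
    rw [← hbp]
    exact mul_ne_zero hMne (mul_ne_zero (mul_ne_zero hBp.ne_zero hbS.ne_zero) hb0.ne_zero)
  have hyK0 : yK nu2 t₀ ≠ 0 := by
    unfold yK
    rw [D0_one k1, one_mul]
    have hk0 := (JyF744.OK.pk k1).ne_zero
    have hν := (hSO _ t₀.o.2).ne_zero
    exact mul_ne_zero (mul_ne_zero (mul_ne_zero hk0 hν) (pow_ne_zero 2 k1.pD1.ne_zero))
      k1.sb.ne_zero
  have hb0X : (nm b0 : ℝ) ≤ X ^ B₁ := by
    refine le_trans ?_ k6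
    have hdv : b0 ∣ yK nu2 t₀ := by
      unfold yK
      rw [k4]
      exact ⟨kn t₀ * b0 ^ 2 * (t₀.D0 * t₀.D1) ^ 2 * t₀.b, by ring⟩
    exact_mod_cast Div277.nm_le_of_dvd hyK0 hdv
  have hmod : (nm ((π lam.1).n₃ * (Pp.B * (bkP Pp * cP Pp ^ 3) * b0)) : ℝ) ≤ X ^ B₂ := by
    rw [← hbp, nm_mul, nm_mul, nm_mul]
    push_cast
    have h1 := hsz.B
    have h2 := hsz.b
    have h3 : (X ^ A₀) ^ 7 = X ^ (7 * A₀) := by
      rw [mul_comm, Real.rpow_mul hX0.le]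
      exact_mod_cast (Real.rpow_natCast (X ^ A₀) 7).symm
    rw [h3] at h1 h2
    calc (nm (π lam.1).n₃ : ℝ) * ((nm Pp.B : ℝ) * nm Pp.b * nm b0)
        ≤ X ^ (1 : ℝ) * (X ^ (7 * A₀) * X ^ (7 * A₀) * X ^ B₁) := by
          rw [Real.rpow_one]
          gcongr
      _ = X ^ (1 + (7 * A₀ + 7 * A₀ + B₁)) := by
          rw [Real.rpow_add hX0, Real.rpow_add hX0, Real.rpow_add hX0]
      _ ≤ X ^ B₂ := hmono _ (by rw [hB₂]; linarith)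
  -- the lists
  have e1 : b1 (π lam.1) h lam.2 ps = alL h ((amL ps).map (Pq.pc P)) := by
    unfold E4U164.b1
    rw [map_Pt]
  have e2 : b2X (π lam.1) h lam.2 a.1 ps j =
      alL h ((uX a.1 j 0 :: uX a.1 j 1 :: moL ps).map (Pq.pc P)) := by
    unfold E4Df372.b2X
    rw [map_Pt, bsX_eq]
  have h₁' : FS (alL h ((amL ps).map (Pq.pc P))) := e1 ▸ h₁
  have h₂' : FS (alL h ((uX a.1 j 0 :: uX a.1 j 1 :: moL ps).map (Pq.pc P))) := e2 ▸ h₂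
  have hs1 : ∀ i, 1 + |(a.1.us i).t| ≤ X ^ δ' := by
    intro i
    have h1 : max (1 + |a.1.τ|) (mx Dq.s1 (List.ofFn a.1.us)) ≤ X ^ δ' := hF.win.s₁
    have h2 : Dq.s1 (a.1.us i) ≤ mx Dq.s1 (List.ofFn a.1.us) :=
      le_mx (List.mem_ofFn.2 ⟨i, rfl⟩)
    exact (h2.trans (le_max_right _ _)).trans h1
  have hs2 : ∀ i, (nm (a.1.us i).d : ℝ) ≤ X ^ B₂ := by
    intro i
    have h1 : max (nm a.1.d₃ : ℝ) (mx Dq.s2 (List.ofFn a.1.us)) ≤ X ^ B := hF.win.s₂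
    have h2 : Dq.s2 (a.1.us i) ≤ mx Dq.s2 (List.ofFn a.1.us) :=
      le_mx (List.mem_ofFn.2 ⟨i, rfl⟩)
    exact ((h2.trans (le_max_right _ _)).trans h1).trans (hmono _ hBB)
  have hzB : ∀ {z : ℝ}, z ≤ max B 4 * Real.log X → z ≤ B₂ * Real.log X := fun hz =>
    hz.trans (mul_le_mul_of_nonneg_right hB3 hlog.le)
  have hps : ∀ p ∈ ps, 0 ≤ p.z ∧ p.z ≤ B₂ * Real.log X ∧ (nm p.d : ℝ) ≤ X ^ B₂ ∧
      1 + |p.t| ≤ X ^ δ' := by
    intro p hp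
    obtain ⟨g1, g2, g3⟩ := hF.good p hp
    exact ⟨g3, hzB (hFr.p p hp), g2.trans (hmono _ hBB), g1⟩
  have hlen1 : (amL ps).length ≤ N := (List.length_filter_le _ _).trans hF.len
  have hlen2 : (moL ps).length ≤ N := (List.length_filter_le _ _).trans hF.len
  have hdom := hF.dom
  unfold E5LX770.SqLX DomL at hdom
  obtain ⟨hq, -, -⟩ := hdom
  have hSq : Sq5 A d (prX (dn q.1)) q.2 := hq.1
  have hLs : Ls (amL ps) ≤ K * Real.log X := by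
    have h1 := (abs_le.1 (hF.mass .am)).2
    rw [mass_am] at h1
    have h2 := hSq.c
    have h3 : Ls (amL ps) / Real.log X ≤ K := by linarith
    rwa [div_le_iff₀ hlog] at h3
  have hNP : ∀ t ∈ 𝒥, (π' l').NP2 (yF kn E4RH858.b1 (bkP Pp) t) := by
    intro t ht
    obtain ⟨g1, g2, g3, g4, g5, g6⟩ := hJ t ht
    have hf := hfac t ht
    have hbt : t.b = E4RH858.b1 t ^ 2 * (bkP Pp * cP Pp ^ 3) := by
      rw [← g3]
      exact E4Dic352.b_eq' hf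
    have hD0 := D0_one g1
    have sν : Sm (π lam.1).n₃ (nu2 t.o) := hSO _ t.o.2
    have skn : Sm (π lam.1).n₃ (kn t) := by
      have h1 : Sm (π lam.1).n₃ (kn t * b0 ^ 3) := by rw [← g4]; exact g1.sk.mul sν
      exact h1.of_mul_right (hb0.pow 3)
    have sD : Sm (π lam.1).n₃ t.D1 := by
      have h1 := g1.good.2.2.1
      rwa [hD0, one_mul] at h1
    have sbk : Sm (π lam.1).n₃ (bkP Pp) := by
      rw [hbp] at hbS
      exact hbS.of_mul_right ((prim_cP Pp).pow 3)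
    have sF : Sm (π lam.1).n₃ (yF kn E4RH858.b1 (bkP Pp) t) :=
      (skn.mul (sD.pow 2)).mul ((hf.sb1.pow 2).mul sbk)
    refine np2_noncube (hP' l') ?_ (freq_noncube (e := b0 * cP Pp) (hPrC t ht) ?_)
    · rw [hl']
      exact sm_tw (hP lam.1) hrad sF
    · show t.o.1.1 * t.o.1.2 * (t.b * t.k * (t.D0 * t.D1) ^ 2) = _
      have h4 : t.k * (t.o.1.1 * t.o.1.2) = kn t * b0 ^ 3 := g4
      rw [hbt, hD0]
      unfold yF
      calc t.o.1.1 * t.o.1.2 * (E4RH858.b1 t ^ 2 * (bkP Pp * cP Pp ^ 3) * t.k * (1 * t.D1) ^ 2)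
          = (t.k * (t.o.1.1 * t.o.1.2)) * (E4RH858.b1 t ^ 2 * (bkP Pp * cP Pp ^ 3) *
            t.D1 ^ 2) := by ring
        _ = _ := by rw [h4]; ring
  have hzX := z_bsX hFX j
  rw [bsX_eq] at hzX
  have huX : ∀ i, Dq.lump (uX a.1 j i) ∧ 0 ≤ (uX a.1 j i).z ∧
      (uX a.1 j i).z ≤ B₂ * Real.log X ∧ (nm (uX a.1 j i).d : ℝ) ≤ X ^ B₂ ∧
      1 + |(uX a.1 j i).t| ≤ X ^ δ' := by
    intro i
    obtain ⟨i', e3, e4, e5, e6⟩ := uX_sp a.1 j i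
    refine ⟨?_, uX_z0 ha j i, hzB (hzX _ ?_), ?_, ?_⟩
    · have h1 := (ha.base.1 i').1
      rw [Dq_lump] at h1 ⊢
      rw [e3, e4]
      exact h1
    · fin_cases i
      · exact List.mem_cons_self
      · exact List.mem_cons_of_mem _ List.mem_cons_self
    · rw [e5]; exact hs2 i'
    · rw [e6]; exact hs1 i'
  have main := V X hXX₂ P (isChar_chK hPok) hPok (uX a.1 j 0) (uX a.1 j 1) (amL ps) (moL ps)
    (huX 0).1 (huX 1).1 hlen1 hlen2 (fun p hp => (mem_amL.1 hp).2)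
    (fun p hp => (mem_moL.1 hp).2)
    (by
      intro p hp
      obtain ⟨g1, g2⟩ := mem_amL.1 hp
      rcases hF.lum p g1 with g3 | g3
      · rw [((Dq_lump _).1 g3).1] at g2
        exact absurd g2 (by decide)
      · exact g3.trans hδ)
    (by
      intro p hp
      rcases hF.lum p (mem_moL.1 hp).1 with g3 | g3
      · exact Or.inl g3
      · exact Or.inr (g3.trans (by linarith)))
    hLs (X ^ δ')
    (by
      intro p hp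
      rcases List.mem_cons.1 hp with rfl | hp
      · exact (huX 0).2
      rcases List.mem_cons.1 hp with rfl | hp
      · exact (huX 1).2
      rcases List.mem_append.1 hp with hp | hp
      · exact hps p (mem_amL.1 hp).1
      · exact hps p (mem_moL.1 hp).1)
    (π lam.1).n₃ M' Pp.B (bkP Pp) (cP Pp) b0 x.z (fN (π lam.1).n₃ (x.E a.1.toBd)) tt.1 tt.2 ξ hMB hmod
    (prim_bkP Pp) (prim_cP Pp) hSb0 he₀ hx.z hη hrad
    (by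
      intro b hb
      rw [hl']
      exact chK_tw_am P M' tt.1 tt.2 hb)
    (by
      intro b hb
      rw [hl']
      exact chK_tw_mo P M' tt.1 tt.2 hb)
    h₁' h₂' (x.O π lam Jf (bl a)) hOO lD (vE π h lam Jf a x) (wE π h lam Jf a ps x j h₁ h₂)
    (dat4_mono hDat (hmono _ (by rw [hB₂]; linarith)))
    (by
      intro o
      unfold wE wX wI
      rw [ww_congr e1 e2 h₁ h₁' h₂ h₂']
      rfl)
    G hG E4RH858.b1 kn 𝒥
    (by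
      intro t ht
      obtain ⟨g1, g2, g3, g4, g5, g6⟩ := hJ t ht
      have hf := hfac t ht
      refine ⟨g1, g2, ⟨?_, E4RH858.prim_b1 t, ?_⟩, g4, g5, g6.trans (hmono _ (by
        rw [hB₂]; linarith))⟩
      · rw [← g3]
        rfl
      · rw [← g3]
        exact E4Dic352.b_eq' hf)
    l hl0 (hlX.trans (hmono _ (by rw [hB₂]; linarith))) hKle hNP Wx hWx S₀ hS₀
    (by
      intro t ht f1 f2 f3 D1' Z'' g1 g2 g3 g4 g5 g6 g7 g8 g9 g10 m₁ m₂ hm₁ hm₂ hm hfe₁ hfe₂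
      rw [uX_z ha j] at hfe₂ ⊢
      exact hyp t ht f1 f2 f3 D1' Z'' m₁ m₂ ⟨g1, g2, g3, g4, g5, g6, g7, g8, g9, hm₁, hm₂, hm,
        hx.z⟩ g10 hfe₁ hfe₂)
  refine main.trans ?_
  have hXδ : (X ^ δ') ^ M₀ ≤ X ^ (ε / 2) := by
    have e3 : (X ^ δ') ^ M₀ = X ^ (δ' * M₀) := by
      rw [Real.rpow_mul hX0.le, Real.rpow_natCast]
    rw [e3]
    refine Real.rpow_le_rpow_of_exponent_le hX1.le ?_
    calc δ' * M₀ ≤ ε / (2 * (M₀ + 1)) * M₀ := mul_le_mul_of_nonneg_right hδ' hM₀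
      _ = ε / 2 * (M₀ / (M₀ + 1)) := by field_simp
      _ ≤ ε / 2 * 1 := by
          refine mul_le_mul_of_nonneg_left ?_ (by positivity)
          rw [div_le_one (by positivity)]
          linarith
      _ = ε / 2 := mul_one _
  have hξ : 0 ≤ (1 + |ξ|) ^ M₀ := by
    have := abs_nonneg ξ
    positivity
  calc (X ^ δ' * (1 + |ξ|)) ^ M₀ * X ^ (ε / 2) * S₀
      = (1 + |ξ|) ^ M₀ * ((X ^ δ') ^ M₀ * X ^ (ε / 2)) * S₀ := by rw [mul_pow]; ring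
    _ ≤ (1 + |ξ|) ^ M₀ * (X ^ (ε / 2) * X ^ (ε / 2)) * S₀ := by gcongr
    _ = (1 + |ξ|) ^ M₀ * X ^ ε * S₀ := by
        rw [← Real.rpow_add hX0]
        congr 3
        ring

omit hpu hP hE h3 hP' hcov R C in
lemma YsCE.mono {β e0 r0 : ℝ} {Bf : ℕ → ℝ → ℝ → ℝ → ℝ} {Jf : ℝ → ℝ → ℝ → Finset (Eis × Eis)}
    {K R₁ ε σ ρ : ℝ} {lam : Λ × Eis} {N : ℕ} {B E B₁ : ℝ} {tt : (Eis → ℂ) × ℤ} {M₀ M₁ : ℕ}
    {δ₁ δ₂ X₀ X₁ : ℝ} (H : YsCE π h A d β e0 r0 Bf Jf K R₁ ε σ ρ lam N B E B₁ tt M₀ δ₁ X₀)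
    (hM : M₀ ≤ M₁) (hδ : δ₂ ≤ δ₁) (hX : X₀ ≤ X₁) (h0 : 0 ≤ X₀) :
    YsCE π h A d β e0 r0 Bf Jf K R₁ ε σ ρ lam N B E B₁ tt M₁ δ₂ X₁ := by
  intro X hXX δ δ' ε' g1 g2 g3 a ps q hF ha hs haP x hx j h₁ h₂ ξ G hG Pp b0 kn 𝒥 hb0 hJ l hl0 hlX
    hKle hPr Wx hWx S₀ hS₀ hyp
  refine (H X (hX.trans hXX) δ δ' ε' g1 (g2.trans hδ) g3 a ps q hF ha hs haP x hx j h₁ h₂ ξ G hG
    Pp b0 kn 𝒥 hb0 hJ l hl0 hlX hKle hPr Wx hWx S₀ hS₀ hyp).trans ?_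
  have hX0 : 0 ≤ X := h0.trans (hX.trans hXX)
  have h1 : (1 + |ξ|) ^ M₀ ≤ (1 + |ξ|) ^ M₁ :=
    pow_le_pow_right₀ (by linarith [abs_nonneg ξ]) hM
  have h2 : 0 ≤ X ^ ε := Real.rpow_nonneg hX0 _
  gcongr

/-- **the `y`-side at the data of `JBU`**, finitely many twists -/
theorem ysUE (β : ℝ) (hd : 0 ≤ d) (hd8 : d ≤ 1 / 8) (hA : 2 / 3 ≤ A) {K : ℝ} (hK : 1 ≤ K) (e0 r0 : ℝ)
    (Bf : ℕ → ℝ → ℝ → ℝ → ℝ) {Jf : ℝ → ℝ → ℝ → Finset (Eis × Eis)}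
    (hJf : ∀ l N z, OKJ (Jf l N z)) {ε : ℝ} (hε : 0 < ε) :
    ∃ σ₀ R₁ : ℝ, 0 < σ₀ ∧ 0 ≤ R₁ ∧ ∀ σ : ℝ, 0 < σ → σ ≤ σ₀ → ∀ ρ : ℝ, 0 < ρ →
    ∀ (lam : Λ × Eis) (N : ℕ) (B E B₁ : ℝ), 0 ≤ B₁ → ∀ T : Finset ((Eis → ℂ) × ℤ),
      ¬ (π lam.1).CaseD → (∀ tt ∈ T, TwOK (π lam.1) tt) →
    ∃ (M₀ : ℕ) (δ₁ X₀ : ℝ), 0 < δ₁ ∧ 3 ≤ X₀ ∧ ∀ tt ∈ T,
      YsCE π h A d β e0 r0 Bf Jf K R₁ ε σ ρ lam N B E B₁ tt M₀ δ₁ X₀ := by
  classical
  obtain ⟨σ₀, R₁, hσ₀, hR₁, V⟩ := ysUE1 hpu hP hE h3 hP' hcov R C β hd hd8 hA hK e0 r0 Bf hJf hε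
  refine ⟨σ₀, R₁, hσ₀, hR₁, ?_⟩
  intro σ hσ hσσ ρ hρ lam N B E B₁ hB₁ T hD
  induction T using Finset.induction_on with
  | empty => exact fun _ => ⟨0, 1, 3, one_pos, le_rfl, fun tt htt => absurd htt (by simp)⟩
  | insert t T _ ih =>
    intro hT
    obtain ⟨M₁, δ₁, X₁, hδ₁, hX₁, H₁⟩ := V σ hσ hσσ ρ hρ lam N B E B₁ hB₁ t hD
      (hT t (Finset.mem_insert_self _ _))
    obtain ⟨M₂, δ₂, X₂, hδ₂, hX₂, H₂⟩ := ih fun tt htt => hT tt (Finset.mem_insert_of_mem htt)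
    refine ⟨max M₁ M₂, min δ₁ δ₂, max X₁ X₂, lt_min hδ₁ hδ₂, hX₁.trans (le_max_left _ _), ?_⟩
    intro tt htt
    rcases Finset.mem_insert.1 htt with rfl | htt
    · exact H₁.mono (le_max_left _ _) (min_le_left _ _) (le_max_left _ _) (by linarith)
    · exact (H₂ tt htt).mono (le_max_right _ _) (min_le_right _ _) (le_max_right _ _)
        (by linarith)

end

end Crest.Agent.R017.E4Df372
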