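import Crest.Agent.R017.Z1F_579
import Crest.Agent.R017.E3Hi_290

/-!
# Row 17, R8 (E3) (helper579): the full Gram sum, second form, in classes

* `Z1Fx` : the Gram sum with the main term; the error in the numbers of one level
-/

set_option autoImplicit false
set_option linter.unusedVariables false

noncomputable section

open Finset
open scoped Classical ComplexConjugate ContDiff

namespace Crest.Agent.R017.Z1F579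

open Crest.Agent.R012 Crest.Agent.R012.Eis
open Crest.Agent.R012.Mob705 (pb mem_pb pdiv mem_pdiv)
open Crest.Agent.R012.MC (Wgt)
open Crest.Agent.R012.LS2 (S mem_S)
open Crest.Agent.R012.Weight600 (pw)
open Crest.Agent.R017.C70 (JC OKJ JW okJ_JW)
open Crest.Agent.R017.CM106 (CS FS)
open Crest.Agent.R017.HB645 (hh hh_nonneg hh_le_one abs_lt_of_hh contDiff_hh sum_hh_eq_one)
open Crest.Agent.R017.E3D579 (TE0)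
open Crest.Agent.R017.E1551 (nmpos)
open Crest.Agent.R017.GrB829 (IsC)
open Crest.Agent.R012.Mob705 (kap0)
open Crest.Agent.R017.E3A164 (Yp Ys SteT)
open Crest.Agent.R017.E3M829 (TC TF Cut Iw XT Tal BT)
open Crest.Agent.R017.E3F548
open Crest.Agent.R017.E3B271
open Crest.Agent.R017.E3T1579 (T3 WQ)
open Crest.Agent.R017.E3T2579 (wL)
open Crest.Agent.R017.E3T829 (hE hE_nonneg RR)
open Crest.Agent.R017.E3Z548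
open Crest.Agent.R017.E3Kc548 Crest.Agent.R017.E3Ke548
open Crest.Agent.R017.Mode405 (Slp)
open Crest.Agent.R017.E3Sz579 (Ld Md Ld_nonneg Md_nonneg)
open Crest.Agent.R017.E3Hb290 (LVH)
open Crest.Agent.R017.E3Sx744 (Mxd Mxd_nonneg)
open Crest.Agent.R017.E3Xa72 (RHRx)
open Crest.Agent.R017.E3Hi290 (RN2XF RN2XF_nonneg PAIR_RHF2x' S12xAll)

set_option maxHeartbeats 1000000 in
/-- **the Gram sum with its main term, second form, in classes** -/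
theorem Z1Fx (hAll : S12xAll) {w : ℝ → ℝ} (hw : Wgt w) (hw0 : ∀ x, 0 ≤ w x) {R0 : ℝ} (hR0 : 0 ≤ R0) (a A₁ : ℕ)
    (hA₁ : 1 < A₁) {ε : ℝ} (hε : 0 < ε) (hε1 : ε ≤ 1) :
    ∃ (A : ℕ) (c C : ℝ), 1 ≤ c ∧ 1 ≤ C ∧
    ∀ (Om : ℝ → ℂ) (Mb : ℝ), 0 ≤ Mb → ContDiff ℝ ∞ Om →
      (∀ n ≤ A + 2, ∀ x, ‖iteratedDeriv n Om x‖ ≤ Mb) →
    ∀ (τ : ℝ) (κ : ℂ), ‖κ‖ ≤ 1 → ∀ (Z : ℝ), 1 ≤ Z → ∀ (D Y₀ Y₁ : ℝ)
      (om : Eis × Eis → ℂ) (T : Eis → Eis → Eis → ℂ) (af : Eis → Eis → Eis → ℂ)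
      (E0 E1 R K X : ℝ) (H : ℕ → Eis → Eis → ℝ) (u : Eis)
      (W0 : ℕ → Bool → Eis → Eis → ℝ → ℝ), u ≠ 0 → (∀ p, IsPrim p → IsCoprime u p) →
      TC (T3 af) → (∀ d e, FS (af d e)) → (∀ d e, e ∉ S E0 → ∀ j, T3 af d e j = 0) →
      (∀ x ∈ JW D Y₀ Y₁, ∀ e ∈ S E0, T x.1 e x.2 = T3 af x.1 e x.2) → 0 ≤ D → 0 < Y₁ →
      (∀ x ∈ JW D Y₀ Y₁, om x = κ * (Om (Real.log (nm (x.2 * x.1 ^ 2))) * pw τ (nm x.2))) →
      (∀ i ∈ LI Y₀ Y₁, ∀ n : ℕ, 0 < n → hh (Real.log n - i) ≠ 0 → Om (Real.log n) ≠ 0 →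
        Y₀ < n ∧ (n : ℝ) ≤ Y₁) →
      0 < K → K ≤ Z → 0 ≤ R → R ≤ Z → 0 ≤ E0 → E0 ≤ Z → 1 ≤ E1 → 2 * E1 ≤ Z → Y₁ ≤ Z →
      (∀ x ∈ JW D Y₀ Y₁, (nm x.1 : ℝ) ≤ Z) → (∀ x ∈ JW D Y₀ Y₁, (nm x.2 : ℝ) ≤ R) →
      0 < X → X ≤ Z ^ 5 → (∀ i d e, 0 < H i d e) → (∀ i ∈ LI Y₀ Y₁, c * Real.exp i ≤ Z ^ 5) →
      (∀ i ∈ LI Y₀ Y₁, ∀ d ∈ S (Z ^ 5), ∀ e ∈ S E0, c * (H i d e * Real.exp i ^ 2) ≤ K * X) →
      (∀ d ∈ (JW D Y₀ Y₁).image Prod.fst, ∀ e ∈ S E0, ∀ n, af d e n ≠ 0 → Squarefree n) →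
      (∀ d ∈ (JW D Y₀ Y₁).image Prod.fst, ∀ e ∈ S E0, ∀ n, af d e n ≠ 0 →
        |Real.log (nm d * nm n) - Real.log X| ≤ R0) →
      (∀ i jj d e, Slp a (W0 i jj d e)) →
      (∀ i ∈ LI Y₀ Y₁, RHRx (c * Z ^ 300) A₁ (RR (JW D Y₀ Y₁) (S E0)) af u (W0 i)) →
      (∑' k : Eis, if IsPrim k ∧ Cut E1 k then
        w ((nm k : ℝ) / K) * ‖SteT (JW D Y₀ Y₁) om E0 T k‖ ^ 2 else 0) ≤
      kap0 * K ^ (2 / 3 : ℝ) * Iw w * XT (JW D Y₀ Y₁) om E0 T +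
      C * Z ^ ε * (K ^ (2 / 3 : ℝ) *
        ((R / K ^ 2) ^ (1 / 6 : ℝ) * TF (1 / 2) (JW D Y₀ Y₁) om E0 T +
          E1⁻¹ * TF (-1) (JW D Y₀ Y₁) om E0 T) +
        (K ^ (-(1 : ℝ) / 3) * E1 ^ 2 * R) * ∑ x ∈ JW D Y₀ Y₁, EF om T E0 x +
        Mb ^ 2 * (1 + |τ|) ^ A * (hE (S E0) * ∑ i ∈ LI Y₀ Y₁,
          ∑ d ∈ (JW D Y₀ Y₁).image Prod.fst, ∑ e ∈ S E0,
            LVn af {d} {e} c (Z ^ 5) K (H i d e) (Real.exp i) (Real.exp 1 * Y₁) E1 2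
              (Real.sqrt (c * Real.exp i)) (RN2XF c K (Real.exp i) X (H i) (W0 i) d e))) := by
  have hε3 : 0 < ε / 3 := by positivity
  obtain ⟨b₀, hb₀, h0⟩ := gram_MPTb hw hw0 hε3
  obtain ⟨w1, hW1, hw1a, hw1b⟩ := exists_w1
  obtain ⟨A₀, c, hc, h2⟩ := PAIR_RHF2x' hAll (by norm_num : (0 : ℝ) ≤ 3) contDiff_hh hhc hW1 hw1a hw1b
    hR0 a A₁ hA₁ hb₀ hε3 (by linarith)
  obtain ⟨C2, hC2, h2⟩ := h2 (A₀ + 2) (by omega) 4 (by norm_num)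
  obtain ⟨C1, hC1, h1⟩ := h0 3 (A₀ + 2) 4 (by norm_num) (by omega) (by norm_num)
  obtain ⟨A, hAd⟩ : ∃ A, A = A₀ + 2 := ⟨_, rfl⟩
  rw [← hAd] at h1 h2
  obtain ⟨ν, hν⟩ : ∃ ν : ℝ, ν = ε / 6 := ⟨_, rfl⟩
  have hν0 : 0 < ν := by rw [hν]; positivity
  obtain ⟨L, hL⟩ : ∃ L : ℝ, L = (2 + 2 / ν) * (2 + 1 / ν) := ⟨_, rfl⟩
  have hL0 : 0 ≤ L := by rw [hL]; positivity
  refine ⟨A, c, C1 + 2 * C1 * C2 * L, hc, ?_, ?_⟩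
  · have : 0 ≤ 2 * C1 * C2 * L := by positivity
    linarith
  intro Om Mb hMb hOm hOb τ κ hκ Z hZ D Y₀ Y₁ om T af E0 E1 R K X H u W0 hu0 hup hT haf hEE hTT hD hY1 hom
    hwn hK hKZ hR0' hRZ hE0 hE0Z hE1 hE1Z hYZ hJ1 hJ2 hX hXZ hH hcV hKX hsf hwin hS hRH
  have hZ0 : 0 < Z := by linarith
  have hJ := okJ_JW D Y₀ Y₁
  have hE10 : 0 < E1 := by linarith
  have hc0 : 0 < c := by linarith
  obtain ⟨Vt, hVt⟩ : ∃ Vt : ℝ, Vt = Real.exp 1 * Y₁ := ⟨_, rfl⟩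
  have hVt0 : 0 < Vt := by rw [hVt]; positivity
  obtain ⟨P, hP⟩ : ∃ P : ℕ → ℝ, P = fun i => ∑ d ∈ (JW D Y₀ Y₁).image Prod.fst, ∑ e ∈ S E0,
            LVn af {d} {e} c (Z ^ 5) K (H i d e) (Real.exp i) (Real.exp 1 * Y₁) E1 2
              (Real.sqrt (c * Real.exp i)) (RN2XF c K (Real.exp i) X (H i) (W0 i) d e) := ⟨_, rfl⟩
  have hP0 : ∀ i, 0 ≤ P i := fun i => by
    rw [hP]
    refine sum_nonneg fun d _ => sum_nonneg fun e _ => ?_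
    have hh := hH i d e
    have he3 := Real.exp_pos (i : ℝ)
    have hI : 0 < c * (X * Real.exp i * H i d e / K) := by positivity
    exact LVn_nonneg hK.le hh.le he3.le (by positivity) hE10.le (Real.sqrt_nonneg _)
      (RN2XF_nonneg (Ld_nonneg hK hh d) (Md_nonneg hc0.le hK he3 hh hX d)
        (Mxd_nonneg hc0.le hK he3 hh hX d) (by positivity) (fun jj => (hS i jj d e).nonneg _ hI))
  have hM : 0 ≤ Mb ^ 2 * (1 + |τ|) ^ A := by positivity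
  have key := h1 ℕ (LI Y₀ Y₁) (JW D Y₀ Y₁) om (omk om) (T3 af) hT hJ
    (fun x hx => om_sum hx) (fun i => Real.exp i) (fun i _ => Real.exp_pos _)
    (fun i _ x _ h => omk_win (by norm_num) h) K R Z E0 E1 hK hZ hKZ hR0' hRZ hE0 hE0Z hE1
    (by linarith) hJ1 hJ2
  have hpair : ∀ k ∈ range (Nat.log 2 ⌊E1⌋₊ + 1), ∀ i ∈ LI Y₀ Y₁, ∀ j ∈ LI Y₀ Y₁,
      ∑ q ∈ S R, ∑ t ∈ pb (E1 / 2 ^ k),
        MPT A 4 K (2 ^ (k + 1)) (Real.exp i) (Real.exp j) (Z ^ 5) (JW D Y₀ Y₁) (omk om i)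
          (omk om j) (T3 af) E0 R b₀ q t ≤
      C2 * (Mb ^ 2 * (1 + |τ|) ^ A) * Z ^ (ε / 3) * (hE (S E0) * (P i + P j)) := by
    intro k hk i hi j hj
    have hk2 : (2 : ℝ) ^ k ≤ E1 := by
      have b1 : k ≤ Nat.log 2 ⌊E1⌋₊ := by rw [mem_range] at hk; omega
      have hf0 : ⌊E1⌋₊ ≠ 0 := by
        have : 1 ≤ ⌊E1⌋₊ := (Nat.one_le_floor_iff _).mpr hE1
        omega
      have b2 : 2 ^ k ≤ ⌊E1⌋₊ :=
        (Nat.pow_le_pow_right (by norm_num) b1).trans (Nat.pow_log_le_self 2 hf0)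
      have b3 : ((2 ^ k : ℕ) : ℝ) ≤ ⌊E1⌋₊ := by exact_mod_cast b2
      push_cast at b3
      exact b3.trans (Nat.floor_le hE10.le)
    have hk1 : (1 : ℝ) ≤ 2 ^ k := one_le_pow₀ (by norm_num)
    have hEk : E1 / 2 ^ k ≤ E1 := div_le_self hE10.le hk1
    have hEk0 : 0 ≤ E1 / 2 ^ k := by positivity
    have p := h2 Om Om Mb hMb hOm hOm hOb hOb (Real.exp i) (Real.exp j) τ κ κ (Real.exp_pos _)
      (Real.exp_pos _) hκ hκ Z hZ (fun _ _ => True) (JW D Y₀ Y₁) (omk om i) (omk om j) af (S E0)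
      E0 (E1 / 2 ^ k) R (2 ^ (k + 1)) K X (Real.sqrt (c * Real.exp i))
      (Real.sqrt (c * Real.exp j)) (H i) (H j) u (W0 i) (W0 j) hu0 hup hT haf hJ hEE hK hR0' hRZ
      (by positivity) (by rw [pow_succ]; linarith) hEk0 (by linarith) hJ1 hJ2
      (omk_WQ hD hY1.le hom i (hwn i hi)) (omk_WQ hD hY1.le hom j (hwn j hj)) hX (hH i) (hH j)
      (Real.sqrt_nonneg _) (Real.sqrt_nonneg _) (hKZ.trans (le_self_pow₀ hZ (by norm_num))) hXZ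
      (hcV i hi) (hcV j hj) (hKX i hi) (hKX j hj) (Or.inl le_rfl) (Or.inl le_rfl) hsf hwin
      (hS i) (hS j) (hRH i hi) (hRH j hj)
    have e2 : (E1 / 2 ^ k) ^ 2 * (2 ^ (k + 1)) ^ 2 = E1 ^ 2 * 2 ^ 2 := by
      rw [← mul_pow, ← mul_pow, show E1 / 2 ^ k * 2 ^ (k + 1) = E1 * 2 by
        rw [pow_succ]; field_simp]
    have e3 : (E1 / 2 ^ k) ^ 3 * (2 ^ (k + 1)) ^ 2 ≤ E1 ^ 3 * 2 ^ 2 := by
      calc (E1 / 2 ^ k) ^ 3 * (2 ^ (k + 1)) ^ 2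
          = (E1 / 2 ^ k) * ((E1 / 2 ^ k) ^ 2 * (2 ^ (k + 1)) ^ 2) := by ring
        _ = (E1 / 2 ^ k) * (E1 ^ 2 * 2 ^ 2) := by rw [e2]
        _ ≤ E1 * (E1 ^ 2 * 2 ^ 2) := mul_le_mul_of_nonneg_right hEk (by positivity)
        _ = _ := by ring
    have m : ∀ i ∈ LI Y₀ Y₁, ∀ j ∈ LI Y₀ Y₁,
        LVH af ((JW D Y₀ Y₁).image Prod.fst) (S E0) c (Z ^ 5) K (H i) (Real.exp i) (Real.exp j)
          (E1 / 2 ^ k) (2 ^ (k + 1)) (Real.sqrt (c * Real.exp i))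
          (RN2XF c K (Real.exp i) X (H i) (W0 i)) ≤ P i := by
      intro i hi j hj
      rw [hP]
      exact LVH_mono hK (hH i) (Real.exp_pos _) (Real.exp_pos _) (mem_LI hj).2.2 hEk0 hE10.le
        (Real.sqrt_nonneg _) e2.le e3
    have hsum : ∑ q ∈ S R, ∑ t ∈ pb (E1 / 2 ^ k),
        MPT A 4 K (2 ^ (k + 1)) (Real.exp i) (Real.exp j) (Z ^ 5) (JW D Y₀ Y₁) (omk om i)
          (omk om j) (T3 af) E0 R b₀ q t = ∑ q ∈ S R, ∑ t ∈ pb (E1 / 2 ^ k),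
        MPTr (fun _ _ => True) A 4 K (2 ^ (k + 1)) (Real.exp i) (Real.exp j) (Z ^ 5)
          (JW D Y₀ Y₁) (omk om i) (omk om j) (T3 af) E0 R b₀ q t :=
      sum_congr rfl fun q _ => sum_congr rfl fun t _ => MPT_eq _ _ _ _ _ _ _ _ _ _ _ _ _ _ _ _
    rw [hsum]
    refine p.trans ?_
    rw [show C2 * Mb ^ 2 * (1 + |τ|) ^ A * Z ^ (ε / 3) =
      C2 * (Mb ^ 2 * (1 + |τ|) ^ A) * Z ^ (ε / 3) by ring]
    refine mul_le_mul_of_nonneg_left ?_ (by positivity)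
    exact mul_le_mul_of_nonneg_left (add_le_add (m i hi j hj) (m j hj i hi)) (hE_nonneg _)
  -- the sums
  obtain ⟨Q, hQ⟩ : ∃ Q, Q = C2 * (Mb ^ 2 * (1 + |τ|) ^ A) * Z ^ (ε / 3) * hE (S E0) := ⟨_, rfl⟩
  have hhE := hE_nonneg (S E0)
  have hQ0 : 0 ≤ Q := by rw [hQ]; positivity
  have hSP : 0 ≤ ∑ i ∈ LI Y₀ Y₁, P i := sum_nonneg fun i _ => hP0 i
  have hcard := card_LI Y₀ hZ hY1.le hYZ hν0
  have hlog := log_two_le hν0 hE1 (by linarith : E1 ≤ Z)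
  have hsums : ∑ k ∈ range (Nat.log 2 ⌊E1⌋₊ + 1), ∑ i ∈ LI Y₀ Y₁, ∑ j ∈ LI Y₀ Y₁, ∑ q ∈ S R,
      ∑ t ∈ pb (E1 / 2 ^ k), MPT A 4 K (2 ^ (k + 1)) (Real.exp i) (Real.exp j) (Z ^ 5)
        (JW D Y₀ Y₁) (omk om i) (omk om j) (T3 af) E0 R b₀ q t ≤
      (L * Z ^ (ε / 3)) * (Q * (2 * ∑ i ∈ LI Y₀ Y₁, P i)) := by
    have s1 : ∀ k ∈ range (Nat.log 2 ⌊E1⌋₊ + 1), ∑ i ∈ LI Y₀ Y₁, ∑ j ∈ LI Y₀ Y₁, ∑ q ∈ S R,
      ∑ t ∈ pb (E1 / 2 ^ k), MPT A 4 K (2 ^ (k + 1)) (Real.exp i) (Real.exp j) (Z ^ 5)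
        (JW D Y₀ Y₁) (omk om i) (omk om j) (T3 af) E0 R b₀ q t ≤
        Q * (2 * (((LI Y₀ Y₁).card : ℝ) * ∑ i ∈ LI Y₀ Y₁, P i)) := by
      intro k hk
      have s2 : ∑ i ∈ LI Y₀ Y₁, ∑ j ∈ LI Y₀ Y₁, Q * (P i + P j) =
          Q * (2 * (((LI Y₀ Y₁).card : ℝ) * ∑ i ∈ LI Y₀ Y₁, P i)) := by
        simp only [← mul_sum, sum_add_distrib, sum_const, nsmul_eq_mul]
        ring
      rw [← s2]
      refine sum_le_sum fun i hi => sum_le_sum fun j hj => (hpair k hk i hi j hj).trans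
        (le_of_eq ?_)
      rw [hQ]; ring
    refine (sum_le_sum s1).trans ?_
    rw [sum_const, card_range, nsmul_eq_mul]
    have e1 : Z ^ (ε / 3) = Z ^ ν * Z ^ ν := by
      rw [← Real.rpow_add hZ0, hν]; congr 1; ring
    have hz : 0 ≤ Z ^ ν := by positivity
    have hcard0 : (0 : ℝ) ≤ (LI Y₀ Y₁).card := Nat.cast_nonneg _
    have hprod : ((Nat.log 2 ⌊E1⌋₊ + 1 : ℕ) : ℝ) * ((LI Y₀ Y₁).card : ℝ) ≤ L * Z ^ (ε / 3) := by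
      refine (mul_le_mul hlog hcard hcard0 (by positivity)).trans (le_of_eq ?_)
      rw [e1, hL]; ring
    calc ((Nat.log 2 ⌊E1⌋₊ + 1 : ℕ) : ℝ) *
          (Q * (2 * (((LI Y₀ Y₁).card : ℝ) * ∑ i ∈ LI Y₀ Y₁, P i)))
        = (((Nat.log 2 ⌊E1⌋₊ + 1 : ℕ) : ℝ) * ((LI Y₀ Y₁).card : ℝ)) *
          (Q * (2 * ∑ i ∈ LI Y₀ Y₁, P i)) := by ring
      _ ≤ _ := mul_le_mul_of_nonneg_right hprod (by positivity)
  -- back to `T`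
  have hL2 : (∑' k : Eis, if IsPrim k ∧ Cut E1 k then
        w ((nm k : ℝ) / K) * ‖SteT (JW D Y₀ Y₁) om E0 T k‖ ^ 2 else 0) =
      ∑' k : Eis, if IsPrim k ∧ Cut E1 k then
        w ((nm k : ℝ) / K) * ‖SteT (JW D Y₀ Y₁) om E0 (T3 af) k‖ ^ 2 else 0 := by
    refine tsum_congr fun k => ?_
    rw [E3Ke548.SteT_congr hTT k]
  rw [hL2, XT_congr hTT, TF_congr hTT, TF_congr hTT,
    sum_congr rfl fun x hx => EF_congr (om := om) hTT hx]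
  refine key.trans ?_
  have hzz : Z ^ ε = Z ^ (ε / 3) * Z ^ (ε / 3) * Z ^ (ε / 3) := by
    rw [← Real.rpow_add hZ0, ← Real.rpow_add hZ0]; congr 1; ring
  have hz1 : 1 ≤ Z ^ (ε / 3) := Real.one_le_rpow hZ hε3.le
  obtain ⟨z, hz⟩ : ∃ z, z = Z ^ (ε / 3) := ⟨_, rfl⟩
  obtain ⟨Er, hEr⟩ : ∃ Er, Er = K ^ (2 / 3 : ℝ) *
        ((R / K ^ 2) ^ (1 / 6 : ℝ) * TF (1 / 2) (JW D Y₀ Y₁) om E0 (T3 af) +
          E1⁻¹ * TF (-1) (JW D Y₀ Y₁) om E0 (T3 af)) +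
        (K ^ (-(1 : ℝ) / 3) * E1 ^ 2 * R) * ∑ x ∈ JW D Y₀ Y₁, EF om (T3 af) E0 x := ⟨_, rfl⟩
  have hEr0 : 0 ≤ Er := by
    have t1 := E3M829.TF_nonneg (1 / 2) (JW D Y₀ Y₁) om E0 (T3 af)
    have t2 := E3M829.TF_nonneg (-1) (JW D Y₀ Y₁) om E0 (T3 af)
    have t3 : 0 ≤ ∑ x ∈ JW D Y₀ Y₁, EF om (T3 af) E0 x := sum_nonneg fun x _ => EF_nonneg _ _ _ x
    rw [hEr]
    positivity
  have hPs : ∑ i ∈ LI Y₀ Y₁, ∑ d ∈ (JW D Y₀ Y₁).image Prod.fst, ∑ e ∈ S E0,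
            LVn af {d} {e} c (Z ^ 5) K (H i d e) (Real.exp i) (Real.exp 1 * Y₁) E1 2
              (Real.sqrt (c * Real.exp i)) (RN2XF c K (Real.exp i) X (H i) (W0 i) d e) =
      ∑ i ∈ LI Y₀ Y₁, P i := by rw [hP]
  rw [hPs, ← hEr, add_assoc]
  refine add_le_add le_rfl ?_
  obtain ⟨SP, hSPd⟩ : ∃ SP, SP = ∑ i ∈ LI Y₀ Y₁, P i := ⟨_, rfl⟩
  rw [← hSPd] at hsums hSP ⊢
  obtain ⟨M, hMd⟩ : ∃ M, M = Mb ^ 2 * (1 + |τ|) ^ A := ⟨_, rfl⟩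
  rw [← hMd] at hM hQ ⊢
  rw [← hz] at hsums hzz hz1 hQ ⊢
  rw [hzz]
  have hz0 : 0 ≤ z := by linarith
  have hMS : 0 ≤ M * (hE (S E0) * SP) := by positivity
  have a1 : C1 * z * Er ≤ (C1 + 2 * C1 * C2 * L) * (z * z * z) * Er := by
    have b1 : C1 ≤ C1 + 2 * C1 * C2 * L := by
      have : 0 ≤ 2 * C1 * C2 * L := by positivity
      linarith
    have b2 : z ≤ z * z * z := by nlinarith
    have : C1 * z ≤ (C1 + 2 * C1 * C2 * L) * (z * z * z) := by gcongr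
    exact mul_le_mul_of_nonneg_right this hEr0
  have a2 : C1 * ((L * z) * (Q * (2 * SP))) ≤
      (C1 + 2 * C1 * C2 * L) * (z * z * z) * (M * (hE (S E0) * SP)) := by
    have b1 : C1 * ((L * z) * (Q * (2 * SP))) =
        (2 * C1 * C2 * L) * (z * z) * (M * (hE (S E0) * SP)) := by rw [hQ]; ring
    rw [b1]
    have b2 : z * z ≤ z * z * z := by nlinarith [mul_nonneg hz0 hz0]
    have b3 : 2 * C1 * C2 * L ≤ C1 + 2 * C1 * C2 * L := by linarith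
    gcongr
  have hC10 : 0 ≤ C1 := by linarith
  calc C1 * z * Er + C1 * _ ≤ (C1 + 2 * C1 * C2 * L) * (z * z * z) * Er +
        (C1 + 2 * C1 * C2 * L) * (z * z * z) * (M * (hE (S E0) * SP)) :=
        add_le_add a1 ((mul_le_mul_of_nonneg_left hsums hC10).trans a2)
    _ = _ := by ring

end Crest.Agent.R017.Z1F579
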